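import Vale.Agent.Lib.P154.PChain.BR.R4_0

set_option linter.all false

namespace Vale.Agent.Lib.P154.PChain.BR.S5

open Vale.Agent.Lib.P154.Chain

noncomputable def pc0 : PT := (PT.nd (nat_lit 3424590) (PT.nd (nat_lit 3274674) (PT.nd (nat_lit 3199716) (PT.nd (nat_lit 3162198) (PT.nd (nat_lit 3124836) (PT.nd (nat_lit 3124758) PT.nil (PT.lf (nat_lit 76) (nat_lit 6) (nat_lit 1) (nat_lit 3) (nat_lit 138) (nat_lit 83) (nat_lit 139))) (PT.lf (nat_lit 76) (nat_lit 6) (nat_lit 1) (nat_lit 1) (nat_lit 139) (nat_lit 83) (nat_lit 138))) (PT.nd (nat_lit 78) (PT.lf (nat_lit 152) (nat_lit 6) (nat_lit 2) (nat_lit 3) (nat_lit 137) (nat_lit 84) (nat_lit 139)) (PT.nd (nat_lit 78) (PT.lf (nat_lit 228) (nat_lit 3) (nat_lit 3) (nat_lit 1) (nat_lit 138) (nat_lit 84) (nat_lit 138)) (PT.lf (nat_lit 152) (nat_lit 6) (nat_lit 2) (nat_lit 1) (nat_lit 139) (nat_lit 84) (nat_lit 137))))) (PT.nd (nat_lit 37440) (PT.nd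 (nat_lit 78) (PT.lf (nat_lit 304) (nat_lit 6) (nat_lit 4) (nat_lit 3) (nat_lit 137) (nat_lit 85) (nat_lit 138)) (PT.lf (nat_lit 304) (nat_lit 6) (nat_lit 4) (nat_lit 1) (nat_lit 138) (nat_lit 85) (nat_lit 137))) (PT.nd (nat_lit 78) (PT.lf (nat_lit 380) (nat_lit 6) (nat_lit 5) (nat_lit 3) (nat_lit 136) (nat_lit 86) (nat_lit 138)) (PT.nd (nat_lit 78) (PT.lf (nat_lit 456) (nat_lit 3) (nat_lit 6) (nat_lit 1) (nat_lit 137) (nat_lit 86) (nat_lit 137)) (PT.lf (nat_lit 380) (nat_lit 6) (nat_lit 5) (nat_lit 1) (nat_lit 138) (nat_lit 86) (nat_lit 136)))))) (PT.nd (nat_lit 74958) (PT.nd (nat_lit 37440) (PT.nd (nat_lit 78) (PT.lf (nat_lit 532) (nat_lit 6) (nat_lit 7) (nat_lit 3) (nat_lit 136) (nat_lit 87) (nat_lit 137)) (PT.lf (nat_lit 532) (nat_lit 6) (nat_lit 7) (nat_lit 1) (nat_lit 137) (nat_lit 87) (nat_lit 136))) (PT.nd (nat_lit 78) (PT.lf (nat_lit 608) (nat_lit 6) (nat_lit 8) (nat_lit 3) (nat_lit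 135) (nat_lit 88) (nat_lit 137)) (PT.nd (nat_lit 78) (PT.lf (nat_lit 684) (nat_lit 3) (nat_lit 9) (nat_lit 1) (nat_lit 136) (nat_lit 88) (nat_lit 136)) (PT.lf (nat_lit 608) (nat_lit 6) (nat_lit 8) (nat_lit 1) (nat_lit 137) (nat_lit 88) (nat_lit 135))))) (PT.nd (nat_lit 37440) (PT.nd (nat_lit 78) (PT.lf (nat_lit 760) (nat_lit 6) (nat_lit 10) (nat_lit 3) (nat_lit 135) (nat_lit 89) (nat_lit 136)) (PT.lf (nat_lit 760) (nat_lit 6) (nat_lit 10) (nat_lit 1) (nat_lit 136) (nat_lit 89) (nat_lit 135))) (PT.nd (nat_lit 78) (PT.lf (nat_lit 836) (nat_lit 6) (nat_lit 11) (nat_lit 3) (nat_lit 134) (nat_lit 90) (nat_lit 136)) (PT.nd (nat_lit 78) (PT.lf (nat_lit 912) (nat_lit 3) (nat_lit 12) (nat_lit 1) (nat_lit 135) (nat_lit 90) (nat_lit 135)) (PT.lf (nat_lit 836) (nat_lit 6) (nat_lit 11) (nat_lit 1) (nat_lit 136) (nat_lit 90) (nat_lit 134))))))) (PT.nd (nat_lit 112476) (PT.nd (nat_lit 74880) (PT.nd (nat_lit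 37440) (PT.nd (nat_lit 78) (PT.lf (nat_lit 988) (nat_lit 6) (nat_lit 13) (nat_lit 3) (nat_lit 134) (nat_lit 91) (nat_lit 135)) (PT.lf (nat_lit 988) (nat_lit 6) (nat_lit 13) (nat_lit 1) (nat_lit 135) (nat_lit 91) (nat_lit 134))) (PT.nd (nat_lit 78) (PT.lf (nat_lit 1064) (nat_lit 6) (nat_lit 14) (nat_lit 3) (nat_lit 133) (nat_lit 92) (nat_lit 135)) (PT.nd (nat_lit 78) (PT.lf (nat_lit 1140) (nat_lit 3) (nat_lit 15) (nat_lit 1) (nat_lit 134) (nat_lit 92) (nat_lit 134)) (PT.lf (nat_lit 1064) (nat_lit 6) (nat_lit 14) (nat_lit 1) (nat_lit 135) (nat_lit 92) (nat_lit 133))))) (PT.nd (nat_lit 156) (PT.nd (nat_lit 78) (PT.lf (nat_lit 1216) (nat_lit 6) (nat_lit 16) (nat_lit 3) (nat_lit 132) (nat_lit 93) (nat_lit 135)) (PT.lf (nat_lit 1292) (nat_lit 6) (nat_lit 17) (nat_lit 3) (nat_lit 133) (nat_lit 93) (nat_lit 134))) (PT.nd (nat_lit 78) (PT.lf (nat_lit 1292) (nat_lit 6) (nat_lit 17) (nat_lit 1) (nat_lit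 134) (nat_lit 93) (nat_lit 133)) (PT.nd (nat_lit 37284) (PT.lf (nat_lit 1216) (nat_lit 6) (nat_lit 16) (nat_lit 1) (nat_lit 135) (nat_lit 93) (nat_lit 132)) (PT.lf (nat_lit 1368) (nat_lit 6) (nat_lit 18) (nat_lit 3) (nat_lit 132) (nat_lit 94) (nat_lit 134)))))) (PT.nd (nat_lit 37596) (PT.nd (nat_lit 37362) (PT.nd (nat_lit 78) (PT.lf (nat_lit 1444) (nat_lit 3) (nat_lit 19) (nat_lit 1) (nat_lit 133) (nat_lit 94) (nat_lit 133)) (PT.lf (nat_lit 1368) (nat_lit 6) (nat_lit 18) (nat_lit 1) (nat_lit 134) (nat_lit 94) (nat_lit 132))) (PT.nd (nat_lit 78) (PT.lf (nat_lit 1520) (nat_lit 6) (nat_lit 20) (nat_lit 3) (nat_lit 131) (nat_lit 95) (nat_lit 134)) (PT.nd (nat_lit 78) (PT.lf (nat_lit 1596) (nat_lit 6) (nat_lit 21) (nat_lit 3) (nat_lit 132) (nat_lit 95) (nat_lit 133)) (PT.lf (nat_lit 1596) (nat_lit 6) (nat_lit 21) (nat_lit 1) (nat_lit 133) (nat_lit 95) (nat_lit 132))))) (PT.nd (nat_lit 37440) (PT.nd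 (nat_lit 37284) (PT.lf (nat_lit 1520) (nat_lit 6) (nat_lit 20) (nat_lit 1) (nat_lit 134) (nat_lit 95) (nat_lit 131)) (PT.nd (nat_lit 78) (PT.lf (nat_lit 1672) (nat_lit 6) (nat_lit 22) (nat_lit 3) (nat_lit 131) (nat_lit 96) (nat_lit 133)) (PT.lf (nat_lit 1748) (nat_lit 3) (nat_lit 23) (nat_lit 1) (nat_lit 132) (nat_lit 96) (nat_lit 132)))) (PT.nd (nat_lit 37284) (PT.lf (nat_lit 1672) (nat_lit 6) (nat_lit 22) (nat_lit 1) (nat_lit 133) (nat_lit 96) (nat_lit 131)) (PT.nd (nat_lit 78) (PT.lf (nat_lit 1824) (nat_lit 6) (nat_lit 24) (nat_lit 3) (nat_lit 130) (nat_lit 97) (nat_lit 133)) (PT.lf (nat_lit 1900) (nat_lit 6) (nat_lit 25) (nat_lit 3) (nat_lit 131) (nat_lit 97) (nat_lit 132))))))))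
noncomputable def pc1 : PT := (PT.nd (nat_lit 150072) (PT.nd (nat_lit 75036) (PT.nd (nat_lit 37518) (PT.nd (nat_lit 37284) (PT.nd (nat_lit 78) (PT.lf (nat_lit 1900) (nat_lit 6) (nat_lit 25) (nat_lit 1) (nat_lit 132) (nat_lit 97) (nat_lit 131)) (PT.lf (nat_lit 1824) (nat_lit 6) (nat_lit 24) (nat_lit 1) (nat_lit 133) (nat_lit 97) (nat_lit 130))) (PT.nd (nat_lit 78) (PT.lf (nat_lit 1976) (nat_lit 6) (nat_lit 26) (nat_lit 3) (nat_lit 129) (nat_lit 98) (nat_lit 133)) (PT.nd (nat_lit 78) (PT.lf (nat_lit 2052) (nat_lit 6) (nat_lit 27) (nat_lit 3) (nat_lit 130) (nat_lit 98) (nat_lit 132)) (PT.lf (nat_lit 2128) (nat_lit 3) (nat_lit 28) (nat_lit 1) (nat_lit 131) (nat_lit 98) (nat_lit 131))))) (PT.nd (nat_lit 37284) (PT.nd (nat_lit 78) (PT.lf (nat_lit 2052) (nat_lit 6) (nat_lit 27) (nat_lit 1) (nat_lit 132) (nat_lit 98) (nat_lit 130)) (PT.lf (nat_lit 1976) (nat_lit 6) (nat_lit 26) (nat_lit 1) (nat_lit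 133) (nat_lit 98) (nat_lit 129))) (PT.nd (nat_lit 78) (PT.lf (nat_lit 2204) (nat_lit 6) (nat_lit 29) (nat_lit 3) (nat_lit 129) (nat_lit 99) (nat_lit 132)) (PT.nd (nat_lit 78) (PT.lf (nat_lit 2280) (nat_lit 6) (nat_lit 30) (nat_lit 3) (nat_lit 130) (nat_lit 99) (nat_lit 131)) (PT.lf (nat_lit 2280) (nat_lit 6) (nat_lit 30) (nat_lit 1) (nat_lit 131) (nat_lit 99) (nat_lit 130)))))) (PT.nd (nat_lit 37518) (PT.nd (nat_lit 37284) (PT.nd (nat_lit 37206) (PT.lf (nat_lit 2204) (nat_lit 6) (nat_lit 29) (nat_lit 1) (nat_lit 132) (nat_lit 99) (nat_lit 129)) (PT.lf (nat_lit 2356) (nat_lit 6) (nat_lit 31) (nat_lit 3) (nat_lit 128) (nat_lit 100) (nat_lit 132))) (PT.nd (nat_lit 78) (PT.lf (nat_lit 2432) (nat_lit 6) (nat_lit 32) (nat_lit 3) (nat_lit 129) (nat_lit 100) (nat_lit 131)) (PT.nd (nat_lit 78) (PT.lf (nat_lit 2508) (nat_lit 3) (nat_lit 33) (nat_lit 1) (nat_lit 130) (nat_lit 100) (nat_lit 130)) (PT.lf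 (nat_lit 2432) (nat_lit 6) (nat_lit 32) (nat_lit 1) (nat_lit 131) (nat_lit 100) (nat_lit 129))))) (PT.nd (nat_lit 37284) (PT.nd (nat_lit 37128) (PT.lf (nat_lit 2356) (nat_lit 6) (nat_lit 31) (nat_lit 1) (nat_lit 132) (nat_lit 100) (nat_lit 128)) (PT.nd (nat_lit 78) (PT.lf (nat_lit 2584) (nat_lit 6) (nat_lit 34) (nat_lit 3) (nat_lit 127) (nat_lit 101) (nat_lit 132)) (PT.lf (nat_lit 2660) (nat_lit 6) (nat_lit 35) (nat_lit 3) (nat_lit 128) (nat_lit 101) (nat_lit 131)))) (PT.nd (nat_lit 78) (PT.lf (nat_lit 2736) (nat_lit 6) (nat_lit 36) (nat_lit 3) (nat_lit 129) (nat_lit 101) (nat_lit 130)) (PT.nd (nat_lit 78) (PT.lf (nat_lit 2736) (nat_lit 6) (nat_lit 36) (nat_lit 1) (nat_lit 130) (nat_lit 101) (nat_lit 129)) (PT.lf (nat_lit 2660) (nat_lit 6) (nat_lit 35) (nat_lit 1) (nat_lit 131) (nat_lit 101) (nat_lit 128))))))) (PT.nd (nat_lit 74880) (PT.nd (nat_lit 37440) (PT.nd (nat_lit 37206) (PT.nd (nat_lit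 37128) (PT.lf (nat_lit 2584) (nat_lit 6) (nat_lit 34) (nat_lit 1) (nat_lit 132) (nat_lit 101) (nat_lit 127)) (PT.lf (nat_lit 2812) (nat_lit 6) (nat_lit 37) (nat_lit 3) (nat_lit 127) (nat_lit 102) (nat_lit 131))) (PT.nd (nat_lit 78) (PT.lf (nat_lit 2888) (nat_lit 6) (nat_lit 38) (nat_lit 3) (nat_lit 128) (nat_lit 102) (nat_lit 130)) (PT.nd (nat_lit 78) (PT.lf (nat_lit 2964) (nat_lit 3) (nat_lit 39) (nat_lit 1) (nat_lit 129) (nat_lit 102) (nat_lit 129)) (PT.lf (nat_lit 2888) (nat_lit 6) (nat_lit 38) (nat_lit 1) (nat_lit 130) (nat_lit 102) (nat_lit 128))))) (PT.nd (nat_lit 37206) (PT.nd (nat_lit 37128) (PT.lf (nat_lit 2812) (nat_lit 6) (nat_lit 37) (nat_lit 1) (nat_lit 131) (nat_lit 102) (nat_lit 127)) (PT.lf (nat_lit 3040) (nat_lit 6) (nat_lit 40) (nat_lit 3) (nat_lit 126) (nat_lit 103) (nat_lit 131))) (PT.nd (nat_lit 78) (PT.lf (nat_lit 3116) (nat_lit 6) (nat_lit 41) (nat_lit 3) (nat_lit 127)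 (nat_lit 103) (nat_lit 130)) (PT.nd (nat_lit 78) (PT.lf (nat_lit 3192) (nat_lit 6) (nat_lit 42) (nat_lit 3) (nat_lit 128) (nat_lit 103) (nat_lit 129)) (PT.lf (nat_lit 3192) (nat_lit 6) (nat_lit 42) (nat_lit 1) (nat_lit 129) (nat_lit 103) (nat_lit 128)))))) (PT.nd (nat_lit 37362) (PT.nd (nat_lit 37128) (PT.nd (nat_lit 78) (PT.lf (nat_lit 3116) (nat_lit 6) (nat_lit 41) (nat_lit 1) (nat_lit 130) (nat_lit 103) (nat_lit 127)) (PT.lf (nat_lit 3040) (nat_lit 6) (nat_lit 40) (nat_lit 1) (nat_lit 131) (nat_lit 103) (nat_lit 126))) (PT.nd (nat_lit 78) (PT.lf (nat_lit 3268) (nat_lit 6) (nat_lit 43) (nat_lit 3) (nat_lit 125) (nat_lit 104) (nat_lit 131)) (PT.nd (nat_lit 78) (PT.lf (nat_lit 3344) (nat_lit 6) (nat_lit 44) (nat_lit 3) (nat_lit 126) (nat_lit 104) (nat_lit 130)) (PT.lf (nat_lit 3420) (nat_lit 6) (nat_lit 45) (nat_lit 3) (nat_lit 127) (nat_lit 104) (nat_lit 129))))) (PT.nd (nat_lit 234) (PT.nd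 (nat_lit 78) (PT.lf (nat_lit 3496) (nat_lit 3) (nat_lit 46) (nat_lit 1) (nat_lit 128) (nat_lit 104) (nat_lit 128)) (PT.nd (nat_lit 78) (PT.lf (nat_lit 3420) (nat_lit 6) (nat_lit 45) (nat_lit 1) (nat_lit 129) (nat_lit 104) (nat_lit 127)) (PT.lf (nat_lit 3344) (nat_lit 6) (nat_lit 44) (nat_lit 1) (nat_lit 130) (nat_lit 104) (nat_lit 126)))) (PT.nd (nat_lit 36972) (PT.lf (nat_lit 3268) (nat_lit 6) (nat_lit 43) (nat_lit 1) (nat_lit 131) (nat_lit 104) (nat_lit 125)) (PT.nd (nat_lit 78) (PT.lf (nat_lit 3572) (nat_lit 6) (nat_lit 47) (nat_lit 3) (nat_lit 124) (nat_lit 105) (nat_lit 131)) (PT.lf (nat_lit 3648) (nat_lit 6) (nat_lit 48) (nat_lit 3) (nat_lit 125) (nat_lit 105) (nat_lit 130))))))))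
noncomputable def pc2 : PT := (PT.nd (nat_lit 75348) (PT.nd (nat_lit 37674) (PT.nd (nat_lit 390) (PT.nd (nat_lit 156) (PT.nd (nat_lit 78) (PT.lf (nat_lit 3724) (nat_lit 6) (nat_lit 49) (nat_lit 3) (nat_lit 126) (nat_lit 105) (nat_lit 129)) (PT.lf (nat_lit 3800) (nat_lit 6) (nat_lit 50) (nat_lit 3) (nat_lit 127) (nat_lit 105) (nat_lit 128))) (PT.nd (nat_lit 78) (PT.lf (nat_lit 3800) (nat_lit 6) (nat_lit 50) (nat_lit 1) (nat_lit 128) (nat_lit 105) (nat_lit 127)) (PT.nd (nat_lit 78) (PT.lf (nat_lit 3724) (nat_lit 6) (nat_lit 49) (nat_lit 1) (nat_lit 129) (nat_lit 105) (nat_lit 126)) (PT.lf (nat_lit 3648) (nat_lit 6) (nat_lit 48) (nat_lit 1) (nat_lit 130) (nat_lit 105) (nat_lit 125))))) (PT.nd (nat_lit 37050) (PT.nd (nat_lit 36972) (PT.lf (nat_lit 3572) (nat_lit 6) (nat_lit 47) (nat_lit 1) (nat_lit 131) (nat_lit 105) (nat_lit 124)) (PT.lf (nat_lit 3876) (nat_lit 6) (nat_lit 51) (nat_lit 3) (nat_lit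 124) (nat_lit 106) (nat_lit 130))) (PT.nd (nat_lit 78) (PT.lf (nat_lit 3952) (nat_lit 6) (nat_lit 52) (nat_lit 3) (nat_lit 125) (nat_lit 106) (nat_lit 129)) (PT.nd (nat_lit 78) (PT.lf (nat_lit 4028) (nat_lit 6) (nat_lit 53) (nat_lit 3) (nat_lit 126) (nat_lit 106) (nat_lit 128)) (PT.lf (nat_lit 4104) (nat_lit 3) (nat_lit 54) (nat_lit 1) (nat_lit 127) (nat_lit 106) (nat_lit 127)))))) (PT.nd (nat_lit 37284) (PT.nd (nat_lit 156) (PT.nd (nat_lit 78) (PT.lf (nat_lit 4028) (nat_lit 6) (nat_lit 53) (nat_lit 1) (nat_lit 128) (nat_lit 106) (nat_lit 126)) (PT.lf (nat_lit 3952) (nat_lit 6) (nat_lit 52) (nat_lit 1) (nat_lit 129) (nat_lit 106) (nat_lit 125))) (PT.nd (nat_lit 36972) (PT.lf (nat_lit 3876) (nat_lit 6) (nat_lit 51) (nat_lit 1) (nat_lit 130) (nat_lit 106) (nat_lit 124)) (PT.nd (nat_lit 78) (PT.lf (nat_lit 4180) (nat_lit 6) (nat_lit 55) (nat_lit 3) (nat_lit 123) (nat_lit 107) (nat_lit 130))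 (PT.lf (nat_lit 4256) (nat_lit 6) (nat_lit 56) (nat_lit 3) (nat_lit 124) (nat_lit 107) (nat_lit 129))))) (PT.nd (nat_lit 156) (PT.nd (nat_lit 78) (PT.lf (nat_lit 4332) (nat_lit 6) (nat_lit 57) (nat_lit 3) (nat_lit 125) (nat_lit 107) (nat_lit 128)) (PT.lf (nat_lit 4408) (nat_lit 6) (nat_lit 58) (nat_lit 3) (nat_lit 126) (nat_lit 107) (nat_lit 127))) (PT.nd (nat_lit 78) (PT.lf (nat_lit 4408) (nat_lit 6) (nat_lit 58) (nat_lit 1) (nat_lit 127) (nat_lit 107) (nat_lit 126)) (PT.nd (nat_lit 78) (PT.lf (nat_lit 4332) (nat_lit 6) (nat_lit 57) (nat_lit 1) (nat_lit 128) (nat_lit 107) (nat_lit 125)) (PT.lf (nat_lit 4256) (nat_lit 6) (nat_lit 56) (nat_lit 1) (nat_lit 129) (nat_lit 107) (nat_lit 124))))))) (PT.nd (nat_lit 74334) (PT.nd (nat_lit 37206) (PT.nd (nat_lit 36972) (PT.nd (nat_lit 36894) (PT.lf (nat_lit 4180) (nat_lit 6) (nat_lit 55) (nat_lit 1) (nat_lit 130) (nat_lit 107) (nat_lit 123)) (PT.lf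 (nat_lit 4484) (nat_lit 6) (nat_lit 59) (nat_lit 3) (nat_lit 122) (nat_lit 108) (nat_lit 130))) (PT.nd (nat_lit 78) (PT.lf (nat_lit 4560) (nat_lit 6) (nat_lit 60) (nat_lit 3) (nat_lit 123) (nat_lit 108) (nat_lit 129)) (PT.nd (nat_lit 78) (PT.lf (nat_lit 4636) (nat_lit 6) (nat_lit 61) (nat_lit 3) (nat_lit 124) (nat_lit 108) (nat_lit 128)) (PT.lf (nat_lit 4712) (nat_lit 6) (nat_lit 62) (nat_lit 3) (nat_lit 125) (nat_lit 108) (nat_lit 127))))) (PT.nd (nat_lit 156) (PT.nd (nat_lit 78) (PT.lf (nat_lit 4788) (nat_lit 3) (nat_lit 63) (nat_lit 1) (nat_lit 126) (nat_lit 108) (nat_lit 126)) (PT.lf (nat_lit 4712) (nat_lit 6) (nat_lit 62) (nat_lit 1) (nat_lit 127) (nat_lit 108) (nat_lit 125))) (PT.nd (nat_lit 78) (PT.lf (nat_lit 4636) (nat_lit 6) (nat_lit 61) (nat_lit 1) (nat_lit 128) (nat_lit 108) (nat_lit 124)) (PT.nd (nat_lit 78) (PT.lf (nat_lit 4560) (nat_lit 6) (nat_lit 60) (nat_lit 1) (nat_lit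 129) (nat_lit 108) (nat_lit 123)) (PT.lf (nat_lit 4484) (nat_lit 6) (nat_lit 59) (nat_lit 1) (nat_lit 130) (nat_lit 108) (nat_lit 122)))))) (PT.nd (nat_lit 390) (PT.nd (nat_lit 156) (PT.nd (nat_lit 78) (PT.lf (nat_lit 4864) (nat_lit 6) (nat_lit 64) (nat_lit 3) (nat_lit 121) (nat_lit 109) (nat_lit 130)) (PT.lf (nat_lit 4940) (nat_lit 6) (nat_lit 65) (nat_lit 3) (nat_lit 122) (nat_lit 109) (nat_lit 129))) (PT.nd (nat_lit 78) (PT.lf (nat_lit 5016) (nat_lit 6) (nat_lit 66) (nat_lit 3) (nat_lit 123) (nat_lit 109) (nat_lit 128)) (PT.nd (nat_lit 78) (PT.lf (nat_lit 5092) (nat_lit 6) (nat_lit 67) (nat_lit 3) (nat_lit 124) (nat_lit 109) (nat_lit 127)) (PT.lf (nat_lit 5168) (nat_lit 6) (nat_lit 68) (nat_lit 3) (nat_lit 125) (nat_lit 109) (nat_lit 126))))) (PT.nd (nat_lit 234) (PT.nd (nat_lit 78) (PT.lf (nat_lit 5168) (nat_lit 6) (nat_lit 68) (nat_lit 1) (nat_lit 126) (nat_lit 109) (nat_lit 125)) (PT.nd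 (nat_lit 78) (PT.lf (nat_lit 5092) (nat_lit 6) (nat_lit 67) (nat_lit 1) (nat_lit 127) (nat_lit 109) (nat_lit 124)) (PT.lf (nat_lit 5016) (nat_lit 6) (nat_lit 66) (nat_lit 1) (nat_lit 128) (nat_lit 109) (nat_lit 123)))) (PT.nd (nat_lit 78) (PT.lf (nat_lit 4940) (nat_lit 6) (nat_lit 65) (nat_lit 1) (nat_lit 129) (nat_lit 109) (nat_lit 122)) (PT.nd (nat_lit 36816) (PT.lf (nat_lit 4864) (nat_lit 6) (nat_lit 64) (nat_lit 1) (nat_lit 130) (nat_lit 109) (nat_lit 121)) (PT.lf (nat_lit 5320) (nat_lit 6) (nat_lit 70) (nat_lit 3) (nat_lit 121) (nat_lit 110) (nat_lit 129))))))))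
noncomputable def pc3 : PT := (PT.nd (nat_lit 75036) (PT.nd (nat_lit 37518) (PT.nd (nat_lit 390) (PT.nd (nat_lit 156) (PT.nd (nat_lit 78) (PT.lf (nat_lit 5396) (nat_lit 6) (nat_lit 71) (nat_lit 3) (nat_lit 122) (nat_lit 110) (nat_lit 128)) (PT.lf (nat_lit 5472) (nat_lit 6) (nat_lit 72) (nat_lit 3) (nat_lit 123) (nat_lit 110) (nat_lit 127))) (PT.nd (nat_lit 78) (PT.lf (nat_lit 5548) (nat_lit 6) (nat_lit 73) (nat_lit 3) (nat_lit 124) (nat_lit 110) (nat_lit 126)) (PT.nd (nat_lit 78) (PT.lf (nat_lit 5624) (nat_lit 3) (nat_lit 74) (nat_lit 1) (nat_lit 125) (nat_lit 110) (nat_lit 125)) (PT.lf (nat_lit 5548) (nat_lit 6) (nat_lit 73) (nat_lit 1) (nat_lit 126) (nat_lit 110) (nat_lit 124))))) (PT.nd (nat_lit 156) (PT.nd (nat_lit 78) (PT.lf (nat_lit 5472) (nat_lit 6) (nat_lit 72) (nat_lit 1) (nat_lit 127) (nat_lit 110) (nat_lit 123)) (PT.lf (nat_lit 5396) (nat_lit 6) (nat_lit 71) (nat_lit 1) (nat_lit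 128) (nat_lit 110) (nat_lit 122))) (PT.nd (nat_lit 36816) (PT.lf (nat_lit 5320) (nat_lit 6) (nat_lit 70) (nat_lit 1) (nat_lit 129) (nat_lit 110) (nat_lit 121)) (PT.nd (nat_lit 78) (PT.lf (nat_lit 6004) (nat_lit 6) (nat_lit 79) (nat_lit 3) (nat_lit 120) (nat_lit 111) (nat_lit 129)) (PT.lf (nat_lit 6080) (nat_lit 6) (nat_lit 80) (nat_lit 3) (nat_lit 121) (nat_lit 111) (nat_lit 128)))))) (PT.nd (nat_lit 390) (PT.nd (nat_lit 156) (PT.nd (nat_lit 78) (PT.lf (nat_lit 6156) (nat_lit 6) (nat_lit 81) (nat_lit 3) (nat_lit 122) (nat_lit 111) (nat_lit 127)) (PT.lf (nat_lit 6232) (nat_lit 6) (nat_lit 82) (nat_lit 3) (nat_lit 123) (nat_lit 111) (nat_lit 126))) (PT.nd (nat_lit 78) (PT.lf (nat_lit 6308) (nat_lit 6) (nat_lit 83) (nat_lit 3) (nat_lit 124) (nat_lit 111) (nat_lit 125)) (PT.nd (nat_lit 78) (PT.lf (nat_lit 6308) (nat_lit 6) (nat_lit 83) (nat_lit 1) (nat_lit 125) (nat_lit 111) (nat_lit 124)) (PT.lf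 (nat_lit 6232) (nat_lit 6) (nat_lit 82) (nat_lit 1) (nat_lit 126) (nat_lit 111) (nat_lit 123))))) (PT.nd (nat_lit 36894) (PT.nd (nat_lit 78) (PT.lf (nat_lit 6156) (nat_lit 6) (nat_lit 81) (nat_lit 1) (nat_lit 127) (nat_lit 111) (nat_lit 122)) (PT.nd (nat_lit 78) (PT.lf (nat_lit 6080) (nat_lit 6) (nat_lit 80) (nat_lit 1) (nat_lit 128) (nat_lit 111) (nat_lit 121)) (PT.lf (nat_lit 6004) (nat_lit 6) (nat_lit 79) (nat_lit 1) (nat_lit 129) (nat_lit 111) (nat_lit 120)))) (PT.nd (nat_lit 78) (PT.lf (nat_lit 5928) (nat_lit 6) (nat_lit 78) (nat_lit 3) (nat_lit 119) (nat_lit 112) (nat_lit 129)) (PT.nd (nat_lit 78) (PT.lf (nat_lit 6688) (nat_lit 6) (nat_lit 88) (nat_lit 3) (nat_lit 120) (nat_lit 112) (nat_lit 128)) (PT.lf (nat_lit 6764) (nat_lit 6) (nat_lit 89) (nat_lit 3) (nat_lit 121) (nat_lit 112) (nat_lit 127))))))) (PT.nd (nat_lit 37362) (PT.nd (nat_lit 390) (PT.nd (nat_lit 156) (PT.nd (nat_lit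 78) (PT.lf (nat_lit 6840) (nat_lit 6) (nat_lit 90) (nat_lit 3) (nat_lit 122) (nat_lit 112) (nat_lit 126)) (PT.lf (nat_lit 6916) (nat_lit 6) (nat_lit 91) (nat_lit 3) (nat_lit 123) (nat_lit 112) (nat_lit 125))) (PT.nd (nat_lit 78) (PT.lf (nat_lit 6992) (nat_lit 3) (nat_lit 92) (nat_lit 1) (nat_lit 124) (nat_lit 112) (nat_lit 124)) (PT.nd (nat_lit 78) (PT.lf (nat_lit 6916) (nat_lit 6) (nat_lit 91) (nat_lit 1) (nat_lit 125) (nat_lit 112) (nat_lit 123)) (PT.lf (nat_lit 6840) (nat_lit 6) (nat_lit 90) (nat_lit 1) (nat_lit 126) (nat_lit 112) (nat_lit 122))))) (PT.nd (nat_lit 156) (PT.nd (nat_lit 78) (PT.lf (nat_lit 6764) (nat_lit 6) (nat_lit 89) (nat_lit 1) (nat_lit 127) (nat_lit 112) (nat_lit 121)) (PT.lf (nat_lit 6688) (nat_lit 6) (nat_lit 88) (nat_lit 1) (nat_lit 128) (nat_lit 112) (nat_lit 120))) (PT.nd (nat_lit 36660) (PT.lf (nat_lit 5928) (nat_lit 6) (nat_lit 78) (nat_lit 1) (nat_lit 129) (nat_lit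 112) (nat_lit 119)) (PT.nd (nat_lit 78) (PT.lf (nat_lit 5852) (nat_lit 6) (nat_lit 77) (nat_lit 3) (nat_lit 118) (nat_lit 113) (nat_lit 129)) (PT.lf (nat_lit 6612) (nat_lit 6) (nat_lit 87) (nat_lit 3) (nat_lit 119) (nat_lit 113) (nat_lit 128)))))) (PT.nd (nat_lit 390) (PT.nd (nat_lit 156) (PT.nd (nat_lit 78) (PT.lf (nat_lit 7296) (nat_lit 6) (nat_lit 96) (nat_lit 3) (nat_lit 120) (nat_lit 113) (nat_lit 127)) (PT.lf (nat_lit 7372) (nat_lit 6) (nat_lit 97) (nat_lit 3) (nat_lit 121) (nat_lit 113) (nat_lit 126))) (PT.nd (nat_lit 78) (PT.lf (nat_lit 7448) (nat_lit 6) (nat_lit 98) (nat_lit 3) (nat_lit 122) (nat_lit 113) (nat_lit 125)) (PT.nd (nat_lit 78) (PT.lf (nat_lit 7524) (nat_lit 6) (nat_lit 99) (nat_lit 3) (nat_lit 123) (nat_lit 113) (nat_lit 124)) (PT.lf (nat_lit 7524) (nat_lit 6) (nat_lit 99) (nat_lit 1) (nat_lit 124) (nat_lit 113) (nat_lit 123))))) (PT.nd (nat_lit 234) (PT.nd (nat_lit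 78) (PT.lf (nat_lit 7448) (nat_lit 6) (nat_lit 98) (nat_lit 1) (nat_lit 125) (nat_lit 113) (nat_lit 122)) (PT.nd (nat_lit 78) (PT.lf (nat_lit 7372) (nat_lit 6) (nat_lit 97) (nat_lit 1) (nat_lit 126) (nat_lit 113) (nat_lit 121)) (PT.lf (nat_lit 7296) (nat_lit 6) (nat_lit 96) (nat_lit 1) (nat_lit 127) (nat_lit 113) (nat_lit 120)))) (PT.nd (nat_lit 78) (PT.lf (nat_lit 6612) (nat_lit 6) (nat_lit 87) (nat_lit 1) (nat_lit 128) (nat_lit 113) (nat_lit 119)) (PT.nd (nat_lit 36582) (PT.lf (nat_lit 5852) (nat_lit 6) (nat_lit 77) (nat_lit 1) (nat_lit 129) (nat_lit 113) (nat_lit 118)) (PT.lf (nat_lit 5776) (nat_lit 6) (nat_lit 76) (nat_lit 3) (nat_lit 117) (nat_lit 114) (nat_lit 129))))))))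
noncomputable def pc4 : PT := (PT.nd (nat_lit 37986) (PT.nd (nat_lit 780) (PT.nd (nat_lit 390) (PT.nd (nat_lit 156) (PT.nd (nat_lit 78) (PT.lf (nat_lit 6536) (nat_lit 6) (nat_lit 86) (nat_lit 3) (nat_lit 118) (nat_lit 114) (nat_lit 128)) (PT.lf (nat_lit 7220) (nat_lit 6) (nat_lit 95) (nat_lit 3) (nat_lit 119) (nat_lit 114) (nat_lit 127))) (PT.nd (nat_lit 78) (PT.lf (nat_lit 7828) (nat_lit 6) (nat_lit 103) (nat_lit 3) (nat_lit 120) (nat_lit 114) (nat_lit 126)) (PT.nd (nat_lit 78) (PT.lf (nat_lit 7904) (nat_lit 6) (nat_lit 104) (nat_lit 3) (nat_lit 121) (nat_lit 114) (nat_lit 125)) (PT.lf (nat_lit 7980) (nat_lit 6) (nat_lit 105) (nat_lit 3) (nat_lit 122) (nat_lit 114) (nat_lit 124))))) (PT.nd (nat_lit 156) (PT.nd (nat_lit 78) (PT.lf (nat_lit 8056) (nat_lit 3) (nat_lit 106) (nat_lit 1) (nat_lit 123) (nat_lit 114) (nat_lit 123)) (PT.lf (nat_lit 7980) (nat_lit 6) (nat_lit 105) (nat_lit 1) (nat_lit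 124) (nat_lit 114) (nat_lit 122))) (PT.nd (nat_lit 78) (PT.lf (nat_lit 7904) (nat_lit 6) (nat_lit 104) (nat_lit 1) (nat_lit 125) (nat_lit 114) (nat_lit 121)) (PT.nd (nat_lit 78) (PT.lf (nat_lit 7828) (nat_lit 6) (nat_lit 103) (nat_lit 1) (nat_lit 126) (nat_lit 114) (nat_lit 120)) (PT.lf (nat_lit 7220) (nat_lit 6) (nat_lit 95) (nat_lit 1) (nat_lit 127) (nat_lit 114) (nat_lit 119)))))) (PT.nd (nat_lit 36816) (PT.nd (nat_lit 36582) (PT.nd (nat_lit 78) (PT.lf (nat_lit 6536) (nat_lit 6) (nat_lit 86) (nat_lit 1) (nat_lit 128) (nat_lit 114) (nat_lit 118)) (PT.lf (nat_lit 5776) (nat_lit 6) (nat_lit 76) (nat_lit 1) (nat_lit 129) (nat_lit 114) (nat_lit 117))) (PT.nd (nat_lit 78) (PT.lf (nat_lit 5700) (nat_lit 6) (nat_lit 75) (nat_lit 3) (nat_lit 116) (nat_lit 115) (nat_lit 129)) (PT.nd (nat_lit 78) (PT.lf (nat_lit 6460) (nat_lit 6) (nat_lit 85) (nat_lit 3) (nat_lit 117) (nat_lit 115) (nat_lit 128))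 (PT.lf (nat_lit 7144) (nat_lit 6) (nat_lit 94) (nat_lit 3) (nat_lit 118) (nat_lit 115) (nat_lit 127))))) (PT.nd (nat_lit 156) (PT.nd (nat_lit 78) (PT.lf (nat_lit 7752) (nat_lit 6) (nat_lit 102) (nat_lit 3) (nat_lit 119) (nat_lit 115) (nat_lit 126)) (PT.lf (nat_lit 8284) (nat_lit 6) (nat_lit 109) (nat_lit 3) (nat_lit 120) (nat_lit 115) (nat_lit 125))) (PT.nd (nat_lit 78) (PT.lf (nat_lit 8360) (nat_lit 6) (nat_lit 110) (nat_lit 3) (nat_lit 121) (nat_lit 115) (nat_lit 124)) (PT.nd (nat_lit 78) (PT.lf (nat_lit 8436) (nat_lit 6) (nat_lit 111) (nat_lit 3) (nat_lit 122) (nat_lit 115) (nat_lit 123)) (PT.lf (nat_lit 8436) (nat_lit 6) (nat_lit 111) (nat_lit 1) (nat_lit 123) (nat_lit 115) (nat_lit 122))))))) (PT.nd (nat_lit 37128) (PT.nd (nat_lit 390) (PT.nd (nat_lit 156) (PT.nd (nat_lit 78) (PT.lf (nat_lit 8360) (nat_lit 6) (nat_lit 110) (nat_lit 1) (nat_lit 124) (nat_lit 115) (nat_lit 121)) (PT.lf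 (nat_lit 8284) (nat_lit 6) (nat_lit 109) (nat_lit 1) (nat_lit 125) (nat_lit 115) (nat_lit 120))) (PT.nd (nat_lit 78) (PT.lf (nat_lit 7752) (nat_lit 6) (nat_lit 102) (nat_lit 1) (nat_lit 126) (nat_lit 115) (nat_lit 119)) (PT.nd (nat_lit 78) (PT.lf (nat_lit 7144) (nat_lit 6) (nat_lit 94) (nat_lit 1) (nat_lit 127) (nat_lit 115) (nat_lit 118)) (PT.lf (nat_lit 6460) (nat_lit 6) (nat_lit 85) (nat_lit 1) (nat_lit 128) (nat_lit 115) (nat_lit 117))))) (PT.nd (nat_lit 36504) (PT.nd (nat_lit 36426) (PT.lf (nat_lit 5700) (nat_lit 6) (nat_lit 75) (nat_lit 1) (nat_lit 129) (nat_lit 115) (nat_lit 116)) (PT.lf (nat_lit 5700) (nat_lit 6) (nat_lit 75) (nat_lit 5) (nat_lit 115) (nat_lit 116) (nat_lit 129))) (PT.nd (nat_lit 78) (PT.lf (nat_lit 6384) (nat_lit 3) (nat_lit 84) (nat_lit 3) (nat_lit 116) (nat_lit 116) (nat_lit 128)) (PT.nd (nat_lit 78) (PT.lf (nat_lit 7068) (nat_lit 6) (nat_lit 93) (nat_lit 3) (nat_lit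 117) (nat_lit 116) (nat_lit 127)) (PT.lf (nat_lit 7676) (nat_lit 6) (nat_lit 101) (nat_lit 3) (nat_lit 118) (nat_lit 116) (nat_lit 126)))))) (PT.nd (nat_lit 390) (PT.nd (nat_lit 156) (PT.nd (nat_lit 78) (PT.lf (nat_lit 8208) (nat_lit 6) (nat_lit 108) (nat_lit 3) (nat_lit 119) (nat_lit 116) (nat_lit 125)) (PT.lf (nat_lit 8664) (nat_lit 6) (nat_lit 114) (nat_lit 3) (nat_lit 120) (nat_lit 116) (nat_lit 124))) (PT.nd (nat_lit 78) (PT.lf (nat_lit 8740) (nat_lit 6) (nat_lit 115) (nat_lit 3) (nat_lit 121) (nat_lit 116) (nat_lit 123)) (PT.nd (nat_lit 78) (PT.lf (nat_lit 8816) (nat_lit 3) (nat_lit 116) (nat_lit 1) (nat_lit 122) (nat_lit 116) (nat_lit 122)) (PT.lf (nat_lit 8740) (nat_lit 6) (nat_lit 115) (nat_lit 1) (nat_lit 123) (nat_lit 116) (nat_lit 121))))) (PT.nd (nat_lit 234) (PT.nd (nat_lit 78) (PT.lf (nat_lit 8664) (nat_lit 6) (nat_lit 114) (nat_lit 1) (nat_lit 124) (nat_lit 116) (nat_lit 120))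 (PT.nd (nat_lit 78) (PT.lf (nat_lit 8208) (nat_lit 6) (nat_lit 108) (nat_lit 1) (nat_lit 125) (nat_lit 116) (nat_lit 119)) (PT.lf (nat_lit 7676) (nat_lit 6) (nat_lit 101) (nat_lit 1) (nat_lit 126) (nat_lit 116) (nat_lit 118)))) (PT.nd (nat_lit 78) (PT.lf (nat_lit 7068) (nat_lit 6) (nat_lit 93) (nat_lit 1) (nat_lit 127) (nat_lit 116) (nat_lit 117)) (PT.nd (nat_lit 78) (PT.lf (nat_lit 6384) (nat_lit 3) (nat_lit 84) (nat_lit 0) (nat_lit 128) (nat_lit 116) (nat_lit 116)) (PT.lf (nat_lit 5700) (nat_lit 6) (nat_lit 75) (nat_lit 0) (nat_lit 129) (nat_lit 116) (nat_lit 115))))))))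
noncomputable def pc5 : PT := (PT.nd (nat_lit 37830) (PT.nd (nat_lit 780) (PT.nd (nat_lit 390) (PT.nd (nat_lit 156) (PT.nd (nat_lit 78) (PT.lf (nat_lit 5776) (nat_lit 6) (nat_lit 76) (nat_lit 5) (nat_lit 114) (nat_lit 117) (nat_lit 129)) (PT.lf (nat_lit 6460) (nat_lit 6) (nat_lit 85) (nat_lit 5) (nat_lit 115) (nat_lit 117) (nat_lit 128))) (PT.nd (nat_lit 78) (PT.lf (nat_lit 7068) (nat_lit 6) (nat_lit 93) (nat_lit 5) (nat_lit 116) (nat_lit 117) (nat_lit 127)) (PT.nd (nat_lit 78) (PT.lf (nat_lit 7600) (nat_lit 3) (nat_lit 100) (nat_lit 3) (nat_lit 117) (nat_lit 117) (nat_lit 126)) (PT.lf (nat_lit 8132) (nat_lit 6) (nat_lit 107) (nat_lit 3) (nat_lit 118) (nat_lit 117) (nat_lit 125))))) (PT.nd (nat_lit 156) (PT.nd (nat_lit 78) (PT.lf (nat_lit 8588) (nat_lit 6) (nat_lit 113) (nat_lit 3) (nat_lit 119) (nat_lit 117) (nat_lit 124)) (PT.lf (nat_lit 8968) (nat_lit 6) (nat_lit 118) (nat_lit 3) (nat_lit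 120) (nat_lit 117) (nat_lit 123))) (PT.nd (nat_lit 78) (PT.lf (nat_lit 9044) (nat_lit 6) (nat_lit 119) (nat_lit 3) (nat_lit 121) (nat_lit 117) (nat_lit 122)) (PT.nd (nat_lit 78) (PT.lf (nat_lit 9044) (nat_lit 6) (nat_lit 119) (nat_lit 1) (nat_lit 122) (nat_lit 117) (nat_lit 121)) (PT.lf (nat_lit 8968) (nat_lit 6) (nat_lit 118) (nat_lit 1) (nat_lit 123) (nat_lit 117) (nat_lit 120)))))) (PT.nd (nat_lit 390) (PT.nd (nat_lit 156) (PT.nd (nat_lit 78) (PT.lf (nat_lit 8588) (nat_lit 6) (nat_lit 113) (nat_lit 1) (nat_lit 124) (nat_lit 117) (nat_lit 119)) (PT.lf (nat_lit 8132) (nat_lit 6) (nat_lit 107) (nat_lit 1) (nat_lit 125) (nat_lit 117) (nat_lit 118))) (PT.nd (nat_lit 78) (PT.lf (nat_lit 7600) (nat_lit 3) (nat_lit 100) (nat_lit 0) (nat_lit 126) (nat_lit 117) (nat_lit 117)) (PT.nd (nat_lit 78) (PT.lf (nat_lit 7068) (nat_lit 6) (nat_lit 93) (nat_lit 0) (nat_lit 127) (nat_lit 117) (nat_lit 116))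 (PT.lf (nat_lit 6460) (nat_lit 6) (nat_lit 85) (nat_lit 0) (nat_lit 128) (nat_lit 117) (nat_lit 115))))) (PT.nd (nat_lit 36426) (PT.nd (nat_lit 36270) (PT.lf (nat_lit 5776) (nat_lit 6) (nat_lit 76) (nat_lit 0) (nat_lit 129) (nat_lit 117) (nat_lit 114)) (PT.nd (nat_lit 78) (PT.lf (nat_lit 5852) (nat_lit 6) (nat_lit 77) (nat_lit 5) (nat_lit 113) (nat_lit 118) (nat_lit 129)) (PT.lf (nat_lit 6536) (nat_lit 6) (nat_lit 86) (nat_lit 5) (nat_lit 114) (nat_lit 118) (nat_lit 128)))) (PT.nd (nat_lit 78) (PT.lf (nat_lit 7144) (nat_lit 6) (nat_lit 94) (nat_lit 5) (nat_lit 115) (nat_lit 118) (nat_lit 127)) (PT.nd (nat_lit 78) (PT.lf (nat_lit 7676) (nat_lit 6) (nat_lit 101) (nat_lit 5) (nat_lit 116) (nat_lit 118) (nat_lit 126)) (PT.lf (nat_lit 8132) (nat_lit 6) (nat_lit 107) (nat_lit 5) (nat_lit 117) (nat_lit 118) (nat_lit 125))))))) (PT.nd (nat_lit 780) (PT.nd (nat_lit 390) (PT.nd (nat_lit 156) (PT.nd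 (nat_lit 78) (PT.lf (nat_lit 8512) (nat_lit 3) (nat_lit 112) (nat_lit 3) (nat_lit 118) (nat_lit 118) (nat_lit 124)) (PT.lf (nat_lit 8892) (nat_lit 6) (nat_lit 117) (nat_lit 3) (nat_lit 119) (nat_lit 118) (nat_lit 123))) (PT.nd (nat_lit 78) (PT.lf (nat_lit 9196) (nat_lit 6) (nat_lit 121) (nat_lit 3) (nat_lit 120) (nat_lit 118) (nat_lit 122)) (PT.nd (nat_lit 78) (PT.lf (nat_lit 9272) (nat_lit 3) (nat_lit 122) (nat_lit 1) (nat_lit 121) (nat_lit 118) (nat_lit 121)) (PT.lf (nat_lit 9196) (nat_lit 6) (nat_lit 121) (nat_lit 1) (nat_lit 122) (nat_lit 118) (nat_lit 120))))) (PT.nd (nat_lit 156) (PT.nd (nat_lit 78) (PT.lf (nat_lit 8892) (nat_lit 6) (nat_lit 117) (nat_lit 1) (nat_lit 123) (nat_lit 118) (nat_lit 119)) (PT.lf (nat_lit 8512) (nat_lit 3) (nat_lit 112) (nat_lit 0) (nat_lit 124) (nat_lit 118) (nat_lit 118))) (PT.nd (nat_lit 78) (PT.lf (nat_lit 8132) (nat_lit 6) (nat_lit 107) (nat_lit 0) (nat_lit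 125) (nat_lit 118) (nat_lit 117)) (PT.nd (nat_lit 78) (PT.lf (nat_lit 7676) (nat_lit 6) (nat_lit 101) (nat_lit 0) (nat_lit 126) (nat_lit 118) (nat_lit 116)) (PT.lf (nat_lit 7144) (nat_lit 6) (nat_lit 94) (nat_lit 0) (nat_lit 127) (nat_lit 118) (nat_lit 115)))))) (PT.nd (nat_lit 36504) (PT.nd (nat_lit 36270) (PT.nd (nat_lit 78) (PT.lf (nat_lit 6536) (nat_lit 6) (nat_lit 86) (nat_lit 0) (nat_lit 128) (nat_lit 118) (nat_lit 114)) (PT.lf (nat_lit 5852) (nat_lit 6) (nat_lit 77) (nat_lit 0) (nat_lit 129) (nat_lit 118) (nat_lit 113))) (PT.nd (nat_lit 78) (PT.lf (nat_lit 5928) (nat_lit 6) (nat_lit 78) (nat_lit 5) (nat_lit 112) (nat_lit 119) (nat_lit 129)) (PT.nd (nat_lit 78) (PT.lf (nat_lit 6612) (nat_lit 6) (nat_lit 87) (nat_lit 5) (nat_lit 113) (nat_lit 119) (nat_lit 128)) (PT.lf (nat_lit 7220) (nat_lit 6) (nat_lit 95) (nat_lit 5) (nat_lit 114) (nat_lit 119) (nat_lit 127))))) (PT.nd (nat_lit 234)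 (PT.nd (nat_lit 78) (PT.lf (nat_lit 7752) (nat_lit 6) (nat_lit 102) (nat_lit 5) (nat_lit 115) (nat_lit 119) (nat_lit 126)) (PT.nd (nat_lit 78) (PT.lf (nat_lit 8208) (nat_lit 6) (nat_lit 108) (nat_lit 5) (nat_lit 116) (nat_lit 119) (nat_lit 125)) (PT.lf (nat_lit 8588) (nat_lit 6) (nat_lit 113) (nat_lit 5) (nat_lit 117) (nat_lit 119) (nat_lit 124)))) (PT.nd (nat_lit 78) (PT.lf (nat_lit 8892) (nat_lit 6) (nat_lit 117) (nat_lit 5) (nat_lit 118) (nat_lit 119) (nat_lit 123)) (PT.nd (nat_lit 78) (PT.lf (nat_lit 9120) (nat_lit 3) (nat_lit 120) (nat_lit 3) (nat_lit 119) (nat_lit 119) (nat_lit 122)) (PT.lf (nat_lit 9348) (nat_lit 6) (nat_lit 123) (nat_lit 3) (nat_lit 120) (nat_lit 119) (nat_lit 121))))))))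
noncomputable def pc6 : PT := (PT.nd (nat_lit 37674) (PT.nd (nat_lit 36816) (PT.nd (nat_lit 390) (PT.nd (nat_lit 156) (PT.nd (nat_lit 78) (PT.lf (nat_lit 9348) (nat_lit 6) (nat_lit 123) (nat_lit 1) (nat_lit 121) (nat_lit 119) (nat_lit 120)) (PT.lf (nat_lit 9120) (nat_lit 3) (nat_lit 120) (nat_lit 0) (nat_lit 122) (nat_lit 119) (nat_lit 119))) (PT.nd (nat_lit 78) (PT.lf (nat_lit 8892) (nat_lit 6) (nat_lit 117) (nat_lit 0) (nat_lit 123) (nat_lit 119) (nat_lit 118)) (PT.nd (nat_lit 78) (PT.lf (nat_lit 8588) (nat_lit 6) (nat_lit 113) (nat_lit 0) (nat_lit 124) (nat_lit 119) (nat_lit 117)) (PT.lf (nat_lit 8208) (nat_lit 6) (nat_lit 108) (nat_lit 0) (nat_lit 125) (nat_lit 119) (nat_lit 116))))) (PT.nd (nat_lit 156) (PT.nd (nat_lit 78) (PT.lf (nat_lit 7752) (nat_lit 6) (nat_lit 102) (nat_lit 0) (nat_lit 126) (nat_lit 119) (nat_lit 115)) (PT.lf (nat_lit 7220) (nat_lit 6) (nat_lit 95) (nat_lit 0) (nat_lit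 127) (nat_lit 119) (nat_lit 114))) (PT.nd (nat_lit 78) (PT.lf (nat_lit 6612) (nat_lit 6) (nat_lit 87) (nat_lit 0) (nat_lit 128) (nat_lit 119) (nat_lit 113)) (PT.nd (nat_lit 36114) (PT.lf (nat_lit 5928) (nat_lit 6) (nat_lit 78) (nat_lit 0) (nat_lit 129) (nat_lit 119) (nat_lit 112)) (PT.lf (nat_lit 6004) (nat_lit 6) (nat_lit 79) (nat_lit 5) (nat_lit 111) (nat_lit 120) (nat_lit 129)))))) (PT.nd (nat_lit 390) (PT.nd (nat_lit 156) (PT.nd (nat_lit 78) (PT.lf (nat_lit 6688) (nat_lit 6) (nat_lit 88) (nat_lit 5) (nat_lit 112) (nat_lit 120) (nat_lit 128)) (PT.lf (nat_lit 7296) (nat_lit 6) (nat_lit 96) (nat_lit 5) (nat_lit 113) (nat_lit 120) (nat_lit 127))) (PT.nd (nat_lit 78) (PT.lf (nat_lit 7828) (nat_lit 6) (nat_lit 103) (nat_lit 5) (nat_lit 114) (nat_lit 120) (nat_lit 126)) (PT.nd (nat_lit 78) (PT.lf (nat_lit 8284) (nat_lit 6) (nat_lit 109) (nat_lit 5) (nat_lit 115) (nat_lit 120) (nat_lit 125))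 (PT.lf (nat_lit 8664) (nat_lit 6) (nat_lit 114) (nat_lit 5) (nat_lit 116) (nat_lit 120) (nat_lit 124))))) (PT.nd (nat_lit 234) (PT.nd (nat_lit 78) (PT.lf (nat_lit 8968) (nat_lit 6) (nat_lit 118) (nat_lit 5) (nat_lit 117) (nat_lit 120) (nat_lit 123)) (PT.nd (nat_lit 78) (PT.lf (nat_lit 9196) (nat_lit 6) (nat_lit 121) (nat_lit 5) (nat_lit 118) (nat_lit 120) (nat_lit 122)) (PT.lf (nat_lit 9348) (nat_lit 6) (nat_lit 123) (nat_lit 5) (nat_lit 119) (nat_lit 120) (nat_lit 121)))) (PT.nd (nat_lit 78) (PT.lf (nat_lit 9424) (nat_lit 1) (nat_lit 124) (nat_lit 0) (nat_lit 120) (nat_lit 120) (nat_lit 120)) (PT.nd (nat_lit 78) (PT.lf (nat_lit 9348) (nat_lit 6) (nat_lit 123) (nat_lit 0) (nat_lit 121) (nat_lit 120) (nat_lit 119)) (PT.lf (nat_lit 9196) (nat_lit 6) (nat_lit 121) (nat_lit 0) (nat_lit 122) (nat_lit 120) (nat_lit 118))))))) (PT.nd (nat_lit 36660) (PT.nd (nat_lit 390) (PT.nd (nat_lit 156) (PT.nd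 (nat_lit 78) (PT.lf (nat_lit 8968) (nat_lit 6) (nat_lit 118) (nat_lit 0) (nat_lit 123) (nat_lit 120) (nat_lit 117)) (PT.lf (nat_lit 8664) (nat_lit 6) (nat_lit 114) (nat_lit 0) (nat_lit 124) (nat_lit 120) (nat_lit 116))) (PT.nd (nat_lit 78) (PT.lf (nat_lit 8284) (nat_lit 6) (nat_lit 109) (nat_lit 0) (nat_lit 125) (nat_lit 120) (nat_lit 115)) (PT.nd (nat_lit 78) (PT.lf (nat_lit 7828) (nat_lit 6) (nat_lit 103) (nat_lit 0) (nat_lit 126) (nat_lit 120) (nat_lit 114)) (PT.lf (nat_lit 7296) (nat_lit 6) (nat_lit 96) (nat_lit 0) (nat_lit 127) (nat_lit 120) (nat_lit 113))))) (PT.nd (nat_lit 36036) (PT.nd (nat_lit 78) (PT.lf (nat_lit 6688) (nat_lit 6) (nat_lit 88) (nat_lit 0) (nat_lit 128) (nat_lit 120) (nat_lit 112)) (PT.lf (nat_lit 6004) (nat_lit 6) (nat_lit 79) (nat_lit 0) (nat_lit 129) (nat_lit 120) (nat_lit 111))) (PT.nd (nat_lit 78) (PT.lf (nat_lit 4864) (nat_lit 6) (nat_lit 64) (nat_lit 5) (nat_lit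 109) (nat_lit 121) (nat_lit 130)) (PT.nd (nat_lit 78) (PT.lf (nat_lit 5320) (nat_lit 6) (nat_lit 70) (nat_lit 5) (nat_lit 110) (nat_lit 121) (nat_lit 129)) (PT.lf (nat_lit 6080) (nat_lit 6) (nat_lit 80) (nat_lit 5) (nat_lit 111) (nat_lit 121) (nat_lit 128)))))) (PT.nd (nat_lit 390) (PT.nd (nat_lit 156) (PT.nd (nat_lit 78) (PT.lf (nat_lit 6764) (nat_lit 6) (nat_lit 89) (nat_lit 5) (nat_lit 112) (nat_lit 121) (nat_lit 127)) (PT.lf (nat_lit 7372) (nat_lit 6) (nat_lit 97) (nat_lit 5) (nat_lit 113) (nat_lit 121) (nat_lit 126))) (PT.nd (nat_lit 78) (PT.lf (nat_lit 7904) (nat_lit 6) (nat_lit 104) (nat_lit 5) (nat_lit 114) (nat_lit 121) (nat_lit 125)) (PT.nd (nat_lit 78) (PT.lf (nat_lit 8360) (nat_lit 6) (nat_lit 110) (nat_lit 5) (nat_lit 115) (nat_lit 121) (nat_lit 124)) (PT.lf (nat_lit 8740) (nat_lit 6) (nat_lit 115) (nat_lit 5) (nat_lit 116) (nat_lit 121) (nat_lit 123))))) (PT.nd (nat_lit 234)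 (PT.nd (nat_lit 78) (PT.lf (nat_lit 9044) (nat_lit 6) (nat_lit 119) (nat_lit 5) (nat_lit 117) (nat_lit 121) (nat_lit 122)) (PT.nd (nat_lit 78) (PT.lf (nat_lit 9272) (nat_lit 3) (nat_lit 122) (nat_lit 4) (nat_lit 118) (nat_lit 121) (nat_lit 121)) (PT.lf (nat_lit 9348) (nat_lit 6) (nat_lit 123) (nat_lit 4) (nat_lit 119) (nat_lit 121) (nat_lit 120)))) (PT.nd (nat_lit 78) (PT.lf (nat_lit 9348) (nat_lit 6) (nat_lit 123) (nat_lit 2) (nat_lit 120) (nat_lit 121) (nat_lit 119)) (PT.nd (nat_lit 78) (PT.lf (nat_lit 9272) (nat_lit 3) (nat_lit 122) (nat_lit 0) (nat_lit 121) (nat_lit 121) (nat_lit 118)) (PT.lf (nat_lit 9044) (nat_lit 6) (nat_lit 119) (nat_lit 0) (nat_lit 122) (nat_lit 121) (nat_lit 117))))))))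
noncomputable def pc7 : PT := (PT.nd (nat_lit 37362) (PT.nd (nat_lit 36504) (PT.nd (nat_lit 390) (PT.nd (nat_lit 156) (PT.nd (nat_lit 78) (PT.lf (nat_lit 8740) (nat_lit 6) (nat_lit 115) (nat_lit 0) (nat_lit 123) (nat_lit 121) (nat_lit 116)) (PT.lf (nat_lit 8360) (nat_lit 6) (nat_lit 110) (nat_lit 0) (nat_lit 124) (nat_lit 121) (nat_lit 115))) (PT.nd (nat_lit 78) (PT.lf (nat_lit 7904) (nat_lit 6) (nat_lit 104) (nat_lit 0) (nat_lit 125) (nat_lit 121) (nat_lit 114)) (PT.nd (nat_lit 78) (PT.lf (nat_lit 7372) (nat_lit 6) (nat_lit 97) (nat_lit 0) (nat_lit 126) (nat_lit 121) (nat_lit 113)) (PT.lf (nat_lit 6764) (nat_lit 6) (nat_lit 89) (nat_lit 0) (nat_lit 127) (nat_lit 121) (nat_lit 112))))) (PT.nd (nat_lit 156) (PT.nd (nat_lit 78) (PT.lf (nat_lit 6080) (nat_lit 6) (nat_lit 80) (nat_lit 0) (nat_lit 128) (nat_lit 121) (nat_lit 111)) (PT.lf (nat_lit 5320) (nat_lit 6) (nat_lit 70) (nat_lit 0) (nat_lit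 129) (nat_lit 121) (nat_lit 110))) (PT.nd (nat_lit 35802) (PT.lf (nat_lit 4864) (nat_lit 6) (nat_lit 64) (nat_lit 0) (nat_lit 130) (nat_lit 121) (nat_lit 109)) (PT.nd (nat_lit 78) (PT.lf (nat_lit 4484) (nat_lit 6) (nat_lit 59) (nat_lit 5) (nat_lit 108) (nat_lit 122) (nat_lit 130)) (PT.lf (nat_lit 4940) (nat_lit 6) (nat_lit 65) (nat_lit 5) (nat_lit 109) (nat_lit 122) (nat_lit 129)))))) (PT.nd (nat_lit 390) (PT.nd (nat_lit 156) (PT.nd (nat_lit 78) (PT.lf (nat_lit 5396) (nat_lit 6) (nat_lit 71) (nat_lit 5) (nat_lit 110) (nat_lit 122) (nat_lit 128)) (PT.lf (nat_lit 6156) (nat_lit 6) (nat_lit 81) (nat_lit 5) (nat_lit 111) (nat_lit 122) (nat_lit 127))) (PT.nd (nat_lit 78) (PT.lf (nat_lit 6840) (nat_lit 6) (nat_lit 90) (nat_lit 5) (nat_lit 112) (nat_lit 122) (nat_lit 126)) (PT.nd (nat_lit 78) (PT.lf (nat_lit 7448) (nat_lit 6) (nat_lit 98) (nat_lit 5) (nat_lit 113) (nat_lit 122) (nat_lit 125)) (PT.lf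 (nat_lit 7980) (nat_lit 6) (nat_lit 105) (nat_lit 5) (nat_lit 114) (nat_lit 122) (nat_lit 124))))) (PT.nd (nat_lit 234) (PT.nd (nat_lit 78) (PT.lf (nat_lit 8436) (nat_lit 6) (nat_lit 111) (nat_lit 5) (nat_lit 115) (nat_lit 122) (nat_lit 123)) (PT.nd (nat_lit 78) (PT.lf (nat_lit 8816) (nat_lit 3) (nat_lit 116) (nat_lit 4) (nat_lit 116) (nat_lit 122) (nat_lit 122)) (PT.lf (nat_lit 9044) (nat_lit 6) (nat_lit 119) (nat_lit 4) (nat_lit 117) (nat_lit 122) (nat_lit 121)))) (PT.nd (nat_lit 78) (PT.lf (nat_lit 9196) (nat_lit 6) (nat_lit 121) (nat_lit 4) (nat_lit 118) (nat_lit 122) (nat_lit 120)) (PT.nd (nat_lit 78) (PT.lf (nat_lit 9120) (nat_lit 3) (nat_lit 120) (nat_lit 2) (nat_lit 119) (nat_lit 122) (nat_lit 119)) (PT.lf (nat_lit 9196) (nat_lit 6) (nat_lit 121) (nat_lit 2) (nat_lit 120) (nat_lit 122) (nat_lit 118))))))) (PT.nd (nat_lit 36426) (PT.nd (nat_lit 390) (PT.nd (nat_lit 156) (PT.nd (nat_lit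 78) (PT.lf (nat_lit 9044) (nat_lit 6) (nat_lit 119) (nat_lit 2) (nat_lit 121) (nat_lit 122) (nat_lit 117)) (PT.lf (nat_lit 8816) (nat_lit 3) (nat_lit 116) (nat_lit 0) (nat_lit 122) (nat_lit 122) (nat_lit 116))) (PT.nd (nat_lit 78) (PT.lf (nat_lit 8436) (nat_lit 6) (nat_lit 111) (nat_lit 0) (nat_lit 123) (nat_lit 122) (nat_lit 115)) (PT.nd (nat_lit 78) (PT.lf (nat_lit 7980) (nat_lit 6) (nat_lit 105) (nat_lit 0) (nat_lit 124) (nat_lit 122) (nat_lit 114)) (PT.lf (nat_lit 7448) (nat_lit 6) (nat_lit 98) (nat_lit 0) (nat_lit 125) (nat_lit 122) (nat_lit 113))))) (PT.nd (nat_lit 156) (PT.nd (nat_lit 78) (PT.lf (nat_lit 6840) (nat_lit 6) (nat_lit 90) (nat_lit 0) (nat_lit 126) (nat_lit 122) (nat_lit 112)) (PT.lf (nat_lit 6156) (nat_lit 6) (nat_lit 81) (nat_lit 0) (nat_lit 127) (nat_lit 122) (nat_lit 111))) (PT.nd (nat_lit 78) (PT.lf (nat_lit 5396) (nat_lit 6) (nat_lit 71) (nat_lit 0) (nat_lit 128)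 (nat_lit 122) (nat_lit 110)) (PT.nd (nat_lit 78) (PT.lf (nat_lit 4940) (nat_lit 6) (nat_lit 65) (nat_lit 0) (nat_lit 129) (nat_lit 122) (nat_lit 109)) (PT.lf (nat_lit 4484) (nat_lit 6) (nat_lit 59) (nat_lit 0) (nat_lit 130) (nat_lit 122) (nat_lit 108)))))) (PT.nd (nat_lit 390) (PT.nd (nat_lit 156) (PT.nd (nat_lit 78) (PT.lf (nat_lit 4180) (nat_lit 6) (nat_lit 55) (nat_lit 5) (nat_lit 107) (nat_lit 123) (nat_lit 130)) (PT.lf (nat_lit 4560) (nat_lit 6) (nat_lit 60) (nat_lit 5) (nat_lit 108) (nat_lit 123) (nat_lit 129))) (PT.nd (nat_lit 78) (PT.lf (nat_lit 5016) (nat_lit 6) (nat_lit 66) (nat_lit 5) (nat_lit 109) (nat_lit 123) (nat_lit 128)) (PT.nd (nat_lit 78) (PT.lf (nat_lit 5472) (nat_lit 6) (nat_lit 72) (nat_lit 5) (nat_lit 110) (nat_lit 123) (nat_lit 127)) (PT.lf (nat_lit 6232) (nat_lit 6) (nat_lit 82) (nat_lit 5) (nat_lit 111) (nat_lit 123) (nat_lit 126))))) (PT.nd (nat_lit 234) (PT.nd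 (nat_lit 78) (PT.lf (nat_lit 6916) (nat_lit 6) (nat_lit 91) (nat_lit 5) (nat_lit 112) (nat_lit 123) (nat_lit 125)) (PT.nd (nat_lit 78) (PT.lf (nat_lit 7524) (nat_lit 6) (nat_lit 99) (nat_lit 5) (nat_lit 113) (nat_lit 123) (nat_lit 124)) (PT.lf (nat_lit 8056) (nat_lit 3) (nat_lit 106) (nat_lit 4) (nat_lit 114) (nat_lit 123) (nat_lit 123)))) (PT.nd (nat_lit 78) (PT.lf (nat_lit 8436) (nat_lit 6) (nat_lit 111) (nat_lit 4) (nat_lit 115) (nat_lit 123) (nat_lit 122)) (PT.nd (nat_lit 78) (PT.lf (nat_lit 8740) (nat_lit 6) (nat_lit 115) (nat_lit 4) (nat_lit 116) (nat_lit 123) (nat_lit 121)) (PT.lf (nat_lit 8968) (nat_lit 6) (nat_lit 118) (nat_lit 4) (nat_lit 117) (nat_lit 123) (nat_lit 120))))))))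
noncomputable def pc8 : PT := (PT.nd (nat_lit 37050) (PT.nd (nat_lit 780) (PT.nd (nat_lit 390) (PT.nd (nat_lit 156) (PT.nd (nat_lit 78) (PT.lf (nat_lit 8892) (nat_lit 6) (nat_lit 117) (nat_lit 4) (nat_lit 118) (nat_lit 123) (nat_lit 119)) (PT.lf (nat_lit 8892) (nat_lit 6) (nat_lit 117) (nat_lit 2) (nat_lit 119) (nat_lit 123) (nat_lit 118))) (PT.nd (nat_lit 78) (PT.lf (nat_lit 8968) (nat_lit 6) (nat_lit 118) (nat_lit 2) (nat_lit 120) (nat_lit 123) (nat_lit 117)) (PT.nd (nat_lit 78) (PT.lf (nat_lit 8740) (nat_lit 6) (nat_lit 115) (nat_lit 2) (nat_lit 121) (nat_lit 123) (nat_lit 116)) (PT.lf (nat_lit 8436) (nat_lit 6) (nat_lit 111) (nat_lit 2) (nat_lit 122) (nat_lit 123) (nat_lit 115))))) (PT.nd (nat_lit 156) (PT.nd (nat_lit 78) (PT.lf (nat_lit 8056) (nat_lit 3) (nat_lit 106) (nat_lit 0) (nat_lit 123) (nat_lit 123) (nat_lit 114)) (PT.lf (nat_lit 7524) (nat_lit 6) (nat_lit 99) (nat_lit 0) (nat_lit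 124) (nat_lit 123) (nat_lit 113))) (PT.nd (nat_lit 78) (PT.lf (nat_lit 6916) (nat_lit 6) (nat_lit 91) (nat_lit 0) (nat_lit 125) (nat_lit 123) (nat_lit 112)) (PT.nd (nat_lit 78) (PT.lf (nat_lit 6232) (nat_lit 6) (nat_lit 82) (nat_lit 0) (nat_lit 126) (nat_lit 123) (nat_lit 111)) (PT.lf (nat_lit 5472) (nat_lit 6) (nat_lit 72) (nat_lit 0) (nat_lit 127) (nat_lit 123) (nat_lit 110)))))) (PT.nd (nat_lit 35880) (PT.nd (nat_lit 156) (PT.nd (nat_lit 78) (PT.lf (nat_lit 5016) (nat_lit 6) (nat_lit 66) (nat_lit 0) (nat_lit 128) (nat_lit 123) (nat_lit 109)) (PT.lf (nat_lit 4560) (nat_lit 6) (nat_lit 60) (nat_lit 0) (nat_lit 129) (nat_lit 123) (nat_lit 108))) (PT.nd (nat_lit 35568) (PT.lf (nat_lit 4180) (nat_lit 6) (nat_lit 55) (nat_lit 0) (nat_lit 130) (nat_lit 123) (nat_lit 107)) (PT.nd (nat_lit 78) (PT.lf (nat_lit 3572) (nat_lit 6) (nat_lit 47) (nat_lit 5) (nat_lit 105) (nat_lit 124) (nat_lit 131))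 (PT.lf (nat_lit 3876) (nat_lit 6) (nat_lit 51) (nat_lit 5) (nat_lit 106) (nat_lit 124) (nat_lit 130))))) (PT.nd (nat_lit 156) (PT.nd (nat_lit 78) (PT.lf (nat_lit 4256) (nat_lit 6) (nat_lit 56) (nat_lit 5) (nat_lit 107) (nat_lit 124) (nat_lit 129)) (PT.lf (nat_lit 4636) (nat_lit 6) (nat_lit 61) (nat_lit 5) (nat_lit 108) (nat_lit 124) (nat_lit 128))) (PT.nd (nat_lit 78) (PT.lf (nat_lit 5092) (nat_lit 6) (nat_lit 67) (nat_lit 5) (nat_lit 109) (nat_lit 124) (nat_lit 127)) (PT.nd (nat_lit 78) (PT.lf (nat_lit 5548) (nat_lit 6) (nat_lit 73) (nat_lit 5) (nat_lit 110) (nat_lit 124) (nat_lit 126)) (PT.lf (nat_lit 6308) (nat_lit 6) (nat_lit 83) (nat_lit 5) (nat_lit 111) (nat_lit 124) (nat_lit 125))))))) (PT.nd (nat_lit 780) (PT.nd (nat_lit 390) (PT.nd (nat_lit 156) (PT.nd (nat_lit 78) (PT.lf (nat_lit 6992) (nat_lit 3) (nat_lit 92) (nat_lit 4) (nat_lit 112) (nat_lit 124) (nat_lit 124)) (PT.lf (nat_lit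 7524) (nat_lit 6) (nat_lit 99) (nat_lit 4) (nat_lit 113) (nat_lit 124) (nat_lit 123))) (PT.nd (nat_lit 78) (PT.lf (nat_lit 7980) (nat_lit 6) (nat_lit 105) (nat_lit 4) (nat_lit 114) (nat_lit 124) (nat_lit 122)) (PT.nd (nat_lit 78) (PT.lf (nat_lit 8360) (nat_lit 6) (nat_lit 110) (nat_lit 4) (nat_lit 115) (nat_lit 124) (nat_lit 121)) (PT.lf (nat_lit 8664) (nat_lit 6) (nat_lit 114) (nat_lit 4) (nat_lit 116) (nat_lit 124) (nat_lit 120))))) (PT.nd (nat_lit 156) (PT.nd (nat_lit 78) (PT.lf (nat_lit 8588) (nat_lit 6) (nat_lit 113) (nat_lit 4) (nat_lit 117) (nat_lit 124) (nat_lit 119)) (PT.lf (nat_lit 8512) (nat_lit 3) (nat_lit 112) (nat_lit 2) (nat_lit 118) (nat_lit 124) (nat_lit 118))) (PT.nd (nat_lit 78) (PT.lf (nat_lit 8588) (nat_lit 6) (nat_lit 113) (nat_lit 2) (nat_lit 119) (nat_lit 124) (nat_lit 117)) (PT.nd (nat_lit 78) (PT.lf (nat_lit 8664) (nat_lit 6) (nat_lit 114) (nat_lit 2) (nat_lit 120)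 (nat_lit 124) (nat_lit 116)) (PT.lf (nat_lit 8360) (nat_lit 6) (nat_lit 110) (nat_lit 2) (nat_lit 121) (nat_lit 124) (nat_lit 115)))))) (PT.nd (nat_lit 390) (PT.nd (nat_lit 156) (PT.nd (nat_lit 78) (PT.lf (nat_lit 7980) (nat_lit 6) (nat_lit 105) (nat_lit 2) (nat_lit 122) (nat_lit 124) (nat_lit 114)) (PT.lf (nat_lit 7524) (nat_lit 6) (nat_lit 99) (nat_lit 2) (nat_lit 123) (nat_lit 124) (nat_lit 113))) (PT.nd (nat_lit 78) (PT.lf (nat_lit 6992) (nat_lit 3) (nat_lit 92) (nat_lit 0) (nat_lit 124) (nat_lit 124) (nat_lit 112)) (PT.nd (nat_lit 78) (PT.lf (nat_lit 6308) (nat_lit 6) (nat_lit 83) (nat_lit 0) (nat_lit 125) (nat_lit 124) (nat_lit 111)) (PT.lf (nat_lit 5548) (nat_lit 6) (nat_lit 73) (nat_lit 0) (nat_lit 126) (nat_lit 124) (nat_lit 110))))) (PT.nd (nat_lit 234) (PT.nd (nat_lit 78) (PT.lf (nat_lit 5092) (nat_lit 6) (nat_lit 67) (nat_lit 0) (nat_lit 127) (nat_lit 124) (nat_lit 109)) (PT.nd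 (nat_lit 78) (PT.lf (nat_lit 4636) (nat_lit 6) (nat_lit 61) (nat_lit 0) (nat_lit 128) (nat_lit 124) (nat_lit 108)) (PT.lf (nat_lit 4256) (nat_lit 6) (nat_lit 56) (nat_lit 0) (nat_lit 129) (nat_lit 124) (nat_lit 107)))) (PT.nd (nat_lit 78) (PT.lf (nat_lit 3876) (nat_lit 6) (nat_lit 51) (nat_lit 0) (nat_lit 130) (nat_lit 124) (nat_lit 106)) (PT.nd (nat_lit 35412) (PT.lf (nat_lit 3572) (nat_lit 6) (nat_lit 47) (nat_lit 0) (nat_lit 131) (nat_lit 124) (nat_lit 105)) (PT.lf (nat_lit 3268) (nat_lit 6) (nat_lit 43) (nat_lit 5) (nat_lit 104) (nat_lit 125) (nat_lit 131))))))))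
noncomputable def pc9 : PT := (PT.nd (nat_lit 1638) (PT.nd (nat_lit 780) (PT.nd (nat_lit 390) (PT.nd (nat_lit 156) (PT.nd (nat_lit 78) (PT.lf (nat_lit 3648) (nat_lit 6) (nat_lit 48) (nat_lit 5) (nat_lit 105) (nat_lit 125) (nat_lit 130)) (PT.lf (nat_lit 3952) (nat_lit 6) (nat_lit 52) (nat_lit 5) (nat_lit 106) (nat_lit 125) (nat_lit 129))) (PT.nd (nat_lit 78) (PT.lf (nat_lit 4332) (nat_lit 6) (nat_lit 57) (nat_lit 5) (nat_lit 107) (nat_lit 125) (nat_lit 128)) (PT.nd (nat_lit 78) (PT.lf (nat_lit 4712) (nat_lit 6) (nat_lit 62) (nat_lit 5) (nat_lit 108) (nat_lit 125) (nat_lit 127)) (PT.lf (nat_lit 5168) (nat_lit 6) (nat_lit 68) (nat_lit 5) (nat_lit 109) (nat_lit 125) (nat_lit 126))))) (PT.nd (nat_lit 156) (PT.nd (nat_lit 78) (PT.lf (nat_lit 5624) (nat_lit 3) (nat_lit 74) (nat_lit 4) (nat_lit 110) (nat_lit 125) (nat_lit 125)) (PT.lf (nat_lit 6308) (nat_lit 6) (nat_lit 83) (nat_lit 4) (nat_lit 111)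 (nat_lit 125) (nat_lit 124))) (PT.nd (nat_lit 78) (PT.lf (nat_lit 6916) (nat_lit 6) (nat_lit 91) (nat_lit 4) (nat_lit 112) (nat_lit 125) (nat_lit 123)) (PT.nd (nat_lit 78) (PT.lf (nat_lit 7448) (nat_lit 6) (nat_lit 98) (nat_lit 4) (nat_lit 113) (nat_lit 125) (nat_lit 122)) (PT.lf (nat_lit 7904) (nat_lit 6) (nat_lit 104) (nat_lit 4) (nat_lit 114) (nat_lit 125) (nat_lit 121)))))) (PT.nd (nat_lit 390) (PT.nd (nat_lit 156) (PT.nd (nat_lit 78) (PT.lf (nat_lit 8284) (nat_lit 6) (nat_lit 109) (nat_lit 4) (nat_lit 115) (nat_lit 125) (nat_lit 120)) (PT.lf (nat_lit 8208) (nat_lit 6) (nat_lit 108) (nat_lit 4) (nat_lit 116) (nat_lit 125) (nat_lit 119))) (PT.nd (nat_lit 78) (PT.lf (nat_lit 8132) (nat_lit 6) (nat_lit 107) (nat_lit 4) (nat_lit 117) (nat_lit 125) (nat_lit 118)) (PT.nd (nat_lit 78) (PT.lf (nat_lit 8132) (nat_lit 6) (nat_lit 107) (nat_lit 2) (nat_lit 118) (nat_lit 125) (nat_lit 117)) (PT.lf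 (nat_lit 8208) (nat_lit 6) (nat_lit 108) (nat_lit 2) (nat_lit 119) (nat_lit 125) (nat_lit 116))))) (PT.nd (nat_lit 234) (PT.nd (nat_lit 78) (PT.lf (nat_lit 8284) (nat_lit 6) (nat_lit 109) (nat_lit 2) (nat_lit 120) (nat_lit 125) (nat_lit 115)) (PT.nd (nat_lit 78) (PT.lf (nat_lit 7904) (nat_lit 6) (nat_lit 104) (nat_lit 2) (nat_lit 121) (nat_lit 125) (nat_lit 114)) (PT.lf (nat_lit 7448) (nat_lit 6) (nat_lit 98) (nat_lit 2) (nat_lit 122) (nat_lit 125) (nat_lit 113)))) (PT.nd (nat_lit 78) (PT.lf (nat_lit 6916) (nat_lit 6) (nat_lit 91) (nat_lit 2) (nat_lit 123) (nat_lit 125) (nat_lit 112)) (PT.nd (nat_lit 78) (PT.lf (nat_lit 6308) (nat_lit 6) (nat_lit 83) (nat_lit 2) (nat_lit 124) (nat_lit 125) (nat_lit 111)) (PT.lf (nat_lit 5624) (nat_lit 3) (nat_lit 74) (nat_lit 0) (nat_lit 125) (nat_lit 125) (nat_lit 110))))))) (PT.nd (nat_lit 36036) (PT.nd (nat_lit 390) (PT.nd (nat_lit 156) (PT.nd (nat_lit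 78) (PT.lf (nat_lit 5168) (nat_lit 6) (nat_lit 68) (nat_lit 0) (nat_lit 126) (nat_lit 125) (nat_lit 109)) (PT.lf (nat_lit 4712) (nat_lit 6) (nat_lit 62) (nat_lit 0) (nat_lit 127) (nat_lit 125) (nat_lit 108))) (PT.nd (nat_lit 78) (PT.lf (nat_lit 4332) (nat_lit 6) (nat_lit 57) (nat_lit 0) (nat_lit 128) (nat_lit 125) (nat_lit 107)) (PT.nd (nat_lit 78) (PT.lf (nat_lit 3952) (nat_lit 6) (nat_lit 52) (nat_lit 0) (nat_lit 129) (nat_lit 125) (nat_lit 106)) (PT.lf (nat_lit 3648) (nat_lit 6) (nat_lit 48) (nat_lit 0) (nat_lit 130) (nat_lit 125) (nat_lit 105))))) (PT.nd (nat_lit 35412) (PT.nd (nat_lit 35334) (PT.lf (nat_lit 3268) (nat_lit 6) (nat_lit 43) (nat_lit 0) (nat_lit 131) (nat_lit 125) (nat_lit 104)) (PT.lf (nat_lit 3040) (nat_lit 6) (nat_lit 40) (nat_lit 5) (nat_lit 103) (nat_lit 126) (nat_lit 131))) (PT.nd (nat_lit 78) (PT.lf (nat_lit 3344) (nat_lit 6) (nat_lit 44) (nat_lit 5) (nat_lit 104)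 (nat_lit 126) (nat_lit 130)) (PT.nd (nat_lit 78) (PT.lf (nat_lit 3724) (nat_lit 6) (nat_lit 49) (nat_lit 5) (nat_lit 105) (nat_lit 126) (nat_lit 129)) (PT.lf (nat_lit 4028) (nat_lit 6) (nat_lit 53) (nat_lit 5) (nat_lit 106) (nat_lit 126) (nat_lit 128)))))) (PT.nd (nat_lit 390) (PT.nd (nat_lit 156) (PT.nd (nat_lit 78) (PT.lf (nat_lit 4408) (nat_lit 6) (nat_lit 58) (nat_lit 5) (nat_lit 107) (nat_lit 126) (nat_lit 127)) (PT.lf (nat_lit 4788) (nat_lit 3) (nat_lit 63) (nat_lit 4) (nat_lit 108) (nat_lit 126) (nat_lit 126))) (PT.nd (nat_lit 78) (PT.lf (nat_lit 5168) (nat_lit 6) (nat_lit 68) (nat_lit 4) (nat_lit 109) (nat_lit 126) (nat_lit 125)) (PT.nd (nat_lit 78) (PT.lf (nat_lit 5548) (nat_lit 6) (nat_lit 73) (nat_lit 4) (nat_lit 110) (nat_lit 126) (nat_lit 124)) (PT.lf (nat_lit 6232) (nat_lit 6) (nat_lit 82) (nat_lit 4) (nat_lit 111) (nat_lit 126) (nat_lit 123))))) (PT.nd (nat_lit 234) (PT.nd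 (nat_lit 78) (PT.lf (nat_lit 6840) (nat_lit 6) (nat_lit 90) (nat_lit 4) (nat_lit 112) (nat_lit 126) (nat_lit 122)) (PT.nd (nat_lit 78) (PT.lf (nat_lit 7372) (nat_lit 6) (nat_lit 97) (nat_lit 4) (nat_lit 113) (nat_lit 126) (nat_lit 121)) (PT.lf (nat_lit 7828) (nat_lit 6) (nat_lit 103) (nat_lit 4) (nat_lit 114) (nat_lit 126) (nat_lit 120)))) (PT.nd (nat_lit 78) (PT.lf (nat_lit 7752) (nat_lit 6) (nat_lit 102) (nat_lit 4) (nat_lit 115) (nat_lit 126) (nat_lit 119)) (PT.nd (nat_lit 78) (PT.lf (nat_lit 7676) (nat_lit 6) (nat_lit 101) (nat_lit 4) (nat_lit 116) (nat_lit 126) (nat_lit 118)) (PT.lf (nat_lit 7600) (nat_lit 3) (nat_lit 100) (nat_lit 2) (nat_lit 117) (nat_lit 126) (nat_lit 117))))))))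
noncomputable def pc10 : PT := (PT.nd (nat_lit 36738) (PT.nd (nat_lit 780) (PT.nd (nat_lit 390) (PT.nd (nat_lit 156) (PT.nd (nat_lit 78) (PT.lf (nat_lit 7676) (nat_lit 6) (nat_lit 101) (nat_lit 2) (nat_lit 118) (nat_lit 126) (nat_lit 116)) (PT.lf (nat_lit 7752) (nat_lit 6) (nat_lit 102) (nat_lit 2) (nat_lit 119) (nat_lit 126) (nat_lit 115))) (PT.nd (nat_lit 78) (PT.lf (nat_lit 7828) (nat_lit 6) (nat_lit 103) (nat_lit 2) (nat_lit 120) (nat_lit 126) (nat_lit 114)) (PT.nd (nat_lit 78) (PT.lf (nat_lit 7372) (nat_lit 6) (nat_lit 97) (nat_lit 2) (nat_lit 121) (nat_lit 126) (nat_lit 113)) (PT.lf (nat_lit 6840) (nat_lit 6) (nat_lit 90) (nat_lit 2) (nat_lit 122) (nat_lit 126) (nat_lit 112))))) (PT.nd (nat_lit 156) (PT.nd (nat_lit 78) (PT.lf (nat_lit 6232) (nat_lit 6) (nat_lit 82) (nat_lit 2) (nat_lit 123) (nat_lit 126) (nat_lit 111)) (PT.lf (nat_lit 5548) (nat_lit 6) (nat_lit 73) (nat_lit 2) (nat_lit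 124) (nat_lit 126) (nat_lit 110))) (PT.nd (nat_lit 78) (PT.lf (nat_lit 5168) (nat_lit 6) (nat_lit 68) (nat_lit 2) (nat_lit 125) (nat_lit 126) (nat_lit 109)) (PT.nd (nat_lit 78) (PT.lf (nat_lit 4788) (nat_lit 3) (nat_lit 63) (nat_lit 0) (nat_lit 126) (nat_lit 126) (nat_lit 108)) (PT.lf (nat_lit 4408) (nat_lit 6) (nat_lit 58) (nat_lit 0) (nat_lit 127) (nat_lit 126) (nat_lit 107)))))) (PT.nd (nat_lit 35490) (PT.nd (nat_lit 156) (PT.nd (nat_lit 78) (PT.lf (nat_lit 4028) (nat_lit 6) (nat_lit 53) (nat_lit 0) (nat_lit 128) (nat_lit 126) (nat_lit 106)) (PT.lf (nat_lit 3724) (nat_lit 6) (nat_lit 49) (nat_lit 0) (nat_lit 129) (nat_lit 126) (nat_lit 105))) (PT.nd (nat_lit 78) (PT.lf (nat_lit 3344) (nat_lit 6) (nat_lit 44) (nat_lit 0) (nat_lit 130) (nat_lit 126) (nat_lit 104)) (PT.nd (nat_lit 35178) (PT.lf (nat_lit 3040) (nat_lit 6) (nat_lit 40) (nat_lit 0) (nat_lit 131) (nat_lit 126) (nat_lit 103))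 (PT.lf (nat_lit 2584) (nat_lit 6) (nat_lit 34) (nat_lit 5) (nat_lit 101) (nat_lit 127) (nat_lit 132))))) (PT.nd (nat_lit 234) (PT.nd (nat_lit 78) (PT.lf (nat_lit 2812) (nat_lit 6) (nat_lit 37) (nat_lit 5) (nat_lit 102) (nat_lit 127) (nat_lit 131)) (PT.nd (nat_lit 78) (PT.lf (nat_lit 3116) (nat_lit 6) (nat_lit 41) (nat_lit 5) (nat_lit 103) (nat_lit 127) (nat_lit 130)) (PT.lf (nat_lit 3420) (nat_lit 6) (nat_lit 45) (nat_lit 5) (nat_lit 104) (nat_lit 127) (nat_lit 129)))) (PT.nd (nat_lit 78) (PT.lf (nat_lit 3800) (nat_lit 6) (nat_lit 50) (nat_lit 5) (nat_lit 105) (nat_lit 127) (nat_lit 128)) (PT.nd (nat_lit 78) (PT.lf (nat_lit 4104) (nat_lit 3) (nat_lit 54) (nat_lit 4) (nat_lit 106) (nat_lit 127) (nat_lit 127)) (PT.lf (nat_lit 4408) (nat_lit 6) (nat_lit 58) (nat_lit 4) (nat_lit 107) (nat_lit 127) (nat_lit 126))))))) (PT.nd (nat_lit 780) (PT.nd (nat_lit 390) (PT.nd (nat_lit 156) (PT.nd (nat_lit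 78) (PT.lf (nat_lit 4712) (nat_lit 6) (nat_lit 62) (nat_lit 4) (nat_lit 108) (nat_lit 127) (nat_lit 125)) (PT.lf (nat_lit 5092) (nat_lit 6) (nat_lit 67) (nat_lit 4) (nat_lit 109) (nat_lit 127) (nat_lit 124))) (PT.nd (nat_lit 78) (PT.lf (nat_lit 5472) (nat_lit 6) (nat_lit 72) (nat_lit 4) (nat_lit 110) (nat_lit 127) (nat_lit 123)) (PT.nd (nat_lit 78) (PT.lf (nat_lit 6156) (nat_lit 6) (nat_lit 81) (nat_lit 4) (nat_lit 111) (nat_lit 127) (nat_lit 122)) (PT.lf (nat_lit 6764) (nat_lit 6) (nat_lit 89) (nat_lit 4) (nat_lit 112) (nat_lit 127) (nat_lit 121))))) (PT.nd (nat_lit 156) (PT.nd (nat_lit 78) (PT.lf (nat_lit 7296) (nat_lit 6) (nat_lit 96) (nat_lit 4) (nat_lit 113) (nat_lit 127) (nat_lit 120)) (PT.lf (nat_lit 7220) (nat_lit 6) (nat_lit 95) (nat_lit 4) (nat_lit 114) (nat_lit 127) (nat_lit 119))) (PT.nd (nat_lit 78) (PT.lf (nat_lit 7144) (nat_lit 6) (nat_lit 94) (nat_lit 4) (nat_lit 115) (nat_lit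 127) (nat_lit 118)) (PT.nd (nat_lit 78) (PT.lf (nat_lit 7068) (nat_lit 6) (nat_lit 93) (nat_lit 4) (nat_lit 116) (nat_lit 127) (nat_lit 117)) (PT.lf (nat_lit 7068) (nat_lit 6) (nat_lit 93) (nat_lit 2) (nat_lit 117) (nat_lit 127) (nat_lit 116)))))) (PT.nd (nat_lit 390) (PT.nd (nat_lit 156) (PT.nd (nat_lit 78) (PT.lf (nat_lit 7144) (nat_lit 6) (nat_lit 94) (nat_lit 2) (nat_lit 118) (nat_lit 127) (nat_lit 115)) (PT.lf (nat_lit 7220) (nat_lit 6) (nat_lit 95) (nat_lit 2) (nat_lit 119) (nat_lit 127) (nat_lit 114))) (PT.nd (nat_lit 78) (PT.lf (nat_lit 7296) (nat_lit 6) (nat_lit 96) (nat_lit 2) (nat_lit 120) (nat_lit 127) (nat_lit 113)) (PT.nd (nat_lit 78) (PT.lf (nat_lit 6764) (nat_lit 6) (nat_lit 89) (nat_lit 2) (nat_lit 121) (nat_lit 127) (nat_lit 112)) (PT.lf (nat_lit 6156) (nat_lit 6) (nat_lit 81) (nat_lit 2) (nat_lit 122) (nat_lit 127) (nat_lit 111))))) (PT.nd (nat_lit 234) (PT.nd (nat_lit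 78) (PT.lf (nat_lit 5472) (nat_lit 6) (nat_lit 72) (nat_lit 2) (nat_lit 123) (nat_lit 127) (nat_lit 110)) (PT.nd (nat_lit 78) (PT.lf (nat_lit 5092) (nat_lit 6) (nat_lit 67) (nat_lit 2) (nat_lit 124) (nat_lit 127) (nat_lit 109)) (PT.lf (nat_lit 4712) (nat_lit 6) (nat_lit 62) (nat_lit 2) (nat_lit 125) (nat_lit 127) (nat_lit 108)))) (PT.nd (nat_lit 78) (PT.lf (nat_lit 4408) (nat_lit 6) (nat_lit 58) (nat_lit 2) (nat_lit 126) (nat_lit 127) (nat_lit 107)) (PT.nd (nat_lit 78) (PT.lf (nat_lit 4104) (nat_lit 3) (nat_lit 54) (nat_lit 0) (nat_lit 127) (nat_lit 127) (nat_lit 106)) (PT.lf (nat_lit 3800) (nat_lit 6) (nat_lit 50) (nat_lit 0) (nat_lit 128) (nat_lit 127) (nat_lit 105))))))))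
noncomputable def pc11 : PT := (PT.nd (nat_lit 36582) (PT.nd (nat_lit 35724) (PT.nd (nat_lit 35334) (PT.nd (nat_lit 156) (PT.nd (nat_lit 78) (PT.lf (nat_lit 3420) (nat_lit 6) (nat_lit 45) (nat_lit 0) (nat_lit 129) (nat_lit 127) (nat_lit 104)) (PT.lf (nat_lit 3116) (nat_lit 6) (nat_lit 41) (nat_lit 0) (nat_lit 130) (nat_lit 127) (nat_lit 103))) (PT.nd (nat_lit 78) (PT.lf (nat_lit 2812) (nat_lit 6) (nat_lit 37) (nat_lit 0) (nat_lit 131) (nat_lit 127) (nat_lit 102)) (PT.nd (nat_lit 35022) (PT.lf (nat_lit 2584) (nat_lit 6) (nat_lit 34) (nat_lit 0) (nat_lit 132) (nat_lit 127) (nat_lit 101)) (PT.lf (nat_lit 2356) (nat_lit 6) (nat_lit 31) (nat_lit 5) (nat_lit 100) (nat_lit 128) (nat_lit 132))))) (PT.nd (nat_lit 156) (PT.nd (nat_lit 78) (PT.lf (nat_lit 2660) (nat_lit 6) (nat_lit 35) (nat_lit 5) (nat_lit 101) (nat_lit 128) (nat_lit 131)) (PT.lf (nat_lit 2888) (nat_lit 6) (nat_lit 38) (nat_lit 5) (nat_lit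 102) (nat_lit 128) (nat_lit 130))) (PT.nd (nat_lit 78) (PT.lf (nat_lit 3192) (nat_lit 6) (nat_lit 42) (nat_lit 5) (nat_lit 103) (nat_lit 128) (nat_lit 129)) (PT.nd (nat_lit 78) (PT.lf (nat_lit 3496) (nat_lit 3) (nat_lit 46) (nat_lit 4) (nat_lit 104) (nat_lit 128) (nat_lit 128)) (PT.lf (nat_lit 3800) (nat_lit 6) (nat_lit 50) (nat_lit 4) (nat_lit 105) (nat_lit 128) (nat_lit 127)))))) (PT.nd (nat_lit 390) (PT.nd (nat_lit 156) (PT.nd (nat_lit 78) (PT.lf (nat_lit 4028) (nat_lit 6) (nat_lit 53) (nat_lit 4) (nat_lit 106) (nat_lit 128) (nat_lit 126)) (PT.lf (nat_lit 4332) (nat_lit 6) (nat_lit 57) (nat_lit 4) (nat_lit 107) (nat_lit 128) (nat_lit 125))) (PT.nd (nat_lit 78) (PT.lf (nat_lit 4636) (nat_lit 6) (nat_lit 61) (nat_lit 4) (nat_lit 108) (nat_lit 128) (nat_lit 124)) (PT.nd (nat_lit 78) (PT.lf (nat_lit 5016) (nat_lit 6) (nat_lit 66) (nat_lit 4) (nat_lit 109) (nat_lit 128) (nat_lit 123)) (PT.lf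 (nat_lit 5396) (nat_lit 6) (nat_lit 71) (nat_lit 4) (nat_lit 110) (nat_lit 128) (nat_lit 122))))) (PT.nd (nat_lit 234) (PT.nd (nat_lit 78) (PT.lf (nat_lit 6080) (nat_lit 6) (nat_lit 80) (nat_lit 4) (nat_lit 111) (nat_lit 128) (nat_lit 121)) (PT.nd (nat_lit 78) (PT.lf (nat_lit 6688) (nat_lit 6) (nat_lit 88) (nat_lit 4) (nat_lit 112) (nat_lit 128) (nat_lit 120)) (PT.lf (nat_lit 6612) (nat_lit 6) (nat_lit 87) (nat_lit 4) (nat_lit 113) (nat_lit 128) (nat_lit 119)))) (PT.nd (nat_lit 78) (PT.lf (nat_lit 6536) (nat_lit 6) (nat_lit 86) (nat_lit 4) (nat_lit 114) (nat_lit 128) (nat_lit 118)) (PT.nd (nat_lit 78) (PT.lf (nat_lit 6460) (nat_lit 6) (nat_lit 85) (nat_lit 4) (nat_lit 115) (nat_lit 128) (nat_lit 117)) (PT.lf (nat_lit 6384) (nat_lit 3) (nat_lit 84) (nat_lit 2) (nat_lit 116) (nat_lit 128) (nat_lit 116))))))) (PT.nd (nat_lit 780) (PT.nd (nat_lit 390) (PT.nd (nat_lit 156) (PT.nd (nat_lit 78)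 (PT.lf (nat_lit 6460) (nat_lit 6) (nat_lit 85) (nat_lit 2) (nat_lit 117) (nat_lit 128) (nat_lit 115)) (PT.lf (nat_lit 6536) (nat_lit 6) (nat_lit 86) (nat_lit 2) (nat_lit 118) (nat_lit 128) (nat_lit 114))) (PT.nd (nat_lit 78) (PT.lf (nat_lit 6612) (nat_lit 6) (nat_lit 87) (nat_lit 2) (nat_lit 119) (nat_lit 128) (nat_lit 113)) (PT.nd (nat_lit 78) (PT.lf (nat_lit 6688) (nat_lit 6) (nat_lit 88) (nat_lit 2) (nat_lit 120) (nat_lit 128) (nat_lit 112)) (PT.lf (nat_lit 6080) (nat_lit 6) (nat_lit 80) (nat_lit 2) (nat_lit 121) (nat_lit 128) (nat_lit 111))))) (PT.nd (nat_lit 156) (PT.nd (nat_lit 78) (PT.lf (nat_lit 5396) (nat_lit 6) (nat_lit 71) (nat_lit 2) (nat_lit 122) (nat_lit 128) (nat_lit 110)) (PT.lf (nat_lit 5016) (nat_lit 6) (nat_lit 66) (nat_lit 2) (nat_lit 123) (nat_lit 128) (nat_lit 109))) (PT.nd (nat_lit 78) (PT.lf (nat_lit 4636) (nat_lit 6) (nat_lit 61) (nat_lit 2) (nat_lit 124) (nat_lit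 128) (nat_lit 108)) (PT.nd (nat_lit 78) (PT.lf (nat_lit 4332) (nat_lit 6) (nat_lit 57) (nat_lit 2) (nat_lit 125) (nat_lit 128) (nat_lit 107)) (PT.lf (nat_lit 4028) (nat_lit 6) (nat_lit 53) (nat_lit 2) (nat_lit 126) (nat_lit 128) (nat_lit 106)))))) (PT.nd (nat_lit 390) (PT.nd (nat_lit 156) (PT.nd (nat_lit 78) (PT.lf (nat_lit 3800) (nat_lit 6) (nat_lit 50) (nat_lit 2) (nat_lit 127) (nat_lit 128) (nat_lit 105)) (PT.lf (nat_lit 3496) (nat_lit 3) (nat_lit 46) (nat_lit 0) (nat_lit 128) (nat_lit 128) (nat_lit 104))) (PT.nd (nat_lit 78) (PT.lf (nat_lit 3192) (nat_lit 6) (nat_lit 42) (nat_lit 0) (nat_lit 129) (nat_lit 128) (nat_lit 103)) (PT.nd (nat_lit 78) (PT.lf (nat_lit 2888) (nat_lit 6) (nat_lit 38) (nat_lit 0) (nat_lit 130) (nat_lit 128) (nat_lit 102)) (PT.lf (nat_lit 2660) (nat_lit 6) (nat_lit 35) (nat_lit 0) (nat_lit 131) (nat_lit 128) (nat_lit 101))))) (PT.nd (nat_lit 35022) (PT.nd (nat_lit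 34866) (PT.lf (nat_lit 2356) (nat_lit 6) (nat_lit 31) (nat_lit 0) (nat_lit 132) (nat_lit 128) (nat_lit 100)) (PT.nd (nat_lit 78) (PT.lf (nat_lit 1976) (nat_lit 6) (nat_lit 26) (nat_lit 5) (nat_lit 98) (nat_lit 129) (nat_lit 133)) (PT.lf (nat_lit 2204) (nat_lit 6) (nat_lit 29) (nat_lit 5) (nat_lit 99) (nat_lit 129) (nat_lit 132)))) (PT.nd (nat_lit 78) (PT.lf (nat_lit 2432) (nat_lit 6) (nat_lit 32) (nat_lit 5) (nat_lit 100) (nat_lit 129) (nat_lit 131)) (PT.nd (nat_lit 78) (PT.lf (nat_lit 2736) (nat_lit 6) (nat_lit 36) (nat_lit 5) (nat_lit 101) (nat_lit 129) (nat_lit 130)) (PT.lf (nat_lit 2964) (nat_lit 3) (nat_lit 39) (nat_lit 4) (nat_lit 102) (nat_lit 129) (nat_lit 129))))))))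
noncomputable def pc12 : PT := (PT.nd (nat_lit 1560) (PT.nd (nat_lit 780) (PT.nd (nat_lit 390) (PT.nd (nat_lit 156) (PT.nd (nat_lit 78) (PT.lf (nat_lit 3192) (nat_lit 6) (nat_lit 42) (nat_lit 4) (nat_lit 103) (nat_lit 129) (nat_lit 128)) (PT.lf (nat_lit 3420) (nat_lit 6) (nat_lit 45) (nat_lit 4) (nat_lit 104) (nat_lit 129) (nat_lit 127))) (PT.nd (nat_lit 78) (PT.lf (nat_lit 3724) (nat_lit 6) (nat_lit 49) (nat_lit 4) (nat_lit 105) (nat_lit 129) (nat_lit 126)) (PT.nd (nat_lit 78) (PT.lf (nat_lit 3952) (nat_lit 6) (nat_lit 52) (nat_lit 4) (nat_lit 106) (nat_lit 129) (nat_lit 125)) (PT.lf (nat_lit 4256) (nat_lit 6) (nat_lit 56) (nat_lit 4) (nat_lit 107) (nat_lit 129) (nat_lit 124))))) (PT.nd (nat_lit 156) (PT.nd (nat_lit 78) (PT.lf (nat_lit 4560) (nat_lit 6) (nat_lit 60) (nat_lit 4) (nat_lit 108) (nat_lit 129) (nat_lit 123)) (PT.lf (nat_lit 4940) (nat_lit 6) (nat_lit 65) (nat_lit 4) (nat_lit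 109) (nat_lit 129) (nat_lit 122))) (PT.nd (nat_lit 78) (PT.lf (nat_lit 5320) (nat_lit 6) (nat_lit 70) (nat_lit 4) (nat_lit 110) (nat_lit 129) (nat_lit 121)) (PT.nd (nat_lit 78) (PT.lf (nat_lit 6004) (nat_lit 6) (nat_lit 79) (nat_lit 4) (nat_lit 111) (nat_lit 129) (nat_lit 120)) (PT.lf (nat_lit 5928) (nat_lit 6) (nat_lit 78) (nat_lit 4) (nat_lit 112) (nat_lit 129) (nat_lit 119)))))) (PT.nd (nat_lit 390) (PT.nd (nat_lit 156) (PT.nd (nat_lit 78) (PT.lf (nat_lit 5852) (nat_lit 6) (nat_lit 77) (nat_lit 4) (nat_lit 113) (nat_lit 129) (nat_lit 118)) (PT.lf (nat_lit 5776) (nat_lit 6) (nat_lit 76) (nat_lit 4) (nat_lit 114) (nat_lit 129) (nat_lit 117))) (PT.nd (nat_lit 78) (PT.lf (nat_lit 5700) (nat_lit 6) (nat_lit 75) (nat_lit 4) (nat_lit 115) (nat_lit 129) (nat_lit 116)) (PT.nd (nat_lit 78) (PT.lf (nat_lit 5700) (nat_lit 6) (nat_lit 75) (nat_lit 2) (nat_lit 116) (nat_lit 129) (nat_lit 115)) (PT.lf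 (nat_lit 5776) (nat_lit 6) (nat_lit 76) (nat_lit 2) (nat_lit 117) (nat_lit 129) (nat_lit 114))))) (PT.nd (nat_lit 156) (PT.nd (nat_lit 78) (PT.lf (nat_lit 5852) (nat_lit 6) (nat_lit 77) (nat_lit 2) (nat_lit 118) (nat_lit 129) (nat_lit 113)) (PT.lf (nat_lit 5928) (nat_lit 6) (nat_lit 78) (nat_lit 2) (nat_lit 119) (nat_lit 129) (nat_lit 112))) (PT.nd (nat_lit 78) (PT.lf (nat_lit 6004) (nat_lit 6) (nat_lit 79) (nat_lit 2) (nat_lit 120) (nat_lit 129) (nat_lit 111)) (PT.nd (nat_lit 78) (PT.lf (nat_lit 5320) (nat_lit 6) (nat_lit 70) (nat_lit 2) (nat_lit 121) (nat_lit 129) (nat_lit 110)) (PT.lf (nat_lit 4940) (nat_lit 6) (nat_lit 65) (nat_lit 2) (nat_lit 122) (nat_lit 129) (nat_lit 109))))))) (PT.nd (nat_lit 780) (PT.nd (nat_lit 390) (PT.nd (nat_lit 156) (PT.nd (nat_lit 78) (PT.lf (nat_lit 4560) (nat_lit 6) (nat_lit 60) (nat_lit 2) (nat_lit 123) (nat_lit 129) (nat_lit 108)) (PT.lf (nat_lit 4256)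 (nat_lit 6) (nat_lit 56) (nat_lit 2) (nat_lit 124) (nat_lit 129) (nat_lit 107))) (PT.nd (nat_lit 78) (PT.lf (nat_lit 3952) (nat_lit 6) (nat_lit 52) (nat_lit 2) (nat_lit 125) (nat_lit 129) (nat_lit 106)) (PT.nd (nat_lit 78) (PT.lf (nat_lit 3724) (nat_lit 6) (nat_lit 49) (nat_lit 2) (nat_lit 126) (nat_lit 129) (nat_lit 105)) (PT.lf (nat_lit 3420) (nat_lit 6) (nat_lit 45) (nat_lit 2) (nat_lit 127) (nat_lit 129) (nat_lit 104))))) (PT.nd (nat_lit 156) (PT.nd (nat_lit 78) (PT.lf (nat_lit 3192) (nat_lit 6) (nat_lit 42) (nat_lit 2) (nat_lit 128) (nat_lit 129) (nat_lit 103)) (PT.lf (nat_lit 2964) (nat_lit 3) (nat_lit 39) (nat_lit 0) (nat_lit 129) (nat_lit 129) (nat_lit 102))) (PT.nd (nat_lit 78) (PT.lf (nat_lit 2736) (nat_lit 6) (nat_lit 36) (nat_lit 0) (nat_lit 130) (nat_lit 129) (nat_lit 101)) (PT.nd (nat_lit 78) (PT.lf (nat_lit 2432) (nat_lit 6) (nat_lit 32) (nat_lit 0) (nat_lit 131) (nat_lit 129)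 (nat_lit 100)) (PT.lf (nat_lit 2204) (nat_lit 6) (nat_lit 29) (nat_lit 0) (nat_lit 132) (nat_lit 129) (nat_lit 99)))))) (PT.nd (nat_lit 35022) (PT.nd (nat_lit 34788) (PT.nd (nat_lit 34710) (PT.lf (nat_lit 1976) (nat_lit 6) (nat_lit 26) (nat_lit 0) (nat_lit 133) (nat_lit 129) (nat_lit 98)) (PT.lf (nat_lit 1824) (nat_lit 6) (nat_lit 24) (nat_lit 5) (nat_lit 97) (nat_lit 130) (nat_lit 133))) (PT.nd (nat_lit 78) (PT.lf (nat_lit 2052) (nat_lit 6) (nat_lit 27) (nat_lit 5) (nat_lit 98) (nat_lit 130) (nat_lit 132)) (PT.nd (nat_lit 78) (PT.lf (nat_lit 2280) (nat_lit 6) (nat_lit 30) (nat_lit 5) (nat_lit 99) (nat_lit 130) (nat_lit 131)) (PT.lf (nat_lit 2508) (nat_lit 3) (nat_lit 33) (nat_lit 4) (nat_lit 100) (nat_lit 130) (nat_lit 130))))) (PT.nd (nat_lit 234) (PT.nd (nat_lit 78) (PT.lf (nat_lit 2736) (nat_lit 6) (nat_lit 36) (nat_lit 4) (nat_lit 101) (nat_lit 130) (nat_lit 129)) (PT.nd (nat_lit 78)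 (PT.lf (nat_lit 2888) (nat_lit 6) (nat_lit 38) (nat_lit 4) (nat_lit 102) (nat_lit 130) (nat_lit 128)) (PT.lf (nat_lit 3116) (nat_lit 6) (nat_lit 41) (nat_lit 4) (nat_lit 103) (nat_lit 130) (nat_lit 127)))) (PT.nd (nat_lit 78) (PT.lf (nat_lit 3344) (nat_lit 6) (nat_lit 44) (nat_lit 4) (nat_lit 104) (nat_lit 130) (nat_lit 126)) (PT.nd (nat_lit 78) (PT.lf (nat_lit 3648) (nat_lit 6) (nat_lit 48) (nat_lit 4) (nat_lit 105) (nat_lit 130) (nat_lit 125)) (PT.lf (nat_lit 3876) (nat_lit 6) (nat_lit 51) (nat_lit 4) (nat_lit 106) (nat_lit 130) (nat_lit 124))))))))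
noncomputable def pc13 : PT := (PT.nd (nat_lit 36972) (PT.nd (nat_lit 1638) (PT.nd (nat_lit 1248) (PT.nd (nat_lit 156) (PT.nd (nat_lit 78) (PT.lf (nat_lit 4180) (nat_lit 6) (nat_lit 55) (nat_lit 4) (nat_lit 107) (nat_lit 130) (nat_lit 123)) (PT.lf (nat_lit 4484) (nat_lit 6) (nat_lit 59) (nat_lit 4) (nat_lit 108) (nat_lit 130) (nat_lit 122))) (PT.nd (nat_lit 936) (PT.lf (nat_lit 4864) (nat_lit 6) (nat_lit 64) (nat_lit 4) (nat_lit 109) (nat_lit 130) (nat_lit 121)) (PT.nd (nat_lit 78) (PT.lf (nat_lit 4864) (nat_lit 6) (nat_lit 64) (nat_lit 2) (nat_lit 121) (nat_lit 130) (nat_lit 109)) (PT.lf (nat_lit 4484) (nat_lit 6) (nat_lit 59) (nat_lit 2) (nat_lit 122) (nat_lit 130) (nat_lit 108))))) (PT.nd (nat_lit 156) (PT.nd (nat_lit 78) (PT.lf (nat_lit 4180) (nat_lit 6) (nat_lit 55) (nat_lit 2) (nat_lit 123) (nat_lit 130) (nat_lit 107)) (PT.lf (nat_lit 3876) (nat_lit 6) (nat_lit 51) (nat_lit 2) (nat_lit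 124) (nat_lit 130) (nat_lit 106))) (PT.nd (nat_lit 78) (PT.lf (nat_lit 3648) (nat_lit 6) (nat_lit 48) (nat_lit 2) (nat_lit 125) (nat_lit 130) (nat_lit 105)) (PT.nd (nat_lit 78) (PT.lf (nat_lit 3344) (nat_lit 6) (nat_lit 44) (nat_lit 2) (nat_lit 126) (nat_lit 130) (nat_lit 104)) (PT.lf (nat_lit 3116) (nat_lit 6) (nat_lit 41) (nat_lit 2) (nat_lit 127) (nat_lit 130) (nat_lit 103)))))) (PT.nd (nat_lit 390) (PT.nd (nat_lit 156) (PT.nd (nat_lit 78) (PT.lf (nat_lit 2888) (nat_lit 6) (nat_lit 38) (nat_lit 2) (nat_lit 128) (nat_lit 130) (nat_lit 102)) (PT.lf (nat_lit 2736) (nat_lit 6) (nat_lit 36) (nat_lit 2) (nat_lit 129) (nat_lit 130) (nat_lit 101))) (PT.nd (nat_lit 78) (PT.lf (nat_lit 2508) (nat_lit 3) (nat_lit 33) (nat_lit 0) (nat_lit 130) (nat_lit 130) (nat_lit 100)) (PT.nd (nat_lit 78) (PT.lf (nat_lit 2280) (nat_lit 6) (nat_lit 30) (nat_lit 0) (nat_lit 131) (nat_lit 130) (nat_lit 99)) (PT.lf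 (nat_lit 2052) (nat_lit 6) (nat_lit 27) (nat_lit 0) (nat_lit 132) (nat_lit 130) (nat_lit 98))))) (PT.nd (nat_lit 34710) (PT.nd (nat_lit 34554) (PT.lf (nat_lit 1824) (nat_lit 6) (nat_lit 24) (nat_lit 0) (nat_lit 133) (nat_lit 130) (nat_lit 97)) (PT.nd (nat_lit 78) (PT.lf (nat_lit 1520) (nat_lit 6) (nat_lit 20) (nat_lit 5) (nat_lit 95) (nat_lit 131) (nat_lit 134)) (PT.lf (nat_lit 1672) (nat_lit 6) (nat_lit 22) (nat_lit 5) (nat_lit 96) (nat_lit 131) (nat_lit 133)))) (PT.nd (nat_lit 78) (PT.lf (nat_lit 1900) (nat_lit 6) (nat_lit 25) (nat_lit 5) (nat_lit 97) (nat_lit 131) (nat_lit 132)) (PT.nd (nat_lit 78) (PT.lf (nat_lit 2128) (nat_lit 3) (nat_lit 28) (nat_lit 4) (nat_lit 98) (nat_lit 131) (nat_lit 131)) (PT.lf (nat_lit 2280) (nat_lit 6) (nat_lit 30) (nat_lit 4) (nat_lit 99) (nat_lit 131) (nat_lit 130))))))) (PT.nd (nat_lit 2184) (PT.nd (nat_lit 390) (PT.nd (nat_lit 156) (PT.nd (nat_lit 78) (PT.lf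 (nat_lit 2432) (nat_lit 6) (nat_lit 32) (nat_lit 4) (nat_lit 100) (nat_lit 131) (nat_lit 129)) (PT.lf (nat_lit 2660) (nat_lit 6) (nat_lit 35) (nat_lit 4) (nat_lit 101) (nat_lit 131) (nat_lit 128))) (PT.nd (nat_lit 78) (PT.lf (nat_lit 2812) (nat_lit 6) (nat_lit 37) (nat_lit 4) (nat_lit 102) (nat_lit 131) (nat_lit 127)) (PT.nd (nat_lit 78) (PT.lf (nat_lit 3040) (nat_lit 6) (nat_lit 40) (nat_lit 4) (nat_lit 103) (nat_lit 131) (nat_lit 126)) (PT.lf (nat_lit 3268) (nat_lit 6) (nat_lit 43) (nat_lit 4) (nat_lit 104) (nat_lit 131) (nat_lit 125))))) (PT.nd (nat_lit 1560) (PT.nd (nat_lit 1482) (PT.lf (nat_lit 3572) (nat_lit 6) (nat_lit 47) (nat_lit 4) (nat_lit 105) (nat_lit 131) (nat_lit 124)) (PT.lf (nat_lit 3572) (nat_lit 6) (nat_lit 47) (nat_lit 2) (nat_lit 124) (nat_lit 131) (nat_lit 105))) (PT.nd (nat_lit 78) (PT.lf (nat_lit 3268) (nat_lit 6) (nat_lit 43) (nat_lit 2) (nat_lit 125) (nat_lit 131)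 (nat_lit 104)) (PT.nd (nat_lit 78) (PT.lf (nat_lit 3040) (nat_lit 6) (nat_lit 40) (nat_lit 2) (nat_lit 126) (nat_lit 131) (nat_lit 103)) (PT.lf (nat_lit 2812) (nat_lit 6) (nat_lit 37) (nat_lit 2) (nat_lit 127) (nat_lit 131) (nat_lit 102)))))) (PT.nd (nat_lit 390) (PT.nd (nat_lit 156) (PT.nd (nat_lit 78) (PT.lf (nat_lit 2660) (nat_lit 6) (nat_lit 35) (nat_lit 2) (nat_lit 128) (nat_lit 131) (nat_lit 101)) (PT.lf (nat_lit 2432) (nat_lit 6) (nat_lit 32) (nat_lit 2) (nat_lit 129) (nat_lit 131) (nat_lit 100))) (PT.nd (nat_lit 78) (PT.lf (nat_lit 2280) (nat_lit 6) (nat_lit 30) (nat_lit 2) (nat_lit 130) (nat_lit 131) (nat_lit 99)) (PT.nd (nat_lit 78) (PT.lf (nat_lit 2128) (nat_lit 3) (nat_lit 28) (nat_lit 0) (nat_lit 131) (nat_lit 131) (nat_lit 98)) (PT.lf (nat_lit 1900) (nat_lit 6) (nat_lit 25) (nat_lit 0) (nat_lit 132) (nat_lit 131) (nat_lit 97))))) (PT.nd (nat_lit 34476) (PT.nd (nat_lit 78) (PT.lf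 (nat_lit 1672) (nat_lit 6) (nat_lit 22) (nat_lit 0) (nat_lit 133) (nat_lit 131) (nat_lit 96)) (PT.nd (nat_lit 34320) (PT.lf (nat_lit 1520) (nat_lit 6) (nat_lit 20) (nat_lit 0) (nat_lit 134) (nat_lit 131) (nat_lit 95)) (PT.lf (nat_lit 1216) (nat_lit 6) (nat_lit 16) (nat_lit 5) (nat_lit 93) (nat_lit 132) (nat_lit 135)))) (PT.nd (nat_lit 78) (PT.lf (nat_lit 1368) (nat_lit 6) (nat_lit 18) (nat_lit 5) (nat_lit 94) (nat_lit 132) (nat_lit 134)) (PT.nd (nat_lit 78) (PT.lf (nat_lit 1596) (nat_lit 6) (nat_lit 21) (nat_lit 5) (nat_lit 95) (nat_lit 132) (nat_lit 133)) (PT.lf (nat_lit 1748) (nat_lit 3) (nat_lit 23) (nat_lit 4) (nat_lit 96) (nat_lit 132) (nat_lit 132))))))))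
noncomputable def pc14 : PT := (PT.nd (nat_lit 40014) (PT.nd (nat_lit 2730) (PT.nd (nat_lit 2340) (PT.nd (nat_lit 156) (PT.nd (nat_lit 78) (PT.lf (nat_lit 1900) (nat_lit 6) (nat_lit 25) (nat_lit 4) (nat_lit 97) (nat_lit 132) (nat_lit 131)) (PT.lf (nat_lit 2052) (nat_lit 6) (nat_lit 27) (nat_lit 4) (nat_lit 98) (nat_lit 132) (nat_lit 130))) (PT.nd (nat_lit 78) (PT.lf (nat_lit 2204) (nat_lit 6) (nat_lit 29) (nat_lit 4) (nat_lit 99) (nat_lit 132) (nat_lit 129)) (PT.nd (nat_lit 78) (PT.lf (nat_lit 2356) (nat_lit 6) (nat_lit 31) (nat_lit 4) (nat_lit 100) (nat_lit 132) (nat_lit 128)) (PT.lf (nat_lit 2584) (nat_lit 6) (nat_lit 34) (nat_lit 4) (nat_lit 101) (nat_lit 132) (nat_lit 127))))) (PT.nd (nat_lit 156) (PT.nd (nat_lit 78) (PT.lf (nat_lit 2584) (nat_lit 6) (nat_lit 34) (nat_lit 2) (nat_lit 127) (nat_lit 132) (nat_lit 101)) (PT.lf (nat_lit 2356) (nat_lit 6) (nat_lit 31) (nat_lit 2) (nat_lit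 128) (nat_lit 132) (nat_lit 100))) (PT.nd (nat_lit 78) (PT.lf (nat_lit 2204) (nat_lit 6) (nat_lit 29) (nat_lit 2) (nat_lit 129) (nat_lit 132) (nat_lit 99)) (PT.nd (nat_lit 78) (PT.lf (nat_lit 2052) (nat_lit 6) (nat_lit 27) (nat_lit 2) (nat_lit 130) (nat_lit 132) (nat_lit 98)) (PT.lf (nat_lit 1900) (nat_lit 6) (nat_lit 25) (nat_lit 2) (nat_lit 131) (nat_lit 132) (nat_lit 97)))))) (PT.nd (nat_lit 34476) (PT.nd (nat_lit 156) (PT.nd (nat_lit 78) (PT.lf (nat_lit 1748) (nat_lit 3) (nat_lit 23) (nat_lit 0) (nat_lit 132) (nat_lit 132) (nat_lit 96)) (PT.lf (nat_lit 1596) (nat_lit 6) (nat_lit 21) (nat_lit 0) (nat_lit 133) (nat_lit 132) (nat_lit 95))) (PT.nd (nat_lit 78) (PT.lf (nat_lit 1368) (nat_lit 6) (nat_lit 18) (nat_lit 0) (nat_lit 134) (nat_lit 132) (nat_lit 94)) (PT.nd (nat_lit 34164) (PT.lf (nat_lit 1216) (nat_lit 6) (nat_lit 16) (nat_lit 0) (nat_lit 135) (nat_lit 132) (nat_lit 93)) (PT.lf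 (nat_lit 1064) (nat_lit 6) (nat_lit 14) (nat_lit 5) (nat_lit 92) (nat_lit 133) (nat_lit 135))))) (PT.nd (nat_lit 234) (PT.nd (nat_lit 78) (PT.lf (nat_lit 1292) (nat_lit 6) (nat_lit 17) (nat_lit 5) (nat_lit 93) (nat_lit 133) (nat_lit 134)) (PT.nd (nat_lit 78) (PT.lf (nat_lit 1444) (nat_lit 3) (nat_lit 19) (nat_lit 4) (nat_lit 94) (nat_lit 133) (nat_lit 133)) (PT.lf (nat_lit 1596) (nat_lit 6) (nat_lit 21) (nat_lit 4) (nat_lit 95) (nat_lit 133) (nat_lit 132)))) (PT.nd (nat_lit 78) (PT.lf (nat_lit 1672) (nat_lit 6) (nat_lit 22) (nat_lit 4) (nat_lit 96) (nat_lit 133) (nat_lit 131)) (PT.nd (nat_lit 78) (PT.lf (nat_lit 1824) (nat_lit 6) (nat_lit 24) (nat_lit 4) (nat_lit 97) (nat_lit 133) (nat_lit 130)) (PT.lf (nat_lit 1976) (nat_lit 6) (nat_lit 26) (nat_lit 4) (nat_lit 98) (nat_lit 133) (nat_lit 129))))))) (PT.nd (nat_lit 34710) (PT.nd (nat_lit 390) (PT.nd (nat_lit 156) (PT.nd (nat_lit 78) (PT.lf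 (nat_lit 1976) (nat_lit 6) (nat_lit 26) (nat_lit 2) (nat_lit 129) (nat_lit 133) (nat_lit 98)) (PT.lf (nat_lit 1824) (nat_lit 6) (nat_lit 24) (nat_lit 2) (nat_lit 130) (nat_lit 133) (nat_lit 97))) (PT.nd (nat_lit 78) (PT.lf (nat_lit 1672) (nat_lit 6) (nat_lit 22) (nat_lit 2) (nat_lit 131) (nat_lit 133) (nat_lit 96)) (PT.nd (nat_lit 78) (PT.lf (nat_lit 1596) (nat_lit 6) (nat_lit 21) (nat_lit 2) (nat_lit 132) (nat_lit 133) (nat_lit 95)) (PT.lf (nat_lit 1444) (nat_lit 3) (nat_lit 19) (nat_lit 0) (nat_lit 133) (nat_lit 133) (nat_lit 94))))) (PT.nd (nat_lit 34086) (PT.nd (nat_lit 78) (PT.lf (nat_lit 1292) (nat_lit 6) (nat_lit 17) (nat_lit 0) (nat_lit 134) (nat_lit 133) (nat_lit 93)) (PT.lf (nat_lit 1064) (nat_lit 6) (nat_lit 14) (nat_lit 0) (nat_lit 135) (nat_lit 133) (nat_lit 92))) (PT.nd (nat_lit 78) (PT.lf (nat_lit 836) (nat_lit 6) (nat_lit 11) (nat_lit 5) (nat_lit 90) (nat_lit 134) (nat_lit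 136)) (PT.nd (nat_lit 78) (PT.lf (nat_lit 988) (nat_lit 6) (nat_lit 13) (nat_lit 5) (nat_lit 91) (nat_lit 134) (nat_lit 135)) (PT.lf (nat_lit 1140) (nat_lit 3) (nat_lit 15) (nat_lit 4) (nat_lit 92) (nat_lit 134) (nat_lit 134)))))) (PT.nd (nat_lit 3120) (PT.nd (nat_lit 156) (PT.nd (nat_lit 78) (PT.lf (nat_lit 1292) (nat_lit 6) (nat_lit 17) (nat_lit 4) (nat_lit 93) (nat_lit 134) (nat_lit 133)) (PT.lf (nat_lit 1368) (nat_lit 6) (nat_lit 18) (nat_lit 4) (nat_lit 94) (nat_lit 134) (nat_lit 132))) (PT.nd (nat_lit 2808) (PT.lf (nat_lit 1520) (nat_lit 6) (nat_lit 20) (nat_lit 4) (nat_lit 95) (nat_lit 134) (nat_lit 131)) (PT.nd (nat_lit 78) (PT.lf (nat_lit 1520) (nat_lit 6) (nat_lit 20) (nat_lit 2) (nat_lit 131) (nat_lit 134) (nat_lit 95)) (PT.lf (nat_lit 1368) (nat_lit 6) (nat_lit 18) (nat_lit 2) (nat_lit 132) (nat_lit 134) (nat_lit 94))))) (PT.nd (nat_lit 234) (PT.nd (nat_lit 78) (PT.lf (nat_lit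 1292) (nat_lit 6) (nat_lit 17) (nat_lit 2) (nat_lit 133) (nat_lit 134) (nat_lit 93)) (PT.nd (nat_lit 78) (PT.lf (nat_lit 1140) (nat_lit 3) (nat_lit 15) (nat_lit 0) (nat_lit 134) (nat_lit 134) (nat_lit 92)) (PT.lf (nat_lit 988) (nat_lit 6) (nat_lit 13) (nat_lit 0) (nat_lit 135) (nat_lit 134) (nat_lit 91)))) (PT.nd (nat_lit 33774) (PT.lf (nat_lit 836) (nat_lit 6) (nat_lit 11) (nat_lit 0) (nat_lit 136) (nat_lit 134) (nat_lit 90)) (PT.nd (nat_lit 78) (PT.lf (nat_lit 608) (nat_lit 6) (nat_lit 8) (nat_lit 5) (nat_lit 88) (nat_lit 135) (nat_lit 137)) (PT.lf (nat_lit 760) (nat_lit 6) (nat_lit 10) (nat_lit 5) (nat_lit 89) (nat_lit 135) (nat_lit 136))))))))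
noncomputable def pc15 : PT := (PT.nd (nat_lit 74646) (PT.nd (nat_lit 37206) (PT.nd (nat_lit 3354) (PT.nd (nat_lit 156) (PT.nd (nat_lit 78) (PT.lf (nat_lit 912) (nat_lit 3) (nat_lit 12) (nat_lit 4) (nat_lit 90) (nat_lit 135) (nat_lit 135)) (PT.lf (nat_lit 988) (nat_lit 6) (nat_lit 13) (nat_lit 4) (nat_lit 91) (nat_lit 135) (nat_lit 134))) (PT.nd (nat_lit 78) (PT.lf (nat_lit 1064) (nat_lit 6) (nat_lit 14) (nat_lit 4) (nat_lit 92) (nat_lit 135) (nat_lit 133)) (PT.nd (nat_lit 3042) (PT.lf (nat_lit 1216) (nat_lit 6) (nat_lit 16) (nat_lit 4) (nat_lit 93) (nat_lit 135) (nat_lit 132)) (PT.lf (nat_lit 1216) (nat_lit 6) (nat_lit 16) (nat_lit 2) (nat_lit 132) (nat_lit 135) (nat_lit 93))))) (PT.nd (nat_lit 156) (PT.nd (nat_lit 78) (PT.lf (nat_lit 1064) (nat_lit 6) (nat_lit 14) (nat_lit 2) (nat_lit 133) (nat_lit 135) (nat_lit 92)) (PT.lf (nat_lit 988) (nat_lit 6) (nat_lit 13) (nat_lit 2) (nat_lit 134)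 (nat_lit 135) (nat_lit 91))) (PT.nd (nat_lit 78) (PT.lf (nat_lit 912) (nat_lit 3) (nat_lit 12) (nat_lit 0) (nat_lit 135) (nat_lit 135) (nat_lit 90)) (PT.nd (nat_lit 78) (PT.lf (nat_lit 760) (nat_lit 6) (nat_lit 10) (nat_lit 0) (nat_lit 136) (nat_lit 135) (nat_lit 89)) (PT.lf (nat_lit 608) (nat_lit 6) (nat_lit 8) (nat_lit 0) (nat_lit 137) (nat_lit 135) (nat_lit 88)))))) (PT.nd (nat_lit 3744) (PT.nd (nat_lit 156) (PT.nd (nat_lit 78) (PT.lf (nat_lit 380) (nat_lit 6) (nat_lit 5) (nat_lit 5) (nat_lit 86) (nat_lit 136) (nat_lit 138)) (PT.lf (nat_lit 532) (nat_lit 6) (nat_lit 7) (nat_lit 5) (nat_lit 87) (nat_lit 136) (nat_lit 137))) (PT.nd (nat_lit 78) (PT.lf (nat_lit 684) (nat_lit 3) (nat_lit 9) (nat_lit 4) (nat_lit 88) (nat_lit 136) (nat_lit 136)) (PT.nd (nat_lit 78) (PT.lf (nat_lit 760) (nat_lit 6) (nat_lit 10) (nat_lit 4) (nat_lit 89) (nat_lit 136) (nat_lit 135)) (PT.lf (nat_lit 836) (nat_lit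 6) (nat_lit 11) (nat_lit 4) (nat_lit 90) (nat_lit 136) (nat_lit 134))))) (PT.nd (nat_lit 234) (PT.nd (nat_lit 78) (PT.lf (nat_lit 836) (nat_lit 6) (nat_lit 11) (nat_lit 2) (nat_lit 134) (nat_lit 136) (nat_lit 90)) (PT.nd (nat_lit 78) (PT.lf (nat_lit 760) (nat_lit 6) (nat_lit 10) (nat_lit 2) (nat_lit 135) (nat_lit 136) (nat_lit 89)) (PT.lf (nat_lit 684) (nat_lit 3) (nat_lit 9) (nat_lit 0) (nat_lit 136) (nat_lit 136) (nat_lit 88)))) (PT.nd (nat_lit 78) (PT.lf (nat_lit 532) (nat_lit 6) (nat_lit 7) (nat_lit 0) (nat_lit 137) (nat_lit 136) (nat_lit 87)) (PT.nd (nat_lit 33306) (PT.lf (nat_lit 380) (nat_lit 6) (nat_lit 5) (nat_lit 0) (nat_lit 138) (nat_lit 136) (nat_lit 86)) (PT.lf (nat_lit 152) (nat_lit 6) (nat_lit 2) (nat_lit 5) (nat_lit 84) (nat_lit 137) (nat_lit 139))))))) (PT.nd (nat_lit 37440) (PT.nd (nat_lit 3978) (PT.nd (nat_lit 156) (PT.nd (nat_lit 78) (PT.lf (nat_lit 304) (nat_lit 6) (nat_lit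 4) (nat_lit 5) (nat_lit 85) (nat_lit 137) (nat_lit 138)) (PT.lf (nat_lit 456) (nat_lit 3) (nat_lit 6) (nat_lit 4) (nat_lit 86) (nat_lit 137) (nat_lit 137))) (PT.nd (nat_lit 78) (PT.lf (nat_lit 532) (nat_lit 6) (nat_lit 7) (nat_lit 4) (nat_lit 87) (nat_lit 137) (nat_lit 136)) (PT.nd (nat_lit 3666) (PT.lf (nat_lit 608) (nat_lit 6) (nat_lit 8) (nat_lit 4) (nat_lit 88) (nat_lit 137) (nat_lit 135)) (PT.lf (nat_lit 608) (nat_lit 6) (nat_lit 8) (nat_lit 2) (nat_lit 135) (nat_lit 137) (nat_lit 88))))) (PT.nd (nat_lit 156) (PT.nd (nat_lit 78) (PT.lf (nat_lit 532) (nat_lit 6) (nat_lit 7) (nat_lit 2) (nat_lit 136) (nat_lit 137) (nat_lit 87)) (PT.lf (nat_lit 456) (nat_lit 3) (nat_lit 6) (nat_lit 0) (nat_lit 137) (nat_lit 137) (nat_lit 86))) (PT.nd (nat_lit 78) (PT.lf (nat_lit 304) (nat_lit 6) (nat_lit 4) (nat_lit 0) (nat_lit 138) (nat_lit 137) (nat_lit 85)) (PT.nd (nat_lit 33150) (PT.lf (nat_lit 152)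 (nat_lit 6) (nat_lit 2) (nat_lit 0) (nat_lit 139) (nat_lit 137) (nat_lit 84)) (PT.lf (nat_lit 76) (nat_lit 6) (nat_lit 1) (nat_lit 5) (nat_lit 83) (nat_lit 138) (nat_lit 139)))))) (PT.nd (nat_lit 4212) (PT.nd (nat_lit 156) (PT.nd (nat_lit 78) (PT.lf (nat_lit 228) (nat_lit 3) (nat_lit 3) (nat_lit 4) (nat_lit 84) (nat_lit 138) (nat_lit 138)) (PT.lf (nat_lit 304) (nat_lit 6) (nat_lit 4) (nat_lit 4) (nat_lit 85) (nat_lit 138) (nat_lit 137))) (PT.nd (nat_lit 3900) (PT.lf (nat_lit 380) (nat_lit 6) (nat_lit 5) (nat_lit 4) (nat_lit 86) (nat_lit 138) (nat_lit 136)) (PT.nd (nat_lit 78) (PT.lf (nat_lit 380) (nat_lit 6) (nat_lit 5) (nat_lit 2) (nat_lit 136) (nat_lit 138) (nat_lit 86)) (PT.lf (nat_lit 304) (nat_lit 6) (nat_lit 4) (nat_lit 2) (nat_lit 137) (nat_lit 138) (nat_lit 85))))) (PT.nd (nat_lit 33306) (PT.nd (nat_lit 78) (PT.lf (nat_lit 228) (nat_lit 3) (nat_lit 3) (nat_lit 0) (nat_lit 138) (nat_lit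 138) (nat_lit 84)) (PT.nd (nat_lit 33150) (PT.lf (nat_lit 76) (nat_lit 6) (nat_lit 1) (nat_lit 0) (nat_lit 139) (nat_lit 138) (nat_lit 83)) (PT.lf (nat_lit 76) (nat_lit 6) (nat_lit 1) (nat_lit 4) (nat_lit 83) (nat_lit 139) (nat_lit 138)))) (PT.nd (nat_lit 4134) (PT.lf (nat_lit 152) (nat_lit 6) (nat_lit 2) (nat_lit 4) (nat_lit 84) (nat_lit 139) (nat_lit 137)) (PT.nd (nat_lit 78) (PT.lf (nat_lit 152) (nat_lit 6) (nat_lit 2) (nat_lit 2) (nat_lit 137) (nat_lit 139) (nat_lit 84)) (PT.lf (nat_lit 76) (nat_lit 6) (nat_lit 1) (nat_lit 2) (nat_lit 138) (nat_lit 139) (nat_lit 83))))))))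
noncomputable def xc0 : XT := (XT.nd (nat_lit 112632) (nat_lit 0) (nat_lit 0) (XT.nd (nat_lit 74958) (nat_lit 0) (nat_lit 0) (XT.nd (nat_lit 37518) (nat_lit 0) (nat_lit 0) (XT.nd (nat_lit 37284) (nat_lit 0) (nat_lit 0) (XT.nd (nat_lit 78) (nat_lit 0) (nat_lit 0) (XT.lf (nat_lit 0) (nat_lit 95569005380) (nat_lit 76) (nat_lit 18742967075) (nat_lit 76) (nat_lit 18545839893) (nat_lit 2) (nat_lit 4) (nat_lit 3) (nat_lit 5) (nat_lit 3) (nat_lit 4) (nat_lit 335) (nat_lit 193) (nat_lit 192)) (XT.lf (nat_lit 0) (nat_lit 105973821896) (nat_lit 76) (nat_lit 16909278901) (nat_lit 76) (nat_lit 16524411547) (nat_lit 2) (nat_lit 4) (nat_lit 3) (nat_lit 5) (nat_lit 3) (nat_lit 4) (nat_lit 336) (nat_lit 193) (nat_lit 191))) (XT.nd (nat_lit 78) (nat_lit 0) (nat_lit 0) (XT.lf (nat_lit 0) (nat_lit 33142537391) (nat_lit 76) (nat_lit 12187999752) (nat_lit 76) (nat_lit 12187999752) (nat_lit 2) (nat_lit 4) (nat_lit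 3) (nat_lit 5) (nat_lit 3) (nat_lit 4) (nat_lit 332) (nat_lit 194) (nat_lit 194)) (XT.nd (nat_lit 78) (nat_lit 0) (nat_lit 0) (XT.lf (nat_lit 0) (nat_lit 75699094815) (nat_lit 76) (nat_lit 22597892282) (nat_lit 76) (nat_lit 22390908742) (nat_lit 2) (nat_lit 4) (nat_lit 3) (nat_lit 5) (nat_lit 3) (nat_lit 4) (nat_lit 333) (nat_lit 194) (nat_lit 193)) (XT.lf (nat_lit 0) (nat_lit 85391734115) (nat_lit 76) (nat_lit 20818408542) (nat_lit 76) (nat_lit 20414297820) (nat_lit 2) (nat_lit 4) (nat_lit 3) (nat_lit 5) (nat_lit 3) (nat_lit 4) (nat_lit 334) (nat_lit 194) (nat_lit 192))))) (XT.nd (nat_lit 37206) (nat_lit 0) (nat_lit 0) (XT.nd (nat_lit 78) (nat_lit 0) (nat_lit 0) (XT.lf (nat_lit 0) (nat_lit 95386070395) (nat_lit 76) (nat_lit 19033311418) (nat_lit 76) (nat_lit 18441460524) (nat_lit 2) (nat_lit 4) (nat_lit 3) (nat_lit 5) (nat_lit 3) (nat_lit 4) (nat_lit 335) (nat_lit 194) (nat_lit 191)) (XT.nd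 (nat_lit 37050) (nat_lit 0) (nat_lit 0) (XT.lf (nat_lit 0) (nat_lit 105705899694) (nat_lit 76) (nat_lit 17238350679) (nat_lit 76) (nat_lit 16467699620) (nat_lit 2) (nat_lit 4) (nat_lit 3) (nat_lit 5) (nat_lit 3) (nat_lit 4) (nat_lit 336) (nat_lit 194) (nat_lit 190)) (XT.lf (nat_lit 0) (nat_lit 24153573845) (nat_lit 76) (nat_lit 14057642414) (nat_lit 76) (nat_lit 14057642414) (nat_lit 2) (nat_lit 4) (nat_lit 3) (nat_lit 5) (nat_lit 3) (nat_lit 4) (nat_lit 330) (nat_lit 195) (nat_lit 195)))) (XT.nd (nat_lit 78) (nat_lit 0) (nat_lit 0) (XT.lf (nat_lit 0) (nat_lit 57127259683) (nat_lit 76) (nat_lit 26374296514) (nat_lit 76) (nat_lit 26156963796) (nat_lit 2) (nat_lit 4) (nat_lit 3) (nat_lit 5) (nat_lit 3) (nat_lit 4) (nat_lit 331) (nat_lit 195) (nat_lit 194)) (XT.nd (nat_lit 78) (nat_lit 0) (nat_lit 0) (XT.lf (nat_lit 0) (nat_lit 66186691455) (nat_lit 76) (nat_lit 24638164068) (nat_lit 76) (nat_lit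 24213847810) (nat_lit 2) (nat_lit 4) (nat_lit 3) (nat_lit 5) (nat_lit 3) (nat_lit 4) (nat_lit 332) (nat_lit 195) (nat_lit 193)) (XT.lf (nat_lit 0) (nat_lit 75507013081) (nat_lit 76) (nat_lit 22902753842) (nat_lit 76) (nat_lit 22281310403) (nat_lit 2) (nat_lit 4) (nat_lit 3) (nat_lit 5) (nat_lit 3) (nat_lit 4) (nat_lit 333) (nat_lit 195) (nat_lit 192)))))) (XT.nd (nat_lit 37206) (nat_lit 0) (nat_lit 0) (XT.nd (nat_lit 156) (nat_lit 0) (nat_lit 0) (XT.nd (nat_lit 78) (nat_lit 0) (nat_lit 0) (XT.lf (nat_lit 0) (nat_lit 85110415803) (nat_lit 76) (nat_lit 21163933909) (nat_lit 76) (nat_lit 20354750297) (nat_lit 2) (nat_lit 4) (nat_lit 3) (nat_lit 5) (nat_lit 3) (nat_lit 4) (nat_lit 334) (nat_lit 195) (nat_lit 191)) (XT.lf (nat_lit 0) (nat_lit 95019764866) (nat_lit 76) (nat_lit 19417564219) (nat_lit 76) (nat_lit 18429580443) (nat_lit 2) (nat_lit 4) (nat_lit 3) (nat_lit 5) (nat_lit 3) (nat_lit 4)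 (nat_lit 335) (nat_lit 195) (nat_lit 190))) (XT.nd (nat_lit 36894) (nat_lit 0) (nat_lit 0) (XT.lf (nat_lit 0) (nat_lit 105258653958) (nat_lit 76) (nat_lit 17659486751) (nat_lit 76) (nat_lit 16501217104) (nat_lit 2) (nat_lit 4) (nat_lit 3) (nat_lit 5) (nat_lit 3) (nat_lit 4) (nat_lit 336) (nat_lit 195) (nat_lit 189)) (XT.nd (nat_lit 78) (nat_lit 0) (nat_lit 0) (XT.lf (nat_lit 0) (nat_lit 15704934700) (nat_lit 76) (nat_lit 15903601791) (nat_lit 76) (nat_lit 15903601791) (nat_lit 2) (nat_lit 4) (nat_lit 3) (nat_lit 5) (nat_lit 3) (nat_lit 4) (nat_lit 328) (nat_lit 196) (nat_lit 196)) (XT.lf (nat_lit 0) (nat_lit 39705355210) (nat_lit 76) (nat_lit 30093473578) (nat_lit 76) (nat_lit 29865274225) (nat_lit 2) (nat_lit 4) (nat_lit 3) (nat_lit 5) (nat_lit 3) (nat_lit 4) (nat_lit 329) (nat_lit 196) (nat_lit 195))))) (XT.nd (nat_lit 234) (nat_lit 0) (nat_lit 0) (XT.nd (nat_lit 78) (nat_lit 0) (nat_lit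 0) (XT.lf (nat_lit 0) (nat_lit 48203845197) (nat_lit 76) (nat_lit 28390557621) (nat_lit 76) (nat_lit 27945025551) (nat_lit 2) (nat_lit 4) (nat_lit 3) (nat_lit 5) (nat_lit 3) (nat_lit 4) (nat_lit 330) (nat_lit 196) (nat_lit 194)) (XT.nd (nat_lit 78) (nat_lit 0) (nat_lit 0) (XT.lf (nat_lit 0) (nat_lit 56925573862) (nat_lit 76) (nat_lit 26694401152) (nat_lit 76) (nat_lit 26041885541) (nat_lit 2) (nat_lit 4) (nat_lit 3) (nat_lit 5) (nat_lit 3) (nat_lit 4) (nat_lit 331) (nat_lit 196) (nat_lit 193)) (XT.lf (nat_lit 0) (nat_lit 65891307227) (nat_lit 76) (nat_lit 25000965703) (nat_lit 76) (nat_lit 24151322911) (nat_lit 2) (nat_lit 4) (nat_lit 3) (nat_lit 5) (nat_lit 3) (nat_lit 4) (nat_lit 332) (nat_lit 196) (nat_lit 192)))) (XT.nd (nat_lit 78) (nat_lit 0) (nat_lit 0) (XT.lf (nat_lit 0) (nat_lit 75122392275) (nat_lit 76) (nat_lit 23306219284) (nat_lit 76) (nat_lit 22268836319) (nat_lit 2) (nat_lit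 4) (nat_lit 3) (nat_lit 5) (nat_lit 3) (nat_lit 4) (nat_lit 333) (nat_lit 196) (nat_lit 191)) (XT.nd (nat_lit 78) (nat_lit 0) (nat_lit 0) (XT.lf (nat_lit 0) (nat_lit 84640807780) (nat_lit 76) (nat_lit 21606126785) (nat_lit 76) (nat_lit 20389943656) (nat_lit 2) (nat_lit 4) (nat_lit 3) (nat_lit 5) (nat_lit 3) (nat_lit 4) (nat_lit 334) (nat_lit 196) (nat_lit 190)) (XT.lf (nat_lit 0) (nat_lit 94469216636) (nat_lit 76) (nat_lit 19896640366) (nat_lit 76) (nat_lit 18510171366) (nat_lit 2) (nat_lit 4) (nat_lit 3) (nat_lit 5) (nat_lit 3) (nat_lit 4) (nat_lit 335) (nat_lit 196) (nat_lit 189))))))) (XT.nd (nat_lit 37518) (nat_lit 0) (nat_lit 0) (XT.nd (nat_lit 37050) (nat_lit 0) (nat_lit 0) (XT.nd (nat_lit 36816) (nat_lit 0) (nat_lit 0) (XT.nd (nat_lit 36738) (nat_lit 0) (nat_lit 0) (XT.lf (nat_lit 0) (nat_lit 104631019816) (nat_lit 76) (nat_lit 18173689823) (nat_lit 76) (nat_lit 16625043803) (nat_lit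 2) (nat_lit 4) (nat_lit 3) (nat_lit 5) (nat_lit 3) (nat_lit 4) (nat_lit 336) (nat_lit 196) (nat_lit 188)) (XT.lf (nat_lit 0) (nat_lit 7731616504) (nat_lit 76) (nat_lit 17735586649) (nat_lit 76) (nat_lit 17735586649) (nat_lit 2) (nat_lit 4) (nat_lit 3) (nat_lit 5) (nat_lit 3) (nat_lit 4) (nat_lit 326) (nat_lit 197) (nat_lit 197))) (XT.nd (nat_lit 78) (nat_lit 0) (nat_lit 0) (XT.lf (nat_lit 0) (nat_lit 23297636614) (nat_lit 76) (nat_lit 33775437269) (nat_lit 76) (nat_lit 33535827948) (nat_lit 2) (nat_lit 4) (nat_lit 3) (nat_lit 5) (nat_lit 3) (nat_lit 4) (nat_lit 327) (nat_lit 197) (nat_lit 196)) (XT.nd (nat_lit 78) (nat_lit 0) (nat_lit 0) (XT.lf (nat_lit 0) (nat_lit 31301401783) (nat_lit 76) (nat_lit 32096240015) (nat_lit 76) (nat_lit 31628431341) (nat_lit 2) (nat_lit 4) (nat_lit 3) (nat_lit 5) (nat_lit 3) (nat_lit 4) (nat_lit 328) (nat_lit 197) (nat_lit 195)) (XT.lf (nat_lit 0) (nat_lit 39493585098)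 (nat_lit 76) (nat_lit 30429583448) (nat_lit 76) (nat_lit 29744442057) (nat_lit 2) (nat_lit 4) (nat_lit 3) (nat_lit 5) (nat_lit 3) (nat_lit 4) (nat_lit 329) (nat_lit 197) (nat_lit 194))))) (XT.nd (nat_lit 234) (nat_lit 0) (nat_lit 0) (XT.nd (nat_lit 78) (nat_lit 0) (nat_lit 0) (XT.lf (nat_lit 0) (nat_lit 47893691758) (nat_lit 76) (nat_lit 28771499338) (nat_lit 76) (nat_lit 27879374406) (nat_lit 2) (nat_lit 4) (nat_lit 3) (nat_lit 5) (nat_lit 3) (nat_lit 4) (nat_lit 330) (nat_lit 197) (nat_lit 193)) (XT.nd (nat_lit 78) (nat_lit 0) (nat_lit 0) (XT.lf (nat_lit 0) (nat_lit 56521722016) (nat_lit 76) (nat_lit 27118039866) (nat_lit 76) (nat_lit 26028787753) (nat_lit 2) (nat_lit 4) (nat_lit 3) (nat_lit 5) (nat_lit 3) (nat_lit 4) (nat_lit 331) (nat_lit 197) (nat_lit 192)) (XT.lf (nat_lit 0) (nat_lit 65398218803) (nat_lit 76) (nat_lit 25465268222) (nat_lit 76) (nat_lit 24188275937) (nat_lit 2) (nat_lit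 4) (nat_lit 3) (nat_lit 5) (nat_lit 3) (nat_lit 4) (nat_lit 332) (nat_lit 197) (nat_lit 191)))) (XT.nd (nat_lit 78) (nat_lit 0) (nat_lit 0) (XT.lf (nat_lit 0) (nat_lit 74544316633) (nat_lit 76) (nat_lit 23809249238) (nat_lit 76) (nat_lit 22353456788) (nat_lit 2) (nat_lit 4) (nat_lit 3) (nat_lit 5) (nat_lit 3) (nat_lit 4) (nat_lit 333) (nat_lit 197) (nat_lit 190)) (XT.nd (nat_lit 78) (nat_lit 0) (nat_lit 0) (XT.lf (nat_lit 0) (nat_lit 83981791931) (nat_lit 76) (nat_lit 22146040010) (nat_lit 76) (nat_lit 20519961689) (nat_lit 2) (nat_lit 4) (nat_lit 3) (nat_lit 5) (nat_lit 3) (nat_lit 4) (nat_lit 334) (nat_lit 197) (nat_lit 189)) (XT.lf (nat_lit 0) (nat_lit 93733114876) (nat_lit 76) (nat_lit 20471680516) (nat_lit 76) (nat_lit 18683425176) (nat_lit 2) (nat_lit 4) (nat_lit 3) (nat_lit 5) (nat_lit 3) (nat_lit 4) (nat_lit 335) (nat_lit 197) (nat_lit 188)))))) (XT.nd (nat_lit 36894) (nat_lit 0)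 (nat_lit 0) (XT.nd (nat_lit 36660) (nat_lit 0) (nat_lit 0) (XT.nd (nat_lit 36582) (nat_lit 0) (nat_lit 0) (XT.lf (nat_lit 0) (nat_lit 103821502903) (nat_lit 76) (nat_lit 18782184187) (nat_lit 76) (nat_lit 16839474542) (nat_lit 2) (nat_lit 4) (nat_lit 3) (nat_lit 5) (nat_lit 3) (nat_lit 4) (nat_lit 336) (nat_lit 197) (nat_lit 187)) (XT.lf (nat_lit 0) (nat_lit 173920747) (nat_lit 76) (nat_lit 19562778469) (nat_lit 76) (nat_lit 19562778469) (nat_lit 2) (nat_lit 4) (nat_lit 3) (nat_lit 5) (nat_lit 3) (nat_lit 4) (nat_lit 324) (nat_lit 198) (nat_lit 198))) (XT.nd (nat_lit 78) (nat_lit 0) (nat_lit 0) (XT.lf (nat_lit 0) (nat_lit 7779537622) (nat_lit 76) (nat_lit 37439075356) (nat_lit 76) (nat_lit 37187485569) (nat_lit 2) (nat_lit 4) (nat_lit 3) (nat_lit 5) (nat_lit 3) (nat_lit 4) (nat_lit 325) (nat_lit 198) (nat_lit 197)) (XT.nd (nat_lit 78) (nat_lit 0) (nat_lit 0) (XT.lf (nat_lit 0) (nat_lit 15349342009)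 (nat_lit 76) (nat_lit 35774661551) (nat_lit 76) (nat_lit 35283462443) (nat_lit 2) (nat_lit 4) (nat_lit 3) (nat_lit 5) (nat_lit 3) (nat_lit 4) (nat_lit 326) (nat_lit 198) (nat_lit 196)) (XT.lf (nat_lit 0) (nat_lit 23075277996) (nat_lit 76) (nat_lit 34128352633) (nat_lit 76) (nat_lit 33408954172) (nat_lit 2) (nat_lit 4) (nat_lit 3) (nat_lit 5) (nat_lit 3) (nat_lit 4) (nat_lit 327) (nat_lit 198) (nat_lit 195))))) (XT.nd (nat_lit 234) (nat_lit 0) (nat_lit 0) (XT.nd (nat_lit 78) (nat_lit 0) (nat_lit 0) (XT.lf (nat_lit 0) (nat_lit 30975740671) (nat_lit 76) (nat_lit 32496228818) (nat_lit 76) (nat_lit 31559497639) (nat_lit 2) (nat_lit 4) (nat_lit 3) (nat_lit 5) (nat_lit 3) (nat_lit 4) (nat_lit 328) (nat_lit 198) (nat_lit 194)) (XT.nd (nat_lit 78) (nat_lit 0) (nat_lit 0) (XT.lf (nat_lit 0) (nat_lit 39069540659) (nat_lit 76) (nat_lit 30874404097) (nat_lit 76) (nat_lit 29730689379) (nat_lit 2) (nat_lit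 4) (nat_lit 3) (nat_lit 5) (nat_lit 3) (nat_lit 4) (nat_lit 329) (nat_lit 198) (nat_lit 193)) (XT.lf (nat_lit 0) (nat_lit 47375948912) (nat_lit 76) (nat_lit 29259016984) (nat_lit 76) (nat_lit 27918175084) (nat_lit 2) (nat_lit 4) (nat_lit 3) (nat_lit 5) (nat_lit 3) (nat_lit 4) (nat_lit 330) (nat_lit 198) (nat_lit 192)))) (XT.nd (nat_lit 78) (nat_lit 0) (nat_lit 0) (XT.lf (nat_lit 0) (nat_lit 55914742592) (nat_lit 76) (nat_lit 27646221318) (nat_lit 76) (nat_lit 26117639245) (nat_lit 2) (nat_lit 4) (nat_lit 3) (nat_lit 5) (nat_lit 3) (nat_lit 4) (nat_lit 331) (nat_lit 198) (nat_lit 191)) (XT.nd (nat_lit 78) (nat_lit 0) (nat_lit 0) (XT.lf (nat_lit 0) (nat_lit 64706252162) (nat_lit 76) (nat_lit 26032177109) (nat_lit 76) (nat_lit 24324794872) (nat_lit 2) (nat_lit 4) (nat_lit 3) (nat_lit 5) (nat_lit 3) (nat_lit 4) (nat_lit 332) (nat_lit 198) (nat_lit 190)) (XT.lf (nat_lit 0) (nat_lit 73771409785)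 (nat_lit 76) (nat_lit 24413041396) (nat_lit 76) (nat_lit 22535373288) (nat_lit 2) (nat_lit 4) (nat_lit 3) (nat_lit 5) (nat_lit 3) (nat_lit 4) (nat_lit 333) (nat_lit 198) (nat_lit 189))))))))
noncomputable def xc1 : XT := (XT.nd (nat_lit 74412) (nat_lit 0) (nat_lit 0) (XT.nd (nat_lit 37284) (nat_lit 0) (nat_lit 0) (XT.nd (nat_lit 36816) (nat_lit 0) (nat_lit 0) (XT.nd (nat_lit 36582) (nat_lit 0) (nat_lit 0) (XT.nd (nat_lit 78) (nat_lit 0) (nat_lit 0) (XT.lf (nat_lit 0) (nat_lit 83131799172) (nat_lit 76) (nat_lit 22784959092) (nat_lit 76) (nat_lit 20745113965) (nat_lit 2) (nat_lit 4) (nat_lit 3) (nat_lit 5) (nat_lit 3) (nat_lit 4) (nat_lit 334) (nat_lit 198) (nat_lit 188)) (XT.lf (nat_lit 0) (nat_lit 92809706963) (nat_lit 76) (nat_lit 21144053813) (nat_lit 76) (nat_lit 18949754381) (nat_lit 2) (nat_lit 4) (nat_lit 3) (nat_lit 5) (nat_lit 3) (nat_lit 4) (nat_lit 335) (nat_lit 198) (nat_lit 187)))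 (XT.nd (nat_lit 78) (nat_lit 76) (nat_lit 0) (XT.lf (nat_lit 0) (nat_lit 14438333086) (nat_lit 152) (nat_lit 6886030746) (nat_lit 0) (nat_lit 14438333086) (nat_lit 3) (nat_lit 5) (nat_lit 5) (nat_lit 4) (nat_lit 3) (nat_lit 4) (nat_lit 322) (nat_lit 199) (nat_lit 199)) (XT.nd (nat_lit 78) (nat_lit 76) (nat_lit 0) (XT.lf (nat_lit 0) (nat_lit 34205786969) (nat_lit 152) (nat_lit 6827559077) (nat_lit 0) (nat_lit 33941617693) (nat_lit 3) (nat_lit 5) (nat_lit 5) (nat_lit 4) (nat_lit 3) (nat_lit 4) (nat_lit 323) (nat_lit 199) (nat_lit 198)) (XT.lf (nat_lit 0) (nat_lit 228255945) (nat_lit 76) (nat_lit 39444219604) (nat_lit 76) (nat_lit 38928460541) (nat_lit 2) (nat_lit 4) (nat_lit 3) (nat_lit 5) (nat_lit 3) (nat_lit 4) (nat_lit 324) (nat_lit 199) (nat_lit 197))))) (XT.nd (nat_lit 234) (nat_lit 0) (nat_lit 0) (XT.nd (nat_lit 78) (nat_lit 0) (nat_lit 0) (XT.lf (nat_lit 0) (nat_lit 7546061074) (nat_lit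 76) (nat_lit 37809636488) (nat_lit 76) (nat_lit 37054268104) (nat_lit 2) (nat_lit 4) (nat_lit 3) (nat_lit 5) (nat_lit 3) (nat_lit 4) (nat_lit 325) (nat_lit 199) (nat_lit 196)) (XT.nd (nat_lit 78) (nat_lit 0) (nat_lit 0) (XT.lf (nat_lit 0) (nat_lit 15007397842) (nat_lit 76) (nat_lit 36194649794) (nat_lit 76) (nat_lit 35211082057) (nat_lit 2) (nat_lit 4) (nat_lit 3) (nat_lit 5) (nat_lit 3) (nat_lit 4) (nat_lit 326) (nat_lit 199) (nat_lit 195)) (XT.lf (nat_lit 0) (nat_lit 22630031336) (nat_lit 76) (nat_lit 34595414314) (nat_lit 76) (nat_lit 33394513860) (nat_lit 2) (nat_lit 4) (nat_lit 3) (nat_lit 5) (nat_lit 3) (nat_lit 4) (nat_lit 327) (nat_lit 199) (nat_lit 194)))) (XT.nd (nat_lit 78) (nat_lit 0) (nat_lit 0) (XT.lf (nat_lit 0) (nat_lit 30432110683) (nat_lit 76) (nat_lit 33008122346) (nat_lit 76) (nat_lit 31600238351) (nat_lit 2) (nat_lit 4) (nat_lit 3) (nat_lit 5) (nat_lit 3) (nat_lit 4)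 (nat_lit 328) (nat_lit 199) (nat_lit 193)) (XT.nd (nat_lit 78) (nat_lit 0) (nat_lit 0) (XT.lf (nat_lit 0) (nat_lit 38432212264) (nat_lit 76) (nat_lit 31428994622) (nat_lit 76) (nat_lit 29823983446) (nat_lit 2) (nat_lit 4) (nat_lit 3) (nat_lit 5) (nat_lit 3) (nat_lit 4) (nat_lit 329) (nat_lit 199) (nat_lit 192)) (XT.lf (nat_lit 0) (nat_lit 46649383939) (nat_lit 76) (nat_lit 29854271315) (nat_lit 76) (nat_lit 28061519966) (nat_lit 2) (nat_lit 4) (nat_lit 3) (nat_lit 5) (nat_lit 3) (nat_lit 4) (nat_lit 330) (nat_lit 199) (nat_lit 191)))))) (XT.nd (nat_lit 36660) (nat_lit 0) (nat_lit 0) (XT.nd (nat_lit 156) (nat_lit 0) (nat_lit 0) (XT.nd (nat_lit 78) (nat_lit 0) (nat_lit 0) (XT.lf (nat_lit 0) (nat_lit 55103190402) (nat_lit 76) (nat_lit 28280203083) (nat_lit 76) (nat_lit 26308651570) (nat_lit 2) (nat_lit 4) (nat_lit 3) (nat_lit 5) (nat_lit 3) (nat_lit 4) (nat_lit 331) (nat_lit 199) (nat_lit 190))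 (XT.lf (nat_lit 0) (nat_lit 63813759765) (nat_lit 76) (nat_lit 26703042145) (nat_lit 76) (nat_lit 24561204762) (nat_lit 2) (nat_lit 4) (nat_lit 3) (nat_lit 5) (nat_lit 3) (nat_lit 4) (nat_lit 332) (nat_lit 199) (nat_lit 189))) (XT.nd (nat_lit 78) (nat_lit 0) (nat_lit 0) (XT.lf (nat_lit 0) (nat_lit 72801831477) (nat_lit 76) (nat_lit 25119033357) (nat_lit 76) (nat_lit 22815018953) (nat_lit 2) (nat_lit 4) (nat_lit 3) (nat_lit 5) (nat_lit 3) (nat_lit 4) (nat_lit 333) (nat_lit 199) (nat_lit 188)) (XT.nd (nat_lit 78) (nat_lit 0) (nat_lit 0) (XT.lf (nat_lit 0) (nat_lit 82088805710) (nat_lit 76) (nat_lit 23524405268) (nat_lit 76) (nat_lit 21065936559) (nat_lit 2) (nat_lit 4) (nat_lit 3) (nat_lit 5) (nat_lit 3) (nat_lit 4) (nat_lit 334) (nat_lit 199) (nat_lit 187)) (XT.lf (nat_lit 0) (nat_lit 91696794307) (nat_lit 76) (nat_lit 21915361144) (nat_lit 76) (nat_lit 19309793098) (nat_lit 2) (nat_lit 4)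 (nat_lit 3) (nat_lit 5) (nat_lit 3) (nat_lit 4) (nat_lit 335) (nat_lit 199) (nat_lit 186))))) (XT.nd (nat_lit 234) (nat_lit 76) (nat_lit 0) (XT.nd (nat_lit 78) (nat_lit 0) (nat_lit 0) (XT.lf (nat_lit 0) (nat_lit 9460979294) (nat_lit 152) (nat_lit 13638571757) (nat_lit 0) (nat_lit 9460979294) (nat_lit 3) (nat_lit 5) (nat_lit 5) (nat_lit 4) (nat_lit 3) (nat_lit 4) (nat_lit 320) (nat_lit 200) (nat_lit 200)) (XT.nd (nat_lit 78) (nat_lit 0) (nat_lit 0) (XT.lf (nat_lit 0) (nat_lit 23947608380) (nat_lit 152) (nat_lit 20626239925) (nat_lit 0) (nat_lit 23670230640) (nat_lit 3) (nat_lit 5) (nat_lit 5) (nat_lit 4) (nat_lit 3) (nat_lit 4) (nat_lit 321) (nat_lit 200) (nat_lit 199)) (XT.lf (nat_lit 0) (nat_lit 29086904150) (nat_lit 152) (nat_lit 13895176097) (nat_lit 0) (nat_lit 28545357134) (nat_lit 3) (nat_lit 5) (nat_lit 5) (nat_lit 4) (nat_lit 3) (nat_lit 4) (nat_lit 322) (nat_lit 200) (nat_lit 198))))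 (XT.nd (nat_lit 78) (nat_lit 76) (nat_lit 0) (XT.lf (nat_lit 0) (nat_lit 34352082317) (nat_lit 152) (nat_lit 7067925686) (nat_lit 0) (nat_lit 33558945514) (nat_lit 3) (nat_lit 5) (nat_lit 5) (nat_lit 4) (nat_lit 3) (nat_lit 4) (nat_lit 323) (nat_lit 200) (nat_lit 197)) (XT.nd (nat_lit 78) (nat_lit 76) (nat_lit 0) (XT.lf (nat_lit 0) (nat_lit 39755679019) (nat_lit 152) (nat_lit 128233334) (nat_lit 0) (nat_lit 38722932895) (nat_lit 3) (nat_lit 5) (nat_lit 5) (nat_lit 4) (nat_lit 3) (nat_lit 4) (nat_lit 324) (nat_lit 200) (nat_lit 196)) (XT.lf (nat_lit 0) (nat_lit 7078552080) (nat_lit 76) (nat_lit 38300051254) (nat_lit 76) (nat_lit 37039105777) (nat_lit 2) (nat_lit 4) (nat_lit 3) (nat_lit 5) (nat_lit 3) (nat_lit 4) (nat_lit 325) (nat_lit 200) (nat_lit 195))))))) (XT.nd (nat_lit 36972) (nat_lit 0) (nat_lit 0) (XT.nd (nat_lit 390) (nat_lit 0) (nat_lit 0) (XT.nd (nat_lit 156) (nat_lit 0) (nat_lit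 0) (XT.nd (nat_lit 78) (nat_lit 0) (nat_lit 0) (XT.lf (nat_lit 0) (nat_lit 14436586354) (nat_lit 76) (nat_lit 36732137998) (nat_lit 76) (nat_lit 35253859804) (nat_lit 2) (nat_lit 4) (nat_lit 3) (nat_lit 5) (nat_lit 3) (nat_lit 4) (nat_lit 326) (nat_lit 200) (nat_lit 194)) (XT.lf (nat_lit 0) (nat_lit 21960836521) (nat_lit 76) (nat_lit 35177734365) (nat_lit 76) (nat_lit 33492472630) (nat_lit 2) (nat_lit 4) (nat_lit 3) (nat_lit 5) (nat_lit 3) (nat_lit 4) (nat_lit 327) (nat_lit 200) (nat_lit 193))) (XT.nd (nat_lit 78) (nat_lit 0) (nat_lit 0) (XT.lf (nat_lit 0) (nat_lit 29669217462) (nat_lit 76) (nat_lit 33633139393) (nat_lit 76) (nat_lit 31750750477) (nat_lit 2) (nat_lit 4) (nat_lit 3) (nat_lit 5) (nat_lit 3) (nat_lit 4) (nat_lit 328) (nat_lit 200) (nat_lit 192)) (XT.nd (nat_lit 78) (nat_lit 0) (nat_lit 0) (XT.lf (nat_lit 0) (nat_lit 37580082465) (nat_lit 76) (nat_lit 32094675475) (nat_lit 76)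 (nat_lit 30024546387) (nat_lit 2) (nat_lit 4) (nat_lit 3) (nat_lit 5) (nat_lit 3) (nat_lit 4) (nat_lit 329) (nat_lit 200) (nat_lit 191)) (XT.lf (nat_lit 0) (nat_lit 45712266922) (nat_lit 76) (nat_lit 30558679603) (nat_lit 76) (nat_lit 28309750350) (nat_lit 2) (nat_lit 4) (nat_lit 3) (nat_lit 5) (nat_lit 3) (nat_lit 4) (nat_lit 330) (nat_lit 200) (nat_lit 190))))) (XT.nd (nat_lit 234) (nat_lit 0) (nat_lit 0) (XT.nd (nat_lit 78) (nat_lit 0) (nat_lit 0) (XT.lf (nat_lit 0) (nat_lit 54085133179) (nat_lit 76) (nat_lit 29021494642) (nat_lit 76) (nat_lit 26602279518) (nat_lit 2) (nat_lit 4) (nat_lit 3) (nat_lit 5) (nat_lit 3) (nat_lit 4) (nat_lit 331) (nat_lit 200) (nat_lit 189)) (XT.nd (nat_lit 78) (nat_lit 0) (nat_lit 0) (XT.lf (nat_lit 0) (nat_lit 62718616630) (nat_lit 76) (nat_lit 27479460630) (nat_lit 76) (nat_lit 24898068486) (nat_lit 2) (nat_lit 4) (nat_lit 3) (nat_lit 5) (nat_lit 3) (nat_lit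 4) (nat_lit 332) (nat_lit 200) (nat_lit 188)) (XT.lf (nat_lit 0) (nat_lit 71633273188) (nat_lit 76) (nat_lit 25928906055) (nat_lit 76) (nat_lit 23193059607) (nat_lit 2) (nat_lit 4) (nat_lit 3) (nat_lit 5) (nat_lit 3) (nat_lit 4) (nat_lit 333) (nat_lit 200) (nat_lit 187)))) (XT.nd (nat_lit 78) (nat_lit 0) (nat_lit 0) (XT.lf (nat_lit 0) (nat_lit 80850328228) (nat_lit 76) (nat_lit 24366139122) (nat_lit 76) (nat_lit 21483193336) (nat_lit 2) (nat_lit 4) (nat_lit 3) (nat_lit 5) (nat_lit 3) (nat_lit 4) (nat_lit 334) (nat_lit 200) (nat_lit 186)) (XT.nd (nat_lit 36192) (nat_lit 0) (nat_lit 76) (XT.lf (nat_lit 0) (nat_lit 90391727116) (nat_lit 76) (nat_lit 22787438957) (nat_lit 76) (nat_lit 19764398564) (nat_lit 2) (nat_lit 4) (nat_lit 3) (nat_lit 5) (nat_lit 3) (nat_lit 4) (nat_lit 335) (nat_lit 200) (nat_lit 185)) (XT.lf (nat_lit 0) (nat_lit 4764621958) (nat_lit 152) (nat_lit 20132962452) (nat_lit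 0) (nat_lit 4764621958) (nat_lit 3) (nat_lit 5) (nat_lit 5) (nat_lit 4) (nat_lit 3) (nat_lit 4) (nat_lit 318) (nat_lit 201) (nat_lit 201)))))) (XT.nd (nat_lit 390) (nat_lit 76) (nat_lit 0) (XT.nd (nat_lit 156) (nat_lit 0) (nat_lit 0) (XT.nd (nat_lit 78) (nat_lit 0) (nat_lit 0) (XT.lf (nat_lit 0) (nat_lit 14289235568) (nat_lit 152) (nat_lit 33863722348) (nat_lit 0) (nat_lit 13997988941) (nat_lit 3) (nat_lit 5) (nat_lit 5) (nat_lit 4) (nat_lit 3) (nat_lit 4) (nat_lit 319) (nat_lit 201) (nat_lit 200)) (XT.lf (nat_lit 0) (nat_lit 19142708465) (nat_lit 152) (nat_lit 27406413849) (nat_lit 0) (nat_lit 18574084098) (nat_lit 3) (nat_lit 5) (nat_lit 5) (nat_lit 4) (nat_lit 3) (nat_lit 4) (nat_lit 320) (nat_lit 201) (nat_lit 199))) (XT.nd (nat_lit 78) (nat_lit 0) (nat_lit 0) (XT.lf (nat_lit 0) (nat_lit 24101218496) (nat_lit 152) (nat_lit 20878624865) (nat_lit 0) (nat_lit 23268424852) (nat_lit 3) (nat_lit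 5) (nat_lit 5) (nat_lit 4) (nat_lit 3) (nat_lit 4) (nat_lit 321) (nat_lit 201) (nat_lit 198)) (XT.nd (nat_lit 78) (nat_lit 0) (nat_lit 0) (XT.lf (nat_lit 0) (nat_lit 29176571636) (nat_lit 152) (nat_lit 14264813041) (nat_lit 0) (nat_lit 28092188205) (nat_lit 3) (nat_lit 5) (nat_lit 5) (nat_lit 4) (nat_lit 3) (nat_lit 4) (nat_lit 322) (nat_lit 201) (nat_lit 197)) (XT.lf (nat_lit 0) (nat_lit 34380852059) (nat_lit 152) (nat_lit 7549231205) (nat_lit 0) (nat_lit 33056859308) (nat_lit 3) (nat_lit 5) (nat_lit 5) (nat_lit 4) (nat_lit 3) (nat_lit 4) (nat_lit 323) (nat_lit 201) (nat_lit 196))))) (XT.nd (nat_lit 234) (nat_lit 0) (nat_lit 0) (XT.nd (nat_lit 78) (nat_lit 76) (nat_lit 0) (XT.lf (nat_lit 0) (nat_lit 39726450910) (nat_lit 152) (nat_lit 715889879) (nat_lit 0) (nat_lit 38174258806) (nat_lit 3) (nat_lit 5) (nat_lit 5) (nat_lit 4) (nat_lit 3) (nat_lit 4) (nat_lit 324) (nat_lit 201) (nat_lit 195))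 (XT.nd (nat_lit 78) (nat_lit 0) (nat_lit 0) (XT.lf (nat_lit 0) (nat_lit 6375897525) (nat_lit 76) (nat_lit 38911487307) (nat_lit 76) (nat_lit 37141962486) (nat_lit 2) (nat_lit 4) (nat_lit 3) (nat_lit 5) (nat_lit 3) (nat_lit 4) (nat_lit 325) (nat_lit 201) (nat_lit 194)) (XT.lf (nat_lit 0) (nat_lit 13635548472) (nat_lit 76) (nat_lit 37388405898) (nat_lit 76) (nat_lit 35411897536) (nat_lit 2) (nat_lit 4) (nat_lit 3) (nat_lit 5) (nat_lit 3) (nat_lit 4) (nat_lit 326) (nat_lit 201) (nat_lit 193)))) (XT.nd (nat_lit 78) (nat_lit 0) (nat_lit 0) (XT.lf (nat_lit 0) (nat_lit 21066100231) (nat_lit 76) (nat_lit 35876699261) (nat_lit 76) (nat_lit 33703063718) (nat_lit 2) (nat_lit 4) (nat_lit 3) (nat_lit 5) (nat_lit 3) (nat_lit 4) (nat_lit 327) (nat_lit 201) (nat_lit 192)) (XT.nd (nat_lit 78) (nat_lit 0) (nat_lit 0) (XT.lf (nat_lit 0) (nat_lit 28685244594) (nat_lit 76) (nat_lit 34372768096) (nat_lit 76) (nat_lit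 32011392380) (nat_lit 2) (nat_lit 4) (nat_lit 3) (nat_lit 5) (nat_lit 3) (nat_lit 4) (nat_lit 328) (nat_lit 201) (nat_lit 191)) (XT.lf (nat_lit 0) (nat_lit 36511122380) (nat_lit 76) (nat_lit 32873031613) (nat_lit 76) (nat_lit 30332855733) (nat_lit 2) (nat_lit 4) (nat_lit 3) (nat_lit 5) (nat_lit 3) (nat_lit 4) (nat_lit 329) (nat_lit 201) (nat_lit 190))))))))
noncomputable def xc2 : XT := (XT.nd (nat_lit 37674) (nat_lit 0) (nat_lit 0) (XT.nd (nat_lit 36816) (nat_lit 0) (nat_lit 0) (XT.nd (nat_lit 390) (nat_lit 0) (nat_lit 0) (XT.nd (nat_lit 156) (nat_lit 0) (nat_lit 0) (XT.nd (nat_lit 78) (nat_lit 0) (nat_lit 0) (XT.lf (nat_lit 0) (nat_lit 44562366630) (nat_lit 76) (nat_lit 31373919011) (nat_lit 76) (nat_lit 28663457260) (nat_lit 2) (nat_lit 4) (nat_lit 3) (nat_lit 5) (nat_lit 3) (nat_lit 4) (nat_lit 330) (nat_lit 201) (nat_lit 189)) (XT.lf (nat_lit 0) (nat_lit 52858146976) (nat_lit 76) (nat_lit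 29871860975) (nat_lit 76) (nat_lit 26999222205) (nat_lit 2) (nat_lit 4) (nat_lit 3) (nat_lit 5) (nat_lit 3) (nat_lit 4) (nat_lit 331) (nat_lit 201) (nat_lit 188))) (XT.nd (nat_lit 78) (nat_lit 0) (nat_lit 0) (XT.lf (nat_lit 0) (nat_lit 61418215273) (nat_lit 76) (nat_lit 28363281177) (nat_lit 76) (nat_lit 25336188101) (nat_lit 2) (nat_lit 4) (nat_lit 3) (nat_lit 5) (nat_lit 3) (nat_lit 4) (nat_lit 332) (nat_lit 201) (nat_lit 187)) (XT.nd (nat_lit 78) (nat_lit 0) (nat_lit 0) (XT.lf (nat_lit 0) (nat_lit 70262952638) (nat_lit 76) (nat_lit 26844587758) (nat_lit 76) (nat_lit 23670395345) (nat_lit 2) (nat_lit 4) (nat_lit 3) (nat_lit 5) (nat_lit 3) (nat_lit 4) (nat_lit 333) (nat_lit 201) (nat_lit 186)) (XT.lf (nat_lit 0) (nat_lit 79413417969) (nat_lit 76) (nat_lit 25312164784) (nat_lit 76) (nat_lit 21997877763) (nat_lit 2) (nat_lit 4) (nat_lit 3) (nat_lit 5) (nat_lit 3) (nat_lit 4) (nat_lit 334)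 (nat_lit 201) (nat_lit 185))))) (XT.nd (nat_lit 36192) (nat_lit 0) (nat_lit 76) (XT.nd (nat_lit 36036) (nat_lit 0) (nat_lit 76) (XT.lf (nat_lit 0) (nat_lit 88891398087) (nat_lit 76) (nat_lit 23762363627) (nat_lit 76) (nat_lit 20314653171) (nat_lit 2) (nat_lit 4) (nat_lit 3) (nat_lit 5) (nat_lit 3) (nat_lit 4) (nat_lit 335) (nat_lit 201) (nat_lit 184)) (XT.nd (nat_lit 78) (nat_lit 0) (nat_lit 0) (XT.lf (nat_lit 0) (nat_lit 314049155) (nat_lit 152) (nat_lit 26411685049) (nat_lit 0) (nat_lit 314049155) (nat_lit 3) (nat_lit 5) (nat_lit 5) (nat_lit 4) (nat_lit 3) (nat_lit 4) (nat_lit 316) (nat_lit 202) (nat_lit 202)) (XT.lf (nat_lit 0) (nat_lit 5157209155) (nat_lit 152) (nat_lit 46628264861) (nat_lit 0) (nat_lit 4851400197) (nat_lit 3) (nat_lit 5) (nat_lit 5) (nat_lit 4) (nat_lit 3) (nat_lit 4) (nat_lit 317) (nat_lit 202) (nat_lit 201)))) (XT.nd (nat_lit 78) (nat_lit 0) (nat_lit 0) (XT.lf (nat_lit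 0) (nat_lit 9761031288) (nat_lit 152) (nat_lit 40401658757) (nat_lit 0) (nat_lit 9163975702) (nat_lit 3) (nat_lit 5) (nat_lit 5) (nat_lit 4) (nat_lit 3) (nat_lit 4) (nat_lit 318) (nat_lit 202) (nat_lit 200)) (XT.nd (nat_lit 78) (nat_lit 0) (nat_lit 0) (XT.lf (nat_lit 0) (nat_lit 14450526189) (nat_lit 152) (nat_lit 34128726534) (nat_lit 0) (nat_lit 13576092864) (nat_lit 3) (nat_lit 5) (nat_lit 5) (nat_lit 4) (nat_lit 3) (nat_lit 4) (nat_lit 319) (nat_lit 202) (nat_lit 199)) (XT.lf (nat_lit 0) (nat_lit 19236859325) (nat_lit 152) (nat_lit 27794532640) (nat_lit 0) (nat_lit 18098256723) (nat_lit 3) (nat_lit 5) (nat_lit 5) (nat_lit 4) (nat_lit 3) (nat_lit 4) (nat_lit 320) (nat_lit 202) (nat_lit 198)))))) (XT.nd (nat_lit 390) (nat_lit 0) (nat_lit 0) (XT.nd (nat_lit 156) (nat_lit 76) (nat_lit 0) (XT.nd (nat_lit 78) (nat_lit 0) (nat_lit 0) (XT.lf (nat_lit 0) (nat_lit 24131426725) (nat_lit 152) (nat_lit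 21383995661) (nat_lit 0) (nat_lit 22741234336) (nat_lit 3) (nat_lit 5) (nat_lit 5) (nat_lit 4) (nat_lit 3) (nat_lit 4) (nat_lit 321) (nat_lit 202) (nat_lit 197)) (XT.lf (nat_lit 0) (nat_lit 29145882122) (nat_lit 152) (nat_lit 14881852412) (nat_lit 0) (nat_lit 27516080412) (nat_lit 3) (nat_lit 5) (nat_lit 5) (nat_lit 4) (nat_lit 3) (nat_lit 4) (nat_lit 322) (nat_lit 202) (nat_lit 196))) (XT.nd (nat_lit 78) (nat_lit 76) (nat_lit 0) (XT.lf (nat_lit 0) (nat_lit 34292164695) (nat_lit 152) (nat_lit 8272621601) (nat_lit 0) (nat_lit 32434163632) (nat_lit 3) (nat_lit 5) (nat_lit 5) (nat_lit 4) (nat_lit 3) (nat_lit 4) (nat_lit 323) (nat_lit 202) (nat_lit 195)) (XT.nd (nat_lit 78) (nat_lit 76) (nat_lit 0) (XT.lf (nat_lit 0) (nat_lit 39582527498) (nat_lit 152) (nat_lit 1540566964) (nat_lit 0) (nat_lit 37507193718) (nat_lit 3) (nat_lit 5) (nat_lit 5) (nat_lit 4) (nat_lit 3) (nat_lit 4) (nat_lit 324) (nat_lit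 202) (nat_lit 194)) (XT.lf (nat_lit 0) (nat_lit 5436424421) (nat_lit 76) (nat_lit 39645400448) (nat_lit 76) (nat_lit 37363083128) (nat_lit 2) (nat_lit 4) (nat_lit 3) (nat_lit 5) (nat_lit 3) (nat_lit 4) (nat_lit 325) (nat_lit 202) (nat_lit 193))))) (XT.nd (nat_lit 234) (nat_lit 0) (nat_lit 0) (XT.nd (nat_lit 78) (nat_lit 0) (nat_lit 0) (XT.lf (nat_lit 0) (nat_lit 12602376961) (nat_lit 76) (nat_lit 38165016036) (nat_lit 76) (nat_lit 35685571534) (nat_lit 2) (nat_lit 4) (nat_lit 3) (nat_lit 5) (nat_lit 3) (nat_lit 4) (nat_lit 326) (nat_lit 202) (nat_lit 192)) (XT.nd (nat_lit 78) (nat_lit 0) (nat_lit 0) (XT.lf (nat_lit 0) (nat_lit 19943692142) (nat_lit 76) (nat_lit 36693973205) (nat_lit 76) (nat_lit 34026788531) (nat_lit 2) (nat_lit 4) (nat_lit 3) (nat_lit 5) (nat_lit 3) (nat_lit 4) (nat_lit 327) (nat_lit 202) (nat_lit 191)) (XT.lf (nat_lit 0) (nat_lit 27477849288) (nat_lit 76) (nat_lit 35228769474)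 (nat_lit 76) (nat_lit 32382784636) (nat_lit 2) (nat_lit 4) (nat_lit 3) (nat_lit 5) (nat_lit 3) (nat_lit 4) (nat_lit 328) (nat_lit 202) (nat_lit 190)))) (XT.nd (nat_lit 78) (nat_lit 0) (nat_lit 0) (XT.lf (nat_lit 0) (nat_lit 35222786866) (nat_lit 76) (nat_lit 33765916262) (nat_lit 76) (nat_lit 30749645553) (nat_lit 2) (nat_lit 4) (nat_lit 3) (nat_lit 5) (nat_lit 3) (nat_lit 4) (nat_lit 329) (nat_lit 202) (nat_lit 189)) (XT.nd (nat_lit 78) (nat_lit 0) (nat_lit 0) (XT.lf (nat_lit 0) (nat_lit 43196945206) (nat_lit 76) (nat_lit 32301930586) (nat_lit 76) (nat_lit 29123482857) (nat_lit 2) (nat_lit 4) (nat_lit 3) (nat_lit 5) (nat_lit 3) (nat_lit 4) (nat_lit 330) (nat_lit 202) (nat_lit 188)) (XT.lf (nat_lit 0) (nat_lit 51419310397) (nat_lit 76) (nat_lit 30833326764) (nat_lit 76) (nat_lit 27500424730) (nat_lit 2) (nat_lit 4) (nat_lit 3) (nat_lit 5) (nat_lit 3) (nat_lit 4) (nat_lit 331) (nat_lit 202)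 (nat_lit 187))))))) (XT.nd (nat_lit 36660) (nat_lit 0) (nat_lit 0) (XT.nd (nat_lit 36192) (nat_lit 0) (nat_lit 76) (XT.nd (nat_lit 156) (nat_lit 0) (nat_lit 0) (XT.nd (nat_lit 78) (nat_lit 0) (nat_lit 0) (XT.lf (nat_lit 0) (nat_lit 59909459501) (nat_lit 76) (nat_lit 29356608122) (nat_lit 76) (nat_lit 25876606750) (nat_lit 2) (nat_lit 4) (nat_lit 3) (nat_lit 5) (nat_lit 3) (nat_lit 4) (nat_lit 332) (nat_lit 202) (nat_lit 186)) (XT.lf (nat_lit 0) (nat_lit 68687607157) (nat_lit 76) (nat_lit 27868258662) (nat_lit 76) (nat_lit 24248162683) (nat_lit 2) (nat_lit 4) (nat_lit 3) (nat_lit 5) (nat_lit 3) (nat_lit 4) (nat_lit 333) (nat_lit 202) (nat_lit 185))) (XT.nd (nat_lit 78) (nat_lit 0) (nat_lit 0) (XT.lf (nat_lit 0) (nat_lit 77774653718) (nat_lit 76) (nat_lit 26364734695) (nat_lit 76) (nat_lit 22611215281) (nat_lit 2) (nat_lit 4) (nat_lit 3) (nat_lit 5) (nat_lit 3) (nat_lit 4) (nat_lit 334) (nat_lit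 202) (nat_lit 184)) (XT.nd (nat_lit 35880) (nat_lit 0) (nat_lit 228) (XT.lf (nat_lit 0) (nat_lit 87192235008) (nat_lit 76) (nat_lit 24842456403) (nat_lit 76) (nat_lit 20961867050) (nat_lit 2) (nat_lit 4) (nat_lit 3) (nat_lit 5) (nat_lit 3) (nat_lit 4) (nat_lit 335) (nat_lit 202) (nat_lit 183)) (XT.lf (nat_lit 0) (nat_lit 16894045208) (nat_lit 76) (nat_lit 3884669667) (nat_lit 76) (nat_lit 3884669667) (nat_lit 5) (nat_lit 4) (nat_lit 6) (nat_lit 5) (nat_lit 6) (nat_lit 4) (nat_lit 314) (nat_lit 203) (nat_lit 203))))) (XT.nd (nat_lit 234) (nat_lit 0) (nat_lit 0) (XT.nd (nat_lit 78) (nat_lit 152) (nat_lit 0) (XT.lf (nat_lit 0) (nat_lit 44363410745) (nat_lit 76) (nat_lit 3805856870) (nat_lit 76) (nat_lit 3475124482) (nat_lit 5) (nat_lit 4) (nat_lit 6) (nat_lit 5) (nat_lit 6) (nat_lit 4) (nat_lit 315) (nat_lit 203) (nat_lit 202)) (XT.nd (nat_lit 78) (nat_lit 0) (nat_lit 0) (XT.lf (nat_lit 0) (nat_lit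 871475051) (nat_lit 152) (nat_lit 52965890643) (nat_lit 0) (nat_lit 244566686) (nat_lit 3) (nat_lit 5) (nat_lit 5) (nat_lit 4) (nat_lit 3) (nat_lit 4) (nat_lit 316) (nat_lit 203) (nat_lit 201)) (XT.lf (nat_lit 0) (nat_lit 5326564307) (nat_lit 152) (nat_lit 46906519257) (nat_lit 0) (nat_lit 4408409316) (nat_lit 3) (nat_lit 5) (nat_lit 5) (nat_lit 4) (nat_lit 3) (nat_lit 4) (nat_lit 317) (nat_lit 203) (nat_lit 200)))) (XT.nd (nat_lit 78) (nat_lit 0) (nat_lit 0) (XT.lf (nat_lit 0) (nat_lit 9859889690) (nat_lit 152) (nat_lit 40809183488) (nat_lit 0) (nat_lit 8664356958) (nat_lit 3) (nat_lit 5) (nat_lit 5) (nat_lit 4) (nat_lit 3) (nat_lit 4) (nat_lit 318) (nat_lit 203) (nat_lit 199)) (XT.nd (nat_lit 78) (nat_lit 0) (nat_lit 0) (XT.lf (nat_lit 0) (nat_lit 14482244830) (nat_lit 152) (nat_lit 34659365870) (nat_lit 0) (nat_lit 13022542822) (nat_lit 3) (nat_lit 5) (nat_lit 5) (nat_lit 4) (nat_lit 3)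 (nat_lit 4) (nat_lit 319) (nat_lit 203) (nat_lit 198)) (XT.lf (nat_lit 0) (nat_lit 19204635335) (nat_lit 152) (nat_lit 28442423980) (nat_lit 0) (nat_lit 17493343540) (nat_lit 3) (nat_lit 5) (nat_lit 5) (nat_lit 4) (nat_lit 3) (nat_lit 4) (nat_lit 320) (nat_lit 203) (nat_lit 197)))))) (XT.nd (nat_lit 390) (nat_lit 0) (nat_lit 0) (XT.nd (nat_lit 156) (nat_lit 76) (nat_lit 0) (XT.nd (nat_lit 78) (nat_lit 0) (nat_lit 0) (XT.lf (nat_lit 0) (nat_lit 24038304992) (nat_lit 152) (nat_lit 22143555576) (nat_lit 0) (nat_lit 22087403877) (nat_lit 3) (nat_lit 5) (nat_lit 5) (nat_lit 4) (nat_lit 3) (nat_lit 4) (nat_lit 321) (nat_lit 203) (nat_lit 196)) (XT.lf (nat_lit 0) (nat_lit 28994762539) (nat_lit 152) (nat_lit 15747763352) (nat_lit 0) (nat_lit 26815662070) (nat_lit 3) (nat_lit 5) (nat_lit 5) (nat_lit 4) (nat_lit 3) (nat_lit 4) (nat_lit 322) (nat_lit 203) (nat_lit 195))) (XT.nd (nat_lit 78) (nat_lit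 76) (nat_lit 0) (XT.lf (nat_lit 0) (nat_lit 34085809063) (nat_lit 152) (nat_lit 9239819231) (nat_lit 0) (nat_lit 31689375877) (nat_lit 3) (nat_lit 5) (nat_lit 5) (nat_lit 4) (nat_lit 3) (nat_lit 4) (nat_lit 323) (nat_lit 203) (nat_lit 194)) (XT.nd (nat_lit 78) (nat_lit 76) (nat_lit 0) (XT.lf (nat_lit 0) (nat_lit 39323566106) (nat_lit 152) (nat_lit 2604228109) (nat_lit 0) (nat_lit 36720149380) (nat_lit 3) (nat_lit 5) (nat_lit 5) (nat_lit 4) (nat_lit 3) (nat_lit 4) (nat_lit 324) (nat_lit 203) (nat_lit 193)) (XT.lf (nat_lit 0) (nat_lit 4257895927) (nat_lit 76) (nat_lit 40503538090) (nat_lit 76) (nat_lit 37702994182) (nat_lit 2) (nat_lit 4) (nat_lit 3) (nat_lit 5) (nat_lit 3) (nat_lit 4) (nat_lit 325) (nat_lit 203) (nat_lit 192))))) (XT.nd (nat_lit 234) (nat_lit 0) (nat_lit 0) (XT.nd (nat_lit 78) (nat_lit 0) (nat_lit 0) (XT.lf (nat_lit 0) (nat_lit 11334611889) (nat_lit 76) (nat_lit 39063817483)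 (nat_lit 76) (nat_lit 36075533403) (nat_lit 2) (nat_lit 4) (nat_lit 3) (nat_lit 5) (nat_lit 3) (nat_lit 4) (nat_lit 326) (nat_lit 203) (nat_lit 191)) (XT.nd (nat_lit 78) (nat_lit 0) (nat_lit 0) (XT.lf (nat_lit 0) (nat_lit 18590939853) (nat_lit 76) (nat_lit 37631502088) (nat_lit 76) (nat_lit 34464417843) (nat_lit 2) (nat_lit 4) (nat_lit 3) (nat_lit 5) (nat_lit 3) (nat_lit 4) (nat_lit 327) (nat_lit 203) (nat_lit 190)) (XT.lf (nat_lit 0) (nat_lit 26044156792) (nat_lit 76) (nat_lit 36203181628) (nat_lit 76) (nat_lit 32865811512) (nat_lit 2) (nat_lit 4) (nat_lit 3) (nat_lit 5) (nat_lit 3) (nat_lit 4) (nat_lit 328) (nat_lit 203) (nat_lit 189)))) (XT.nd (nat_lit 78) (nat_lit 0) (nat_lit 0) (XT.lf (nat_lit 0) (nat_lit 33712008459) (nat_lit 76) (nat_lit 34775455341) (nat_lit 76) (nat_lit 31275908205) (nat_lit 2) (nat_lit 4) (nat_lit 3) (nat_lit 5) (nat_lit 3) (nat_lit 4) (nat_lit 329) (nat_lit 203)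 (nat_lit 188)) (XT.nd (nat_lit 78) (nat_lit 0) (nat_lit 0) (XT.lf (nat_lit 0) (nat_lit 41612751645) (nat_lit 76) (nat_lit 33344923878) (nat_lit 76) (nat_lit 29690922438) (nat_lit 2) (nat_lit 4) (nat_lit 3) (nat_lit 5) (nat_lit 3) (nat_lit 4) (nat_lit 330) (nat_lit 203) (nat_lit 187)) (XT.lf (nat_lit 0) (nat_lit 49765197643) (nat_lit 76) (nat_lit 31908181212) (nat_lit 76) (nat_lit 28107080435) (nat_lit 2) (nat_lit 4) (nat_lit 3) (nat_lit 5) (nat_lit 3) (nat_lit 4) (nat_lit 331) (nat_lit 203) (nat_lit 186))))))))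
noncomputable def xc3 : XT := (XT.nd (nat_lit 37362) (nat_lit 0) (nat_lit 0) (XT.nd (nat_lit 36504) (nat_lit 0) (nat_lit 0) (XT.nd (nat_lit 36036) (nat_lit 0) (nat_lit 76) (XT.nd (nat_lit 156) (nat_lit 0) (nat_lit 0) (XT.nd (nat_lit 78) (nat_lit 0) (nat_lit 0) (XT.lf (nat_lit 0) (nat_lit 58188757038) (nat_lit 76) (nat_lit 30461806528) (nat_lit 76) (nat_lit 26520611143) (nat_lit 2) (nat_lit 4) (nat_lit 3) (nat_lit 5) (nat_lit 3) (nat_lit 4) (nat_lit 332) (nat_lit 203) (nat_lit 185)) (XT.lf (nat_lit 0) (nat_lit 66903485924) (nat_lit 76) (nat_lit 29002356076) (nat_lit 76) (nat_lit 24927737256) (nat_lit 2) (nat_lit 4) (nat_lit 3) (nat_lit 5) (nat_lit 3) (nat_lit 4) (nat_lit 333) (nat_lit 203) (nat_lit 184))) (XT.nd (nat_lit 78) (nat_lit 0) (nat_lit 0) (XT.lf (nat_lit 0) (nat_lit 75930133656) (nat_lit 76) (nat_lit 27526354974) (nat_lit 76) (nat_lit 23324666215) (nat_lit 2) (nat_lit 4) (nat_lit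 3) (nat_lit 5) (nat_lit 3) (nat_lit 4) (nat_lit 334) (nat_lit 203) (nat_lit 183)) (XT.nd (nat_lit 35724) (nat_lit 0) (nat_lit 228) (XT.lf (nat_lit 0) (nat_lit 85290192253) (nat_lit 76) (nat_lit 26030288934) (nat_lit 76) (nat_lit 21707581186) (nat_lit 2) (nat_lit 4) (nat_lit 3) (nat_lit 5) (nat_lit 3) (nat_lit 4) (nat_lit 335) (nat_lit 203) (nat_lit 182)) (XT.lf (nat_lit 0) (nat_lit 6717298830) (nat_lit 76) (nat_lit 7898575188) (nat_lit 76) (nat_lit 7898575188) (nat_lit 5) (nat_lit 4) (nat_lit 6) (nat_lit 5) (nat_lit 6) (nat_lit 4) (nat_lit 312) (nat_lit 204) (nat_lit 204))))) (XT.nd (nat_lit 234) (nat_lit 152) (nat_lit 0) (XT.nd (nat_lit 78) (nat_lit 0) (nat_lit 0) (XT.lf (nat_lit 0) (nat_lit 23436539143) (nat_lit 76) (nat_lit 12017460993) (nat_lit 76) (nat_lit 11670191985) (nat_lit 5) (nat_lit 4) (nat_lit 6) (nat_lit 5) (nat_lit 6) (nat_lit 4) (nat_lit 313) (nat_lit 204) (nat_lit 203)) (XT.nd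 (nat_lit 78) (nat_lit 0) (nat_lit 0) (XT.lf (nat_lit 0) (nat_lit 33644769193) (nat_lit 76) (nat_lit 8181199962) (nat_lit 76) (nat_lit 7503198565) (nat_lit 5) (nat_lit 4) (nat_lit 6) (nat_lit 5) (nat_lit 6) (nat_lit 4) (nat_lit 314) (nat_lit 204) (nat_lit 202)) (XT.lf (nat_lit 0) (nat_lit 44083593120) (nat_lit 76) (nat_lit 4279233326) (nat_lit 76) (nat_lit 3286248703) (nat_lit 5) (nat_lit 4) (nat_lit 6) (nat_lit 5) (nat_lit 6) (nat_lit 4) (nat_lit 315) (nat_lit 204) (nat_lit 201)))) (XT.nd (nat_lit 78) (nat_lit 0) (nat_lit 0) (XT.lf (nat_lit 0) (nat_lit 692415594) (nat_lit 76) (nat_lit 285606200) (nat_lit 152) (nat_lit 53110930831) (nat_lit 3) (nat_lit 5) (nat_lit 4) (nat_lit 5) (nat_lit 5) (nat_lit 4) (nat_lit 316) (nat_lit 204) (nat_lit 200)) (XT.nd (nat_lit 78) (nat_lit 0) (nat_lit 0) (XT.lf (nat_lit 0) (nat_lit 5359868880) (nat_lit 152) (nat_lit 47463690559) (nat_lit 0) (nat_lit 3827181772)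 (nat_lit 3) (nat_lit 5) (nat_lit 5) (nat_lit 4) (nat_lit 3) (nat_lit 4) (nat_lit 317) (nat_lit 204) (nat_lit 199)) (XT.lf (nat_lit 0) (nat_lit 9826054501) (nat_lit 152) (nat_lit 41489469394) (nat_lit 0) (nat_lit 8029198116) (nat_lit 3) (nat_lit 5) (nat_lit 5) (nat_lit 4) (nat_lit 3) (nat_lit 4) (nat_lit 318) (nat_lit 204) (nat_lit 198)))))) (XT.nd (nat_lit 390) (nat_lit 76) (nat_lit 0) (XT.nd (nat_lit 156) (nat_lit 0) (nat_lit 0) (XT.nd (nat_lit 78) (nat_lit 0) (nat_lit 0) (XT.lf (nat_lit 0) (nat_lit 14384467011) (nat_lit 152) (nat_lit 35456903781) (nat_lit 0) (nat_lit 12336020839) (nat_lit 3) (nat_lit 5) (nat_lit 5) (nat_lit 4) (nat_lit 3) (nat_lit 4) (nat_lit 319) (nat_lit 204) (nat_lit 197)) (XT.lf (nat_lit 0) (nat_lit 19045959773) (nat_lit 152) (nat_lit 29351630467) (nat_lit 0) (nat_lit 16757904281) (nat_lit 3) (nat_lit 5) (nat_lit 5) (nat_lit 4) (nat_lit 3) (nat_lit 4) (nat_lit 320)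 (nat_lit 204) (nat_lit 196))) (XT.nd (nat_lit 78) (nat_lit 0) (nat_lit 0) (XT.lf (nat_lit 0) (nat_lit 23821631579) (nat_lit 152) (nat_lit 23159113088) (nat_lit 0) (nat_lit 21305376734) (nat_lit 3) (nat_lit 5) (nat_lit 5) (nat_lit 4) (nat_lit 3) (nat_lit 4) (nat_lit 321) (nat_lit 204) (nat_lit 195)) (XT.nd (nat_lit 78) (nat_lit 0) (nat_lit 0) (XT.lf (nat_lit 0) (nat_lit 28722853077) (nat_lit 152) (nat_lit 16864607554) (nat_lit 0) (nat_lit 25989265515) (nat_lit 3) (nat_lit 5) (nat_lit 5) (nat_lit 4) (nat_lit 3) (nat_lit 4) (nat_lit 322) (nat_lit 204) (nat_lit 194)) (XT.lf (nat_lit 0) (nat_lit 33761293842) (nat_lit 152) (nat_lit 10453126947) (nat_lit 0) (nat_lit 30820722739) (nat_lit 3) (nat_lit 5) (nat_lit 5) (nat_lit 4) (nat_lit 3) (nat_lit 4) (nat_lit 323) (nat_lit 204) (nat_lit 193))))) (XT.nd (nat_lit 234) (nat_lit 0) (nat_lit 0) (XT.nd (nat_lit 78) (nat_lit 76) (nat_lit 0) (XT.lf (nat_lit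 0) (nat_lit 38948950161) (nat_lit 152) (nat_lit 3909405838) (nat_lit 0) (nat_lit 35811251877) (nat_lit 3) (nat_lit 5) (nat_lit 5) (nat_lit 4) (nat_lit 3) (nat_lit 4) (nat_lit 324) (nat_lit 204) (nat_lit 192)) (XT.nd (nat_lit 78) (nat_lit 0) (nat_lit 0) (XT.lf (nat_lit 0) (nat_lit 2837506024) (nat_lit 76) (nat_lit 41487943416) (nat_lit 76) (nat_lit 38162504959) (nat_lit 2) (nat_lit 4) (nat_lit 3) (nat_lit 5) (nat_lit 3) (nat_lit 4) (nat_lit 325) (nat_lit 204) (nat_lit 191)) (XT.lf (nat_lit 0) (nat_lit 9829234768) (nat_lit 76) (nat_lit 40086950244) (nat_lit 76) (nat_lit 36582711623) (nat_lit 2) (nat_lit 4) (nat_lit 3) (nat_lit 5) (nat_lit 3) (nat_lit 4) (nat_lit 326) (nat_lit 204) (nat_lit 190)))) (XT.nd (nat_lit 78) (nat_lit 0) (nat_lit 0) (XT.lf (nat_lit 0) (nat_lit 17004622526) (nat_lit 76) (nat_lit 38691518120) (nat_lit 76) (nat_lit 35016993627) (nat_lit 2) (nat_lit 4) (nat_lit 3) (nat_lit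 5) (nat_lit 3) (nat_lit 4) (nat_lit 327) (nat_lit 204) (nat_lit 189)) (XT.nd (nat_lit 78) (nat_lit 0) (nat_lit 0) (XT.lf (nat_lit 0) (nat_lit 24380753553) (nat_lit 76) (nat_lit 37298324584) (nat_lit 76) (nat_lit 33461623072) (nat_lit 2) (nat_lit 4) (nat_lit 3) (nat_lit 5) (nat_lit 3) (nat_lit 4) (nat_lit 328) (nat_lit 204) (nat_lit 188)) (XT.lf (nat_lit 0) (nat_lit 31975190067) (nat_lit 76) (nat_lit 35904052511) (nat_lit 76) (nat_lit 31912896695) (nat_lit 2) (nat_lit 4) (nat_lit 3) (nat_lit 5) (nat_lit 3) (nat_lit 4) (nat_lit 329) (nat_lit 204) (nat_lit 187))))))) (XT.nd (nat_lit 36348) (nat_lit 0) (nat_lit 0) (XT.nd (nat_lit 390) (nat_lit 0) (nat_lit 0) (XT.nd (nat_lit 156) (nat_lit 0) (nat_lit 0) (XT.nd (nat_lit 78) (nat_lit 0) (nat_lit 0) (XT.lf (nat_lit 0) (nat_lit 39806014059) (nat_lit 76) (nat_lit 34505382205) (nat_lit 76) (nat_lit 30367127051) (nat_lit 2) (nat_lit 4) (nat_lit 3) (nat_lit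 5) (nat_lit 3) (nat_lit 4) (nat_lit 330) (nat_lit 204) (nat_lit 186)) (XT.lf (nat_lit 0) (nat_lit 47891870348) (nat_lit 76) (nat_lit 33098983498) (nat_lit 76) (nat_lit 28820633736) (nat_lit 2) (nat_lit 4) (nat_lit 3) (nat_lit 5) (nat_lit 3) (nat_lit 4) (nat_lit 331) (nat_lit 204) (nat_lit 185))) (XT.nd (nat_lit 78) (nat_lit 0) (nat_lit 0) (XT.lf (nat_lit 0) (nat_lit 56252010973) (nat_lit 76) (nat_lit 31681507822) (nat_lit 76) (nat_lit 27269734624) (nat_lit 2) (nat_lit 4) (nat_lit 3) (nat_lit 5) (nat_lit 3) (nat_lit 4) (nat_lit 332) (nat_lit 204) (nat_lit 184)) (XT.nd (nat_lit 78) (nat_lit 0) (nat_lit 0) (XT.lf (nat_lit 0) (nat_lit 64906341031) (nat_lit 76) (nat_lit 30249580234) (nat_lit 76) (nat_lit 25710737098) (nat_lit 2) (nat_lit 4) (nat_lit 3) (nat_lit 5) (nat_lit 3) (nat_lit 4) (nat_lit 333) (nat_lit 204) (nat_lit 183)) (XT.lf (nat_lit 0) (nat_lit 73875466069) (nat_lit 76) (nat_lit 28799791385)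 (nat_lit 76) (nat_lit 24139929259) (nat_lit 2) (nat_lit 4) (nat_lit 3) (nat_lit 5) (nat_lit 3) (nat_lit 4) (nat_lit 334) (nat_lit 204) (nat_lit 182))))) (XT.nd (nat_lit 35724) (nat_lit 0) (nat_lit 228) (XT.nd (nat_lit 35568) (nat_lit 0) (nat_lit 228) (XT.lf (nat_lit 0) (nat_lit 83180741148) (nat_lit 76) (nat_lit 27328689394) (nat_lit 76) (nat_lit 22553571089) (nat_lit 2) (nat_lit 4) (nat_lit 3) (nat_lit 5) (nat_lit 3) (nat_lit 4) (nat_lit 335) (nat_lit 204) (nat_lit 181)) (XT.nd (nat_lit 78) (nat_lit 76) (nat_lit 0) (XT.lf (nat_lit 0) (nat_lit 8842739874) (nat_lit 152) (nat_lit 2886174506) (nat_lit 0) (nat_lit 8842739874) (nat_lit 6) (nat_lit 5) (nat_lit 8) (nat_lit 4) (nat_lit 6) (nat_lit 4) (nat_lit 310) (nat_lit 205) (nat_lit 205)) (XT.lf (nat_lit 0) (nat_lit 3615130599) (nat_lit 76) (nat_lit 19893899829) (nat_lit 76) (nat_lit 19529267371) (nat_lit 5) (nat_lit 4) (nat_lit 6) (nat_lit 5)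 (nat_lit 6) (nat_lit 4) (nat_lit 311) (nat_lit 205) (nat_lit 204)))) (XT.nd (nat_lit 78) (nat_lit 0) (nat_lit 0) (XT.lf (nat_lit 0) (nat_lit 13284110377) (nat_lit 76) (nat_lit 16229604035) (nat_lit 76) (nat_lit 15517702569) (nat_lit 5) (nat_lit 4) (nat_lit 6) (nat_lit 5) (nat_lit 6) (nat_lit 4) (nat_lit 312) (nat_lit 205) (nat_lit 203)) (XT.nd (nat_lit 78) (nat_lit 0) (nat_lit 0) (XT.lf (nat_lit 0) (nat_lit 23142730636) (nat_lit 76) (nat_lit 12514506272) (nat_lit 76) (nat_lit 11471872417) (nat_lit 5) (nat_lit 4) (nat_lit 6) (nat_lit 5) (nat_lit 6) (nat_lit 4) (nat_lit 313) (nat_lit 205) (nat_lit 202)) (XT.lf (nat_lit 0) (nat_lit 33214464284) (nat_lit 76) (nat_lit 8739761069) (nat_lit 76) (nat_lit 7382143987) (nat_lit 5) (nat_lit 4) (nat_lit 6) (nat_lit 5) (nat_lit 6) (nat_lit 4) (nat_lit 314) (nat_lit 205) (nat_lit 201)))))) (XT.nd (nat_lit 468) (nat_lit 76) (nat_lit 0) (XT.nd (nat_lit 234)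 (nat_lit 0) (nat_lit 0) (XT.nd (nat_lit 78) (nat_lit 152) (nat_lit 0) (XT.lf (nat_lit 0) (nat_lit 43523291637) (nat_lit 76) (nat_lit 4896380936) (nat_lit 76) (nat_lit 3238779829) (nat_lit 5) (nat_lit 4) (nat_lit 6) (nat_lit 5) (nat_lit 6) (nat_lit 4) (nat_lit 315) (nat_lit 205) (nat_lit 200)) (XT.nd (nat_lit 78) (nat_lit 76) (nat_lit 0) (XT.lf (nat_lit 0) (nat_lit 949194379) (nat_lit 152) (nat_lit 16435589) (nat_lit 76) (nat_lit 53134978141) (nat_lit 4) (nat_lit 5) (nat_lit 6) (nat_lit 5) (nat_lit 5) (nat_lit 4) (nat_lit 316) (nat_lit 205) (nat_lit 199)) (XT.lf (nat_lit 0) (nat_lit 5257202170) (nat_lit 152) (nat_lit 48301105366) (nat_lit 0) (nat_lit 3106333690) (nat_lit 3) (nat_lit 5) (nat_lit 5) (nat_lit 4) (nat_lit 3) (nat_lit 4) (nat_lit 317) (nat_lit 205) (nat_lit 198)))) (XT.nd (nat_lit 78) (nat_lit 0) (nat_lit 0) (XT.lf (nat_lit 0) (nat_lit 9659445161) (nat_lit 152) (nat_lit 42444136206)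 (nat_lit 0) (nat_lit 7256986894) (nat_lit 3) (nat_lit 5) (nat_lit 5) (nat_lit 4) (nat_lit 3) (nat_lit 4) (nat_lit 318) (nat_lit 205) (nat_lit 197)) (XT.nd (nat_lit 78) (nat_lit 0) (nat_lit 0) (XT.lf (nat_lit 0) (nat_lit 14156959927) (nat_lit 152) (nat_lit 36523239168) (nat_lit 0) (nat_lit 11514892340) (nat_lit 3) (nat_lit 5) (nat_lit 5) (nat_lit 4) (nat_lit 3) (nat_lit 4) (nat_lit 319) (nat_lit 205) (nat_lit 196)) (XT.lf (nat_lit 0) (nat_lit 18760454839) (nat_lit 152) (nat_lit 30524316879) (nat_lit 0) (nat_lit 15890187898) (nat_lit 3) (nat_lit 5) (nat_lit 5) (nat_lit 4) (nat_lit 3) (nat_lit 4) (nat_lit 320) (nat_lit 205) (nat_lit 195))))) (XT.nd (nat_lit 234) (nat_lit 76) (nat_lit 0) (XT.nd (nat_lit 78) (nat_lit 0) (nat_lit 0) (XT.lf (nat_lit 0) (nat_lit 23480890597) (nat_lit 152) (nat_lit 24433086189) (nat_lit 0) (nat_lit 20393290939) (nat_lit 3) (nat_lit 5) (nat_lit 5) (nat_lit 4) (nat_lit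 3) (nat_lit 4) (nat_lit 321) (nat_lit 205) (nat_lit 194)) (XT.nd (nat_lit 78) (nat_lit 0) (nat_lit 0) (XT.lf (nat_lit 0) (nat_lit 28329506335) (nat_lit 152) (nat_lit 18235044169) (nat_lit 0) (nat_lit 25034923137) (nat_lit 3) (nat_lit 5) (nat_lit 5) (nat_lit 4) (nat_lit 3) (nat_lit 4) (nat_lit 322) (nat_lit 205) (nat_lit 193)) (XT.lf (nat_lit 0) (nat_lit 33317846376) (nat_lit 152) (nat_lit 11915433576) (nat_lit 0) (nat_lit 29826135996) (nat_lit 3) (nat_lit 5) (nat_lit 5) (nat_lit 4) (nat_lit 3) (nat_lit 4) (nat_lit 323) (nat_lit 205) (nat_lit 192)))) (XT.nd (nat_lit 78) (nat_lit 76) (nat_lit 0) (XT.lf (nat_lit 0) (nat_lit 38457787720) (nat_lit 152) (nat_lit 5459207718) (nat_lit 0) (nat_lit 34778337167) (nat_lit 3) (nat_lit 5) (nat_lit 5) (nat_lit 4) (nat_lit 3) (nat_lit 4) (nat_lit 324) (nat_lit 205) (nat_lit 191)) (XT.nd (nat_lit 78) (nat_lit 0) (nat_lit 0) (XT.lf (nat_lit 0) (nat_lit 1171872830)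 (nat_lit 76) (nat_lit 42600960250) (nat_lit 76) (nat_lit 38742709533) (nat_lit 2) (nat_lit 4) (nat_lit 3) (nat_lit 5) (nat_lit 3) (nat_lit 4) (nat_lit 325) (nat_lit 205) (nat_lit 190)) (XT.lf (nat_lit 0) (nat_lit 8082661368) (nat_lit 76) (nat_lit 41236850349) (nat_lit 76) (nat_lit 37208313761) (nat_lit 2) (nat_lit 4) (nat_lit 3) (nat_lit 5) (nat_lit 3) (nat_lit 4) (nat_lit 326) (nat_lit 205) (nat_lit 189))))))))
noncomputable def xc4 : XT := (XT.nd (nat_lit 37128) (nat_lit 0) (nat_lit 0) (XT.nd (nat_lit 36270) (nat_lit 0) (nat_lit 76) (XT.nd (nat_lit 390) (nat_lit 0) (nat_lit 0) (XT.nd (nat_lit 156) (nat_lit 0) (nat_lit 0) (XT.nd (nat_lit 78) (nat_lit 0) (nat_lit 0) (XT.lf (nat_lit 0) (nat_lit 15180963214) (nat_lit 76) (nat_lit 39876545149) (nat_lit 76) (nat_lit 35685831541) (nat_lit 2) (nat_lit 4) (nat_lit 3) (nat_lit 5) (nat_lit 3) (nat_lit 4) (nat_lit 327) (nat_lit 205) (nat_lit 188))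 (XT.lf (nat_lit 0) (nat_lit 22483679088) (nat_lit 76) (nat_lit 38516805828) (nat_lit 76) (nat_lit 34171637916) (nat_lit 2) (nat_lit 4) (nat_lit 3) (nat_lit 5) (nat_lit 3) (nat_lit 4) (nat_lit 328) (nat_lit 205) (nat_lit 187))) (XT.nd (nat_lit 78) (nat_lit 0) (nat_lit 0) (XT.lf (nat_lit 0) (nat_lit 30008196408) (nat_lit 76) (nat_lit 37154394911) (nat_lit 76) (nat_lit 32662127661) (nat_lit 2) (nat_lit 4) (nat_lit 3) (nat_lit 5) (nat_lit 3) (nat_lit 4) (nat_lit 329) (nat_lit 205) (nat_lit 186)) (XT.nd (nat_lit 78) (nat_lit 0) (nat_lit 0) (XT.lf (nat_lit 0) (nat_lit 37772430691) (nat_lit 76) (nat_lit 35786068563) (nat_lit 76) (nat_lit 31153706706) (nat_lit 2) (nat_lit 4) (nat_lit 3) (nat_lit 5) (nat_lit 3) (nat_lit 4) (nat_lit 330) (nat_lit 205) (nat_lit 185)) (XT.lf (nat_lit 0) (nat_lit 45794868210) (nat_lit 76) (nat_lit 34408568864) (nat_lit 76) (nat_lit 29642783571) (nat_lit 2) (nat_lit 4)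 (nat_lit 3) (nat_lit 5) (nat_lit 3) (nat_lit 4) (nat_lit 331) (nat_lit 205) (nat_lit 184))))) (XT.nd (nat_lit 35646) (nat_lit 0) (nat_lit 304) (XT.nd (nat_lit 78) (nat_lit 0) (nat_lit 0) (XT.lf (nat_lit 0) (nat_lit 54094610007) (nat_lit 76) (nat_lit 33018616052) (nat_lit 76) (nat_lit 28125760821) (nat_lit 2) (nat_lit 4) (nat_lit 3) (nat_lit 5) (nat_lit 3) (nat_lit 4) (nat_lit 332) (nat_lit 205) (nat_lit 183)) (XT.nd (nat_lit 156) (nat_lit 0) (nat_lit 0) (XT.lf (nat_lit 0) (nat_lit 62691417371) (nat_lit 76) (nat_lit 31612900717) (nat_lit 76) (nat_lit 26599026497) (nat_lit 2) (nat_lit 4) (nat_lit 3) (nat_lit 5) (nat_lit 3) (nat_lit 4) (nat_lit 333) (nat_lit 205) (nat_lit 182)) (XT.lf (nat_lit 0) (nat_lit 80858859190) (nat_lit 76) (nat_lit 28740749212) (nat_lit 76) (nat_lit 23501851020) (nat_lit 2) (nat_lit 4) (nat_lit 3) (nat_lit 5) (nat_lit 3) (nat_lit 4) (nat_lit 335) (nat_lit 205) (nat_lit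 180)))) (XT.nd (nat_lit 78) (nat_lit 0) (nat_lit 0) (XT.lf (nat_lit 0) (nat_lit 3447118573) (nat_lit 152) (nat_lit 11920919193) (nat_lit 0) (nat_lit 3447118573) (nat_lit 6) (nat_lit 5) (nat_lit 8) (nat_lit 4) (nat_lit 6) (nat_lit 4) (nat_lit 308) (nat_lit 206) (nat_lit 206)) (XT.nd (nat_lit 78) (nat_lit 0) (nat_lit 0) (XT.lf (nat_lit 0) (nat_lit 12388701142) (nat_lit 152) (nat_lit 14948099821) (nat_lit 0) (nat_lit 12005837061) (nat_lit 6) (nat_lit 5) (nat_lit 8) (nat_lit 4) (nat_lit 6) (nat_lit 4) (nat_lit 309) (nat_lit 206) (nat_lit 205)) (XT.lf (nat_lit 0) (nat_lit 17983063348) (nat_lit 152) (nat_lit 5927277284) (nat_lit 0) (nat_lit 17235566808) (nat_lit 6) (nat_lit 5) (nat_lit 8) (nat_lit 4) (nat_lit 6) (nat_lit 4) (nat_lit 310) (nat_lit 206) (nat_lit 204)))))) (XT.nd (nat_lit 390) (nat_lit 152) (nat_lit 0) (XT.nd (nat_lit 156) (nat_lit 0) (nat_lit 0) (XT.nd (nat_lit 78) (nat_lit 0) (nat_lit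 0) (XT.lf (nat_lit 0) (nat_lit 3306631667) (nat_lit 76) (nat_lit 20415797372) (nat_lit 76) (nat_lit 19321031825) (nat_lit 5) (nat_lit 4) (nat_lit 6) (nat_lit 5) (nat_lit 6) (nat_lit 4) (nat_lit 311) (nat_lit 206) (nat_lit 203)) (XT.lf (nat_lit 0) (nat_lit 12832290222) (nat_lit 76) (nat_lit 16816093198) (nat_lit 76) (nat_lit 15390595262) (nat_lit 5) (nat_lit 4) (nat_lit 6) (nat_lit 5) (nat_lit 6) (nat_lit 4) (nat_lit 312) (nat_lit 206) (nat_lit 202))) (XT.nd (nat_lit 78) (nat_lit 0) (nat_lit 0) (XT.lf (nat_lit 0) (nat_lit 22554414079) (nat_lit 76) (nat_lit 13162511263) (nat_lit 76) (nat_lit 11422030100) (nat_lit 5) (nat_lit 4) (nat_lit 6) (nat_lit 5) (nat_lit 6) (nat_lit 4) (nat_lit 313) (nat_lit 206) (nat_lit 201)) (XT.nd (nat_lit 78) (nat_lit 0) (nat_lit 0) (XT.lf (nat_lit 0) (nat_lit 32496151153) (nat_lit 76) (nat_lit 9446352562) (nat_lit 76) (nat_lit 7405887374) (nat_lit 5) (nat_lit 4)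 (nat_lit 6) (nat_lit 5) (nat_lit 6) (nat_lit 4) (nat_lit 314) (nat_lit 206) (nat_lit 200)) (XT.lf (nat_lit 0) (nat_lit 42681172245) (nat_lit 76) (nat_lit 5658769100) (nat_lit 76) (nat_lit 3332604839) (nat_lit 5) (nat_lit 4) (nat_lit 6) (nat_lit 5) (nat_lit 6) (nat_lit 4) (nat_lit 315) (nat_lit 206) (nat_lit 199))))) (XT.nd (nat_lit 234) (nat_lit 0) (nat_lit 0) (XT.nd (nat_lit 78) (nat_lit 76) (nat_lit 0) (XT.lf (nat_lit 0) (nat_lit 791758254) (nat_lit 152) (nat_lit 990989359) (nat_lit 76) (nat_lit 52333973946) (nat_lit 4) (nat_lit 5) (nat_lit 6) (nat_lit 5) (nat_lit 5) (nat_lit 4) (nat_lit 316) (nat_lit 206) (nat_lit 198)) (XT.nd (nat_lit 78) (nat_lit 0) (nat_lit 0) (XT.lf (nat_lit 0) (nat_lit 5018319732) (nat_lit 152) (nat_lit 49420757522) (nat_lit 0) (nat_lit 2244148765) (nat_lit 3) (nat_lit 5) (nat_lit 5) (nat_lit 4) (nat_lit 3) (nat_lit 4) (nat_lit 317) (nat_lit 206) (nat_lit 197)) (XT.lf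 (nat_lit 0) (nat_lit 9359664980) (nat_lit 152) (nat_lit 43675456938) (nat_lit 0) (nat_lit 6345884692) (nat_lit 3) (nat_lit 5) (nat_lit 5) (nat_lit 4) (nat_lit 3) (nat_lit 4) (nat_lit 318) (nat_lit 206) (nat_lit 196)))) (XT.nd (nat_lit 78) (nat_lit 0) (nat_lit 0) (XT.lf (nat_lit 0) (nat_lit 13799181896) (nat_lit 152) (nat_lit 37860910925) (nat_lit 0) (nat_lit 10557202255) (nat_lit 3) (nat_lit 5) (nat_lit 5) (nat_lit 4) (nat_lit 3) (nat_lit 4) (nat_lit 319) (nat_lit 206) (nat_lit 195)) (XT.nd (nat_lit 78) (nat_lit 0) (nat_lit 0) (XT.lf (nat_lit 0) (nat_lit 18347440759) (nat_lit 152) (nat_lit 31963275325) (nat_lit 0) (nat_lit 14888128401) (nat_lit 3) (nat_lit 5) (nat_lit 5) (nat_lit 4) (nat_lit 3) (nat_lit 4) (nat_lit 320) (nat_lit 206) (nat_lit 194)) (XT.lf (nat_lit 0) (nat_lit 23015270758) (nat_lit 152) (nat_lit 25968508150) (nat_lit 0) (nat_lit 19348974859) (nat_lit 3) (nat_lit 5) (nat_lit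 5) (nat_lit 4) (nat_lit 3) (nat_lit 4) (nat_lit 321) (nat_lit 206) (nat_lit 193))))))) (XT.nd (nat_lit 858) (nat_lit 0) (nat_lit 0) (XT.nd (nat_lit 390) (nat_lit 0) (nat_lit 0) (XT.nd (nat_lit 156) (nat_lit 76) (nat_lit 0) (XT.nd (nat_lit 78) (nat_lit 0) (nat_lit 0) (XT.lf (nat_lit 0) (nat_lit 27813785772) (nat_lit 152) (nat_lit 19862336144) (nat_lit 0) (nat_lit 23950362692) (nat_lit 3) (nat_lit 5) (nat_lit 5) (nat_lit 4) (nat_lit 3) (nat_lit 4) (nat_lit 322) (nat_lit 206) (nat_lit 192)) (XT.lf (nat_lit 0) (nat_lit 32754410837) (nat_lit 152) (nat_lit 13630220802) (nat_lit 0) (nat_lit 28703247585) (nat_lit 3) (nat_lit 5) (nat_lit 5) (nat_lit 4) (nat_lit 3) (nat_lit 4) (nat_lit 323) (nat_lit 206) (nat_lit 191))) (XT.nd (nat_lit 78) (nat_lit 76) (nat_lit 0) (XT.lf (nat_lit 0) (nat_lit 37848909347) (nat_lit 152) (nat_lit 7257323754) (nat_lit 0) (nat_lit 33618945930) (nat_lit 3) (nat_lit 5) (nat_lit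 5) (nat_lit 4) (nat_lit 3) (nat_lit 4) (nat_lit 324) (nat_lit 206) (nat_lit 190)) (XT.nd (nat_lit 78) (nat_lit 76) (nat_lit 0) (XT.lf (nat_lit 0) (nat_lit 43109411061) (nat_lit 152) (nat_lit 728471436) (nat_lit 0) (nat_lit 38709161773) (nat_lit 3) (nat_lit 5) (nat_lit 5) (nat_lit 4) (nat_lit 3) (nat_lit 4) (nat_lit 325) (nat_lit 206) (nat_lit 189)) (XT.lf (nat_lit 0) (nat_lit 6090733179) (nat_lit 76) (nat_lit 42516255655) (nat_lit 76) (nat_lit 37953829347) (nat_lit 2) (nat_lit 4) (nat_lit 3) (nat_lit 5) (nat_lit 3) (nat_lit 4) (nat_lit 326) (nat_lit 206) (nat_lit 188))))) (XT.nd (nat_lit 234) (nat_lit 0) (nat_lit 0) (XT.nd (nat_lit 78) (nat_lit 0) (nat_lit 0) (XT.lf (nat_lit 0) (nat_lit 13115619872) (nat_lit 76) (nat_lit 41189404669) (nat_lit 76) (nat_lit 36472524056) (nat_lit 2) (nat_lit 4) (nat_lit 3) (nat_lit 5) (nat_lit 3) (nat_lit 4) (nat_lit 327) (nat_lit 206) (nat_lit 187)) (XT.nd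 (nat_lit 78) (nat_lit 0) (nat_lit 0) (XT.lf (nat_lit 0) (nat_lit 20348416552) (nat_lit 76) (nat_lit 39861526504) (nat_lit 76) (nat_lit 34997546554) (nat_lit 2) (nat_lit 4) (nat_lit 3) (nat_lit 5) (nat_lit 3) (nat_lit 4) (nat_lit 328) (nat_lit 206) (nat_lit 186)) (XT.lf (nat_lit 0) (nat_lit 27806344163) (nat_lit 76) (nat_lit 38529459545) (nat_lit 76) (nat_lit 33525384988) (nat_lit 2) (nat_lit 4) (nat_lit 3) (nat_lit 5) (nat_lit 3) (nat_lit 4) (nat_lit 329) (nat_lit 206) (nat_lit 185)))) (XT.nd (nat_lit 78) (nat_lit 0) (nat_lit 0) (XT.lf (nat_lit 0) (nat_lit 35507159676) (nat_lit 76) (nat_lit 37190032205) (nat_lit 76) (nat_lit 32052534212) (nat_lit 2) (nat_lit 4) (nat_lit 3) (nat_lit 5) (nat_lit 3) (nat_lit 4) (nat_lit 330) (nat_lit 206) (nat_lit 184)) (XT.nd (nat_lit 78) (nat_lit 0) (nat_lit 0) (XT.lf (nat_lit 0) (nat_lit 43469198367) (nat_lit 76) (nat_lit 35840055371) (nat_lit 76) (nat_lit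 30575487439) (nat_lit 2) (nat_lit 4) (nat_lit 3) (nat_lit 5) (nat_lit 3) (nat_lit 4) (nat_lit 331) (nat_lit 206) (nat_lit 183)) (XT.lf (nat_lit 0) (nat_lit 51711417470) (nat_lit 76) (nat_lit 34476314812) (nat_lit 76) (nat_lit 29090727891) (nat_lit 2) (nat_lit 4) (nat_lit 3) (nat_lit 5) (nat_lit 3) (nat_lit 4) (nat_lit 332) (nat_lit 206) (nat_lit 182)))))) (XT.nd (nat_lit 35646) (nat_lit 0) (nat_lit 228) (XT.nd (nat_lit 35412) (nat_lit 0) (nat_lit 304) (XT.nd (nat_lit 156) (nat_lit 0) (nat_lit 0) (XT.lf (nat_lit 0) (nat_lit 60253441315) (nat_lit 76) (nat_lit 33095563526) (nat_lit 76) (nat_lit 27594720425) (nat_lit 2) (nat_lit 4) (nat_lit 3) (nat_lit 5) (nat_lit 3) (nat_lit 4) (nat_lit 333) (nat_lit 206) (nat_lit 181)) (XT.lf (nat_lit 0) (nat_lit 78319018090) (nat_lit 76) (nat_lit 30269830435) (nat_lit 76) (nat_lit 24554678790) (nat_lit 2) (nat_lit 4) (nat_lit 3) (nat_lit 5) (nat_lit 3) (nat_lit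 4) (nat_lit 335) (nat_lit 206) (nat_lit 179))) (XT.nd (nat_lit 78) (nat_lit 152) (nat_lit 0) (XT.lf (nat_lit 0) (nat_lit 13909586499) (nat_lit 76) (nat_lit 1659117453) (nat_lit 76) (nat_lit 1659117453) (nat_lit 8) (nat_lit 4) (nat_lit 9) (nat_lit 5) (nat_lit 9) (nat_lit 4) (nat_lit 306) (nat_lit 207) (nat_lit 207)) (XT.nd (nat_lit 78) (nat_lit 0) (nat_lit 0) (XT.lf (nat_lit 0) (nat_lit 1888596590) (nat_lit 152) (nat_lit 32629668550) (nat_lit 0) (nat_lit 1486589304) (nat_lit 6) (nat_lit 5) (nat_lit 8) (nat_lit 4) (nat_lit 6) (nat_lit 4) (nat_lit 307) (nat_lit 207) (nat_lit 206)) (XT.lf (nat_lit 0) (nat_lit 7206699925) (nat_lit 152) (nat_lit 24004513073) (nat_lit 0) (nat_lit 6421828559) (nat_lit 6) (nat_lit 5) (nat_lit 8) (nat_lit 4) (nat_lit 6) (nat_lit 4) (nat_lit 308) (nat_lit 207) (nat_lit 205))))) (XT.nd (nat_lit 234) (nat_lit 0) (nat_lit 0) (XT.nd (nat_lit 78) (nat_lit 76) (nat_lit 0)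 (XT.lf (nat_lit 0) (nat_lit 12615883438) (nat_lit 152) (nat_lit 15265702778) (nat_lit 0) (nat_lit 11466379613) (nat_lit 6) (nat_lit 5) (nat_lit 8) (nat_lit 4) (nat_lit 6) (nat_lit 4) (nat_lit 309) (nat_lit 207) (nat_lit 204)) (XT.nd (nat_lit 78) (nat_lit 76) (nat_lit 0) (XT.lf (nat_lit 0) (nat_lit 18129026136) (nat_lit 152) (nat_lit 6392430975) (nat_lit 0) (nat_lit 16632253303) (nat_lit 6) (nat_lit 5) (nat_lit 8) (nat_lit 4) (nat_lit 6) (nat_lit 4) (nat_lit 310) (nat_lit 207) (nat_lit 203)) (XT.lf (nat_lit 0) (nat_lit 2688899282) (nat_lit 76) (nat_lit 21096202612) (nat_lit 76) (nat_lit 19268697391) (nat_lit 5) (nat_lit 4) (nat_lit 6) (nat_lit 5) (nat_lit 6) (nat_lit 4) (nat_lit 311) (nat_lit 207) (nat_lit 202)))) (XT.nd (nat_lit 78) (nat_lit 0) (nat_lit 0) (XT.lf (nat_lit 0) (nat_lit 12078061434) (nat_lit 76) (nat_lit 17558014266) (nat_lit 76) (nat_lit 15415525818) (nat_lit 5) (nat_lit 4)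 (nat_lit 6) (nat_lit 5) (nat_lit 6) (nat_lit 4) (nat_lit 312) (nat_lit 207) (nat_lit 201)) (XT.nd (nat_lit 78) (nat_lit 0) (nat_lit 0) (XT.lf (nat_lit 0) (nat_lit 21670188717) (nat_lit 76) (nat_lit 13963018834) (nat_lit 76) (nat_lit 11520546360) (nat_lit 5) (nat_lit 4) (nat_lit 6) (nat_lit 5) (nat_lit 6) (nat_lit 4) (nat_lit 313) (nat_lit 207) (nat_lit 200)) (XT.lf (nat_lit 0) (nat_lit 31488119530) (nat_lit 76) (nat_lit 10302656804) (nat_lit 76) (nat_lit 7574485257) (nat_lit 5) (nat_lit 4) (nat_lit 6) (nat_lit 5) (nat_lit 6) (nat_lit 4) (nat_lit 314) (nat_lit 207) (nat_lit 199))))))))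
noncomputable def xc5 : XT := (XT.nd (nat_lit 36816) (nat_lit 0) (nat_lit 0) (XT.nd (nat_lit 858) (nat_lit 76) (nat_lit 0) (XT.nd (nat_lit 390) (nat_lit 0) (nat_lit 0) (XT.nd (nat_lit 156) (nat_lit 76) (nat_lit 0) (XT.nd (nat_lit 78) (nat_lit 76) (nat_lit 0) (XT.lf (nat_lit 0) (nat_lit 41555229898) (nat_lit 76) (nat_lit 6568213027) (nat_lit 76) (nat_lit 3567947126) (nat_lit 5) (nat_lit 4) (nat_lit 6) (nat_lit 5) (nat_lit 6) (nat_lit 4) (nat_lit 315) (nat_lit 207) (nat_lit 198)) (XT.lf (nat_lit 0) (nat_lit 498682648) (nat_lit 152) (nat_lit 2247077605) (nat_lit 76) (nat_lit 51391770766) (nat_lit 4) (nat_lit 5) (nat_lit 6) (nat_lit 5) (nat_lit 5) (nat_lit 4) (nat_lit 316) (nat_lit 207) (nat_lit 197))) (XT.nd (nat_lit 78) (nat_lit 0) (nat_lit 0) (XT.lf (nat_lit 0) (nat_lit 4642652799) (nat_lit 152) (nat_lit 50825312867) (nat_lit 0) (nat_lit 1238574176) (nat_lit 3) (nat_lit 5) (nat_lit 5) (nat_lit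 4) (nat_lit 3) (nat_lit 4) (nat_lit 317) (nat_lit 207) (nat_lit 196)) (XT.nd (nat_lit 78) (nat_lit 0) (nat_lit 0) (XT.lf (nat_lit 0) (nat_lit 8926000196) (nat_lit 152) (nat_lit 45186363307) (nat_lit 0) (nat_lit 5293722220) (nat_lit 3) (nat_lit 5) (nat_lit 5) (nat_lit 4) (nat_lit 3) (nat_lit 4) (nat_lit 318) (nat_lit 207) (nat_lit 195)) (XT.lf (nat_lit 0) (nat_lit 13310281064) (nat_lit 152) (nat_lit 39473103984) (nat_lit 0) (nat_lit 9460670371) (nat_lit 3) (nat_lit 5) (nat_lit 5) (nat_lit 4) (nat_lit 3) (nat_lit 4) (nat_lit 319) (nat_lit 207) (nat_lit 194))))) (XT.nd (nat_lit 234) (nat_lit 0) (nat_lit 0) (XT.nd (nat_lit 78) (nat_lit 0) (nat_lit 0) (XT.lf (nat_lit 0) (nat_lit 17805934168) (nat_lit 152) (nat_lit 33671931898) (nat_lit 0) (nat_lit 13749339934) (nat_lit 3) (nat_lit 5) (nat_lit 5) (nat_lit 4) (nat_lit 3) (nat_lit 4) (nat_lit 320) (nat_lit 207) (nat_lit 193)) (XT.nd (nat_lit 78)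 (nat_lit 0) (nat_lit 0) (XT.lf (nat_lit 0) (nat_lit 22423663442) (nat_lit 152) (nat_lit 27769034736) (nat_lit 0) (nat_lit 18169942027) (nat_lit 3) (nat_lit 5) (nat_lit 5) (nat_lit 4) (nat_lit 3) (nat_lit 4) (nat_lit 321) (nat_lit 207) (nat_lit 192)) (XT.lf (nat_lit 0) (nat_lit 27174463481) (nat_lit 152) (nat_lit 21750357981) (nat_lit 0) (nat_lit 22733001893) (nat_lit 3) (nat_lit 5) (nat_lit 5) (nat_lit 4) (nat_lit 3) (nat_lit 4) (nat_lit 322) (nat_lit 207) (nat_lit 191)))) (XT.nd (nat_lit 78) (nat_lit 0) (nat_lit 0) (XT.lf (nat_lit 0) (nat_lit 32069645713) (nat_lit 152) (nat_lit 15601571450) (nat_lit 0) (nat_lit 27449383961) (nat_lit 3) (nat_lit 5) (nat_lit 5) (nat_lit 4) (nat_lit 3) (nat_lit 4) (nat_lit 323) (nat_lit 207) (nat_lit 190)) (XT.nd (nat_lit 78) (nat_lit 0) (nat_lit 0) (XT.lf (nat_lit 0) (nat_lit 37120865334) (nat_lit 152) (nat_lit 9308035174) (nat_lit 0) (nat_lit 32330317711)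 (nat_lit 3) (nat_lit 5) (nat_lit 5) (nat_lit 4) (nat_lit 3) (nat_lit 4) (nat_lit 324) (nat_lit 207) (nat_lit 189)) (XT.lf (nat_lit 0) (nat_lit 42340149058) (nat_lit 152) (nat_lit 2854764544) (nat_lit 0) (nat_lit 37387424415) (nat_lit 3) (nat_lit 5) (nat_lit 5) (nat_lit 4) (nat_lit 3) (nat_lit 4) (nat_lit 325) (nat_lit 207) (nat_lit 188)))))) (XT.nd (nat_lit 390) (nat_lit 0) (nat_lit 0) (XT.nd (nat_lit 156) (nat_lit 0) (nat_lit 0) (XT.nd (nat_lit 78) (nat_lit 0) (nat_lit 0) (XT.lf (nat_lit 0) (nat_lit 3848707516) (nat_lit 76) (nat_lit 43928212364) (nat_lit 76) (nat_lit 38821033417) (nat_lit 2) (nat_lit 4) (nat_lit 3) (nat_lit 5) (nat_lit 3) (nat_lit 4) (nat_lit 326) (nat_lit 207) (nat_lit 187)) (XT.lf (nat_lit 0) (nat_lit 10803675015) (nat_lit 76) (nat_lit 42633222535) (nat_lit 76) (nat_lit 37378944249) (nat_lit 2) (nat_lit 4) (nat_lit 3) (nat_lit 5) (nat_lit 3) (nat_lit 4) (nat_lit 327) (nat_lit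 207) (nat_lit 186))) (XT.nd (nat_lit 78) (nat_lit 0) (nat_lit 0) (XT.lf (nat_lit 0) (nat_lit 17969881986) (nat_lit 76) (nat_lit 41335688328) (nat_lit 76) (nat_lit 35941315436) (nat_lit 2) (nat_lit 4) (nat_lit 3) (nat_lit 5) (nat_lit 3) (nat_lit 4) (nat_lit 328) (nat_lit 207) (nat_lit 185)) (XT.nd (nat_lit 78) (nat_lit 0) (nat_lit 0) (XT.lf (nat_lit 0) (nat_lit 25364390827) (nat_lit 76) (nat_lit 40032520378) (nat_lit 76) (nat_lit 34504724049) (nat_lit 2) (nat_lit 4) (nat_lit 3) (nat_lit 5) (nat_lit 3) (nat_lit 4) (nat_lit 329) (nat_lit 207) (nat_lit 184)) (XT.lf (nat_lit 0) (nat_lit 33004807512) (nat_lit 76) (nat_lit 38720615902) (nat_lit 76) (nat_lit 33065749635) (nat_lit 2) (nat_lit 4) (nat_lit 3) (nat_lit 5) (nat_lit 3) (nat_lit 4) (nat_lit 330) (nat_lit 207) (nat_lit 183))))) (XT.nd (nat_lit 312) (nat_lit 0) (nat_lit 0) (XT.nd (nat_lit 78) (nat_lit 0) (nat_lit 0) (XT.lf (nat_lit 0) (nat_lit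 40909323509) (nat_lit 76) (nat_lit 37396851320) (nat_lit 76) (nat_lit 31620966064) (nat_lit 2) (nat_lit 4) (nat_lit 3) (nat_lit 5) (nat_lit 3) (nat_lit 4) (nat_lit 331) (nat_lit 207) (nat_lit 182)) (XT.nd (nat_lit 78) (nat_lit 0) (nat_lit 0) (XT.lf (nat_lit 0) (nat_lit 49096759094) (nat_lit 76) (nat_lit 36058074810) (nat_lit 76) (nat_lit 30166933374) (nat_lit 2) (nat_lit 4) (nat_lit 3) (nat_lit 5) (nat_lit 3) (nat_lit 4) (nat_lit 332) (nat_lit 207) (nat_lit 181)) (XT.lf (nat_lit 0) (nat_lit 57586608160) (nat_lit 76) (nat_lit 34701098810) (nat_lit 76) (nat_lit 28700189583) (nat_lit 2) (nat_lit 4) (nat_lit 3) (nat_lit 5) (nat_lit 3) (nat_lit 4) (nat_lit 333) (nat_lit 207) (nat_lit 180)))) (XT.nd (nat_lit 35100) (nat_lit 0) (nat_lit 456) (XT.lf (nat_lit 0) (nat_lit 75555170607) (nat_lit 76) (nat_lit 31919573733) (nat_lit 76) (nat_lit 25714561131) (nat_lit 2) (nat_lit 4) (nat_lit 3) (nat_lit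 5) (nat_lit 3) (nat_lit 4) (nat_lit 335) (nat_lit 207) (nat_lit 178)) (XT.nd (nat_lit 78) (nat_lit 0) (nat_lit 0) (XT.lf (nat_lit 0) (nat_lit 2796900049) (nat_lit 76) (nat_lit 6497725854) (nat_lit 76) (nat_lit 6497725854) (nat_lit 8) (nat_lit 4) (nat_lit 9) (nat_lit 5) (nat_lit 9) (nat_lit 4) (nat_lit 304) (nat_lit 208) (nat_lit 208)) (XT.lf (nat_lit 0) (nat_lit 16519203983) (nat_lit 76) (nat_lit 8449655433) (nat_lit 76) (nat_lit 8014884554) (nat_lit 8) (nat_lit 4) (nat_lit 9) (nat_lit 5) (nat_lit 9) (nat_lit 4) (nat_lit 305) (nat_lit 208) (nat_lit 207))))))) (XT.nd (nat_lit 858) (nat_lit 152) (nat_lit 0) (XT.nd (nat_lit 390) (nat_lit 152) (nat_lit 0) (XT.nd (nat_lit 156) (nat_lit 0) (nat_lit 0) (XT.nd (nat_lit 78) (nat_lit 152) (nat_lit 0) (XT.lf (nat_lit 0) (nat_lit 27655644368) (nat_lit 76) (nat_lit 3825802398) (nat_lit 76) (nat_lit 2976964015) (nat_lit 8) (nat_lit 4) (nat_lit 9) (nat_lit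 5) (nat_lit 9) (nat_lit 4) (nat_lit 306) (nat_lit 208) (nat_lit 206)) (XT.lf (nat_lit 0) (nat_lit 2127138000) (nat_lit 152) (nat_lit 32963151655) (nat_lit 0) (nat_lit 920158984) (nat_lit 6) (nat_lit 5) (nat_lit 8) (nat_lit 4) (nat_lit 6) (nat_lit 4) (nat_lit 307) (nat_lit 208) (nat_lit 205))) (XT.nd (nat_lit 78) (nat_lit 0) (nat_lit 0) (XT.lf (nat_lit 0) (nat_lit 7359960853) (nat_lit 152) (nat_lit 24492924449) (nat_lit 0) (nat_lit 5788349379) (nat_lit 6) (nat_lit 5) (nat_lit 8) (nat_lit 4) (nat_lit 6) (nat_lit 4) (nat_lit 308) (nat_lit 208) (nat_lit 204)) (XT.nd (nat_lit 78) (nat_lit 0) (nat_lit 0) (XT.lf (nat_lit 0) (nat_lit 12687924858) (nat_lit 152) (nat_lit 15901664889) (nat_lit 0) (nat_lit 10769044376) (nat_lit 6) (nat_lit 5) (nat_lit 8) (nat_lit 4) (nat_lit 6) (nat_lit 4) (nat_lit 309) (nat_lit 208) (nat_lit 203)) (XT.lf (nat_lit 0) (nat_lit 18123715645) (nat_lit 152) (nat_lit 7168917596)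 (nat_lit 0) (nat_lit 15874102774) (nat_lit 6) (nat_lit 5) (nat_lit 8) (nat_lit 4) (nat_lit 6) (nat_lit 4) (nat_lit 310) (nat_lit 208) (nat_lit 202))))) (XT.nd (nat_lit 234) (nat_lit 76) (nat_lit 0) (XT.nd (nat_lit 78) (nat_lit 0) (nat_lit 0) (XT.lf (nat_lit 0) (nat_lit 1760462652) (nat_lit 76) (nat_lit 21936735563) (nat_lit 76) (nat_lit 19372139465) (nat_lit 5) (nat_lit 4) (nat_lit 6) (nat_lit 5) (nat_lit 6) (nat_lit 4) (nat_lit 311) (nat_lit 208) (nat_lit 201)) (XT.nd (nat_lit 78) (nat_lit 0) (nat_lit 0) (XT.lf (nat_lit 0) (nat_lit 11019628231) (nat_lit 76) (nat_lit 18457133720) (nat_lit 76) (nat_lit 15592553596) (nat_lit 5) (nat_lit 4) (nat_lit 6) (nat_lit 5) (nat_lit 6) (nat_lit 4) (nat_lit 312) (nat_lit 208) (nat_lit 200)) (XT.lf (nat_lit 0) (nat_lit 20487949253) (nat_lit 76) (nat_lit 14917934958) (nat_lit 76) (nat_lit 11767655761) (nat_lit 5) (nat_lit 4) (nat_lit 6) (nat_lit 5) (nat_lit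 6) (nat_lit 4) (nat_lit 313) (nat_lit 208) (nat_lit 199)))) (XT.nd (nat_lit 78) (nat_lit 76) (nat_lit 0) (XT.lf (nat_lit 0) (nat_lit 30187969341) (nat_lit 76) (nat_lit 11310712612) (nat_lit 76) (nat_lit 7888339062) (nat_lit 5) (nat_lit 4) (nat_lit 6) (nat_lit 5) (nat_lit 6) (nat_lit 4) (nat_lit 314) (nat_lit 208) (nat_lit 198)) (XT.nd (nat_lit 78) (nat_lit 76) (nat_lit 0) (XT.lf (nat_lit 0) (nat_lit 40142783781) (nat_lit 76) (nat_lit 7626878059) (nat_lit 76) (nat_lit 3945367028) (nat_lit 5) (nat_lit 4) (nat_lit 6) (nat_lit 5) (nat_lit 6) (nat_lit 4) (nat_lit 315) (nat_lit 208) (nat_lit 197)) (XT.lf (nat_lit 0) (nat_lit 69269762) (nat_lit 152) (nat_lit 3787691012) (nat_lit 76) (nat_lit 50306125259) (nat_lit 4) (nat_lit 5) (nat_lit 6) (nat_lit 5) (nat_lit 5) (nat_lit 4) (nat_lit 316) (nat_lit 208) (nat_lit 196)))))) (XT.nd (nat_lit 390) (nat_lit 76) (nat_lit 0) (XT.nd (nat_lit 156) (nat_lit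 0) (nat_lit 0) (XT.nd (nat_lit 78) (nat_lit 0) (nat_lit 0) (XT.lf (nat_lit 0) (nat_lit 4129306926) (nat_lit 152) (nat_lit 52518115578) (nat_lit 0) (nat_lit 87215698) (nat_lit 3) (nat_lit 5) (nat_lit 5) (nat_lit 4) (nat_lit 3) (nat_lit 4) (nat_lit 317) (nat_lit 208) (nat_lit 195)) (XT.lf (nat_lit 0) (nat_lit 8357418275) (nat_lit 152) (nat_lit 46980452708) (nat_lit 0) (nat_lit 4097994329) (nat_lit 3) (nat_lit 5) (nat_lit 5) (nat_lit 4) (nat_lit 3) (nat_lit 4) (nat_lit 318) (nat_lit 208) (nat_lit 194))) (XT.nd (nat_lit 78) (nat_lit 0) (nat_lit 0) (XT.lf (nat_lit 0) (nat_lit 12689093383) (nat_lit 152) (nat_lit 41363656899) (nat_lit 0) (nat_lit 8222685897) (nat_lit 3) (nat_lit 5) (nat_lit 5) (nat_lit 4) (nat_lit 3) (nat_lit 4) (nat_lit 319) (nat_lit 208) (nat_lit 193)) (XT.nd (nat_lit 78) (nat_lit 0) (nat_lit 0) (XT.lf (nat_lit 0) (nat_lit 17134645762) (nat_lit 152) (nat_lit 35654354828) (nat_lit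 0) (nat_lit 12471111095) (nat_lit 3) (nat_lit 5) (nat_lit 5) (nat_lit 4) (nat_lit 3) (nat_lit 4) (nat_lit 320) (nat_lit 208) (nat_lit 192)) (XT.lf (nat_lit 0) (nat_lit 21704660061) (nat_lit 152) (nat_lit 29838952917) (nat_lit 0) (nat_lit 16853385221) (nat_lit 3) (nat_lit 5) (nat_lit 5) (nat_lit 4) (nat_lit 3) (nat_lit 4) (nat_lit 321) (nat_lit 208) (nat_lit 191))))) (XT.nd (nat_lit 234) (nat_lit 76) (nat_lit 0) (XT.nd (nat_lit 78) (nat_lit 0) (nat_lit 0) (XT.lf (nat_lit 0) (nat_lit 26410017267) (nat_lit 152) (nat_lit 23903604972) (nat_lit 0) (nat_lit 21379942262) (nat_lit 3) (nat_lit 5) (nat_lit 5) (nat_lit 4) (nat_lit 3) (nat_lit 4) (nat_lit 322) (nat_lit 208) (nat_lit 190)) (XT.nd (nat_lit 78) (nat_lit 0) (nat_lit 0) (XT.lf (nat_lit 0) (nat_lit 31261920610) (nat_lit 152) (nat_lit 17834179213) (nat_lit 0) (nat_lit 26061559735) (nat_lit 3) (nat_lit 5) (nat_lit 5) (nat_lit 4) (nat_lit 3) (nat_lit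 4) (nat_lit 323) (nat_lit 208) (nat_lit 189)) (XT.lf (nat_lit 0) (nat_lit 36271922241) (nat_lit 152) (nat_lit 11616224624) (nat_lit 0) (nat_lit 30909384346) (nat_lit 3) (nat_lit 5) (nat_lit 5) (nat_lit 4) (nat_lit 3) (nat_lit 4) (nat_lit 324) (nat_lit 208) (nat_lit 188)))) (XT.nd (nat_lit 78) (nat_lit 76) (nat_lit 0) (XT.lf (nat_lit 0) (nat_lit 41451950737) (nat_lit 152) (nat_lit 5234936554) (nat_lit 0) (nat_lit 35934958537) (nat_lit 3) (nat_lit 5) (nat_lit 5) (nat_lit 4) (nat_lit 3) (nat_lit 4) (nat_lit 325) (nat_lit 208) (nat_lit 187)) (XT.nd (nat_lit 78) (nat_lit 0) (nat_lit 0) (XT.lf (nat_lit 0) (nat_lit 1351246222) (nat_lit 76) (nat_lit 45476082280) (nat_lit 76) (nat_lit 39811990743) (nat_lit 2) (nat_lit 4) (nat_lit 3) (nat_lit 5) (nat_lit 3) (nat_lit 4) (nat_lit 326) (nat_lit 208) (nat_lit 186)) (XT.lf (nat_lit 0) (nat_lit 8239624012) (nat_lit 76) (nat_lit 44211436409) (nat_lit 76)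 (nat_lit 38407250264) (nat_lit 2) (nat_lit 4) (nat_lit 3) (nat_lit 5) (nat_lit 3) (nat_lit 4) (nat_lit 327) (nat_lit 208) (nat_lit 185))))))))
noncomputable def xc6 : XT := (XT.nd (nat_lit 36660) (nat_lit 0) (nat_lit 0) (XT.nd (nat_lit 35802) (nat_lit 0) (nat_lit 228) (XT.nd (nat_lit 390) (nat_lit 0) (nat_lit 0) (XT.nd (nat_lit 156) (nat_lit 0) (nat_lit 0) (XT.nd (nat_lit 78) (nat_lit 0) (nat_lit 0) (XT.lf (nat_lit 0) (nat_lit 15342412214) (nat_lit 76) (nat_lit 42942801210) (nat_lit 76) (nat_lit 37005191630) (nat_lit 2) (nat_lit 4) (nat_lit 3) (nat_lit 5) (nat_lit 3) (nat_lit 4) (nat_lit 328) (nat_lit 208) (nat_lit 184)) (XT.lf (nat_lit 0) (nat_lit 22676522226) (nat_lit 76) (nat_lit 41667156124) (nat_lit 76) (nat_lit 35602476605) (nat_lit 2) (nat_lit 4) (nat_lit 3) (nat_lit 5) (nat_lit 3) (nat_lit 4) (nat_lit 329) (nat_lit 208) (nat_lit 183))) (XT.nd (nat_lit 78) (nat_lit 0) (nat_lit 0) (XT.lf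 (nat_lit 0) (nat_lit 30259416217) (nat_lit 76) (nat_lit 40381463901) (nat_lit 76) (nat_lit 34195765393) (nat_lit 2) (nat_lit 4) (nat_lit 3) (nat_lit 5) (nat_lit 3) (nat_lit 4) (nat_lit 330) (nat_lit 208) (nat_lit 182)) (XT.nd (nat_lit 78) (nat_lit 0) (nat_lit 0) (XT.lf (nat_lit 0) (nat_lit 38109148696) (nat_lit 76) (nat_lit 39082663368) (nat_lit 76) (nat_lit 32781708680) (nat_lit 2) (nat_lit 4) (nat_lit 3) (nat_lit 5) (nat_lit 3) (nat_lit 4) (nat_lit 331) (nat_lit 208) (nat_lit 181)) (XT.lf (nat_lit 0) (nat_lit 46244409502) (nat_lit 76) (nat_lit 37767662144) (nat_lit 76) (nat_lit 31356939665) (nat_lit 2) (nat_lit 4) (nat_lit 3) (nat_lit 5) (nat_lit 3) (nat_lit 4) (nat_lit 332) (nat_lit 208) (nat_lit 180))))) (XT.nd (nat_lit 35178) (nat_lit 0) (nat_lit 456) (XT.nd (nat_lit 156) (nat_lit 0) (nat_lit 0) (XT.lf (nat_lit 0) (nat_lit 54684568303) (nat_lit 76) (nat_lit 36433329273) (nat_lit 76)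 (nat_lit 29918066041) (nat_lit 2) (nat_lit 4) (nat_lit 3) (nat_lit 5) (nat_lit 3) (nat_lit 4) (nat_lit 333) (nat_lit 208) (nat_lit 179)) (XT.nd (nat_lit 34944) (nat_lit 0) (nat_lit 532) (XT.lf (nat_lit 0) (nat_lit 72560736151) (nat_lit 76) (nat_lit 33693907065) (nat_lit 76) (nat_lit 26984259667) (nat_lit 2) (nat_lit 4) (nat_lit 3) (nat_lit 5) (nat_lit 3) (nat_lit 4) (nat_lit 335) (nat_lit 208) (nat_lit 177)) (XT.lf (nat_lit 0) (nat_lit 3437244475) (nat_lit 152) (nat_lit 7621918273) (nat_lit 0) (nat_lit 3437244475) (nat_lit 9) (nat_lit 5) (nat_lit 11) (nat_lit 4) (nat_lit 9) (nat_lit 4) (nat_lit 302) (nat_lit 209) (nat_lit 209)))) (XT.nd (nat_lit 78) (nat_lit 76) (nat_lit 0) (XT.lf (nat_lit 0) (nat_lit 12833415898) (nat_lit 152) (nat_lit 5046151834) (nat_lit 0) (nat_lit 12376906475) (nat_lit 9) (nat_lit 5) (nat_lit 11) (nat_lit 4) (nat_lit 9) (nat_lit 4) (nat_lit 303) (nat_lit 209) (nat_lit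 208)) (XT.nd (nat_lit 78) (nat_lit 0) (nat_lit 0) (XT.lf (nat_lit 0) (nat_lit 5422095036) (nat_lit 76) (nat_lit 13528397574) (nat_lit 76) (nat_lit 12637117272) (nat_lit 8) (nat_lit 4) (nat_lit 9) (nat_lit 5) (nat_lit 9) (nat_lit 4) (nat_lit 304) (nat_lit 209) (nat_lit 207)) (XT.lf (nat_lit 0) (nat_lit 16183970289) (nat_lit 76) (nat_lit 9055397911) (nat_lit 76) (nat_lit 7750050105) (nat_lit 8) (nat_lit 4) (nat_lit 9) (nat_lit 5) (nat_lit 9) (nat_lit 4) (nat_lit 305) (nat_lit 209) (nat_lit 206)))))) (XT.nd (nat_lit 390) (nat_lit 76) (nat_lit 0) (XT.nd (nat_lit 156) (nat_lit 0) (nat_lit 0) (XT.nd (nat_lit 78) (nat_lit 152) (nat_lit 0) (XT.lf (nat_lit 0) (nat_lit 27164669121) (nat_lit 76) (nat_lit 4500874982) (nat_lit 76) (nat_lit 2801177173) (nat_lit 8) (nat_lit 4) (nat_lit 9) (nat_lit 5) (nat_lit 9) (nat_lit 4) (nat_lit 306) (nat_lit 209) (nat_lit 205)) (XT.lf (nat_lit 0) (nat_lit 2202781492)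 (nat_lit 152) (nat_lit 33630911872) (nat_lit 0) (nat_lit 187956985) (nat_lit 6) (nat_lit 5) (nat_lit 8) (nat_lit 4) (nat_lit 6) (nat_lit 4) (nat_lit 307) (nat_lit 209) (nat_lit 204))) (XT.nd (nat_lit 78) (nat_lit 0) (nat_lit 0) (XT.lf (nat_lit 0) (nat_lit 7354384837) (nat_lit 152) (nat_lit 25308235401) (nat_lit 0) (nat_lit 4992291323) (nat_lit 6) (nat_lit 5) (nat_lit 8) (nat_lit 4) (nat_lit 6) (nat_lit 4) (nat_lit 308) (nat_lit 209) (nat_lit 203)) (XT.nd (nat_lit 78) (nat_lit 0) (nat_lit 0) (XT.lf (nat_lit 0) (nat_lit 12604996931) (nat_lit 152) (nat_lit 16857500351) (nat_lit 0) (nat_lit 9912171028) (nat_lit 6) (nat_lit 5) (nat_lit 8) (nat_lit 4) (nat_lit 6) (nat_lit 4) (nat_lit 309) (nat_lit 209) (nat_lit 202)) (XT.lf (nat_lit 0) (nat_lit 17967119230) (nat_lit 152) (nat_lit 8258585924) (nat_lit 0) (nat_lit 14959310100) (nat_lit 6) (nat_lit 5) (nat_lit 8) (nat_lit 4) (nat_lit 6) (nat_lit 4)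 (nat_lit 310) (nat_lit 209) (nat_lit 201))))) (XT.nd (nat_lit 234) (nat_lit 0) (nat_lit 0) (XT.nd (nat_lit 78) (nat_lit 0) (nat_lit 0) (XT.lf (nat_lit 0) (nat_lit 519111215) (nat_lit 76) (nat_lit 22939397492) (nat_lit 76) (nat_lit 19631604336) (nat_lit 5) (nat_lit 4) (nat_lit 6) (nat_lit 5) (nat_lit 6) (nat_lit 4) (nat_lit 311) (nat_lit 209) (nat_lit 200)) (XT.nd (nat_lit 78) (nat_lit 0) (nat_lit 0) (XT.lf (nat_lit 0) (nat_lit 9654470532) (nat_lit 76) (nat_lit 19515592319) (nat_lit 76) (nat_lit 15922100091) (nat_lit 5) (nat_lit 4) (nat_lit 6) (nat_lit 5) (nat_lit 6) (nat_lit 4) (nat_lit 312) (nat_lit 209) (nat_lit 199)) (XT.lf (nat_lit 0) (nat_lit 19004880830) (nat_lit 76) (nat_lit 16029533242) (nat_lit 76) (nat_lit 12163946659) (nat_lit 5) (nat_lit 4) (nat_lit 6) (nat_lit 5) (nat_lit 6) (nat_lit 4) (nat_lit 313) (nat_lit 209) (nat_lit 198)))) (XT.nd (nat_lit 78) (nat_lit 0) (nat_lit 0) (XT.lf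 (nat_lit 0) (nat_lit 28592604990) (nat_lit 76) (nat_lit 12472920121) (nat_lit 76) (nat_lit 8348196058) (nat_lit 5) (nat_lit 4) (nat_lit 6) (nat_lit 5) (nat_lit 6) (nat_lit 4) (nat_lit 314) (nat_lit 209) (nat_lit 197)) (XT.nd (nat_lit 78) (nat_lit 0) (nat_lit 0) (XT.lf (nat_lit 0) (nat_lit 38440470926) (nat_lit 76) (nat_lit 8837284829) (nat_lit 76) (nat_lit 4465763165) (nat_lit 5) (nat_lit 4) (nat_lit 6) (nat_lit 5) (nat_lit 6) (nat_lit 4) (nat_lit 315) (nat_lit 209) (nat_lit 196)) (XT.lf (nat_lit 0) (nat_lit 48571925939) (nat_lit 76) (nat_lit 5113971092) (nat_lit 76) (nat_lit 507404094) (nat_lit 5) (nat_lit 4) (nat_lit 6) (nat_lit 5) (nat_lit 6) (nat_lit 4) (nat_lit 316) (nat_lit 209) (nat_lit 195))))))) (XT.nd (nat_lit 858) (nat_lit 0) (nat_lit 0) (XT.nd (nat_lit 390) (nat_lit 76) (nat_lit 0) (XT.nd (nat_lit 156) (nat_lit 0) (nat_lit 0) (XT.nd (nat_lit 78) (nat_lit 0) (nat_lit 0) (XT.lf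 (nat_lit 0) (nat_lit 2252146292) (nat_lit 76) (nat_lit 1236802470) (nat_lit 152) (nat_lit 53278282572) (nat_lit 3) (nat_lit 5) (nat_lit 4) (nat_lit 5) (nat_lit 5) (nat_lit 4) (nat_lit 317) (nat_lit 209) (nat_lit 194)) (XT.lf (nat_lit 0) (nat_lit 7652565449) (nat_lit 152) (nat_lit 49061996784) (nat_lit 0) (nat_lit 2755854049) (nat_lit 3) (nat_lit 5) (nat_lit 5) (nat_lit 4) (nat_lit 3) (nat_lit 4) (nat_lit 318) (nat_lit 209) (nat_lit 193))) (XT.nd (nat_lit 78) (nat_lit 0) (nat_lit 0) (XT.lf (nat_lit 0) (nat_lit 11934139833) (nat_lit 152) (nat_lit 43537070989) (nat_lit 0) (nat_lit 6840301251) (nat_lit 3) (nat_lit 5) (nat_lit 5) (nat_lit 4) (nat_lit 3) (nat_lit 4) (nat_lit 319) (nat_lit 209) (nat_lit 192)) (XT.nd (nat_lit 78) (nat_lit 0) (nat_lit 0) (XT.lf (nat_lit 0) (nat_lit 16331977237) (nat_lit 152) (nat_lit 37915264168) (nat_lit 0) (nat_lit 11050398483) (nat_lit 3) (nat_lit 5) (nat_lit 5)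 (nat_lit 4) (nat_lit 3) (nat_lit 4) (nat_lit 320) (nat_lit 209) (nat_lit 191)) (XT.lf (nat_lit 0) (nat_lit 20856548703) (nat_lit 152) (nat_lit 32183191068) (nat_lit 0) (nat_lit 15396169784) (nat_lit 3) (nat_lit 5) (nat_lit 5) (nat_lit 4) (nat_lit 3) (nat_lit 4) (nat_lit 321) (nat_lit 209) (nat_lit 190))))) (XT.nd (nat_lit 234) (nat_lit 76) (nat_lit 0) (XT.nd (nat_lit 78) (nat_lit 0) (nat_lit 0) (XT.lf (nat_lit 0) (nat_lit 25518627019) (nat_lit 152) (nat_lit 26327203895) (nat_lit 0) (nat_lit 19887962230) (nat_lit 3) (nat_lit 5) (nat_lit 5) (nat_lit 4) (nat_lit 3) (nat_lit 4) (nat_lit 322) (nat_lit 209) (nat_lit 189)) (XT.nd (nat_lit 78) (nat_lit 0) (nat_lit 0) (XT.lf (nat_lit 0) (nat_lit 30329312373) (nat_lit 152) (nat_lit 20333359823) (nat_lit 0) (nat_lit 24536470563) (nat_lit 3) (nat_lit 5) (nat_lit 5) (nat_lit 4) (nat_lit 3) (nat_lit 4) (nat_lit 323) (nat_lit 209) (nat_lit 188)) (XT.lf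 (nat_lit 0) (nat_lit 35300058776) (nat_lit 152) (nat_lit 14187387794) (nat_lit 0) (nat_lit 29352762662) (nat_lit 3) (nat_lit 5) (nat_lit 5) (nat_lit 4) (nat_lit 3) (nat_lit 4) (nat_lit 324) (nat_lit 209) (nat_lit 187)))) (XT.nd (nat_lit 78) (nat_lit 76) (nat_lit 0) (XT.lf (nat_lit 0) (nat_lit 40442701340) (nat_lit 152) (nat_lit 7874654542) (nat_lit 0) (nat_lit 34348305888) (nat_lit 3) (nat_lit 5) (nat_lit 5) (nat_lit 4) (nat_lit 3) (nat_lit 4) (nat_lit 325) (nat_lit 209) (nat_lit 186)) (XT.nd (nat_lit 78) (nat_lit 76) (nat_lit 0) (XT.lf (nat_lit 0) (nat_lit 45769484451) (nat_lit 152) (nat_lit 1380129750) (nat_lit 0) (nat_lit 39534994392) (nat_lit 3) (nat_lit 5) (nat_lit 5) (nat_lit 4) (nat_lit 3) (nat_lit 4) (nat_lit 326) (nat_lit 209) (nat_lit 185)) (XT.lf (nat_lit 0) (nat_lit 5417361981) (nat_lit 76) (nat_lit 45927803943) (nat_lit 76) (nat_lit 39559890448) (nat_lit 2) (nat_lit 4) (nat_lit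 3) (nat_lit 5) (nat_lit 3) (nat_lit 4) (nat_lit 327) (nat_lit 209) (nat_lit 184)))))) (XT.nd (nat_lit 390) (nat_lit 0) (nat_lit 0) (XT.nd (nat_lit 156) (nat_lit 0) (nat_lit 0) (XT.nd (nat_lit 78) (nat_lit 0) (nat_lit 0) (XT.lf (nat_lit 0) (nat_lit 12459751354) (nat_lit 76) (nat_lit 44686691609) (nat_lit 76) (nat_lit 38191708175) (nat_lit 2) (nat_lit 4) (nat_lit 3) (nat_lit 5) (nat_lit 3) (nat_lit 4) (nat_lit 328) (nat_lit 209) (nat_lit 183)) (XT.lf (nat_lit 0) (nat_lit 19736338673) (nat_lit 76) (nat_lit 43437258775) (nat_lit 76) (nat_lit 36821256352) (nat_lit 2) (nat_lit 4) (nat_lit 3) (nat_lit 5) (nat_lit 3) (nat_lit 4) (nat_lit 329) (nat_lit 209) (nat_lit 182))) (XT.nd (nat_lit 78) (nat_lit 0) (nat_lit 0) (XT.lf (nat_lit 0) (nat_lit 27264449146) (nat_lit 76) (nat_lit 42176530601) (nat_lit 76) (nat_lit 35445271999) (nat_lit 2) (nat_lit 4) (nat_lit 3) (nat_lit 5) (nat_lit 3) (nat_lit 4) (nat_lit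 330) (nat_lit 209) (nat_lit 181)) (XT.nd (nat_lit 78) (nat_lit 0) (nat_lit 0) (XT.lf (nat_lit 0) (nat_lit 35062006846) (nat_lit 76) (nat_lit 40901505354) (nat_lit 76) (nat_lit 34060478961) (nat_lit 2) (nat_lit 4) (nat_lit 3) (nat_lit 5) (nat_lit 3) (nat_lit 4) (nat_lit 331) (nat_lit 209) (nat_lit 180)) (XT.lf (nat_lit 0) (nat_lit 43147577386) (nat_lit 76) (nat_lit 39609147259) (nat_lit 76) (nat_lit 32663580112) (nat_lit 2) (nat_lit 4) (nat_lit 3) (nat_lit 5) (nat_lit 3) (nat_lit 4) (nat_lit 332) (nat_lit 209) (nat_lit 179))))) (XT.nd (nat_lit 35022) (nat_lit 0) (nat_lit 532) (XT.nd (nat_lit 156) (nat_lit 0) (nat_lit 0) (XT.lf (nat_lit 0) (nat_lit 51540412124) (nat_lit 76) (nat_lit 38296379272) (nat_lit 76) (nat_lit 31251249504) (nat_lit 2) (nat_lit 4) (nat_lit 3) (nat_lit 5) (nat_lit 3) (nat_lit 4) (nat_lit 333) (nat_lit 209) (nat_lit 178)) (XT.nd (nat_lit 34788) (nat_lit 0) (nat_lit 684)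 (XT.lf (nat_lit 0) (nat_lit 69328585117) (nat_lit 76) (nat_lit 35597055036) (nat_lit 76) (nat_lit 28366797490) (nat_lit 2) (nat_lit 4) (nat_lit 3) (nat_lit 5) (nat_lit 3) (nat_lit 4) (nat_lit 335) (nat_lit 209) (nat_lit 176)) (XT.lf (nat_lit 0) (nat_lit 9168266844) (nat_lit 76) (nat_lit 2079046040) (nat_lit 76) (nat_lit 2079046040) (nat_lit 11) (nat_lit 4) (nat_lit 12) (nat_lit 5) (nat_lit 12) (nat_lit 4) (nat_lit 300) (nat_lit 210) (nat_lit 210)))) (XT.nd (nat_lit 78) (nat_lit 0) (nat_lit 0) (XT.lf (nat_lit 0) (nat_lit 1486738248) (nat_lit 152) (nat_lit 25301043907) (nat_lit 0) (nat_lit 1007403354) (nat_lit 9) (nat_lit 5) (nat_lit 11) (nat_lit 4) (nat_lit 9) (nat_lit 4) (nat_lit 301) (nat_lit 210) (nat_lit 209)) (XT.nd (nat_lit 78) (nat_lit 0) (nat_lit 0) (XT.lf (nat_lit 0) (nat_lit 7255524855) (nat_lit 152) (nat_lit 15420608749) (nat_lit 0) (nat_lit 6319680538) (nat_lit 9) (nat_lit 5) (nat_lit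 11) (nat_lit 4) (nat_lit 9) (nat_lit 4) (nat_lit 302) (nat_lit 210) (nat_lit 208)) (XT.lf (nat_lit 0) (nat_lit 13120833716) (nat_lit 152) (nat_lit 5391278515) (nat_lit 0) (nat_lit 11750218520) (nat_lit 9) (nat_lit 5) (nat_lit 11) (nat_lit 4) (nat_lit 9) (nat_lit 4) (nat_lit 303) (nat_lit 210) (nat_lit 207))))))))
noncomputable def xc7 : XT := (XT.nd (nat_lit 1716) (nat_lit 76) (nat_lit 0) (XT.nd (nat_lit 858) (nat_lit 152) (nat_lit 0) (XT.nd (nat_lit 390) (nat_lit 76) (nat_lit 0) (XT.nd (nat_lit 156) (nat_lit 152) (nat_lit 0) (XT.nd (nat_lit 78) (nat_lit 0) (nat_lit 0) (XT.lf (nat_lit 0) (nat_lit 4906571027) (nat_lit 76) (nat_lit 14237223787) (nat_lit 76) (nat_lit 12452541087) (nat_lit 8) (nat_lit 4) (nat_lit 9) (nat_lit 5) (nat_lit 9) (nat_lit 4) (nat_lit 304) (nat_lit 210) (nat_lit 206)) (XT.lf (nat_lit 0) (nat_lit 15512704727) (nat_lit 76) (nat_lit 9833554230) (nat_lit 76) (nat_lit 7654521527)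 (nat_lit 8) (nat_lit 4) (nat_lit 9) (nat_lit 5) (nat_lit 9) (nat_lit 4) (nat_lit 305) (nat_lit 210) (nat_lit 205))) (XT.nd (nat_lit 78) (nat_lit 152) (nat_lit 0) (XT.lf (nat_lit 0) (nat_lit 26345078270) (nat_lit 76) (nat_lit 5345059975) (nat_lit 76) (nat_lit 2790455840) (nat_lit 8) (nat_lit 4) (nat_lit 9) (nat_lit 5) (nat_lit 9) (nat_lit 4) (nat_lit 306) (nat_lit 210) (nat_lit 204)) (XT.nd (nat_lit 78) (nat_lit 0) (nat_lit 0) (XT.lf (nat_lit 0) (nat_lit 1396759758) (nat_lit 76) (nat_lit 725925449) (nat_lit 152) (nat_lit 33915591696) (nat_lit 6) (nat_lit 5) (nat_lit 7) (nat_lit 5) (nat_lit 8) (nat_lit 4) (nat_lit 307) (nat_lit 210) (nat_lit 203)) (XT.lf (nat_lit 0) (nat_lit 7189958602) (nat_lit 152) (nat_lit 26452387145) (nat_lit 0) (nat_lit 4031759015) (nat_lit 6) (nat_lit 5) (nat_lit 8) (nat_lit 4) (nat_lit 6) (nat_lit 4) (nat_lit 308) (nat_lit 210) (nat_lit 202))))) (XT.nd (nat_lit 234)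 (nat_lit 76) (nat_lit 0) (XT.nd (nat_lit 78) (nat_lit 0) (nat_lit 0) (XT.lf (nat_lit 0) (nat_lit 12366902208) (nat_lit 152) (nat_lit 18135484961) (nat_lit 0) (nat_lit 8893719394) (nat_lit 6) (nat_lit 5) (nat_lit 8) (nat_lit 4) (nat_lit 6) (nat_lit 4) (nat_lit 309) (nat_lit 210) (nat_lit 201)) (XT.nd (nat_lit 78) (nat_lit 0) (nat_lit 0) (XT.lf (nat_lit 0) (nat_lit 17658864043) (nat_lit 152) (nat_lit 9664030406) (nat_lit 0) (nat_lit 13885697203) (nat_lit 6) (nat_lit 5) (nat_lit 8) (nat_lit 4) (nat_lit 6) (nat_lit 4) (nat_lit 310) (nat_lit 210) (nat_lit 200)) (XT.lf (nat_lit 0) (nat_lit 23078444016) (nat_lit 152) (nat_lit 1017853351) (nat_lit 0) (nat_lit 19019578104) (nat_lit 6) (nat_lit 5) (nat_lit 8) (nat_lit 4) (nat_lit 6) (nat_lit 4) (nat_lit 311) (nat_lit 210) (nat_lit 199)))) (XT.nd (nat_lit 78) (nat_lit 0) (nat_lit 0) (XT.lf (nat_lit 0) (nat_lit 7979337963) (nat_lit 76) (nat_lit 20735910203)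 (nat_lit 76) (nat_lit 16404949936) (nat_lit 5) (nat_lit 4) (nat_lit 6) (nat_lit 5) (nat_lit 6) (nat_lit 4) (nat_lit 312) (nat_lit 210) (nat_lit 198)) (XT.nd (nat_lit 78) (nat_lit 0) (nat_lit 0) (XT.lf (nat_lit 0) (nat_lit 17217452333) (nat_lit 76) (nat_lit 17300460350) (nat_lit 76) (nat_lit 12710362603) (nat_lit 5) (nat_lit 4) (nat_lit 6) (nat_lit 5) (nat_lit 6) (nat_lit 4) (nat_lit 313) (nat_lit 210) (nat_lit 197)) (XT.lf (nat_lit 0) (nat_lit 26698227990) (nat_lit 76) (nat_lit 13792046490) (nat_lit 76) (nat_lit 8955151143) (nat_lit 5) (nat_lit 4) (nat_lit 6) (nat_lit 5) (nat_lit 6) (nat_lit 4) (nat_lit 314) (nat_lit 210) (nat_lit 196)))))) (XT.nd (nat_lit 390) (nat_lit 0) (nat_lit 0) (XT.nd (nat_lit 156) (nat_lit 152) (nat_lit 0) (XT.nd (nat_lit 78) (nat_lit 0) (nat_lit 0) (XT.lf (nat_lit 0) (nat_lit 36444238209) (nat_lit 76) (nat_lit 10202315256) (nat_lit 76) (nat_lit 5130374575) (nat_lit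 5) (nat_lit 4) (nat_lit 6) (nat_lit 5) (nat_lit 6) (nat_lit 4) (nat_lit 315) (nat_lit 210) (nat_lit 195)) (XT.lf (nat_lit 0) (nat_lit 46478687777) (nat_lit 76) (nat_lit 6522719670) (nat_lit 76) (nat_lit 1226926290) (nat_lit 5) (nat_lit 4) (nat_lit 6) (nat_lit 5) (nat_lit 6) (nat_lit 4) (nat_lit 316) (nat_lit 210) (nat_lit 194))) (XT.nd (nat_lit 78) (nat_lit 76) (nat_lit 0) (XT.lf (nat_lit 0) (nat_lit 2710542525) (nat_lit 152) (nat_lit 6585098) (nat_lit 76) (nat_lit 54087554550) (nat_lit 4) (nat_lit 5) (nat_lit 6) (nat_lit 5) (nat_lit 5) (nat_lit 4) (nat_lit 317) (nat_lit 210) (nat_lit 193)) (XT.nd (nat_lit 78) (nat_lit 0) (nat_lit 0) (XT.lf (nat_lit 0) (nat_lit 6809763498) (nat_lit 152) (nat_lit 51435951592) (nat_lit 0) (nat_lit 1264105806) (nat_lit 3) (nat_lit 5) (nat_lit 5) (nat_lit 4) (nat_lit 3) (nat_lit 4) (nat_lit 318) (nat_lit 210) (nat_lit 192)) (XT.lf (nat_lit 0) (nat_lit 11043622907)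 (nat_lit 152) (nat_lit 45998521047) (nat_lit 0) (nat_lit 5310225042) (nat_lit 3) (nat_lit 5) (nat_lit 5) (nat_lit 4) (nat_lit 3) (nat_lit 4) (nat_lit 319) (nat_lit 210) (nat_lit 191))))) (XT.nd (nat_lit 234) (nat_lit 0) (nat_lit 0) (XT.nd (nat_lit 78) (nat_lit 0) (nat_lit 0) (XT.lf (nat_lit 0) (nat_lit 15396017478) (nat_lit 152) (nat_lit 40460043037) (nat_lit 0) (nat_lit 9483819448) (nat_lit 3) (nat_lit 5) (nat_lit 5) (nat_lit 4) (nat_lit 3) (nat_lit 4) (nat_lit 320) (nat_lit 210) (nat_lit 190)) (XT.nd (nat_lit 78) (nat_lit 0) (nat_lit 0) (XT.lf (nat_lit 0) (nat_lit 19877310054) (nat_lit 152) (nat_lit 34807330709) (nat_lit 0) (nat_lit 13794826154) (nat_lit 3) (nat_lit 5) (nat_lit 5) (nat_lit 4) (nat_lit 3) (nat_lit 4) (nat_lit 321) (nat_lit 210) (nat_lit 189)) (XT.lf (nat_lit 0) (nat_lit 24498170381) (nat_lit 152) (nat_lit 29026925224) (nat_lit 0) (nat_lit 18253509461) (nat_lit 3) (nat_lit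 5) (nat_lit 5) (nat_lit 4) (nat_lit 3) (nat_lit 4) (nat_lit 322) (nat_lit 210) (nat_lit 188)))) (XT.nd (nat_lit 78) (nat_lit 0) (nat_lit 0) (XT.lf (nat_lit 0) (nat_lit 29269600506) (nat_lit 152) (nat_lit 23105063711) (nat_lit 0) (nat_lit 22870485282) (nat_lit 3) (nat_lit 5) (nat_lit 5) (nat_lit 4) (nat_lit 3) (nat_lit 4) (nat_lit 323) (nat_lit 210) (nat_lit 187)) (XT.nd (nat_lit 78) (nat_lit 0) (nat_lit 0) (XT.lf (nat_lit 0) (nat_lit 34202960978) (nat_lit 152) (nat_lit 17027646501) (nat_lit 0) (nat_lit 27656746416) (nat_lit 3) (nat_lit 5) (nat_lit 5) (nat_lit 4) (nat_lit 3) (nat_lit 4) (nat_lit 324) (nat_lit 210) (nat_lit 186)) (XT.lf (nat_lit 0) (nat_lit 39309997893) (nat_lit 152) (nat_lit 10780203552) (nat_lit 0) (nat_lit 32623688723) (nat_lit 3) (nat_lit 5) (nat_lit 5) (nat_lit 4) (nat_lit 3) (nat_lit 4) (nat_lit 325) (nat_lit 210) (nat_lit 185))))))) (XT.nd (nat_lit 35490) (nat_lit 0)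 (nat_lit 304) (XT.nd (nat_lit 390) (nat_lit 0) (nat_lit 0) (XT.nd (nat_lit 156) (nat_lit 0) (nat_lit 0) (XT.nd (nat_lit 78) (nat_lit 76) (nat_lit 0) (XT.lf (nat_lit 0) (nat_lit 44602870862) (nat_lit 152) (nat_lit 4347860001) (nat_lit 0) (nat_lit 37783138257) (nat_lit 3) (nat_lit 5) (nat_lit 5) (nat_lit 4) (nat_lit 3) (nat_lit 4) (nat_lit 326) (nat_lit 210) (nat_lit 184)) (XT.lf (nat_lit 0) (nat_lit 2330169250) (nat_lit 76) (nat_lit 47786411726) (nat_lit 76) (nat_lit 40839609182) (nat_lit 2) (nat_lit 4) (nat_lit 3) (nat_lit 5) (nat_lit 3) (nat_lit 4) (nat_lit 327) (nat_lit 210) (nat_lit 183))) (XT.nd (nat_lit 78) (nat_lit 0) (nat_lit 0) (XT.lf (nat_lit 0) (nat_lit 9315035929) (nat_lit 76) (nat_lit 46571511644) (nat_lit 76) (nat_lit 39503690111) (nat_lit 2) (nat_lit 4) (nat_lit 3) (nat_lit 5) (nat_lit 3) (nat_lit 4) (nat_lit 328) (nat_lit 210) (nat_lit 182)) (XT.nd (nat_lit 78) (nat_lit 0)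 (nat_lit 0) (XT.lf (nat_lit 0) (nat_lit 16536839730) (nat_lit 76) (nat_lit 45347042860) (nat_lit 76) (nat_lit 38163965147) (nat_lit 2) (nat_lit 4) (nat_lit 3) (nat_lit 5) (nat_lit 3) (nat_lit 4) (nat_lit 329) (nat_lit 210) (nat_lit 181)) (XT.lf (nat_lit 0) (nat_lit 24012775424) (nat_lit 76) (nat_lit 44110089972) (nat_lit 76) (nat_lit 36817244468) (nat_lit 2) (nat_lit 4) (nat_lit 3) (nat_lit 5) (nat_lit 3) (nat_lit 4) (nat_lit 330) (nat_lit 210) (nat_lit 180))))) (XT.nd (nat_lit 312) (nat_lit 0) (nat_lit 0) (XT.nd (nat_lit 78) (nat_lit 0) (nat_lit 0) (XT.lf (nat_lit 0) (nat_lit 31760642858) (nat_lit 76) (nat_lit 42857707853) (nat_lit 76) (nat_lit 35460321597) (nat_lit 2) (nat_lit 4) (nat_lit 3) (nat_lit 5) (nat_lit 3) (nat_lit 4) (nat_lit 331) (nat_lit 210) (nat_lit 179)) (XT.nd (nat_lit 78) (nat_lit 0) (nat_lit 0) (XT.lf (nat_lit 0) (nat_lit 39798889335) (nat_lit 76) (nat_lit 41586914643)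 (nat_lit 76) (nat_lit 34089965764) (nat_lit 2) (nat_lit 4) (nat_lit 3) (nat_lit 5) (nat_lit 3) (nat_lit 4) (nat_lit 332) (nat_lit 210) (nat_lit 178)) (XT.lf (nat_lit 0) (nat_lit 48146653538) (nat_lit 76) (nat_lit 40294684641) (nat_lit 76) (nat_lit 32702914218) (nat_lit 2) (nat_lit 4) (nat_lit 3) (nat_lit 5) (nat_lit 3) (nat_lit 4) (nat_lit 333) (nat_lit 210) (nat_lit 177)))) (XT.nd (nat_lit 34632) (nat_lit 0) (nat_lit 684) (XT.lf (nat_lit 0) (nat_lit 65851021906) (nat_lit 76) (nat_lit 37633548950) (nat_lit 76) (nat_lit 29865466357) (nat_lit 2) (nat_lit 4) (nat_lit 3) (nat_lit 5) (nat_lit 3) (nat_lit 4) (nat_lit 335) (nat_lit 210) (nat_lit 175)) (XT.nd (nat_lit 78) (nat_lit 76) (nat_lit 0) (XT.lf (nat_lit 0) (nat_lit 4982545467) (nat_lit 152) (nat_lit 2304411267) (nat_lit 0) (nat_lit 4982545467) (nat_lit 12) (nat_lit 5) (nat_lit 14) (nat_lit 4) (nat_lit 12) (nat_lit 4) (nat_lit 298) (nat_lit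 211) (nat_lit 211)) (XT.lf (nat_lit 0) (nat_lit 6628033658) (nat_lit 76) (nat_lit 9729793193) (nat_lit 76) (nat_lit 9211392505) (nat_lit 11) (nat_lit 4) (nat_lit 12) (nat_lit 5) (nat_lit 12) (nat_lit 4) (nat_lit 299) (nat_lit 211) (nat_lit 210)))))) (XT.nd (nat_lit 468) (nat_lit 152) (nat_lit 0) (XT.nd (nat_lit 234) (nat_lit 76) (nat_lit 0) (XT.nd (nat_lit 78) (nat_lit 152) (nat_lit 0) (XT.lf (nat_lit 0) (nat_lit 18158905299) (nat_lit 76) (nat_lit 4754486045) (nat_lit 76) (nat_lit 3742370416) (nat_lit 11) (nat_lit 4) (nat_lit 12) (nat_lit 5) (nat_lit 12) (nat_lit 4) (nat_lit 300) (nat_lit 211) (nat_lit 209)) (XT.nd (nat_lit 78) (nat_lit 0) (nat_lit 0) (XT.lf (nat_lit 0) (nat_lit 1788526957) (nat_lit 152) (nat_lit 25663426921) (nat_lit 0) (nat_lit 349381001) (nat_lit 9) (nat_lit 5) (nat_lit 11) (nat_lit 4) (nat_lit 9) (nat_lit 4) (nat_lit 301) (nat_lit 211) (nat_lit 208)) (XT.lf (nat_lit 0)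 (nat_lit 7463695478) (nat_lit 152) (nat_lit 15951346242) (nat_lit 0) (nat_lit 5589778643) (nat_lit 9) (nat_lit 5) (nat_lit 11) (nat_lit 4) (nat_lit 9) (nat_lit 4) (nat_lit 302) (nat_lit 211) (nat_lit 207)))) (XT.nd (nat_lit 78) (nat_lit 76) (nat_lit 0) (XT.lf (nat_lit 0) (nat_lit 13239844257) (nat_lit 152) (nat_lit 6082353606) (nat_lit 0) (nat_lit 10951859918) (nat_lit 9) (nat_lit 5) (nat_lit 11) (nat_lit 4) (nat_lit 9) (nat_lit 4) (nat_lit 303) (nat_lit 211) (nat_lit 206)) (XT.nd (nat_lit 78) (nat_lit 0) (nat_lit 0) (XT.lf (nat_lit 0) (nat_lit 4046000633) (nat_lit 76) (nat_lit 15123618030) (nat_lit 76) (nat_lit 12441283687) (nat_lit 8) (nat_lit 4) (nat_lit 9) (nat_lit 5) (nat_lit 9) (nat_lit 4) (nat_lit 304) (nat_lit 211) (nat_lit 205)) (XT.lf (nat_lit 0) (nat_lit 14503809044) (nat_lit 76) (nat_lit 10785977146) (nat_lit 76) (nat_lit 7728071371) (nat_lit 8) (nat_lit 4) (nat_lit 9) (nat_lit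 5) (nat_lit 9) (nat_lit 4) (nat_lit 305) (nat_lit 211) (nat_lit 204))))) (XT.nd (nat_lit 234) (nat_lit 0) (nat_lit 0) (XT.nd (nat_lit 78) (nat_lit 152) (nat_lit 0) (XT.lf (nat_lit 0) (nat_lit 25194920407) (nat_lit 76) (nat_lit 6360367341) (nat_lit 76) (nat_lit 2944774489) (nat_lit 8) (nat_lit 4) (nat_lit 9) (nat_lit 5) (nat_lit 9) (nat_lit 4) (nat_lit 306) (nat_lit 211) (nat_lit 203)) (XT.nd (nat_lit 78) (nat_lit 0) (nat_lit 0) (XT.lf (nat_lit 0) (nat_lit 66587500) (nat_lit 76) (nat_lit 1816582308) (nat_lit 152) (nat_lit 34177302738) (nat_lit 6) (nat_lit 5) (nat_lit 7) (nat_lit 5) (nat_lit 8) (nat_lit 4) (nat_lit 307) (nat_lit 211) (nat_lit 202)) (XT.lf (nat_lit 0) (nat_lit 6866290655) (nat_lit 152) (nat_lit 27928103851) (nat_lit 0) (nat_lit 2904465474) (nat_lit 6) (nat_lit 5) (nat_lit 8) (nat_lit 4) (nat_lit 6) (nat_lit 4) (nat_lit 308) (nat_lit 211) (nat_lit 201)))) (XT.nd (nat_lit 78)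 (nat_lit 0) (nat_lit 0) (XT.lf (nat_lit 0) (nat_lit 11973073797) (nat_lit 152) (nat_lit 19738661540) (nat_lit 0) (nat_lit 7711264590) (nat_lit 6) (nat_lit 5) (nat_lit 8) (nat_lit 4) (nat_lit 6) (nat_lit 4) (nat_lit 309) (nat_lit 211) (nat_lit 200)) (XT.nd (nat_lit 78) (nat_lit 0) (nat_lit 0) (XT.lf (nat_lit 0) (nat_lit 17198216142) (nat_lit 152) (nat_lit 11388597340) (nat_lit 0) (nat_lit 12650707863) (nat_lit 6) (nat_lit 5) (nat_lit 8) (nat_lit 4) (nat_lit 6) (nat_lit 4) (nat_lit 310) (nat_lit 211) (nat_lit 199)) (XT.lf (nat_lit 0) (nat_lit 22554158506) (nat_lit 152) (nat_lit 2858030147) (nat_lit 0) (nat_lit 17734555872) (nat_lit 6) (nat_lit 5) (nat_lit 8) (nat_lit 4) (nat_lit 6) (nat_lit 4) (nat_lit 311) (nat_lit 211) (nat_lit 198))))))))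
noncomputable def xc8 : XT := (XT.nd (nat_lit 1794) (nat_lit 0) (nat_lit 0) (XT.nd (nat_lit 858) (nat_lit 76) (nat_lit 0) (XT.nd (nat_lit 390) (nat_lit 152) (nat_lit 0) (XT.nd (nat_lit 156) (nat_lit 0) (nat_lit 0) (XT.nd (nat_lit 78) (nat_lit 0) (nat_lit 0) (XT.lf (nat_lit 0) (nat_lit 5990242113) (nat_lit 76) (nat_lit 22120992890) (nat_lit 76) (nat_lit 17042252776) (nat_lit 5) (nat_lit 4) (nat_lit 6) (nat_lit 5) (nat_lit 6) (nat_lit 4) (nat_lit 312) (nat_lit 211) (nat_lit 197)) (XT.lf (nat_lit 0) (nat_lit 15121407979) (nat_lit 76) (nat_lit 18733742299) (nat_lit 76) (nat_lit 13408204584) (nat_lit 5) (nat_lit 4) (nat_lit 6) (nat_lit 5) (nat_lit 6) (nat_lit 4) (nat_lit 313) (nat_lit 211) (nat_lit 196))) (XT.nd (nat_lit 78) (nat_lit 0) (nat_lit 0) (XT.lf (nat_lit 0) (nat_lit 24500327919) (nat_lit 76) (nat_lit 15271232497) (nat_lit 76) (nat_lit 9710649448) (nat_lit 5) (nat_lit 4) (nat_lit 6) (nat_lit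 5) (nat_lit 6) (nat_lit 4) (nat_lit 314) (nat_lit 211) (nat_lit 195)) (XT.nd (nat_lit 78) (nat_lit 0) (nat_lit 0) (XT.lf (nat_lit 0) (nat_lit 34149332693) (nat_lit 76) (nat_lit 11725219414) (nat_lit 76) (nat_lit 5940783666) (nat_lit 5) (nat_lit 4) (nat_lit 6) (nat_lit 5) (nat_lit 6) (nat_lit 4) (nat_lit 315) (nat_lit 211) (nat_lit 194)) (XT.lf (nat_lit 0) (nat_lit 44091396123) (nat_lit 76) (nat_lit 8087260161) (nat_lit 76) (nat_lit 2089631367) (nat_lit 5) (nat_lit 4) (nat_lit 6) (nat_lit 5) (nat_lit 6) (nat_lit 4) (nat_lit 316) (nat_lit 211) (nat_lit 193))))) (XT.nd (nat_lit 234) (nat_lit 0) (nat_lit 0) (XT.nd (nat_lit 78) (nat_lit 76) (nat_lit 0) (XT.lf (nat_lit 0) (nat_lit 1815838119) (nat_lit 152) (nat_lit 2514518408) (nat_lit 76) (nat_lit 52516015265) (nat_lit 4) (nat_lit 5) (nat_lit 6) (nat_lit 5) (nat_lit 5) (nat_lit 4) (nat_lit 317) (nat_lit 211) (nat_lit 192)) (XT.nd (nat_lit 78)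 (nat_lit 0) (nat_lit 0) (XT.lf (nat_lit 0) (nat_lit 5442358216) (nat_lit 76) (nat_lit 388380889) (nat_lit 152) (nat_lit 53723321870) (nat_lit 3) (nat_lit 5) (nat_lit 4) (nat_lit 5) (nat_lit 5) (nat_lit 4) (nat_lit 318) (nat_lit 211) (nat_lit 191)) (XT.lf (nat_lit 0) (nat_lit 10015422326) (nat_lit 152) (nat_lit 48753867670) (nat_lit 0) (nat_lit 3628814231) (nat_lit 3) (nat_lit 5) (nat_lit 5) (nat_lit 4) (nat_lit 3) (nat_lit 4) (nat_lit 319) (nat_lit 211) (nat_lit 190)))) (XT.nd (nat_lit 78) (nat_lit 0) (nat_lit 0) (XT.lf (nat_lit 0) (nat_lit 14324538007) (nat_lit 152) (nat_lit 43294750432) (nat_lit 0) (nat_lit 7767644041) (nat_lit 3) (nat_lit 5) (nat_lit 5) (nat_lit 4) (nat_lit 3) (nat_lit 4) (nat_lit 320) (nat_lit 211) (nat_lit 189)) (XT.nd (nat_lit 78) (nat_lit 0) (nat_lit 0) (XT.lf (nat_lit 0) (nat_lit 18764612594) (nat_lit 152) (nat_lit 37717619791) (nat_lit 0) (nat_lit 12045541609) (nat_lit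 3) (nat_lit 5) (nat_lit 5) (nat_lit 4) (nat_lit 3) (nat_lit 4) (nat_lit 321) (nat_lit 211) (nat_lit 188)) (XT.lf (nat_lit 0) (nat_lit 23346217693) (nat_lit 152) (nat_lit 32009196865) (nat_lit 0) (nat_lit 16472692403) (nat_lit 3) (nat_lit 5) (nat_lit 5) (nat_lit 4) (nat_lit 3) (nat_lit 4) (nat_lit 322) (nat_lit 211) (nat_lit 187)))))) (XT.nd (nat_lit 390) (nat_lit 76) (nat_lit 0) (XT.nd (nat_lit 156) (nat_lit 0) (nat_lit 0) (XT.nd (nat_lit 78) (nat_lit 0) (nat_lit 0) (XT.lf (nat_lit 0) (nat_lit 28080261887) (nat_lit 152) (nat_lit 26155890171) (nat_lit 0) (nat_lit 21059637259) (nat_lit 3) (nat_lit 5) (nat_lit 5) (nat_lit 4) (nat_lit 3) (nat_lit 4) (nat_lit 323) (nat_lit 211) (nat_lit 186)) (XT.lf (nat_lit 0) (nat_lit 32978016709) (nat_lit 152) (nat_lit 20143763265) (nat_lit 0) (nat_lit 25817297474) (nat_lit 3) (nat_lit 5) (nat_lit 5) (nat_lit 4) (nat_lit 3) (nat_lit 4) (nat_lit 324) (nat_lit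 211) (nat_lit 185))) (XT.nd (nat_lit 78) (nat_lit 0) (nat_lit 0) (XT.lf (nat_lit 0) (nat_lit 38051143482) (nat_lit 152) (nat_lit 13958501558) (nat_lit 0) (nat_lit 30757000811) (nat_lit 3) (nat_lit 5) (nat_lit 5) (nat_lit 4) (nat_lit 3) (nat_lit 4) (nat_lit 325) (nat_lit 211) (nat_lit 184)) (XT.nd (nat_lit 78) (nat_lit 0) (nat_lit 0) (XT.lf (nat_lit 0) (nat_lit 43311721078) (nat_lit 152) (nat_lit 7585378236) (nat_lit 0) (nat_lit 35890508468) (nat_lit 3) (nat_lit 5) (nat_lit 5) (nat_lit 4) (nat_lit 3) (nat_lit 4) (nat_lit 326) (nat_lit 211) (nat_lit 183)) (XT.lf (nat_lit 0) (nat_lit 48772274682) (nat_lit 152) (nat_lit 1009219198) (nat_lit 0) (nat_lit 41230043083) (nat_lit 3) (nat_lit 5) (nat_lit 5) (nat_lit 4) (nat_lit 3) (nat_lit 4) (nat_lit 327) (nat_lit 211) (nat_lit 182))))) (XT.nd (nat_lit 234) (nat_lit 0) (nat_lit 0) (XT.nd (nat_lit 78) (nat_lit 0) (nat_lit 0) (XT.lf (nat_lit 0) (nat_lit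 5900778521) (nat_lit 76) (nat_lit 48601748983) (nat_lit 76) (nat_lit 40944261204) (nat_lit 2) (nat_lit 4) (nat_lit 3) (nat_lit 5) (nat_lit 3) (nat_lit 4) (nat_lit 328) (nat_lit 211) (nat_lit 181)) (XT.nd (nat_lit 78) (nat_lit 0) (nat_lit 0) (XT.lf (nat_lit 0) (nat_lit 13070407543) (nat_lit 76) (nat_lit 47401055484) (nat_lit 76) (nat_lit 39633799915) (nat_lit 2) (nat_lit 4) (nat_lit 3) (nat_lit 5) (nat_lit 3) (nat_lit 4) (nat_lit 329) (nat_lit 211) (nat_lit 180)) (XT.lf (nat_lit 0) (nat_lit 20496652971) (nat_lit 76) (nat_lit 46186745725) (nat_lit 76) (nat_lit 38314949402) (nat_lit 2) (nat_lit 4) (nat_lit 3) (nat_lit 5) (nat_lit 3) (nat_lit 4) (nat_lit 330) (nat_lit 211) (nat_lit 179)))) (XT.nd (nat_lit 78) (nat_lit 0) (nat_lit 0) (XT.lf (nat_lit 0) (nat_lit 28197196343) (nat_lit 76) (nat_lit 44955928491) (nat_lit 76) (nat_lit 36984569547) (nat_lit 2) (nat_lit 4) (nat_lit 3) (nat_lit 5) (nat_lit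 3) (nat_lit 4) (nat_lit 331) (nat_lit 211) (nat_lit 178)) (XT.nd (nat_lit 78) (nat_lit 0) (nat_lit 0) (XT.lf (nat_lit 0) (nat_lit 36190372284) (nat_lit 76) (nat_lit 43705673266) (nat_lit 76) (nat_lit 35639492777) (nat_lit 2) (nat_lit 4) (nat_lit 3) (nat_lit 5) (nat_lit 3) (nat_lit 4) (nat_lit 332) (nat_lit 211) (nat_lit 177)) (XT.lf (nat_lit 0) (nat_lit 44495212167) (nat_lit 76) (nat_lit 42433003251) (nat_lit 76) (nat_lit 34276516529) (nat_lit 2) (nat_lit 4) (nat_lit 3) (nat_lit 5) (nat_lit 3) (nat_lit 4) (nat_lit 333) (nat_lit 211) (nat_lit 176))))))) (XT.nd (nat_lit 35256) (nat_lit 0) (nat_lit 228) (XT.nd (nat_lit 34788) (nat_lit 0) (nat_lit 456) (XT.nd (nat_lit 34554) (nat_lit 0) (nat_lit 684) (XT.nd (nat_lit 34476) (nat_lit 0) (nat_lit 912) (XT.lf (nat_lit 0) (nat_lit 62119766607) (nat_lit 76) (nat_lit 39808237601) (nat_lit 76) (nat_lit 31483834527) (nat_lit 2) (nat_lit 4) (nat_lit 3)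 (nat_lit 5) (nat_lit 3) (nat_lit 4) (nat_lit 335) (nat_lit 211) (nat_lit 174)) (XT.lf (nat_lit 0) (nat_lit 9580056937) (nat_lit 152) (nat_lit 868207806) (nat_lit 152) (nat_lit 868207806) (nat_lit 14) (nat_lit 4) (nat_lit 16) (nat_lit 5) (nat_lit 16) (nat_lit 4) (nat_lit 296) (nat_lit 212) (nat_lit 212))) (XT.nd (nat_lit 78) (nat_lit 76) (nat_lit 0) (XT.lf (nat_lit 0) (nat_lit 4281018849) (nat_lit 152) (nat_lit 15544444974) (nat_lit 0) (nat_lit 3736698127) (nat_lit 12) (nat_lit 5) (nat_lit 14) (nat_lit 4) (nat_lit 12) (nat_lit 4) (nat_lit 297) (nat_lit 212) (nat_lit 211)) (XT.nd (nat_lit 78) (nat_lit 76) (nat_lit 0) (XT.lf (nat_lit 0) (nat_lit 10406587635) (nat_lit 152) (nat_lit 4791692865) (nat_lit 0) (nat_lit 9343866225) (nat_lit 12) (nat_lit 5) (nat_lit 14) (nat_lit 4) (nat_lit 12) (nat_lit 4) (nat_lit 298) (nat_lit 212) (nat_lit 210)) (XT.lf (nat_lit 0) (nat_lit 6263895460) (nat_lit 76)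 (nat_lit 10434000132) (nat_lit 76) (nat_lit 8877563781) (nat_lit 11) (nat_lit 4) (nat_lit 12) (nat_lit 5) (nat_lit 12) (nat_lit 4) (nat_lit 299) (nat_lit 212) (nat_lit 209))))) (XT.nd (nat_lit 234) (nat_lit 76) (nat_lit 0) (XT.nd (nat_lit 78) (nat_lit 152) (nat_lit 0) (XT.lf (nat_lit 0) (nat_lit 17625597206) (nat_lit 76) (nat_lit 5532972296) (nat_lit 76) (nat_lit 3506331239) (nat_lit 11) (nat_lit 4) (nat_lit 12) (nat_lit 5) (nat_lit 12) (nat_lit 4) (nat_lit 300) (nat_lit 212) (nat_lit 208)) (XT.nd (nat_lit 78) (nat_lit 0) (nat_lit 0) (XT.lf (nat_lit 0) (nat_lit 1419655609) (nat_lit 76) (nat_lit 498625509) (nat_lit 152) (nat_lit 25895223351) (nat_lit 9) (nat_lit 5) (nat_lit 10) (nat_lit 5) (nat_lit 11) (nat_lit 4) (nat_lit 301) (nat_lit 212) (nat_lit 207)) (XT.lf (nat_lit 0) (nat_lit 7499496465) (nat_lit 152) (nat_lit 16837312687) (nat_lit 0) (nat_lit 4683045405) (nat_lit 9) (nat_lit 5) (nat_lit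 11) (nat_lit 4) (nat_lit 9) (nat_lit 4) (nat_lit 302) (nat_lit 212) (nat_lit 206)))) (XT.nd (nat_lit 78) (nat_lit 76) (nat_lit 0) (XT.lf (nat_lit 0) (nat_lit 13190730880) (nat_lit 152) (nat_lit 7121022525) (nat_lit 0) (nat_lit 9979929817) (nat_lit 9) (nat_lit 5) (nat_lit 11) (nat_lit 4) (nat_lit 9) (nat_lit 4) (nat_lit 303) (nat_lit 212) (nat_lit 205)) (XT.nd (nat_lit 78) (nat_lit 0) (nat_lit 0) (XT.lf (nat_lit 0) (nat_lit 2838334877) (nat_lit 76) (nat_lit 16189690764) (nat_lit 76) (nat_lit 12603318269) (nat_lit 8) (nat_lit 4) (nat_lit 9) (nat_lit 5) (nat_lit 9) (nat_lit 4) (nat_lit 304) (nat_lit 212) (nat_lit 204)) (XT.lf (nat_lit 0) (nat_lit 13154881108) (nat_lit 76) (nat_lit 11914934331) (nat_lit 76) (nat_lit 7970874757) (nat_lit 8) (nat_lit 4) (nat_lit 9) (nat_lit 5) (nat_lit 9) (nat_lit 4) (nat_lit 305) (nat_lit 212) (nat_lit 203)))))) (XT.nd (nat_lit 390) (nat_lit 76) (nat_lit 0) (XT.nd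 (nat_lit 156) (nat_lit 76) (nat_lit 0) (XT.nd (nat_lit 78) (nat_lit 76) (nat_lit 0) (XT.lf (nat_lit 0) (nat_lit 23711457061) (nat_lit 76) (nat_lit 7549214479) (nat_lit 76) (nat_lit 3264500545) (nat_lit 8) (nat_lit 4) (nat_lit 9) (nat_lit 5) (nat_lit 9) (nat_lit 4) (nat_lit 306) (nat_lit 212) (nat_lit 202)) (XT.lf (nat_lit 0) (nat_lit 1497212554) (nat_lit 152) (nat_lit 1569805172) (nat_lit 76) (nat_lit 33020865976) (nat_lit 7) (nat_lit 5) (nat_lit 9) (nat_lit 5) (nat_lit 8) (nat_lit 4) (nat_lit 307) (nat_lit 212) (nat_lit 201))) (XT.nd (nat_lit 78) (nat_lit 0) (nat_lit 0) (XT.lf (nat_lit 0) (nat_lit 6382610360) (nat_lit 152) (nat_lit 29738899132) (nat_lit 0) (nat_lit 1607726666) (nat_lit 6) (nat_lit 5) (nat_lit 8) (nat_lit 4) (nat_lit 6) (nat_lit 4) (nat_lit 308) (nat_lit 212) (nat_lit 200)) (XT.nd (nat_lit 78) (nat_lit 0) (nat_lit 0) (XT.lf (nat_lit 0) (nat_lit 11422574012) (nat_lit 152)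 (nat_lit 21670847175) (nat_lit 0) (nat_lit 6361991246) (nat_lit 6) (nat_lit 5) (nat_lit 8) (nat_lit 4) (nat_lit 6) (nat_lit 4) (nat_lit 309) (nat_lit 212) (nat_lit 199)) (XT.lf (nat_lit 0) (nat_lit 16584078748) (nat_lit 152) (nat_lit 13436392837) (nat_lit 0) (nat_lit 11251401628) (nat_lit 6) (nat_lit 5) (nat_lit 8) (nat_lit 4) (nat_lit 6) (nat_lit 4) (nat_lit 310) (nat_lit 212) (nat_lit 198))))) (XT.nd (nat_lit 234) (nat_lit 0) (nat_lit 0) (XT.nd (nat_lit 78) (nat_lit 76) (nat_lit 0) (XT.lf (nat_lit 0) (nat_lit 21879413865) (nat_lit 152) (nat_lit 5015930274) (nat_lit 0) (nat_lit 16287599264) (nat_lit 6) (nat_lit 5) (nat_lit 8) (nat_lit 4) (nat_lit 6) (nat_lit 4) (nat_lit 311) (nat_lit 212) (nat_lit 197)) (XT.nd (nat_lit 78) (nat_lit 0) (nat_lit 0) (XT.lf (nat_lit 0) (nat_lit 3682447039) (nat_lit 76) (nat_lit 23674138197) (nat_lit 76) (nat_lit 17835525996) (nat_lit 5) (nat_lit 4) (nat_lit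 6) (nat_lit 5) (nat_lit 6) (nat_lit 4) (nat_lit 312) (nat_lit 212) (nat_lit 196)) (XT.lf (nat_lit 0) (nat_lit 12711757188) (nat_lit 76) (nat_lit 20332791664) (nat_lit 76) (nat_lit 14259134129) (nat_lit 5) (nat_lit 4) (nat_lit 6) (nat_lit 5) (nat_lit 6) (nat_lit 4) (nat_lit 313) (nat_lit 212) (nat_lit 195)))) (XT.nd (nat_lit 78) (nat_lit 0) (nat_lit 0) (XT.lf (nat_lit 0) (nat_lit 21993671683) (nat_lit 76) (nat_lit 16914000013) (nat_lit 76) (nat_lit 10616489779) (nat_lit 5) (nat_lit 4) (nat_lit 6) (nat_lit 5) (nat_lit 6) (nat_lit 4) (nat_lit 314) (nat_lit 212) (nat_lit 194)) (XT.nd (nat_lit 78) (nat_lit 0) (nat_lit 0) (XT.lf (nat_lit 0) (nat_lit 31550290319) (nat_lit 76) (nat_lit 13409623264) (nat_lit 76) (nat_lit 6898919984) (nat_lit 5) (nat_lit 4) (nat_lit 6) (nat_lit 5) (nat_lit 6) (nat_lit 4) (nat_lit 315) (nat_lit 212) (nat_lit 193)) (XT.lf (nat_lit 0) (nat_lit 41404366951) (nat_lit 76)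 (nat_lit 9811317663) (nat_lit 76) (nat_lit 3097573386) (nat_lit 5) (nat_lit 4) (nat_lit 6) (nat_lit 5) (nat_lit 6) (nat_lit 4) (nat_lit 316) (nat_lit 212) (nat_lit 192))))))))
noncomputable def xc9 : XT := (XT.nd (nat_lit 36036) (nat_lit 0) (nat_lit 76) (XT.nd (nat_lit 858) (nat_lit 76) (nat_lit 0) (XT.nd (nat_lit 390) (nat_lit 0) (nat_lit 0) (XT.nd (nat_lit 156) (nat_lit 0) (nat_lit 0) (XT.nd (nat_lit 78) (nat_lit 76) (nat_lit 0) (XT.lf (nat_lit 0) (nat_lit 781056286) (nat_lit 152) (nat_lit 5321572392) (nat_lit 76) (nat_lit 50790420242) (nat_lit 4) (nat_lit 5) (nat_lit 6) (nat_lit 5) (nat_lit 5) (nat_lit 4) (nat_lit 317) (nat_lit 212) (nat_lit 191)) (XT.lf (nat_lit 0) (nat_lit 2497124088) (nat_lit 76) (nat_lit 2226228085) (nat_lit 152) (nat_lit 54879583950) (nat_lit 3) (nat_lit 5) (nat_lit 4) (nat_lit 5) (nat_lit 5) (nat_lit 4) (nat_lit 318) (nat_lit 212) (nat_lit 190))) (XT.nd (nat_lit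 78) (nat_lit 0) (nat_lit 0) (XT.lf (nat_lit 0) (nat_lit 8847089993) (nat_lit 152) (nat_lit 51809671207) (nat_lit 0) (nat_lit 1792065458) (nat_lit 3) (nat_lit 5) (nat_lit 5) (nat_lit 4) (nat_lit 3) (nat_lit 4) (nat_lit 319) (nat_lit 212) (nat_lit 189)) (XT.nd (nat_lit 78) (nat_lit 0) (nat_lit 0) (XT.lf (nat_lit 0) (nat_lit 13114987685) (nat_lit 152) (nat_lit 46426135656) (nat_lit 0) (nat_lit 5897786130) (nat_lit 3) (nat_lit 5) (nat_lit 5) (nat_lit 4) (nat_lit 3) (nat_lit 4) (nat_lit 320) (nat_lit 212) (nat_lit 188)) (XT.lf (nat_lit 0) (nat_lit 17515807044) (nat_lit 152) (nat_lit 40920987575) (nat_lit 0) (nat_lit 10144151184) (nat_lit 3) (nat_lit 5) (nat_lit 5) (nat_lit 4) (nat_lit 3) (nat_lit 4) (nat_lit 321) (nat_lit 212) (nat_lit 187))))) (XT.nd (nat_lit 234) (nat_lit 0) (nat_lit 0) (XT.nd (nat_lit 78) (nat_lit 0) (nat_lit 0) (XT.lf (nat_lit 0) (nat_lit 22060026211) (nat_lit 152) (nat_lit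 35281119468) (nat_lit 0) (nat_lit 14541271013) (nat_lit 3) (nat_lit 5) (nat_lit 5) (nat_lit 4) (nat_lit 3) (nat_lit 4) (nat_lit 322) (nat_lit 212) (nat_lit 186)) (XT.nd (nat_lit 78) (nat_lit 0) (nat_lit 0) (XT.lf (nat_lit 0) (nat_lit 26758464755) (nat_lit 152) (nat_lit 29493103077) (nat_lit 0) (nat_lit 19099614951) (nat_lit 3) (nat_lit 5) (nat_lit 5) (nat_lit 4) (nat_lit 3) (nat_lit 4) (nat_lit 323) (nat_lit 212) (nat_lit 185)) (XT.lf (nat_lit 0) (nat_lit 31622309436) (nat_lit 152) (nat_lit 23543157412) (nat_lit 0) (nat_lit 23830036196) (nat_lit 3) (nat_lit 5) (nat_lit 5) (nat_lit 4) (nat_lit 3) (nat_lit 4) (nat_lit 324) (nat_lit 212) (nat_lit 184)))) (XT.nd (nat_lit 78) (nat_lit 0) (nat_lit 0) (XT.lf (nat_lit 0) (nat_lit 36663140835) (nat_lit 152) (nat_lit 17417115934) (nat_lit 0) (nat_lit 28743797656) (nat_lit 3) (nat_lit 5) (nat_lit 5) (nat_lit 4) (nat_lit 3) (nat_lit 4) (nat_lit 325)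 (nat_lit 212) (nat_lit 183)) (XT.nd (nat_lit 78) (nat_lit 0) (nat_lit 0) (XT.lf (nat_lit 0) (nat_lit 41892960933) (nat_lit 152) (nat_lit 11100392832) (nat_lit 0) (nat_lit 33852598765) (nat_lit 3) (nat_lit 5) (nat_lit 5) (nat_lit 4) (nat_lit 3) (nat_lit 4) (nat_lit 326) (nat_lit 212) (nat_lit 182)) (XT.lf (nat_lit 0) (nat_lit 47324221681) (nat_lit 152) (nat_lit 4577948288) (nat_lit 0) (nat_lit 39168603333) (nat_lit 3) (nat_lit 5) (nat_lit 5) (nat_lit 4) (nat_lit 3) (nat_lit 4) (nat_lit 327) (nat_lit 212) (nat_lit 181)))))) (XT.nd (nat_lit 390) (nat_lit 0) (nat_lit 0) (XT.nd (nat_lit 156) (nat_lit 0) (nat_lit 0) (XT.nd (nat_lit 78) (nat_lit 0) (nat_lit 0) (XT.lf (nat_lit 0) (nat_lit 2208849946) (nat_lit 76) (nat_lit 50782237524) (nat_lit 76) (nat_lit 42516851385) (nat_lit 2) (nat_lit 4) (nat_lit 3) (nat_lit 5) (nat_lit 3) (nat_lit 4) (nat_lit 328) (nat_lit 212) (nat_lit 180)) (XT.lf (nat_lit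 0) (nat_lit 9328788702) (nat_lit 76) (nat_lit 49604187154) (nat_lit 76) (nat_lit 41234260262) (nat_lit 2) (nat_lit 4) (nat_lit 3) (nat_lit 5) (nat_lit 3) (nat_lit 4) (nat_lit 329) (nat_lit 212) (nat_lit 179))) (XT.nd (nat_lit 78) (nat_lit 0) (nat_lit 0) (XT.lf (nat_lit 0) (nat_lit 16707710068) (nat_lit 76) (nat_lit 48411442279) (nat_lit 76) (nat_lit 39941952766) (nat_lit 2) (nat_lit 4) (nat_lit 3) (nat_lit 5) (nat_lit 3) (nat_lit 4) (nat_lit 330) (nat_lit 212) (nat_lit 178)) (XT.nd (nat_lit 78) (nat_lit 0) (nat_lit 0) (XT.lf (nat_lit 0) (nat_lit 24363182903) (nat_lit 76) (nat_lit 47201163031) (nat_lit 76) (nat_lit 38636851973) (nat_lit 2) (nat_lit 4) (nat_lit 3) (nat_lit 5) (nat_lit 3) (nat_lit 4) (nat_lit 331) (nat_lit 212) (nat_lit 177)) (XT.lf (nat_lit 0) (nat_lit 32313434525) (nat_lit 76) (nat_lit 45970467792) (nat_lit 76) (nat_lit 37315850500) (nat_lit 2) (nat_lit 4) (nat_lit 3) (nat_lit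 5) (nat_lit 3) (nat_lit 4) (nat_lit 332) (nat_lit 212) (nat_lit 176))))) (XT.nd (nat_lit 34554) (nat_lit 0) (nat_lit 760) (XT.nd (nat_lit 156) (nat_lit 0) (nat_lit 0) (XT.lf (nat_lit 0) (nat_lit 40577394103) (nat_lit 76) (nat_lit 44716426335) (nat_lit 76) (nat_lit 35975803107) (nat_lit 2) (nat_lit 4) (nat_lit 3) (nat_lit 5) (nat_lit 3) (nat_lit 4) (nat_lit 333) (nat_lit 212) (nat_lit 175)) (XT.nd (nat_lit 34320) (nat_lit 0) (nat_lit 1064) (XT.lf (nat_lit 0) (nat_lit 58125935278) (nat_lit 76) (nat_lit 42126298821) (nat_lit 76) (nat_lit 33225755258) (nat_lit 2) (nat_lit 4) (nat_lit 3) (nat_lit 5) (nat_lit 3) (nat_lit 4) (nat_lit 335) (nat_lit 212) (nat_lit 173)) (XT.lf (nat_lit 0) (nat_lit 4080553141) (nat_lit 152) (nat_lit 2294147766) (nat_lit 0) (nat_lit 4080553141) (nat_lit 16) (nat_lit 5) (nat_lit 18) (nat_lit 4) (nat_lit 16) (nat_lit 4) (nat_lit 294) (nat_lit 213) (nat_lit 213)))) (XT.nd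 (nat_lit 78) (nat_lit 152) (nat_lit 0) (XT.lf (nat_lit 0) (nat_lit 7043599814) (nat_lit 152) (nat_lit 7647430799) (nat_lit 152) (nat_lit 7058747938) (nat_lit 14) (nat_lit 4) (nat_lit 16) (nat_lit 5) (nat_lit 16) (nat_lit 4) (nat_lit 295) (nat_lit 213) (nat_lit 212)) (XT.nd (nat_lit 78) (nat_lit 152) (nat_lit 0) (XT.lf (nat_lit 0) (nat_lit 18976439651) (nat_lit 152) (nat_lit 2404514350) (nat_lit 152) (nat_lit 1255181145) (nat_lit 14) (nat_lit 4) (nat_lit 16) (nat_lit 5) (nat_lit 16) (nat_lit 4) (nat_lit 296) (nat_lit 213) (nat_lit 211)) (XT.lf (nat_lit 0) (nat_lit 4641766362) (nat_lit 152) (nat_lit 15919329152) (nat_lit 0) (nat_lit 3007508193) (nat_lit 12) (nat_lit 5) (nat_lit 14) (nat_lit 4) (nat_lit 12) (nat_lit 4) (nat_lit 297) (nat_lit 213) (nat_lit 210))))))) (XT.nd (nat_lit 858) (nat_lit 228) (nat_lit 0) (XT.nd (nat_lit 390) (nat_lit 228) (nat_lit 0) (XT.nd (nat_lit 156) (nat_lit 152)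 (nat_lit 0) (XT.nd (nat_lit 78) (nat_lit 76) (nat_lit 0) (XT.lf (nat_lit 0) (nat_lit 10669407508) (nat_lit 152) (nat_lit 5340739263) (nat_lit 0) (nat_lit 8541434398) (nat_lit 12) (nat_lit 5) (nat_lit 14) (nat_lit 4) (nat_lit 12) (nat_lit 4) (nat_lit 298) (nat_lit 213) (nat_lit 209)) (XT.lf (nat_lit 0) (nat_lit 5534752067) (nat_lit 76) (nat_lit 11325690006) (nat_lit 76) (nat_lit 8727512190) (nat_lit 11) (nat_lit 4) (nat_lit 12) (nat_lit 5) (nat_lit 12) (nat_lit 4) (nat_lit 299) (nat_lit 213) (nat_lit 208))) (XT.nd (nat_lit 78) (nat_lit 152) (nat_lit 0) (XT.lf (nat_lit 0) (nat_lit 16735339627) (nat_lit 76) (nat_lit 6495404370) (nat_lit 76) (nat_lit 3449412549) (nat_lit 11) (nat_lit 4) (nat_lit 12) (nat_lit 5) (nat_lit 12) (nat_lit 4) (nat_lit 300) (nat_lit 213) (nat_lit 207)) (XT.nd (nat_lit 78) (nat_lit 0) (nat_lit 0) (XT.lf (nat_lit 0) (nat_lit 337254639) (nat_lit 76) (nat_lit 1539462596)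 (nat_lit 152) (nat_lit 25954993792) (nat_lit 9) (nat_lit 5) (nat_lit 10) (nat_lit 5) (nat_lit 11) (nat_lit 4) (nat_lit 301) (nat_lit 213) (nat_lit 206)) (XT.lf (nat_lit 0) (nat_lit 7363013055) (nat_lit 152) (nat_lit 18080617527) (nat_lit 0) (nat_lit 3597321935) (nat_lit 9) (nat_lit 5) (nat_lit 11) (nat_lit 4) (nat_lit 9) (nat_lit 4) (nat_lit 302) (nat_lit 213) (nat_lit 205))))) (XT.nd (nat_lit 234) (nat_lit 152) (nat_lit 0) (XT.nd (nat_lit 78) (nat_lit 76) (nat_lit 0) (XT.lf (nat_lit 0) (nat_lit 12973376648) (nat_lit 152) (nat_lit 8509758293) (nat_lit 0) (nat_lit 8832114096) (nat_lit 9) (nat_lit 5) (nat_lit 11) (nat_lit 4) (nat_lit 9) (nat_lit 4) (nat_lit 303) (nat_lit 213) (nat_lit 204)) (XT.nd (nat_lit 78) (nat_lit 0) (nat_lit 0) (XT.lf (nat_lit 0) (nat_lit 1280698364) (nat_lit 76) (nat_lit 17437980259) (nat_lit 76) (nat_lit 12939030628) (nat_lit 8) (nat_lit 4) (nat_lit 9) (nat_lit 5) (nat_lit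 9) (nat_lit 4) (nat_lit 304) (nat_lit 213) (nat_lit 203)) (XT.lf (nat_lit 0) (nat_lit 11462709186) (nat_lit 76) (nat_lit 13223113778) (nat_lit 76) (nat_lit 8383509787) (nat_lit 8) (nat_lit 4) (nat_lit 9) (nat_lit 5) (nat_lit 9) (nat_lit 4) (nat_lit 305) (nat_lit 213) (nat_lit 202)))) (XT.nd (nat_lit 78) (nat_lit 152) (nat_lit 0) (XT.lf (nat_lit 0) (nat_lit 21891156178) (nat_lit 76) (nat_lit 8914431976) (nat_lit 76) (nat_lit 3750395262) (nat_lit 8) (nat_lit 4) (nat_lit 9) (nat_lit 5) (nat_lit 9) (nat_lit 4) (nat_lit 306) (nat_lit 213) (nat_lit 201)) (XT.nd (nat_lit 78) (nat_lit 76) (nat_lit 0) (XT.lf (nat_lit 0) (nat_lit 952389749) (nat_lit 152) (nat_lit 3539669069) (nat_lit 76) (nat_lit 31628861957) (nat_lit 7) (nat_lit 5) (nat_lit 9) (nat_lit 5) (nat_lit 8) (nat_lit 4) (nat_lit 307) (nat_lit 213) (nat_lit 200)) (XT.lf (nat_lit 0) (nat_lit 5737766096) (nat_lit 152) (nat_lit 31889084404) (nat_lit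 0) (nat_lit 138455119) (nat_lit 6) (nat_lit 5) (nat_lit 8) (nat_lit 4) (nat_lit 6) (nat_lit 4) (nat_lit 308) (nat_lit 213) (nat_lit 199)))))) (XT.nd (nat_lit 390) (nat_lit 152) (nat_lit 0) (XT.nd (nat_lit 156) (nat_lit 76) (nat_lit 0) (XT.nd (nat_lit 78) (nat_lit 0) (nat_lit 0) (XT.lf (nat_lit 0) (nat_lit 10714092139) (nat_lit 152) (nat_lit 23936642309) (nat_lit 0) (nat_lit 4842686808) (nat_lit 6) (nat_lit 5) (nat_lit 8) (nat_lit 4) (nat_lit 6) (nat_lit 4) (nat_lit 309) (nat_lit 213) (nat_lit 198)) (XT.lf (nat_lit 0) (nat_lit 15814989628) (nat_lit 152) (nat_lit 15812292601) (nat_lit 0) (nat_lit 9684446817) (nat_lit 6) (nat_lit 5) (nat_lit 8) (nat_lit 4) (nat_lit 6) (nat_lit 4) (nat_lit 310) (nat_lit 213) (nat_lit 197))) (XT.nd (nat_lit 78) (nat_lit 76) (nat_lit 0) (XT.lf (nat_lit 0) (nat_lit 21052603557) (nat_lit 152) (nat_lit 7496691590) (nat_lit 0) (nat_lit 14675263146) (nat_lit 6) (nat_lit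 5) (nat_lit 8) (nat_lit 4) (nat_lit 6) (nat_lit 4) (nat_lit 311) (nat_lit 213) (nat_lit 196)) (XT.nd (nat_lit 78) (nat_lit 0) (nat_lit 0) (XT.lf (nat_lit 0) (nat_lit 1050457991) (nat_lit 76) (nat_lit 25399044090) (nat_lit 76) (nat_lit 18786658344) (nat_lit 5) (nat_lit 4) (nat_lit 6) (nat_lit 5) (nat_lit 6) (nat_lit 4) (nat_lit 312) (nat_lit 213) (nat_lit 195)) (XT.lf (nat_lit 0) (nat_lit 9982762695) (nat_lit 76) (nat_lit 22101415707) (nat_lit 76) (nat_lit 15265177263) (nat_lit 5) (nat_lit 4) (nat_lit 6) (nat_lit 5) (nat_lit 6) (nat_lit 4) (nat_lit 313) (nat_lit 213) (nat_lit 194))))) (XT.nd (nat_lit 234) (nat_lit 152) (nat_lit 0) (XT.nd (nat_lit 78) (nat_lit 0) (nat_lit 0) (XT.lf (nat_lit 0) (nat_lit 19172291052) (nat_lit 76) (nat_lit 18724260390) (nat_lit 76) (nat_lit 11674828899) (nat_lit 5) (nat_lit 4) (nat_lit 6) (nat_lit 5) (nat_lit 6) (nat_lit 4) (nat_lit 314) (nat_lit 213) (nat_lit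 193)) (XT.nd (nat_lit 78) (nat_lit 0) (nat_lit 0) (XT.lf (nat_lit 0) (nat_lit 28640922890) (nat_lit 76) (nat_lit 15259537292) (nat_lit 76) (nat_lit 8007064805) (nat_lit 5) (nat_lit 4) (nat_lit 6) (nat_lit 5) (nat_lit 6) (nat_lit 4) (nat_lit 315) (nat_lit 213) (nat_lit 192)) (XT.lf (nat_lit 0) (nat_lit 38411202571) (nat_lit 76) (nat_lit 11698997074) (nat_lit 76) (nat_lit 4253152208) (nat_lit 5) (nat_lit 4) (nat_lit 6) (nat_lit 5) (nat_lit 6) (nat_lit 4) (nat_lit 316) (nat_lit 213) (nat_lit 191)))) (XT.nd (nat_lit 78) (nat_lit 152) (nat_lit 0) (XT.lf (nat_lit 0) (nat_lit 48506392667) (nat_lit 76) (nat_lit 8034162257) (nat_lit 76) (nat_lit 404153222) (nat_lit 5) (nat_lit 4) (nat_lit 6) (nat_lit 5) (nat_lit 6) (nat_lit 4) (nat_lit 317) (nat_lit 213) (nat_lit 190)) (XT.nd (nat_lit 78) (nat_lit 76) (nat_lit 0) (XT.lf (nat_lit 0) (nat_lit 3479840781) (nat_lit 152) (nat_lit 741326696) (nat_lit 76)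 (nat_lit 55435548993) (nat_lit 4) (nat_lit 5) (nat_lit 6) (nat_lit 5) (nat_lit 5) (nat_lit 4) (nat_lit 318) (nat_lit 213) (nat_lit 189)) (XT.lf (nat_lit 0) (nat_lit 7329385694) (nat_lit 76) (nat_lit 208462338) (nat_lit 152) (nat_lit 54966748909) (nat_lit 3) (nat_lit 5) (nat_lit 4) (nat_lit 5) (nat_lit 5) (nat_lit 4) (nat_lit 319) (nat_lit 213) (nat_lit 188))))))))
noncomputable def xc10 : XT := (XT.nd (nat_lit 35880) (nat_lit 0) (nat_lit 76) (XT.nd (nat_lit 858) (nat_lit 0) (nat_lit 0) (XT.nd (nat_lit 390) (nat_lit 76) (nat_lit 0) (XT.nd (nat_lit 156) (nat_lit 0) (nat_lit 0) (XT.nd (nat_lit 78) (nat_lit 0) (nat_lit 0) (XT.lf (nat_lit 0) (nat_lit 11764486629) (nat_lit 152) (nat_lit 49861654388) (nat_lit 0) (nat_lit 3869793672) (nat_lit 3) (nat_lit 5) (nat_lit 5) (nat_lit 4) (nat_lit 3) (nat_lit 4) (nat_lit 320) (nat_lit 213) (nat_lit 187)) (XT.lf (nat_lit 0) (nat_lit 16127920056) (nat_lit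 152) (nat_lit 44425061126) (nat_lit 0) (nat_lit 8086127761) (nat_lit 3) (nat_lit 5) (nat_lit 5) (nat_lit 4) (nat_lit 3) (nat_lit 4) (nat_lit 321) (nat_lit 213) (nat_lit 186))) (XT.nd (nat_lit 78) (nat_lit 0) (nat_lit 0) (XT.lf (nat_lit 0) (nat_lit 20636533574) (nat_lit 152) (nat_lit 38850483322) (nat_lit 0) (nat_lit 12454646672) (nat_lit 3) (nat_lit 5) (nat_lit 5) (nat_lit 4) (nat_lit 3) (nat_lit 4) (nat_lit 322) (nat_lit 213) (nat_lit 185)) (XT.nd (nat_lit 78) (nat_lit 0) (nat_lit 0) (XT.lf (nat_lit 0) (nat_lit 25301061976) (nat_lit 152) (nat_lit 33124648173) (nat_lit 0) (nat_lit 16985751639) (nat_lit 3) (nat_lit 5) (nat_lit 5) (nat_lit 4) (nat_lit 3) (nat_lit 4) (nat_lit 323) (nat_lit 213) (nat_lit 184)) (XT.lf (nat_lit 0) (nat_lit 30132611284) (nat_lit 152) (nat_lit 27233922737) (nat_lit 0) (nat_lit 21690231007) (nat_lit 3) (nat_lit 5) (nat_lit 5) (nat_lit 4) (nat_lit 3) (nat_lit 4) (nat_lit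 324) (nat_lit 213) (nat_lit 183))))) (XT.nd (nat_lit 234) (nat_lit 76) (nat_lit 0) (XT.nd (nat_lit 78) (nat_lit 0) (nat_lit 0) (XT.lf (nat_lit 0) (nat_lit 35142685184) (nat_lit 152) (nat_lit 21164281479) (nat_lit 0) (nat_lit 26579285919) (nat_lit 3) (nat_lit 5) (nat_lit 5) (nat_lit 4) (nat_lit 3) (nat_lit 4) (nat_lit 325) (nat_lit 213) (nat_lit 182)) (XT.nd (nat_lit 78) (nat_lit 0) (nat_lit 0) (XT.lf (nat_lit 0) (nat_lit 40343212426) (nat_lit 152) (nat_lit 14901272871) (nat_lit 0) (nat_lit 31664556980) (nat_lit 3) (nat_lit 5) (nat_lit 5) (nat_lit 4) (nat_lit 3) (nat_lit 4) (nat_lit 326) (nat_lit 213) (nat_lit 181)) (XT.lf (nat_lit 0) (nat_lit 45746575217) (nat_lit 152) (nat_lit 8429984988) (nat_lit 0) (nat_lit 36958151980) (nat_lit 3) (nat_lit 5) (nat_lit 5) (nat_lit 4) (nat_lit 3) (nat_lit 4) (nat_lit 327) (nat_lit 213) (nat_lit 180)))) (XT.nd (nat_lit 78) (nat_lit 76) (nat_lit 0) (XT.lf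 (nat_lit 0) (nat_lit 51365638705) (nat_lit 152) (nat_lit 1735010001) (nat_lit 0) (nat_lit 42472674716) (nat_lit 3) (nat_lit 5) (nat_lit 5) (nat_lit 4) (nat_lit 3) (nat_lit 4) (nat_lit 328) (nat_lit 213) (nat_lit 179)) (XT.nd (nat_lit 78) (nat_lit 0) (nat_lit 0) (XT.lf (nat_lit 0) (nat_lit 5303074590) (nat_lit 76) (nat_lit 51961683421) (nat_lit 76) (nat_lit 42969156810) (nat_lit 2) (nat_lit 4) (nat_lit 3) (nat_lit 5) (nat_lit 3) (nat_lit 4) (nat_lit 329) (nat_lit 213) (nat_lit 178)) (XT.lf (nat_lit 0) (nat_lit 12636925420) (nat_lit 76) (nat_lit 50789476532) (nat_lit 76) (nat_lit 41702128376) (nat_lit 2) (nat_lit 4) (nat_lit 3) (nat_lit 5) (nat_lit 3) (nat_lit 4) (nat_lit 330) (nat_lit 213) (nat_lit 177)))))) (XT.nd (nat_lit 34554) (nat_lit 0) (nat_lit 760) (XT.nd (nat_lit 156) (nat_lit 0) (nat_lit 0) (XT.nd (nat_lit 78) (nat_lit 0) (nat_lit 0) (XT.lf (nat_lit 0) (nat_lit 20249473936) (nat_lit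 76) (nat_lit 49598757270) (nat_lit 76) (nat_lit 40421102880) (nat_lit 2) (nat_lit 4) (nat_lit 3) (nat_lit 5) (nat_lit 3) (nat_lit 4) (nat_lit 331) (nat_lit 213) (nat_lit 176)) (XT.lf (nat_lit 0) (nat_lit 28158845253) (nat_lit 76) (nat_lit 48386690589) (nat_lit 76) (nat_lit 39123030263) (nat_lit 2) (nat_lit 4) (nat_lit 3) (nat_lit 5) (nat_lit 3) (nat_lit 4) (nat_lit 332) (nat_lit 213) (nat_lit 175))) (XT.nd (nat_lit 156) (nat_lit 0) (nat_lit 0) (XT.lf (nat_lit 0) (nat_lit 36383871208) (nat_lit 76) (nat_lit 47150390616) (nat_lit 76) (nat_lit 37804819875) (nat_lit 2) (nat_lit 4) (nat_lit 3) (nat_lit 5) (nat_lit 3) (nat_lit 4) (nat_lit 333) (nat_lit 213) (nat_lit 174)) (XT.nd (nat_lit 34164) (nat_lit 0) (nat_lit 1216) (XT.lf (nat_lit 0) (nat_lit 53860018798) (nat_lit 76) (nat_lit 44593251802) (nat_lit 76) (nat_lit 35095375980) (nat_lit 2) (nat_lit 4) (nat_lit 3) (nat_lit 5) (nat_lit 3) (nat_lit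 4) (nat_lit 335) (nat_lit 213) (nat_lit 172)) (XT.lf (nat_lit 0) (nat_lit 5961126252) (nat_lit 152) (nat_lit 1858856858) (nat_lit 152) (nat_lit 1858856858) (nat_lit 18) (nat_lit 4) (nat_lit 20) (nat_lit 5) (nat_lit 20) (nat_lit 4) (nat_lit 292) (nat_lit 214) (nat_lit 214))))) (XT.nd (nat_lit 234) (nat_lit 152) (nat_lit 0) (XT.nd (nat_lit 78) (nat_lit 152) (nat_lit 0) (XT.lf (nat_lit 0) (nat_lit 2414620806) (nat_lit 152) (nat_lit 15904574808) (nat_lit 0) (nat_lit 1796503801) (nat_lit 16) (nat_lit 5) (nat_lit 18) (nat_lit 4) (nat_lit 16) (nat_lit 4) (nat_lit 293) (nat_lit 214) (nat_lit 213)) (XT.nd (nat_lit 78) (nat_lit 152) (nat_lit 0) (XT.lf (nat_lit 0) (nat_lit 8671605890) (nat_lit 152) (nat_lit 4777390115) (nat_lit 0) (nat_lit 7464806024) (nat_lit 16) (nat_lit 5) (nat_lit 18) (nat_lit 4) (nat_lit 16) (nat_lit 4) (nat_lit 294) (nat_lit 214) (nat_lit 212)) (XT.lf (nat_lit 0) (nat_lit 6667067654)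 (nat_lit 152) (nat_lit 8428350349) (nat_lit 152) (nat_lit 6660900139) (nat_lit 14) (nat_lit 4) (nat_lit 16) (nat_lit 5) (nat_lit 16) (nat_lit 4) (nat_lit 295) (nat_lit 214) (nat_lit 211)))) (XT.nd (nat_lit 78) (nat_lit 152) (nat_lit 0) (XT.lf (nat_lit 0) (nat_lit 18424979658) (nat_lit 152) (nat_lit 3261068068) (nat_lit 152) (nat_lit 959665150) (nat_lit 14) (nat_lit 4) (nat_lit 16) (nat_lit 5) (nat_lit 16) (nat_lit 4) (nat_lit 296) (nat_lit 214) (nat_lit 210)) (XT.nd (nat_lit 78) (nat_lit 0) (nat_lit 0) (XT.lf (nat_lit 0) (nat_lit 4819799588) (nat_lit 152) (nat_lit 16669990090) (nat_lit 0) (nat_lit 2091712882) (nat_lit 12) (nat_lit 5) (nat_lit 14) (nat_lit 4) (nat_lit 12) (nat_lit 4) (nat_lit 297) (nat_lit 214) (nat_lit 209)) (XT.lf (nat_lit 0) (nat_lit 10754176315) (nat_lit 152) (nat_lit 6257268981) (nat_lit 0) (nat_lit 7555884903) (nat_lit 12) (nat_lit 5) (nat_lit 14) (nat_lit 4) (nat_lit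 12) (nat_lit 4) (nat_lit 298) (nat_lit 214) (nat_lit 208))))))) (XT.nd (nat_lit 858) (nat_lit 228) (nat_lit 0) (XT.nd (nat_lit 390) (nat_lit 228) (nat_lit 0) (XT.nd (nat_lit 156) (nat_lit 152) (nat_lit 0) (XT.nd (nat_lit 78) (nat_lit 0) (nat_lit 0) (XT.lf (nat_lit 0) (nat_lit 4438867425) (nat_lit 76) (nat_lit 12406985885) (nat_lit 76) (nat_lit 8760880468) (nat_lit 11) (nat_lit 4) (nat_lit 12) (nat_lit 5) (nat_lit 12) (nat_lit 4) (nat_lit 299) (nat_lit 214) (nat_lit 207)) (XT.lf (nat_lit 0) (nat_lit 15486012904) (nat_lit 76) (nat_lit 7644073774) (nat_lit 76) (nat_lit 3571478828) (nat_lit 11) (nat_lit 4) (nat_lit 12) (nat_lit 5) (nat_lit 12) (nat_lit 4) (nat_lit 300) (nat_lit 214) (nat_lit 206))) (XT.nd (nat_lit 78) (nat_lit 76) (nat_lit 0) (XT.lf (nat_lit 0) (nat_lit 1670965123) (nat_lit 152) (nat_lit 1086716250) (nat_lit 76) (nat_lit 25098099665) (nat_lit 10) (nat_lit 5) (nat_lit 12) (nat_lit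 5) (nat_lit 11) (nat_lit 4) (nat_lit 301) (nat_lit 214) (nat_lit 205)) (XT.nd (nat_lit 78) (nat_lit 0) (nat_lit 0) (XT.lf (nat_lit 0) (nat_lit 7053920288) (nat_lit 152) (nat_lit 19684221011) (nat_lit 0) (nat_lit 2330023176) (nat_lit 9) (nat_lit 5) (nat_lit 11) (nat_lit 4) (nat_lit 9) (nat_lit 4) (nat_lit 302) (nat_lit 214) (nat_lit 204)) (XT.lf (nat_lit 0) (nat_lit 12587264050) (nat_lit 152) (nat_lit 10251867424) (nat_lit 0) (nat_lit 7505679860) (nat_lit 9) (nat_lit 5) (nat_lit 11) (nat_lit 4) (nat_lit 9) (nat_lit 4) (nat_lit 303) (nat_lit 214) (nat_lit 203))))) (XT.nd (nat_lit 234) (nat_lit 152) (nat_lit 0) (XT.nd (nat_lit 78) (nat_lit 76) (nat_lit 0) (XT.lf (nat_lit 0) (nat_lit 18246902950) (nat_lit 152) (nat_lit 618311943) (nat_lit 0) (nat_lit 12824664399) (nat_lit 9) (nat_lit 5) (nat_lit 11) (nat_lit 4) (nat_lit 9) (nat_lit 4) (nat_lit 304) (nat_lit 214) (nat_lit 202)) (XT.nd (nat_lit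 78) (nat_lit 0) (nat_lit 0) (XT.lf (nat_lit 0) (nat_lit 9423264297) (nat_lit 76) (nat_lit 14713630201) (nat_lit 76) (nat_lit 8966958926) (nat_lit 8) (nat_lit 4) (nat_lit 9) (nat_lit 5) (nat_lit 9) (nat_lit 4) (nat_lit 305) (nat_lit 214) (nat_lit 201)) (XT.lf (nat_lit 0) (nat_lit 19729683706) (nat_lit 76) (nat_lit 10459270352) (nat_lit 76) (nat_lit 4403615531) (nat_lit 8) (nat_lit 4) (nat_lit 9) (nat_lit 5) (nat_lit 9) (nat_lit 4) (nat_lit 306) (nat_lit 214) (nat_lit 200)))) (XT.nd (nat_lit 78) (nat_lit 76) (nat_lit 0) (XT.lf (nat_lit 0) (nat_lit 246764118) (nat_lit 152) (nat_lit 5848993703) (nat_lit 76) (nat_lit 30063923807) (nat_lit 7) (nat_lit 5) (nat_lit 9) (nat_lit 5) (nat_lit 8) (nat_lit 4) (nat_lit 307) (nat_lit 214) (nat_lit 199)) (XT.nd (nat_lit 78) (nat_lit 0) (nat_lit 0) (XT.lf (nat_lit 0) (nat_lit 3408158884) (nat_lit 76) (nat_lit 1536836650) (nat_lit 152) (nat_lit 32861715520)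 (nat_lit 6) (nat_lit 5) (nat_lit 7) (nat_lit 5) (nat_lit 8) (nat_lit 4) (nat_lit 308) (nat_lit 214) (nat_lit 198)) (XT.lf (nat_lit 0) (nat_lit 9845941316) (nat_lit 152) (nat_lit 26541441691) (nat_lit 0) (nat_lit 3149733884) (nat_lit 6) (nat_lit 5) (nat_lit 8) (nat_lit 4) (nat_lit 6) (nat_lit 4) (nat_lit 309) (nat_lit 214) (nat_lit 197)))))) (XT.nd (nat_lit 390) (nat_lit 152) (nat_lit 0) (XT.nd (nat_lit 156) (nat_lit 76) (nat_lit 0) (XT.nd (nat_lit 78) (nat_lit 0) (nat_lit 0) (XT.lf (nat_lit 0) (nat_lit 14889117618) (nat_lit 152) (nat_lit 18521953535) (nat_lit 0) (nat_lit 7946112585) (nat_lit 6) (nat_lit 5) (nat_lit 8) (nat_lit 4) (nat_lit 6) (nat_lit 4) (nat_lit 310) (nat_lit 214) (nat_lit 196)) (XT.lf (nat_lit 0) (nat_lit 20071758988) (nat_lit 152) (nat_lit 10306220670) (nat_lit 0) (nat_lit 12893708621) (nat_lit 6) (nat_lit 5) (nat_lit 8) (nat_lit 4) (nat_lit 6) (nat_lit 4) (nat_lit 311)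 (nat_lit 214) (nat_lit 195))) (XT.nd (nat_lit 78) (nat_lit 76) (nat_lit 0) (XT.lf (nat_lit 0) (nat_lit 25406205048) (nat_lit 152) (nat_lit 1874681826) (nat_lit 0) (nat_lit 18004301982) (nat_lit 6) (nat_lit 5) (nat_lit 8) (nat_lit 4) (nat_lit 6) (nat_lit 4) (nat_lit 312) (nat_lit 214) (nat_lit 194)) (XT.nd (nat_lit 78) (nat_lit 0) (nat_lit 0) (XT.lf (nat_lit 0) (nat_lit 6927926895) (nat_lit 76) (nat_lit 24043825436) (nat_lit 76) (nat_lit 16428729325) (nat_lit 5) (nat_lit 4) (nat_lit 6) (nat_lit 5) (nat_lit 6) (nat_lit 4) (nat_lit 313) (nat_lit 214) (nat_lit 193)) (XT.lf (nat_lit 0) (nat_lit 16029468453) (nat_lit 76) (nat_lit 20706323771) (nat_lit 76) (nat_lit 12888186662) (nat_lit 5) (nat_lit 4) (nat_lit 6) (nat_lit 5) (nat_lit 6) (nat_lit 4) (nat_lit 314) (nat_lit 214) (nat_lit 192))))) (XT.nd (nat_lit 234) (nat_lit 152) (nat_lit 0) (XT.nd (nat_lit 78) (nat_lit 0) (nat_lit 0) (XT.lf (nat_lit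 0) (nat_lit 25414303341) (nat_lit 76) (nat_lit 17279366055) (nat_lit 76) (nat_lit 9267856569) (nat_lit 5) (nat_lit 4) (nat_lit 6) (nat_lit 5) (nat_lit 6) (nat_lit 4) (nat_lit 315) (nat_lit 214) (nat_lit 191)) (XT.nd (nat_lit 78) (nat_lit 0) (nat_lit 0) (XT.lf (nat_lit 0) (nat_lit 35104776402) (nat_lit 76) (nat_lit 13754792868) (nat_lit 76) (nat_lit 5559119212) (nat_lit 5) (nat_lit 4) (nat_lit 6) (nat_lit 5) (nat_lit 6) (nat_lit 4) (nat_lit 316) (nat_lit 214) (nat_lit 190)) (XT.lf (nat_lit 0) (nat_lit 45123960193) (nat_lit 76) (nat_lit 10124212366) (nat_lit 76) (nat_lit 1753144263) (nat_lit 5) (nat_lit 4) (nat_lit 6) (nat_lit 5) (nat_lit 6) (nat_lit 4) (nat_lit 317) (nat_lit 214) (nat_lit 189)))) (XT.nd (nat_lit 78) (nat_lit 76) (nat_lit 0) (XT.lf (nat_lit 0) (nat_lit 2116997715) (nat_lit 152) (nat_lit 4240605070) (nat_lit 76) (nat_lit 53357334671) (nat_lit 4) (nat_lit 5) (nat_lit 6) (nat_lit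 5) (nat_lit 5) (nat_lit 4) (nat_lit 318) (nat_lit 214) (nat_lit 188)) (XT.nd (nat_lit 78) (nat_lit 0) (nat_lit 0) (XT.lf (nat_lit 0) (nat_lit 3689358661) (nat_lit 76) (nat_lit 2412393569) (nat_lit 152) (nat_lit 56463280442) (nat_lit 3) (nat_lit 5) (nat_lit 4) (nat_lit 5) (nat_lit 5) (nat_lit 4) (nat_lit 319) (nat_lit 214) (nat_lit 187)) (XT.lf (nat_lit 0) (nat_lit 10269819360) (nat_lit 152) (nat_lit 53609486435) (nat_lit 0) (nat_lit 1678838113) (nat_lit 3) (nat_lit 5) (nat_lit 5) (nat_lit 4) (nat_lit 3) (nat_lit 4) (nat_lit 320) (nat_lit 214) (nat_lit 186))))))))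
noncomputable def xc11 : XT := (XT.nd (nat_lit 35724) (nat_lit 0) (nat_lit 76) (XT.nd (nat_lit 858) (nat_lit 0) (nat_lit 0) (XT.nd (nat_lit 390) (nat_lit 76) (nat_lit 0) (XT.nd (nat_lit 156) (nat_lit 0) (nat_lit 0) (XT.nd (nat_lit 78) (nat_lit 0) (nat_lit 0) (XT.lf (nat_lit 0) (nat_lit 14597647138) (nat_lit 152) (nat_lit 48238183476) (nat_lit 0) (nat_lit 5866571283) (nat_lit 3) (nat_lit 5) (nat_lit 5) (nat_lit 4) (nat_lit 3) (nat_lit 4) (nat_lit 321) (nat_lit 214) (nat_lit 185)) (XT.lf (nat_lit 0) (nat_lit 19072350514) (nat_lit 152) (nat_lit 42725786914) (nat_lit 0) (nat_lit 10207851223) (nat_lit 3) (nat_lit 5) (nat_lit 5) (nat_lit 4) (nat_lit 3) (nat_lit 4) (nat_lit 322) (nat_lit 214) (nat_lit 184))) (XT.nd (nat_lit 78) (nat_lit 0) (nat_lit 0) (XT.lf (nat_lit 0) (nat_lit 23704583543) (nat_lit 152) (nat_lit 37059171994) (nat_lit 0) (nat_lit 14713014314) (nat_lit 3) (nat_lit 5) (nat_lit 5)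 (nat_lit 4) (nat_lit 3) (nat_lit 4) (nat_lit 323) (nat_lit 214) (nat_lit 183)) (XT.nd (nat_lit 78) (nat_lit 0) (nat_lit 0) (XT.lf (nat_lit 0) (nat_lit 28505375352) (nat_lit 152) (nat_lit 31224846778) (nat_lit 0) (nat_lit 19392787134) (nat_lit 3) (nat_lit 5) (nat_lit 5) (nat_lit 4) (nat_lit 3) (nat_lit 4) (nat_lit 324) (nat_lit 214) (nat_lit 182)) (XT.lf (nat_lit 0) (nat_lit 33486156397) (nat_lit 152) (nat_lit 25208920014) (nat_lit 0) (nat_lit 24258311999) (nat_lit 3) (nat_lit 5) (nat_lit 5) (nat_lit 4) (nat_lit 3) (nat_lit 4) (nat_lit 325) (nat_lit 214) (nat_lit 181))))) (XT.nd (nat_lit 234) (nat_lit 76) (nat_lit 0) (XT.nd (nat_lit 78) (nat_lit 0) (nat_lit 0) (XT.lf (nat_lit 0) (nat_lit 38658785681) (nat_lit 152) (nat_lit 18997068067) (nat_lit 0) (nat_lit 29321173492) (nat_lit 3) (nat_lit 5) (nat_lit 5) (nat_lit 4) (nat_lit 3) (nat_lit 4) (nat_lit 326) (nat_lit 214) (nat_lit 180)) (XT.nd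 (nat_lit 78) (nat_lit 0) (nat_lit 0) (XT.lf (nat_lit 0) (nat_lit 44035578988) (nat_lit 152) (nat_lit 12574500813) (nat_lit 0) (nat_lit 34593426046) (nat_lit 3) (nat_lit 5) (nat_lit 5) (nat_lit 4) (nat_lit 3) (nat_lit 4) (nat_lit 327) (nat_lit 214) (nat_lit 179)) (XT.lf (nat_lit 0) (nat_lit 49629338206) (nat_lit 152) (nat_lit 5925926427) (nat_lit 0) (nat_lit 40087622643) (nat_lit 3) (nat_lit 5) (nat_lit 5) (nat_lit 4) (nat_lit 3) (nat_lit 4) (nat_lit 328) (nat_lit 214) (nat_lit 178)))) (XT.nd (nat_lit 78) (nat_lit 0) (nat_lit 0) (XT.lf (nat_lit 0) (nat_lit 983680175) (nat_lit 76) (nat_lit 54479157371) (nat_lit 76) (nat_lit 44842620263) (nat_lit 2) (nat_lit 4) (nat_lit 3) (nat_lit 5) (nat_lit 3) (nat_lit 4) (nat_lit 329) (nat_lit 214) (nat_lit 177)) (XT.nd (nat_lit 78) (nat_lit 0) (nat_lit 0) (XT.lf (nat_lit 0) (nat_lit 8274606685) (nat_lit 76) (nat_lit 53326510468) (nat_lit 76) (nat_lit 43599667127)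 (nat_lit 2) (nat_lit 4) (nat_lit 3) (nat_lit 5) (nat_lit 3) (nat_lit 4) (nat_lit 330) (nat_lit 214) (nat_lit 176)) (XT.lf (nat_lit 0) (nat_lit 15846274896) (nat_lit 76) (nat_lit 52154419764) (nat_lit 76) (nat_lit 42341570486) (nat_lit 2) (nat_lit 4) (nat_lit 3) (nat_lit 5) (nat_lit 3) (nat_lit 4) (nat_lit 331) (nat_lit 214) (nat_lit 175)))))) (XT.nd (nat_lit 34398) (nat_lit 0) (nat_lit 760) (XT.nd (nat_lit 234) (nat_lit 0) (nat_lit 0) (XT.nd (nat_lit 78) (nat_lit 0) (nat_lit 0) (XT.lf (nat_lit 0) (nat_lit 23716712590) (nat_lit 76) (nat_lit 50960094567) (nat_lit 76) (nat_lit 41065334874) (nat_lit 2) (nat_lit 4) (nat_lit 3) (nat_lit 5) (nat_lit 3) (nat_lit 4) (nat_lit 332) (nat_lit 214) (nat_lit 174)) (XT.lf (nat_lit 0) (nat_lit 31904658903) (nat_lit 76) (nat_lit 49740691246) (nat_lit 76) (nat_lit 39767921633) (nat_lit 2) (nat_lit 4) (nat_lit 3) (nat_lit 5) (nat_lit 3) (nat_lit 4) (nat_lit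 333) (nat_lit 214) (nat_lit 173))) (XT.nd (nat_lit 34008) (nat_lit 0) (nat_lit 1368) (XT.lf (nat_lit 0) (nat_lit 49311860221) (nat_lit 76) (nat_lit 47214970242) (nat_lit 76) (nat_lit 37097148171) (nat_lit 2) (nat_lit 4) (nat_lit 3) (nat_lit 5) (nat_lit 3) (nat_lit 4) (nat_lit 335) (nat_lit 214) (nat_lit 171)) (XT.nd (nat_lit 78) (nat_lit 0) (nat_lit 0) (XT.lf (nat_lit 0) (nat_lit 1551505970) (nat_lit 152) (nat_lit 5875144937) (nat_lit 0) (nat_lit 1551505970) (nat_lit 20) (nat_lit 5) (nat_lit 22) (nat_lit 4) (nat_lit 20) (nat_lit 4) (nat_lit 290) (nat_lit 215) (nat_lit 215)) (XT.lf (nat_lit 0) (nat_lit 9543765989) (nat_lit 152) (nat_lit 220860180) (nat_lit 0) (nat_lit 8875272449) (nat_lit 20) (nat_lit 5) (nat_lit 22) (nat_lit 4) (nat_lit 20) (nat_lit 4) (nat_lit 291) (nat_lit 215) (nat_lit 214))))) (XT.nd (nat_lit 234) (nat_lit 304) (nat_lit 0) (XT.nd (nat_lit 78) (nat_lit 152) (nat_lit 0)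 (XT.lf (nat_lit 0) (nat_lit 11732420014) (nat_lit 152) (nat_lit 4466879759) (nat_lit 152) (nat_lit 3161725704) (nat_lit 18) (nat_lit 4) (nat_lit 20) (nat_lit 5) (nat_lit 20) (nat_lit 4) (nat_lit 292) (nat_lit 215) (nat_lit 213)) (XT.nd (nat_lit 78) (nat_lit 0) (nat_lit 0) (XT.lf (nat_lit 0) (nat_lit 2843027996) (nat_lit 152) (nat_lit 16292218703) (nat_lit 0) (nat_lit 987205276) (nat_lit 16) (nat_lit 5) (nat_lit 18) (nat_lit 4) (nat_lit 16) (nat_lit 4) (nat_lit 293) (nat_lit 215) (nat_lit 212)) (XT.lf (nat_lit 0) (nat_lit 8997520320) (nat_lit 152) (nat_lit 5345124088) (nat_lit 0) (nat_lit 6581047256) (nat_lit 16) (nat_lit 5) (nat_lit 18) (nat_lit 4) (nat_lit 16) (nat_lit 4) (nat_lit 294) (nat_lit 215) (nat_lit 211)))) (XT.nd (nat_lit 78) (nat_lit 152) (nat_lit 0) (XT.lf (nat_lit 0) (nat_lit 5913106829) (nat_lit 152) (nat_lit 9403365921) (nat_lit 152) (nat_lit 6452940148) (nat_lit 14) (nat_lit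 4) (nat_lit 16) (nat_lit 5) (nat_lit 16) (nat_lit 4) (nat_lit 295) (nat_lit 215) (nat_lit 210)) (XT.nd (nat_lit 78) (nat_lit 152) (nat_lit 0) (XT.lf (nat_lit 0) (nat_lit 17504420897) (nat_lit 152) (nat_lit 4308116180) (nat_lit 152) (nat_lit 849164018) (nat_lit 14) (nat_lit 4) (nat_lit 16) (nat_lit 5) (nat_lit 16) (nat_lit 4) (nat_lit 296) (nat_lit 215) (nat_lit 209)) (XT.lf (nat_lit 0) (nat_lit 4815542416) (nat_lit 152) (nat_lit 17798215075) (nat_lit 0) (nat_lit 987131728) (nat_lit 12) (nat_lit 5) (nat_lit 14) (nat_lit 4) (nat_lit 12) (nat_lit 4) (nat_lit 297) (nat_lit 215) (nat_lit 208))))))) (XT.nd (nat_lit 858) (nat_lit 228) (nat_lit 0) (XT.nd (nat_lit 390) (nat_lit 228) (nat_lit 0) (XT.nd (nat_lit 156) (nat_lit 152) (nat_lit 0) (XT.nd (nat_lit 78) (nat_lit 76) (nat_lit 0) (XT.lf (nat_lit 0) (nat_lit 10661095886) (nat_lit 152) (nat_lit 7543464234) (nat_lit 0) (nat_lit 6384871192) (nat_lit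 12) (nat_lit 5) (nat_lit 14) (nat_lit 4) (nat_lit 12) (nat_lit 4) (nat_lit 298) (nat_lit 215) (nat_lit 207)) (XT.lf (nat_lit 0) (nat_lit 2973632283) (nat_lit 76) (nat_lit 13680462284) (nat_lit 76) (nat_lit 8977748062) (nat_lit 11) (nat_lit 4) (nat_lit 12) (nat_lit 5) (nat_lit 12) (nat_lit 4) (nat_lit 299) (nat_lit 215) (nat_lit 206))) (XT.nd (nat_lit 78) (nat_lit 152) (nat_lit 0) (XT.lf (nat_lit 0) (nat_lit 13874642446) (nat_lit 76) (nat_lit 8981715435) (nat_lit 76) (nat_lit 3872820708) (nat_lit 11) (nat_lit 4) (nat_lit 12) (nat_lit 5) (nat_lit 12) (nat_lit 4) (nat_lit 300) (nat_lit 215) (nat_lit 205)) (XT.nd (nat_lit 78) (nat_lit 76) (nat_lit 0) (XT.lf (nat_lit 0) (nat_lit 1296621708) (nat_lit 152) (nat_lit 2863591232) (nat_lit 76) (nat_lit 23725676265) (nat_lit 10) (nat_lit 5) (nat_lit 12) (nat_lit 5) (nat_lit 11) (nat_lit 4) (nat_lit 301) (nat_lit 215) (nat_lit 204)) (XT.lf (nat_lit 0)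 (nat_lit 6571482230) (nat_lit 152) (nat_lit 21651941244) (nat_lit 0) (nat_lit 878131752) (nat_lit 9) (nat_lit 5) (nat_lit 11) (nat_lit 4) (nat_lit 9) (nat_lit 4) (nat_lit 302) (nat_lit 215) (nat_lit 203))))) (XT.nd (nat_lit 234) (nat_lit 152) (nat_lit 0) (XT.nd (nat_lit 78) (nat_lit 76) (nat_lit 0) (XT.lf (nat_lit 0) (nat_lit 12031473772) (nat_lit 152) (nat_lit 12351497796) (nat_lit 0) (nat_lit 5997468934) (nat_lit 9) (nat_lit 5) (nat_lit 11) (nat_lit 4) (nat_lit 9) (nat_lit 4) (nat_lit 303) (nat_lit 215) (nat_lit 202)) (XT.nd (nat_lit 78) (nat_lit 76) (nat_lit 0) (XT.lf (nat_lit 0) (nat_lit 17621253414) (nat_lit 152) (nat_lit 2843571019) (nat_lit 0) (nat_lit 11262815852) (nat_lit 9) (nat_lit 5) (nat_lit 11) (nat_lit 4) (nat_lit 9) (nat_lit 4) (nat_lit 304) (nat_lit 215) (nat_lit 201)) (XT.lf (nat_lit 0) (nat_lit 7031690619) (nat_lit 76) (nat_lit 16390032447) (nat_lit 76) (nat_lit 9722611339)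 (nat_lit 8) (nat_lit 4) (nat_lit 9) (nat_lit 5) (nat_lit 9) (nat_lit 4) (nat_lit 305) (nat_lit 215) (nat_lit 200)))) (XT.nd (nat_lit 78) (nat_lit 152) (nat_lit 0) (XT.lf (nat_lit 0) (nat_lit 17221893284) (nat_lit 76) (nat_lit 12187407791) (nat_lit 76) (nat_lit 5225716639) (nat_lit 8) (nat_lit 4) (nat_lit 9) (nat_lit 5) (nat_lit 9) (nat_lit 4) (nat_lit 306) (nat_lit 215) (nat_lit 199)) (XT.nd (nat_lit 78) (nat_lit 152) (nat_lit 0) (XT.lf (nat_lit 0) (nat_lit 27694706723) (nat_lit 76) (nat_lit 7875658708) (nat_lit 76) (nat_lit 633710370) (nat_lit 8) (nat_lit 4) (nat_lit 9) (nat_lit 5) (nat_lit 9) (nat_lit 4) (nat_lit 307) (nat_lit 215) (nat_lit 198)) (XT.lf (nat_lit 0) (nat_lit 592310873) (nat_lit 76) (nat_lit 3398413666) (nat_lit 152) (nat_lit 33863177102) (nat_lit 6) (nat_lit 5) (nat_lit 7) (nat_lit 5) (nat_lit 8) (nat_lit 4) (nat_lit 308) (nat_lit 215) (nat_lit 197)))))) (XT.nd (nat_lit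 468) (nat_lit 152) (nat_lit 0) (XT.nd (nat_lit 234) (nat_lit 76) (nat_lit 0) (XT.nd (nat_lit 78) (nat_lit 0) (nat_lit 0) (XT.lf (nat_lit 0) (nat_lit 8816054518) (nat_lit 152) (nat_lit 29491447225) (nat_lit 0) (nat_lit 1279101633) (nat_lit 6) (nat_lit 5) (nat_lit 8) (nat_lit 4) (nat_lit 6) (nat_lit 4) (nat_lit 309) (nat_lit 215) (nat_lit 196)) (XT.nd (nat_lit 78) (nat_lit 0) (nat_lit 0) (XT.lf (nat_lit 0) (nat_lit 13804258260) (nat_lit 152) (nat_lit 21571827215) (nat_lit 0) (nat_lit 6032260041) (nat_lit 6) (nat_lit 5) (nat_lit 8) (nat_lit 4) (nat_lit 6) (nat_lit 4) (nat_lit 310) (nat_lit 215) (nat_lit 195)) (XT.lf (nat_lit 0) (nat_lit 18934544811) (nat_lit 152) (nat_lit 13451206869) (nat_lit 0) (nat_lit 10938693893) (nat_lit 6) (nat_lit 5) (nat_lit 8) (nat_lit 4) (nat_lit 6) (nat_lit 4) (nat_lit 311) (nat_lit 215) (nat_lit 194)))) (XT.nd (nat_lit 78) (nat_lit 76) (nat_lit 0) (XT.lf (nat_lit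 0) (nat_lit 24219129139) (nat_lit 152) (nat_lit 5110251377) (nat_lit 0) (nat_lit 16010085175) (nat_lit 6) (nat_lit 5) (nat_lit 8) (nat_lit 4) (nat_lit 6) (nat_lit 4) (nat_lit 312) (nat_lit 215) (nat_lit 193)) (XT.nd (nat_lit 78) (nat_lit 0) (nat_lit 0) (XT.lf (nat_lit 0) (nat_lit 3539976368) (nat_lit 76) (nat_lit 26164645638) (nat_lit 76) (nat_lit 17752560677) (nat_lit 5) (nat_lit 4) (nat_lit 6) (nat_lit 5) (nat_lit 6) (nat_lit 4) (nat_lit 313) (nat_lit 215) (nat_lit 192)) (XT.lf (nat_lit 0) (nat_lit 12557720976) (nat_lit 76) (nat_lit 22864909354) (nat_lit 76) (nat_lit 14259452016) (nat_lit 5) (nat_lit 4) (nat_lit 6) (nat_lit 5) (nat_lit 6) (nat_lit 4) (nat_lit 314) (nat_lit 215) (nat_lit 191))))) (XT.nd (nat_lit 234) (nat_lit 152) (nat_lit 0) (XT.nd (nat_lit 78) (nat_lit 0) (nat_lit 0) (XT.lf (nat_lit 0) (nat_lit 21862749244) (nat_lit 76) (nat_lit 19473918670) (nat_lit 76) (nat_lit 10684297162)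 (nat_lit 5) (nat_lit 4) (nat_lit 6) (nat_lit 5) (nat_lit 6) (nat_lit 4) (nat_lit 315) (nat_lit 215) (nat_lit 190)) (XT.nd (nat_lit 78) (nat_lit 0) (nat_lit 0) (XT.lf (nat_lit 0) (nat_lit 31477216001) (nat_lit 76) (nat_lit 15983599797) (nat_lit 76) (nat_lit 7018583842) (nat_lit 5) (nat_lit 4) (nat_lit 6) (nat_lit 5) (nat_lit 6) (nat_lit 4) (nat_lit 316) (nat_lit 215) (nat_lit 189)) (XT.lf (nat_lit 0) (nat_lit 41424012835) (nat_lit 76) (nat_lit 12385642453) (nat_lit 76) (nat_lit 3253584167) (nat_lit 5) (nat_lit 4) (nat_lit 6) (nat_lit 5) (nat_lit 6) (nat_lit 4) (nat_lit 317) (nat_lit 215) (nat_lit 188)))) (XT.nd (nat_lit 78) (nat_lit 76) (nat_lit 0) (XT.lf (nat_lit 0) (nat_lit 607574228) (nat_lit 152) (nat_lit 8057770535) (nat_lit 76) (nat_lit 51113113059) (nat_lit 4) (nat_lit 5) (nat_lit 6) (nat_lit 5) (nat_lit 5) (nat_lit 4) (nat_lit 318) (nat_lit 215) (nat_lit 187)) (XT.nd (nat_lit 78) (nat_lit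 76) (nat_lit 0) (XT.lf (nat_lit 0) (nat_lit 4520423828) (nat_lit 152) (nat_lit 266198165) (nat_lit 76) (nat_lit 57844104537) (nat_lit 4) (nat_lit 5) (nat_lit 6) (nat_lit 5) (nat_lit 5) (nat_lit 4) (nat_lit 319) (nat_lit 215) (nat_lit 186)) (XT.lf (nat_lit 0) (nat_lit 7940260372) (nat_lit 76) (nat_lit 693836353) (nat_lit 152) (nat_lit 56991388433) (nat_lit 3) (nat_lit 5) (nat_lit 4) (nat_lit 5) (nat_lit 5) (nat_lit 4) (nat_lit 320) (nat_lit 215) (nat_lit 185))))))))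
noncomputable def xc12 : XT := (XT.nd (nat_lit 35568) (nat_lit 0) (nat_lit 228) (XT.nd (nat_lit 858) (nat_lit 0) (nat_lit 0) (XT.nd (nat_lit 390) (nat_lit 76) (nat_lit 0) (XT.nd (nat_lit 156) (nat_lit 0) (nat_lit 0) (XT.nd (nat_lit 78) (nat_lit 0) (nat_lit 0) (XT.lf (nat_lit 0) (nat_lit 12921344783) (nat_lit 152) (nat_lit 52369433489) (nat_lit 0) (nat_lit 3480197092) (nat_lit 3) (nat_lit 5) (nat_lit 5) (nat_lit 4) (nat_lit 3) (nat_lit 4) (nat_lit 321) (nat_lit 215) (nat_lit 184)) (XT.lf (nat_lit 0) (nat_lit 17363752785) (nat_lit 152) (nat_lit 46916257156) (nat_lit 0) (nat_lit 7795535156) (nat_lit 3) (nat_lit 5) (nat_lit 5) (nat_lit 4) (nat_lit 3) (nat_lit 4) (nat_lit 322) (nat_lit 215) (nat_lit 183))) (XT.nd (nat_lit 78) (nat_lit 0) (nat_lit 0) (XT.lf (nat_lit 0) (nat_lit 21965228316) (nat_lit 152) (nat_lit 41306042456) (nat_lit 0) (nat_lit 12275991698) (nat_lit 3) (nat_lit 5) (nat_lit 5)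 (nat_lit 4) (nat_lit 3) (nat_lit 4) (nat_lit 323) (nat_lit 215) (nat_lit 182)) (XT.nd (nat_lit 78) (nat_lit 0) (nat_lit 0) (XT.lf (nat_lit 0) (nat_lit 26736727269) (nat_lit 152) (nat_lit 35525431734) (nat_lit 0) (nat_lit 16932234471) (nat_lit 3) (nat_lit 5) (nat_lit 5) (nat_lit 4) (nat_lit 3) (nat_lit 4) (nat_lit 324) (nat_lit 215) (nat_lit 181)) (XT.lf (nat_lit 0) (nat_lit 31689610357) (nat_lit 152) (nat_lit 29560661631) (nat_lit 0) (nat_lit 21775349768) (nat_lit 3) (nat_lit 5) (nat_lit 5) (nat_lit 4) (nat_lit 3) (nat_lit 4) (nat_lit 325) (nat_lit 215) (nat_lit 180))))) (XT.nd (nat_lit 234) (nat_lit 76) (nat_lit 0) (XT.nd (nat_lit 78) (nat_lit 0) (nat_lit 0) (XT.lf (nat_lit 0) (nat_lit 36835670157) (nat_lit 152) (nat_lit 23397530314) (nat_lit 0) (nat_lit 26816868815) (nat_lit 3) (nat_lit 5) (nat_lit 5) (nat_lit 4) (nat_lit 3) (nat_lit 4) (nat_lit 326) (nat_lit 215) (nat_lit 179)) (XT.nd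 (nat_lit 78) (nat_lit 0) (nat_lit 0) (XT.lf (nat_lit 0) (nat_lit 42187159194) (nat_lit 152) (nat_lit 17021363660) (nat_lit 0) (nat_lit 32068795230) (nat_lit 3) (nat_lit 5) (nat_lit 5) (nat_lit 4) (nat_lit 3) (nat_lit 4) (nat_lit 327) (nat_lit 215) (nat_lit 178)) (XT.lf (nat_lit 0) (nat_lit 47756819108) (nat_lit 152) (nat_lit 10416980320) (nat_lit 0) (nat_lit 37543633599) (nat_lit 3) (nat_lit 5) (nat_lit 5) (nat_lit 4) (nat_lit 3) (nat_lit 4) (nat_lit 328) (nat_lit 215) (nat_lit 177)))) (XT.nd (nat_lit 78) (nat_lit 76) (nat_lit 0) (XT.lf (nat_lit 0) (nat_lit 53557910993) (nat_lit 152) (nat_lit 3568655573) (nat_lit 0) (nat_lit 43254419252) (nat_lit 3) (nat_lit 5) (nat_lit 5) (nat_lit 4) (nat_lit 3) (nat_lit 4) (nat_lit 329) (nat_lit 215) (nat_lit 176)) (XT.nd (nat_lit 78) (nat_lit 0) (nat_lit 0) (XT.lf (nat_lit 0) (nat_lit 3610367388) (nat_lit 76) (nat_lit 56028584646) (nat_lit 76) (nat_lit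 45639086968) (nat_lit 2) (nat_lit 4) (nat_lit 3) (nat_lit 5) (nat_lit 3) (nat_lit 4) (nat_lit 330) (nat_lit 215) (nat_lit 175)) (XT.lf (nat_lit 0) (nat_lit 11143101976) (nat_lit 76) (nat_lit 54874235426) (nat_lit 76) (nat_lit 44402827332) (nat_lit 2) (nat_lit 4) (nat_lit 3) (nat_lit 5) (nat_lit 3) (nat_lit 4) (nat_lit 331) (nat_lit 215) (nat_lit 174)))))) (XT.nd (nat_lit 34242) (nat_lit 0) (nat_lit 912) (XT.nd (nat_lit 234) (nat_lit 0) (nat_lit 0) (XT.nd (nat_lit 78) (nat_lit 0) (nat_lit 0) (XT.lf (nat_lit 0) (nat_lit 18976460028) (nat_lit 76) (nat_lit 53696806880) (nat_lit 76) (nat_lit 43147388867) (nat_lit 2) (nat_lit 4) (nat_lit 3) (nat_lit 5) (nat_lit 3) (nat_lit 4) (nat_lit 332) (nat_lit 215) (nat_lit 173)) (XT.lf (nat_lit 0) (nat_lit 27129092398) (nat_lit 76) (nat_lit 52493495608) (nat_lit 76) (nat_lit 41869782433) (nat_lit 2) (nat_lit 4) (nat_lit 3) (nat_lit 5) (nat_lit 3) (nat_lit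 4) (nat_lit 333) (nat_lit 215) (nat_lit 172))) (XT.nd (nat_lit 33852) (nat_lit 0) (nat_lit 1520) (XT.lf (nat_lit 0) (nat_lit 44470630599) (nat_lit 76) (nat_lit 49997696328) (nat_lit 76) (nat_lit 39235837955) (nat_lit 2) (nat_lit 4) (nat_lit 3) (nat_lit 5) (nat_lit 3) (nat_lit 4) (nat_lit 335) (nat_lit 215) (nat_lit 170)) (XT.nd (nat_lit 78) (nat_lit 152) (nat_lit 0) (XT.lf (nat_lit 0) (nat_lit 4034624023) (nat_lit 152) (nat_lit 276557390) (nat_lit 0) (nat_lit 4034624023) (nat_lit 24) (nat_lit 5) (nat_lit 26) (nat_lit 4) (nat_lit 24) (nat_lit 4) (nat_lit 288) (nat_lit 216) (nat_lit 216)) (XT.lf (nat_lit 0) (nat_lit 11565294349) (nat_lit 152) (nat_lit 3233172945) (nat_lit 152) (nat_lit 2510197181) (nat_lit 22) (nat_lit 4) (nat_lit 24) (nat_lit 5) (nat_lit 24) (nat_lit 4) (nat_lit 289) (nat_lit 216) (nat_lit 215))))) (XT.nd (nat_lit 234) (nat_lit 304) (nat_lit 0) (XT.nd (nat_lit 78) (nat_lit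 152) (nat_lit 0) (XT.lf (nat_lit 0) (nat_lit 3692228196) (nat_lit 152) (nat_lit 11945724459) (nat_lit 0) (nat_lit 2321816439) (nat_lit 20) (nat_lit 5) (nat_lit 22) (nat_lit 4) (nat_lit 20) (nat_lit 4) (nat_lit 290) (nat_lit 216) (nat_lit 214)) (XT.nd (nat_lit 78) (nat_lit 152) (nat_lit 0) (XT.lf (nat_lit 0) (nat_lit 10025647042) (nat_lit 152) (nat_lit 602422938) (nat_lit 0) (nat_lit 8018574770) (nat_lit 20) (nat_lit 5) (nat_lit 22) (nat_lit 4) (nat_lit 20) (nat_lit 4) (nat_lit 291) (nat_lit 216) (nat_lit 213)) (XT.lf (nat_lit 0) (nat_lit 11162470560) (nat_lit 152) (nat_lit 5411007561) (nat_lit 152) (nat_lit 2797591941) (nat_lit 18) (nat_lit 4) (nat_lit 20) (nat_lit 5) (nat_lit 20) (nat_lit 4) (nat_lit 292) (nat_lit 216) (nat_lit 212)))) (XT.nd (nat_lit 78) (nat_lit 152) (nat_lit 0) (XT.lf (nat_lit 0) (nat_lit 3067390209) (nat_lit 76) (nat_lit 15504215) (nat_lit 152) (nat_lit 17053074274)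 (nat_lit 16) (nat_lit 5) (nat_lit 17) (nat_lit 5) (nat_lit 18) (nat_lit 4) (nat_lit 293) (nat_lit 216) (nat_lit 211)) (XT.nd (nat_lit 78) (nat_lit 152) (nat_lit 0) (XT.lf (nat_lit 0) (nat_lit 9139625562) (nat_lit 152) (nat_lit 6292849199) (nat_lit 0) (nat_lit 5507725791) (nat_lit 16) (nat_lit 5) (nat_lit 18) (nat_lit 4) (nat_lit 16) (nat_lit 4) (nat_lit 294) (nat_lit 216) (nat_lit 210)) (XT.lf (nat_lit 0) (nat_lit 4779922194) (nat_lit 152) (nat_lit 10574798979) (nat_lit 152) (nat_lit 6434372820) (nat_lit 14) (nat_lit 4) (nat_lit 16) (nat_lit 5) (nat_lit 16) (nat_lit 4) (nat_lit 295) (nat_lit 216) (nat_lit 209))))))) (XT.nd (nat_lit 858) (nat_lit 228) (nat_lit 0) (XT.nd (nat_lit 390) (nat_lit 228) (nat_lit 0) (XT.nd (nat_lit 156) (nat_lit 76) (nat_lit 0) (XT.nd (nat_lit 78) (nat_lit 152) (nat_lit 0) (XT.lf (nat_lit 0) (nat_lit 16212571561) (nat_lit 152) (nat_lit 5548151658) (nat_lit 152) (nat_lit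 923414652) (nat_lit 14) (nat_lit 4) (nat_lit 16) (nat_lit 5) (nat_lit 16) (nat_lit 4) (nat_lit 296) (nat_lit 216) (nat_lit 208)) (XT.lf (nat_lit 0) (nat_lit 4317000553) (nat_lit 76) (nat_lit 315012247) (nat_lit 152) (nat_lit 18994706201) (nat_lit 12) (nat_lit 5) (nat_lit 13) (nat_lit 5) (nat_lit 14) (nat_lit 4) (nat_lit 297) (nat_lit 216) (nat_lit 207))) (XT.nd (nat_lit 78) (nat_lit 76) (nat_lit 0) (XT.lf (nat_lit 0) (nat_lit 10389944602) (nat_lit 152) (nat_lit 9202387390) (nat_lit 0) (nat_lit 5025605139) (nat_lit 12) (nat_lit 5) (nat_lit 14) (nat_lit 4) (nat_lit 12) (nat_lit 4) (nat_lit 298) (nat_lit 216) (nat_lit 206)) (XT.nd (nat_lit 78) (nat_lit 0) (nat_lit 0) (XT.lf (nat_lit 0) (nat_lit 1135557988) (nat_lit 76) (nat_lit 15149151290) (nat_lit 76) (nat_lit 9378631323) (nat_lit 11) (nat_lit 4) (nat_lit 12) (nat_lit 5) (nat_lit 12) (nat_lit 4) (nat_lit 299) (nat_lit 216) (nat_lit 205)) (XT.lf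 (nat_lit 0) (nat_lit 11897391660) (nat_lit 76) (nat_lit 10511514213) (nat_lit 76) (nat_lit 4354155671) (nat_lit 11) (nat_lit 4) (nat_lit 12) (nat_lit 5) (nat_lit 12) (nat_lit 4) (nat_lit 300) (nat_lit 216) (nat_lit 204))))) (XT.nd (nat_lit 234) (nat_lit 76) (nat_lit 0) (XT.nd (nat_lit 78) (nat_lit 76) (nat_lit 0) (XT.lf (nat_lit 0) (nat_lit 749553801) (nat_lit 152) (nat_lit 5004182014) (nat_lit 76) (nat_lit 22168468660) (nat_lit 10) (nat_lit 5) (nat_lit 12) (nat_lit 5) (nat_lit 11) (nat_lit 4) (nat_lit 301) (nat_lit 216) (nat_lit 203)) (XT.nd (nat_lit 78) (nat_lit 0) (nat_lit 0) (XT.lf (nat_lit 0) (nat_lit 5145048217) (nat_lit 76) (nat_lit 776970718) (nat_lit 152) (nat_lit 23218961273) (nat_lit 9) (nat_lit 5) (nat_lit 10) (nat_lit 5) (nat_lit 11) (nat_lit 4) (nat_lit 302) (nat_lit 216) (nat_lit 202)) (XT.lf (nat_lit 0) (nat_lit 11304682503) (nat_lit 152) (nat_lit 14813648530) (nat_lit 0)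 (nat_lit 4303890339) (nat_lit 9) (nat_lit 5) (nat_lit 11) (nat_lit 4) (nat_lit 9) (nat_lit 4) (nat_lit 303) (nat_lit 216) (nat_lit 201)))) (XT.nd (nat_lit 78) (nat_lit 76) (nat_lit 0) (XT.lf (nat_lit 0) (nat_lit 16827929519) (nat_lit 152) (nat_lit 5425368137) (nat_lit 0) (nat_lit 9518153809) (nat_lit 9) (nat_lit 5) (nat_lit 11) (nat_lit 4) (nat_lit 9) (nat_lit 4) (nat_lit 304) (nat_lit 216) (nat_lit 200)) (XT.nd (nat_lit 78) (nat_lit 0) (nat_lit 0) (XT.lf (nat_lit 0) (nat_lit 4282293931) (nat_lit 76) (nat_lit 18256311952) (nat_lit 76) (nat_lit 10652266197) (nat_lit 8) (nat_lit 4) (nat_lit 9) (nat_lit 5) (nat_lit 9) (nat_lit 4) (nat_lit 305) (nat_lit 216) (nat_lit 199)) (XT.lf (nat_lit 0) (nat_lit 14361813982) (nat_lit 76) (nat_lit 14102958909) (nat_lit 76) (nat_lit 6218655968) (nat_lit 8) (nat_lit 4) (nat_lit 9) (nat_lit 5) (nat_lit 9) (nat_lit 4) (nat_lit 306) (nat_lit 216) (nat_lit 198))))))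 (XT.nd (nat_lit 390) (nat_lit 76) (nat_lit 0) (XT.nd (nat_lit 156) (nat_lit 76) (nat_lit 0) (XT.nd (nat_lit 78) (nat_lit 76) (nat_lit 0) (XT.lf (nat_lit 0) (nat_lit 24729215407) (nat_lit 76) (nat_lit 9838135170) (nat_lit 76) (nat_lit 1686920625) (nat_lit 8) (nat_lit 4) (nat_lit 9) (nat_lit 5) (nat_lit 9) (nat_lit 4) (nat_lit 307) (nat_lit 216) (nat_lit 197)) (XT.lf (nat_lit 0) (nat_lit 2896091772) (nat_lit 152) (nat_lit 2526349774) (nat_lit 76) (nat_lit 32483845874) (nat_lit 7) (nat_lit 5) (nat_lit 9) (nat_lit 5) (nat_lit 8) (nat_lit 4) (nat_lit 308) (nat_lit 216) (nat_lit 196))) (XT.nd (nat_lit 78) (nat_lit 0) (nat_lit 0) (XT.lf (nat_lit 0) (nat_lit 6840503314) (nat_lit 76) (nat_lit 789061257) (nat_lit 152) (nat_lit 32012206415) (nat_lit 6) (nat_lit 5) (nat_lit 7) (nat_lit 5) (nat_lit 8) (nat_lit 4) (nat_lit 309) (nat_lit 216) (nat_lit 195)) (XT.nd (nat_lit 78) (nat_lit 0) (nat_lit 0) (XT.lf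 (nat_lit 0) (nat_lit 12557828556) (nat_lit 152) (nat_lit 24969175243) (nat_lit 0) (nat_lit 3938332394) (nat_lit 6) (nat_lit 5) (nat_lit 8) (nat_lit 4) (nat_lit 6) (nat_lit 4) (nat_lit 310) (nat_lit 216) (nat_lit 194)) (XT.lf (nat_lit 0) (nat_lit 17638253375) (nat_lit 152) (nat_lit 16939138248) (nat_lit 0) (nat_lit 8805564166) (nat_lit 6) (nat_lit 5) (nat_lit 8) (nat_lit 4) (nat_lit 6) (nat_lit 4) (nat_lit 311) (nat_lit 216) (nat_lit 193))))) (XT.nd (nat_lit 234) (nat_lit 0) (nat_lit 0) (XT.nd (nat_lit 78) (nat_lit 76) (nat_lit 0) (XT.lf (nat_lit 0) (nat_lit 22875350339) (nat_lit 152) (nat_lit 8684452615) (nat_lit 0) (nat_lit 13839620134) (nat_lit 6) (nat_lit 5) (nat_lit 8) (nat_lit 4) (nat_lit 6) (nat_lit 4) (nat_lit 312) (nat_lit 216) (nat_lit 192)) (XT.nd (nat_lit 78) (nat_lit 76) (nat_lit 0) (XT.lf (nat_lit 0) (nat_lit 28281588727) (nat_lit 152) (nat_lit 185464329) (nat_lit 0) (nat_lit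 19052486144) (nat_lit 6) (nat_lit 5) (nat_lit 8) (nat_lit 4) (nat_lit 6) (nat_lit 4) (nat_lit 313) (nat_lit 216) (nat_lit 191)) (XT.lf (nat_lit 0) (nat_lit 8748782554) (nat_lit 76) (nat_lit 25205156630) (nat_lit 76) (nat_lit 15791889878) (nat_lit 5) (nat_lit 4) (nat_lit 6) (nat_lit 5) (nat_lit 6) (nat_lit 4) (nat_lit 314) (nat_lit 216) (nat_lit 190)))) (XT.nd (nat_lit 78) (nat_lit 0) (nat_lit 0) (XT.lf (nat_lit 0) (nat_lit 17977804518) (nat_lit 76) (nat_lit 21848420261) (nat_lit 76) (nat_lit 12259759061) (nat_lit 5) (nat_lit 4) (nat_lit 6) (nat_lit 5) (nat_lit 6) (nat_lit 4) (nat_lit 315) (nat_lit 216) (nat_lit 189)) (XT.nd (nat_lit 78) (nat_lit 0) (nat_lit 0) (XT.lf (nat_lit 0) (nat_lit 27519884318) (nat_lit 76) (nat_lit 18390724545) (nat_lit 76) (nat_lit 8635021015) (nat_lit 5) (nat_lit 4) (nat_lit 6) (nat_lit 5) (nat_lit 6) (nat_lit 4) (nat_lit 316) (nat_lit 216) (nat_lit 188)) (XT.lf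 (nat_lit 0) (nat_lit 37397741194) (nat_lit 76) (nat_lit 14823836874) (nat_lit 76) (nat_lit 4909045410) (nat_lit 5) (nat_lit 4) (nat_lit 6) (nat_lit 5) (nat_lit 6) (nat_lit 4) (nat_lit 317) (nat_lit 216) (nat_lit 187))))))))
noncomputable def xc13 : XT := (XT.nd (nat_lit 35412) (nat_lit 0) (nat_lit 304) (XT.nd (nat_lit 858) (nat_lit 76) (nat_lit 0) (XT.nd (nat_lit 390) (nat_lit 0) (nat_lit 0) (XT.nd (nat_lit 156) (nat_lit 76) (nat_lit 0) (XT.nd (nat_lit 78) (nat_lit 76) (nat_lit 0) (XT.lf (nat_lit 0) (nat_lit 47634893851) (nat_lit 76) (nat_lit 11139264658) (nat_lit 76) (nat_lit 1072960877) (nat_lit 5) (nat_lit 4) (nat_lit 6) (nat_lit 5) (nat_lit 6) (nat_lit 4) (nat_lit 318) (nat_lit 216) (nat_lit 186)) (XT.lf (nat_lit 0) (nat_lit 2826120775) (nat_lit 152) (nat_lit 4473576053) (nat_lit 76) (nat_lit 55401057409) (nat_lit 4) (nat_lit 5) (nat_lit 6) (nat_lit 5) (nat_lit 5) (nat_lit 4) (nat_lit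 319) (nat_lit 216) (nat_lit 185))) (XT.nd (nat_lit 78) (nat_lit 0) (nat_lit 0) (XT.lf (nat_lit 0) (nat_lit 3587723242) (nat_lit 76) (nat_lit 3277178535) (nat_lit 152) (nat_lit 58832872672) (nat_lit 3) (nat_lit 5) (nat_lit 4) (nat_lit 5) (nat_lit 5) (nat_lit 4) (nat_lit 320) (nat_lit 216) (nat_lit 184)) (XT.nd (nat_lit 78) (nat_lit 0) (nat_lit 0) (XT.lf (nat_lit 0) (nat_lit 11095021795) (nat_lit 152) (nat_lit 56828647474) (nat_lit 0) (nat_lit 921323346) (nat_lit 3) (nat_lit 5) (nat_lit 5) (nat_lit 4) (nat_lit 3) (nat_lit 4) (nat_lit 321) (nat_lit 216) (nat_lit 183)) (XT.lf (nat_lit 0) (nat_lit 15506672299) (nat_lit 152) (nat_lit 51431871360) (nat_lit 0) (nat_lit 5211954860) (nat_lit 3) (nat_lit 5) (nat_lit 5) (nat_lit 4) (nat_lit 3) (nat_lit 4) (nat_lit 322) (nat_lit 216) (nat_lit 182))))) (XT.nd (nat_lit 234) (nat_lit 0) (nat_lit 0) (XT.nd (nat_lit 78) (nat_lit 0) (nat_lit 0) (XT.lf (nat_lit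 0) (nat_lit 20078854974) (nat_lit 152) (nat_lit 45875371154) (nat_lit 0) (nat_lit 9668881355) (nat_lit 3) (nat_lit 5) (nat_lit 5) (nat_lit 4) (nat_lit 3) (nat_lit 4) (nat_lit 323) (nat_lit 216) (nat_lit 181)) (XT.nd (nat_lit 78) (nat_lit 0) (nat_lit 0) (XT.lf (nat_lit 0) (nat_lit 24822455969) (nat_lit 152) (nat_lit 40145917093) (nat_lit 0) (nat_lit 14302714560) (nat_lit 3) (nat_lit 5) (nat_lit 5) (nat_lit 4) (nat_lit 3) (nat_lit 4) (nat_lit 324) (nat_lit 216) (nat_lit 180)) (XT.lf (nat_lit 0) (nat_lit 29748769573) (nat_lit 152) (nat_lit 34229867620) (nat_lit 0) (nat_lit 19124487411) (nat_lit 3) (nat_lit 5) (nat_lit 5) (nat_lit 4) (nat_lit 3) (nat_lit 4) (nat_lit 325) (nat_lit 216) (nat_lit 179)))) (XT.nd (nat_lit 78) (nat_lit 0) (nat_lit 0) (XT.lf (nat_lit 0) (nat_lit 34869525103) (nat_lit 152) (nat_lit 28113136902) (nat_lit 0) (nat_lit 24145680319) (nat_lit 3) (nat_lit 5) (nat_lit 5) (nat_lit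 4) (nat_lit 3) (nat_lit 4) (nat_lit 326) (nat_lit 216) (nat_lit 178)) (XT.nd (nat_lit 78) (nat_lit 0) (nat_lit 0) (XT.lf (nat_lit 0) (nat_lit 40196914835) (nat_lit 152) (nat_lit 21781161295) (nat_lit 0) (nat_lit 29378248507) (nat_lit 3) (nat_lit 5) (nat_lit 5) (nat_lit 4) (nat_lit 3) (nat_lit 4) (nat_lit 327) (nat_lit 216) (nat_lit 177)) (XT.lf (nat_lit 0) (nat_lit 45743623030) (nat_lit 152) (nat_lit 15218864668) (nat_lit 0) (nat_lit 34834650468) (nat_lit 3) (nat_lit 5) (nat_lit 5) (nat_lit 4) (nat_lit 3) (nat_lit 4) (nat_lit 328) (nat_lit 216) (nat_lit 176)))))) (XT.nd (nat_lit 468) (nat_lit 0) (nat_lit 0) (XT.nd (nat_lit 156) (nat_lit 76) (nat_lit 0) (XT.nd (nat_lit 78) (nat_lit 0) (nat_lit 0) (XT.lf (nat_lit 0) (nat_lit 51522856136) (nat_lit 152) (nat_lit 8410622503) (nat_lit 0) (nat_lit 40527877638) (nat_lit 3) (nat_lit 5) (nat_lit 5) (nat_lit 4) (nat_lit 3) (nat_lit 4) (nat_lit 329)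 (nat_lit 216) (nat_lit 175)) (XT.lf (nat_lit 0) (nat_lit 57548374231) (nat_lit 152) (nat_lit 1340224701) (nat_lit 0) (nat_lit 46471485318) (nat_lit 3) (nat_lit 5) (nat_lit 5) (nat_lit 4) (nat_lit 3) (nat_lit 4) (nat_lit 330) (nat_lit 216) (nat_lit 174))) (XT.nd (nat_lit 78) (nat_lit 0) (nat_lit 0) (XT.lf (nat_lit 0) (nat_lit 6128757145) (nat_lit 76) (nat_lit 57764680006) (nat_lit 76) (nat_lit 46609781173) (nat_lit 2) (nat_lit 4) (nat_lit 3) (nat_lit 5) (nat_lit 3) (nat_lit 4) (nat_lit 331) (nat_lit 216) (nat_lit 173)) (XT.nd (nat_lit 78) (nat_lit 0) (nat_lit 0) (XT.lf (nat_lit 0) (nat_lit 13926801253) (nat_lit 76) (nat_lit 56603343509) (nat_lit 76) (nat_lit 45374149515) (nat_lit 2) (nat_lit 4) (nat_lit 3) (nat_lit 5) (nat_lit 3) (nat_lit 4) (nat_lit 332) (nat_lit 216) (nat_lit 172)) (XT.lf (nat_lit 0) (nat_lit 22045801295) (nat_lit 76) (nat_lit 55415357997) (nat_lit 76) (nat_lit 44115406707)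 (nat_lit 2) (nat_lit 4) (nat_lit 3) (nat_lit 5) (nat_lit 3) (nat_lit 4) (nat_lit 333) (nat_lit 216) (nat_lit 171))))) (XT.nd (nat_lit 33852) (nat_lit 0) (nat_lit 1368) (XT.nd (nat_lit 33696) (nat_lit 0) (nat_lit 1672) (XT.lf (nat_lit 0) (nat_lit 39324803196) (nat_lit 76) (nat_lit 52948055597) (nat_lit 76) (nat_lit 41516537451) (nat_lit 2) (nat_lit 4) (nat_lit 3) (nat_lit 5) (nat_lit 3) (nat_lit 4) (nat_lit 335) (nat_lit 216) (nat_lit 169)) (XT.nd (nat_lit 78) (nat_lit 152) (nat_lit 0) (XT.lf (nat_lit 0) (nat_lit 3795887714) (nat_lit 152) (nat_lit 1989560643) (nat_lit 152) (nat_lit 1989560643) (nat_lit 26) (nat_lit 4) (nat_lit 28) (nat_lit 5) (nat_lit 28) (nat_lit 4) (nat_lit 286) (nat_lit 217) (nat_lit 217)) (XT.lf (nat_lit 0) (nat_lit 2305868914) (nat_lit 152) (nat_lit 12254896038) (nat_lit 0) (nat_lit 1546744362) (nat_lit 24) (nat_lit 5) (nat_lit 26) (nat_lit 4) (nat_lit 24) (nat_lit 4)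 (nat_lit 287) (nat_lit 217) (nat_lit 216)))) (XT.nd (nat_lit 78) (nat_lit 304) (nat_lit 0) (XT.lf (nat_lit 0) (nat_lit 8715893425) (nat_lit 152) (nat_lit 745379044) (nat_lit 0) (nat_lit 7233793109) (nat_lit 24) (nat_lit 5) (nat_lit 26) (nat_lit 4) (nat_lit 24) (nat_lit 4) (nat_lit 288) (nat_lit 217) (nat_lit 215)) (XT.nd (nat_lit 78) (nat_lit 152) (nat_lit 0) (XT.lf (nat_lit 0) (nat_lit 11182450603) (nat_lit 152) (nat_lit 4151858920) (nat_lit 152) (nat_lit 1981210257) (nat_lit 22) (nat_lit 4) (nat_lit 24) (nat_lit 5) (nat_lit 24) (nat_lit 4) (nat_lit 289) (nat_lit 217) (nat_lit 214)) (XT.lf (nat_lit 0) (nat_lit 4090868099) (nat_lit 152) (nat_lit 12532493530) (nat_lit 0) (nat_lit 1346781699) (nat_lit 20) (nat_lit 5) (nat_lit 22) (nat_lit 4) (nat_lit 20) (nat_lit 4) (nat_lit 290) (nat_lit 217) (nat_lit 213))))))) (XT.nd (nat_lit 858) (nat_lit 304) (nat_lit 0) (XT.nd (nat_lit 390) (nat_lit 304)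 (nat_lit 0) (XT.nd (nat_lit 156) (nat_lit 304) (nat_lit 0) (XT.nd (nat_lit 78) (nat_lit 152) (nat_lit 0) (XT.lf (nat_lit 0) (nat_lit 10322062942) (nat_lit 152) (nat_lit 1366456939) (nat_lit 0) (nat_lit 6971633195) (nat_lit 20) (nat_lit 5) (nat_lit 22) (nat_lit 4) (nat_lit 20) (nat_lit 4) (nat_lit 291) (nat_lit 217) (nat_lit 212)) (XT.lf (nat_lit 0) (nat_lit 10211047120) (nat_lit 152) (nat_lit 6552345044) (nat_lit 152) (nat_lit 2624445443) (nat_lit 18) (nat_lit 4) (nat_lit 20) (nat_lit 5) (nat_lit 20) (nat_lit 4) (nat_lit 292) (nat_lit 217) (nat_lit 211))) (XT.nd (nat_lit 78) (nat_lit 152) (nat_lit 0) (XT.lf (nat_lit 0) (nat_lit 1908990045) (nat_lit 76) (nat_lit 1237246869) (nat_lit 152) (nat_lit 17009701485) (nat_lit 16) (nat_lit 5) (nat_lit 17) (nat_lit 5) (nat_lit 18) (nat_lit 4) (nat_lit 293) (nat_lit 217) (nat_lit 210)) (XT.nd (nat_lit 78) (nat_lit 152) (nat_lit 0) (XT.lf (nat_lit 0)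 (nat_lit 9098259959) (nat_lit 152) (nat_lit 7622821936) (nat_lit 0) (nat_lit 4242286103) (nat_lit 16) (nat_lit 5) (nat_lit 18) (nat_lit 4) (nat_lit 16) (nat_lit 4) (nat_lit 294) (nat_lit 217) (nat_lit 209)) (XT.lf (nat_lit 0) (nat_lit 3264815691) (nat_lit 152) (nat_lit 11945438651) (nat_lit 152) (nat_lit 6605153947) (nat_lit 14) (nat_lit 4) (nat_lit 16) (nat_lit 5) (nat_lit 16) (nat_lit 4) (nat_lit 295) (nat_lit 217) (nat_lit 208))))) (XT.nd (nat_lit 234) (nat_lit 152) (nat_lit 0) (XT.nd (nat_lit 78) (nat_lit 152) (nat_lit 0) (XT.lf (nat_lit 0) (nat_lit 14546355819) (nat_lit 152) (nat_lit 6984126967) (nat_lit 152) (nat_lit 1182593838) (nat_lit 14) (nat_lit 4) (nat_lit 16) (nat_lit 5) (nat_lit 16) (nat_lit 4) (nat_lit 296) (nat_lit 217) (nat_lit 207)) (XT.nd (nat_lit 78) (nat_lit 0) (nat_lit 0) (XT.lf (nat_lit 0) (nat_lit 2442148559) (nat_lit 76) (nat_lit 1835174545) (nat_lit 152) (nat_lit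 19381473820) (nat_lit 12) (nat_lit 5) (nat_lit 13) (nat_lit 5) (nat_lit 14) (nat_lit 4) (nat_lit 297) (nat_lit 217) (nat_lit 206)) (XT.lf (nat_lit 0) (nat_lit 9940076865) (nat_lit 152) (nat_lit 11237988268) (nat_lit 0) (nat_lit 3474850396) (nat_lit 12) (nat_lit 5) (nat_lit 14) (nat_lit 4) (nat_lit 12) (nat_lit 4) (nat_lit 298) (nat_lit 217) (nat_lit 205)))) (XT.nd (nat_lit 78) (nat_lit 152) (nat_lit 0) (XT.lf (nat_lit 0) (nat_lit 15747196994) (nat_lit 152) (nat_lit 1058662371) (nat_lit 0) (nat_lit 8895131950) (nat_lit 12) (nat_lit 5) (nat_lit 14) (nat_lit 4) (nat_lit 12) (nat_lit 4) (nat_lit 299) (nat_lit 217) (nat_lit 204)) (XT.nd (nat_lit 78) (nat_lit 76) (nat_lit 0) (XT.lf (nat_lit 0) (nat_lit 9549552804) (nat_lit 76) (nat_lit 12237112487) (nat_lit 76) (nat_lit 5016629753) (nat_lit 11) (nat_lit 4) (nat_lit 12) (nat_lit 5) (nat_lit 12) (nat_lit 4) (nat_lit 300) (nat_lit 217) (nat_lit 203))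 (XT.lf (nat_lit 0) (nat_lit 28458858) (nat_lit 152) (nat_lit 7513585242) (nat_lit 76) (nat_lit 20422769211) (nat_lit 10) (nat_lit 5) (nat_lit 12) (nat_lit 5) (nat_lit 11) (nat_lit 4) (nat_lit 301) (nat_lit 217) (nat_lit 202)))))) (XT.nd (nat_lit 468) (nat_lit 152) (nat_lit 0) (XT.nd (nat_lit 234) (nat_lit 76) (nat_lit 0) (XT.nd (nat_lit 78) (nat_lit 0) (nat_lit 0) (XT.lf (nat_lit 0) (nat_lit 2461664432) (nat_lit 76) (nat_lit 2645324169) (nat_lit 152) (nat_lit 24079454553) (nat_lit 9) (nat_lit 5) (nat_lit 10) (nat_lit 5) (nat_lit 11) (nat_lit 4) (nat_lit 302) (nat_lit 217) (nat_lit 201)) (XT.nd (nat_lit 78) (nat_lit 0) (nat_lit 0) (XT.lf (nat_lit 0) (nat_lit 10405159787) (nat_lit 152) (nat_lit 17644181889) (nat_lit 0) (nat_lit 2420911745) (nat_lit 9) (nat_lit 5) (nat_lit 11) (nat_lit 4) (nat_lit 9) (nat_lit 4) (nat_lit 303) (nat_lit 217) (nat_lit 200)) (XT.lf (nat_lit 0) (nat_lit 15865042398)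 (nat_lit 152) (nat_lit 8369850433) (nat_lit 0) (nat_lit 7586524311) (nat_lit 9) (nat_lit 5) (nat_lit 11) (nat_lit 4) (nat_lit 9) (nat_lit 4) (nat_lit 304) (nat_lit 217) (nat_lit 199)))) (XT.nd (nat_lit 78) (nat_lit 0) (nat_lit 0) (XT.lf (nat_lit 0) (nat_lit 1168528049) (nat_lit 76) (nat_lit 20316912237) (nat_lit 76) (nat_lit 11758136965) (nat_lit 8) (nat_lit 4) (nat_lit 9) (nat_lit 5) (nat_lit 9) (nat_lit 4) (nat_lit 305) (nat_lit 217) (nat_lit 198)) (XT.nd (nat_lit 78) (nat_lit 0) (nat_lit 0) (XT.lf (nat_lit 0) (nat_lit 11142636086) (nat_lit 76) (nat_lit 16210484539) (nat_lit 76) (nat_lit 7384797662) (nat_lit 8) (nat_lit 4) (nat_lit 9) (nat_lit 5) (nat_lit 9) (nat_lit 4) (nat_lit 306) (nat_lit 217) (nat_lit 197)) (XT.lf (nat_lit 0) (nat_lit 21409645117) (nat_lit 76) (nat_lit 11990351606) (nat_lit 76) (nat_lit 2910463200) (nat_lit 8) (nat_lit 4) (nat_lit 9) (nat_lit 5) (nat_lit 9) (nat_lit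 4) (nat_lit 307) (nat_lit 217) (nat_lit 196))))) (XT.nd (nat_lit 234) (nat_lit 0) (nat_lit 0) (XT.nd (nat_lit 78) (nat_lit 76) (nat_lit 0) (XT.lf (nat_lit 0) (nat_lit 1642824174) (nat_lit 152) (nat_lit 5987052025) (nat_lit 76) (nat_lit 30334586925) (nat_lit 7) (nat_lit 5) (nat_lit 9) (nat_lit 5) (nat_lit 8) (nat_lit 4) (nat_lit 308) (nat_lit 217) (nat_lit 195)) (XT.nd (nat_lit 78) (nat_lit 0) (nat_lit 0) (XT.lf (nat_lit 0) (nat_lit 3216993643) (nat_lit 76) (nat_lit 3073423608) (nat_lit 152) (nat_lit 33412130701) (nat_lit 6) (nat_lit 5) (nat_lit 7) (nat_lit 5) (nat_lit 8) (nat_lit 4) (nat_lit 309) (nat_lit 217) (nat_lit 194)) (XT.lf (nat_lit 0) (nat_lit 11146860816) (nat_lit 152) (nat_lit 28722086543) (nat_lit 0) (nat_lit 1659344100) (nat_lit 6) (nat_lit 5) (nat_lit 8) (nat_lit 4) (nat_lit 6) (nat_lit 4) (nat_lit 310) (nat_lit 217) (nat_lit 193)))) (XT.nd (nat_lit 78) (nat_lit 0) (nat_lit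 0) (XT.lf (nat_lit 0) (nat_lit 16179798271) (nat_lit 152) (nat_lit 20778319408) (nat_lit 0) (nat_lit 6489240559) (nat_lit 6) (nat_lit 5) (nat_lit 8) (nat_lit 4) (nat_lit 6) (nat_lit 4) (nat_lit 311) (nat_lit 217) (nat_lit 192)) (XT.nd (nat_lit 78) (nat_lit 0) (nat_lit 0) (XT.lf (nat_lit 0) (nat_lit 21371669175) (nat_lit 152) (nat_lit 12605795544) (nat_lit 0) (nat_lit 11487739085) (nat_lit 6) (nat_lit 5) (nat_lit 8) (nat_lit 4) (nat_lit 6) (nat_lit 4) (nat_lit 312) (nat_lit 217) (nat_lit 191)) (XT.lf (nat_lit 0) (nat_lit 26734835124) (nat_lit 152) (nat_lit 4185056564) (nat_lit 0) (nat_lit 16666740865) (nat_lit 6) (nat_lit 5) (nat_lit 8) (nat_lit 4) (nat_lit 6) (nat_lit 4) (nat_lit 313) (nat_lit 217) (nat_lit 190))))))))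
noncomputable def xc14 : XT := (XT.nd (nat_lit 35256) (nat_lit 0) (nat_lit 456) (XT.nd (nat_lit 858) (nat_lit 76) (nat_lit 0) (XT.nd (nat_lit 390) (nat_lit 152) (nat_lit 0) (XT.nd (nat_lit 156) (nat_lit 0) (nat_lit 0) (XT.nd (nat_lit 78) (nat_lit 0) (nat_lit 0) (XT.lf (nat_lit 0) (nat_lit 4593584288) (nat_lit 76) (nat_lit 27732637616) (nat_lit 76) (nat_lit 17489148910) (nat_lit 5) (nat_lit 4) (nat_lit 6) (nat_lit 5) (nat_lit 6) (nat_lit 4) (nat_lit 314) (nat_lit 217) (nat_lit 189)) (XT.lf (nat_lit 0) (nat_lit 13750219295) (nat_lit 76) (nat_lit 24408524404) (nat_lit 76) (nat_lit 13997993367) (nat_lit 5) (nat_lit 4) (nat_lit 6) (nat_lit 5) (nat_lit 6) (nat_lit 4) (nat_lit 315) (nat_lit 217) (nat_lit 188))) (XT.nd (nat_lit 78) (nat_lit 0) (nat_lit 0) (XT.lf (nat_lit 0) (nat_lit 23223359137) (nat_lit 76) (nat_lit 20981898361) (nat_lit 76) (nat_lit 10412279391) (nat_lit 5) (nat_lit 4) (nat_lit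 6) (nat_lit 5) (nat_lit 6) (nat_lit 4) (nat_lit 316) (nat_lit 217) (nat_lit 187)) (XT.nd (nat_lit 78) (nat_lit 0) (nat_lit 0) (XT.lf (nat_lit 0) (nat_lit 33035558909) (nat_lit 76) (nat_lit 17444600855) (nat_lit 76) (nat_lit 6723469567) (nat_lit 5) (nat_lit 4) (nat_lit 6) (nat_lit 5) (nat_lit 6) (nat_lit 4) (nat_lit 317) (nat_lit 217) (nat_lit 186)) (XT.lf (nat_lit 0) (nat_lit 43210180991) (nat_lit 76) (nat_lit 13788209749) (nat_lit 76) (nat_lit 2922781015) (nat_lit 5) (nat_lit 4) (nat_lit 6) (nat_lit 5) (nat_lit 6) (nat_lit 4) (nat_lit 318) (nat_lit 217) (nat_lit 185))))) (XT.nd (nat_lit 234) (nat_lit 0) (nat_lit 0) (XT.nd (nat_lit 78) (nat_lit 76) (nat_lit 0) (XT.lf (nat_lit 0) (nat_lit 979344643) (nat_lit 152) (nat_lit 9014785246) (nat_lit 76) (nat_lit 52782216570) (nat_lit 4) (nat_lit 5) (nat_lit 6) (nat_lit 5) (nat_lit 5) (nat_lit 4) (nat_lit 319) (nat_lit 217) (nat_lit 184)) (XT.nd (nat_lit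 78) (nat_lit 76) (nat_lit 0) (XT.lf (nat_lit 0) (nat_lit 4952159544) (nat_lit 152) (nat_lit 1080853034) (nat_lit 76) (nat_lit 59742347194) (nat_lit 4) (nat_lit 5) (nat_lit 6) (nat_lit 5) (nat_lit 5) (nat_lit 4) (nat_lit 320) (nat_lit 217) (nat_lit 183)) (XT.lf (nat_lit 0) (nat_lit 7279847793) (nat_lit 76) (nat_lit 1852287310) (nat_lit 152) (nat_lit 59791960614) (nat_lit 3) (nat_lit 5) (nat_lit 4) (nat_lit 5) (nat_lit 5) (nat_lit 4) (nat_lit 321) (nat_lit 217) (nat_lit 182)))) (XT.nd (nat_lit 78) (nat_lit 0) (nat_lit 0) (XT.lf (nat_lit 0) (nat_lit 13496687434) (nat_lit 152) (nat_lit 56283380987) (nat_lit 0) (nat_lit 2450958954) (nat_lit 3) (nat_lit 5) (nat_lit 5) (nat_lit 4) (nat_lit 3) (nat_lit 4) (nat_lit 322) (nat_lit 217) (nat_lit 181)) (XT.nd (nat_lit 78) (nat_lit 0) (nat_lit 0) (XT.lf (nat_lit 0) (nat_lit 18040972151) (nat_lit 152) (nat_lit 50778037442) (nat_lit 0) (nat_lit 6885475881)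 (nat_lit 3) (nat_lit 5) (nat_lit 5) (nat_lit 4) (nat_lit 3) (nat_lit 4) (nat_lit 323) (nat_lit 217) (nat_lit 180)) (XT.lf (nat_lit 0) (nat_lit 22758003663) (nat_lit 152) (nat_lit 45097304011) (nat_lit 0) (nat_lit 11497966640) (nat_lit 3) (nat_lit 5) (nat_lit 5) (nat_lit 4) (nat_lit 3) (nat_lit 4) (nat_lit 324) (nat_lit 217) (nat_lit 179)))))) (XT.nd (nat_lit 390) (nat_lit 76) (nat_lit 0) (XT.nd (nat_lit 156) (nat_lit 0) (nat_lit 0) (XT.nd (nat_lit 78) (nat_lit 0) (nat_lit 0) (XT.lf (nat_lit 0) (nat_lit 27659012997) (nat_lit 152) (nat_lit 39227655137) (nat_lit 0) (nat_lit 16299413351) (nat_lit 3) (nat_lit 5) (nat_lit 5) (nat_lit 4) (nat_lit 3) (nat_lit 4) (nat_lit 325) (nat_lit 217) (nat_lit 178)) (XT.lf (nat_lit 0) (nat_lit 32755669222) (nat_lit 152) (nat_lit 33155115467) (nat_lit 0) (nat_lit 21301248032) (nat_lit 3) (nat_lit 5) (nat_lit 5) (nat_lit 4) (nat_lit 3) (nat_lit 4) (nat_lit 326)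 (nat_lit 217) (nat_lit 177))) (XT.nd (nat_lit 78) (nat_lit 0) (nat_lit 0) (XT.lf (nat_lit 0) (nat_lit 38060107235) (nat_lit 152) (nat_lit 26865226572) (nat_lit 0) (nat_lit 26515379812) (nat_lit 3) (nat_lit 5) (nat_lit 5) (nat_lit 4) (nat_lit 3) (nat_lit 4) (nat_lit 327) (nat_lit 217) (nat_lit 176)) (XT.nd (nat_lit 78) (nat_lit 0) (nat_lit 0) (XT.lf (nat_lit 0) (nat_lit 43584956650) (nat_lit 152) (nat_lit 20343012527) (nat_lit 0) (nat_lit 31954223291) (nat_lit 3) (nat_lit 5) (nat_lit 5) (nat_lit 4) (nat_lit 3) (nat_lit 4) (nat_lit 328) (nat_lit 217) (nat_lit 175)) (XT.lf (nat_lit 0) (nat_lit 49343371870) (nat_lit 152) (nat_lit 13572944250) (nat_lit 0) (nat_lit 37630728096) (nat_lit 3) (nat_lit 5) (nat_lit 5) (nat_lit 4) (nat_lit 3) (nat_lit 4) (nat_lit 329) (nat_lit 217) (nat_lit 174))))) (XT.nd (nat_lit 234) (nat_lit 0) (nat_lit 0) (XT.nd (nat_lit 78) (nat_lit 76) (nat_lit 0) (XT.lf (nat_lit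 0) (nat_lit 55349063408) (nat_lit 152) (nat_lit 6538902532) (nat_lit 0) (nat_lit 43558409714) (nat_lit 3) (nat_lit 5) (nat_lit 5) (nat_lit 4) (nat_lit 3) (nat_lit 4) (nat_lit 330) (nat_lit 217) (nat_lit 173)) (XT.nd (nat_lit 78) (nat_lit 0) (nat_lit 0) (XT.lf (nat_lit 0) (nat_lit 791301487) (nat_lit 76) (nat_lit 60832635515) (nat_lit 76) (nat_lit 48967686660) (nat_lit 2) (nat_lit 4) (nat_lit 3) (nat_lit 5) (nat_lit 3) (nat_lit 4) (nat_lit 331) (nat_lit 217) (nat_lit 172)) (XT.lf (nat_lit 0) (nat_lit 8555713268) (nat_lit 76) (nat_lit 59686624779) (nat_lit 76) (nat_lit 47750918627) (nat_lit 2) (nat_lit 4) (nat_lit 3) (nat_lit 5) (nat_lit 3) (nat_lit 4) (nat_lit 332) (nat_lit 217) (nat_lit 171)))) (XT.nd (nat_lit 156) (nat_lit 0) (nat_lit 0) (XT.lf (nat_lit 0) (nat_lit 16642682521) (nat_lit 76) (nat_lit 58513235231) (nat_lit 76) (nat_lit 46510141177) (nat_lit 2) (nat_lit 4) (nat_lit 3) (nat_lit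 5) (nat_lit 3) (nat_lit 4) (nat_lit 333) (nat_lit 217) (nat_lit 170)) (XT.nd (nat_lit 33540) (nat_lit 0) (nat_lit 2204) (XT.lf (nat_lit 0) (nat_lit 33862126040) (nat_lit 76) (nat_lit 56073072716) (nat_lit 76) (nat_lit 43944676895) (nat_lit 2) (nat_lit 4) (nat_lit 3) (nat_lit 5) (nat_lit 3) (nat_lit 4) (nat_lit 335) (nat_lit 217) (nat_lit 168)) (XT.lf (nat_lit 0) (nat_lit 6552948805) (nat_lit 152) (nat_lit 353686200) (nat_lit 152) (nat_lit 353686200) (nat_lit 31) (nat_lit 4) (nat_lit 33) (nat_lit 5) (nat_lit 33) (nat_lit 4) (nat_lit 284) (nat_lit 218) (nat_lit 218))))))) (XT.nd (nat_lit 858) (nat_lit 456) (nat_lit 0) (XT.nd (nat_lit 390) (nat_lit 608) (nat_lit 0) (XT.nd (nat_lit 156) (nat_lit 304) (nat_lit 0) (XT.nd (nat_lit 78) (nat_lit 152) (nat_lit 0) (XT.lf (nat_lit 0) (nat_lit 5700863350) (nat_lit 228) (nat_lit 4441764884) (nat_lit 0) (nat_lit 4879870147) (nat_lit 28) (nat_lit 5) (nat_lit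 31) (nat_lit 4) (nat_lit 28) (nat_lit 4) (nat_lit 285) (nat_lit 218) (nat_lit 217)) (XT.lf (nat_lit 0) (nat_lit 7398981542) (nat_lit 152) (nat_lit 4878720237) (nat_lit 152) (nat_lit 3275828746) (nat_lit 26) (nat_lit 4) (nat_lit 28) (nat_lit 5) (nat_lit 28) (nat_lit 4) (nat_lit 286) (nat_lit 218) (nat_lit 216))) (XT.nd (nat_lit 78) (nat_lit 152) (nat_lit 0) (XT.lf (nat_lit 0) (nat_lit 2872367389) (nat_lit 152) (nat_lit 12649037778) (nat_lit 0) (nat_lit 593186294) (nat_lit 24) (nat_lit 5) (nat_lit 26) (nat_lit 4) (nat_lit 24) (nat_lit 4) (nat_lit 287) (nat_lit 218) (nat_lit 215)) (XT.nd (nat_lit 78) (nat_lit 152) (nat_lit 0) (XT.lf (nat_lit 0) (nat_lit 9175268879) (nat_lit 152) (nat_lit 1322629605) (nat_lit 0) (nat_lit 6207539437) (nat_lit 24) (nat_lit 5) (nat_lit 26) (nat_lit 4) (nat_lit 24) (nat_lit 4) (nat_lit 288) (nat_lit 218) (nat_lit 214)) (XT.lf (nat_lit 0) (nat_lit 10415851579) (nat_lit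 152) (nat_lit 5268442453) (nat_lit 152) (nat_lit 1644952682) (nat_lit 22) (nat_lit 4) (nat_lit 24) (nat_lit 5) (nat_lit 24) (nat_lit 4) (nat_lit 289) (nat_lit 218) (nat_lit 213))))) (XT.nd (nat_lit 234) (nat_lit 304) (nat_lit 0) (XT.nd (nat_lit 78) (nat_lit 152) (nat_lit 0) (XT.lf (nat_lit 0) (nat_lit 4299880793) (nat_lit 152) (nat_lit 13511994159) (nat_lit 0) (nat_lit 175586211) (nat_lit 20) (nat_lit 5) (nat_lit 22) (nat_lit 4) (nat_lit 20) (nat_lit 4) (nat_lit 290) (nat_lit 218) (nat_lit 212)) (XT.nd (nat_lit 78) (nat_lit 152) (nat_lit 0) (XT.lf (nat_lit 0) (nat_lit 10433719443) (nat_lit 152) (nat_lit 2514781309) (nat_lit 0) (nat_lit 5731955007) (nat_lit 20) (nat_lit 5) (nat_lit 22) (nat_lit 4) (nat_lit 20) (nat_lit 4) (nat_lit 291) (nat_lit 218) (nat_lit 211)) (XT.lf (nat_lit 0) (nat_lit 8875884401) (nat_lit 152) (nat_lit 7893609681) (nat_lit 152) (nat_lit 2641873955) (nat_lit 18) (nat_lit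 4) (nat_lit 20) (nat_lit 5) (nat_lit 20) (nat_lit 4) (nat_lit 292) (nat_lit 218) (nat_lit 210)))) (XT.nd (nat_lit 78) (nat_lit 152) (nat_lit 0) (XT.lf (nat_lit 0) (nat_lit 362243521) (nat_lit 76) (nat_lit 2661284275) (nat_lit 152) (nat_lit 17159171181) (nat_lit 16) (nat_lit 5) (nat_lit 17) (nat_lit 5) (nat_lit 18) (nat_lit 4) (nat_lit 293) (nat_lit 218) (nat_lit 209)) (XT.nd (nat_lit 78) (nat_lit 152) (nat_lit 0) (XT.lf (nat_lit 0) (nat_lit 8873325024) (nat_lit 152) (nat_lit 9338208902) (nat_lit 0) (nat_lit 2781715238) (nat_lit 16) (nat_lit 5) (nat_lit 18) (nat_lit 4) (nat_lit 16) (nat_lit 4) (nat_lit 294) (nat_lit 218) (nat_lit 208)) (XT.lf (nat_lit 0) (nat_lit 1364179922) (nat_lit 152) (nat_lit 13518548363) (nat_lit 152) (nat_lit 6965690152) (nat_lit 14) (nat_lit 4) (nat_lit 16) (nat_lit 5) (nat_lit 16) (nat_lit 4) (nat_lit 295) (nat_lit 218) (nat_lit 207)))))) (XT.nd (nat_lit 390) (nat_lit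 228) (nat_lit 0) (XT.nd (nat_lit 156) (nat_lit 76) (nat_lit 0) (XT.nd (nat_lit 78) (nat_lit 152) (nat_lit 0) (XT.lf (nat_lit 0) (nat_lit 12501806490) (nat_lit 152) (nat_lit 8619461097) (nat_lit 152) (nat_lit 1627318671) (nat_lit 14) (nat_lit 4) (nat_lit 16) (nat_lit 5) (nat_lit 16) (nat_lit 4) (nat_lit 296) (nat_lit 218) (nat_lit 206)) (XT.lf (nat_lit 0) (nat_lit 183622323) (nat_lit 76) (nat_lit 3557328744) (nat_lit 152) (nat_lit 19956538631) (nat_lit 12) (nat_lit 5) (nat_lit 13) (nat_lit 5) (nat_lit 14) (nat_lit 4) (nat_lit 297) (nat_lit 218) (nat_lit 205))) (XT.nd (nat_lit 78) (nat_lit 76) (nat_lit 0) (XT.lf (nat_lit 0) (nat_lit 9310421560) (nat_lit 152) (nat_lit 13655113534) (nat_lit 0) (nat_lit 1728914689) (nat_lit 12) (nat_lit 5) (nat_lit 14) (nat_lit 4) (nat_lit 12) (nat_lit 4) (nat_lit 298) (nat_lit 218) (nat_lit 204)) (XT.nd (nat_lit 78) (nat_lit 76) (nat_lit 0) (XT.lf (nat_lit 0)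 (nat_lit 15044466576) (nat_lit 152) (nat_lit 3605750168) (nat_lit 0) (nat_lit 7094542014) (nat_lit 12) (nat_lit 5) (nat_lit 14) (nat_lit 4) (nat_lit 12) (nat_lit 4) (nat_lit 299) (nat_lit 218) (nat_lit 203)) (XT.lf (nat_lit 0) (nat_lit 6825535785) (nat_lit 76) (nat_lit 14162618824) (nat_lit 76) (nat_lit 5861820271) (nat_lit 11) (nat_lit 4) (nat_lit 12) (nat_lit 5) (nat_lit 12) (nat_lit 4) (nat_lit 300) (nat_lit 218) (nat_lit 202))))) (XT.nd (nat_lit 234) (nat_lit 76) (nat_lit 0) (XT.nd (nat_lit 78) (nat_lit 152) (nat_lit 0) (XT.lf (nat_lit 0) (nat_lit 17607272545) (nat_lit 76) (nat_lit 9520626735) (nat_lit 76) (nat_lit 885662477) (nat_lit 11) (nat_lit 4) (nat_lit 12) (nat_lit 5) (nat_lit 12) (nat_lit 4) (nat_lit 301) (nat_lit 218) (nat_lit 201)) (XT.nd (nat_lit 78) (nat_lit 76) (nat_lit 0) (XT.lf (nat_lit 0) (nat_lit 4121590455) (nat_lit 152) (nat_lit 586388686) (nat_lit 76) (nat_lit 24530158975)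 (nat_lit 10) (nat_lit 5) (nat_lit 12) (nat_lit 5) (nat_lit 11) (nat_lit 4) (nat_lit 302) (nat_lit 218) (nat_lit 200)) (XT.lf (nat_lit 0) (nat_lit 9330763905) (nat_lit 152) (nat_lit 20849837238) (nat_lit 0) (nat_lit 344049869) (nat_lit 9) (nat_lit 5) (nat_lit 11) (nat_lit 4) (nat_lit 9) (nat_lit 4) (nat_lit 303) (nat_lit 218) (nat_lit 199)))) (XT.nd (nat_lit 78) (nat_lit 76) (nat_lit 0) (XT.lf (nat_lit 0) (nat_lit 14730299462) (nat_lit 152) (nat_lit 11684028580) (nat_lit 0) (nat_lit 5463328241) (nat_lit 9) (nat_lit 5) (nat_lit 11) (nat_lit 4) (nat_lit 9) (nat_lit 4) (nat_lit 304) (nat_lit 218) (nat_lit 198)) (XT.nd (nat_lit 78) (nat_lit 76) (nat_lit 0) (XT.lf (nat_lit 0) (nat_lit 20281991361) (nat_lit 152) (nat_lit 2271807333) (nat_lit 0) (nat_lit 10748108535) (nat_lit 9) (nat_lit 5) (nat_lit 11) (nat_lit 4) (nat_lit 9) (nat_lit 4) (nat_lit 305) (nat_lit 218) (nat_lit 197)) (XT.lf (nat_lit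 0) (nat_lit 7556694888) (nat_lit 76) (nat_lit 18515002601) (nat_lit 76) (nat_lit 8726918247) (nat_lit 8) (nat_lit 4) (nat_lit 9) (nat_lit 5) (nat_lit 9) (nat_lit 4) (nat_lit 306) (nat_lit 218) (nat_lit 196))))))))
noncomputable def xc15 : XT := (XT.nd (nat_lit 1716) (nat_lit 76) (nat_lit 0) (XT.nd (nat_lit 858) (nat_lit 152) (nat_lit 0) (XT.nd (nat_lit 390) (nat_lit 76) (nat_lit 0) (XT.nd (nat_lit 156) (nat_lit 76) (nat_lit 0) (XT.nd (nat_lit 78) (nat_lit 76) (nat_lit 0) (XT.lf (nat_lit 0) (nat_lit 17728092115) (nat_lit 76) (nat_lit 14337432339) (nat_lit 76) (nat_lit 4307251291) (nat_lit 8) (nat_lit 4) (nat_lit 9) (nat_lit 5) (nat_lit 9) (nat_lit 4) (nat_lit 307) (nat_lit 218) (nat_lit 195)) (XT.lf (nat_lit 0) (nat_lit 222244120) (nat_lit 152) (nat_lit 9809593762) (nat_lit 76) (nat_lit 27996900189) (nat_lit 7) (nat_lit 5) (nat_lit 9) (nat_lit 5) (nat_lit 8) (nat_lit 4) (nat_lit 308) (nat_lit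 218) (nat_lit 194))) (XT.nd (nat_lit 78) (nat_lit 76) (nat_lit 0) (XT.lf (nat_lit 0) (nat_lit 4790296031) (nat_lit 152) (nat_lit 756037222) (nat_lit 76) (nat_lit 34222899572) (nat_lit 7) (nat_lit 5) (nat_lit 9) (nat_lit 5) (nat_lit 8) (nat_lit 4) (nat_lit 309) (nat_lit 218) (nat_lit 193)) (XT.nd (nat_lit 78) (nat_lit 0) (nat_lit 0) (XT.lf (nat_lit 0) (nat_lit 8749683858) (nat_lit 76) (nat_lit 826254196) (nat_lit 152) (nat_lit 32021184884) (nat_lit 6) (nat_lit 5) (nat_lit 7) (nat_lit 5) (nat_lit 8) (nat_lit 4) (nat_lit 310) (nat_lit 218) (nat_lit 192)) (XT.lf (nat_lit 0) (nat_lit 14555706988) (nat_lit 152) (nat_lit 24977891254) (nat_lit 0) (nat_lit 3984208016) (nat_lit 6) (nat_lit 5) (nat_lit 8) (nat_lit 4) (nat_lit 6) (nat_lit 4) (nat_lit 311) (nat_lit 218) (nat_lit 191))))) (XT.nd (nat_lit 234) (nat_lit 0) (nat_lit 0) (XT.nd (nat_lit 78) (nat_lit 76) (nat_lit 0) (XT.lf (nat_lit 0) (nat_lit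 19704505453) (nat_lit 152) (nat_lit 16883616696) (nat_lit 0) (nat_lit 8948842311) (nat_lit 6) (nat_lit 5) (nat_lit 8) (nat_lit 4) (nat_lit 6) (nat_lit 4) (nat_lit 312) (nat_lit 218) (nat_lit 190)) (XT.nd (nat_lit 78) (nat_lit 76) (nat_lit 0) (XT.lf (nat_lit 0) (nat_lit 25026650032) (nat_lit 152) (nat_lit 8537400862) (nat_lit 0) (nat_lit 14095592443) (nat_lit 6) (nat_lit 5) (nat_lit 8) (nat_lit 4) (nat_lit 6) (nat_lit 4) (nat_lit 313) (nat_lit 218) (nat_lit 189)) (XT.lf (nat_lit 0) (nat_lit 82232847) (nat_lit 76) (nat_lit 30453370123) (nat_lit 76) (nat_lit 19355270204) (nat_lit 5) (nat_lit 4) (nat_lit 6) (nat_lit 5) (nat_lit 6) (nat_lit 4) (nat_lit 314) (nat_lit 218) (nat_lit 188)))) (XT.nd (nat_lit 78) (nat_lit 0) (nat_lit 0) (XT.lf (nat_lit 0) (nat_lit 9169927895) (nat_lit 76) (nat_lit 27160326584) (nat_lit 76) (nat_lit 15903138731) (nat_lit 5) (nat_lit 4) (nat_lit 6) (nat_lit 5) (nat_lit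 6) (nat_lit 4) (nat_lit 315) (nat_lit 218) (nat_lit 187)) (XT.nd (nat_lit 78) (nat_lit 0) (nat_lit 0) (XT.lf (nat_lit 0) (nat_lit 18577410633) (nat_lit 76) (nat_lit 23763290707) (nat_lit 76) (nat_lit 12354590536) (nat_lit 5) (nat_lit 4) (nat_lit 6) (nat_lit 5) (nat_lit 6) (nat_lit 4) (nat_lit 316) (nat_lit 218) (nat_lit 186)) (XT.lf (nat_lit 0) (nat_lit 28327079831) (nat_lit 76) (nat_lit 20254174311) (nat_lit 76) (nat_lit 8701176695) (nat_lit 5) (nat_lit 4) (nat_lit 6) (nat_lit 5) (nat_lit 6) (nat_lit 4) (nat_lit 317) (nat_lit 218) (nat_lit 185)))))) (XT.nd (nat_lit 390) (nat_lit 0) (nat_lit 0) (XT.nd (nat_lit 156) (nat_lit 152) (nat_lit 0) (XT.nd (nat_lit 78) (nat_lit 0) (nat_lit 0) (XT.lf (nat_lit 0) (nat_lit 38442148985) (nat_lit 76) (nat_lit 16624622357) (nat_lit 76) (nat_lit 4934198602) (nat_lit 5) (nat_lit 4) (nat_lit 6) (nat_lit 5) (nat_lit 6) (nat_lit 4) (nat_lit 318) (nat_lit 218)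 (nat_lit 184)) (XT.lf (nat_lit 0) (nat_lit 48946701594) (nat_lit 76) (nat_lit 12865993055) (nat_lit 76) (nat_lit 1044687263) (nat_lit 5) (nat_lit 4) (nat_lit 6) (nat_lit 5) (nat_lit 6) (nat_lit 4) (nat_lit 319) (nat_lit 218) (nat_lit 183))) (XT.nd (nat_lit 78) (nat_lit 76) (nat_lit 0) (XT.lf (nat_lit 0) (nat_lit 2918533523) (nat_lit 152) (nat_lit 6021332297) (nat_lit 76) (nat_lit 56917743507) (nat_lit 4) (nat_lit 5) (nat_lit 6) (nat_lit 5) (nat_lit 5) (nat_lit 4) (nat_lit 320) (nat_lit 218) (nat_lit 182)) (XT.nd (nat_lit 78) (nat_lit 0) (nat_lit 0) (XT.lf (nat_lit 0) (nat_lit 2187982796) (nat_lit 76) (nat_lit 4833028047) (nat_lit 152) (nat_lit 61987672184) (nat_lit 3) (nat_lit 5) (nat_lit 4) (nat_lit 5) (nat_lit 5) (nat_lit 4) (nat_lit 321) (nat_lit 218) (nat_lit 181)) (XT.lf (nat_lit 0) (nat_lit 10829997452) (nat_lit 76) (nat_lit 503858455) (nat_lit 152) (nat_lit 60983322191) (nat_lit 3)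 (nat_lit 5) (nat_lit 4) (nat_lit 5) (nat_lit 5) (nat_lit 4) (nat_lit 322) (nat_lit 218) (nat_lit 180))))) (XT.nd (nat_lit 234) (nat_lit 0) (nat_lit 0) (XT.nd (nat_lit 78) (nat_lit 0) (nat_lit 0) (XT.lf (nat_lit 0) (nat_lit 15846727746) (nat_lit 152) (nat_lit 56025714335) (nat_lit 0) (nat_lit 3919148118) (nat_lit 3) (nat_lit 5) (nat_lit 5) (nat_lit 4) (nat_lit 3) (nat_lit 4) (nat_lit 323) (nat_lit 218) (nat_lit 179)) (XT.nd (nat_lit 78) (nat_lit 0) (nat_lit 0) (XT.lf (nat_lit 0) (nat_lit 20538454987) (nat_lit 152) (nat_lit 50391381504) (nat_lit 0) (nat_lit 8511312738) (nat_lit 3) (nat_lit 5) (nat_lit 5) (nat_lit 4) (nat_lit 3) (nat_lit 4) (nat_lit 324) (nat_lit 218) (nat_lit 178)) (XT.lf (nat_lit 0) (nat_lit 25415365016) (nat_lit 152) (nat_lit 44565923677) (nat_lit 0) (nat_lit 13293401222) (nat_lit 3) (nat_lit 5) (nat_lit 5) (nat_lit 4) (nat_lit 3) (nat_lit 4) (nat_lit 325) (nat_lit 218) (nat_lit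 177)))) (XT.nd (nat_lit 78) (nat_lit 0) (nat_lit 0) (XT.lf (nat_lit 0) (nat_lit 30489069523) (nat_lit 152) (nat_lit 38535470719) (nat_lit 0) (nat_lit 18276799496) (nat_lit 3) (nat_lit 5) (nat_lit 5) (nat_lit 4) (nat_lit 3) (nat_lit 4) (nat_lit 326) (nat_lit 218) (nat_lit 176)) (XT.nd (nat_lit 78) (nat_lit 0) (nat_lit 0) (XT.lf (nat_lit 0) (nat_lit 35771648756) (nat_lit 152) (nat_lit 32285664407) (nat_lit 0) (nat_lit 23473372793) (nat_lit 3) (nat_lit 5) (nat_lit 5) (nat_lit 4) (nat_lit 3) (nat_lit 4) (nat_lit 327) (nat_lit 218) (nat_lit 175)) (XT.lf (nat_lit 0) (nat_lit 41275680285) (nat_lit 152) (nat_lit 25801624250) (nat_lit 0) (nat_lit 28895493907) (nat_lit 3) (nat_lit 5) (nat_lit 5) (nat_lit 4) (nat_lit 3) (nat_lit 4) (nat_lit 328) (nat_lit 218) (nat_lit 174))))))) (XT.nd (nat_lit 34242) (nat_lit 0) (nat_lit 760) (XT.nd (nat_lit 468) (nat_lit 0) (nat_lit 0) (XT.nd (nat_lit 156) (nat_lit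 76) (nat_lit 0) (XT.nd (nat_lit 78) (nat_lit 0) (nat_lit 0) (XT.lf (nat_lit 0) (nat_lit 47014268948) (nat_lit 152) (nat_lit 19067912057) (nat_lit 0) (nat_lit 34556072650) (nat_lit 3) (nat_lit 5) (nat_lit 5) (nat_lit 4) (nat_lit 3) (nat_lit 4) (nat_lit 329) (nat_lit 218) (nat_lit 173)) (XT.lf (nat_lit 0) (nat_lit 53001078050) (nat_lit 152) (nat_lit 12068495181) (nat_lit 0) (nat_lit 40468586590) (nat_lit 3) (nat_lit 5) (nat_lit 5) (nat_lit 4) (nat_lit 3) (nat_lit 4) (nat_lit 330) (nat_lit 218) (nat_lit 172))) (XT.nd (nat_lit 78) (nat_lit 76) (nat_lit 0) (XT.lf (nat_lit 0) (nat_lit 59250361898) (nat_lit 152) (nat_lit 4786708342) (nat_lit 0) (nat_lit 46647113142) (nat_lit 3) (nat_lit 5) (nat_lit 5) (nat_lit 4) (nat_lit 3) (nat_lit 4) (nat_lit 331) (nat_lit 218) (nat_lit 171)) (XT.nd (nat_lit 78) (nat_lit 0) (nat_lit 0) (XT.lf (nat_lit 0) (nat_lit 2850407767) (nat_lit 76) (nat_lit 62953991837)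 (nat_lit 76) (nat_lit 50283355179) (nat_lit 2) (nat_lit 4) (nat_lit 3) (nat_lit 5) (nat_lit 3) (nat_lit 4) (nat_lit 332) (nat_lit 218) (nat_lit 170)) (XT.lf (nat_lit 0) (nat_lit 10906871507) (nat_lit 76) (nat_lit 61794503205) (nat_lit 76) (nat_lit 49059687594) (nat_lit 2) (nat_lit 4) (nat_lit 3) (nat_lit 5) (nat_lit 3) (nat_lit 4) (nat_lit 333) (nat_lit 218) (nat_lit 169))))) (XT.nd (nat_lit 33540) (nat_lit 0) (nat_lit 1824) (XT.nd (nat_lit 33384) (nat_lit 0) (nat_lit 2204) (XT.lf (nat_lit 0) (nat_lit 28069592757) (nat_lit 76) (nat_lit 59380188200) (nat_lit 76) (nat_lit 46526037573) (nat_lit 2) (nat_lit 4) (nat_lit 3) (nat_lit 5) (nat_lit 3) (nat_lit 4) (nat_lit 335) (nat_lit 218) (nat_lit 167)) (XT.nd (nat_lit 78) (nat_lit 152) (nat_lit 0) (XT.lf (nat_lit 0) (nat_lit 735011195) (nat_lit 228) (nat_lit 5324913474) (nat_lit 0) (nat_lit 735011195) (nat_lit 33) (nat_lit 5) (nat_lit 36) (nat_lit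 4) (nat_lit 33) (nat_lit 4) (nat_lit 282) (nat_lit 219) (nat_lit 219)) (XT.lf (nat_lit 0) (nat_lit 926793673) (nat_lit 152) (nat_lit 7002409868) (nat_lit 152) (nat_lit 6114505719) (nat_lit 31) (nat_lit 4) (nat_lit 33) (nat_lit 5) (nat_lit 33) (nat_lit 4) (nat_lit 283) (nat_lit 219) (nat_lit 218)))) (XT.nd (nat_lit 78) (nat_lit 304) (nat_lit 0) (XT.lf (nat_lit 0) (nat_lit 61691750) (nat_lit 228) (nat_lit 1608292894) (nat_lit 76) (nat_lit 12854156443) (nat_lit 30) (nat_lit 5) (nat_lit 33) (nat_lit 5) (nat_lit 31) (nat_lit 4) (nat_lit 284) (nat_lit 219) (nat_lit 217)) (XT.nd (nat_lit 78) (nat_lit 152) (nat_lit 0) (XT.lf (nat_lit 0) (nat_lit 6332619696) (nat_lit 228) (nat_lit 4829280039) (nat_lit 0) (nat_lit 3867685341) (nat_lit 28) (nat_lit 5) (nat_lit 31) (nat_lit 4) (nat_lit 28) (nat_lit 4) (nat_lit 285) (nat_lit 219) (nat_lit 216)) (XT.lf (nat_lit 0) (nat_lit 6820140852) (nat_lit 152) (nat_lit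 5976767496) (nat_lit 152) (nat_lit 2767168105) (nat_lit 26) (nat_lit 4) (nat_lit 28) (nat_lit 5) (nat_lit 28) (nat_lit 4) (nat_lit 286) (nat_lit 219) (nat_lit 215)))))) (XT.nd (nat_lit 468) (nat_lit 456) (nat_lit 0) (XT.nd (nat_lit 234) (nat_lit 304) (nat_lit 0) (XT.nd (nat_lit 78) (nat_lit 152) (nat_lit 0) (XT.lf (nat_lit 0) (nat_lit 2684887556) (nat_lit 76) (nat_lit 568162563) (nat_lit 152) (nat_lit 12875558652) (nat_lit 24) (nat_lit 5) (nat_lit 25) (nat_lit 5) (nat_lit 26) (nat_lit 4) (nat_lit 287) (nat_lit 219) (nat_lit 214)) (XT.nd (nat_lit 78) (nat_lit 152) (nat_lit 0) (XT.lf (nat_lit 0) (nat_lit 9448468158) (nat_lit 152) (nat_lit 2286240872) (nat_lit 0) (nat_lit 4988043568) (nat_lit 24) (nat_lit 5) (nat_lit 26) (nat_lit 4) (nat_lit 24) (nat_lit 4) (nat_lit 288) (nat_lit 219) (nat_lit 213)) (XT.lf (nat_lit 0) (nat_lit 9263672040) (nat_lit 152) (nat_lit 6585582078) (nat_lit 152) (nat_lit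 1500623840) (nat_lit 22) (nat_lit 4) (nat_lit 24) (nat_lit 5) (nat_lit 24) (nat_lit 4) (nat_lit 289) (nat_lit 219) (nat_lit 212)))) (XT.nd (nat_lit 78) (nat_lit 152) (nat_lit 0) (XT.lf (nat_lit 0) (nat_lit 3113142641) (nat_lit 76) (nat_lit 1218332643) (nat_lit 152) (nat_lit 13679937204) (nat_lit 20) (nat_lit 5) (nat_lit 21) (nat_lit 5) (nat_lit 22) (nat_lit 4) (nat_lit 290) (nat_lit 219) (nat_lit 211)) (XT.nd (nat_lit 78) (nat_lit 152) (nat_lit 0) (XT.lf (nat_lit 0) (nat_lit 10360882394) (nat_lit 152) (nat_lit 4050130154) (nat_lit 0) (nat_lit 4296588591) (nat_lit 20) (nat_lit 5) (nat_lit 22) (nat_lit 4) (nat_lit 20) (nat_lit 4) (nat_lit 291) (nat_lit 219) (nat_lit 210)) (XT.lf (nat_lit 0) (nat_lit 7153803443) (nat_lit 152) (nat_lit 9437994957) (nat_lit 152) (nat_lit 2849918973) (nat_lit 18) (nat_lit 4) (nat_lit 20) (nat_lit 5) (nat_lit 20) (nat_lit 4) (nat_lit 292) (nat_lit 219) (nat_lit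 209))))) (XT.nd (nat_lit 234) (nat_lit 304) (nat_lit 0) (XT.nd (nat_lit 78) (nat_lit 76) (nat_lit 0) (XT.lf (nat_lit 0) (nat_lit 2729629498) (nat_lit 228) (nat_lit 1545768273) (nat_lit 76) (nat_lit 15940461741) (nat_lit 17) (nat_lit 5) (nat_lit 20) (nat_lit 5) (nat_lit 18) (nat_lit 4) (nat_lit 293) (nat_lit 219) (nat_lit 208)) (XT.nd (nat_lit 78) (nat_lit 0) (nat_lit 0) (XT.lf (nat_lit 0) (nat_lit 8464285196) (nat_lit 152) (nat_lit 11443094350) (nat_lit 0) (nat_lit 1122535649) (nat_lit 16) (nat_lit 5) (nat_lit 18) (nat_lit 4) (nat_lit 16) (nat_lit 4) (nat_lit 294) (nat_lit 219) (nat_lit 207)) (XT.lf (nat_lit 0) (nat_lit 14380269367) (nat_lit 152) (nat_lit 908430878) (nat_lit 0) (nat_lit 6599235605) (nat_lit 16) (nat_lit 5) (nat_lit 18) (nat_lit 4) (nat_lit 16) (nat_lit 4) (nat_lit 295) (nat_lit 219) (nat_lit 206)))) (XT.nd (nat_lit 78) (nat_lit 152) (nat_lit 0) (XT.lf (nat_lit 0) (nat_lit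 10074055599) (nat_lit 152) (nat_lit 10458047699) (nat_lit 152) (nat_lit 2258648018) (nat_lit 14) (nat_lit 4) (nat_lit 16) (nat_lit 5) (nat_lit 16) (nat_lit 4) (nat_lit 296) (nat_lit 219) (nat_lit 205)) (XT.nd (nat_lit 78) (nat_lit 76) (nat_lit 0) (XT.lf (nat_lit 0) (nat_lit 3045304662) (nat_lit 228) (nat_lit 2415874947) (nat_lit 76) (nat_lit 18280999289) (nat_lit 13) (nat_lit 5) (nat_lit 16) (nat_lit 5) (nat_lit 14) (nat_lit 4) (nat_lit 297) (nat_lit 219) (nat_lit 204)) (XT.lf (nat_lit 0) (nat_lit 8280935735) (nat_lit 76) (nat_lit 220664939) (nat_lit 152) (nat_lit 16240974478) (nat_lit 12) (nat_lit 5) (nat_lit 13) (nat_lit 5) (nat_lit 14) (nat_lit 4) (nat_lit 298) (nat_lit 219) (nat_lit 203))))))))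
noncomputable def xc16 : XT := (XT.nd (nat_lit 1716) (nat_lit 152) (nat_lit 0) (XT.nd (nat_lit 858) (nat_lit 228) (nat_lit 0) (XT.nd (nat_lit 390) (nat_lit 152) (nat_lit 0) (XT.nd (nat_lit 156) (nat_lit 152) (nat_lit 0) (XT.nd (nat_lit 78) (nat_lit 76) (nat_lit 0) (XT.lf (nat_lit 0) (nat_lit 14163929178) (nat_lit 152) (nat_lit 6533928723) (nat_lit 0) (nat_lit 5097216707) (nat_lit 12) (nat_lit 5) (nat_lit 14) (nat_lit 4) (nat_lit 12) (nat_lit 4) (nat_lit 299) (nat_lit 219) (nat_lit 202)) (XT.lf (nat_lit 0) (nat_lit 3718854850) (nat_lit 76) (nat_lit 16292617762) (nat_lit 76) (nat_lit 6891739586) (nat_lit 11) (nat_lit 4) (nat_lit 12) (nat_lit 5) (nat_lit 12) (nat_lit 4) (nat_lit 300) (nat_lit 219) (nat_lit 201))) (XT.nd (nat_lit 78) (nat_lit 152) (nat_lit 0) (XT.lf (nat_lit 0) (nat_lit 14386090766) (nat_lit 76) (nat_lit 11700900835) (nat_lit 76) (nat_lit 1981769606) (nat_lit 11) (nat_lit 4)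 (nat_lit 12) (nat_lit 5) (nat_lit 12) (nat_lit 4) (nat_lit 301) (nat_lit 219) (nat_lit 200)) (XT.nd (nat_lit 78) (nat_lit 76) (nat_lit 0) (XT.lf (nat_lit 0) (nat_lit 2985066371) (nat_lit 152) (nat_lit 3962544641) (nat_lit 76) (nat_lit 22347929523) (nat_lit 10) (nat_lit 5) (nat_lit 12) (nat_lit 5) (nat_lit 11) (nat_lit 4) (nat_lit 302) (nat_lit 219) (nat_lit 199)) (XT.lf (nat_lit 0) (nat_lit 6127790793) (nat_lit 76) (nat_lit 1970083625) (nat_lit 152) (nat_lit 22487101114) (nat_lit 9) (nat_lit 5) (nat_lit 10) (nat_lit 5) (nat_lit 11) (nat_lit 4) (nat_lit 303) (nat_lit 219) (nat_lit 198))))) (XT.nd (nat_lit 234) (nat_lit 76) (nat_lit 0) (XT.nd (nat_lit 78) (nat_lit 76) (nat_lit 0) (XT.lf (nat_lit 0) (nat_lit 13420998943) (nat_lit 152) (nat_lit 15375793478) (nat_lit 0) (nat_lit 3143510371) (nat_lit 9) (nat_lit 5) (nat_lit 11) (nat_lit 4) (nat_lit 9) (nat_lit 4) (nat_lit 304) (nat_lit 219) (nat_lit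 197)) (XT.nd (nat_lit 78) (nat_lit 76) (nat_lit 0) (XT.lf (nat_lit 0) (nat_lit 18917954286) (nat_lit 152) (nat_lit 6062005608) (nat_lit 0) (nat_lit 8386264186) (nat_lit 9) (nat_lit 5) (nat_lit 11) (nat_lit 4) (nat_lit 9) (nat_lit 4) (nat_lit 305) (nat_lit 219) (nat_lit 196)) (XT.lf (nat_lit 0) (nat_lit 3595452433) (nat_lit 76) (nat_lit 21022000043) (nat_lit 76) (nat_lit 10248213248) (nat_lit 8) (nat_lit 4) (nat_lit 9) (nat_lit 5) (nat_lit 9) (nat_lit 4) (nat_lit 306) (nat_lit 219) (nat_lit 195)))) (XT.nd (nat_lit 78) (nat_lit 76) (nat_lit 0) (XT.lf (nat_lit 0) (nat_lit 13675790799) (nat_lit 76) (nat_lit 16884965658) (nat_lit 76) (nat_lit 5880610584) (nat_lit 8) (nat_lit 4) (nat_lit 9) (nat_lit 5) (nat_lit 9) (nat_lit 4) (nat_lit 307) (nat_lit 219) (nat_lit 194)) (XT.nd (nat_lit 78) (nat_lit 76) (nat_lit 0) (XT.lf (nat_lit 0) (nat_lit 24082364499) (nat_lit 76) (nat_lit 12620221029) (nat_lit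 76) (nat_lit 1396277117) (nat_lit 8) (nat_lit 4) (nat_lit 9) (nat_lit 5) (nat_lit 9) (nat_lit 4) (nat_lit 308) (nat_lit 219) (nat_lit 193)) (XT.lf (nat_lit 0) (nat_lit 3152718848) (nat_lit 152) (nat_lit 5033056875) (nat_lit 76) (nat_lit 31655395961) (nat_lit 7) (nat_lit 5) (nat_lit 9) (nat_lit 5) (nat_lit 8) (nat_lit 4) (nat_lit 309) (nat_lit 219) (nat_lit 192)))))) (XT.nd (nat_lit 390) (nat_lit 152) (nat_lit 0) (XT.nd (nat_lit 156) (nat_lit 0) (nat_lit 0) (XT.nd (nat_lit 78) (nat_lit 0) (nat_lit 0) (XT.lf (nat_lit 0) (nat_lit 4306400564) (nat_lit 76) (nat_lit 3545151283) (nat_lit 152) (nat_lit 33820135707) (nat_lit 6) (nat_lit 5) (nat_lit 7) (nat_lit 5) (nat_lit 8) (nat_lit 4) (nat_lit 310) (nat_lit 219) (nat_lit 191)) (XT.lf (nat_lit 0) (nat_lit 12762112641) (nat_lit 152) (nat_lit 29547852767) (nat_lit 0) (nat_lit 1284502173) (nat_lit 6) (nat_lit 5) (nat_lit 8) (nat_lit 4) (nat_lit 6) (nat_lit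 4) (nat_lit 311) (nat_lit 219) (nat_lit 190))) (XT.nd (nat_lit 78) (nat_lit 0) (nat_lit 0) (XT.lf (nat_lit 0) (nat_lit 17869889735) (nat_lit 152) (nat_lit 21528101357) (nat_lit 0) (nat_lit 6216884820) (nat_lit 6) (nat_lit 5) (nat_lit 8) (nat_lit 4) (nat_lit 6) (nat_lit 4) (nat_lit 312) (nat_lit 219) (nat_lit 189)) (XT.nd (nat_lit 78) (nat_lit 0) (nat_lit 0) (XT.lf (nat_lit 0) (nat_lit 23152966343) (nat_lit 152) (nat_lit 13252859950) (nat_lit 0) (nat_lit 11332919097) (nat_lit 6) (nat_lit 5) (nat_lit 8) (nat_lit 4) (nat_lit 6) (nat_lit 4) (nat_lit 313) (nat_lit 219) (nat_lit 188)) (XT.lf (nat_lit 0) (nat_lit 28623921216) (nat_lit 152) (nat_lit 4702425591) (nat_lit 0) (nat_lit 16644786037) (nat_lit 6) (nat_lit 5) (nat_lit 8) (nat_lit 4) (nat_lit 6) (nat_lit 4) (nat_lit 314) (nat_lit 219) (nat_lit 187))))) (XT.nd (nat_lit 234) (nat_lit 76) (nat_lit 0) (XT.nd (nat_lit 78) (nat_lit 0) (nat_lit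 0) (XT.lf (nat_lit 0) (nat_lit 4226024863) (nat_lit 76) (nat_lit 30110378712) (nat_lit 76) (nat_lit 17979731215) (nat_lit 5) (nat_lit 4) (nat_lit 6) (nat_lit 5) (nat_lit 6) (nat_lit 4) (nat_lit 315) (nat_lit 219) (nat_lit 186)) (XT.nd (nat_lit 78) (nat_lit 0) (nat_lit 0) (XT.lf (nat_lit 0) (nat_lit 13570977027) (nat_lit 76) (nat_lit 26741523945) (nat_lit 76) (nat_lit 14466579002) (nat_lit 5) (nat_lit 4) (nat_lit 6) (nat_lit 5) (nat_lit 6) (nat_lit 4) (nat_lit 316) (nat_lit 219) (nat_lit 185)) (XT.lf (nat_lit 0) (nat_lit 23261093296) (nat_lit 76) (nat_lit 23259246701) (nat_lit 76) (nat_lit 10846875619) (nat_lit 5) (nat_lit 4) (nat_lit 6) (nat_lit 5) (nat_lit 6) (nat_lit 4) (nat_lit 317) (nat_lit 219) (nat_lit 184)))) (XT.nd (nat_lit 78) (nat_lit 76) (nat_lit 0) (XT.lf (nat_lit 0) (nat_lit 33319445375) (nat_lit 76) (nat_lit 19655255844) (nat_lit 76) (nat_lit 7112002726) (nat_lit 5) (nat_lit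 4) (nat_lit 6) (nat_lit 5) (nat_lit 6) (nat_lit 4) (nat_lit 318) (nat_lit 219) (nat_lit 183)) (XT.nd (nat_lit 78) (nat_lit 76) (nat_lit 0) (XT.lf (nat_lit 0) (nat_lit 43769981723) (nat_lit 76) (nat_lit 15920970444) (nat_lit 76) (nat_lit 3253067767) (nat_lit 5) (nat_lit 4) (nat_lit 6) (nat_lit 5) (nat_lit 6) (nat_lit 4) (nat_lit 319) (nat_lit 219) (nat_lit 182)) (XT.lf (nat_lit 0) (nat_lit 724694358) (nat_lit 152) (nat_lit 11315486994) (nat_lit 76) (nat_lit 53905572217) (nat_lit 4) (nat_lit 5) (nat_lit 6) (nat_lit 5) (nat_lit 5) (nat_lit 4) (nat_lit 320) (nat_lit 219) (nat_lit 181))))))) (XT.nd (nat_lit 858) (nat_lit 76) (nat_lit 0) (XT.nd (nat_lit 390) (nat_lit 0) (nat_lit 0) (XT.nd (nat_lit 156) (nat_lit 0) (nat_lit 0) (XT.nd (nat_lit 78) (nat_lit 76) (nat_lit 0) (XT.lf (nat_lit 0) (nat_lit 4778946955) (nat_lit 152) (nat_lit 3198415047) (nat_lit 76) (nat_lit 61120924205) (nat_lit 4) (nat_lit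 5) (nat_lit 6) (nat_lit 5) (nat_lit 5) (nat_lit 4) (nat_lit 321) (nat_lit 219) (nat_lit 180)) (XT.lf (nat_lit 0) (nat_lit 5331817431) (nat_lit 76) (nat_lit 3702257334) (nat_lit 152) (nat_lit 63374449647) (nat_lit 3) (nat_lit 5) (nat_lit 4) (nat_lit 5) (nat_lit 5) (nat_lit 4) (nat_lit 322) (nat_lit 219) (nat_lit 179))) (XT.nd (nat_lit 78) (nat_lit 0) (nat_lit 0) (XT.lf (nat_lit 0) (nat_lit 13490897366) (nat_lit 152) (nat_lit 61630896303) (nat_lit 0) (nat_lit 762835383) (nat_lit 3) (nat_lit 5) (nat_lit 5) (nat_lit 4) (nat_lit 3) (nat_lit 4) (nat_lit 323) (nat_lit 219) (nat_lit 178)) (XT.nd (nat_lit 78) (nat_lit 0) (nat_lit 0) (XT.lf (nat_lit 0) (nat_lit 18158525303) (nat_lit 152) (nat_lit 56040754518) (nat_lit 0) (nat_lit 5335641775) (nat_lit 3) (nat_lit 5) (nat_lit 5) (nat_lit 4) (nat_lit 3) (nat_lit 4) (nat_lit 324) (nat_lit 219) (nat_lit 177)) (XT.lf (nat_lit 0) (nat_lit 23012483613) (nat_lit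 152) (nat_lit 50257383404) (nat_lit 0) (nat_lit 10099293852) (nat_lit 3) (nat_lit 5) (nat_lit 5) (nat_lit 4) (nat_lit 3) (nat_lit 4) (nat_lit 325) (nat_lit 219) (nat_lit 176))))) (XT.nd (nat_lit 234) (nat_lit 0) (nat_lit 0) (XT.nd (nat_lit 78) (nat_lit 0) (nat_lit 0) (XT.lf (nat_lit 0) (nat_lit 28064329340) (nat_lit 152) (nat_lit 44267013028) (nat_lit 0) (nat_lit 15065133642) (nat_lit 3) (nat_lit 5) (nat_lit 5) (nat_lit 4) (nat_lit 3) (nat_lit 4) (nat_lit 326) (nat_lit 219) (nat_lit 175)) (XT.nd (nat_lit 78) (nat_lit 0) (nat_lit 0) (XT.lf (nat_lit 0) (nat_lit 33326090688) (nat_lit 152) (nat_lit 38055380604) (nat_lit 0) (nat_lit 20244984575) (nat_lit 3) (nat_lit 5) (nat_lit 5) (nat_lit 4) (nat_lit 3) (nat_lit 4) (nat_lit 327) (nat_lit 219) (nat_lit 174)) (XT.lf (nat_lit 0) (nat_lit 38810295659) (nat_lit 152) (nat_lit 31607696531) (nat_lit 0) (nat_lit 25651179627) (nat_lit 3) (nat_lit 5) (nat_lit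 5) (nat_lit 4) (nat_lit 3) (nat_lit 4) (nat_lit 328) (nat_lit 219) (nat_lit 173)))) (XT.nd (nat_lit 78) (nat_lit 0) (nat_lit 0) (XT.lf (nat_lit 0) (nat_lit 44530001886) (nat_lit 152) (nat_lit 24908609180) (nat_lit 0) (nat_lit 31296590692) (nat_lit 3) (nat_lit 5) (nat_lit 5) (nat_lit 4) (nat_lit 3) (nat_lit 4) (nat_lit 329) (nat_lit 219) (nat_lit 172)) (XT.nd (nat_lit 78) (nat_lit 0) (nat_lit 0) (XT.lf (nat_lit 0) (nat_lit 50498827715) (nat_lit 152) (nat_lit 17942168344) (nat_lit 0) (nat_lit 37194659225) (nat_lit 3) (nat_lit 5) (nat_lit 5) (nat_lit 4) (nat_lit 3) (nat_lit 4) (nat_lit 330) (nat_lit 219) (nat_lit 171)) (XT.lf (nat_lit 0) (nat_lit 56730984638) (nat_lit 152) (nat_lit 10691787258) (nat_lit 0) (nat_lit 43359428246) (nat_lit 3) (nat_lit 5) (nat_lit 5) (nat_lit 4) (nat_lit 3) (nat_lit 4) (nat_lit 331) (nat_lit 219) (nat_lit 170)))))) (XT.nd (nat_lit 33618) (nat_lit 0) (nat_lit 1672)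 (XT.nd (nat_lit 234) (nat_lit 0) (nat_lit 0) (XT.nd (nat_lit 78) (nat_lit 76) (nat_lit 0) (XT.lf (nat_lit 0) (nat_lit 63241311122) (nat_lit 152) (nat_lit 3140203110) (nat_lit 0) (nat_lit 49805575777) (nat_lit 3) (nat_lit 5) (nat_lit 5) (nat_lit 4) (nat_lit 3) (nat_lit 4) (nat_lit 332) (nat_lit 219) (nat_lit 169)) (XT.lf (nat_lit 0) (nat_lit 4824711561) (nat_lit 76) (nat_lit 65266974464) (nat_lit 76) (nat_lit 51770116305) (nat_lit 2) (nat_lit 4) (nat_lit 3) (nat_lit 5) (nat_lit 3) (nat_lit 4) (nat_lit 333) (nat_lit 219) (nat_lit 168))) (XT.nd (nat_lit 33228) (nat_lit 0) (nat_lit 2584) (XT.lf (nat_lit 0) (nat_lit 21933411603) (nat_lit 76) (nat_lit 62877276135) (nat_lit 76) (nat_lit 49266765580) (nat_lit 2) (nat_lit 4) (nat_lit 3) (nat_lit 5) (nat_lit 3) (nat_lit 4) (nat_lit 335) (nat_lit 219) (nat_lit 166)) (XT.nd (nat_lit 78) (nat_lit 152) (nat_lit 0) (XT.lf (nat_lit 0) (nat_lit 1381496740)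 (nat_lit 228) (nat_lit 3611554077) (nat_lit 0) (nat_lit 1381496740) (nat_lit 38) (nat_lit 5) (nat_lit 41) (nat_lit 4) (nat_lit 38) (nat_lit 4) (nat_lit 280) (nat_lit 220) (nat_lit 220)) (XT.lf (nat_lit 0) (nat_lit 4372132269) (nat_lit 152) (nat_lit 4873740213) (nat_lit 152) (nat_lit 3913471876) (nat_lit 36) (nat_lit 4) (nat_lit 38) (nat_lit 5) (nat_lit 38) (nat_lit 4) (nat_lit 281) (nat_lit 220) (nat_lit 219))))) (XT.nd (nat_lit 234) (nat_lit 456) (nat_lit 0) (XT.nd (nat_lit 78) (nat_lit 228) (nat_lit 0) (XT.lf (nat_lit 0) (nat_lit 2284433513) (nat_lit 228) (nat_lit 10844843510) (nat_lit 0) (nat_lit 464230008) (nat_lit 33) (nat_lit 5) (nat_lit 36) (nat_lit 4) (nat_lit 33) (nat_lit 4) (nat_lit 282) (nat_lit 220) (nat_lit 218)) (XT.nd (nat_lit 78) (nat_lit 76) (nat_lit 0) (XT.lf (nat_lit 0) (nat_lit 538469446) (nat_lit 152) (nat_lit 8089137899) (nat_lit 152) (nat_lit 5423311395) (nat_lit 31)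 (nat_lit 4) (nat_lit 33) (nat_lit 5) (nat_lit 33) (nat_lit 4) (nat_lit 283) (nat_lit 220) (nat_lit 217)) (XT.lf (nat_lit 0) (nat_lit 629572504) (nat_lit 228) (nat_lit 2193149557) (nat_lit 76) (nat_lit 11711810835) (nat_lit 30) (nat_lit 5) (nat_lit 33) (nat_lit 5) (nat_lit 31) (nat_lit 4) (nat_lit 284) (nat_lit 220) (nat_lit 216)))) (XT.nd (nat_lit 78) (nat_lit 304) (nat_lit 0) (XT.lf (nat_lit 0) (nat_lit 6776643366) (nat_lit 228) (nat_lit 5605233003) (nat_lit 0) (nat_lit 2661898969) (nat_lit 28) (nat_lit 5) (nat_lit 31) (nat_lit 4) (nat_lit 28) (nat_lit 4) (nat_lit 285) (nat_lit 220) (nat_lit 215)) (XT.nd (nat_lit 78) (nat_lit 152) (nat_lit 0) (XT.lf (nat_lit 0) (nat_lit 5853875165) (nat_lit 152) (nat_lit 7275877463) (nat_lit 152) (nat_lit 2451928269) (nat_lit 26) (nat_lit 4) (nat_lit 28) (nat_lit 5) (nat_lit 28) (nat_lit 4) (nat_lit 286) (nat_lit 220) (nat_lit 214)) (XT.lf (nat_lit 0) (nat_lit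 1506390933) (nat_lit 76) (nat_lit 1944728902) (nat_lit 152) (nat_lit 12698405895) (nat_lit 24) (nat_lit 5) (nat_lit 25) (nat_lit 5) (nat_lit 26) (nat_lit 4) (nat_lit 287) (nat_lit 220) (nat_lit 213))))))))
noncomputable def xc17 : XT := (XT.nd (nat_lit 1716) (nat_lit 304) (nat_lit 0) (XT.nd (nat_lit 858) (nat_lit 380) (nat_lit 0) (XT.nd (nat_lit 390) (nat_lit 456) (nat_lit 0) (XT.nd (nat_lit 156) (nat_lit 304) (nat_lit 0) (XT.nd (nat_lit 78) (nat_lit 152) (nat_lit 0) (XT.lf (nat_lit 0) (nat_lit 9536141737) (nat_lit 152) (nat_lit 3638507155) (nat_lit 0) (nat_lit 3572401940) (nat_lit 24) (nat_lit 5) (nat_lit 26) (nat_lit 4) (nat_lit 24) (nat_lit 4) (nat_lit 288) (nat_lit 220) (nat_lit 212)) (XT.lf (nat_lit 0) (nat_lit 7723168703) (nat_lit 152) (nat_lit 8106413840) (nat_lit 152) (nat_lit 1547880093) (nat_lit 22) (nat_lit 4) (nat_lit 24) (nat_lit 5) (nat_lit 24) (nat_lit 4) (nat_lit 289) (nat_lit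 220) (nat_lit 211))) (XT.nd (nat_lit 78) (nat_lit 152) (nat_lit 0) (XT.lf (nat_lit 0) (nat_lit 1355709484) (nat_lit 76) (nat_lit 2821981973) (nat_lit 152) (nat_lit 13864603936) (nat_lit 20) (nat_lit 5) (nat_lit 21) (nat_lit 5) (nat_lit 22) (nat_lit 4) (nat_lit 290) (nat_lit 220) (nat_lit 210)) (XT.nd (nat_lit 78) (nat_lit 152) (nat_lit 0) (XT.lf (nat_lit 0) (nat_lit 10103378372) (nat_lit 152) (nat_lit 5976159068) (nat_lit 0) (nat_lit 2662116408) (nat_lit 20) (nat_lit 5) (nat_lit 22) (nat_lit 4) (nat_lit 20) (nat_lit 4) (nat_lit 291) (nat_lit 220) (nat_lit 209)) (XT.lf (nat_lit 0) (nat_lit 5040704053) (nat_lit 152) (nat_lit 11189177980) (nat_lit 152) (nat_lit 3249075845) (nat_lit 18) (nat_lit 4) (nat_lit 20) (nat_lit 5) (nat_lit 20) (nat_lit 4) (nat_lit 292) (nat_lit 220) (nat_lit 208))))) (XT.nd (nat_lit 234) (nat_lit 304) (nat_lit 0) (XT.nd (nat_lit 78) (nat_lit 76) (nat_lit 0) (XT.lf (nat_lit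 0) (nat_lit 2255946490) (nat_lit 228) (nat_lit 3835616637) (nat_lit 76) (nat_lit 14164172702) (nat_lit 17) (nat_lit 5) (nat_lit 20) (nat_lit 5) (nat_lit 18) (nat_lit 4) (nat_lit 293) (nat_lit 220) (nat_lit 207)) (XT.nd (nat_lit 78) (nat_lit 0) (nat_lit 0) (XT.lf (nat_lit 0) (nat_lit 7123498975) (nat_lit 76) (nat_lit 753914684) (nat_lit 152) (nat_lit 13195822317) (nat_lit 16) (nat_lit 5) (nat_lit 17) (nat_lit 5) (nat_lit 18) (nat_lit 4) (nat_lit 294) (nat_lit 220) (nat_lit 206)) (XT.lf (nat_lit 0) (nat_lit 13709669067) (nat_lit 152) (nat_lit 3542212430) (nat_lit 0) (nat_lit 4681933483) (nat_lit 16) (nat_lit 5) (nat_lit 18) (nat_lit 4) (nat_lit 16) (nat_lit 4) (nat_lit 295) (nat_lit 220) (nat_lit 205)))) (XT.nd (nat_lit 78) (nat_lit 152) (nat_lit 0) (XT.lf (nat_lit 0) (nat_lit 7257322787) (nat_lit 152) (nat_lit 12504264361) (nat_lit 152) (nat_lit 3078085045) (nat_lit 14) (nat_lit 4) (nat_lit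 16) (nat_lit 5) (nat_lit 16) (nat_lit 4) (nat_lit 296) (nat_lit 220) (nat_lit 204)) (XT.nd (nat_lit 78) (nat_lit 76) (nat_lit 0) (XT.lf (nat_lit 0) (nat_lit 2170551634) (nat_lit 228) (nat_lit 5399429719) (nat_lit 76) (nat_lit 16223534851) (nat_lit 13) (nat_lit 5) (nat_lit 16) (nat_lit 5) (nat_lit 14) (nat_lit 4) (nat_lit 297) (nat_lit 220) (nat_lit 203)) (XT.lf (nat_lit 0) (nat_lit 5115829762) (nat_lit 76) (nat_lit 2412682311) (nat_lit 152) (nat_lit 17268389438) (nat_lit 12) (nat_lit 5) (nat_lit 13) (nat_lit 5) (nat_lit 14) (nat_lit 4) (nat_lit 298) (nat_lit 220) (nat_lit 202)))))) (XT.nd (nat_lit 390) (nat_lit 152) (nat_lit 0) (XT.nd (nat_lit 156) (nat_lit 152) (nat_lit 0) (XT.nd (nat_lit 78) (nat_lit 76) (nat_lit 0) (XT.lf (nat_lit 0) (nat_lit 13103488284) (nat_lit 152) (nat_lit 9850169889) (nat_lit 0) (nat_lit 2898400493) (nat_lit 12) (nat_lit 5) (nat_lit 14) (nat_lit 4) (nat_lit 12) (nat_lit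 4) (nat_lit 299) (nat_lit 220) (nat_lit 201)) (XT.lf (nat_lit 0) (nat_lit 222113139) (nat_lit 76) (nat_lit 18632180729) (nat_lit 76) (nat_lit 8108839885) (nat_lit 11) (nat_lit 4) (nat_lit 12) (nat_lit 5) (nat_lit 12) (nat_lit 4) (nat_lit 300) (nat_lit 220) (nat_lit 200))) (XT.nd (nat_lit 78) (nat_lit 152) (nat_lit 0) (XT.lf (nat_lit 0) (nat_lit 10780300632) (nat_lit 76) (nat_lit 14088344908) (nat_lit 76) (nat_lit 3261905918) (nat_lit 11) (nat_lit 4) (nat_lit 12) (nat_lit 5) (nat_lit 12) (nat_lit 4) (nat_lit 301) (nat_lit 220) (nat_lit 199)) (XT.nd (nat_lit 78) (nat_lit 76) (nat_lit 0) (XT.lf (nat_lit 0) (nat_lit 1671047316) (nat_lit 152) (nat_lit 7722877838) (nat_lit 76) (nat_lit 19965571820) (nat_lit 10) (nat_lit 5) (nat_lit 12) (nat_lit 5) (nat_lit 11) (nat_lit 4) (nat_lit 302) (nat_lit 220) (nat_lit 198)) (XT.lf (nat_lit 0) (nat_lit 2190572800) (nat_lit 76) (nat_lit 4499375792) (nat_lit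 152) (nat_lit 23961830238) (nat_lit 9) (nat_lit 5) (nat_lit 10) (nat_lit 5) (nat_lit 11) (nat_lit 4) (nat_lit 303) (nat_lit 220) (nat_lit 197))))) (XT.nd (nat_lit 234) (nat_lit 152) (nat_lit 0) (XT.nd (nat_lit 78) (nat_lit 0) (nat_lit 0) (XT.lf (nat_lit 0) (nat_lit 11934023459) (nat_lit 152) (nat_lit 19453935043) (nat_lit 0) (nat_lit 621547324) (nat_lit 9) (nat_lit 5) (nat_lit 11) (nat_lit 4) (nat_lit 9) (nat_lit 4) (nat_lit 304) (nat_lit 220) (nat_lit 196)) (XT.nd (nat_lit 78) (nat_lit 0) (nat_lit 0) (XT.lf (nat_lit 0) (nat_lit 17378848748) (nat_lit 152) (nat_lit 10233893245) (nat_lit 0) (nat_lit 5824275921) (nat_lit 9) (nat_lit 5) (nat_lit 11) (nat_lit 4) (nat_lit 9) (nat_lit 4) (nat_lit 305) (nat_lit 220) (nat_lit 195)) (XT.lf (nat_lit 0) (nat_lit 22994137580) (nat_lit 152) (nat_lit 735877406) (nat_lit 0) (nat_lit 11208996472) (nat_lit 9) (nat_lit 5) (nat_lit 11) (nat_lit 4) (nat_lit 9)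 (nat_lit 4) (nat_lit 306) (nat_lit 220) (nat_lit 194)))) (XT.nd (nat_lit 78) (nat_lit 76) (nat_lit 0) (XT.lf (nat_lit 0) (nat_lit 9243092832) (nat_lit 76) (nat_lit 19639017118) (nat_lit 76) (nat_lit 7634287172) (nat_lit 8) (nat_lit 4) (nat_lit 9) (nat_lit 5) (nat_lit 9) (nat_lit 4) (nat_lit 307) (nat_lit 220) (nat_lit 193)) (XT.nd (nat_lit 78) (nat_lit 76) (nat_lit 0) (XT.lf (nat_lit 0) (nat_lit 19567073461) (nat_lit 76) (nat_lit 15411039725) (nat_lit 76) (nat_lit 3197177553) (nat_lit 8) (nat_lit 4) (nat_lit 9) (nat_lit 5) (nat_lit 9) (nat_lit 4) (nat_lit 308) (nat_lit 220) (nat_lit 192)) (XT.lf (nat_lit 0) (nat_lit 1342863000) (nat_lit 152) (nat_lit 9687023829) (nat_lit 76) (nat_lit 28889576699) (nat_lit 7) (nat_lit 5) (nat_lit 9) (nat_lit 5) (nat_lit 8) (nat_lit 4) (nat_lit 309) (nat_lit 220) (nat_lit 191))))))) (XT.nd (nat_lit 858) (nat_lit 152) (nat_lit 0) (XT.nd (nat_lit 390) (nat_lit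 76) (nat_lit 0) (XT.nd (nat_lit 156) (nat_lit 0) (nat_lit 0) (XT.nd (nat_lit 78) (nat_lit 76) (nat_lit 0) (XT.lf (nat_lit 0) (nat_lit 5958302656) (nat_lit 152) (nat_lit 507370422) (nat_lit 76) (nat_lit 35286828583) (nat_lit 7) (nat_lit 5) (nat_lit 9) (nat_lit 5) (nat_lit 8) (nat_lit 4) (nat_lit 310) (nat_lit 220) (nat_lit 190)) (XT.lf (nat_lit 0) (nat_lit 9162118418) (nat_lit 76) (nat_lit 1648472475) (nat_lit 152) (nat_lit 32866458460) (nat_lit 6) (nat_lit 5) (nat_lit 7) (nat_lit 5) (nat_lit 8) (nat_lit 4) (nat_lit 311) (nat_lit 220) (nat_lit 189))) (XT.nd (nat_lit 78) (nat_lit 0) (nat_lit 0) (XT.lf (nat_lit 0) (nat_lit 15863453890) (nat_lit 152) (nat_lit 26550307826) (nat_lit 0) (nat_lit 3285361952) (nat_lit 6) (nat_lit 5) (nat_lit 8) (nat_lit 4) (nat_lit 6) (nat_lit 4) (nat_lit 312) (nat_lit 220) (nat_lit 188)) (XT.nd (nat_lit 78) (nat_lit 0) (nat_lit 0) (XT.lf (nat_lit 0) (nat_lit 21109322905)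 (nat_lit 152) (nat_lit 18342661110) (nat_lit 0) (nat_lit 8372143033) (nat_lit 6) (nat_lit 5) (nat_lit 8) (nat_lit 4) (nat_lit 6) (nat_lit 4) (nat_lit 313) (nat_lit 220) (nat_lit 187)) (XT.lf (nat_lit 0) (nat_lit 26544841977) (nat_lit 152) (nat_lit 9856602648) (nat_lit 0) (nat_lit 13656149787) (nat_lit 6) (nat_lit 5) (nat_lit 8) (nat_lit 4) (nat_lit 6) (nat_lit 4) (nat_lit 314) (nat_lit 220) (nat_lit 186))))) (XT.nd (nat_lit 234) (nat_lit 0) (nat_lit 0) (XT.nd (nat_lit 78) (nat_lit 76) (nat_lit 0) (XT.lf (nat_lit 0) (nat_lit 32182952817) (nat_lit 152) (nat_lit 1071927538) (nat_lit 0) (nat_lit 19149963182) (nat_lit 6) (nat_lit 5) (nat_lit 8) (nat_lit 4) (nat_lit 6) (nat_lit 4) (nat_lit 315) (nat_lit 220) (nat_lit 185)) (XT.nd (nat_lit 78) (nat_lit 0) (nat_lit 0) (XT.lf (nat_lit 0) (nat_lit 8192138237) (nat_lit 76) (nat_lit 29923689106) (nat_lit 76) (nat_lit 16753273332) (nat_lit 5) (nat_lit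 4) (nat_lit 6) (nat_lit 5) (nat_lit 6) (nat_lit 4) (nat_lit 316) (nat_lit 220) (nat_lit 184)) (XT.lf (nat_lit 0) (nat_lit 17825537431) (nat_lit 76) (nat_lit 26466972960) (nat_lit 76) (nat_lit 13165675149) (nat_lit 5) (nat_lit 4) (nat_lit 6) (nat_lit 5) (nat_lit 6) (nat_lit 4) (nat_lit 317) (nat_lit 220) (nat_lit 183)))) (XT.nd (nat_lit 78) (nat_lit 0) (nat_lit 0) (XT.lf (nat_lit 0) (nat_lit 27829873249) (nat_lit 76) (nat_lit 22887326005) (nat_lit 76) (nat_lit 9461378635) (nat_lit 5) (nat_lit 4) (nat_lit 6) (nat_lit 5) (nat_lit 6) (nat_lit 4) (nat_lit 318) (nat_lit 220) (nat_lit 182)) (XT.nd (nat_lit 78) (nat_lit 0) (nat_lit 0) (XT.lf (nat_lit 0) (nat_lit 38228965538) (nat_lit 76) (nat_lit 19176225274) (nat_lit 76) (nat_lit 5631564038) (nat_lit 5) (nat_lit 4) (nat_lit 6) (nat_lit 5) (nat_lit 6) (nat_lit 4) (nat_lit 319) (nat_lit 220) (nat_lit 181)) (XT.lf (nat_lit 0) (nat_lit 49047574041)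 (nat_lit 76) (nat_lit 15324834811) (nat_lit 76) (nat_lit 1667112752) (nat_lit 5) (nat_lit 4) (nat_lit 6) (nat_lit 5) (nat_lit 6) (nat_lit 4) (nat_lit 320) (nat_lit 220) (nat_lit 180)))))) (XT.nd (nat_lit 390) (nat_lit 0) (nat_lit 0) (XT.nd (nat_lit 156) (nat_lit 76) (nat_lit 0) (XT.nd (nat_lit 78) (nat_lit 0) (nat_lit 0) (XT.lf (nat_lit 0) (nat_lit 2393773605) (nat_lit 152) (nat_lit 8906038615) (nat_lit 76) (nat_lit 57893511325) (nat_lit 4) (nat_lit 5) (nat_lit 6) (nat_lit 5) (nat_lit 5) (nat_lit 4) (nat_lit 321) (nat_lit 220) (nat_lit 179)) (XT.lf (nat_lit 0) (nat_lit 6572984331) (nat_lit 152) (nat_lit 524790343) (nat_lit 76) (nat_lit 65408075651) (nat_lit 4) (nat_lit 5) (nat_lit 6) (nat_lit 5) (nat_lit 5) (nat_lit 4) (nat_lit 322) (nat_lit 220) (nat_lit 178))) (XT.nd (nat_lit 78) (nat_lit 0) (nat_lit 0) (XT.lf (nat_lit 0) (nat_lit 8350730746) (nat_lit 76) (nat_lit 2642542885) (nat_lit 152)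 (nat_lit 64989787869) (nat_lit 3) (nat_lit 5) (nat_lit 4) (nat_lit 5) (nat_lit 5) (nat_lit 4) (nat_lit 323) (nat_lit 220) (nat_lit 177)) (XT.nd (nat_lit 78) (nat_lit 0) (nat_lit 0) (XT.lf (nat_lit 0) (nat_lit 15612548111) (nat_lit 152) (nat_lit 62058873943) (nat_lit 0) (nat_lit 1963392629) (nat_lit 3) (nat_lit 5) (nat_lit 5) (nat_lit 4) (nat_lit 3) (nat_lit 4) (nat_lit 324) (nat_lit 220) (nat_lit 176)) (XT.lf (nat_lit 0) (nat_lit 20444647641) (nat_lit 152) (nat_lit 56315585411) (nat_lit 0) (nat_lit 6709486223) (nat_lit 3) (nat_lit 5) (nat_lit 5) (nat_lit 4) (nat_lit 3) (nat_lit 4) (nat_lit 325) (nat_lit 220) (nat_lit 175))))) (XT.nd (nat_lit 234) (nat_lit 0) (nat_lit 0) (XT.nd (nat_lit 78) (nat_lit 0) (nat_lit 0) (XT.lf (nat_lit 0) (nat_lit 25475675482) (nat_lit 152) (nat_lit 50363388923) (nat_lit 0) (nat_lit 11658603648) (nat_lit 3) (nat_lit 5) (nat_lit 5) (nat_lit 4) (nat_lit 3) (nat_lit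 4) (nat_lit 326) (nat_lit 220) (nat_lit 174)) (XT.nd (nat_lit 78) (nat_lit 0) (nat_lit 0) (XT.lf (nat_lit 0) (nat_lit 30717610272) (nat_lit 152) (nat_lit 44188112583) (nat_lit 0) (nat_lit 16822528519) (nat_lit 3) (nat_lit 5) (nat_lit 5) (nat_lit 4) (nat_lit 3) (nat_lit 4) (nat_lit 327) (nat_lit 220) (nat_lit 173)) (XT.lf (nat_lit 0) (nat_lit 36182932808) (nat_lit 152) (nat_lit 37775053352) (nat_lit 0) (nat_lit 22213555893) (nat_lit 3) (nat_lit 5) (nat_lit 5) (nat_lit 4) (nat_lit 3) (nat_lit 4) (nat_lit 328) (nat_lit 220) (nat_lit 172)))) (XT.nd (nat_lit 78) (nat_lit 0) (nat_lit 0) (XT.lf (nat_lit 0) (nat_lit 41884655762) (nat_lit 152) (nat_lit 31108942041) (nat_lit 0) (nat_lit 27844521550) (nat_lit 3) (nat_lit 5) (nat_lit 5) (nat_lit 4) (nat_lit 3) (nat_lit 4) (nat_lit 329) (nat_lit 220) (nat_lit 171)) (XT.nd (nat_lit 78) (nat_lit 0) (nat_lit 0) (XT.lf (nat_lit 0) (nat_lit 47836354665) (nat_lit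 152) (nat_lit 24173906957) (nat_lit 0) (nat_lit 33728832552) (nat_lit 3) (nat_lit 5) (nat_lit 5) (nat_lit 4) (nat_lit 3) (nat_lit 4) (nat_lit 330) (nat_lit 220) (nat_lit 170)) (XT.lf (nat_lit 0) (nat_lit 54052200230) (nat_lit 152) (nat_lit 16953436112) (nat_lit 0) (nat_lit 39880499163) (nat_lit 3) (nat_lit 5) (nat_lit 5) (nat_lit 4) (nat_lit 3) (nat_lit 4) (nat_lit 331) (nat_lit 220) (nat_lit 169))))))))
noncomputable def xc18 : XT := (XT.nd (nat_lit 34788) (nat_lit 0) (nat_lit 228) (XT.nd (nat_lit 33930) (nat_lit 0) (nat_lit 912) (XT.nd (nat_lit 33462) (nat_lit 0) (nat_lit 1976) (XT.nd (nat_lit 234) (nat_lit 76) (nat_lit 0) (XT.nd (nat_lit 78) (nat_lit 0) (nat_lit 0) (XT.lf (nat_lit 0) (nat_lit 60546992088) (nat_lit 152) (nat_lit 9430337907) (nat_lit 0) (nat_lit 46314168208) (nat_lit 3) (nat_lit 5) (nat_lit 5) (nat_lit 4) (nat_lit 3) (nat_lit 4) (nat_lit 332) (nat_lit 220) (nat_lit 168))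 (XT.lf (nat_lit 0) (nat_lit 67336194029) (nat_lit 152) (nat_lit 1586700205) (nat_lit 0) (nat_lit 53045157946) (nat_lit 3) (nat_lit 5) (nat_lit 5) (nat_lit 4) (nat_lit 3) (nat_lit 4) (nat_lit 333) (nat_lit 220) (nat_lit 167))) (XT.nd (nat_lit 33072) (nat_lit 0) (nat_lit 2964) (XT.lf (nat_lit 0) (nat_lit 15438972621) (nat_lit 76) (nat_lit 66572662920) (nat_lit 76) (nat_lit 52173386460) (nat_lit 2) (nat_lit 4) (nat_lit 3) (nat_lit 5) (nat_lit 3) (nat_lit 4) (nat_lit 335) (nat_lit 220) (nat_lit 165)) (XT.nd (nat_lit 78) (nat_lit 228) (nat_lit 0) (XT.lf (nat_lit 0) (nat_lit 1678356488) (nat_lit 228) (nat_lit 2638158290) (nat_lit 0) (nat_lit 1678356488) (nat_lit 44) (nat_lit 5) (nat_lit 47) (nat_lit 4) (nat_lit 44) (nat_lit 4) (nat_lit 278) (nat_lit 221) (nat_lit 221)) (XT.lf (nat_lit 0) (nat_lit 6226969471) (nat_lit 228) (nat_lit 3586132882) (nat_lit 228) (nat_lit 2547602675) (nat_lit 41) (nat_lit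 4) (nat_lit 44) (nat_lit 5) (nat_lit 44) (nat_lit 4) (nat_lit 279) (nat_lit 221) (nat_lit 220))))) (XT.nd (nat_lit 234) (nat_lit 380) (nat_lit 0) (XT.nd (nat_lit 78) (nat_lit 380) (nat_lit 0) (XT.lf (nat_lit 0) (nat_lit 3653356146) (nat_lit 228) (nat_lit 7414577184) (nat_lit 0) (nat_lit 1684806055) (nat_lit 38) (nat_lit 5) (nat_lit 41) (nat_lit 4) (nat_lit 38) (nat_lit 4) (nat_lit 280) (nat_lit 221) (nat_lit 219)) (XT.nd (nat_lit 78) (nat_lit 228) (nat_lit 0) (XT.lf (nat_lit 0) (nat_lit 3990872024) (nat_lit 152) (nat_lit 6029394324) (nat_lit 152) (nat_lit 3146302960) (nat_lit 36) (nat_lit 4) (nat_lit 38) (nat_lit 5) (nat_lit 38) (nat_lit 4) (nat_lit 281) (nat_lit 221) (nat_lit 218)) (XT.lf (nat_lit 0) (nat_lit 2166638597) (nat_lit 152) (nat_lit 749973053) (nat_lit 228) (nat_lit 10687593670) (nat_lit 33) (nat_lit 5) (nat_lit 35) (nat_lit 5) (nat_lit 36) (nat_lit 4) (nat_lit 282) (nat_lit 221)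 (nat_lit 217)))) (XT.nd (nat_lit 78) (nat_lit 380) (nat_lit 0) (XT.lf (nat_lit 0) (nat_lit 9140472083) (nat_lit 228) (nat_lit 234437815) (nat_lit 0) (nat_lit 4690376017) (nat_lit 33) (nat_lit 5) (nat_lit 36) (nat_lit 4) (nat_lit 33) (nat_lit 4) (nat_lit 283) (nat_lit 221) (nat_lit 216)) (XT.nd (nat_lit 78) (nat_lit 152) (nat_lit 0) (XT.lf (nat_lit 0) (nat_lit 1011425341) (nat_lit 228) (nat_lit 3163907609) (nat_lit 76) (nat_lit 10376713622) (nat_lit 30) (nat_lit 5) (nat_lit 33) (nat_lit 5) (nat_lit 31) (nat_lit 4) (nat_lit 284) (nat_lit 221) (nat_lit 215)) (XT.lf (nat_lit 0) (nat_lit 7033991561) (nat_lit 228) (nat_lit 6771471283) (nat_lit 0) (nat_lit 1259640110) (nat_lit 28) (nat_lit 5) (nat_lit 31) (nat_lit 4) (nat_lit 28) (nat_lit 4) (nat_lit 285) (nat_lit 221) (nat_lit 214)))))) (XT.nd (nat_lit 390) (nat_lit 532) (nat_lit 0) (XT.nd (nat_lit 156) (nat_lit 304) (nat_lit 0) (XT.nd (nat_lit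 78) (nat_lit 76) (nat_lit 0) (XT.lf (nat_lit 0) (nat_lit 4497883849) (nat_lit 152) (nat_lit 8779143257) (nat_lit 152) (nat_lit 2329358667) (nat_lit 26) (nat_lit 4) (nat_lit 28) (nat_lit 5) (nat_lit 28) (nat_lit 4) (nat_lit 286) (nat_lit 221) (nat_lit 213)) (XT.lf (nat_lit 0) (nat_lit 3461874240) (nat_lit 228) (nat_lit 65449538) (nat_lit 76) (nat_lit 12650223576) (nat_lit 25) (nat_lit 5) (nat_lit 28) (nat_lit 5) (nat_lit 26) (nat_lit 4) (nat_lit 287) (nat_lit 221) (nat_lit 212))) (XT.nd (nat_lit 78) (nat_lit 228) (nat_lit 0) (XT.lf (nat_lit 0) (nat_lit 9438498363) (nat_lit 152) (nat_lit 5382648138) (nat_lit 0) (nat_lit 1957243978) (nat_lit 24) (nat_lit 5) (nat_lit 26) (nat_lit 4) (nat_lit 24) (nat_lit 4) (nat_lit 288) (nat_lit 221) (nat_lit 211)) (XT.nd (nat_lit 78) (nat_lit 76) (nat_lit 0) (XT.lf (nat_lit 0) (nat_lit 5790673701) (nat_lit 152) (nat_lit 9834558768) (nat_lit 152) (nat_lit 1786833955)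 (nat_lit 22) (nat_lit 4) (nat_lit 24) (nat_lit 5) (nat_lit 24) (nat_lit 4) (nat_lit 289) (nat_lit 221) (nat_lit 210)) (XT.lf (nat_lit 0) (nat_lit 3844124545) (nat_lit 228) (nat_lit 783647631) (nat_lit 76) (nat_lit 13452232389) (nat_lit 21) (nat_lit 5) (nat_lit 24) (nat_lit 5) (nat_lit 22) (nat_lit 4) (nat_lit 290) (nat_lit 221) (nat_lit 209))))) (XT.nd (nat_lit 234) (nat_lit 228) (nat_lit 0) (XT.nd (nat_lit 78) (nat_lit 228) (nat_lit 0) (XT.lf (nat_lit 0) (nat_lit 9660594272) (nat_lit 152) (nat_lit 8297453833) (nat_lit 0) (nat_lit 824646858) (nat_lit 20) (nat_lit 5) (nat_lit 22) (nat_lit 4) (nat_lit 20) (nat_lit 4) (nat_lit 291) (nat_lit 221) (nat_lit 208)) (XT.nd (nat_lit 78) (nat_lit 76) (nat_lit 0) (XT.lf (nat_lit 0) (nat_lit 2531555044) (nat_lit 152) (nat_lit 13151328235) (nat_lit 152) (nat_lit 3840294942) (nat_lit 18) (nat_lit 4) (nat_lit 20) (nat_lit 5) (nat_lit 20) (nat_lit 4) (nat_lit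 292) (nat_lit 221) (nat_lit 207)) (XT.lf (nat_lit 0) (nat_lit 1597868850) (nat_lit 228) (nat_lit 6519822267) (nat_lit 76) (nat_lit 12184836219) (nat_lit 17) (nat_lit 5) (nat_lit 20) (nat_lit 5) (nat_lit 18) (nat_lit 4) (nat_lit 293) (nat_lit 221) (nat_lit 206)))) (XT.nd (nat_lit 78) (nat_lit 152) (nat_lit 0) (XT.lf (nat_lit 0) (nat_lit 4253266255) (nat_lit 76) (nat_lit 2863817087) (nat_lit 152) (nat_lit 14006058207) (nat_lit 16) (nat_lit 5) (nat_lit 17) (nat_lit 5) (nat_lit 18) (nat_lit 4) (nat_lit 294) (nat_lit 221) (nat_lit 205)) (XT.nd (nat_lit 78) (nat_lit 152) (nat_lit 0) (XT.lf (nat_lit 0) (nat_lit 12856217386) (nat_lit 152) (nat_lit 6570055706) (nat_lit 0) (nat_lit 2560285372) (nat_lit 16) (nat_lit 5) (nat_lit 18) (nat_lit 4) (nat_lit 16) (nat_lit 4) (nat_lit 295) (nat_lit 221) (nat_lit 204)) (XT.lf (nat_lit 0) (nat_lit 4044901548) (nat_lit 152) (nat_lit 14762983028) (nat_lit 152)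 (nat_lit 4087580792) (nat_lit 14) (nat_lit 4) (nat_lit 16) (nat_lit 5) (nat_lit 16) (nat_lit 4) (nat_lit 296) (nat_lit 221) (nat_lit 203))))))) (XT.nd (nat_lit 858) (nat_lit 228) (nat_lit 0) (XT.nd (nat_lit 390) (nat_lit 228) (nat_lit 0) (XT.nd (nat_lit 156) (nat_lit 76) (nat_lit 0) (XT.nd (nat_lit 78) (nat_lit 76) (nat_lit 0) (XT.lf (nat_lit 0) (nat_lit 1112844147) (nat_lit 228) (nat_lit 8777728826) (nat_lit 76) (nat_lit 13961103827) (nat_lit 13) (nat_lit 5) (nat_lit 16) (nat_lit 5) (nat_lit 14) (nat_lit 4) (nat_lit 297) (nat_lit 221) (nat_lit 202)) (XT.lf (nat_lit 0) (nat_lit 1553941011) (nat_lit 76) (nat_lit 4817947724) (nat_lit 152) (nat_lit 18486177977) (nat_lit 12) (nat_lit 5) (nat_lit 13) (nat_lit 5) (nat_lit 14) (nat_lit 4) (nat_lit 298) (nat_lit 221) (nat_lit 201))) (XT.nd (nat_lit 78) (nat_lit 76) (nat_lit 0) (XT.lf (nat_lit 0) (nat_lit 11860619034) (nat_lit 152) (nat_lit 13562369478)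 (nat_lit 0) (nat_lit 492858094) (nat_lit 12) (nat_lit 5) (nat_lit 14) (nat_lit 4) (nat_lit 12) (nat_lit 4) (nat_lit 299) (nat_lit 221) (nat_lit 200)) (XT.nd (nat_lit 78) (nat_lit 76) (nat_lit 0) (XT.lf (nat_lit 0) (nat_lit 17549170454) (nat_lit 152) (nat_lit 3601341172) (nat_lit 0) (nat_lit 5878311369) (nat_lit 12) (nat_lit 5) (nat_lit 14) (nat_lit 4) (nat_lit 12) (nat_lit 4) (nat_lit 300) (nat_lit 221) (nat_lit 199)) (XT.lf (nat_lit 0) (nat_lit 6781316929) (nat_lit 76) (nat_lit 16688643344) (nat_lit 76) (nat_lit 4729119358) (nat_lit 11) (nat_lit 4) (nat_lit 12) (nat_lit 5) (nat_lit 12) (nat_lit 4) (nat_lit 301) (nat_lit 221) (nat_lit 198))))) (XT.nd (nat_lit 234) (nat_lit 76) (nat_lit 0) (XT.nd (nat_lit 78) (nat_lit 76) (nat_lit 0) (XT.lf (nat_lit 0) (nat_lit 176404673) (nat_lit 152) (nat_lit 11876341452) (nat_lit 76) (nat_lit 17377413585) (nat_lit 10) (nat_lit 5) (nat_lit 12) (nat_lit 5)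 (nat_lit 11) (nat_lit 4) (nat_lit 302) (nat_lit 221) (nat_lit 197)) (XT.nd (nat_lit 78) (nat_lit 76) (nat_lit 0) (XT.lf (nat_lit 0) (nat_lit 5120858517) (nat_lit 152) (nat_lit 2100927722) (nat_lit 76) (nat_lit 23502916995) (nat_lit 10) (nat_lit 5) (nat_lit 12) (nat_lit 5) (nat_lit 11) (nat_lit 4) (nat_lit 303) (nat_lit 221) (nat_lit 196)) (XT.lf (nat_lit 0) (nat_lit 8135974640) (nat_lit 76) (nat_lit 2150530161) (nat_lit 152) (nat_lit 21798305185) (nat_lit 9) (nat_lit 5) (nat_lit 10) (nat_lit 5) (nat_lit 11) (nat_lit 4) (nat_lit 304) (nat_lit 221) (nat_lit 195)))) (XT.nd (nat_lit 78) (nat_lit 76) (nat_lit 0) (XT.lf (nat_lit 0) (nat_lit 15661010211) (nat_lit 152) (nat_lit 14797403312) (nat_lit 0) (nat_lit 3056043768) (nat_lit 9) (nat_lit 5) (nat_lit 11) (nat_lit 4) (nat_lit 9) (nat_lit 4) (nat_lit 305) (nat_lit 221) (nat_lit 194)) (XT.nd (nat_lit 78) (nat_lit 76) (nat_lit 0) (XT.lf (nat_lit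 0) (nat_lit 21229015547) (nat_lit 152) (nat_lit 5384417924) (nat_lit 0) (nat_lit 8404460266) (nat_lit 9) (nat_lit 5) (nat_lit 11) (nat_lit 4) (nat_lit 9) (nat_lit 4) (nat_lit 306) (nat_lit 221) (nat_lit 193)) (XT.lf (nat_lit 0) (nat_lit 4419444171) (nat_lit 76) (nat_lit 22606143984) (nat_lit 76) (nat_lit 9572456477) (nat_lit 8) (nat_lit 4) (nat_lit 9) (nat_lit 5) (nat_lit 9) (nat_lit 4) (nat_lit 307) (nat_lit 221) (nat_lit 192)))))) (XT.nd (nat_lit 390) (nat_lit 76) (nat_lit 0) (XT.nd (nat_lit 156) (nat_lit 152) (nat_lit 0) (XT.nd (nat_lit 78) (nat_lit 0) (nat_lit 0) (XT.lf (nat_lit 0) (nat_lit 14664764733) (nat_lit 76) (nat_lit 18413183006) (nat_lit 76) (nat_lit 5180321950) (nat_lit 8) (nat_lit 4) (nat_lit 9) (nat_lit 5) (nat_lit 9) (nat_lit 4) (nat_lit 308) (nat_lit 221) (nat_lit 191)) (XT.lf (nat_lit 0) (nat_lit 25268776905) (nat_lit 76) (nat_lit 14078939361) (nat_lit 76) (nat_lit 656389210)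 (nat_lit 8) (nat_lit 4) (nat_lit 9) (nat_lit 5) (nat_lit 9) (nat_lit 4) (nat_lit 309) (nat_lit 221) (nat_lit 190))) (XT.nd (nat_lit 78) (nat_lit 76) (nat_lit 0) (XT.lf (nat_lit 0) (nat_lit 3931861261) (nat_lit 152) (nat_lit 5621528071) (nat_lit 76) (nat_lit 32285162985) (nat_lit 7) (nat_lit 5) (nat_lit 9) (nat_lit 5) (nat_lit 8) (nat_lit 4) (nat_lit 310) (nat_lit 221) (nat_lit 189)) (XT.nd (nat_lit 78) (nat_lit 0) (nat_lit 0) (XT.lf (nat_lit 0) (nat_lit 3876085007) (nat_lit 76) (nat_lit 4819158854) (nat_lit 152) (nat_lit 35070541877) (nat_lit 6) (nat_lit 5) (nat_lit 7) (nat_lit 5) (nat_lit 8) (nat_lit 4) (nat_lit 311) (nat_lit 221) (nat_lit 188)) (XT.lf (nat_lit 0) (nat_lit 13680420689) (nat_lit 152) (nat_lit 31962193736) (nat_lit 0) (nat_lit 147293889) (nat_lit 6) (nat_lit 5) (nat_lit 8) (nat_lit 4) (nat_lit 6) (nat_lit 4) (nat_lit 312) (nat_lit 221) (nat_lit 187))))) (XT.nd (nat_lit 234)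 (nat_lit 76) (nat_lit 0) (XT.nd (nat_lit 78) (nat_lit 0) (nat_lit 0) (XT.lf (nat_lit 0) (nat_lit 18890853902) (nat_lit 152) (nat_lit 23818922917) (nat_lit 0) (nat_lit 5206214785) (nat_lit 6) (nat_lit 5) (nat_lit 8) (nat_lit 4) (nat_lit 6) (nat_lit 4) (nat_lit 313) (nat_lit 221) (nat_lit 186)) (XT.nd (nat_lit 78) (nat_lit 0) (nat_lit 0) (XT.lf (nat_lit 0) (nat_lit 24292624591) (nat_lit 152) (nat_lit 15394174833) (nat_lit 0) (nat_lit 10463688028) (nat_lit 6) (nat_lit 5) (nat_lit 8) (nat_lit 4) (nat_lit 6) (nat_lit 4) (nat_lit 314) (nat_lit 221) (nat_lit 185)) (XT.lf (nat_lit 0) (nat_lit 29898594114) (nat_lit 152) (nat_lit 6667890559) (nat_lit 0) (nat_lit 15932231412) (nat_lit 6) (nat_lit 5) (nat_lit 8) (nat_lit 4) (nat_lit 6) (nat_lit 4) (nat_lit 315) (nat_lit 221) (nat_lit 184)))) (XT.nd (nat_lit 78) (nat_lit 0) (nat_lit 0) (XT.lf (nat_lit 0) (nat_lit 2428087505) (nat_lit 76) (nat_lit 33317362775)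 (nat_lit 76) (nat_lit 19220118037) (nat_lit 5) (nat_lit 4) (nat_lit 6) (nat_lit 5) (nat_lit 6) (nat_lit 4) (nat_lit 316) (nat_lit 221) (nat_lit 183)) (XT.nd (nat_lit 78) (nat_lit 0) (nat_lit 0) (XT.lf (nat_lit 0) (nat_lit 12007470438) (nat_lit 76) (nat_lit 29884990531) (nat_lit 76) (nat_lit 15663096234) (nat_lit 5) (nat_lit 4) (nat_lit 6) (nat_lit 5) (nat_lit 6) (nat_lit 4) (nat_lit 317) (nat_lit 221) (nat_lit 182)) (XT.lf (nat_lit 0) (nat_lit 21960362197) (nat_lit 76) (nat_lit 26328528245) (nat_lit 76) (nat_lit 11987920082) (nat_lit 5) (nat_lit 4) (nat_lit 6) (nat_lit 5) (nat_lit 6) (nat_lit 4) (nat_lit 318) (nat_lit 221) (nat_lit 181))))))))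
noncomputable def xc19 : XT := (XT.nd (nat_lit 34710) (nat_lit 0) (nat_lit 456) (XT.nd (nat_lit 858) (nat_lit 0) (nat_lit 0) (XT.nd (nat_lit 390) (nat_lit 0) (nat_lit 0) (XT.nd (nat_lit 156) (nat_lit 152) (nat_lit 0) (XT.nd (nat_lit 78) (nat_lit 0) (nat_lit 0) (XT.lf (nat_lit 0) (nat_lit 32310460144) (nat_lit 76) (nat_lit 22639508151) (nat_lit 76) (nat_lit 8185839163) (nat_lit 5) (nat_lit 4) (nat_lit 6) (nat_lit 5) (nat_lit 6) (nat_lit 4) (nat_lit 319) (nat_lit 221) (nat_lit 180)) (XT.lf (nat_lit 0) (nat_lit 43082407370) (nat_lit 76) (nat_lit 18809146866) (nat_lit 76) (nat_lit 4247800903) (nat_lit 5) (nat_lit 4) (nat_lit 6) (nat_lit 5) (nat_lit 6) (nat_lit 4) (nat_lit 320) (nat_lit 221) (nat_lit 179))) (XT.nd (nat_lit 78) (nat_lit 152) (nat_lit 0) (XT.lf (nat_lit 0) (nat_lit 54301851367) (nat_lit 76) (nat_lit 14828324484) (nat_lit 76) (nat_lit 164429021) (nat_lit 5) (nat_lit 4) (nat_lit 6)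 (nat_lit 5) (nat_lit 6) (nat_lit 4) (nat_lit 321) (nat_lit 221) (nat_lit 178)) (XT.nd (nat_lit 78) (nat_lit 76) (nat_lit 0) (XT.lf (nat_lit 0) (nat_lit 3994500407) (nat_lit 152) (nat_lit 6652725826) (nat_lit 76) (nat_lit 61960668068) (nat_lit 4) (nat_lit 5) (nat_lit 6) (nat_lit 5) (nat_lit 5) (nat_lit 4) (nat_lit 322) (nat_lit 221) (nat_lit 177)) (XT.lf (nat_lit 0) (nat_lit 2059263034) (nat_lit 76) (nat_lit 6272677905) (nat_lit 152) (nat_lit 67755660035) (nat_lit 3) (nat_lit 5) (nat_lit 4) (nat_lit 5) (nat_lit 5) (nat_lit 4) (nat_lit 323) (nat_lit 221) (nat_lit 176))))) (XT.nd (nat_lit 234) (nat_lit 0) (nat_lit 0) (XT.nd (nat_lit 78) (nat_lit 0) (nat_lit 0) (XT.lf (nat_lit 0) (nat_lit 11264704875) (nat_lit 76) (nat_lit 1645574959) (nat_lit 152) (nat_lit 66830311947) (nat_lit 3) (nat_lit 5) (nat_lit 4) (nat_lit 5) (nat_lit 5) (nat_lit 4) (nat_lit 324) (nat_lit 221) (nat_lit 175)) (XT.nd (nat_lit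 78) (nat_lit 0) (nat_lit 0) (XT.lf (nat_lit 0) (nat_lit 17705743205) (nat_lit 152) (nat_lit 62754953989) (nat_lit 0) (nat_lit 3115907364) (nat_lit 3) (nat_lit 5) (nat_lit 5) (nat_lit 4) (nat_lit 3) (nat_lit 4) (nat_lit 325) (nat_lit 221) (nat_lit 174)) (XT.lf (nat_lit 0) (nat_lit 22716944489) (nat_lit 152) (nat_lit 56839113585) (nat_lit 0) (nat_lit 8049098728) (nat_lit 3) (nat_lit 5) (nat_lit 5) (nat_lit 4) (nat_lit 3) (nat_lit 4) (nat_lit 326) (nat_lit 221) (nat_lit 173)))) (XT.nd (nat_lit 78) (nat_lit 0) (nat_lit 0) (XT.lf (nat_lit 0) (nat_lit 27939996842) (nat_lit 152) (nat_lit 50698462087) (nat_lit 0) (nat_lit 13197855920) (nat_lit 3) (nat_lit 5) (nat_lit 5) (nat_lit 4) (nat_lit 3) (nat_lit 4) (nat_lit 327) (nat_lit 221) (nat_lit 172)) (XT.nd (nat_lit 78) (nat_lit 0) (nat_lit 0) (XT.lf (nat_lit 0) (nat_lit 33387336106) (nat_lit 152) (nat_lit 44318378896) (nat_lit 0) (nat_lit 18574437887)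 (nat_lit 3) (nat_lit 5) (nat_lit 5) (nat_lit 4) (nat_lit 3) (nat_lit 4) (nat_lit 328) (nat_lit 221) (nat_lit 171)) (XT.lf (nat_lit 0) (nat_lit 39071932134) (nat_lit 152) (nat_lit 37683673338) (nat_lit 0) (nat_lit 24191646014) (nat_lit 3) (nat_lit 5) (nat_lit 5) (nat_lit 4) (nat_lit 3) (nat_lit 4) (nat_lit 329) (nat_lit 221) (nat_lit 170)))))) (XT.nd (nat_lit 33384) (nat_lit 0) (nat_lit 2280) (XT.nd (nat_lit 156) (nat_lit 0) (nat_lit 0) (XT.nd (nat_lit 78) (nat_lit 0) (nat_lit 0) (XT.lf (nat_lit 0) (nat_lit 45007319679) (nat_lit 152) (nat_lit 30778548494) (nat_lit 0) (nat_lit 30062854605) (nat_lit 3) (nat_lit 5) (nat_lit 5) (nat_lit 4) (nat_lit 3) (nat_lit 4) (nat_lit 330) (nat_lit 221) (nat_lit 169)) (XT.lf (nat_lit 0) (nat_lit 51207630617) (nat_lit 152) (nat_lit 23586563591) (nat_lit 0) (nat_lit 36202042730) (nat_lit 3) (nat_lit 5) (nat_lit 5) (nat_lit 4) (nat_lit 3) (nat_lit 4) (nat_lit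 331) (nat_lit 221) (nat_lit 168))) (XT.nd (nat_lit 78) (nat_lit 0) (nat_lit 0) (XT.lf (nat_lit 0) (nat_lit 57687627592) (nat_lit 152) (nat_lit 16090594856) (nat_lit 0) (nat_lit 42623827502) (nat_lit 3) (nat_lit 5) (nat_lit 5) (nat_lit 4) (nat_lit 3) (nat_lit 4) (nat_lit 332) (nat_lit 221) (nat_lit 167)) (XT.nd (nat_lit 33072) (nat_lit 0) (nat_lit 3572) (XT.lf (nat_lit 0) (nat_lit 64462739169) (nat_lit 152) (nat_lit 8272794744) (nat_lit 0) (nat_lit 49343498886) (nat_lit 3) (nat_lit 5) (nat_lit 5) (nat_lit 4) (nat_lit 3) (nat_lit 4) (nat_lit 333) (nat_lit 221) (nat_lit 166)) (XT.lf (nat_lit 0) (nat_lit 1706384880) (nat_lit 304) (nat_lit 2239040030) (nat_lit 0) (nat_lit 1706384880) (nat_lit 50) (nat_lit 5) (nat_lit 54) (nat_lit 4) (nat_lit 50) (nat_lit 4) (nat_lit 276) (nat_lit 222) (nat_lit 222))))) (XT.nd (nat_lit 234) (nat_lit 608) (nat_lit 0) (XT.nd (nat_lit 78) (nat_lit 456) (nat_lit 0)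 (XT.lf (nat_lit 0) (nat_lit 6845580369) (nat_lit 228) (nat_lit 2958329154) (nat_lit 228) (nat_lit 1835158735) (nat_lit 47) (nat_lit 4) (nat_lit 50) (nat_lit 5) (nat_lit 50) (nat_lit 4) (nat_lit 277) (nat_lit 222) (nat_lit 221)) (XT.nd (nat_lit 78) (nat_lit 228) (nat_lit 0) (XT.lf (nat_lit 0) (nat_lit 4329118839) (nat_lit 228) (nat_lit 5464148698) (nat_lit 0) (nat_lit 2200131915) (nat_lit 44) (nat_lit 5) (nat_lit 47) (nat_lit 4) (nat_lit 44) (nat_lit 4) (nat_lit 278) (nat_lit 222) (nat_lit 220)) (XT.lf (nat_lit 0) (nat_lit 5852951179) (nat_lit 228) (nat_lit 4816532358) (nat_lit 228) (nat_lit 1698469047) (nat_lit 41) (nat_lit 4) (nat_lit 44) (nat_lit 5) (nat_lit 44) (nat_lit 4) (nat_lit 279) (nat_lit 222) (nat_lit 219)))) (XT.nd (nat_lit 78) (nat_lit 380) (nat_lit 0) (XT.lf (nat_lit 0) (nat_lit 4358013964) (nat_lit 228) (nat_lit 7989440149) (nat_lit 0) (nat_lit 416226758) (nat_lit 38) (nat_lit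 5) (nat_lit 41) (nat_lit 4) (nat_lit 38) (nat_lit 4) (nat_lit 280) (nat_lit 222) (nat_lit 218)) (XT.nd (nat_lit 78) (nat_lit 228) (nat_lit 0) (XT.lf (nat_lit 0) (nat_lit 3227443770) (nat_lit 152) (nat_lit 7383185766) (nat_lit 152) (nat_lit 2570406871) (nat_lit 36) (nat_lit 4) (nat_lit 38) (nat_lit 5) (nat_lit 38) (nat_lit 4) (nat_lit 281) (nat_lit 222) (nat_lit 217)) (XT.lf (nat_lit 0) (nat_lit 1193353978) (nat_lit 152) (nat_lit 2173960685) (nat_lit 228) (nat_lit 10254699823) (nat_lit 33) (nat_lit 5) (nat_lit 35) (nat_lit 5) (nat_lit 36) (nat_lit 4) (nat_lit 282) (nat_lit 222) (nat_lit 216))))))) (XT.nd (nat_lit 858) (nat_lit 608) (nat_lit 0) (XT.nd (nat_lit 390) (nat_lit 608) (nat_lit 0) (XT.nd (nat_lit 156) (nat_lit 380) (nat_lit 0) (XT.nd (nat_lit 78) (nat_lit 228) (nat_lit 0) (XT.lf (nat_lit 0) (nat_lit 9475650567) (nat_lit 228) (nat_lit 1380305999) (nat_lit 0) (nat_lit 3230689473) (nat_lit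 33) (nat_lit 5) (nat_lit 36) (nat_lit 4) (nat_lit 33) (nat_lit 4) (nat_lit 283) (nat_lit 222) (nat_lit 215)) (XT.lf (nat_lit 0) (nat_lit 1208159435) (nat_lit 228) (nat_lit 4522878380) (nat_lit 76) (nat_lit 8845686001) (nat_lit 30) (nat_lit 5) (nat_lit 33) (nat_lit 5) (nat_lit 31) (nat_lit 4) (nat_lit 284) (nat_lit 222) (nat_lit 214))) (XT.nd (nat_lit 78) (nat_lit 228) (nat_lit 0) (XT.lf (nat_lit 0) (nat_lit 6759389197) (nat_lit 152) (nat_lit 349244973) (nat_lit 228) (nat_lit 7984883821) (nat_lit 28) (nat_lit 5) (nat_lit 30) (nat_lit 5) (nat_lit 31) (nat_lit 4) (nat_lit 285) (nat_lit 222) (nat_lit 213)) (XT.nd (nat_lit 78) (nat_lit 76) (nat_lit 0) (XT.lf (nat_lit 0) (nat_lit 2748938353) (nat_lit 152) (nat_lit 10490144083) (nat_lit 152) (nat_lit 2399167466) (nat_lit 26) (nat_lit 4) (nat_lit 28) (nat_lit 5) (nat_lit 28) (nat_lit 4) (nat_lit 286) (nat_lit 222) (nat_lit 212)) (XT.lf (nat_lit 0)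 (nat_lit 3303005689) (nat_lit 228) (nat_lit 1998512834) (nat_lit 76) (nat_lit 10910691838) (nat_lit 25) (nat_lit 5) (nat_lit 28) (nat_lit 5) (nat_lit 26) (nat_lit 4) (nat_lit 287) (nat_lit 222) (nat_lit 211))))) (XT.nd (nat_lit 234) (nat_lit 304) (nat_lit 0) (XT.nd (nat_lit 78) (nat_lit 228) (nat_lit 0) (XT.lf (nat_lit 0) (nat_lit 9155305551) (nat_lit 152) (nat_lit 7522816535) (nat_lit 0) (nat_lit 138724068) (nat_lit 24) (nat_lit 5) (nat_lit 26) (nat_lit 4) (nat_lit 24) (nat_lit 4) (nat_lit 288) (nat_lit 222) (nat_lit 210)) (XT.nd (nat_lit 78) (nat_lit 76) (nat_lit 0) (XT.lf (nat_lit 0) (nat_lit 3461585857) (nat_lit 152) (nat_lit 11774131492) (nat_lit 152) (nat_lit 2218054364) (nat_lit 22) (nat_lit 4) (nat_lit 24) (nat_lit 5) (nat_lit 24) (nat_lit 4) (nat_lit 289) (nat_lit 222) (nat_lit 209)) (XT.lf (nat_lit 0) (nat_lit 3339181665) (nat_lit 228) (nat_lit 3291343725) (nat_lit 76) (nat_lit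 11493828360) (nat_lit 21) (nat_lit 5) (nat_lit 24) (nat_lit 5) (nat_lit 22) (nat_lit 4) (nat_lit 290) (nat_lit 222) (nat_lit 208)))) (XT.nd (nat_lit 78) (nat_lit 228) (nat_lit 0) (XT.lf (nat_lit 0) (nat_lit 7798959283) (nat_lit 76) (nat_lit 1244479260) (nat_lit 152) (nat_lit 9787024777) (nat_lit 20) (nat_lit 5) (nat_lit 21) (nat_lit 5) (nat_lit 22) (nat_lit 4) (nat_lit 291) (nat_lit 222) (nat_lit 207)) (XT.nd (nat_lit 78) (nat_lit 228) (nat_lit 0) (XT.lf (nat_lit 0) (nat_lit 14953148874) (nat_lit 152) (nat_lit 372210040) (nat_lit 0) (nat_lit 4249015297) (nat_lit 20) (nat_lit 5) (nat_lit 22) (nat_lit 4) (nat_lit 20) (nat_lit 4) (nat_lit 292) (nat_lit 222) (nat_lit 206)) (XT.lf (nat_lit 0) (nat_lit 753829726) (nat_lit 228) (nat_lit 9604776127) (nat_lit 76) (nat_lit 9997739587) (nat_lit 17) (nat_lit 5) (nat_lit 20) (nat_lit 5) (nat_lit 18) (nat_lit 4) (nat_lit 293) (nat_lit 222) (nat_lit 205))))))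 (XT.nd (nat_lit 468) (nat_lit 228) (nat_lit 0) (XT.nd (nat_lit 234) (nat_lit 152) (nat_lit 0) (XT.nd (nat_lit 78) (nat_lit 152) (nat_lit 0) (XT.lf (nat_lit 0) (nat_lit 980624206) (nat_lit 76) (nat_lit 5189854475) (nat_lit 152) (nat_lit 15009602210) (nat_lit 16) (nat_lit 5) (nat_lit 17) (nat_lit 5) (nat_lit 18) (nat_lit 4) (nat_lit 294) (nat_lit 222) (nat_lit 204)) (XT.nd (nat_lit 78) (nat_lit 152) (nat_lit 0) (XT.lf (nat_lit 0) (nat_lit 11817882297) (nat_lit 152) (nat_lit 9999169857) (nat_lit 0) (nat_lit 229239729) (nat_lit 16) (nat_lit 5) (nat_lit 18) (nat_lit 4) (nat_lit 16) (nat_lit 4) (nat_lit 295) (nat_lit 222) (nat_lit 203)) (XT.lf (nat_lit 0) (nat_lit 429143259) (nat_lit 152) (nat_lit 17239581600) (nat_lit 152) (nat_lit 5289538821) (nat_lit 14) (nat_lit 4) (nat_lit 16) (nat_lit 5) (nat_lit 16) (nat_lit 4) (nat_lit 296) (nat_lit 222) (nat_lit 202)))) (XT.nd (nat_lit 78) (nat_lit 152)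 (nat_lit 0) (XT.lf (nat_lit 0) (nat_lit 11356667189) (nat_lit 152) (nat_lit 12427163549) (nat_lit 152) (nat_lit 132930093) (nat_lit 14) (nat_lit 4) (nat_lit 16) (nat_lit 5) (nat_lit 16) (nat_lit 4) (nat_lit 297) (nat_lit 222) (nat_lit 201)) (XT.nd (nat_lit 78) (nat_lit 76) (nat_lit 0) (XT.lf (nat_lit 0) (nat_lit 5052174058) (nat_lit 228) (nat_lit 2366120762) (nat_lit 76) (nat_lit 17507225650) (nat_lit 13) (nat_lit 5) (nat_lit 16) (nat_lit 5) (nat_lit 14) (nat_lit 4) (nat_lit 298) (nat_lit 222) (nat_lit 200)) (XT.lf (nat_lit 0) (nat_lit 8285764517) (nat_lit 76) (nat_lit 2167432383) (nat_lit 152) (nat_lit 15532768365) (nat_lit 12) (nat_lit 5) (nat_lit 13) (nat_lit 5) (nat_lit 14) (nat_lit 4) (nat_lit 299) (nat_lit 222) (nat_lit 199))))) (XT.nd (nat_lit 234) (nat_lit 152) (nat_lit 0) (XT.nd (nat_lit 78) (nat_lit 76) (nat_lit 0) (XT.lf (nat_lit 0) (nat_lit 16063657372) (nat_lit 152) (nat_lit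 7820166799) (nat_lit 0) (nat_lit 3217492286) (nat_lit 12) (nat_lit 5) (nat_lit 14) (nat_lit 4) (nat_lit 12) (nat_lit 4) (nat_lit 300) (nat_lit 222) (nat_lit 198)) (XT.nd (nat_lit 78) (nat_lit 0) (nat_lit 0) (XT.lf (nat_lit 0) (nat_lit 2379618266) (nat_lit 76) (nat_lit 19507987330) (nat_lit 76) (nat_lit 6386903291) (nat_lit 11) (nat_lit 4) (nat_lit 12) (nat_lit 5) (nat_lit 12) (nat_lit 4) (nat_lit 301) (nat_lit 222) (nat_lit 197)) (XT.lf (nat_lit 0) (nat_lit 13059700809) (nat_lit 76) (nat_lit 14915232952) (nat_lit 76) (nat_lit 1532321339) (nat_lit 11) (nat_lit 4) (nat_lit 12) (nat_lit 5) (nat_lit 12) (nat_lit 4) (nat_lit 302) (nat_lit 222) (nat_lit 196)))) (XT.nd (nat_lit 78) (nat_lit 76) (nat_lit 0) (XT.lf (nat_lit 0) (nat_lit 3391185702) (nat_lit 152) (nat_lit 6748164231) (nat_lit 76) (nat_lit 20664442917) (nat_lit 10) (nat_lit 5) (nat_lit 12) (nat_lit 5) (nat_lit 11) (nat_lit 4) (nat_lit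 303) (nat_lit 222) (nat_lit 195)) (XT.nd (nat_lit 78) (nat_lit 0) (nat_lit 0) (XT.lf (nat_lit 0) (nat_lit 3308097157) (nat_lit 76) (nat_lit 5153899735) (nat_lit 152) (nat_lit 23704773381) (nat_lit 9) (nat_lit 5) (nat_lit 10) (nat_lit 5) (nat_lit 11) (nat_lit 4) (nat_lit 304) (nat_lit 222) (nat_lit 194)) (XT.lf (nat_lit 0) (nat_lit 13760348581) (nat_lit 152) (nat_lit 19763401309) (nat_lit 0) (nat_lit 74976698) (nat_lit 9) (nat_lit 5) (nat_lit 11) (nat_lit 4) (nat_lit 9) (nat_lit 4) (nat_lit 305) (nat_lit 222) (nat_lit 193))))))))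
noncomputable def xc20 : XT := (XT.nd (nat_lit 1716) (nat_lit 0) (nat_lit 0) (XT.nd (nat_lit 858) (nat_lit 228) (nat_lit 0) (XT.nd (nat_lit 390) (nat_lit 76) (nat_lit 0) (XT.nd (nat_lit 156) (nat_lit 152) (nat_lit 0) (XT.nd (nat_lit 78) (nat_lit 0) (nat_lit 0) (XT.lf (nat_lit 0) (nat_lit 19283322017) (nat_lit 152) (nat_lit 10431397304) (nat_lit 0) (nat_lit 5388817908) (nat_lit 9) (nat_lit 5) (nat_lit 11) (nat_lit 4) (nat_lit 9) (nat_lit 4) (nat_lit 306) (nat_lit 222) (nat_lit 192)) (XT.lf (nat_lit 0) (nat_lit 24994524702) (nat_lit 152) (nat_lit 790899607) (nat_lit 0) (nat_lit 10900847043) (nat_lit 9) (nat_lit 5) (nat_lit 11) (nat_lit 4) (nat_lit 9) (nat_lit 4) (nat_lit 307) (nat_lit 222) (nat_lit 191))) (XT.nd (nat_lit 78) (nat_lit 76) (nat_lit 0) (XT.lf (nat_lit 0) (nat_lit 9363766150) (nat_lit 76) (nat_lit 21633798833) (nat_lit 76) (nat_lit 7350432080) (nat_lit 8) (nat_lit 4) (nat_lit 9)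 (nat_lit 5) (nat_lit 9) (nat_lit 4) (nat_lit 308) (nat_lit 222) (nat_lit 190)) (XT.nd (nat_lit 78) (nat_lit 76) (nat_lit 0) (XT.lf (nat_lit 0) (nat_lit 19896431322) (nat_lit 76) (nat_lit 17331316109) (nat_lit 76) (nat_lit 2867293075) (nat_lit 8) (nat_lit 4) (nat_lit 9) (nat_lit 5) (nat_lit 9) (nat_lit 4) (nat_lit 309) (nat_lit 222) (nat_lit 189)) (XT.lf (nat_lit 0) (nat_lit 1726007044) (nat_lit 152) (nat_lit 11132282334) (nat_lit 76) (nat_lit 29072996898) (nat_lit 7) (nat_lit 5) (nat_lit 9) (nat_lit 5) (nat_lit 8) (nat_lit 4) (nat_lit 310) (nat_lit 222) (nat_lit 188))))) (XT.nd (nat_lit 234) (nat_lit 0) (nat_lit 0) (XT.nd (nat_lit 78) (nat_lit 76) (nat_lit 0) (XT.lf (nat_lit 0) (nat_lit 6415851249) (nat_lit 152) (nat_lit 1775759168) (nat_lit 76) (nat_lit 35669133107) (nat_lit 7) (nat_lit 5) (nat_lit 9) (nat_lit 5) (nat_lit 8) (nat_lit 4) (nat_lit 311) (nat_lit 222) (nat_lit 187)) (XT.nd (nat_lit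 78) (nat_lit 0) (nat_lit 0) (XT.lf (nat_lit 0) (nat_lit 8078439371) (nat_lit 76) (nat_lit 3268572581) (nat_lit 152) (nat_lit 34539491468) (nat_lit 6) (nat_lit 5) (nat_lit 7) (nat_lit 5) (nat_lit 8) (nat_lit 4) (nat_lit 312) (nat_lit 222) (nat_lit 186)) (XT.lf (nat_lit 0) (nat_lit 16492277263) (nat_lit 152) (nat_lit 29694684089) (nat_lit 0) (nat_lit 1827596427) (nat_lit 6) (nat_lit 5) (nat_lit 8) (nat_lit 4) (nat_lit 6) (nat_lit 4) (nat_lit 313) (nat_lit 222) (nat_lit 185)))) (XT.nd (nat_lit 78) (nat_lit 0) (nat_lit 0) (XT.lf (nat_lit 0) (nat_lit 21861906635) (nat_lit 152) (nat_lit 21328326841) (nat_lit 0) (nat_lit 7059799660) (nat_lit 6) (nat_lit 5) (nat_lit 8) (nat_lit 4) (nat_lit 6) (nat_lit 4) (nat_lit 314) (nat_lit 222) (nat_lit 184)) (XT.nd (nat_lit 78) (nat_lit 0) (nat_lit 0) (XT.lf (nat_lit 0) (nat_lit 27437265380) (nat_lit 152) (nat_lit 12657652887) (nat_lit 0) (nat_lit 12504276368)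 (nat_lit 6) (nat_lit 5) (nat_lit 8) (nat_lit 4) (nat_lit 6) (nat_lit 4) (nat_lit 315) (nat_lit 222) (nat_lit 183)) (XT.lf (nat_lit 0) (nat_lit 33231628163) (nat_lit 152) (nat_lit 3662017765) (nat_lit 0) (nat_lit 18173989592) (nat_lit 6) (nat_lit 5) (nat_lit 8) (nat_lit 4) (nat_lit 6) (nat_lit 4) (nat_lit 316) (nat_lit 222) (nat_lit 182)))))) (XT.nd (nat_lit 390) (nat_lit 152) (nat_lit 0) (XT.nd (nat_lit 156) (nat_lit 0) (nat_lit 0) (XT.nd (nat_lit 78) (nat_lit 0) (nat_lit 0) (XT.lf (nat_lit 0) (nat_lit 5793039774) (nat_lit 76) (nat_lit 33521437552) (nat_lit 76) (nat_lit 18345085115) (nat_lit 5) (nat_lit 4) (nat_lit 6) (nat_lit 5) (nat_lit 6) (nat_lit 4) (nat_lit 317) (nat_lit 222) (nat_lit 181)) (XT.lf (nat_lit 0) (nat_lit 15696937192) (nat_lit 76) (nat_lit 29987055903) (nat_lit 76) (nat_lit 14697642642) (nat_lit 5) (nat_lit 4) (nat_lit 6) (nat_lit 5) (nat_lit 6) (nat_lit 4) (nat_lit 318)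 (nat_lit 222) (nat_lit 180))) (XT.nd (nat_lit 78) (nat_lit 0) (nat_lit 0) (XT.lf (nat_lit 0) (nat_lit 26000373862) (nat_lit 76) (nat_lit 26319064986) (nat_lit 76) (nat_lit 10921974750) (nat_lit 5) (nat_lit 4) (nat_lit 6) (nat_lit 5) (nat_lit 6) (nat_lit 4) (nat_lit 319) (nat_lit 222) (nat_lit 179)) (XT.nd (nat_lit 78) (nat_lit 0) (nat_lit 0) (XT.lf (nat_lit 0) (nat_lit 36727881775) (nat_lit 76) (nat_lit 22508731490) (nat_lit 76) (nat_lit 7009091753) (nat_lit 5) (nat_lit 4) (nat_lit 6) (nat_lit 5) (nat_lit 6) (nat_lit 4) (nat_lit 320) (nat_lit 222) (nat_lit 178)) (XT.lf (nat_lit 0) (nat_lit 47905002618) (nat_lit 76) (nat_lit 18546983192) (nat_lit 76) (nat_lit 2949677264) (nat_lit 5) (nat_lit 4) (nat_lit 6) (nat_lit 5) (nat_lit 6) (nat_lit 4) (nat_lit 321) (nat_lit 222) (nat_lit 177))))) (XT.nd (nat_lit 234) (nat_lit 0) (nat_lit 0) (XT.nd (nat_lit 78) (nat_lit 76) (nat_lit 0) (XT.lf (nat_lit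 0) (nat_lit 1241231057) (nat_lit 152) (nat_lit 13170622302) (nat_lit 76) (nat_lit 58304583525) (nat_lit 4) (nat_lit 5) (nat_lit 6) (nat_lit 5) (nat_lit 5) (nat_lit 4) (nat_lit 322) (nat_lit 222) (nat_lit 176)) (XT.nd (nat_lit 78) (nat_lit 76) (nat_lit 0) (XT.lf (nat_lit 0) (nat_lit 5537570663) (nat_lit 152) (nat_lit 4537639016) (nat_lit 76) (nat_lit 66122176462) (nat_lit 4) (nat_lit 5) (nat_lit 6) (nat_lit 5) (nat_lit 5) (nat_lit 4) (nat_lit 323) (nat_lit 222) (nat_lit 175)) (XT.lf (nat_lit 0) (nat_lit 4539785796) (nat_lit 76) (nat_lit 5510983162) (nat_lit 152) (nat_lit 69801571307) (nat_lit 3) (nat_lit 5) (nat_lit 4) (nat_lit 5) (nat_lit 5) (nat_lit 4) (nat_lit 324) (nat_lit 222) (nat_lit 174)))) (XT.nd (nat_lit 78) (nat_lit 0) (nat_lit 0) (XT.lf (nat_lit 0) (nat_lit 14092282605) (nat_lit 76) (nat_lit 703731194) (nat_lit 152) (nat_lit 68893854469) (nat_lit 3) (nat_lit 5) (nat_lit 4) (nat_lit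 5) (nat_lit 5) (nat_lit 4) (nat_lit 325) (nat_lit 222) (nat_lit 173)) (XT.nd (nat_lit 78) (nat_lit 0) (nat_lit 0) (XT.lf (nat_lit 0) (nat_lit 19781567951) (nat_lit 152) (nat_lit 63709605407) (nat_lit 0) (nat_lit 4228024822) (nat_lit 3) (nat_lit 5) (nat_lit 5) (nat_lit 4) (nat_lit 3) (nat_lit 4) (nat_lit 326) (nat_lit 222) (nat_lit 172)) (XT.lf (nat_lit 0) (nat_lit 24986637033) (nat_lit 152) (nat_lit 57601929949) (nat_lit 0) (nat_lit 9362336607) (nat_lit 3) (nat_lit 5) (nat_lit 5) (nat_lit 4) (nat_lit 3) (nat_lit 4) (nat_lit 327) (nat_lit 222) (nat_lit 171))))))) (XT.nd (nat_lit 33696) (nat_lit 0) (nat_lit 1444) (XT.nd (nat_lit 390) (nat_lit 0) (nat_lit 0) (XT.nd (nat_lit 156) (nat_lit 0) (nat_lit 0) (XT.nd (nat_lit 78) (nat_lit 0) (nat_lit 0) (XT.lf (nat_lit 0) (nat_lit 30416849370) (nat_lit 152) (nat_lit 51253252510) (nat_lit 0) (nat_lit 14725161043) (nat_lit 3) (nat_lit 5) (nat_lit 5) (nat_lit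 4) (nat_lit 3) (nat_lit 4) (nat_lit 328) (nat_lit 222) (nat_lit 170)) (XT.lf (nat_lit 0) (nat_lit 36085134040) (nat_lit 152) (nat_lit 44648457192) (nat_lit 0) (nat_lit 20329266759) (nat_lit 3) (nat_lit 5) (nat_lit 5) (nat_lit 4) (nat_lit 3) (nat_lit 4) (nat_lit 329) (nat_lit 222) (nat_lit 169))) (XT.nd (nat_lit 78) (nat_lit 0) (nat_lit 0) (XT.lf (nat_lit 0) (nat_lit 42004986959) (nat_lit 152) (nat_lit 37771818291) (nat_lit 0) (nat_lit 26187996864) (nat_lit 3) (nat_lit 5) (nat_lit 5) (nat_lit 4) (nat_lit 3) (nat_lit 4) (nat_lit 330) (nat_lit 222) (nat_lit 168)) (XT.nd (nat_lit 78) (nat_lit 0) (nat_lit 0) (XT.lf (nat_lit 0) (nat_lit 48190503014) (nat_lit 152) (nat_lit 30606962858) (nat_lit 0) (nat_lit 32315300716) (nat_lit 3) (nat_lit 5) (nat_lit 5) (nat_lit 4) (nat_lit 3) (nat_lit 4) (nat_lit 331) (nat_lit 222) (nat_lit 167)) (XT.lf (nat_lit 0) (nat_lit 54656409625) (nat_lit 152) (nat_lit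 23136831713) (nat_lit 0) (nat_lit 38725767134) (nat_lit 3) (nat_lit 5) (nat_lit 5) (nat_lit 4) (nat_lit 3) (nat_lit 4) (nat_lit 332) (nat_lit 222) (nat_lit 166))))) (XT.nd (nat_lit 33072) (nat_lit 0) (nat_lit 3116) (XT.nd (nat_lit 32916) (nat_lit 0) (nat_lit 3876) (XT.lf (nat_lit 0) (nat_lit 61418101807) (nat_lit 152) (nat_lit 15343638830) (nat_lit 0) (nat_lit 45434659132) (nat_lit 3) (nat_lit 5) (nat_lit 5) (nat_lit 4) (nat_lit 3) (nat_lit 4) (nat_lit 333) (nat_lit 222) (nat_lit 165)) (XT.nd (nat_lit 78) (nat_lit 228) (nat_lit 0) (XT.lf (nat_lit 0) (nat_lit 1533451391) (nat_lit 304) (nat_lit 2274886537) (nat_lit 0) (nat_lit 1533451391) (nat_lit 57) (nat_lit 5) (nat_lit 61) (nat_lit 4) (nat_lit 57) (nat_lit 4) (nat_lit 274) (nat_lit 223) (nat_lit 223)) (XT.lf (nat_lit 0) (nat_lit 6525707046) (nat_lit 228) (nat_lit 2837913418) (nat_lit 228) (nat_lit 1623204610) (nat_lit 54) (nat_lit 4) (nat_lit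 57) (nat_lit 5) (nat_lit 57) (nat_lit 4) (nat_lit 275) (nat_lit 223) (nat_lit 222)))) (XT.nd (nat_lit 78) (nat_lit 456) (nat_lit 0) (XT.lf (nat_lit 0) (nat_lit 4473807953) (nat_lit 304) (nat_lit 4662176552) (nat_lit 0) (nat_lit 2171308595) (nat_lit 50) (nat_lit 5) (nat_lit 54) (nat_lit 4) (nat_lit 50) (nat_lit 4) (nat_lit 276) (nat_lit 223) (nat_lit 221)) (XT.nd (nat_lit 78) (nat_lit 228) (nat_lit 0) (XT.lf (nat_lit 0) (nat_lit 6479000593) (nat_lit 228) (nat_lit 4269765479) (nat_lit 228) (nat_lit 897580008) (nat_lit 47) (nat_lit 4) (nat_lit 50) (nat_lit 5) (nat_lit 50) (nat_lit 4) (nat_lit 277) (nat_lit 223) (nat_lit 220)) (XT.lf (nat_lit 0) (nat_lit 5119664753) (nat_lit 228) (nat_lit 6028092269) (nat_lit 0) (nat_lit 856621890) (nat_lit 44) (nat_lit 5) (nat_lit 47) (nat_lit 4) (nat_lit 44) (nat_lit 4) (nat_lit 278) (nat_lit 223) (nat_lit 219)))))) (XT.nd (nat_lit 390) (nat_lit 836) (nat_lit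 0) (XT.nd (nat_lit 156) (nat_lit 380) (nat_lit 0) (XT.nd (nat_lit 78) (nat_lit 228) (nat_lit 0) (XT.lf (nat_lit 0) (nat_lit 5104024075) (nat_lit 228) (nat_lit 6241730626) (nat_lit 228) (nat_lit 1036710251) (nat_lit 41) (nat_lit 4) (nat_lit 44) (nat_lit 5) (nat_lit 44) (nat_lit 4) (nat_lit 279) (nat_lit 223) (nat_lit 218)) (XT.lf (nat_lit 0) (nat_lit 3822319675) (nat_lit 152) (nat_lit 1066577610) (nat_lit 228) (nat_lit 7892740758) (nat_lit 38) (nat_lit 5) (nat_lit 40) (nat_lit 5) (nat_lit 41) (nat_lit 4) (nat_lit 280) (nat_lit 223) (nat_lit 217))) (XT.nd (nat_lit 78) (nat_lit 228) (nat_lit 0) (XT.lf (nat_lit 0) (nat_lit 2080029823) (nat_lit 152) (nat_lit 8938337852) (nat_lit 152) (nat_lit 2184412429) (nat_lit 36) (nat_lit 4) (nat_lit 38) (nat_lit 5) (nat_lit 38) (nat_lit 4) (nat_lit 281) (nat_lit 223) (nat_lit 216)) (XT.nd (nat_lit 78) (nat_lit 152) (nat_lit 0) (XT.lf (nat_lit 0) (nat_lit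 3634687180) (nat_lit 228) (nat_lit 165525583) (nat_lit 76) (nat_lit 9846852023) (nat_lit 35) (nat_lit 5) (nat_lit 38) (nat_lit 5) (nat_lit 36) (nat_lit 4) (nat_lit 282) (nat_lit 223) (nat_lit 215)) (XT.lf (nat_lit 0) (nat_lit 9628764746) (nat_lit 228) (nat_lit 2912370840) (nat_lit 0) (nat_lit 1574069668) (nat_lit 33) (nat_lit 5) (nat_lit 36) (nat_lit 4) (nat_lit 33) (nat_lit 4) (nat_lit 283) (nat_lit 223) (nat_lit 214))))) (XT.nd (nat_lit 234) (nat_lit 304) (nat_lit 0) (XT.nd (nat_lit 78) (nat_lit 304) (nat_lit 0) (XT.lf (nat_lit 0) (nat_lit 1220243200) (nat_lit 228) (nat_lit 6273297513) (nat_lit 76) (nat_lit 7115082667) (nat_lit 30) (nat_lit 5) (nat_lit 33) (nat_lit 5) (nat_lit 31) (nat_lit 4) (nat_lit 284) (nat_lit 223) (nat_lit 213)) (XT.nd (nat_lit 78) (nat_lit 152) (nat_lit 0) (XT.lf (nat_lit 0) (nat_lit 4820851941) (nat_lit 152) (nat_lit 2190877565) (nat_lit 228) (nat_lit 8117029176)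 (nat_lit 28) (nat_lit 5) (nat_lit 30) (nat_lit 5) (nat_lit 31) (nat_lit 4) (nat_lit 285) (nat_lit 223) (nat_lit 212)) (XT.lf (nat_lit 0) (nat_lit 602874522) (nat_lit 152) (nat_lit 12412953751) (nat_lit 152) (nat_lit 2661520877) (nat_lit 26) (nat_lit 4) (nat_lit 28) (nat_lit 5) (nat_lit 28) (nat_lit 4) (nat_lit 286) (nat_lit 223) (nat_lit 211)))) (XT.nd (nat_lit 78) (nat_lit 228) (nat_lit 0) (XT.lf (nat_lit 0) (nat_lit 2959655573) (nat_lit 228) (nat_lit 4326796600) (nat_lit 76) (nat_lit 8967579519) (nat_lit 25) (nat_lit 5) (nat_lit 28) (nat_lit 5) (nat_lit 26) (nat_lit 4) (nat_lit 287) (nat_lit 223) (nat_lit 210)) (XT.nd (nat_lit 78) (nat_lit 152) (nat_lit 0) (XT.lf (nat_lit 0) (nat_lit 6779341511) (nat_lit 76) (nat_lit 1925052302) (nat_lit 152) (nat_lit 8157560465) (nat_lit 24) (nat_lit 5) (nat_lit 25) (nat_lit 5) (nat_lit 26) (nat_lit 4) (nat_lit 288) (nat_lit 223) (nat_lit 209)) (XT.lf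 (nat_lit 0) (nat_lit 730359724) (nat_lit 152) (nat_lit 13929750044) (nat_lit 152) (nat_lit 2842568035) (nat_lit 22) (nat_lit 4) (nat_lit 24) (nat_lit 5) (nat_lit 24) (nat_lit 4) (nat_lit 289) (nat_lit 223) (nat_lit 208))))))))
noncomputable def xc21 : XT := (XT.nd (nat_lit 1716) (nat_lit 304) (nat_lit 0) (XT.nd (nat_lit 858) (nat_lit 380) (nat_lit 0) (XT.nd (nat_lit 390) (nat_lit 380) (nat_lit 0) (XT.nd (nat_lit 156) (nat_lit 228) (nat_lit 0) (XT.nd (nat_lit 78) (nat_lit 76) (nat_lit 0) (XT.lf (nat_lit 0) (nat_lit 2648628662) (nat_lit 228) (nat_lit 6199804279) (nat_lit 76) (nat_lit 9327406557) (nat_lit 21) (nat_lit 5) (nat_lit 24) (nat_lit 5) (nat_lit 22) (nat_lit 4) (nat_lit 290) (nat_lit 223) (nat_lit 207)) (XT.lf (nat_lit 0) (nat_lit 4702133710) (nat_lit 76) (nat_lit 3546482445) (nat_lit 152) (nat_lit 10636511267) (nat_lit 20) (nat_lit 5) (nat_lit 21) (nat_lit 5) (nat_lit 22) (nat_lit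 4) (nat_lit 291) (nat_lit 223) (nat_lit 206))) (XT.nd (nat_lit 78) (nat_lit 228) (nat_lit 0) (XT.lf (nat_lit 0) (nat_lit 14063549534) (nat_lit 152) (nat_lit 3627550328) (nat_lit 0) (nat_lit 1940829640) (nat_lit 20) (nat_lit 5) (nat_lit 22) (nat_lit 4) (nat_lit 20) (nat_lit 4) (nat_lit 292) (nat_lit 223) (nat_lit 205)) (XT.nd (nat_lit 78) (nat_lit 76) (nat_lit 0) (XT.lf (nat_lit 0) (nat_lit 7316685857) (nat_lit 152) (nat_lit 12816833772) (nat_lit 152) (nat_lit 283716834) (nat_lit 18) (nat_lit 4) (nat_lit 20) (nat_lit 5) (nat_lit 20) (nat_lit 4) (nat_lit 293) (nat_lit 223) (nat_lit 204)) (XT.lf (nat_lit 0) (nat_lit 5061321241) (nat_lit 228) (nat_lit 2649489146) (nat_lit 76) (nat_lit 13532599926) (nat_lit 17) (nat_lit 5) (nat_lit 20) (nat_lit 5) (nat_lit 18) (nat_lit 4) (nat_lit 294) (nat_lit 223) (nat_lit 203))))) (XT.nd (nat_lit 234) (nat_lit 152) (nat_lit 0) (XT.nd (nat_lit 78) (nat_lit 152)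 (nat_lit 0) (XT.lf (nat_lit 0) (nat_lit 8252043351) (nat_lit 76) (nat_lit 2362861493) (nat_lit 152) (nat_lit 11497571217) (nat_lit 16) (nat_lit 5) (nat_lit 17) (nat_lit 5) (nat_lit 18) (nat_lit 4) (nat_lit 295) (nat_lit 223) (nat_lit 202)) (XT.nd (nat_lit 78) (nat_lit 152) (nat_lit 0) (XT.lf (nat_lit 0) (nat_lit 16375987285) (nat_lit 152) (nat_lit 3528340139) (nat_lit 0) (nat_lit 3122851480) (nat_lit 16) (nat_lit 5) (nat_lit 18) (nat_lit 4) (nat_lit 16) (nat_lit 4) (nat_lit 296) (nat_lit 223) (nat_lit 201)) (XT.lf (nat_lit 0) (nat_lit 7221572388) (nat_lit 152) (nat_lit 15173971509) (nat_lit 152) (nat_lit 1593035059) (nat_lit 14) (nat_lit 4) (nat_lit 16) (nat_lit 5) (nat_lit 16) (nat_lit 4) (nat_lit 297) (nat_lit 223) (nat_lit 200)))) (XT.nd (nat_lit 78) (nat_lit 76) (nat_lit 0) (XT.lf (nat_lit 0) (nat_lit 3561897237) (nat_lit 228) (nat_lit 6662476148) (nat_lit 76) (nat_lit 14775179863) (nat_lit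 13) (nat_lit 5) (nat_lit 16) (nat_lit 5) (nat_lit 14) (nat_lit 4) (nat_lit 298) (nat_lit 223) (nat_lit 199)) (XT.nd (nat_lit 78) (nat_lit 0) (nat_lit 0) (XT.lf (nat_lit 0) (nat_lit 3803391526) (nat_lit 76) (nat_lit 5060570993) (nat_lit 152) (nat_lit 17199036325) (nat_lit 12) (nat_lit 5) (nat_lit 13) (nat_lit 5) (nat_lit 14) (nat_lit 4) (nat_lit 299) (nat_lit 223) (nat_lit 198)) (XT.lf (nat_lit 0) (nat_lit 14392082598) (nat_lit 152) (nat_lit 12448742791) (nat_lit 0) (nat_lit 340025404) (nat_lit 12) (nat_lit 5) (nat_lit 14) (nat_lit 4) (nat_lit 12) (nat_lit 4) (nat_lit 300) (nat_lit 223) (nat_lit 197)))))) (XT.nd (nat_lit 390) (nat_lit 152) (nat_lit 0) (XT.nd (nat_lit 156) (nat_lit 152) (nat_lit 0) (XT.nd (nat_lit 78) (nat_lit 76) (nat_lit 0) (XT.lf (nat_lit 0) (nat_lit 20141223357) (nat_lit 152) (nat_lit 2387754592) (nat_lit 0) (nat_lit 5827338589) (nat_lit 12) (nat_lit 5) (nat_lit 14) (nat_lit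 4) (nat_lit 12) (nat_lit 4) (nat_lit 301) (nat_lit 223) (nat_lit 196)) (XT.lf (nat_lit 0) (nat_lit 8155092545) (nat_lit 76) (nat_lit 17999727116) (nat_lit 76) (nat_lit 3436482754) (nat_lit 11) (nat_lit 4) (nat_lit 12) (nat_lit 5) (nat_lit 12) (nat_lit 4) (nat_lit 302) (nat_lit 223) (nat_lit 195))) (XT.nd (nat_lit 78) (nat_lit 76) (nat_lit 0) (XT.lf (nat_lit 0) (nat_lit 1475754753) (nat_lit 152) (nat_lit 11804947540) (nat_lit 76) (nat_lit 17609165406) (nat_lit 10) (nat_lit 5) (nat_lit 12) (nat_lit 5) (nat_lit 11) (nat_lit 4) (nat_lit 303) (nat_lit 223) (nat_lit 194)) (XT.nd (nat_lit 78) (nat_lit 76) (nat_lit 0) (XT.lf (nat_lit 0) (nat_lit 6468645936) (nat_lit 152) (nat_lit 1895554942) (nat_lit 76) (nat_lit 23891006244) (nat_lit 10) (nat_lit 5) (nat_lit 12) (nat_lit 5) (nat_lit 11) (nat_lit 4) (nat_lit 304) (nat_lit 223) (nat_lit 193)) (XT.lf (nat_lit 0) (nat_lit 8514748705) (nat_lit 76) (nat_lit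 3188237054) (nat_lit 152) (nat_lit 21986121270) (nat_lit 9) (nat_lit 5) (nat_lit 10) (nat_lit 5) (nat_lit 11) (nat_lit 4) (nat_lit 305) (nat_lit 223) (nat_lit 192))))) (XT.nd (nat_lit 234) (nat_lit 76) (nat_lit 0) (XT.nd (nat_lit 78) (nat_lit 76) (nat_lit 0) (XT.lf (nat_lit 0) (nat_lit 17152424387) (nat_lit 152) (nat_lit 15888832161) (nat_lit 0) (nat_lit 2154889297) (nat_lit 9) (nat_lit 5) (nat_lit 11) (nat_lit 4) (nat_lit 9) (nat_lit 4) (nat_lit 306) (nat_lit 223) (nat_lit 191)) (XT.nd (nat_lit 78) (nat_lit 76) (nat_lit 0) (XT.lf (nat_lit 0) (nat_lit 22822781811) (nat_lit 152) (nat_lit 6321786965) (nat_lit 0) (nat_lit 7635557626) (nat_lit 9) (nat_lit 5) (nat_lit 11) (nat_lit 4) (nat_lit 9) (nat_lit 4) (nat_lit 307) (nat_lit 223) (nat_lit 190)) (XT.lf (nat_lit 0) (nat_lit 3651456289) (nat_lit 76) (nat_lit 25080555339) (nat_lit 76) (nat_lit 9712674874) (nat_lit 8) (nat_lit 4) (nat_lit 9) (nat_lit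 5) (nat_lit 9) (nat_lit 4) (nat_lit 308) (nat_lit 223) (nat_lit 189)))) (XT.nd (nat_lit 78) (nat_lit 76) (nat_lit 0) (XT.lf (nat_lit 0) (nat_lit 14116171937) (nat_lit 76) (nat_lit 20808321110) (nat_lit 76) (nat_lit 5268387045) (nat_lit 8) (nat_lit 4) (nat_lit 9) (nat_lit 5) (nat_lit 9) (nat_lit 4) (nat_lit 309) (nat_lit 223) (nat_lit 188)) (XT.nd (nat_lit 78) (nat_lit 76) (nat_lit 0) (XT.lf (nat_lit 0) (nat_lit 24971460011) (nat_lit 76) (nat_lit 16381531757) (nat_lit 76) (nat_lit 677737120) (nat_lit 8) (nat_lit 4) (nat_lit 9) (nat_lit 5) (nat_lit 9) (nat_lit 4) (nat_lit 310) (nat_lit 223) (nat_lit 187)) (XT.lf (nat_lit 0) (nat_lit 3990780658) (nat_lit 152) (nat_lit 7758567588) (nat_lit 76) (nat_lit 32212086717) (nat_lit 7) (nat_lit 5) (nat_lit 9) (nat_lit 5) (nat_lit 8) (nat_lit 4) (nat_lit 311) (nat_lit 223) (nat_lit 186))))))) (XT.nd (nat_lit 858) (nat_lit 152) (nat_lit 0) (XT.nd (nat_lit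 390) (nat_lit 76) (nat_lit 0) (XT.nd (nat_lit 156) (nat_lit 0) (nat_lit 0) (XT.nd (nat_lit 78) (nat_lit 0) (nat_lit 0) (XT.lf (nat_lit 0) (nat_lit 1916011503) (nat_lit 76) (nat_lit 6913786623) (nat_lit 152) (nat_lit 37160177062) (nat_lit 6) (nat_lit 5) (nat_lit 7) (nat_lit 5) (nat_lit 8) (nat_lit 4) (nat_lit 312) (nat_lit 223) (nat_lit 185)) (XT.lf (nat_lit 0) (nat_lit 12118234459) (nat_lit 76) (nat_lit 1807017794) (nat_lit 152) (nat_lit 34194286900) (nat_lit 6) (nat_lit 5) (nat_lit 7) (nat_lit 5) (nat_lit 8) (nat_lit 4) (nat_lit 313) (nat_lit 223) (nat_lit 184))) (XT.nd (nat_lit 78) (nat_lit 0) (nat_lit 0) (XT.lf (nat_lit 0) (nat_lit 19246900687) (nat_lit 152) (nat_lit 27673187606) (nat_lit 0) (nat_lit 3436380187) (nat_lit 6) (nat_lit 5) (nat_lit 8) (nat_lit 4) (nat_lit 6) (nat_lit 4) (nat_lit 314) (nat_lit 223) (nat_lit 183)) (XT.nd (nat_lit 78) (nat_lit 0) (nat_lit 0) (XT.lf (nat_lit 0)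 (nat_lit 24793106310) (nat_lit 152) (nat_lit 19055475862) (nat_lit 0) (nat_lit 8857936252) (nat_lit 6) (nat_lit 5) (nat_lit 8) (nat_lit 4) (nat_lit 6) (nat_lit 4) (nat_lit 315) (nat_lit 223) (nat_lit 182)) (XT.lf (nat_lit 0) (nat_lit 30559704214) (nat_lit 152) (nat_lit 10110280940) (nat_lit 0) (nat_lit 14505820290) (nat_lit 6) (nat_lit 5) (nat_lit 8) (nat_lit 4) (nat_lit 6) (nat_lit 4) (nat_lit 316) (nat_lit 223) (nat_lit 181))))) (XT.nd (nat_lit 234) (nat_lit 0) (nat_lit 0) (XT.nd (nat_lit 78) (nat_lit 76) (nat_lit 0) (XT.lf (nat_lit 0) (nat_lit 36560424394) (nat_lit 152) (nat_lit 816304757) (nat_lit 0) (nat_lit 20393479646) (nat_lit 6) (nat_lit 5) (nat_lit 8) (nat_lit 4) (nat_lit 6) (nat_lit 4) (nat_lit 317) (nat_lit 223) (nat_lit 180)) (XT.nd (nat_lit 78) (nat_lit 0) (nat_lit 0) (XT.lf (nat_lit 0) (nat_lit 9024685317) (nat_lit 76) (nat_lit 33871619758) (nat_lit 76) (nat_lit 17596998034)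 (nat_lit 5) (nat_lit 4) (nat_lit 6) (nat_lit 5) (nat_lit 6) (nat_lit 4) (nat_lit 318) (nat_lit 223) (nat_lit 179)) (XT.lf (nat_lit 0) (nat_lit 19283682675) (nat_lit 76) (nat_lit 30223656630) (nat_lit 76) (nat_lit 13846485405) (nat_lit 5) (nat_lit 4) (nat_lit 6) (nat_lit 5) (nat_lit 6) (nat_lit 4) (nat_lit 319) (nat_lit 223) (nat_lit 178)))) (XT.nd (nat_lit 78) (nat_lit 0) (nat_lit 0) (XT.lf (nat_lit 0) (nat_lit 29968867434) (nat_lit 76) (nat_lit 26432397218) (nat_lit 76) (nat_lit 9957559803) (nat_lit 5) (nat_lit 4) (nat_lit 6) (nat_lit 5) (nat_lit 6) (nat_lit 4) (nat_lit 320) (nat_lit 223) (nat_lit 177)) (XT.nd (nat_lit 78) (nat_lit 0) (nat_lit 0) (XT.lf (nat_lit 0) (nat_lit 41105680511) (nat_lit 76) (nat_lit 22488814715) (nat_lit 76) (nat_lit 5920961880) (nat_lit 5) (nat_lit 4) (nat_lit 6) (nat_lit 5) (nat_lit 6) (nat_lit 4) (nat_lit 321) (nat_lit 223) (nat_lit 176)) (XT.lf (nat_lit 0) (nat_lit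 52720638127) (nat_lit 76) (nat_lit 18383519638) (nat_lit 76) (nat_lit 1727080688) (nat_lit 5) (nat_lit 4) (nat_lit 6) (nat_lit 5) (nat_lit 6) (nat_lit 4) (nat_lit 322) (nat_lit 223) (nat_lit 175)))))) (XT.nd (nat_lit 390) (nat_lit 0) (nat_lit 0) (XT.nd (nat_lit 156) (nat_lit 76) (nat_lit 0) (XT.nd (nat_lit 78) (nat_lit 0) (nat_lit 0) (XT.lf (nat_lit 0) (nat_lit 2582669024) (nat_lit 152) (nat_lit 11497988558) (nat_lit 76) (nat_lit 62232646026) (nat_lit 4) (nat_lit 5) (nat_lit 6) (nat_lit 5) (nat_lit 5) (nat_lit 4) (nat_lit 323) (nat_lit 223) (nat_lit 174)) (XT.lf (nat_lit 0) (nat_lit 7032902924) (nat_lit 152) (nat_lit 2544363958) (nat_lit 76) (nat_lit 70392888451) (nat_lit 4) (nat_lit 5) (nat_lit 6) (nat_lit 5) (nat_lit 5) (nat_lit 4) (nat_lit 324) (nat_lit 223) (nat_lit 173))) (XT.nd (nat_lit 78) (nat_lit 0) (nat_lit 0) (XT.lf (nat_lit 0) (nat_lit 6923291740) (nat_lit 76) (nat_lit 4811177546)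 (nat_lit 152) (nat_lit 72074532658) (nat_lit 3) (nat_lit 5) (nat_lit 4) (nat_lit 5) (nat_lit 5) (nat_lit 4) (nat_lit 325) (nat_lit 223) (nat_lit 172)) (XT.nd (nat_lit 78) (nat_lit 0) (nat_lit 0) (XT.lf (nat_lit 0) (nat_lit 16662556879) (nat_lit 152) (nat_lit 70991222701) (nat_lit 0) (nat_lit 186284135) (nat_lit 3) (nat_lit 5) (nat_lit 5) (nat_lit 4) (nat_lit 3) (nat_lit 4) (nat_lit 326) (nat_lit 223) (nat_lit 171)) (XT.lf (nat_lit 0) (nat_lit 21850499035) (nat_lit 152) (nat_lit 64914952995) (nat_lit 0) (nat_lit 5306838389) (nat_lit 3) (nat_lit 5) (nat_lit 5) (nat_lit 4) (nat_lit 3) (nat_lit 4) (nat_lit 327) (nat_lit 223) (nat_lit 170))))) (XT.nd (nat_lit 234) (nat_lit 0) (nat_lit 0) (XT.nd (nat_lit 78) (nat_lit 0) (nat_lit 0) (XT.lf (nat_lit 0) (nat_lit 27264400014) (nat_lit 152) (nat_lit 58596185796) (nat_lit 0) (nat_lit 10656560414) (nat_lit 3) (nat_lit 5) (nat_lit 5) (nat_lit 4) (nat_lit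 3) (nat_lit 4) (nat_lit 328) (nat_lit 223) (nat_lit 169)) (XT.nd (nat_lit 78) (nat_lit 0) (nat_lit 0) (XT.lf (nat_lit 0) (nat_lit 32917150057) (nat_lit 152) (nat_lit 52019876421) (nat_lit 0) (nat_lit 16248187644) (nat_lit 3) (nat_lit 5) (nat_lit 5) (nat_lit 4) (nat_lit 3) (nat_lit 4) (nat_lit 329) (nat_lit 223) (nat_lit 168)) (XT.lf (nat_lit 0) (nat_lit 38822208093) (nat_lit 152) (nat_lit 45170366990) (nat_lit 0) (nat_lit 22095033477) (nat_lit 3) (nat_lit 5) (nat_lit 5) (nat_lit 4) (nat_lit 3) (nat_lit 4) (nat_lit 330) (nat_lit 223) (nat_lit 167)))) (XT.nd (nat_lit 78) (nat_lit 0) (nat_lit 0) (XT.lf (nat_lit 0) (nat_lit 44993633784) (nat_lit 152) (nat_lit 38031349147) (nat_lit 0) (nat_lit 28211018975) (nat_lit 3) (nat_lit 5) (nat_lit 5) (nat_lit 4) (nat_lit 3) (nat_lit 4) (nat_lit 331) (nat_lit 223) (nat_lit 166)) (XT.nd (nat_lit 78) (nat_lit 0) (nat_lit 0) (XT.lf (nat_lit 0) (nat_lit 51446121000)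 (nat_lit 152) (nat_lit 30585825231) (nat_lit 0) (nat_lit 34610706007) (nat_lit 3) (nat_lit 5) (nat_lit 5) (nat_lit 4) (nat_lit 3) (nat_lit 4) (nat_lit 332) (nat_lit 223) (nat_lit 165)) (XT.lf (nat_lit 0) (nat_lit 58195032806) (nat_lit 152) (nat_lit 22816067804) (nat_lit 0) (nat_lit 41309331924) (nat_lit 3) (nat_lit 5) (nat_lit 5) (nat_lit 4) (nat_lit 3) (nat_lit 4) (nat_lit 333) (nat_lit 223) (nat_lit 164))))))))
noncomputable def xc22 : XT := (XT.nd (nat_lit 1716) (nat_lit 912) (nat_lit 0) (XT.nd (nat_lit 858) (nat_lit 1292) (nat_lit 0) (XT.nd (nat_lit 390) (nat_lit 1140) (nat_lit 0) (XT.nd (nat_lit 156) (nat_lit 836) (nat_lit 0) (XT.nd (nat_lit 78) (nat_lit 304) (nat_lit 0) (XT.lf (nat_lit 0) (nat_lit 1216520559) (nat_lit 304) (nat_lit 2628650880) (nat_lit 0) (nat_lit 1216520559) (nat_lit 65) (nat_lit 5) (nat_lit 69) (nat_lit 4) (nat_lit 65) (nat_lit 4) (nat_lit 272) (nat_lit 224) (nat_lit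 224)) (XT.lf (nat_lit 0) (nat_lit 5517352151) (nat_lit 304) (nat_lit 3096845851) (nat_lit 304) (nat_lit 1783138276) (nat_lit 61) (nat_lit 4) (nat_lit 65) (nat_lit 5) (nat_lit 65) (nat_lit 4) (nat_lit 273) (nat_lit 224) (nat_lit 223))) (XT.nd (nat_lit 78) (nat_lit 532) (nat_lit 0) (XT.lf (nat_lit 0) (nat_lit 4223700455) (nat_lit 304) (nat_lit 4730025150) (nat_lit 0) (nat_lit 1733547400) (nat_lit 57) (nat_lit 5) (nat_lit 61) (nat_lit 4) (nat_lit 57) (nat_lit 4) (nat_lit 274) (nat_lit 224) (nat_lit 222)) (XT.nd (nat_lit 78) (nat_lit 304) (nat_lit 0) (XT.lf (nat_lit 0) (nat_lit 6166782413) (nat_lit 228) (nat_lit 4237188781) (nat_lit 228) (nat_lit 590170194) (nat_lit 54) (nat_lit 4) (nat_lit 57) (nat_lit 5) (nat_lit 57) (nat_lit 4) (nat_lit 275) (nat_lit 224) (nat_lit 221)) (XT.lf (nat_lit 0) (nat_lit 5356949454) (nat_lit 304) (nat_lit 5214904353) (nat_lit 0) (nat_lit 746468597) (nat_lit 50) (nat_lit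 5) (nat_lit 54) (nat_lit 4) (nat_lit 50) (nat_lit 4) (nat_lit 276) (nat_lit 224) (nat_lit 220))))) (XT.nd (nat_lit 234) (nat_lit 456) (nat_lit 0) (XT.nd (nat_lit 78) (nat_lit 456) (nat_lit 0) (XT.lf (nat_lit 0) (nat_lit 5744968232) (nat_lit 228) (nat_lit 5772590179) (nat_lit 228) (nat_lit 143360643) (nat_lit 47) (nat_lit 4) (nat_lit 50) (nat_lit 5) (nat_lit 50) (nat_lit 4) (nat_lit 277) (nat_lit 224) (nat_lit 219)) (XT.nd (nat_lit 78) (nat_lit 228) (nat_lit 0) (XT.lf (nat_lit 0) (nat_lit 5046380507) (nat_lit 152) (nat_lit 690489877) (nat_lit 228) (nat_lit 6285637552) (nat_lit 44) (nat_lit 5) (nat_lit 46) (nat_lit 5) (nat_lit 47) (nat_lit 4) (nat_lit 278) (nat_lit 224) (nat_lit 218)) (XT.lf (nat_lit 0) (nat_lit 3978404998) (nat_lit 228) (nat_lit 7865121015) (nat_lit 228) (nat_lit 560750670) (nat_lit 41) (nat_lit 4) (nat_lit 44) (nat_lit 5) (nat_lit 44) (nat_lit 4) (nat_lit 279) (nat_lit 224)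 (nat_lit 217)))) (XT.nd (nat_lit 78) (nat_lit 228) (nat_lit 0) (XT.lf (nat_lit 0) (nat_lit 2484526592) (nat_lit 152) (nat_lit 2758477500) (nat_lit 228) (nat_lit 7563777548) (nat_lit 38) (nat_lit 5) (nat_lit 40) (nat_lit 5) (nat_lit 41) (nat_lit 4) (nat_lit 280) (nat_lit 224) (nat_lit 216)) (XT.nd (nat_lit 78) (nat_lit 76) (nat_lit 0) (XT.lf (nat_lit 0) (nat_lit 545898243) (nat_lit 152) (nat_lit 10698553325) (nat_lit 152) (nat_lit 1987400599) (nat_lit 36) (nat_lit 4) (nat_lit 38) (nat_lit 5) (nat_lit 38) (nat_lit 4) (nat_lit 281) (nat_lit 224) (nat_lit 215)) (XT.lf (nat_lit 0) (nat_lit 3732979805) (nat_lit 228) (nat_lit 1885599089) (nat_lit 76) (nat_lit 8060428550) (nat_lit 35) (nat_lit 5) (nat_lit 38) (nat_lit 5) (nat_lit 36) (nat_lit 4) (nat_lit 282) (nat_lit 224) (nat_lit 214)))))) (XT.nd (nat_lit 390) (nat_lit 532) (nat_lit 0) (XT.nd (nat_lit 156) (nat_lit 380) (nat_lit 0) (XT.nd (nat_lit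 78) (nat_lit 228) (nat_lit 0) (XT.lf (nat_lit 0) (nat_lit 9313889382) (nat_lit 152) (nat_lit 289068496) (nat_lit 228) (nat_lit 4547990318) (nat_lit 33) (nat_lit 5) (nat_lit 35) (nat_lit 5) (nat_lit 36) (nat_lit 4) (nat_lit 283) (nat_lit 224) (nat_lit 213)) (XT.lf (nat_lit 0) (nat_lit 1047705408) (nat_lit 228) (nat_lit 8419332674) (nat_lit 76) (nat_lit 5180783137) (nat_lit 30) (nat_lit 5) (nat_lit 33) (nat_lit 5) (nat_lit 31) (nat_lit 4) (nat_lit 284) (nat_lit 224) (nat_lit 212))) (XT.nd (nat_lit 78) (nat_lit 228) (nat_lit 0) (XT.lf (nat_lit 0) (nat_lit 2486124235) (nat_lit 152) (nat_lit 4244573197) (nat_lit 228) (nat_lit 8440581987) (nat_lit 28) (nat_lit 5) (nat_lit 30) (nat_lit 5) (nat_lit 31) (nat_lit 4) (nat_lit 285) (nat_lit 224) (nat_lit 211)) (XT.nd (nat_lit 78) (nat_lit 228) (nat_lit 0) (XT.lf (nat_lit 0) (nat_lit 12625433600) (nat_lit 228) (nat_lit 1907455222) (nat_lit 0) (nat_lit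 1190326773) (nat_lit 28) (nat_lit 5) (nat_lit 31) (nat_lit 4) (nat_lit 28) (nat_lit 4) (nat_lit 286) (nat_lit 224) (nat_lit 210)) (XT.lf (nat_lit 0) (nat_lit 2431006391) (nat_lit 228) (nat_lit 7055844368) (nat_lit 76) (nat_lit 6816260163) (nat_lit 25) (nat_lit 5) (nat_lit 28) (nat_lit 5) (nat_lit 26) (nat_lit 4) (nat_lit 287) (nat_lit 224) (nat_lit 209))))) (XT.nd (nat_lit 234) (nat_lit 228) (nat_lit 0) (XT.nd (nat_lit 78) (nat_lit 228) (nat_lit 0) (XT.lf (nat_lit 0) (nat_lit 3861249130) (nat_lit 76) (nat_lit 4208335112) (nat_lit 152) (nat_lit 8844691167) (nat_lit 24) (nat_lit 5) (nat_lit 25) (nat_lit 5) (nat_lit 26) (nat_lit 4) (nat_lit 288) (nat_lit 224) (nat_lit 208)) (XT.nd (nat_lit 78) (nat_lit 228) (nat_lit 0) (XT.lf (nat_lit 0) (nat_lit 13920200889) (nat_lit 152) (nat_lit 2362489446) (nat_lit 0) (nat_lit 1275515948) (nat_lit 24) (nat_lit 5) (nat_lit 26) (nat_lit 4) (nat_lit 24) (nat_lit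 4) (nat_lit 289) (nat_lit 224) (nat_lit 207)) (XT.lf (nat_lit 0) (nat_lit 1770821363) (nat_lit 228) (nat_lit 9515954197) (nat_lit 76) (nat_lit 6947808832) (nat_lit 21) (nat_lit 5) (nat_lit 24) (nat_lit 5) (nat_lit 22) (nat_lit 4) (nat_lit 290) (nat_lit 224) (nat_lit 206)))) (XT.nd (nat_lit 78) (nat_lit 152) (nat_lit 0) (XT.lf (nat_lit 0) (nat_lit 1195718333) (nat_lit 76) (nat_lit 6070431569) (nat_lit 152) (nat_lit 11680910065) (nat_lit 20) (nat_lit 5) (nat_lit 21) (nat_lit 5) (nat_lit 22) (nat_lit 4) (nat_lit 291) (nat_lit 224) (nat_lit 205)) (XT.nd (nat_lit 78) (nat_lit 152) (nat_lit 0) (XT.lf (nat_lit 0) (nat_lit 12399212301) (nat_lit 76) (nat_lit 594131159) (nat_lit 152) (nat_lit 6703196380) (nat_lit 20) (nat_lit 5) (nat_lit 21) (nat_lit 5) (nat_lit 22) (nat_lit 4) (nat_lit 292) (nat_lit 224) (nat_lit 204)) (XT.lf (nat_lit 0) (nat_lit 3463157017) (nat_lit 152) (nat_lit 15491508406) (nat_lit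 152) (nat_lit 1530484249) (nat_lit 18) (nat_lit 4) (nat_lit 20) (nat_lit 5) (nat_lit 20) (nat_lit 4) (nat_lit 293) (nat_lit 224) (nat_lit 203))))))) (XT.nd (nat_lit 858) (nat_lit 304) (nat_lit 0) (XT.nd (nat_lit 390) (nat_lit 228) (nat_lit 0) (XT.nd (nat_lit 156) (nat_lit 228) (nat_lit 0) (XT.nd (nat_lit 78) (nat_lit 76) (nat_lit 0) (XT.lf (nat_lit 0) (nat_lit 3774386694) (nat_lit 228) (nat_lit 6671261383) (nat_lit 76) (nat_lit 10868010022) (nat_lit 17) (nat_lit 5) (nat_lit 20) (nat_lit 5) (nat_lit 18) (nat_lit 4) (nat_lit 294) (nat_lit 224) (nat_lit 202)) (XT.lf (nat_lit 0) (nat_lit 4041134564) (nat_lit 76) (nat_lit 5184933088) (nat_lit 152) (nat_lit 12959751518) (nat_lit 16) (nat_lit 5) (nat_lit 17) (nat_lit 5) (nat_lit 18) (nat_lit 4) (nat_lit 295) (nat_lit 224) (nat_lit 201))) (XT.nd (nat_lit 78) (nat_lit 228) (nat_lit 0) (XT.lf (nat_lit 0) (nat_lit 14900097222) (nat_lit 152) (nat_lit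 7890759497) (nat_lit 0) (nat_lit 312313304) (nat_lit 16) (nat_lit 5) (nat_lit 18) (nat_lit 4) (nat_lit 16) (nat_lit 4) (nat_lit 296) (nat_lit 224) (nat_lit 200)) (XT.nd (nat_lit 78) (nat_lit 76) (nat_lit 0) (XT.lf (nat_lit 0) (nat_lit 2670055651) (nat_lit 152) (nat_lit 18148774416) (nat_lit 152) (nat_lit 3248799409) (nat_lit 14) (nat_lit 4) (nat_lit 16) (nat_lit 5) (nat_lit 16) (nat_lit 4) (nat_lit 297) (nat_lit 224) (nat_lit 199)) (XT.lf (nat_lit 0) (nat_lit 1882572564) (nat_lit 228) (nat_lit 11375677549) (nat_lit 76) (nat_lit 11822539322) (nat_lit 13) (nat_lit 5) (nat_lit 16) (nat_lit 5) (nat_lit 14) (nat_lit 4) (nat_lit 298) (nat_lit 224) (nat_lit 198))))) (XT.nd (nat_lit 234) (nat_lit 152) (nat_lit 0) (XT.nd (nat_lit 78) (nat_lit 76) (nat_lit 0) (XT.lf (nat_lit 0) (nat_lit 7094867558) (nat_lit 228) (nat_lit 1077885232) (nat_lit 76) (nat_lit 17974205895) (nat_lit 13) (nat_lit 5) (nat_lit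 16) (nat_lit 5) (nat_lit 14) (nat_lit 4) (nat_lit 299) (nat_lit 224) (nat_lit 197)) (XT.nd (nat_lit 78) (nat_lit 0) (nat_lit 0) (XT.lf (nat_lit 0) (nat_lit 9741645720) (nat_lit 76) (nat_lit 2815888515) (nat_lit 152) (nat_lit 14709269095) (nat_lit 12) (nat_lit 5) (nat_lit 13) (nat_lit 5) (nat_lit 14) (nat_lit 4) (nat_lit 300) (nat_lit 224) (nat_lit 196)) (XT.lf (nat_lit 0) (nat_lit 18230146839) (nat_lit 152) (nat_lit 7525065124) (nat_lit 0) (nat_lit 2689380663) (nat_lit 12) (nat_lit 5) (nat_lit 14) (nat_lit 4) (nat_lit 12) (nat_lit 4) (nat_lit 301) (nat_lit 224) (nat_lit 195)))) (XT.nd (nat_lit 78) (nat_lit 76) (nat_lit 0) (XT.lf (nat_lit 0) (nat_lit 2830097168) (nat_lit 76) (nat_lit 21315353993) (nat_lit 76) (nat_lit 5537102489) (nat_lit 11) (nat_lit 4) (nat_lit 12) (nat_lit 5) (nat_lit 12) (nat_lit 4) (nat_lit 302) (nat_lit 224) (nat_lit 194)) (XT.nd (nat_lit 78) (nat_lit 76) (nat_lit 0)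 (XT.lf (nat_lit 0) (nat_lit 13693453400) (nat_lit 76) (nat_lit 16646961019) (nat_lit 76) (nat_lit 642533012) (nat_lit 11) (nat_lit 4) (nat_lit 12) (nat_lit 5) (nat_lit 12) (nat_lit 4) (nat_lit 303) (nat_lit 224) (nat_lit 193)) (XT.lf (nat_lit 0) (nat_lit 4318971966) (nat_lit 152) (nat_lit 7452321108) (nat_lit 76) (nat_lit 20578520039) (nat_lit 10) (nat_lit 5) (nat_lit 12) (nat_lit 5) (nat_lit 11) (nat_lit 4) (nat_lit 304) (nat_lit 224) (nat_lit 192)))))) (XT.nd (nat_lit 390) (nat_lit 152) (nat_lit 0) (XT.nd (nat_lit 156) (nat_lit 76) (nat_lit 0) (XT.nd (nat_lit 78) (nat_lit 0) (nat_lit 0) (XT.lf (nat_lit 0) (nat_lit 2771243111) (nat_lit 76) (nat_lit 6685025887) (nat_lit 152) (nat_lit 24330377437) (nat_lit 9) (nat_lit 5) (nat_lit 10) (nat_lit 5) (nat_lit 11) (nat_lit 4) (nat_lit 305) (nat_lit 224) (nat_lit 191)) (XT.lf (nat_lit 0) (nat_lit 13513045497) (nat_lit 76) (nat_lit 1330997960) (nat_lit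 152) (nat_lit 20451512794) (nat_lit 9) (nat_lit 5) (nat_lit 10) (nat_lit 5) (nat_lit 11) (nat_lit 4) (nat_lit 306) (nat_lit 224) (nat_lit 190))) (XT.nd (nat_lit 78) (nat_lit 76) (nat_lit 0) (XT.lf (nat_lit 0) (nat_lit 20462706266) (nat_lit 152) (nat_lit 12272625956) (nat_lit 0) (nat_lit 4145775498) (nat_lit 9) (nat_lit 5) (nat_lit 11) (nat_lit 4) (nat_lit 9) (nat_lit 4) (nat_lit 307) (nat_lit 224) (nat_lit 189)) (XT.nd (nat_lit 78) (nat_lit 76) (nat_lit 0) (XT.lf (nat_lit 0) (nat_lit 26299788196) (nat_lit 152) (nat_lit 2437259349) (nat_lit 0) (nat_lit 9810803827) (nat_lit 9) (nat_lit 5) (nat_lit 11) (nat_lit 4) (nat_lit 9) (nat_lit 4) (nat_lit 308) (nat_lit 224) (nat_lit 188)) (XT.lf (nat_lit 0) (nat_lit 7914236226) (nat_lit 76) (nat_lit 24518232949) (nat_lit 76) (nat_lit 7865388008) (nat_lit 8) (nat_lit 4) (nat_lit 9) (nat_lit 5) (nat_lit 9) (nat_lit 4) (nat_lit 309) (nat_lit 224) (nat_lit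 187))))) (XT.nd (nat_lit 234) (nat_lit 76) (nat_lit 0) (XT.nd (nat_lit 78) (nat_lit 76) (nat_lit 0) (XT.lf (nat_lit 0) (nat_lit 18707892079) (nat_lit 76) (nat_lit 20118879874) (nat_lit 76) (nat_lit 3309977245) (nat_lit 8) (nat_lit 4) (nat_lit 9) (nat_lit 5) (nat_lit 9) (nat_lit 4) (nat_lit 310) (nat_lit 224) (nat_lit 186)) (XT.nd (nat_lit 78) (nat_lit 0) (nat_lit 0) (XT.lf (nat_lit 0) (nat_lit 1376998810) (nat_lit 152) (nat_lit 14162221411) (nat_lit 76) (nat_lit 28529997351) (nat_lit 7) (nat_lit 5) (nat_lit 9) (nat_lit 5) (nat_lit 8) (nat_lit 4) (nat_lit 311) (nat_lit 224) (nat_lit 185)) (XT.lf (nat_lit 0) (nat_lit 6166259158) (nat_lit 152) (nat_lit 4581571828) (nat_lit 76) (nat_lit 35351434795) (nat_lit 7) (nat_lit 5) (nat_lit 9) (nat_lit 5) (nat_lit 8) (nat_lit 4) (nat_lit 312) (nat_lit 224) (nat_lit 184)))) (XT.nd (nat_lit 78) (nat_lit 0) (nat_lit 0) (XT.lf (nat_lit 0) (nat_lit 5474548382)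 (nat_lit 76) (nat_lit 5711872701) (nat_lit 152) (nat_lit 37044681971) (nat_lit 6) (nat_lit 5) (nat_lit 7) (nat_lit 5) (nat_lit 8) (nat_lit 4) (nat_lit 313) (nat_lit 224) (nat_lit 183)) (XT.nd (nat_lit 78) (nat_lit 0) (nat_lit 0) (XT.lf (nat_lit 0) (nat_lit 16021990280) (nat_lit 76) (nat_lit 423460824) (nat_lit 152) (nat_lit 34024473679) (nat_lit 6) (nat_lit 5) (nat_lit 7) (nat_lit 5) (nat_lit 8) (nat_lit 4) (nat_lit 314) (nat_lit 224) (nat_lit 182)) (XT.lf (nat_lit 0) (nat_lit 21959821286) (nat_lit 152) (nat_lit 25876592395) (nat_lit 0) (nat_lit 4984529300) (nat_lit 6) (nat_lit 5) (nat_lit 8) (nat_lit 4) (nat_lit 6) (nat_lit 4) (nat_lit 315) (nat_lit 224) (nat_lit 181))))))))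
noncomputable def xc23 : XT := (XT.nd (nat_lit 34242) (nat_lit 0) (nat_lit 988) (XT.nd (nat_lit 858) (nat_lit 0) (nat_lit 0) (XT.nd (nat_lit 390) (nat_lit 152) (nat_lit 0) (XT.nd (nat_lit 156) (nat_lit 76) (nat_lit 0) (XT.nd (nat_lit 78) (nat_lit 0) (nat_lit 0) (XT.lf (nat_lit 0) (nat_lit 27699976449) (nat_lit 152) (nat_lit 16979435758) (nat_lit 0) (nat_lit 10611623639) (nat_lit 6) (nat_lit 5) (nat_lit 8) (nat_lit 4) (nat_lit 6) (nat_lit 4) (nat_lit 316) (nat_lit 224) (nat_lit 180)) (XT.lf (nat_lit 0) (nat_lit 33675513066) (nat_lit 152) (nat_lit 7731210323) (nat_lit 0) (nat_lit 16479483281) (nat_lit 6) (nat_lit 5) (nat_lit 8) (nat_lit 4) (nat_lit 6) (nat_lit 4) (nat_lit 317) (nat_lit 224) (nat_lit 179))) (XT.nd (nat_lit 78) (nat_lit 0) (nat_lit 0) (XT.lf (nat_lit 0) (nat_lit 1927720260) (nat_lit 76) (nat_lit 37991468772) (nat_lit 76) (nat_lit 20692889486) (nat_lit 5) (nat_lit 4) (nat_lit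 6) (nat_lit 5) (nat_lit 6) (nat_lit 4) (nat_lit 318) (nat_lit 224) (nat_lit 178)) (XT.nd (nat_lit 78) (nat_lit 0) (nat_lit 0) (XT.lf (nat_lit 0) (nat_lit 12144394463) (nat_lit 76) (nat_lit 34362579729) (nat_lit 76) (nat_lit 16966334252) (nat_lit 5) (nat_lit 4) (nat_lit 6) (nat_lit 5) (nat_lit 6) (nat_lit 4) (nat_lit 319) (nat_lit 224) (nat_lit 177)) (XT.lf (nat_lit 0) (nat_lit 22789271456) (nat_lit 76) (nat_lit 30589486112) (nat_lit 76) (nat_lit 13100225215) (nat_lit 5) (nat_lit 4) (nat_lit 6) (nat_lit 5) (nat_lit 6) (nat_lit 4) (nat_lit 320) (nat_lit 224) (nat_lit 176))))) (XT.nd (nat_lit 234) (nat_lit 152) (nat_lit 0) (XT.nd (nat_lit 78) (nat_lit 0) (nat_lit 0) (XT.lf (nat_lit 0) (nat_lit 33887696184) (nat_lit 76) (nat_lit 26663204365) (nat_lit 76) (nat_lit 9085357354) (nat_lit 5) (nat_lit 4) (nat_lit 6) (nat_lit 5) (nat_lit 6) (nat_lit 4) (nat_lit 321) (nat_lit 224) (nat_lit 175)) (XT.nd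 (nat_lit 78) (nat_lit 0) (nat_lit 0) (XT.lf (nat_lit 0) (nat_lit 45466093468) (nat_lit 76) (nat_lit 22574386200) (nat_lit 76) (nat_lit 4912171460) (nat_lit 5) (nat_lit 4) (nat_lit 6) (nat_lit 5) (nat_lit 6) (nat_lit 4) (nat_lit 322) (nat_lit 224) (nat_lit 174)) (XT.lf (nat_lit 0) (nat_lit 57552030921) (nat_lit 76) (nat_lit 18313296333) (nat_lit 76) (nat_lit 570731377) (nat_lit 5) (nat_lit 4) (nat_lit 6) (nat_lit 5) (nat_lit 6) (nat_lit 4) (nat_lit 323) (nat_lit 224) (nat_lit 173)))) (XT.nd (nat_lit 78) (nat_lit 76) (nat_lit 0) (XT.lf (nat_lit 0) (nat_lit 3872234597) (nat_lit 152) (nat_lit 9958452740) (nat_lit 76) (nat_lit 66262948009) (nat_lit 4) (nat_lit 5) (nat_lit 6) (nat_lit 5) (nat_lit 5) (nat_lit 4) (nat_lit 324) (nat_lit 224) (nat_lit 172)) (XT.nd (nat_lit 78) (nat_lit 76) (nat_lit 0) (XT.lf (nat_lit 0) (nat_lit 8489721519) (nat_lit 152) (nat_lit 657834303) (nat_lit 76) (nat_lit 74787456380)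 (nat_lit 4) (nat_lit 5) (nat_lit 6) (nat_lit 5) (nat_lit 5) (nat_lit 4) (nat_lit 325) (nat_lit 224) (nat_lit 171)) (XT.lf (nat_lit 0) (nat_lit 9225480502) (nat_lit 76) (nat_lit 4167060891) (nat_lit 152) (nat_lit 74574298099) (nat_lit 3) (nat_lit 5) (nat_lit 4) (nat_lit 5) (nat_lit 5) (nat_lit 4) (nat_lit 326) (nat_lit 224) (nat_lit 170)))))) (XT.nd (nat_lit 390) (nat_lit 0) (nat_lit 0) (XT.nd (nat_lit 156) (nat_lit 0) (nat_lit 0) (XT.nd (nat_lit 78) (nat_lit 0) (nat_lit 0) (XT.lf (nat_lit 0) (nat_lit 18524115852) (nat_lit 152) (nat_lit 72654943186) (nat_lit 0) (nat_lit 1021705319) (nat_lit 3) (nat_lit 5) (nat_lit 5) (nat_lit 4) (nat_lit 3) (nat_lit 4) (nat_lit 327) (nat_lit 224) (nat_lit 169)) (XT.lf (nat_lit 0) (nat_lit 23922482205) (nat_lit 152) (nat_lit 66364661931) (nat_lit 0) (nat_lit 6358948858) (nat_lit 3) (nat_lit 5) (nat_lit 5) (nat_lit 4) (nat_lit 3) (nat_lit 4) (nat_lit 328) (nat_lit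 224) (nat_lit 168))) (XT.nd (nat_lit 78) (nat_lit 0) (nat_lit 0) (XT.lf (nat_lit 0) (nat_lit 29560437365) (nat_lit 152) (nat_lit 59815482025) (nat_lit 0) (nat_lit 11938691816) (nat_lit 3) (nat_lit 5) (nat_lit 5) (nat_lit 4) (nat_lit 3) (nat_lit 4) (nat_lit 329) (nat_lit 224) (nat_lit 167)) (XT.nd (nat_lit 78) (nat_lit 0) (nat_lit 0) (XT.lf (nat_lit 0) (nat_lit 35451405037) (nat_lit 152) (nat_lit 52991810185) (nat_lit 0) (nat_lit 17774219294) (nat_lit 3) (nat_lit 5) (nat_lit 5) (nat_lit 4) (nat_lit 3) (nat_lit 4) (nat_lit 330) (nat_lit 224) (nat_lit 166)) (XT.lf (nat_lit 0) (nat_lit 41609411333) (nat_lit 152) (nat_lit 45877399570) (nat_lit 0) (nat_lit 23879425406) (nat_lit 3) (nat_lit 5) (nat_lit 5) (nat_lit 4) (nat_lit 3) (nat_lit 4) (nat_lit 331) (nat_lit 224) (nat_lit 165))))) (XT.nd (nat_lit 32760) (nat_lit 0) (nat_lit 4408) (XT.nd (nat_lit 78) (nat_lit 0) (nat_lit 0) (XT.lf (nat_lit 0)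 (nat_lit 48049118173) (nat_lit 152) (nat_lit 38455311110) (nat_lit 0) (nat_lit 30268846357) (nat_lit 3) (nat_lit 5) (nat_lit 5) (nat_lit 4) (nat_lit 3) (nat_lit 4) (nat_lit 332) (nat_lit 224) (nat_lit 164)) (XT.nd (nat_lit 32604) (nat_lit 0) (nat_lit 5320) (XT.lf (nat_lit 0) (nat_lit 54785858193) (nat_lit 152) (nat_lit 30707873165) (nat_lit 0) (nat_lit 36957695053) (nat_lit 3) (nat_lit 5) (nat_lit 5) (nat_lit 4) (nat_lit 3) (nat_lit 4) (nat_lit 333) (nat_lit 224) (nat_lit 163)) (XT.lf (nat_lit 0) (nat_lit 803374820) (nat_lit 380) (nat_lit 3202048384) (nat_lit 0) (nat_lit 803374820) (nat_lit 73) (nat_lit 5) (nat_lit 78) (nat_lit 4) (nat_lit 73) (nat_lit 4) (nat_lit 270) (nat_lit 225) (nat_lit 225)))) (XT.nd (nat_lit 78) (nat_lit 608) (nat_lit 0) (XT.lf (nat_lit 0) (nat_lit 4030278701) (nat_lit 304) (nat_lit 3627652308) (nat_lit 304) (nat_lit 2206877565) (nat_lit 69) (nat_lit 4) (nat_lit 73)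 (nat_lit 5) (nat_lit 73) (nat_lit 4) (nat_lit 271) (nat_lit 225) (nat_lit 224)) (XT.nd (nat_lit 78) (nat_lit 304) (nat_lit 0) (XT.lf (nat_lit 0) (nat_lit 3693307272) (nat_lit 304) (nat_lit 5433589754) (nat_lit 0) (nat_lit 1000206742) (nat_lit 65) (nat_lit 5) (nat_lit 69) (nat_lit 4) (nat_lit 65) (nat_lit 4) (nat_lit 272) (nat_lit 225) (nat_lit 223)) (XT.lf (nat_lit 0) (nat_lit 5166320948) (nat_lit 304) (nat_lit 4591314786) (nat_lit 304) (nat_lit 647064185) (nat_lit 61) (nat_lit 4) (nat_lit 65) (nat_lit 5) (nat_lit 65) (nat_lit 4) (nat_lit 273) (nat_lit 225) (nat_lit 222))))))) (XT.nd (nat_lit 858) (nat_lit 1064) (nat_lit 0) (XT.nd (nat_lit 390) (nat_lit 1064) (nat_lit 0) (XT.nd (nat_lit 156) (nat_lit 684) (nat_lit 0) (XT.nd (nat_lit 78) (nat_lit 304) (nat_lit 0) (XT.lf (nat_lit 0) (nat_lit 5206694696) (nat_lit 304) (nat_lit 5271210551) (nat_lit 0) (nat_lit 220459649) (nat_lit 57) (nat_lit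 5) (nat_lit 61) (nat_lit 4) (nat_lit 57) (nat_lit 4) (nat_lit 274) (nat_lit 225) (nat_lit 221)) (XT.lf (nat_lit 0) (nat_lit 258504685) (nat_lit 304) (nat_lit 5563247230) (nat_lit 76) (nat_lit 5186963489) (nat_lit 53) (nat_lit 5) (nat_lit 57) (nat_lit 5) (nat_lit 54) (nat_lit 4) (nat_lit 275) (nat_lit 225) (nat_lit 220))) (XT.nd (nat_lit 78) (nat_lit 456) (nat_lit 0) (XT.lf (nat_lit 0) (nat_lit 5190418027) (nat_lit 228) (nat_lit 882360745) (nat_lit 304) (nat_lit 5263700527) (nat_lit 50) (nat_lit 5) (nat_lit 53) (nat_lit 5) (nat_lit 54) (nat_lit 4) (nat_lit 276) (nat_lit 225) (nat_lit 219)) (XT.nd (nat_lit 78) (nat_lit 152) (nat_lit 0) (XT.lf (nat_lit 0) (nat_lit 420918026) (nat_lit 304) (nat_lit 7045212933) (nat_lit 76) (nat_lit 4216567116) (nat_lit 46) (nat_lit 5) (nat_lit 50) (nat_lit 5) (nat_lit 47) (nat_lit 4) (nat_lit 277) (nat_lit 225) (nat_lit 218)) (XT.lf (nat_lit 0) (nat_lit 3733564100)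 (nat_lit 152) (nat_lit 2452286003) (nat_lit 228) (nat_lit 5861870236) (nat_lit 44) (nat_lit 5) (nat_lit 46) (nat_lit 5) (nat_lit 47) (nat_lit 4) (nat_lit 278) (nat_lit 225) (nat_lit 217))))) (XT.nd (nat_lit 234) (nat_lit 608) (nat_lit 0) (XT.nd (nat_lit 78) (nat_lit 228) (nat_lit 0) (XT.lf (nat_lit 0) (nat_lit 2473413905) (nat_lit 228) (nat_lit 9690568741) (nat_lit 228) (nat_lit 269457068) (nat_lit 41) (nat_lit 4) (nat_lit 44) (nat_lit 5) (nat_lit 44) (nat_lit 4) (nat_lit 279) (nat_lit 225) (nat_lit 216)) (XT.nd (nat_lit 78) (nat_lit 0) (nat_lit 0) (XT.lf (nat_lit 0) (nat_lit 761879325) (nat_lit 152) (nat_lit 4655217516) (nat_lit 228) (nat_lit 7422197105) (nat_lit 38) (nat_lit 5) (nat_lit 40) (nat_lit 5) (nat_lit 41) (nat_lit 4) (nat_lit 280) (nat_lit 225) (nat_lit 215)) (XT.lf (nat_lit 0) (nat_lit 11302671494) (nat_lit 228) (nat_lit 1351702139) (nat_lit 0) (nat_lit 613550625) (nat_lit 38)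 (nat_lit 5) (nat_lit 41) (nat_lit 4) (nat_lit 38) (nat_lit 4) (nat_lit 281) (nat_lit 225) (nat_lit 214)))) (XT.nd (nat_lit 78) (nat_lit 380) (nat_lit 0) (XT.lf (nat_lit 0) (nat_lit 3650955318) (nat_lit 228) (nat_lit 3994248589) (nat_lit 76) (nat_lit 6073058744) (nat_lit 35) (nat_lit 5) (nat_lit 38) (nat_lit 5) (nat_lit 36) (nat_lit 4) (nat_lit 282) (nat_lit 225) (nat_lit 213)) (XT.nd (nat_lit 78) (nat_lit 228) (nat_lit 0) (XT.lf (nat_lit 0) (nat_lit 7019908188) (nat_lit 152) (nat_lit 2392919818) (nat_lit 228) (nat_lit 4780692179) (nat_lit 33) (nat_lit 5) (nat_lit 35) (nat_lit 5) (nat_lit 36) (nat_lit 4) (nat_lit 283) (nat_lit 225) (nat_lit 212)) (XT.lf (nat_lit 0) (nat_lit 690135252) (nat_lit 228) (nat_lit 10966093469) (nat_lit 76) (nat_lit 3038181935) (nat_lit 30) (nat_lit 5) (nat_lit 33) (nat_lit 5) (nat_lit 31) (nat_lit 4) (nat_lit 284) (nat_lit 225) (nat_lit 211)))))) (XT.nd (nat_lit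 468) (nat_lit 380) (nat_lit 0) (XT.nd (nat_lit 234) (nat_lit 304) (nat_lit 0) (XT.nd (nat_lit 78) (nat_lit 380) (nat_lit 0) (XT.lf (nat_lit 0) (nat_lit 6267275369) (nat_lit 228) (nat_lit 245467511) (nat_lit 76) (nat_lit 8708366365) (nat_lit 30) (nat_lit 5) (nat_lit 33) (nat_lit 5) (nat_lit 31) (nat_lit 4) (nat_lit 285) (nat_lit 225) (nat_lit 210)) (XT.nd (nat_lit 78) (nat_lit 228) (nat_lit 0) (XT.lf (nat_lit 0) (nat_lit 10958893114) (nat_lit 152) (nat_lit 1109717996) (nat_lit 228) (nat_lit 3707298064) (nat_lit 28) (nat_lit 5) (nat_lit 30) (nat_lit 5) (nat_lit 31) (nat_lit 4) (nat_lit 286) (nat_lit 225) (nat_lit 209)) (XT.lf (nat_lit 0) (nat_lit 1715799454) (nat_lit 228) (nat_lit 10192153871) (nat_lit 76) (nat_lit 4451611580) (nat_lit 25) (nat_lit 5) (nat_lit 28) (nat_lit 5) (nat_lit 26) (nat_lit 4) (nat_lit 287) (nat_lit 225) (nat_lit 208)))) (XT.nd (nat_lit 78) (nat_lit 228) (nat_lit 0)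 (XT.lf (nat_lit 0) (nat_lit 534205479) (nat_lit 76) (nat_lit 6713799866) (nat_lit 152) (nat_lit 9725969577) (nat_lit 24) (nat_lit 5) (nat_lit 25) (nat_lit 5) (nat_lit 26) (nat_lit 4) (nat_lit 288) (nat_lit 225) (nat_lit 207)) (XT.nd (nat_lit 78) (nat_lit 228) (nat_lit 0) (XT.lf (nat_lit 0) (nat_lit 11759348215) (nat_lit 76) (nat_lit 1254746025) (nat_lit 152) (nat_lit 4606399169) (nat_lit 24) (nat_lit 5) (nat_lit 25) (nat_lit 5) (nat_lit 26) (nat_lit 4) (nat_lit 289) (nat_lit 225) (nat_lit 206)) (XT.lf (nat_lit 0) (nat_lit 703669750) (nat_lit 228) (nat_lit 13247689075) (nat_lit 76) (nat_lit 4349369478) (nat_lit 21) (nat_lit 5) (nat_lit 24) (nat_lit 5) (nat_lit 22) (nat_lit 4) (nat_lit 290) (nat_lit 225) (nat_lit 205))))) (XT.nd (nat_lit 234) (nat_lit 304) (nat_lit 0) (XT.nd (nat_lit 78) (nat_lit 76) (nat_lit 0) (XT.lf (nat_lit 0) (nat_lit 6119929889) (nat_lit 228) (nat_lit 2675389950) (nat_lit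 76) (nat_lit 10220301690) (nat_lit 21) (nat_lit 5) (nat_lit 24) (nat_lit 5) (nat_lit 22) (nat_lit 4) (nat_lit 291) (nat_lit 225) (nat_lit 204)) (XT.nd (nat_lit 78) (nat_lit 0) (nat_lit 0) (XT.lf (nat_lit 0) (nat_lit 8362144160) (nat_lit 76) (nat_lit 3393309900) (nat_lit 152) (nat_lit 8012440853) (nat_lit 20) (nat_lit 5) (nat_lit 21) (nat_lit 5) (nat_lit 22) (nat_lit 4) (nat_lit 292) (nat_lit 225) (nat_lit 203)) (XT.lf (nat_lit 0) (nat_lit 17593821952) (nat_lit 152) (nat_lit 794762734) (nat_lit 0) (nat_lit 2171650042) (nat_lit 20) (nat_lit 5) (nat_lit 22) (nat_lit 4) (nat_lit 20) (nat_lit 4) (nat_lit 293) (nat_lit 225) (nat_lit 202)))) (XT.nd (nat_lit 78) (nat_lit 76) (nat_lit 0) (XT.lf (nat_lit 0) (nat_lit 2297184553) (nat_lit 228) (nat_lit 11113403663) (nat_lit 76) (nat_lit 7980686086) (nat_lit 17) (nat_lit 5) (nat_lit 20) (nat_lit 5) (nat_lit 18) (nat_lit 4) (nat_lit 294) (nat_lit 225)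 (nat_lit 201)) (XT.nd (nat_lit 78) (nat_lit 76) (nat_lit 0) (XT.lf (nat_lit 0) (nat_lit 7651519831) (nat_lit 228) (nat_lit 581737712) (nat_lit 76) (nat_lit 14033134622) (nat_lit 17) (nat_lit 5) (nat_lit 20) (nat_lit 5) (nat_lit 18) (nat_lit 4) (nat_lit 295) (nat_lit 225) (nat_lit 200)) (XT.lf (nat_lit 0) (nat_lit 10482161541) (nat_lit 76) (nat_lit 2777957342) (nat_lit 152) (nat_lit 9925621738) (nat_lit 16) (nat_lit 5) (nat_lit 17) (nat_lit 5) (nat_lit 18) (nat_lit 4) (nat_lit 296) (nat_lit 225) (nat_lit 199))))))))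
noncomputable def xc24 : XT := (XT.nd (nat_lit 1716) (nat_lit 228) (nat_lit 0) (XT.nd (nat_lit 858) (nat_lit 228) (nat_lit 0) (XT.nd (nat_lit 390) (nat_lit 228) (nat_lit 0) (XT.nd (nat_lit 156) (nat_lit 76) (nat_lit 0) (XT.nd (nat_lit 78) (nat_lit 228) (nat_lit 0) (XT.lf (nat_lit 0) (nat_lit 19072127997) (nat_lit 152) (nat_lit 2263668524) (nat_lit 0) (nat_lit 2817638301) (nat_lit 16) (nat_lit 5) (nat_lit 18) (nat_lit 4) (nat_lit 16) (nat_lit 4) (nat_lit 297) (nat_lit 225) (nat_lit 198)) (XT.lf (nat_lit 0) (nat_lit 10201646) (nat_lit 228) (nat_lit 16516946874) (nat_lit 76) (nat_lit 8642273932) (nat_lit 13) (nat_lit 5) (nat_lit 16) (nat_lit 5) (nat_lit 14) (nat_lit 4) (nat_lit 298) (nat_lit 225) (nat_lit 197))) (XT.nd (nat_lit 78) (nat_lit 76) (nat_lit 0) (XT.lf (nat_lit 0) (nat_lit 5171820677) (nat_lit 228) (nat_lit 6308542643) (nat_lit 76) (nat_lit 14756777755) (nat_lit 13) (nat_lit 5) (nat_lit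 16) (nat_lit 5) (nat_lit 14) (nat_lit 4) (nat_lit 299) (nat_lit 225) (nat_lit 196)) (XT.nd (nat_lit 78) (nat_lit 0) (nat_lit 0) (XT.lf (nat_lit 0) (nat_lit 4320062177) (nat_lit 76) (nat_lit 6214046777) (nat_lit 152) (nat_lit 16825915823) (nat_lit 12) (nat_lit 5) (nat_lit 13) (nat_lit 5) (nat_lit 14) (nat_lit 4) (nat_lit 300) (nat_lit 225) (nat_lit 195)) (XT.lf (nat_lit 0) (nat_lit 15442410199) (nat_lit 76) (nat_lit 691185410) (nat_lit 152) (nat_lit 12406438631) (nat_lit 12) (nat_lit 5) (nat_lit 13) (nat_lit 5) (nat_lit 14) (nat_lit 4) (nat_lit 301) (nat_lit 225) (nat_lit 194))))) (XT.nd (nat_lit 234) (nat_lit 76) (nat_lit 0) (XT.nd (nat_lit 78) (nat_lit 152) (nat_lit 0) (XT.lf (nat_lit 0) (nat_lit 21970189429) (nat_lit 152) (nat_lit 2870828760) (nat_lit 0) (nat_lit 4939363519) (nat_lit 12) (nat_lit 5) (nat_lit 14) (nat_lit 4) (nat_lit 12) (nat_lit 4) (nat_lit 302) (nat_lit 225) (nat_lit 193))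 (XT.nd (nat_lit 78) (nat_lit 76) (nat_lit 0) (XT.lf (nat_lit 0) (nat_lit 7857893672) (nat_lit 76) (nat_lit 20235643165) (nat_lit 76) (nat_lit 2989411062) (nat_lit 11) (nat_lit 4) (nat_lit 12) (nat_lit 5) (nat_lit 12) (nat_lit 4) (nat_lit 303) (nat_lit 225) (nat_lit 192)) (XT.lf (nat_lit 0) (nat_lit 1976057258) (nat_lit 152) (nat_lit 13439984625) (nat_lit 76) (nat_lit 17035725599) (nat_lit 10) (nat_lit 5) (nat_lit 12) (nat_lit 5) (nat_lit 11) (nat_lit 4) (nat_lit 304) (nat_lit 225) (nat_lit 191)))) (XT.nd (nat_lit 78) (nat_lit 76) (nat_lit 0) (XT.lf (nat_lit 0) (nat_lit 7046874737) (nat_lit 152) (nat_lit 3341604910) (nat_lit 76) (nat_lit 23502136620) (nat_lit 10) (nat_lit 5) (nat_lit 12) (nat_lit 5) (nat_lit 11) (nat_lit 4) (nat_lit 305) (nat_lit 225) (nat_lit 190)) (XT.nd (nat_lit 78) (nat_lit 0) (nat_lit 0) (XT.lf (nat_lit 0) (nat_lit 7264623701) (nat_lit 76) (nat_lit 5098657232) (nat_lit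 152) (nat_lit 23038406271) (nat_lit 9) (nat_lit 5) (nat_lit 10) (nat_lit 5) (nat_lit 11) (nat_lit 4) (nat_lit 306) (nat_lit 225) (nat_lit 189)) (XT.lf (nat_lit 0) (nat_lit 17908678841) (nat_lit 152) (nat_lit 18657585243) (nat_lit 0) (nat_lit 423191653) (nat_lit 9) (nat_lit 5) (nat_lit 11) (nat_lit 4) (nat_lit 9) (nat_lit 4) (nat_lit 307) (nat_lit 225) (nat_lit 188)))))) (XT.nd (nat_lit 390) (nat_lit 76) (nat_lit 0) (XT.nd (nat_lit 156) (nat_lit 76) (nat_lit 0) (XT.nd (nat_lit 78) (nat_lit 76) (nat_lit 0) (XT.lf (nat_lit 0) (nat_lit 23710477099) (nat_lit 152) (nat_lit 8885669668) (nat_lit 0) (nat_lit 6061129339) (nat_lit 9) (nat_lit 5) (nat_lit 11) (nat_lit 4) (nat_lit 9) (nat_lit 4) (nat_lit 308) (nat_lit 225) (nat_lit 187)) (XT.lf (nat_lit 0) (nat_lit 1275857676) (nat_lit 76) (nat_lit 28469884748) (nat_lit 76) (nat_lit 10664479301) (nat_lit 8) (nat_lit 4) (nat_lit 9) (nat_lit 5) (nat_lit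 9) (nat_lit 4) (nat_lit 309) (nat_lit 225) (nat_lit 186))) (XT.nd (nat_lit 78) (nat_lit 76) (nat_lit 0) (XT.lf (nat_lit 0) (nat_lit 12010816176) (nat_lit 76) (nat_lit 24096661461) (nat_lit 76) (nat_lit 6142629645) (nat_lit 8) (nat_lit 4) (nat_lit 9) (nat_lit 5) (nat_lit 9) (nat_lit 4) (nat_lit 310) (nat_lit 225) (nat_lit 185)) (XT.nd (nat_lit 78) (nat_lit 76) (nat_lit 0) (XT.lf (nat_lit 0) (nat_lit 23167923005) (nat_lit 76) (nat_lit 19555792310) (nat_lit 76) (nat_lit 1460211571) (nat_lit 8) (nat_lit 4) (nat_lit 9) (nat_lit 5) (nat_lit 9) (nat_lit 4) (nat_lit 311) (nat_lit 225) (nat_lit 184)) (XT.lf (nat_lit 0) (nat_lit 3327695862) (nat_lit 152) (nat_lit 11475166636) (nat_lit 76) (nat_lit 31412443639) (nat_lit 7) (nat_lit 5) (nat_lit 9) (nat_lit 5) (nat_lit 8) (nat_lit 4) (nat_lit 312) (nat_lit 225) (nat_lit 183))))) (XT.nd (nat_lit 234) (nat_lit 0) (nat_lit 0) (XT.nd (nat_lit 78) (nat_lit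 76) (nat_lit 0) (XT.lf (nat_lit 0) (nat_lit 8266807460) (nat_lit 152) (nat_lit 1577159138) (nat_lit 76) (nat_lit 38505622173) (nat_lit 7) (nat_lit 5) (nat_lit 9) (nat_lit 5) (nat_lit 8) (nat_lit 4) (nat_lit 313) (nat_lit 225) (nat_lit 182)) (XT.nd (nat_lit 78) (nat_lit 0) (nat_lit 0) (XT.lf (nat_lit 0) (nat_lit 8889079705) (nat_lit 76) (nat_lit 4593744565) (nat_lit 152) (nat_lit 37106889817) (nat_lit 6) (nat_lit 5) (nat_lit 7) (nat_lit 5) (nat_lit 8) (nat_lit 4) (nat_lit 314) (nat_lit 225) (nat_lit 181)) (XT.lf (nat_lit 0) (nat_lit 18930664391) (nat_lit 152) (nat_lit 33137243240) (nat_lit 0) (nat_lit 874833116) (nat_lit 6) (nat_lit 5) (nat_lit 8) (nat_lit 4) (nat_lit 6) (nat_lit 4) (nat_lit 315) (nat_lit 225) (nat_lit 180)))) (XT.nd (nat_lit 78) (nat_lit 0) (nat_lit 0) (XT.lf (nat_lit 0) (nat_lit 24645635992) (nat_lit 152) (nat_lit 24285837351) (nat_lit 0) (nat_lit 6482127741) (nat_lit 6)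 (nat_lit 5) (nat_lit 8) (nat_lit 4) (nat_lit 6) (nat_lit 4) (nat_lit 316) (nat_lit 225) (nat_lit 179)) (XT.nd (nat_lit 78) (nat_lit 0) (nat_lit 0) (XT.lf (nat_lit 0) (nat_lit 30597188263) (nat_lit 152) (nat_lit 15081184057) (nat_lit 0) (nat_lit 12331130512) (nat_lit 6) (nat_lit 5) (nat_lit 8) (nat_lit 4) (nat_lit 6) (nat_lit 4) (nat_lit 317) (nat_lit 225) (nat_lit 178)) (XT.lf (nat_lit 0) (nat_lit 36799491569) (nat_lit 152) (nat_lit 5501367516) (nat_lit 0) (nat_lit 18435767627) (nat_lit 6) (nat_lit 5) (nat_lit 8) (nat_lit 4) (nat_lit 6) (nat_lit 4) (nat_lit 318) (nat_lit 225) (nat_lit 177))))))) (XT.nd (nat_lit 858) (nat_lit 0) (nat_lit 0) (XT.nd (nat_lit 390) (nat_lit 152) (nat_lit 0) (XT.nd (nat_lit 156) (nat_lit 0) (nat_lit 0) (XT.nd (nat_lit 78) (nat_lit 0) (nat_lit 0) (XT.lf (nat_lit 0) (nat_lit 4565510920) (nat_lit 76) (nat_lit 38745688861) (nat_lit 76) (nat_lit 20288949499) (nat_lit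 5) (nat_lit 4) (nat_lit 6) (nat_lit 5) (nat_lit 6) (nat_lit 4) (nat_lit 319) (nat_lit 225) (nat_lit 176)) (XT.lf (nat_lit 0) (nat_lit 15171999564) (nat_lit 76) (nat_lit 34989896001) (nat_lit 76) (nat_lit 16444570525) (nat_lit 5) (nat_lit 4) (nat_lit 6) (nat_lit 5) (nat_lit 6) (nat_lit 4) (nat_lit 320) (nat_lit 225) (nat_lit 175))) (XT.nd (nat_lit 78) (nat_lit 0) (nat_lit 0) (XT.lf (nat_lit 0) (nat_lit 26233863960) (nat_lit 76) (nat_lit 31080091166) (nat_lit 76) (nat_lit 12450397962) (nat_lit 5) (nat_lit 4) (nat_lit 6) (nat_lit 5) (nat_lit 6) (nat_lit 4) (nat_lit 321) (nat_lit 225) (nat_lit 174)) (XT.nd (nat_lit 78) (nat_lit 0) (nat_lit 0) (XT.lf (nat_lit 0) (nat_lit 37777441881) (nat_lit 76) (nat_lit 27006965297) (nat_lit 76) (nat_lit 8296921875) (nat_lit 5) (nat_lit 4) (nat_lit 6) (nat_lit 5) (nat_lit 6) (nat_lit 4) (nat_lit 322) (nat_lit 225) (nat_lit 173)) (XT.lf (nat_lit 0) (nat_lit 49830218034)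 (nat_lit 76) (nat_lit 22760820474) (nat_lit 76) (nat_lit 3974253037) (nat_lit 5) (nat_lit 4) (nat_lit 6) (nat_lit 5) (nat_lit 6) (nat_lit 4) (nat_lit 323) (nat_lit 225) (nat_lit 172))))) (XT.nd (nat_lit 234) (nat_lit 0) (nat_lit 0) (XT.nd (nat_lit 78) (nat_lit 76) (nat_lit 0) (XT.lf (nat_lit 0) (nat_lit 517599379) (nat_lit 152) (nat_lit 17808720712) (nat_lit 76) (nat_lit 61898063389) (nat_lit 4) (nat_lit 5) (nat_lit 6) (nat_lit 5) (nat_lit 5) (nat_lit 4) (nat_lit 324) (nat_lit 225) (nat_lit 171)) (XT.nd (nat_lit 78) (nat_lit 76) (nat_lit 0) (XT.lf (nat_lit 0) (nat_lit 5118392469) (nat_lit 152) (nat_lit 8538520278) (nat_lit 76) (nat_lit 70409355892) (nat_lit 4) (nat_lit 5) (nat_lit 6) (nat_lit 5) (nat_lit 5) (nat_lit 4) (nat_lit 325) (nat_lit 225) (nat_lit 170)) (XT.lf (nat_lit 0) (nat_lit 1158407346) (nat_lit 76) (nat_lit 8769360466) (nat_lit 152) (nat_lit 78173138584) (nat_lit 3) (nat_lit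 5) (nat_lit 4) (nat_lit 5) (nat_lit 5) (nat_lit 4) (nat_lit 326) (nat_lit 225) (nat_lit 169)))) (XT.nd (nat_lit 78) (nat_lit 0) (nat_lit 0) (XT.lf (nat_lit 0) (nat_lit 11460926115) (nat_lit 76) (nat_lit 3572987149) (nat_lit 152) (nat_lit 77301687660) (nat_lit 3) (nat_lit 5) (nat_lit 4) (nat_lit 5) (nat_lit 5) (nat_lit 4) (nat_lit 327) (nat_lit 225) (nat_lit 168)) (XT.nd (nat_lit 78) (nat_lit 0) (nat_lit 0) (XT.lf (nat_lit 0) (nat_lit 20383138996) (nat_lit 152) (nat_lit 74577177285) (nat_lit 0) (nat_lit 1822093966) (nat_lit 3) (nat_lit 5) (nat_lit 5) (nat_lit 4) (nat_lit 3) (nat_lit 4) (nat_lit 328) (nat_lit 225) (nat_lit 167)) (XT.lf (nat_lit 0) (nat_lit 26007003792) (nat_lit 152) (nat_lit 68053834970) (nat_lit 0) (nat_lit 7390518569) (nat_lit 3) (nat_lit 5) (nat_lit 5) (nat_lit 4) (nat_lit 3) (nat_lit 4) (nat_lit 329) (nat_lit 225) (nat_lit 166)))))) (XT.nd (nat_lit 32760) (nat_lit 0) (nat_lit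 4104) (XT.nd (nat_lit 156) (nat_lit 0) (nat_lit 0) (XT.nd (nat_lit 78) (nat_lit 0) (nat_lit 0) (XT.lf (nat_lit 0) (nat_lit 31884552069) (nat_lit 152) (nat_lit 61254770357) (nat_lit 0) (nat_lit 13215266661) (nat_lit 3) (nat_lit 5) (nat_lit 5) (nat_lit 4) (nat_lit 3) (nat_lit 4) (nat_lit 330) (nat_lit 225) (nat_lit 165)) (XT.lf (nat_lit 0) (nat_lit 38029777989) (nat_lit 152) (nat_lit 54163795199) (nat_lit 0) (nat_lit 19310206692) (nat_lit 3) (nat_lit 5) (nat_lit 5) (nat_lit 4) (nat_lit 3) (nat_lit 4) (nat_lit 331) (nat_lit 225) (nat_lit 164))) (XT.nd (nat_lit 156) (nat_lit 0) (nat_lit 0) (XT.lf (nat_lit 0) (nat_lit 44457313042) (nat_lit 152) (nat_lit 46764026221) (nat_lit 0) (nat_lit 25689850422) (nat_lit 3) (nat_lit 5) (nat_lit 5) (nat_lit 4) (nat_lit 3) (nat_lit 4) (nat_lit 332) (nat_lit 225) (nat_lit 163)) (XT.nd (nat_lit 32370) (nat_lit 0) (nat_lit 6004) (XT.lf (nat_lit 0) (nat_lit 58221233772)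 (nat_lit 152) (nat_lit 30966855641) (nat_lit 0) (nat_lit 39364721525) (nat_lit 3) (nat_lit 5) (nat_lit 5) (nat_lit 4) (nat_lit 3) (nat_lit 4) (nat_lit 334) (nat_lit 225) (nat_lit 161)) (XT.lf (nat_lit 0) (nat_lit 334083977) (nat_lit 380) (nat_lit 3912567996) (nat_lit 0) (nat_lit 334083977) (nat_lit 82) (nat_lit 5) (nat_lit 87) (nat_lit 4) (nat_lit 82) (nat_lit 4) (nat_lit 268) (nat_lit 226) (nat_lit 226))))) (XT.nd (nat_lit 234) (nat_lit 912) (nat_lit 0) (XT.nd (nat_lit 78) (nat_lit 684) (nat_lit 0) (XT.lf (nat_lit 0) (nat_lit 2240406634) (nat_lit 304) (nat_lit 4340174732) (nat_lit 304) (nat_lit 2803606848) (nat_lit 78) (nat_lit 4) (nat_lit 82) (nat_lit 5) (nat_lit 82) (nat_lit 4) (nat_lit 269) (nat_lit 226) (nat_lit 225)) (XT.nd (nat_lit 78) (nat_lit 304) (nat_lit 0) (XT.lf (nat_lit 0) (nat_lit 2978822543) (nat_lit 380) (nat_lit 6576289270) (nat_lit 0) (nat_lit 66234320) (nat_lit 73) (nat_lit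 5) (nat_lit 78) (nat_lit 4) (nat_lit 73) (nat_lit 4) (nat_lit 270) (nat_lit 226) (nat_lit 224)) (XT.lf (nat_lit 0) (nat_lit 3687402594) (nat_lit 304) (nat_lit 5225266735) (nat_lit 304) (nat_lit 959559710) (nat_lit 69) (nat_lit 4) (nat_lit 73) (nat_lit 5) (nat_lit 73) (nat_lit 4) (nat_lit 271) (nat_lit 226) (nat_lit 223)))) (XT.nd (nat_lit 78) (nat_lit 608) (nat_lit 0) (XT.lf (nat_lit 0) (nat_lit 4169252731) (nat_lit 228) (nat_lit 620719844) (nat_lit 304) (nat_lit 5348120362) (nat_lit 65) (nat_lit 5) (nat_lit 68) (nat_lit 5) (nat_lit 69) (nat_lit 4) (nat_lit 272) (nat_lit 226) (nat_lit 222)) (XT.nd (nat_lit 78) (nat_lit 228) (nat_lit 0) (XT.lf (nat_lit 0) (nat_lit 307952500) (nat_lit 380) (nat_lit 5959041124) (nat_lit 76) (nat_lit 4152360535) (nat_lit 60) (nat_lit 5) (nat_lit 65) (nat_lit 5) (nat_lit 61) (nat_lit 4) (nat_lit 273) (nat_lit 226) (nat_lit 221)) (XT.lf (nat_lit 0) (nat_lit 4527358578)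 (nat_lit 228) (nat_lit 1505337616) (nat_lit 304) (nat_lit 4683750421) (nat_lit 57) (nat_lit 5) (nat_lit 60) (nat_lit 5) (nat_lit 61) (nat_lit 4) (nat_lit 274) (nat_lit 226) (nat_lit 220))))))))
noncomputable def xc25 : XT := (XT.nd (nat_lit 1716) (nat_lit 760) (nat_lit 0) (XT.nd (nat_lit 858) (nat_lit 1064) (nat_lit 0) (XT.nd (nat_lit 390) (nat_lit 836) (nat_lit 0) (XT.nd (nat_lit 156) (nat_lit 684) (nat_lit 0) (XT.nd (nat_lit 78) (nat_lit 228) (nat_lit 0) (XT.lf (nat_lit 0) (nat_lit 921938795) (nat_lit 304) (nat_lit 6671964410) (nat_lit 76) (nat_lit 3436635734) (nat_lit 53) (nat_lit 5) (nat_lit 57) (nat_lit 5) (nat_lit 54) (nat_lit 4) (nat_lit 275) (nat_lit 226) (nat_lit 219)) (XT.lf (nat_lit 0) (nat_lit 3903237070) (nat_lit 228) (nat_lit 2720448238) (nat_lit 304) (nat_lit 4738101157) (nat_lit 50) (nat_lit 5) (nat_lit 53) (nat_lit 5) (nat_lit 54) (nat_lit 4) (nat_lit 276) (nat_lit 226) (nat_lit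 218))) (XT.nd (nat_lit 78) (nat_lit 380) (nat_lit 0) (XT.lf (nat_lit 0) (nat_lit 805715433) (nat_lit 304) (nat_lit 8553329944) (nat_lit 76) (nat_lit 2352824342) (nat_lit 46) (nat_lit 5) (nat_lit 50) (nat_lit 5) (nat_lit 47) (nat_lit 4) (nat_lit 277) (nat_lit 226) (nat_lit 217)) (XT.nd (nat_lit 78) (nat_lit 228) (nat_lit 0) (XT.lf (nat_lit 0) (nat_lit 2043361871) (nat_lit 152) (nat_lit 4415912787) (nat_lit 228) (nat_lit 5621053443) (nat_lit 44) (nat_lit 5) (nat_lit 46) (nat_lit 5) (nat_lit 47) (nat_lit 4) (nat_lit 278) (nat_lit 226) (nat_lit 216)) (XT.lf (nat_lit 0) (nat_lit 585467482) (nat_lit 228) (nat_lit 11722420107) (nat_lit 228) (nat_lit 162135887) (nat_lit 41) (nat_lit 4) (nat_lit 44) (nat_lit 5) (nat_lit 44) (nat_lit 4) (nat_lit 279) (nat_lit 226) (nat_lit 215))))) (XT.nd (nat_lit 234) (nat_lit 380) (nat_lit 0) (XT.nd (nat_lit 78) (nat_lit 380) (nat_lit 0) (XT.lf (nat_lit 0) (nat_lit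 5424564410) (nat_lit 304) (nat_lit 1323385695) (nat_lit 76) (nat_lit 6130913036) (nat_lit 40) (nat_lit 5) (nat_lit 44) (nat_lit 5) (nat_lit 41) (nat_lit 4) (nat_lit 280) (nat_lit 226) (nat_lit 214)) (XT.nd (nat_lit 78) (nat_lit 228) (nat_lit 0) (XT.lf (nat_lit 0) (nat_lit 9670130298) (nat_lit 152) (nat_lit 1533537571) (nat_lit 228) (nat_lit 2107099339) (nat_lit 38) (nat_lit 5) (nat_lit 40) (nat_lit 5) (nat_lit 41) (nat_lit 4) (nat_lit 281) (nat_lit 226) (nat_lit 213)) (XT.lf (nat_lit 0) (nat_lit 3388418424) (nat_lit 228) (nat_lit 6496494676) (nat_lit 76) (nat_lit 3880010773) (nat_lit 35) (nat_lit 5) (nat_lit 38) (nat_lit 5) (nat_lit 36) (nat_lit 4) (nat_lit 282) (nat_lit 226) (nat_lit 212)))) (XT.nd (nat_lit 78) (nat_lit 228) (nat_lit 0) (XT.lf (nat_lit 0) (nat_lit 4331323988) (nat_lit 152) (nat_lit 4711166393) (nat_lit 228) (nat_lit 5200995160) (nat_lit 33) (nat_lit 5) (nat_lit 35) (nat_lit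 5) (nat_lit 36) (nat_lit 4) (nat_lit 283) (nat_lit 226) (nat_lit 211)) (XT.nd (nat_lit 78) (nat_lit 0) (nat_lit 0) (XT.lf (nat_lit 0) (nat_lit 146681378) (nat_lit 228) (nat_lit 13919643616) (nat_lit 76) (nat_lit 682177631) (nat_lit 30) (nat_lit 5) (nat_lit 33) (nat_lit 5) (nat_lit 31) (nat_lit 4) (nat_lit 284) (nat_lit 226) (nat_lit 210)) (XT.lf (nat_lit 0) (nat_lit 5645770292) (nat_lit 228) (nat_lit 3328844051) (nat_lit 76) (nat_lit 6302990148) (nat_lit 30) (nat_lit 5) (nat_lit 33) (nat_lit 5) (nat_lit 31) (nat_lit 4) (nat_lit 285) (nat_lit 226) (nat_lit 209)))))) (XT.nd (nat_lit 390) (nat_lit 456) (nat_lit 0) (XT.nd (nat_lit 156) (nat_lit 228) (nat_lit 0) (XT.nd (nat_lit 78) (nat_lit 228) (nat_lit 0) (XT.lf (nat_lit 0) (nat_lit 7688046390) (nat_lit 152) (nat_lit 3653283787) (nat_lit 228) (nat_lit 4494306322) (nat_lit 28) (nat_lit 5) (nat_lit 30) (nat_lit 5) (nat_lit 31) (nat_lit 4) (nat_lit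 286) (nat_lit 226) (nat_lit 208)) (XT.lf (nat_lit 0) (nat_lit 812331889) (nat_lit 228) (nat_lit 13743192512) (nat_lit 76) (nat_lit 1868003655) (nat_lit 25) (nat_lit 5) (nat_lit 28) (nat_lit 5) (nat_lit 26) (nat_lit 4) (nat_lit 287) (nat_lit 226) (nat_lit 207))) (XT.nd (nat_lit 78) (nat_lit 228) (nat_lit 0) (XT.lf (nat_lit 0) (nat_lit 6268554689) (nat_lit 228) (nat_lit 3147077952) (nat_lit 76) (nat_lit 7624636706) (nat_lit 25) (nat_lit 5) (nat_lit 28) (nat_lit 5) (nat_lit 26) (nat_lit 4) (nat_lit 288) (nat_lit 226) (nat_lit 206)) (XT.nd (nat_lit 78) (nat_lit 152) (nat_lit 0) (XT.lf (nat_lit 0) (nat_lit 7899045876) (nat_lit 76) (nat_lit 4036150962) (nat_lit 152) (nat_lit 5754623716) (nat_lit 24) (nat_lit 5) (nat_lit 25) (nat_lit 5) (nat_lit 26) (nat_lit 4) (nat_lit 289) (nat_lit 226) (nat_lit 205)) (XT.lf (nat_lit 0) (nat_lit 964926603) (nat_lit 152) (nat_lit 16842918867) (nat_lit 152) (nat_lit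 566419904) (nat_lit 22) (nat_lit 4) (nat_lit 24) (nat_lit 5) (nat_lit 24) (nat_lit 4) (nat_lit 290) (nat_lit 226) (nat_lit 204))))) (XT.nd (nat_lit 234) (nat_lit 304) (nat_lit 0) (XT.nd (nat_lit 78) (nat_lit 76) (nat_lit 0) (XT.lf (nat_lit 0) (nat_lit 4796536531) (nat_lit 228) (nat_lit 6942109761) (nat_lit 76) (nat_lit 7352649777) (nat_lit 21) (nat_lit 5) (nat_lit 24) (nat_lit 5) (nat_lit 22) (nat_lit 4) (nat_lit 291) (nat_lit 226) (nat_lit 203)) (XT.nd (nat_lit 78) (nat_lit 0) (nat_lit 0) (XT.lf (nat_lit 0) (nat_lit 3903161256) (nat_lit 76) (nat_lit 6424744979) (nat_lit 152) (nat_lit 9518829211) (nat_lit 20) (nat_lit 5) (nat_lit 21) (nat_lit 5) (nat_lit 22) (nat_lit 4) (nat_lit 292) (nat_lit 226) (nat_lit 202)) (XT.lf (nat_lit 0) (nat_lit 15226183259) (nat_lit 76) (nat_lit 859444106) (nat_lit 152) (nat_lit 4555906691) (nat_lit 20) (nat_lit 5) (nat_lit 21) (nat_lit 5) (nat_lit 22) (nat_lit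 4) (nat_lit 293) (nat_lit 226) (nat_lit 201)))) (XT.nd (nat_lit 78) (nat_lit 76) (nat_lit 0) (XT.lf (nat_lit 0) (nat_lit 626197668) (nat_lit 228) (nat_lit 15986492515) (nat_lit 76) (nat_lit 4863753535) (nat_lit 17) (nat_lit 5) (nat_lit 20) (nat_lit 5) (nat_lit 18) (nat_lit 4) (nat_lit 294) (nat_lit 226) (nat_lit 200)) (XT.nd (nat_lit 78) (nat_lit 76) (nat_lit 0) (XT.lf (nat_lit 0) (nat_lit 5924818830) (nat_lit 228) (nat_lit 5551848380) (nat_lit 76) (nat_lit 10876600484) (nat_lit 17) (nat_lit 5) (nat_lit 20) (nat_lit 5) (nat_lit 18) (nat_lit 4) (nat_lit 295) (nat_lit 226) (nat_lit 199)) (XT.lf (nat_lit 0) (nat_lit 5318895221) (nat_lit 76) (nat_lit 6111829123) (nat_lit 152) (nat_lit 11845005648) (nat_lit 16) (nat_lit 5) (nat_lit 17) (nat_lit 5) (nat_lit 18) (nat_lit 4) (nat_lit 296) (nat_lit 226) (nat_lit 198))))))) (XT.nd (nat_lit 858) (nat_lit 228) (nat_lit 0) (XT.nd (nat_lit 390) (nat_lit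 228) (nat_lit 0) (XT.nd (nat_lit 156) (nat_lit 152) (nat_lit 0) (XT.nd (nat_lit 78) (nat_lit 152) (nat_lit 0) (XT.lf (nat_lit 0) (nat_lit 16665199548) (nat_lit 76) (nat_lit 498512897) (nat_lit 152) (nat_lit 7082113840) (nat_lit 16) (nat_lit 5) (nat_lit 17) (nat_lit 5) (nat_lit 18) (nat_lit 4) (nat_lit 297) (nat_lit 226) (nat_lit 197)) (XT.lf (nat_lit 0) (nat_lit 3146339427) (nat_lit 152) (nat_lit 20018053035) (nat_lit 152) (nat_lit 2100665083) (nat_lit 14) (nat_lit 4) (nat_lit 16) (nat_lit 5) (nat_lit 16) (nat_lit 4) (nat_lit 298) (nat_lit 226) (nat_lit 196))) (XT.nd (nat_lit 78) (nat_lit 76) (nat_lit 0) (XT.lf (nat_lit 0) (nat_lit 3053682667) (nat_lit 228) (nat_lit 11975252519) (nat_lit 76) (nat_lit 11305922359) (nat_lit 13) (nat_lit 5) (nat_lit 16) (nat_lit 5) (nat_lit 14) (nat_lit 4) (nat_lit 299) (nat_lit 226) (nat_lit 195)) (XT.nd (nat_lit 78) (nat_lit 76) (nat_lit 0) (XT.lf (nat_lit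 0) (nat_lit 8328479271) (nat_lit 228) (nat_lit 1512025300) (nat_lit 76) (nat_lit 17619887814) (nat_lit 13) (nat_lit 5) (nat_lit 16) (nat_lit 5) (nat_lit 14) (nat_lit 4) (nat_lit 300) (nat_lit 226) (nat_lit 194)) (XT.lf (nat_lit 0) (nat_lit 9501476898) (nat_lit 76) (nat_lit 4367132420) (nat_lit 152) (nat_lit 14773598358) (nat_lit 12) (nat_lit 5) (nat_lit 13) (nat_lit 5) (nat_lit 14) (nat_lit 4) (nat_lit 301) (nat_lit 226) (nat_lit 193))))) (XT.nd (nat_lit 234) (nat_lit 152) (nat_lit 0) (XT.nd (nat_lit 78) (nat_lit 76) (nat_lit 0) (XT.lf (nat_lit 0) (nat_lit 19627142182) (nat_lit 152) (nat_lit 8954586446) (nat_lit 0) (nat_lit 1303192280) (nat_lit 12) (nat_lit 5) (nat_lit 14) (nat_lit 4) (nat_lit 12) (nat_lit 4) (nat_lit 302) (nat_lit 226) (nat_lit 192)) (XT.nd (nat_lit 78) (nat_lit 0) (nat_lit 0) (XT.lf (nat_lit 0) (nat_lit 1579249014) (nat_lit 76) (nat_lit 24070195445) (nat_lit 76) (nat_lit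 5541096787) (nat_lit 11) (nat_lit 4) (nat_lit 12) (nat_lit 5) (nat_lit 12) (nat_lit 4) (nat_lit 303) (nat_lit 226) (nat_lit 191)) (XT.lf (nat_lit 0) (nat_lit 12682798918) (nat_lit 76) (nat_lit 19301413054) (nat_lit 76) (nat_lit 576934629) (nat_lit 11) (nat_lit 4) (nat_lit 12) (nat_lit 5) (nat_lit 12) (nat_lit 4) (nat_lit 304) (nat_lit 226) (nat_lit 190)))) (XT.nd (nat_lit 78) (nat_lit 76) (nat_lit 0) (XT.lf (nat_lit 0) (nat_lit 4467197427) (nat_lit 152) (nat_lit 9842143615) (nat_lit 76) (nat_lit 19691979097) (nat_lit 10) (nat_lit 5) (nat_lit 12) (nat_lit 5) (nat_lit 11) (nat_lit 4) (nat_lit 305) (nat_lit 226) (nat_lit 189)) (XT.nd (nat_lit 78) (nat_lit 0) (nat_lit 0) (XT.lf (nat_lit 0) (nat_lit 568931258) (nat_lit 76) (nat_lit 9114172613) (nat_lit 152) (nat_lit 25832321315) (nat_lit 9) (nat_lit 5) (nat_lit 10) (nat_lit 5) (nat_lit 11) (nat_lit 4) (nat_lit 306) (nat_lit 226) (nat_lit 188))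 (XT.lf (nat_lit 0) (nat_lit 11577803579) (nat_lit 76) (nat_lit 3611531184) (nat_lit 152) (nat_lit 21915052173) (nat_lit 9) (nat_lit 5) (nat_lit 10) (nat_lit 5) (nat_lit 11) (nat_lit 4) (nat_lit 307) (nat_lit 226) (nat_lit 187)))))) (XT.nd (nat_lit 390) (nat_lit 76) (nat_lit 0) (XT.nd (nat_lit 156) (nat_lit 152) (nat_lit 0) (XT.nd (nat_lit 78) (nat_lit 0) (nat_lit 0) (XT.lf (nat_lit 0) (nat_lit 20922813277) (nat_lit 152) (nat_lit 15780381090) (nat_lit 0) (nat_lit 2071079870) (nat_lit 9) (nat_lit 5) (nat_lit 11) (nat_lit 4) (nat_lit 9) (nat_lit 4) (nat_lit 308) (nat_lit 226) (nat_lit 186)) (XT.lf (nat_lit 0) (nat_lit 26913810948) (nat_lit 152) (nat_lit 5701302280) (nat_lit 0) (nat_lit 7913451172) (nat_lit 9) (nat_lit 5) (nat_lit 11) (nat_lit 4) (nat_lit 9) (nat_lit 4) (nat_lit 309) (nat_lit 226) (nat_lit 185))) (XT.nd (nat_lit 78) (nat_lit 76) (nat_lit 0) (XT.lf (nat_lit 0) (nat_lit 4864286882)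 (nat_lit 76) (nat_lit 28324347428) (nat_lit 76) (nat_lit 9182438730) (nat_lit 8) (nat_lit 4) (nat_lit 9) (nat_lit 5) (nat_lit 9) (nat_lit 4) (nat_lit 310) (nat_lit 226) (nat_lit 184)) (XT.nd (nat_lit 78) (nat_lit 76) (nat_lit 0) (XT.lf (nat_lit 0) (nat_lit 15968153482) (nat_lit 76) (nat_lit 23807178765) (nat_lit 76) (nat_lit 4530461569) (nat_lit 8) (nat_lit 4) (nat_lit 9) (nat_lit 5) (nat_lit 9) (nat_lit 4) (nat_lit 311) (nat_lit 226) (nat_lit 183)) (XT.lf (nat_lit 0) (nat_lit 288931880) (nat_lit 152) (nat_lit 18818574524) (nat_lit 76) (nat_lit 27231418675) (nat_lit 7) (nat_lit 5) (nat_lit 9) (nat_lit 5) (nat_lit 8) (nat_lit 4) (nat_lit 312) (nat_lit 226) (nat_lit 182))))) (XT.nd (nat_lit 234) (nat_lit 0) (nat_lit 0) (XT.nd (nat_lit 78) (nat_lit 76) (nat_lit 0) (XT.lf (nat_lit 0) (nat_lit 5200971459) (nat_lit 152) (nat_lit 8969409461) (nat_lit 76) (nat_lit 34303652143) (nat_lit 7) (nat_lit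 5) (nat_lit 9) (nat_lit 5) (nat_lit 8) (nat_lit 4) (nat_lit 313) (nat_lit 226) (nat_lit 181)) (XT.nd (nat_lit 78) (nat_lit 0) (nat_lit 0) (XT.lf (nat_lit 0) (nat_lit 1302266730) (nat_lit 76) (nat_lit 9016009576) (nat_lit 152) (nat_lit 40398855994) (nat_lit 6) (nat_lit 5) (nat_lit 7) (nat_lit 5) (nat_lit 8) (nat_lit 4) (nat_lit 314) (nat_lit 226) (nat_lit 180)) (XT.lf (nat_lit 0) (nat_lit 12182335417) (nat_lit 76) (nat_lit 3550214767) (nat_lit 152) (nat_lit 37338627729) (nat_lit 6) (nat_lit 5) (nat_lit 7) (nat_lit 5) (nat_lit 8) (nat_lit 4) (nat_lit 315) (nat_lit 226) (nat_lit 179)))) (XT.nd (nat_lit 78) (nat_lit 0) (nat_lit 0) (XT.lf (nat_lit 0) (nat_lit 21389410603) (nat_lit 152) (nat_lit 32046881912) (nat_lit 0) (nat_lit 2107500464) (nat_lit 6) (nat_lit 5) (nat_lit 8) (nat_lit 4) (nat_lit 6) (nat_lit 4) (nat_lit 316) (nat_lit 226) (nat_lit 178)) (XT.nd (nat_lit 78) (nat_lit 0) (nat_lit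 0) (XT.lf (nat_lit 0) (nat_lit 27318120641) (nat_lit 152) (nat_lit 22883725895) (nat_lit 0) (nat_lit 7938544311) (nat_lit 6) (nat_lit 5) (nat_lit 8) (nat_lit 4) (nat_lit 6) (nat_lit 4) (nat_lit 317) (nat_lit 226) (nat_lit 177)) (XT.lf (nat_lit 0) (nat_lit 33498669438) (nat_lit 152) (nat_lit 13343430571) (nat_lit 0) (nat_lit 14026077688) (nat_lit 6) (nat_lit 5) (nat_lit 8) (nat_lit 4) (nat_lit 6) (nat_lit 4) (nat_lit 318) (nat_lit 226) (nat_lit 176))))))))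
noncomputable def xc26 : XT := (XT.nd (nat_lit 33930) (nat_lit 0) (nat_lit 1140) (XT.nd (nat_lit 858) (nat_lit 0) (nat_lit 0) (XT.nd (nat_lit 390) (nat_lit 152) (nat_lit 0) (XT.nd (nat_lit 156) (nat_lit 0) (nat_lit 0) (XT.nd (nat_lit 78) (nat_lit 76) (nat_lit 0) (XT.lf (nat_lit 0) (nat_lit 39945772587) (nat_lit 152) (nat_lit 3403280950) (nat_lit 0) (nat_lit 20384594723) (nat_lit 6) (nat_lit 5) (nat_lit 8) (nat_lit 4) (nat_lit 6) (nat_lit 4) (nat_lit 319) (nat_lit 226) (nat_lit 175)) (XT.lf (nat_lit 0) (nat_lit 7098915397) (nat_lit 76) (nat_lit 39644104053) (nat_lit 76) (nat_lit 19998558461) (nat_lit 5) (nat_lit 4) (nat_lit 6) (nat_lit 5) (nat_lit 6) (nat_lit 4) (nat_lit 320) (nat_lit 226) (nat_lit 174))) (XT.nd (nat_lit 78) (nat_lit 0) (nat_lit 0) (XT.lf (nat_lit 0) (nat_lit 18125960430) (nat_lit 76) (nat_lit 35749991514) (nat_lit 76) (nat_lit 16024095705) (nat_lit 5) (nat_lit 4) (nat_lit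 6) (nat_lit 5) (nat_lit 6) (nat_lit 4) (nat_lit 321) (nat_lit 226) (nat_lit 173)) (XT.nd (nat_lit 78) (nat_lit 0) (nat_lit 0) (XT.lf (nat_lit 0) (nat_lit 29636377051) (nat_lit 76) (nat_lit 31691810689) (nat_lit 76) (nat_lit 11889390864) (nat_lit 5) (nat_lit 4) (nat_lit 6) (nat_lit 5) (nat_lit 6) (nat_lit 4) (nat_lit 322) (nat_lit 226) (nat_lit 172)) (XT.lf (nat_lit 0) (nat_lit 41657571015) (nat_lit 76) (nat_lit 27459899242) (nat_lit 76) (nat_lit 7584599401) (nat_lit 5) (nat_lit 4) (nat_lit 6) (nat_lit 5) (nat_lit 6) (nat_lit 4) (nat_lit 323) (nat_lit 226) (nat_lit 171))))) (XT.nd (nat_lit 234) (nat_lit 76) (nat_lit 0) (XT.nd (nat_lit 78) (nat_lit 76) (nat_lit 0) (XT.lf (nat_lit 0) (nat_lit 54218164213) (nat_lit 76) (nat_lit 23044181194) (nat_lit 76) (nat_lit 3099471814) (nat_lit 5) (nat_lit 4) (nat_lit 6) (nat_lit 5) (nat_lit 6) (nat_lit 4) (nat_lit 324) (nat_lit 226) (nat_lit 170)) (XT.nd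 (nat_lit 78) (nat_lit 0) (nat_lit 0) (XT.lf (nat_lit 0) (nat_lit 1545904245) (nat_lit 152) (nat_lit 16872628083) (nat_lit 76) (nat_lit 65786547970) (nat_lit 4) (nat_lit 5) (nat_lit 6) (nat_lit 5) (nat_lit 5) (nat_lit 4) (nat_lit 325) (nat_lit 226) (nat_lit 169)) (XT.lf (nat_lit 0) (nat_lit 6329002471) (nat_lit 152) (nat_lit 7225895182) (nat_lit 76) (nat_lit 74685615507) (nat_lit 4) (nat_lit 5) (nat_lit 6) (nat_lit 5) (nat_lit 5) (nat_lit 4) (nat_lit 326) (nat_lit 226) (nat_lit 168)))) (XT.nd (nat_lit 78) (nat_lit 0) (nat_lit 0) (XT.lf (nat_lit 0) (nat_lit 2906014940) (nat_lit 76) (nat_lit 8443612502) (nat_lit 152) (nat_lit 81128152328) (nat_lit 3) (nat_lit 5) (nat_lit 4) (nat_lit 5) (nat_lit 5) (nat_lit 4) (nat_lit 327) (nat_lit 226) (nat_lit 167)) (XT.nd (nat_lit 78) (nat_lit 0) (nat_lit 0) (XT.lf (nat_lit 0) (nat_lit 13643198351) (nat_lit 76) (nat_lit 3023811756) (nat_lit 152) (nat_lit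 80258540438) (nat_lit 3) (nat_lit 5) (nat_lit 4) (nat_lit 5) (nat_lit 5) (nat_lit 4) (nat_lit 328) (nat_lit 226) (nat_lit 166)) (XT.lf (nat_lit 0) (nat_lit 22248388780) (nat_lit 152) (nat_lit 76754550380) (nat_lit 0) (nat_lit 2592838919) (nat_lit 3) (nat_lit 5) (nat_lit 5) (nat_lit 4) (nat_lit 3) (nat_lit 4) (nat_lit 329) (nat_lit 226) (nat_lit 165)))))) (XT.nd (nat_lit 32604) (nat_lit 0) (nat_lit 4712) (XT.nd (nat_lit 156) (nat_lit 0) (nat_lit 0) (XT.nd (nat_lit 78) (nat_lit 0) (nat_lit 0) (XT.lf (nat_lit 0) (nat_lit 28113156681) (nat_lit 152) (nat_lit 69978921223) (nat_lit 0) (nat_lit 8407320930) (nat_lit 3) (nat_lit 5) (nat_lit 5) (nat_lit 4) (nat_lit 3) (nat_lit 4) (nat_lit 330) (nat_lit 226) (nat_lit 164)) (XT.lf (nat_lit 0) (nat_lit 34246210815) (nat_lit 152) (nat_lit 62910265547) (nat_lit 0) (nat_lit 14492483740) (nat_lit 3) (nat_lit 5) (nat_lit 5) (nat_lit 4) (nat_lit 3) (nat_lit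 4) (nat_lit 331) (nat_lit 226) (nat_lit 163))) (XT.nd (nat_lit 156) (nat_lit 0) (nat_lit 0) (XT.lf (nat_lit 0) (nat_lit 40662153691) (nat_lit 152) (nat_lit 55531753218) (nat_lit 0) (nat_lit 20862815832) (nat_lit 3) (nat_lit 5) (nat_lit 5) (nat_lit 4) (nat_lit 3) (nat_lit 4) (nat_lit 332) (nat_lit 226) (nat_lit 162)) (XT.nd (nat_lit 32214) (nat_lit 0) (nat_lit 7144) (XT.lf (nat_lit 0) (nat_lit 54404519804) (nat_lit 152) (nat_lit 39774107473) (nat_lit 0) (nat_lit 34520372777) (nat_lit 3) (nat_lit 5) (nat_lit 5) (nat_lit 4) (nat_lit 3) (nat_lit 4) (nat_lit 334) (nat_lit 226) (nat_lit 160)) (XT.lf (nat_lit 0) (nat_lit 4062867578) (nat_lit 380) (nat_lit 156194781) (nat_lit 380) (nat_lit 156194781) (nat_lit 97) (nat_lit 4) (nat_lit 102) (nat_lit 5) (nat_lit 102) (nat_lit 4) (nat_lit 266) (nat_lit 227) (nat_lit 227))))) (XT.nd (nat_lit 234) (nat_lit 988) (nat_lit 0) (XT.nd (nat_lit 78) (nat_lit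 684) (nat_lit 0) (XT.lf (nat_lit 0) (nat_lit 295268993) (nat_lit 380) (nat_lit 5158799434) (nat_lit 380) (nat_lit 3497001268) (nat_lit 87) (nat_lit 4) (nat_lit 92) (nat_lit 5) (nat_lit 92) (nat_lit 4) (nat_lit 267) (nat_lit 227) (nat_lit 226)) (XT.nd (nat_lit 78) (nat_lit 304) (nat_lit 0) (XT.lf (nat_lit 0) (nat_lit 1162182728) (nat_lit 304) (nat_lit 1008578757) (nat_lit 380) (nat_lit 6994205231) (nat_lit 82) (nat_lit 5) (nat_lit 86) (nat_lit 5) (nat_lit 87) (nat_lit 4) (nat_lit 268) (nat_lit 227) (nat_lit 225)) (XT.lf (nat_lit 0) (nat_lit 1905972539) (nat_lit 304) (nat_lit 6049532663) (nat_lit 304) (nat_lit 1436170515) (nat_lit 78) (nat_lit 4) (nat_lit 82) (nat_lit 5) (nat_lit 82) (nat_lit 4) (nat_lit 269) (nat_lit 227) (nat_lit 224)))) (XT.nd (nat_lit 78) (nat_lit 608) (nat_lit 0) (XT.lf (nat_lit 0) (nat_lit 2522703227) (nat_lit 304) (nat_lit 1679157729) (nat_lit 380) (nat_lit 5430260117)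 (nat_lit 73) (nat_lit 5) (nat_lit 77) (nat_lit 5) (nat_lit 78) (nat_lit 4) (nat_lit 270) (nat_lit 227) (nat_lit 223)) (XT.nd (nat_lit 78) (nat_lit 228) (nat_lit 0) (XT.lf (nat_lit 0) (nat_lit 114982680) (nat_lit 380) (nat_lit 6887380910) (nat_lit 76) (nat_lit 2884690228) (nat_lit 68) (nat_lit 5) (nat_lit 73) (nat_lit 5) (nat_lit 69) (nat_lit 4) (nat_lit 271) (nat_lit 227) (nat_lit 222)) (XT.lf (nat_lit 0) (nat_lit 3286294661) (nat_lit 228) (nat_lit 2444941326) (nat_lit 304) (nat_lit 4424974046) (nat_lit 65) (nat_lit 5) (nat_lit 68) (nat_lit 5) (nat_lit 69) (nat_lit 4) (nat_lit 272) (nat_lit 227) (nat_lit 221))))))) (XT.nd (nat_lit 858) (nat_lit 1140) (nat_lit 0) (XT.nd (nat_lit 390) (nat_lit 988) (nat_lit 0) (XT.nd (nat_lit 156) (nat_lit 836) (nat_lit 0) (XT.nd (nat_lit 78) (nat_lit 228) (nat_lit 0) (XT.lf (nat_lit 0) (nat_lit 1081071359) (nat_lit 380) (nat_lit 7045220569) (nat_lit 76) (nat_lit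 2314995937) (nat_lit 60) (nat_lit 5) (nat_lit 65) (nat_lit 5) (nat_lit 61) (nat_lit 4) (nat_lit 273) (nat_lit 227) (nat_lit 220)) (XT.lf (nat_lit 0) (nat_lit 3266539679) (nat_lit 228) (nat_lit 3426625631) (nat_lit 304) (nat_lit 4048711094) (nat_lit 57) (nat_lit 5) (nat_lit 60) (nat_lit 5) (nat_lit 61) (nat_lit 4) (nat_lit 274) (nat_lit 227) (nat_lit 219))) (XT.nd (nat_lit 78) (nat_lit 532) (nat_lit 0) (XT.lf (nat_lit 0) (nat_lit 1413228084) (nat_lit 304) (nat_lit 8150477242) (nat_lit 76) (nat_lit 1496128818) (nat_lit 53) (nat_lit 5) (nat_lit 57) (nat_lit 5) (nat_lit 54) (nat_lit 4) (nat_lit 275) (nat_lit 227) (nat_lit 218)) (XT.nd (nat_lit 78) (nat_lit 304) (nat_lit 0) (XT.lf (nat_lit 0) (nat_lit 2246348332) (nat_lit 228) (nat_lit 4757314092) (nat_lit 304) (nat_lit 4390861282) (nat_lit 50) (nat_lit 5) (nat_lit 53) (nat_lit 5) (nat_lit 54) (nat_lit 4) (nat_lit 276) (nat_lit 227) (nat_lit 217))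 (XT.lf (nat_lit 0) (nat_lit 1014745243) (nat_lit 304) (nat_lit 10442514539) (nat_lit 76) (nat_lit 291285000) (nat_lit 46) (nat_lit 5) (nat_lit 50) (nat_lit 5) (nat_lit 47) (nat_lit 4) (nat_lit 277) (nat_lit 227) (nat_lit 216))))) (XT.nd (nat_lit 234) (nat_lit 532) (nat_lit 0) (XT.nd (nat_lit 78) (nat_lit 456) (nat_lit 0) (XT.lf (nat_lit 0) (nat_lit 6558066620) (nat_lit 304) (nat_lit 27699201) (nat_lit 76) (nat_lit 5534634890) (nat_lit 46) (nat_lit 5) (nat_lit 50) (nat_lit 5) (nat_lit 47) (nat_lit 4) (nat_lit 278) (nat_lit 227) (nat_lit 215)) (XT.nd (nat_lit 78) (nat_lit 304) (nat_lit 0) (XT.lf (nat_lit 0) (nat_lit 10842182736) (nat_lit 152) (nat_lit 1463715502) (nat_lit 228) (nat_lit 207307396) (nat_lit 44) (nat_lit 5) (nat_lit 46) (nat_lit 5) (nat_lit 47) (nat_lit 4) (nat_lit 279) (nat_lit 227) (nat_lit 214)) (XT.lf (nat_lit 0) (nat_lit 5263530175) (nat_lit 304) (nat_lit 3780079024) (nat_lit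 76) (nat_lit 3882031072) (nat_lit 40) (nat_lit 5) (nat_lit 44) (nat_lit 5) (nat_lit 41) (nat_lit 4) (nat_lit 280) (nat_lit 227) (nat_lit 213)))) (XT.nd (nat_lit 78) (nat_lit 380) (nat_lit 0) (XT.lf (nat_lit 0) (nat_lit 7030558727) (nat_lit 152) (nat_lit 3904673848) (nat_lit 228) (nat_lit 2425609620) (nat_lit 38) (nat_lit 5) (nat_lit 40) (nat_lit 5) (nat_lit 41) (nat_lit 4) (nat_lit 281) (nat_lit 227) (nat_lit 212)) (XT.nd (nat_lit 78) (nat_lit 152) (nat_lit 0) (XT.lf (nat_lit 0) (nat_lit 2944744035) (nat_lit 228) (nat_lit 9398295078) (nat_lit 76) (nat_lit 1476063094) (nat_lit 35) (nat_lit 5) (nat_lit 38) (nat_lit 5) (nat_lit 36) (nat_lit 4) (nat_lit 282) (nat_lit 227) (nat_lit 211)) (XT.lf (nat_lit 0) (nat_lit 1241735392) (nat_lit 152) (nat_lit 7249327856) (nat_lit 228) (nat_lit 5809899984) (nat_lit 33) (nat_lit 5) (nat_lit 35) (nat_lit 5) (nat_lit 36) (nat_lit 4) (nat_lit 283) (nat_lit 227)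 (nat_lit 210)))))) (XT.nd (nat_lit 390) (nat_lit 532) (nat_lit 0) (XT.nd (nat_lit 156) (nat_lit 380) (nat_lit 0) (XT.nd (nat_lit 78) (nat_lit 228) (nat_lit 0) (XT.lf (nat_lit 0) (nat_lit 12356282981) (nat_lit 152) (nat_lit 1900331522) (nat_lit 228) (nat_lit 552175692) (nat_lit 33) (nat_lit 5) (nat_lit 35) (nat_lit 5) (nat_lit 36) (nat_lit 4) (nat_lit 284) (nat_lit 227) (nat_lit 209)) (XT.lf (nat_lit 0) (nat_lit 4840804282) (nat_lit 228) (nat_lit 6819859996) (nat_lit 76) (nat_lit 3680952337) (nat_lit 30) (nat_lit 5) (nat_lit 33) (nat_lit 5) (nat_lit 31) (nat_lit 4) (nat_lit 285) (nat_lit 227) (nat_lit 208))) (XT.nd (nat_lit 78) (nat_lit 228) (nat_lit 0) (XT.lf (nat_lit 0) (nat_lit 4007452435) (nat_lit 152) (nat_lit 6422736870) (nat_lit 228) (nat_lit 5472700565) (nat_lit 28) (nat_lit 5) (nat_lit 30) (nat_lit 5) (nat_lit 31) (nat_lit 4) (nat_lit 286) (nat_lit 227) (nat_lit 207)) (XT.nd (nat_lit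 78) (nat_lit 228) (nat_lit 0) (XT.lf (nat_lit 0) (nat_lit 15284164652) (nat_lit 152) (nat_lit 944611092) (nat_lit 228) (nat_lit 265668418) (nat_lit 28) (nat_lit 5) (nat_lit 30) (nat_lit 5) (nat_lit 31) (nat_lit 4) (nat_lit 287) (nat_lit 227) (nat_lit 206)) (XT.lf (nat_lit 0) (nat_lit 5107201114) (nat_lit 228) (nat_lit 7235415364) (nat_lit 76) (nat_lit 4771351025) (nat_lit 25) (nat_lit 5) (nat_lit 28) (nat_lit 5) (nat_lit 26) (nat_lit 4) (nat_lit 288) (nat_lit 227) (nat_lit 205))))) (XT.nd (nat_lit 234) (nat_lit 228) (nat_lit 0) (XT.nd (nat_lit 78) (nat_lit 228) (nat_lit 0) (XT.lf (nat_lit 0) (nat_lit 3618498832) (nat_lit 76) (nat_lit 7049935987) (nat_lit 152) (nat_lit 7098293113) (nat_lit 24) (nat_lit 5) (nat_lit 25) (nat_lit 5) (nat_lit 26) (nat_lit 4) (nat_lit 289) (nat_lit 227) (nat_lit 204)) (XT.nd (nat_lit 78) (nat_lit 228) (nat_lit 0) (XT.lf (nat_lit 0) (nat_lit 14949898508) (nat_lit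 76) (nat_lit 1504771302) (nat_lit 152) (nat_lit 1999140081) (nat_lit 24) (nat_lit 5) (nat_lit 25) (nat_lit 5) (nat_lit 26) (nat_lit 4) (nat_lit 290) (nat_lit 227) (nat_lit 203)) (XT.lf (nat_lit 0) (nat_lit 3281324916) (nat_lit 228) (nat_lit 11637932727) (nat_lit 76) (nat_lit 4255350939) (nat_lit 21) (nat_lit 5) (nat_lit 24) (nat_lit 5) (nat_lit 22) (nat_lit 4) (nat_lit 291) (nat_lit 227) (nat_lit 202)))) (XT.nd (nat_lit 78) (nat_lit 228) (nat_lit 0) (XT.lf (nat_lit 0) (nat_lit 8716801719) (nat_lit 228) (nat_lit 969066706) (nat_lit 76) (nat_lit 10247095712) (nat_lit 21) (nat_lit 5) (nat_lit 24) (nat_lit 5) (nat_lit 22) (nat_lit 4) (nat_lit 292) (nat_lit 227) (nat_lit 201)) (XT.nd (nat_lit 78) (nat_lit 152) (nat_lit 0) (XT.lf (nat_lit 0) (nat_lit 10237302073) (nat_lit 76) (nat_lit 4171190524) (nat_lit 152) (nat_lit 6321288572) (nat_lit 20) (nat_lit 5) (nat_lit 21) (nat_lit 5) (nat_lit 22) (nat_lit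 4) (nat_lit 293) (nat_lit 227) (nat_lit 200)) (XT.lf (nat_lit 0) (nat_lit 254691260) (nat_lit 152) (nat_lit 20047030689) (nat_lit 152) (nat_lit 1267281730) (nat_lit 18) (nat_lit 4) (nat_lit 20) (nat_lit 5) (nat_lit 20) (nat_lit 4) (nat_lit 294) (nat_lit 227) (nat_lit 199))))))))
noncomputable def xc27 : XT := (XT.nd (nat_lit 1716) (nat_lit 228) (nat_lit 0) (XT.nd (nat_lit 858) (nat_lit 304) (nat_lit 0) (XT.nd (nat_lit 390) (nat_lit 228) (nat_lit 0) (XT.nd (nat_lit 156) (nat_lit 304) (nat_lit 0) (XT.nd (nat_lit 78) (nat_lit 0) (nat_lit 0) (XT.lf (nat_lit 0) (nat_lit 4003007599) (nat_lit 228) (nat_lit 10959888125) (nat_lit 76) (nat_lit 7484922254) (nat_lit 17) (nat_lit 5) (nat_lit 20) (nat_lit 5) (nat_lit 18) (nat_lit 4) (nat_lit 295) (nat_lit 227) (nat_lit 198)) (XT.lf (nat_lit 0) (nat_lit 9407250293) (nat_lit 228) (nat_lit 280936974) (nat_lit 76) (nat_lit 13685174357) (nat_lit 17) (nat_lit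 5) (nat_lit 20) (nat_lit 5) (nat_lit 18) (nat_lit 4) (nat_lit 296) (nat_lit 227) (nat_lit 197))) (XT.nd (nat_lit 78) (nat_lit 228) (nat_lit 0) (XT.lf (nat_lit 0) (nat_lit 10974297059) (nat_lit 76) (nat_lit 4114237424) (nat_lit 152) (nat_lit 9256504516) (nat_lit 16) (nat_lit 5) (nat_lit 17) (nat_lit 5) (nat_lit 18) (nat_lit 4) (nat_lit 297) (nat_lit 227) (nat_lit 196)) (XT.nd (nat_lit 78) (nat_lit 228) (nat_lit 0) (XT.lf (nat_lit 0) (nat_lit 20977260291) (nat_lit 152) (nat_lit 2752916974) (nat_lit 0) (nat_lit 1637480158) (nat_lit 16) (nat_lit 5) (nat_lit 18) (nat_lit 4) (nat_lit 16) (nat_lit 4) (nat_lit 298) (nat_lit 227) (nat_lit 195)) (XT.lf (nat_lit 0) (nat_lit 735410341) (nat_lit 228) (nat_lit 18091507028) (nat_lit 76) (nat_lit 7613423386) (nat_lit 13) (nat_lit 5) (nat_lit 16) (nat_lit 5) (nat_lit 14) (nat_lit 4) (nat_lit 299) (nat_lit 227) (nat_lit 194))))) (XT.nd (nat_lit 234) (nat_lit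 152) (nat_lit 0) (XT.nd (nat_lit 78) (nat_lit 76) (nat_lit 0) (XT.lf (nat_lit 0) (nat_lit 5966431143) (nat_lit 228) (nat_lit 7705496598) (nat_lit 76) (nat_lit 13895286259) (nat_lit 13) (nat_lit 5) (nat_lit 16) (nat_lit 5) (nat_lit 14) (nat_lit 4) (nat_lit 300) (nat_lit 227) (nat_lit 193)) (XT.nd (nat_lit 78) (nat_lit 0) (nat_lit 0) (XT.lf (nat_lit 0) (nat_lit 3109739992) (nat_lit 76) (nat_lit 8293688672) (nat_lit 152) (nat_lit 17348718537) (nat_lit 12) (nat_lit 5) (nat_lit 13) (nat_lit 5) (nat_lit 14) (nat_lit 4) (nat_lit 301) (nat_lit 227) (nat_lit 192)) (XT.lf (nat_lit 0) (nat_lit 14480325448) (nat_lit 76) (nat_lit 2628467095) (nat_lit 152) (nat_lit 12887685753) (nat_lit 12) (nat_lit 5) (nat_lit 13) (nat_lit 5) (nat_lit 14) (nat_lit 4) (nat_lit 302) (nat_lit 227) (nat_lit 191)))) (XT.nd (nat_lit 78) (nat_lit 152) (nat_lit 0) (XT.lf (nat_lit 0) (nat_lit 23051894388) (nat_lit 152) (nat_lit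 5056789695) (nat_lit 0) (nat_lit 3195812274) (nat_lit 12) (nat_lit 5) (nat_lit 14) (nat_lit 4) (nat_lit 12) (nat_lit 4) (nat_lit 303) (nat_lit 227) (nat_lit 190)) (XT.nd (nat_lit 78) (nat_lit 76) (nat_lit 0) (XT.lf (nat_lit 0) (nat_lit 5879173906) (nat_lit 76) (nat_lit 23420360199) (nat_lit 76) (nat_lit 3378202116) (nat_lit 11) (nat_lit 4) (nat_lit 12) (nat_lit 5) (nat_lit 12) (nat_lit 4) (nat_lit 304) (nat_lit 227) (nat_lit 189)) (XT.lf (nat_lit 0) (nat_lit 1684456098) (nat_lit 152) (nat_lit 16799927411) (nat_lit 76) (nat_lit 15635437291) (nat_lit 10) (nat_lit 5) (nat_lit 12) (nat_lit 5) (nat_lit 11) (nat_lit 4) (nat_lit 305) (nat_lit 227) (nat_lit 188)))))) (XT.nd (nat_lit 390) (nat_lit 228) (nat_lit 0) (XT.nd (nat_lit 156) (nat_lit 0) (nat_lit 0) (XT.nd (nat_lit 78) (nat_lit 76) (nat_lit 0) (XT.lf (nat_lit 0) (nat_lit 6860477759) (nat_lit 152) (nat_lit 6461379828) (nat_lit 76) (nat_lit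 22313283011) (nat_lit 10) (nat_lit 5) (nat_lit 12) (nat_lit 5) (nat_lit 11) (nat_lit 4) (nat_lit 306) (nat_lit 227) (nat_lit 187)) (XT.lf (nat_lit 0) (nat_lit 4359233719) (nat_lit 76) (nat_lit 7910777520) (nat_lit 152) (nat_lit 24957009371) (nat_lit 9) (nat_lit 5) (nat_lit 10) (nat_lit 5) (nat_lit 11) (nat_lit 4) (nat_lit 307) (nat_lit 227) (nat_lit 186))) (XT.nd (nat_lit 78) (nat_lit 0) (nat_lit 0) (XT.lf (nat_lit 0) (nat_lit 15739413662) (nat_lit 76) (nat_lit 2212008958) (nat_lit 152) (nat_lit 20947063820) (nat_lit 9) (nat_lit 5) (nat_lit 10) (nat_lit 5) (nat_lit 11) (nat_lit 4) (nat_lit 308) (nat_lit 227) (nat_lit 185)) (XT.nd (nat_lit 78) (nat_lit 0) (nat_lit 0) (XT.lf (nat_lit 0) (nat_lit 23890677745) (nat_lit 152) (nat_lit 13113542172) (nat_lit 0) (nat_lit 3650124689) (nat_lit 9) (nat_lit 5) (nat_lit 11) (nat_lit 4) (nat_lit 9) (nat_lit 4) (nat_lit 309) (nat_lit 227) (nat_lit 184))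 (XT.lf (nat_lit 0) (nat_lit 30089714643) (nat_lit 152) (nat_lit 2695074087) (nat_lit 0) (nat_lit 9714353088) (nat_lit 9) (nat_lit 5) (nat_lit 11) (nat_lit 4) (nat_lit 9) (nat_lit 4) (nat_lit 310) (nat_lit 227) (nat_lit 183))))) (XT.nd (nat_lit 234) (nat_lit 76) (nat_lit 0) (XT.nd (nat_lit 78) (nat_lit 76) (nat_lit 0) (XT.lf (nat_lit 0) (nat_lit 8304450272) (nat_lit 76) (nat_lit 28317406925) (nat_lit 76) (nat_lit 7813656325) (nat_lit 8) (nat_lit 4) (nat_lit 9) (nat_lit 5) (nat_lit 9) (nat_lit 4) (nat_lit 311) (nat_lit 227) (nat_lit 182)) (XT.nd (nat_lit 78) (nat_lit 76) (nat_lit 0) (XT.lf (nat_lit 0) (nat_lit 19811274532) (nat_lit 76) (nat_lit 23642149251) (nat_lit 76) (nat_lit 3016123369) (nat_lit 8) (nat_lit 4) (nat_lit 9) (nat_lit 5) (nat_lit 9) (nat_lit 4) (nat_lit 312) (nat_lit 227) (nat_lit 181)) (XT.lf (nat_lit 0) (nat_lit 1928988764) (nat_lit 152) (nat_lit 16826631339) (nat_lit 76)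 (nat_lit 29850690868) (nat_lit 7) (nat_lit 5) (nat_lit 9) (nat_lit 5) (nat_lit 8) (nat_lit 4) (nat_lit 313) (nat_lit 227) (nat_lit 180)))) (XT.nd (nat_lit 78) (nat_lit 76) (nat_lit 0) (XT.lf (nat_lit 0) (nat_lit 7009220308) (nat_lit 152) (nat_lit 6624668590) (nat_lit 76) (nat_lit 37216645474) (nat_lit 7) (nat_lit 5) (nat_lit 9) (nat_lit 5) (nat_lit 8) (nat_lit 4) (nat_lit 314) (nat_lit 227) (nat_lit 179)) (XT.nd (nat_lit 78) (nat_lit 0) (nat_lit 0) (XT.lf (nat_lit 0) (nat_lit 4080524568) (nat_lit 76) (nat_lit 8254222411) (nat_lit 152) (nat_lit 40872506815) (nat_lit 6) (nat_lit 5) (nat_lit 7) (nat_lit 5) (nat_lit 8) (nat_lit 4) (nat_lit 315) (nat_lit 227) (nat_lit 178)) (XT.lf (nat_lit 0) (nat_lit 15375399332) (nat_lit 76) (nat_lit 2572880130) (nat_lit 152) (nat_lit 37732900087) (nat_lit 6) (nat_lit 5) (nat_lit 7) (nat_lit 5) (nat_lit 8) (nat_lit 4) (nat_lit 316) (nat_lit 227) (nat_lit 177)))))))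 (XT.nd (nat_lit 858) (nat_lit 76) (nat_lit 0) (XT.nd (nat_lit 390) (nat_lit 76) (nat_lit 0) (XT.nd (nat_lit 156) (nat_lit 76) (nat_lit 0) (XT.nd (nat_lit 78) (nat_lit 0) (nat_lit 0) (XT.lf (nat_lit 0) (nat_lit 23830502894) (nat_lit 152) (nat_lit 31157413319) (nat_lit 0) (nat_lit 3291266137) (nat_lit 6) (nat_lit 5) (nat_lit 8) (nat_lit 4) (nat_lit 6) (nat_lit 4) (nat_lit 317) (nat_lit 227) (nat_lit 176)) (XT.lf (nat_lit 0) (nat_lit 29990333112) (nat_lit 152) (nat_lit 21654757249) (nat_lit 0) (nat_lit 9362510240) (nat_lit 6) (nat_lit 5) (nat_lit 8) (nat_lit 4) (nat_lit 6) (nat_lit 4) (nat_lit 318) (nat_lit 227) (nat_lit 175))) (XT.nd (nat_lit 78) (nat_lit 76) (nat_lit 0) (XT.lf (nat_lit 0) (nat_lit 36417704281) (nat_lit 152) (nat_lit 11750454536) (nat_lit 0) (nat_lit 15705513681) (nat_lit 6) (nat_lit 5) (nat_lit 8) (nat_lit 4) (nat_lit 6) (nat_lit 4) (nat_lit 319) (nat_lit 227) (nat_lit 174))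 (XT.nd (nat_lit 78) (nat_lit 76) (nat_lit 0) (XT.lf (nat_lit 0) (nat_lit 43127919665) (nat_lit 152) (nat_lit 1420923509) (nat_lit 0) (nat_lit 22335378848) (nat_lit 6) (nat_lit 5) (nat_lit 8) (nat_lit 4) (nat_lit 6) (nat_lit 4) (nat_lit 320) (nat_lit 227) (nat_lit 173)) (XT.lf (nat_lit 0) (nat_lit 9544681060) (nat_lit 76) (nat_lit 40684024221) (nat_lit 76) (nat_lit 19814959388) (nat_lit 5) (nat_lit 4) (nat_lit 6) (nat_lit 5) (nat_lit 6) (nat_lit 4) (nat_lit 321) (nat_lit 227) (nat_lit 172))))) (XT.nd (nat_lit 234) (nat_lit 76) (nat_lit 0) (XT.nd (nat_lit 78) (nat_lit 0) (nat_lit 0) (XT.lf (nat_lit 0) (nat_lit 21023515492) (nat_lit 76) (nat_lit 36640076771) (nat_lit 76) (nat_lit 15698131922) (nat_lit 5) (nat_lit 4) (nat_lit 6) (nat_lit 5) (nat_lit 6) (nat_lit 4) (nat_lit 322) (nat_lit 227) (nat_lit 171)) (XT.nd (nat_lit 78) (nat_lit 0) (nat_lit 0) (XT.lf (nat_lit 0) (nat_lit 33014631181) (nat_lit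 76) (nat_lit 32421720920) (nat_lit 76) (nat_lit 11410366532) (nat_lit 5) (nat_lit 4) (nat_lit 6) (nat_lit 5) (nat_lit 6) (nat_lit 4) (nat_lit 323) (nat_lit 227) (nat_lit 170)) (XT.lf (nat_lit 0) (nat_lit 45546578401) (nat_lit 76) (nat_lit 28018912962) (nat_lit 76) (nat_lit 6941454253) (nat_lit 5) (nat_lit 4) (nat_lit 6) (nat_lit 5) (nat_lit 6) (nat_lit 4) (nat_lit 324) (nat_lit 227) (nat_lit 169)))) (XT.nd (nat_lit 78) (nat_lit 76) (nat_lit 0) (XT.lf (nat_lit 0) (nat_lit 58649195123) (nat_lit 76) (nat_lit 23421170023) (nat_lit 76) (nat_lit 2280754816) (nat_lit 5) (nat_lit 4) (nat_lit 6) (nat_lit 5) (nat_lit 6) (nat_lit 4) (nat_lit 325) (nat_lit 227) (nat_lit 168)) (XT.nd (nat_lit 78) (nat_lit 0) (nat_lit 0) (XT.lf (nat_lit 0) (nat_lit 2532428389) (nat_lit 152) (nat_lit 16059544144) (nat_lit 76) (nat_lit 69795677103) (nat_lit 4) (nat_lit 5) (nat_lit 6) (nat_lit 5) (nat_lit 5) (nat_lit 4) (nat_lit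 326) (nat_lit 227) (nat_lit 167)) (XT.lf (nat_lit 0) (nat_lit 7511384910) (nat_lit 152) (nat_lit 6009365806) (nat_lit 76) (nat_lit 79105421743) (nat_lit 4) (nat_lit 5) (nat_lit 6) (nat_lit 5) (nat_lit 5) (nat_lit 4) (nat_lit 327) (nat_lit 227) (nat_lit 166)))))) (XT.nd (nat_lit 32526) (nat_lit 0) (nat_lit 5700) (XT.nd (nat_lit 234) (nat_lit 0) (nat_lit 0) (XT.nd (nat_lit 78) (nat_lit 0) (nat_lit 0) (XT.lf (nat_lit 0) (nat_lit 4583911811) (nat_lit 76) (nat_lit 8172626699) (nat_lit 152) (nat_lit 84319577464) (nat_lit 3) (nat_lit 5) (nat_lit 4) (nat_lit 5) (nat_lit 5) (nat_lit 4) (nat_lit 328) (nat_lit 227) (nat_lit 165)) (XT.nd (nat_lit 78) (nat_lit 0) (nat_lit 0) (XT.lf (nat_lit 0) (nat_lit 15784973624) (nat_lit 76) (nat_lit 2514843841) (nat_lit 152) (nat_lit 83447674621) (nat_lit 3) (nat_lit 5) (nat_lit 4) (nat_lit 5) (nat_lit 5) (nat_lit 4) (nat_lit 329) (nat_lit 227) (nat_lit 164)) (XT.lf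 (nat_lit 0) (nat_lit 24128239362) (nat_lit 152) (nat_lit 79185034570) (nat_lit 0) (nat_lit 3338934611) (nat_lit 3) (nat_lit 5) (nat_lit 5) (nat_lit 4) (nat_lit 3) (nat_lit 4) (nat_lit 330) (nat_lit 227) (nat_lit 163)))) (XT.nd (nat_lit 78) (nat_lit 0) (nat_lit 0) (XT.lf (nat_lit 0) (nat_lit 30249701318) (nat_lit 152) (nat_lit 72137635543) (nat_lit 0) (nat_lit 9414785782) (nat_lit 3) (nat_lit 5) (nat_lit 5) (nat_lit 4) (nat_lit 3) (nat_lit 4) (nat_lit 331) (nat_lit 227) (nat_lit 162)) (XT.nd (nat_lit 156) (nat_lit 0) (nat_lit 0) (XT.lf (nat_lit 0) (nat_lit 36654604025) (nat_lit 152) (nat_lit 64779367642) (nat_lit 0) (nat_lit 15776249647) (nat_lit 3) (nat_lit 5) (nat_lit 5) (nat_lit 4) (nat_lit 3) (nat_lit 4) (nat_lit 332) (nat_lit 227) (nat_lit 161)) (XT.lf (nat_lit 0) (nat_lit 50376441933) (nat_lit 152) (nat_lit 49059364598) (nat_lit 0) (nat_lit 29417316918) (nat_lit 3) (nat_lit 5) (nat_lit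 5) (nat_lit 4) (nat_lit 3) (nat_lit 4) (nat_lit 334) (nat_lit 227) (nat_lit 159))))) (XT.nd (nat_lit 234) (nat_lit 1368) (nat_lit 0) (XT.nd (nat_lit 78) (nat_lit 912) (nat_lit 0) (XT.lf (nat_lit 0) (nat_lit 2915232840) (nat_lit 456) (nat_lit 637567121) (nat_lit 456) (nat_lit 637567121) (nat_lit 108) (nat_lit 4) (nat_lit 114) (nat_lit 5) (nat_lit 114) (nat_lit 4) (nat_lit 264) (nat_lit 228) (nat_lit 228)) (XT.nd (nat_lit 78) (nat_lit 456) (nat_lit 0) (XT.lf (nat_lit 0) (nat_lit 4354921530) (nat_lit 456) (nat_lit 1648524217) (nat_lit 0) (nat_lit 2557686812) (nat_lit 102) (nat_lit 5) (nat_lit 108) (nat_lit 4) (nat_lit 102) (nat_lit 4) (nat_lit 265) (nat_lit 228) (nat_lit 227)) (XT.lf (nat_lit 0) (nat_lit 1336376015) (nat_lit 456) (nat_lit 796043518) (nat_lit 76) (nat_lit 6621436029) (nat_lit 96) (nat_lit 5) (nat_lit 102) (nat_lit 5) (nat_lit 97) (nat_lit 4) (nat_lit 266) (nat_lit 228) (nat_lit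 226)))) (XT.nd (nat_lit 78) (nat_lit 1064) (nat_lit 0) (XT.lf (nat_lit 0) (nat_lit 6959081048) (nat_lit 380) (nat_lit 29815523) (nat_lit 0) (nat_lit 1969729885) (nat_lit 92) (nat_lit 5) (nat_lit 97) (nat_lit 4) (nat_lit 92) (nat_lit 4) (nat_lit 267) (nat_lit 228) (nat_lit 225)) (XT.nd (nat_lit 78) (nat_lit 304) (nat_lit 0) (XT.lf (nat_lit 0) (nat_lit 650859365) (nat_lit 304) (nat_lit 2870081744) (nat_lit 380) (nat_lit 5654854796) (nat_lit 82) (nat_lit 5) (nat_lit 86) (nat_lit 5) (nat_lit 87) (nat_lit 4) (nat_lit 268) (nat_lit 228) (nat_lit 224)) (XT.lf (nat_lit 0) (nat_lit 1236308077) (nat_lit 304) (nat_lit 7935750540) (nat_lit 304) (nat_lit 234609933) (nat_lit 78) (nat_lit 4) (nat_lit 82) (nat_lit 5) (nat_lit 82) (nat_lit 4) (nat_lit 269) (nat_lit 228) (nat_lit 223))))))))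
noncomputable def xc28 : XT := (XT.nd (nat_lit 1716) (nat_lit 988) (nat_lit 0) (XT.nd (nat_lit 858) (nat_lit 1444) (nat_lit 0) (XT.nd (nat_lit 390) (nat_lit 1292) (nat_lit 0) (XT.nd (nat_lit 156) (nat_lit 836) (nat_lit 0) (XT.nd (nat_lit 78) (nat_lit 380) (nat_lit 0) (XT.lf (nat_lit 0) (nat_lit 1659411593) (nat_lit 304) (nat_lit 3605562451) (nat_lit 380) (nat_lit 4385386567) (nat_lit 73) (nat_lit 5) (nat_lit 77) (nat_lit 5) (nat_lit 78) (nat_lit 4) (nat_lit 270) (nat_lit 228) (nat_lit 222)) (XT.lf (nat_lit 0) (nat_lit 1006154192) (nat_lit 380) (nat_lit 7950345745) (nat_lit 76) (nat_lit 952623881) (nat_lit 68) (nat_lit 5) (nat_lit 73) (nat_lit 5) (nat_lit 69) (nat_lit 4) (nat_lit 271) (nat_lit 228) (nat_lit 221))) (XT.nd (nat_lit 78) (nat_lit 608) (nat_lit 0) (XT.lf (nat_lit 0) (nat_lit 2052637651) (nat_lit 228) (nat_lit 4456895010) (nat_lit 304) (nat_lit 3672259709) (nat_lit 65) (nat_lit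 5) (nat_lit 68) (nat_lit 5) (nat_lit 69) (nat_lit 4) (nat_lit 272) (nat_lit 228) (nat_lit 220)) (XT.nd (nat_lit 78) (nat_lit 228) (nat_lit 0) (XT.lf (nat_lit 0) (nat_lit 1686759702) (nat_lit 380) (nat_lit 8493283473) (nat_lit 76) (nat_lit 290696685) (nat_lit 60) (nat_lit 5) (nat_lit 65) (nat_lit 5) (nat_lit 61) (nat_lit 4) (nat_lit 273) (nat_lit 228) (nat_lit 219)) (XT.lf (nat_lit 0) (nat_lit 1643921911) (nat_lit 228) (nat_lit 5543591311) (nat_lit 304) (nat_lit 3587266428) (nat_lit 57) (nat_lit 5) (nat_lit 60) (nat_lit 5) (nat_lit 61) (nat_lit 4) (nat_lit 274) (nat_lit 228) (nat_lit 218))))) (XT.nd (nat_lit 234) (nat_lit 684) (nat_lit 0) (XT.nd (nat_lit 78) (nat_lit 304) (nat_lit 0) (XT.lf (nat_lit 0) (nat_lit 1087910337) (nat_lit 228) (nat_lit 651898399) (nat_lit 304) (nat_lit 9356674042) (nat_lit 53) (nat_lit 5) (nat_lit 56) (nat_lit 5) (nat_lit 57) (nat_lit 5) (nat_lit 275) (nat_lit 228)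 (nat_lit 217)) (XT.nd (nat_lit 78) (nat_lit 76) (nat_lit 0) (XT.lf (nat_lit 0) (nat_lit 215806842) (nat_lit 228) (nat_lit 6997807986) (nat_lit 304) (nat_lit 4221154141) (nat_lit 50) (nat_lit 5) (nat_lit 53) (nat_lit 5) (nat_lit 54) (nat_lit 4) (nat_lit 276) (nat_lit 228) (nat_lit 216)) (XT.lf (nat_lit 0) (nat_lit 1076925816) (nat_lit 304) (nat_lit 925949009) (nat_lit 76) (nat_lit 9789083141) (nat_lit 49) (nat_lit 5) (nat_lit 53) (nat_lit 5) (nat_lit 50) (nat_lit 5) (nat_lit 277) (nat_lit 228) (nat_lit 215)))) (XT.nd (nat_lit 78) (nat_lit 456) (nat_lit 0) (XT.lf (nat_lit 0) (nat_lit 6505544806) (nat_lit 304) (nat_lit 2437690514) (nat_lit 76) (nat_lit 3224105756) (nat_lit 46) (nat_lit 5) (nat_lit 50) (nat_lit 5) (nat_lit 47) (nat_lit 4) (nat_lit 278) (nat_lit 228) (nat_lit 214)) (XT.nd (nat_lit 78) (nat_lit 304) (nat_lit 0) (XT.lf (nat_lit 0) (nat_lit 8252863455) (nat_lit 152) (nat_lit 3893449783)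 (nat_lit 228) (nat_lit 417126662) (nat_lit 44) (nat_lit 5) (nat_lit 46) (nat_lit 5) (nat_lit 47) (nat_lit 4) (nat_lit 279) (nat_lit 228) (nat_lit 213)) (XT.lf (nat_lit 0) (nat_lit 4926287071) (nat_lit 304) (nat_lit 6628916939) (nat_lit 76) (nat_lit 1424752405) (nat_lit 40) (nat_lit 5) (nat_lit 44) (nat_lit 5) (nat_lit 41) (nat_lit 4) (nat_lit 280) (nat_lit 228) (nat_lit 212)))))) (XT.nd (nat_lit 390) (nat_lit 684) (nat_lit 0) (XT.nd (nat_lit 156) (nat_lit 380) (nat_lit 0) (XT.nd (nat_lit 78) (nat_lit 228) (nat_lit 0) (XT.lf (nat_lit 0) (nat_lit 3997418373) (nat_lit 152) (nat_lit 6493292907) (nat_lit 228) (nat_lit 2927737624) (nat_lit 38) (nat_lit 5) (nat_lit 40) (nat_lit 5) (nat_lit 41) (nat_lit 4) (nat_lit 281) (nat_lit 228) (nat_lit 211)) (XT.lf (nat_lit 0) (nat_lit 1162810519) (nat_lit 152) (nat_lit 1167285929) (nat_lit 228) (nat_lit 11550493581) (nat_lit 35) (nat_lit 5) (nat_lit 37) (nat_lit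 5) (nat_lit 38) (nat_lit 5) (nat_lit 282) (nat_lit 228) (nat_lit 210))) (XT.nd (nat_lit 78) (nat_lit 380) (nat_lit 0) (XT.lf (nat_lit 0) (nat_lit 7778921791) (nat_lit 228) (nat_lit 2212186906) (nat_lit 76) (nat_lit 4374330768) (nat_lit 35) (nat_lit 5) (nat_lit 38) (nat_lit 5) (nat_lit 36) (nat_lit 4) (nat_lit 283) (nat_lit 228) (nat_lit 209)) (XT.nd (nat_lit 78) (nat_lit 228) (nat_lit 0) (XT.lf (nat_lit 0) (nat_lit 8740386727) (nat_lit 152) (nat_lit 4710467400) (nat_lit 228) (nat_lit 1425281434) (nat_lit 33) (nat_lit 5) (nat_lit 35) (nat_lit 5) (nat_lit 36) (nat_lit 4) (nat_lit 284) (nat_lit 228) (nat_lit 208)) (XT.lf (nat_lit 0) (nat_lit 3850460752) (nat_lit 228) (nat_lit 10726827287) (nat_lit 76) (nat_lit 836009986) (nat_lit 30) (nat_lit 5) (nat_lit 33) (nat_lit 5) (nat_lit 31) (nat_lit 4) (nat_lit 285) (nat_lit 228) (nat_lit 207))))) (XT.nd (nat_lit 234) (nat_lit 304) (nat_lit 0) (XT.nd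 (nat_lit 78) (nat_lit 380) (nat_lit 0) (XT.lf (nat_lit 0) (nat_lit 9333900128) (nat_lit 228) (nat_lit 89863606) (nat_lit 76) (nat_lit 6554039250) (nat_lit 30) (nat_lit 5) (nat_lit 33) (nat_lit 5) (nat_lit 31) (nat_lit 4) (nat_lit 286) (nat_lit 228) (nat_lit 206)) (XT.nd (nat_lit 78) (nat_lit 228) (nat_lit 0) (XT.lf (nat_lit 0) (nat_lit 11076125954) (nat_lit 152) (nat_lit 3990219538) (nat_lit 228) (nat_lit 1505046812) (nat_lit 28) (nat_lit 5) (nat_lit 30) (nat_lit 5) (nat_lit 31) (nat_lit 4) (nat_lit 287) (nat_lit 228) (nat_lit 205)) (XT.lf (nat_lit 0) (nat_lit 3756044385) (nat_lit 228) (nat_lit 11750965167) (nat_lit 76) (nat_lit 1688389365) (nat_lit 25) (nat_lit 5) (nat_lit 28) (nat_lit 5) (nat_lit 26) (nat_lit 4) (nat_lit 288) (nat_lit 228) (nat_lit 204)))) (XT.nd (nat_lit 78) (nat_lit 304) (nat_lit 0) (XT.lf (nat_lit 0) (nat_lit 9221293715) (nat_lit 228) (nat_lit 1071166383) (nat_lit 76)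 (nat_lit 7558623509) (nat_lit 25) (nat_lit 5) (nat_lit 28) (nat_lit 5) (nat_lit 26) (nat_lit 4) (nat_lit 289) (nat_lit 228) (nat_lit 203)) (XT.nd (nat_lit 78) (nat_lit 228) (nat_lit 0) (XT.lf (nat_lit 0) (nat_lit 10138376477) (nat_lit 76) (nat_lit 4799397350) (nat_lit 152) (nat_lit 3602526987) (nat_lit 24) (nat_lit 5) (nat_lit 25) (nat_lit 5) (nat_lit 26) (nat_lit 4) (nat_lit 290) (nat_lit 228) (nat_lit 202)) (XT.lf (nat_lit 0) (nat_lit 1570687397) (nat_lit 228) (nat_lit 16774039379) (nat_lit 76) (nat_lit 921030655) (nat_lit 21) (nat_lit 5) (nat_lit 24) (nat_lit 5) (nat_lit 22) (nat_lit 4) (nat_lit 291) (nat_lit 228) (nat_lit 201))))))) (XT.nd (nat_lit 858) (nat_lit 304) (nat_lit 0) (XT.nd (nat_lit 390) (nat_lit 380) (nat_lit 0) (XT.nd (nat_lit 156) (nat_lit 228) (nat_lit 0) (XT.nd (nat_lit 78) (nat_lit 76) (nat_lit 0) (XT.lf (nat_lit 0) (nat_lit 6950570553) (nat_lit 228) (nat_lit 6200640274)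 (nat_lit 76) (nat_lit 6874607482) (nat_lit 21) (nat_lit 5) (nat_lit 24) (nat_lit 5) (nat_lit 22) (nat_lit 4) (nat_lit 292) (nat_lit 228) (nat_lit 200)) (XT.lf (nat_lit 0) (nat_lit 4808879556) (nat_lit 76) (nat_lit 7728254228) (nat_lit 152) (nat_lit 8288691116) (nat_lit 20) (nat_lit 5) (nat_lit 21) (nat_lit 5) (nat_lit 22) (nat_lit 4) (nat_lit 293) (nat_lit 228) (nat_lit 199))) (XT.nd (nat_lit 78) (nat_lit 228) (nat_lit 0) (XT.lf (nat_lit 0) (nat_lit 16317405502) (nat_lit 76) (nat_lit 2044338073) (nat_lit 152) (nat_lit 3305396448) (nat_lit 20) (nat_lit 5) (nat_lit 21) (nat_lit 5) (nat_lit 22) (nat_lit 4) (nat_lit 294) (nat_lit 228) (nat_lit 198)) (XT.nd (nat_lit 78) (nat_lit 0) (nat_lit 0) (XT.lf (nat_lit 0) (nat_lit 1881510397) (nat_lit 228) (nat_lit 16818733233) (nat_lit 76) (nat_lit 3850024507) (nat_lit 17) (nat_lit 5) (nat_lit 20) (nat_lit 5) (nat_lit 18) (nat_lit 4) (nat_lit 295) (nat_lit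 228) (nat_lit 197)) (XT.lf (nat_lit 0) (nat_lit 7237625142) (nat_lit 228) (nat_lit 6223593174) (nat_lit 76) (nat_lit 10016067270) (nat_lit 17) (nat_lit 5) (nat_lit 20) (nat_lit 5) (nat_lit 18) (nat_lit 4) (nat_lit 296) (nat_lit 228) (nat_lit 196))))) (XT.nd (nat_lit 234) (nat_lit 152) (nat_lit 0) (XT.nd (nat_lit 78) (nat_lit 152) (nat_lit 0) (XT.lf (nat_lit 0) (nat_lit 4831961684) (nat_lit 76) (nat_lit 7982067622) (nat_lit 152) (nat_lit 11638108595) (nat_lit 16) (nat_lit 5) (nat_lit 17) (nat_lit 5) (nat_lit 18) (nat_lit 4) (nat_lit 297) (nat_lit 228) (nat_lit 195)) (XT.nd (nat_lit 78) (nat_lit 152) (nat_lit 0) (XT.lf (nat_lit 0) (nat_lit 16411408353) (nat_lit 76) (nat_lit 2230894279) (nat_lit 152) (nat_lit 6834294445) (nat_lit 16) (nat_lit 5) (nat_lit 17) (nat_lit 5) (nat_lit 18) (nat_lit 4) (nat_lit 298) (nat_lit 228) (nat_lit 194)) (XT.lf (nat_lit 0) (nat_lit 1863912672) (nat_lit 152) (nat_lit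 22865292179) (nat_lit 152) (nat_lit 1824110971) (nat_lit 14) (nat_lit 4) (nat_lit 16) (nat_lit 5) (nat_lit 16) (nat_lit 4) (nat_lit 299) (nat_lit 228) (nat_lit 193)))) (XT.nd (nat_lit 78) (nat_lit 76) (nat_lit 0) (XT.lf (nat_lit 0) (nat_lit 3400813565) (nat_lit 228) (nat_lit 14359398049) (nat_lit 76) (nat_lit 9921778158) (nat_lit 13) (nat_lit 5) (nat_lit 16) (nat_lit 5) (nat_lit 14) (nat_lit 4) (nat_lit 300) (nat_lit 228) (nat_lit 192)) (XT.nd (nat_lit 78) (nat_lit 76) (nat_lit 0) (XT.lf (nat_lit 0) (nat_lit 8768212421) (nat_lit 228) (nat_lit 3674881589) (nat_lit 76) (nat_lit 16425939717) (nat_lit 13) (nat_lit 5) (nat_lit 16) (nat_lit 5) (nat_lit 14) (nat_lit 4) (nat_lit 301) (nat_lit 228) (nat_lit 191)) (XT.lf (nat_lit 0) (nat_lit 7554536235) (nat_lit 76) (nat_lit 6844542681) (nat_lit 152) (nat_lit 15716542537) (nat_lit 12) (nat_lit 5) (nat_lit 13) (nat_lit 5) (nat_lit 14) (nat_lit 4) (nat_lit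 302) (nat_lit 228) (nat_lit 190)))))) (XT.nd (nat_lit 390) (nat_lit 152) (nat_lit 0) (XT.nd (nat_lit 156) (nat_lit 152) (nat_lit 0) (XT.nd (nat_lit 78) (nat_lit 0) (nat_lit 0) (XT.lf (nat_lit 0) (nat_lit 19289398143) (nat_lit 76) (nat_lit 984813855) (nat_lit 152) (nat_lit 11151487254) (nat_lit 12) (nat_lit 5) (nat_lit 13) (nat_lit 5) (nat_lit 14) (nat_lit 4) (nat_lit 303) (nat_lit 228) (nat_lit 189)) (XT.lf (nat_lit 0) (nat_lit 26420720487) (nat_lit 152) (nat_lit 1368108932) (nat_lit 0) (nat_lit 5013163324) (nat_lit 12) (nat_lit 5) (nat_lit 14) (nat_lit 4) (nat_lit 12) (nat_lit 4) (nat_lit 304) (nat_lit 228) (nat_lit 188))) (XT.nd (nat_lit 78) (nat_lit 76) (nat_lit 0) (XT.lf (nat_lit 0) (nat_lit 10001669962) (nat_lit 76) (nat_lit 22910339643) (nat_lit 76) (nat_lit 1334006090) (nat_lit 11) (nat_lit 4) (nat_lit 12) (nat_lit 5) (nat_lit 12) (nat_lit 4) (nat_lit 305) (nat_lit 228) (nat_lit 187))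 (XT.nd (nat_lit 78) (nat_lit 0) (nat_lit 0) (XT.lf (nat_lit 0) (nat_lit 3835269817) (nat_lit 152) (nat_lit 13951475241) (nat_lit 76) (nat_lit 17975975784) (nat_lit 10) (nat_lit 5) (nat_lit 12) (nat_lit 5) (nat_lit 11) (nat_lit 4) (nat_lit 306) (nat_lit 228) (nat_lit 186)) (XT.lf (nat_lit 0) (nat_lit 9171683470) (nat_lit 152) (nat_lit 3271640686) (nat_lit 76) (nat_lit 24913486808) (nat_lit 10) (nat_lit 5) (nat_lit 12) (nat_lit 5) (nat_lit 11) (nat_lit 4) (nat_lit 307) (nat_lit 228) (nat_lit 185))))) (XT.nd (nat_lit 234) (nat_lit 76) (nat_lit 0) (XT.nd (nat_lit 78) (nat_lit 0) (nat_lit 0) (XT.lf (nat_lit 0) (nat_lit 7989309599) (nat_lit 76) (nat_lit 6801460410) (nat_lit 152) (nat_lit 24239392256) (nat_lit 9) (nat_lit 5) (nat_lit 10) (nat_lit 5) (nat_lit 11) (nat_lit 4) (nat_lit 308) (nat_lit 228) (nat_lit 184)) (XT.nd (nat_lit 78) (nat_lit 0) (nat_lit 0) (XT.lf (nat_lit 0) (nat_lit 19776016910)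 (nat_lit 76) (nat_lit 889413229) (nat_lit 152) (nat_lit 20122543122) (nat_lit 9) (nat_lit 5) (nat_lit 10) (nat_lit 5) (nat_lit 11) (nat_lit 4) (nat_lit 309) (nat_lit 228) (nat_lit 183)) (XT.lf (nat_lit 0) (nat_lit 26828271773) (nat_lit 152) (nat_lit 10634654227) (nat_lit 0) (nat_lit 5170944597) (nat_lit 9) (nat_lit 5) (nat_lit 11) (nat_lit 4) (nat_lit 9) (nat_lit 4) (nat_lit 310) (nat_lit 228) (nat_lit 182)))) (XT.nd (nat_lit 78) (nat_lit 0) (nat_lit 0) (XT.lf (nat_lit 0) (nat_lit 158566462) (nat_lit 76) (nat_lit 33097215427) (nat_lit 76) (nat_lit 11317612969) (nat_lit 8) (nat_lit 4) (nat_lit 9) (nat_lit 5) (nat_lit 9) (nat_lit 4) (nat_lit 311) (nat_lit 228) (nat_lit 181)) (XT.nd (nat_lit 78) (nat_lit 0) (nat_lit 0) (XT.lf (nat_lit 0) (nat_lit 11619399810) (nat_lit 76) (nat_lit 28442431125) (nat_lit 76) (nat_lit 6546376019) (nat_lit 8) (nat_lit 4) (nat_lit 9) (nat_lit 5) (nat_lit 9) (nat_lit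 4) (nat_lit 312) (nat_lit 228) (nat_lit 180)) (XT.lf (nat_lit 0) (nat_lit 23563483045) (nat_lit 76) (nat_lit 23594879432) (nat_lit 76) (nat_lit 1587917041) (nat_lit 8) (nat_lit 4) (nat_lit 9) (nat_lit 5) (nat_lit 9) (nat_lit 4) (nat_lit 313) (nat_lit 228) (nat_lit 179))))))))
noncomputable def xc29 : XT := (XT.nd (nat_lit 33618) (nat_lit 0) (nat_lit 2052) (XT.nd (nat_lit 858) (nat_lit 152) (nat_lit 0) (XT.nd (nat_lit 390) (nat_lit 76) (nat_lit 0) (XT.nd (nat_lit 156) (nat_lit 76) (nat_lit 0) (XT.nd (nat_lit 78) (nat_lit 0) (nat_lit 0) (XT.lf (nat_lit 0) (nat_lit 3499914655) (nat_lit 152) (nat_lit 15007761626) (nat_lit 76) (nat_lit 32483997528) (nat_lit 7) (nat_lit 5) (nat_lit 9) (nat_lit 5) (nat_lit 8) (nat_lit 4) (nat_lit 314) (nat_lit 228) (nat_lit 178)) (XT.lf (nat_lit 0) (nat_lit 8763944612) (nat_lit 152) (nat_lit 4422376991) (nat_lit 76) (nat_lit 40163927383) (nat_lit 7) (nat_lit 5)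 (nat_lit 9) (nat_lit 5) (nat_lit 8) (nat_lit 4) (nat_lit 315) (nat_lit 228) (nat_lit 177))) (XT.nd (nat_lit 78) (nat_lit 0) (nat_lit 0) (XT.lf (nat_lit 0) (nat_lit 6745452839) (nat_lit 76) (nat_lit 7567080793) (nat_lit 152) (nat_lit 41513599747) (nat_lit 6) (nat_lit 5) (nat_lit 7) (nat_lit 5) (nat_lit 8) (nat_lit 4) (nat_lit 316) (nat_lit 228) (nat_lit 176)) (XT.nd (nat_lit 78) (nat_lit 0) (nat_lit 0) (XT.lf (nat_lit 0) (nat_lit 18487885530) (nat_lit 76) (nat_lit 1654045338) (nat_lit 152) (nat_lit 38283799941) (nat_lit 6) (nat_lit 5) (nat_lit 7) (nat_lit 5) (nat_lit 8) (nat_lit 4) (nat_lit 317) (nat_lit 228) (nat_lit 175)) (XT.lf (nat_lit 0) (nat_lit 26266129410) (nat_lit 152) (nat_lit 30455136422) (nat_lit 0) (nat_lit 4433961552) (nat_lit 6) (nat_lit 5) (nat_lit 8) (nat_lit 4) (nat_lit 6) (nat_lit 4) (nat_lit 318) (nat_lit 228) (nat_lit 174))))) (XT.nd (nat_lit 234) (nat_lit 0) (nat_lit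 0) (XT.nd (nat_lit 78) (nat_lit 76) (nat_lit 0) (XT.lf (nat_lit 0) (nat_lit 32674708216) (nat_lit 152) (nat_lit 20584973622) (nat_lit 0) (nat_lit 10762190141) (nat_lit 6) (nat_lit 5) (nat_lit 8) (nat_lit 4) (nat_lit 6) (nat_lit 4) (nat_lit 319) (nat_lit 228) (nat_lit 173)) (XT.nd (nat_lit 78) (nat_lit 76) (nat_lit 0) (XT.lf (nat_lit 0) (nat_lit 39367026112) (nat_lit 152) (nat_lit 10287956797) (nat_lit 0) (nat_lit 17377984021) (nat_lit 6) (nat_lit 5) (nat_lit 8) (nat_lit 4) (nat_lit 6) (nat_lit 4) (nat_lit 320) (nat_lit 228) (nat_lit 172)) (XT.lf (nat_lit 0) (nat_lit 469594233) (nat_lit 76) (nat_lit 45893936982) (nat_lit 76) (nat_lit 23832014875) (nat_lit 5) (nat_lit 4) (nat_lit 6) (nat_lit 5) (nat_lit 6) (nat_lit 4) (nat_lit 321) (nat_lit 228) (nat_lit 171)))) (XT.nd (nat_lit 78) (nat_lit 0) (nat_lit 0) (XT.lf (nat_lit 0) (nat_lit 11918350390) (nat_lit 76) (nat_lit 41863545128) (nat_lit 76)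 (nat_lit 19732213483) (nat_lit 5) (nat_lit 4) (nat_lit 6) (nat_lit 5) (nat_lit 6) (nat_lit 4) (nat_lit 322) (nat_lit 228) (nat_lit 170)) (XT.nd (nat_lit 78) (nat_lit 0) (nat_lit 0) (XT.lf (nat_lit 0) (nat_lit 23880820102) (nat_lit 76) (nat_lit 37658099368) (nat_lit 76) (nat_lit 15460663400) (nat_lit 5) (nat_lit 4) (nat_lit 6) (nat_lit 5) (nat_lit 6) (nat_lit 4) (nat_lit 323) (nat_lit 228) (nat_lit 169)) (XT.lf (nat_lit 0) (nat_lit 36385485440) (nat_lit 76) (nat_lit 33267586735) (nat_lit 76) (nat_lit 11007194270) (nat_lit 5) (nat_lit 4) (nat_lit 6) (nat_lit 5) (nat_lit 6) (nat_lit 4) (nat_lit 324) (nat_lit 228) (nat_lit 168)))))) (XT.nd (nat_lit 390) (nat_lit 0) (nat_lit 0) (XT.nd (nat_lit 156) (nat_lit 152) (nat_lit 0) (XT.nd (nat_lit 78) (nat_lit 0) (nat_lit 0) (XT.lf (nat_lit 0) (nat_lit 49462119417) (nat_lit 76) (nat_lit 28681553629) (nat_lit 76) (nat_lit 6361202595) (nat_lit 5) (nat_lit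 4) (nat_lit 6) (nat_lit 5) (nat_lit 6) (nat_lit 4) (nat_lit 325) (nat_lit 228) (nat_lit 167)) (XT.lf (nat_lit 0) (nat_lit 63141856875) (nat_lit 76) (nat_lit 23889080923) (nat_lit 76) (nat_lit 1511626490) (nat_lit 5) (nat_lit 4) (nat_lit 6) (nat_lit 5) (nat_lit 6) (nat_lit 4) (nat_lit 326) (nat_lit 228) (nat_lit 166))) (XT.nd (nat_lit 78) (nat_lit 76) (nat_lit 0) (XT.lf (nat_lit 0) (nat_lit 3483747253) (nat_lit 152) (nat_lit 15359831698) (nat_lit 76) (nat_lit 73938342349) (nat_lit 4) (nat_lit 5) (nat_lit 6) (nat_lit 5) (nat_lit 5) (nat_lit 4) (nat_lit 327) (nat_lit 228) (nat_lit 165)) (XT.nd (nat_lit 78) (nat_lit 76) (nat_lit 0) (XT.lf (nat_lit 0) (nat_lit 8672380293) (nat_lit 152) (nat_lit 4878701093) (nat_lit 76) (nat_lit 83682484632) (nat_lit 4) (nat_lit 5) (nat_lit 6) (nat_lit 5) (nat_lit 5) (nat_lit 4) (nat_lit 328) (nat_lit 228) (nat_lit 164)) (XT.lf (nat_lit 0) (nat_lit 6203217264)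 (nat_lit 76) (nat_lit 7952535650) (nat_lit 152) (nat_lit 87750991728) (nat_lit 3) (nat_lit 5) (nat_lit 4) (nat_lit 5) (nat_lit 5) (nat_lit 4) (nat_lit 329) (nat_lit 228) (nat_lit 163))))) (XT.nd (nat_lit 312) (nat_lit 0) (nat_lit 0) (XT.nd (nat_lit 78) (nat_lit 0) (nat_lit 0) (XT.lf (nat_lit 0) (nat_lit 17898136460) (nat_lit 76) (nat_lit 2041802810) (nat_lit 152) (nat_lit 86872853963) (nat_lit 3) (nat_lit 5) (nat_lit 4) (nat_lit 5) (nat_lit 5) (nat_lit 4) (nat_lit 330) (nat_lit 228) (nat_lit 162)) (XT.nd (nat_lit 78) (nat_lit 0) (nat_lit 0) (XT.lf (nat_lit 0) (nat_lit 26030734000) (nat_lit 152) (nat_lit 81867875117) (nat_lit 0) (nat_lit 4065023061) (nat_lit 3) (nat_lit 5) (nat_lit 5) (nat_lit 4) (nat_lit 3) (nat_lit 4) (nat_lit 331) (nat_lit 228) (nat_lit 161)) (XT.lf (nat_lit 0) (nat_lit 32425122260) (nat_lit 152) (nat_lit 74528887623) (nat_lit 0) (nat_lit 10418040995) (nat_lit 3) (nat_lit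 5) (nat_lit 5) (nat_lit 4) (nat_lit 3) (nat_lit 4) (nat_lit 332) (nat_lit 228) (nat_lit 160)))) (XT.nd (nat_lit 31902) (nat_lit 0) (nat_lit 8436) (XT.lf (nat_lit 0) (nat_lit 46127409495) (nat_lit 152) (nat_lit 58844734770) (nat_lit 0) (nat_lit 24043403814) (nat_lit 3) (nat_lit 5) (nat_lit 5) (nat_lit 4) (nat_lit 3) (nat_lit 4) (nat_lit 334) (nat_lit 228) (nat_lit 158)) (XT.nd (nat_lit 78) (nat_lit 456) (nat_lit 0) (XT.lf (nat_lit 0) (nat_lit 1845329057) (nat_lit 456) (nat_lit 1089796314) (nat_lit 456) (nat_lit 1089796314) (nat_lit 120) (nat_lit 4) (nat_lit 126) (nat_lit 5) (nat_lit 126) (nat_lit 4) (nat_lit 262) (nat_lit 229) (nat_lit 229)) (XT.lf (nat_lit 0) (nat_lit 3319889789) (nat_lit 456) (nat_lit 3515394329) (nat_lit 0) (nat_lit 1376180442) (nat_lit 114) (nat_lit 5) (nat_lit 120) (nat_lit 4) (nat_lit 114) (nat_lit 4) (nat_lit 263) (nat_lit 229) (nat_lit 228))))))) (XT.nd (nat_lit 858)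 (nat_lit 2280) (nat_lit 0) (XT.nd (nat_lit 390) (nat_lit 1976) (nat_lit 0) (XT.nd (nat_lit 156) (nat_lit 1216) (nat_lit 0) (XT.nd (nat_lit 78) (nat_lit 380) (nat_lit 0) (XT.lf (nat_lit 0) (nat_lit 534856302) (nat_lit 532) (nat_lit 2709102811) (nat_lit 76) (nat_lit 5140402116) (nat_lit 107) (nat_lit 5) (nat_lit 114) (nat_lit 5) (nat_lit 108) (nat_lit 4) (nat_lit 264) (nat_lit 229) (nat_lit 227)) (XT.lf (nat_lit 0) (nat_lit 6002877601) (nat_lit 456) (nat_lit 1958924726) (nat_lit 0) (nat_lit 606894319) (nat_lit 102) (nat_lit 5) (nat_lit 108) (nat_lit 4) (nat_lit 102) (nat_lit 4) (nat_lit 265) (nat_lit 229) (nat_lit 226))) (XT.nd (nat_lit 78) (nat_lit 760) (nat_lit 0) (XT.lf (nat_lit 0) (nat_lit 2827880520) (nat_lit 456) (nat_lit 1285530694) (nat_lit 76) (nat_lit 4651217560) (nat_lit 96) (nat_lit 5) (nat_lit 102) (nat_lit 5) (nat_lit 97) (nat_lit 4) (nat_lit 266) (nat_lit 229) (nat_lit 225))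 (XT.nd (nat_lit 78) (nat_lit 456) (nat_lit 0) (XT.lf (nat_lit 0) (nat_lit 8304242856) (nat_lit 304) (nat_lit 12451690) (nat_lit 380) (nat_lit 656889329) (nat_lit 92) (nat_lit 5) (nat_lit 96) (nat_lit 5) (nat_lit 97) (nat_lit 4) (nat_lit 267) (nat_lit 229) (nat_lit 224)) (XT.lf (nat_lit 0) (nat_lit 4717217500) (nat_lit 456) (nat_lit 188355777) (nat_lit 76) (nat_lit 4288553101) (nat_lit 86) (nat_lit 5) (nat_lit 92) (nat_lit 5) (nat_lit 87) (nat_lit 4) (nat_lit 268) (nat_lit 229) (nat_lit 223))))) (XT.nd (nat_lit 234) (nat_lit 608) (nat_lit 0) (XT.nd (nat_lit 78) (nat_lit 684) (nat_lit 0) (XT.lf (nat_lit 0) (nat_lit 216139630) (nat_lit 304) (nat_lit 577661276) (nat_lit 380) (nat_lit 8635003081) (nat_lit 77) (nat_lit 5) (nat_lit 81) (nat_lit 5) (nat_lit 82) (nat_lit 5) (nat_lit 269) (nat_lit 229) (nat_lit 222)) (XT.nd (nat_lit 78) (nat_lit 380) (nat_lit 0) (XT.lf (nat_lit 0) (nat_lit 453795341)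 (nat_lit 304) (nat_lit 5716248331) (nat_lit 380) (nat_lit 3506083982) (nat_lit 73) (nat_lit 5) (nat_lit 77) (nat_lit 5) (nat_lit 78) (nat_lit 4) (nat_lit 270) (nat_lit 229) (nat_lit 221)) (XT.lf (nat_lit 0) (nat_lit 559995724) (nat_lit 304) (nat_lit 1186207958) (nat_lit 380) (nat_lit 8192222542) (nat_lit 68) (nat_lit 5) (nat_lit 72) (nat_lit 5) (nat_lit 73) (nat_lit 5) (nat_lit 271) (nat_lit 229) (nat_lit 220)))) (XT.nd (nat_lit 78) (nat_lit 380) (nat_lit 0) (XT.lf (nat_lit 0) (nat_lit 465344421) (nat_lit 228) (nat_lit 6661371264) (nat_lit 304) (nat_lit 3088185174) (nat_lit 65) (nat_lit 5) (nat_lit 68) (nat_lit 5) (nat_lit 69) (nat_lit 4) (nat_lit 272) (nat_lit 229) (nat_lit 219)) (XT.nd (nat_lit 78) (nat_lit 0) (nat_lit 0) (XT.lf (nat_lit 0) (nat_lit 181660333) (nat_lit 304) (nat_lit 1963675361) (nat_lit 380) (nat_lit 8361878292) (nat_lit 60) (nat_lit 5) (nat_lit 64) (nat_lit 5) (nat_lit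 65) (nat_lit 5) (nat_lit 273) (nat_lit 229) (nat_lit 218)) (XT.lf (nat_lit 0) (nat_lit 7520227128) (nat_lit 380) (nat_lit 337638436) (nat_lit 76) (nat_lit 2957269826) (nat_lit 60) (nat_lit 5) (nat_lit 65) (nat_lit 5) (nat_lit 61) (nat_lit 4) (nat_lit 274) (nat_lit 229) (nat_lit 217)))))) (XT.nd (nat_lit 468) (nat_lit 760) (nat_lit 0) (XT.nd (nat_lit 234) (nat_lit 684) (nat_lit 0) (XT.nd (nat_lit 78) (nat_lit 532) (nat_lit 0) (XT.lf (nat_lit 0) (nat_lit 1923577946) (nat_lit 304) (nat_lit 1098888498) (nat_lit 76) (nat_lit 8117472064) (nat_lit 56) (nat_lit 5) (nat_lit 60) (nat_lit 5) (nat_lit 57) (nat_lit 5) (nat_lit 275) (nat_lit 229) (nat_lit 216)) (XT.nd (nat_lit 78) (nat_lit 304) (nat_lit 0) (XT.lf (nat_lit 0) (nat_lit 7275124997) (nat_lit 304) (nat_lit 2150424363) (nat_lit 76) (nat_lit 2056436236) (nat_lit 53) (nat_lit 5) (nat_lit 57) (nat_lit 5) (nat_lit 54) (nat_lit 4) (nat_lit 276) (nat_lit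 229) (nat_lit 215)) (XT.lf (nat_lit 0) (nat_lit 985099967) (nat_lit 304) (nat_lit 3513193571) (nat_lit 76) (nat_lit 7344138255) (nat_lit 49) (nat_lit 5) (nat_lit 53) (nat_lit 5) (nat_lit 50) (nat_lit 5) (nat_lit 277) (nat_lit 229) (nat_lit 214)))) (XT.nd (nat_lit 78) (nat_lit 456) (nat_lit 0) (XT.lf (nat_lit 0) (nat_lit 6281942118) (nat_lit 304) (nat_lit 5232223490) (nat_lit 76) (nat_lit 707684608) (nat_lit 46) (nat_lit 5) (nat_lit 50) (nat_lit 5) (nat_lit 47) (nat_lit 4) (nat_lit 278) (nat_lit 229) (nat_lit 213)) (XT.nd (nat_lit 78) (nat_lit 304) (nat_lit 0) (XT.lf (nat_lit 0) (nat_lit 5277604825) (nat_lit 152) (nat_lit 6538245658) (nat_lit 228) (nat_lit 805382461) (nat_lit 44) (nat_lit 5) (nat_lit 46) (nat_lit 5) (nat_lit 47) (nat_lit 4) (nat_lit 279) (nat_lit 229) (nat_lit 212)) (XT.lf (nat_lit 0) (nat_lit 3152668545) (nat_lit 228) (nat_lit 1271586865) (nat_lit 304) (nat_lit 8617318795)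 (nat_lit 40) (nat_lit 5) (nat_lit 43) (nat_lit 5) (nat_lit 44) (nat_lit 5) (nat_lit 280) (nat_lit 229) (nat_lit 211))))) (XT.nd (nat_lit 234) (nat_lit 380) (nat_lit 0) (XT.nd (nat_lit 78) (nat_lit 228) (nat_lit 0) (XT.lf (nat_lit 0) (nat_lit 563487472) (nat_lit 152) (nat_lit 9305558125) (nat_lit 228) (nat_lit 3614678893) (nat_lit 38) (nat_lit 5) (nat_lit 40) (nat_lit 5) (nat_lit 41) (nat_lit 4) (nat_lit 281) (nat_lit 229) (nat_lit 210)) (XT.nd (nat_lit 78) (nat_lit 152) (nat_lit 0) (XT.lf (nat_lit 0) (nat_lit 1572634074) (nat_lit 228) (nat_lit 2469736192) (nat_lit 76) (nat_lit 9906274817) (nat_lit 37) (nat_lit 5) (nat_lit 40) (nat_lit 5) (nat_lit 38) (nat_lit 5) (nat_lit 282) (nat_lit 229) (nat_lit 209)) (XT.lf (nat_lit 0) (nat_lit 6898572481) (nat_lit 228) (nat_lit 6050436381) (nat_lit 76) (nat_lit 1488232832) (nat_lit 35) (nat_lit 5) (nat_lit 38) (nat_lit 5) (nat_lit 36) (nat_lit 4) (nat_lit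 283) (nat_lit 229) (nat_lit 208)))) (XT.nd (nat_lit 78) (nat_lit 228) (nat_lit 0) (XT.lf (nat_lit 0) (nat_lit 4713417991) (nat_lit 152) (nat_lit 7750951393) (nat_lit 228) (nat_lit 2486810151) (nat_lit 33) (nat_lit 5) (nat_lit 35) (nat_lit 5) (nat_lit 36) (nat_lit 4) (nat_lit 284) (nat_lit 229) (nat_lit 207)) (XT.nd (nat_lit 78) (nat_lit 0) (nat_lit 0) (XT.lf (nat_lit 0) (nat_lit 411165587) (nat_lit 152) (nat_lit 2283163318) (nat_lit 228) (nat_lit 12797832072) (nat_lit 30) (nat_lit 5) (nat_lit 32) (nat_lit 5) (nat_lit 33) (nat_lit 5) (nat_lit 285) (nat_lit 229) (nat_lit 206)) (XT.lf (nat_lit 0) (nat_lit 8091608202) (nat_lit 228) (nat_lit 4528893043) (nat_lit 76) (nat_lit 3438800291) (nat_lit 30) (nat_lit 5) (nat_lit 33) (nat_lit 5) (nat_lit 31) (nat_lit 4) (nat_lit 286) (nat_lit 229) (nat_lit 205))))))))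
noncomputable def xc30 : XT := (XT.nd (nat_lit 1716) (nat_lit 532) (nat_lit 0) (XT.nd (nat_lit 858) (nat_lit 532) (nat_lit 0) (XT.nd (nat_lit 390) (nat_lit 532) (nat_lit 0) (XT.nd (nat_lit 156) (nat_lit 76) (nat_lit 0) (XT.nd (nat_lit 78) (nat_lit 228) (nat_lit 0) (XT.lf (nat_lit 0) (nat_lit 6445004277) (nat_lit 152) (nat_lit 7273376954) (nat_lit 228) (nat_lit 2937728169) (nat_lit 28) (nat_lit 5) (nat_lit 30) (nat_lit 5) (nat_lit 31) (nat_lit 4) (nat_lit 287) (nat_lit 229) (nat_lit 204)) (XT.lf (nat_lit 0) (nat_lit 563802955) (nat_lit 152) (nat_lit 1664060472) (nat_lit 228) (nat_lit 15056414163) (nat_lit 25) (nat_lit 5) (nat_lit 27) (nat_lit 5) (nat_lit 28) (nat_lit 5) (nat_lit 288) (nat_lit 229) (nat_lit 203))) (XT.nd (nat_lit 78) (nat_lit 76) (nat_lit 0) (XT.lf (nat_lit 0) (nat_lit 7618829980) (nat_lit 228) (nat_lit 6123256521) (nat_lit 76) (nat_lit 4200146864) (nat_lit 25) (nat_lit 5)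 (nat_lit 28) (nat_lit 5) (nat_lit 26) (nat_lit 4) (nat_lit 289) (nat_lit 229) (nat_lit 202)) (XT.nd (nat_lit 78) (nat_lit 0) (nat_lit 0) (XT.lf (nat_lit 0) (nat_lit 4889988883) (nat_lit 76) (nat_lit 8339359249) (nat_lit 152) (nat_lit 5405321871) (nat_lit 24) (nat_lit 5) (nat_lit 25) (nat_lit 5) (nat_lit 26) (nat_lit 4) (nat_lit 290) (nat_lit 229) (nat_lit 201)) (XT.lf (nat_lit 0) (nat_lit 16394912265) (nat_lit 76) (nat_lit 2678337344) (nat_lit 152) (nat_lit 289972356) (nat_lit 24) (nat_lit 5) (nat_lit 25) (nat_lit 5) (nat_lit 26) (nat_lit 4) (nat_lit 291) (nat_lit 229) (nat_lit 200))))) (XT.nd (nat_lit 234) (nat_lit 228) (nat_lit 0) (XT.nd (nat_lit 78) (nat_lit 76) (nat_lit 0) (XT.lf (nat_lit 0) (nat_lit 4987487854) (nat_lit 228) (nat_lit 11880180311) (nat_lit 76) (nat_lit 3258976470) (nat_lit 21) (nat_lit 5) (nat_lit 24) (nat_lit 5) (nat_lit 22) (nat_lit 4) (nat_lit 292) (nat_lit 229) (nat_lit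 199)) (XT.nd (nat_lit 78) (nat_lit 76) (nat_lit 0) (XT.lf (nat_lit 0) (nat_lit 10477400116) (nat_lit 228) (nat_lit 1051090349) (nat_lit 76) (nat_lit 9401094316) (nat_lit 21) (nat_lit 5) (nat_lit 24) (nat_lit 5) (nat_lit 22) (nat_lit 4) (nat_lit 293) (nat_lit 229) (nat_lit 198)) (XT.lf (nat_lit 0) (nat_lit 10352407653) (nat_lit 76) (nat_lit 5890465057) (nat_lit 152) (nat_lit 5529833717) (nat_lit 20) (nat_lit 5) (nat_lit 21) (nat_lit 5) (nat_lit 22) (nat_lit 4) (nat_lit 294) (nat_lit 229) (nat_lit 197)))) (XT.nd (nat_lit 78) (nat_lit 228) (nat_lit 0) (XT.lf (nat_lit 0) (nat_lit 22183832081) (nat_lit 76) (nat_lit 28267470) (nat_lit 152) (nat_lit 448483456) (nat_lit 20) (nat_lit 5) (nat_lit 21) (nat_lit 5) (nat_lit 22) (nat_lit 4) (nat_lit 295) (nat_lit 229) (nat_lit 196)) (XT.nd (nat_lit 78) (nat_lit 0) (nat_lit 0) (XT.lf (nat_lit 0) (nat_lit 4865554644) (nat_lit 228) (nat_lit 12627013364) (nat_lit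 76) (nat_lit 6096715165) (nat_lit 17) (nat_lit 5) (nat_lit 20) (nat_lit 5) (nat_lit 18) (nat_lit 4) (nat_lit 296) (nat_lit 229) (nat_lit 195)) (XT.lf (nat_lit 0) (nat_lit 10351857568) (nat_lit 228) (nat_lit 1741766613) (nat_lit 76) (nat_lit 12473241522) (nat_lit 17) (nat_lit 5) (nat_lit 20) (nat_lit 5) (nat_lit 18) (nat_lit 4) (nat_lit 297) (nat_lit 229) (nat_lit 194)))))) (XT.nd (nat_lit 390) (nat_lit 152) (nat_lit 0) (XT.nd (nat_lit 156) (nat_lit 304) (nat_lit 0) (XT.nd (nat_lit 78) (nat_lit 0) (nat_lit 0) (XT.lf (nat_lit 0) (nat_lit 9729175426) (nat_lit 76) (nat_lit 6391594797) (nat_lit 152) (nat_lit 9472361362) (nat_lit 16) (nat_lit 5) (nat_lit 17) (nat_lit 5) (nat_lit 18) (nat_lit 4) (nat_lit 298) (nat_lit 229) (nat_lit 193)) (XT.lf (nat_lit 0) (nat_lit 21665898446) (nat_lit 76) (nat_lit 447604512) (nat_lit 152) (nat_lit 4559197108) (nat_lit 16) (nat_lit 5) (nat_lit 17) (nat_lit 5) (nat_lit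 18) (nat_lit 4) (nat_lit 299) (nat_lit 229) (nat_lit 192))) (XT.nd (nat_lit 78) (nat_lit 76) (nat_lit 0) (XT.lf (nat_lit 0) (nat_lit 625517925) (nat_lit 228) (nat_lit 21489572275) (nat_lit 76) (nat_lit 5689902776) (nat_lit 13) (nat_lit 5) (nat_lit 16) (nat_lit 5) (nat_lit 14) (nat_lit 4) (nat_lit 300) (nat_lit 229) (nat_lit 191)) (XT.nd (nat_lit 78) (nat_lit 76) (nat_lit 0) (XT.lf (nat_lit 0) (nat_lit 5955101597) (nat_lit 228) (nat_lit 10871758581) (nat_lit 76) (nat_lit 12166332918) (nat_lit 13) (nat_lit 5) (nat_lit 16) (nat_lit 5) (nat_lit 14) (nat_lit 4) (nat_lit 301) (nat_lit 229) (nat_lit 190)) (XT.lf (nat_lit 0) (nat_lit 149636536) (nat_lit 76) (nat_lit 11329136670) (nat_lit 152) (nat_lit 18764244138) (nat_lit 12) (nat_lit 5) (nat_lit 13) (nat_lit 5) (nat_lit 14) (nat_lit 4) (nat_lit 302) (nat_lit 229) (nat_lit 189))))) (XT.nd (nat_lit 234) (nat_lit 76) (nat_lit 0) (XT.nd (nat_lit 78)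 (nat_lit 76) (nat_lit 0) (XT.lf (nat_lit 0) (nat_lit 11822792973) (nat_lit 76) (nat_lit 5496220677) (nat_lit 152) (nat_lit 14235147962) (nat_lit 12) (nat_lit 5) (nat_lit 13) (nat_lit 5) (nat_lit 14) (nat_lit 4) (nat_lit 303) (nat_lit 229) (nat_lit 188)) (XT.nd (nat_lit 78) (nat_lit 76) (nat_lit 0) (XT.lf (nat_lit 0) (nat_lit 23388679185) (nat_lit 152) (nat_lit 8979347392) (nat_lit 0) (nat_lit 564752566) (nat_lit 12) (nat_lit 5) (nat_lit 14) (nat_lit 4) (nat_lit 12) (nat_lit 4) (nat_lit 304) (nat_lit 229) (nat_lit 187)) (XT.lf (nat_lit 0) (nat_lit 2181122226) (nat_lit 76) (nat_lit 27591787759) (nat_lit 76) (nat_lit 4607121722) (nat_lit 11) (nat_lit 4) (nat_lit 12) (nat_lit 5) (nat_lit 12) (nat_lit 4) (nat_lit 305) (nat_lit 229) (nat_lit 186)))) (XT.nd (nat_lit 78) (nat_lit 0) (nat_lit 0) (XT.lf (nat_lit 0) (nat_lit 594808254) (nat_lit 152) (nat_lit 21930290440) (nat_lit 76) (nat_lit 13373535055)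 (nat_lit 10) (nat_lit 5) (nat_lit 12) (nat_lit 5) (nat_lit 11) (nat_lit 4) (nat_lit 306) (nat_lit 229) (nat_lit 185)) (XT.nd (nat_lit 78) (nat_lit 0) (nat_lit 0) (XT.lf (nat_lit 0) (nat_lit 5901492186) (nat_lit 152) (nat_lit 11303517448) (nat_lit 76) (nat_lit 20288621855) (nat_lit 10) (nat_lit 5) (nat_lit 12) (nat_lit 5) (nat_lit 11) (nat_lit 4) (nat_lit 307) (nat_lit 229) (nat_lit 184)) (XT.lf (nat_lit 0) (nat_lit 11415466576) (nat_lit 152) (nat_lit 249002191) (nat_lit 76) (nat_lit 27505682369) (nat_lit 10) (nat_lit 5) (nat_lit 12) (nat_lit 5) (nat_lit 11) (nat_lit 4) (nat_lit 308) (nat_lit 229) (nat_lit 183))))))) (XT.nd (nat_lit 858) (nat_lit 228) (nat_lit 0) (XT.nd (nat_lit 390) (nat_lit 152) (nat_lit 0) (XT.nd (nat_lit 156) (nat_lit 76) (nat_lit 0) (XT.nd (nat_lit 78) (nat_lit 0) (nat_lit 0) (XT.lf (nat_lit 0) (nat_lit 11483663236) (nat_lit 76) (nat_lit 5776584691) (nat_lit 152) (nat_lit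 23668624832) (nat_lit 9) (nat_lit 5) (nat_lit 10) (nat_lit 5) (nat_lit 11) (nat_lit 4) (nat_lit 309) (nat_lit 229) (nat_lit 182)) (XT.lf (nat_lit 0) (nat_lit 23349781860) (nat_lit 152) (nat_lit 19068277054) (nat_lit 0) (nat_lit 358923998) (nat_lit 9) (nat_lit 5) (nat_lit 11) (nat_lit 4) (nat_lit 9) (nat_lit 4) (nat_lit 310) (nat_lit 229) (nat_lit 181))) (XT.nd (nat_lit 78) (nat_lit 76) (nat_lit 0) (XT.lf (nat_lit 0) (nat_lit 29750692291) (nat_lit 152) (nat_lit 8323244031) (nat_lit 0) (nat_lit 6643381780) (nat_lit 9) (nat_lit 5) (nat_lit 11) (nat_lit 4) (nat_lit 9) (nat_lit 4) (nat_lit 311) (nat_lit 229) (nat_lit 180)) (XT.nd (nat_lit 78) (nat_lit 0) (nat_lit 0) (XT.lf (nat_lit 0) (nat_lit 2928139571) (nat_lit 76) (nat_lit 33522698917) (nat_lit 76) (nat_lit 10304481121) (nat_lit 8) (nat_lit 4) (nat_lit 9) (nat_lit 5) (nat_lit 9) (nat_lit 4) (nat_lit 312) (nat_lit 229) (nat_lit 179)) (XT.lf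 (nat_lit 0) (nat_lit 14830507692) (nat_lit 76) (nat_lit 28693717176) (nat_lit 76) (nat_lit 5369873395) (nat_lit 8) (nat_lit 4) (nat_lit 9) (nat_lit 5) (nat_lit 9) (nat_lit 4) (nat_lit 313) (nat_lit 229) (nat_lit 178))))) (XT.nd (nat_lit 234) (nat_lit 76) (nat_lit 0) (XT.nd (nat_lit 78) (nat_lit 76) (nat_lit 0) (XT.lf (nat_lit 0) (nat_lit 27246550427) (nat_lit 76) (nat_lit 23659541969) (nat_lit 76) (nat_lit 235102011) (nat_lit 8) (nat_lit 4) (nat_lit 9) (nat_lit 5) (nat_lit 9) (nat_lit 4) (nat_lit 314) (nat_lit 229) (nat_lit 177)) (XT.nd (nat_lit 78) (nat_lit 0) (nat_lit 0) (XT.lf (nat_lit 0) (nat_lit 5012303996) (nat_lit 152) (nat_lit 13345268727) (nat_lit 76) (nat_lit 35142911343) (nat_lit 7) (nat_lit 5) (nat_lit 9) (nat_lit 5) (nat_lit 8) (nat_lit 4) (nat_lit 315) (nat_lit 229) (nat_lit 176)) (XT.lf (nat_lit 0) (nat_lit 10475850040) (nat_lit 152) (nat_lit 2345513955) (nat_lit 76) (nat_lit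 43157565598) (nat_lit 7) (nat_lit 5) (nat_lit 9) (nat_lit 5) (nat_lit 8) (nat_lit 4) (nat_lit 316) (nat_lit 229) (nat_lit 175)))) (XT.nd (nat_lit 78) (nat_lit 0) (nat_lit 0) (XT.lf (nat_lit 0) (nat_lit 9314836177) (nat_lit 76) (nat_lit 6947835977) (nat_lit 152) (nat_lit 42317141496) (nat_lit 6) (nat_lit 5) (nat_lit 7) (nat_lit 5) (nat_lit 8) (nat_lit 4) (nat_lit 317) (nat_lit 229) (nat_lit 174)) (XT.nd (nat_lit 78) (nat_lit 0) (nat_lit 0) (XT.lf (nat_lit 0) (nat_lit 21538099517) (nat_lit 76) (nat_lit 786653457) (nat_lit 152) (nat_lit 38986429711) (nat_lit 6) (nat_lit 5) (nat_lit 7) (nat_lit 5) (nat_lit 8) (nat_lit 4) (nat_lit 318) (nat_lit 229) (nat_lit 173)) (XT.lf (nat_lit 0) (nat_lit 28707872498) (nat_lit 152) (nat_lit 29927872777) (nat_lit 0) (nat_lit 5542854286) (nat_lit 6) (nat_lit 5) (nat_lit 8) (nat_lit 4) (nat_lit 6) (nat_lit 4) (nat_lit 319) (nat_lit 229) (nat_lit 172)))))) (XT.nd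 (nat_lit 390) (nat_lit 152) (nat_lit 0) (XT.nd (nat_lit 156) (nat_lit 76) (nat_lit 0) (XT.nd (nat_lit 78) (nat_lit 0) (nat_lit 0) (XT.lf (nat_lit 0) (nat_lit 35383145168) (nat_lit 152) (nat_lit 19661821860) (nat_lit 0) (nat_lit 12145246940) (nat_lit 6) (nat_lit 5) (nat_lit 8) (nat_lit 4) (nat_lit 6) (nat_lit 4) (nat_lit 320) (nat_lit 229) (nat_lit 171)) (XT.lf (nat_lit 0) (nat_lit 42358902695) (nat_lit 152) (nat_lit 8942925643) (nat_lit 0) (nat_lit 19051594929) (nat_lit 6) (nat_lit 5) (nat_lit 8) (nat_lit 4) (nat_lit 6) (nat_lit 4) (nat_lit 321) (nat_lit 229) (nat_lit 170))) (XT.nd (nat_lit 78) (nat_lit 0) (nat_lit 0) (XT.lf (nat_lit 0) (nat_lit 2299202780) (nat_lit 76) (nat_lit 47374652589) (nat_lit 76) (nat_lit 24001240501) (nat_lit 5) (nat_lit 4) (nat_lit 6) (nat_lit 5) (nat_lit 6) (nat_lit 4) (nat_lit 322) (nat_lit 229) (nat_lit 169)) (XT.nd (nat_lit 78) (nat_lit 0) (nat_lit 0) (XT.lf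 (nat_lit 0) (nat_lit 14234390609) (nat_lit 76) (nat_lit 43181502154) (nat_lit 76) (nat_lit 19745133568) (nat_lit 5) (nat_lit 4) (nat_lit 6) (nat_lit 5) (nat_lit 6) (nat_lit 4) (nat_lit 323) (nat_lit 229) (nat_lit 168)) (XT.lf (nat_lit 0) (nat_lit 26713073202) (nat_lit 76) (nat_lit 38802699355) (nat_lit 76) (nat_lit 15306372200) (nat_lit 5) (nat_lit 4) (nat_lit 6) (nat_lit 5) (nat_lit 6) (nat_lit 4) (nat_lit 324) (nat_lit 229) (nat_lit 167))))) (XT.nd (nat_lit 234) (nat_lit 152) (nat_lit 0) (XT.nd (nat_lit 78) (nat_lit 0) (nat_lit 0) (XT.lf (nat_lit 0) (nat_lit 39764961707) (nat_lit 76) (nat_lit 34227818471) (nat_lit 76) (nat_lit 10674387917) (nat_lit 5) (nat_lit 4) (nat_lit 6) (nat_lit 5) (nat_lit 6) (nat_lit 4) (nat_lit 325) (nat_lit 229) (nat_lit 166)) (XT.nd (nat_lit 78) (nat_lit 0) (nat_lit 0) (XT.lf (nat_lit 0) (nat_lit 53421132050) (nat_lit 76) (nat_lit 29445966929) (nat_lit 76) (nat_lit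 5838152185) (nat_lit 5) (nat_lit 4) (nat_lit 6) (nat_lit 5) (nat_lit 6) (nat_lit 4) (nat_lit 326) (nat_lit 229) (nat_lit 165)) (XT.lf (nat_lit 0) (nat_lit 67714098921) (nat_lit 76) (nat_lit 24445759367) (nat_lit 76) (nat_lit 786150157) (nat_lit 5) (nat_lit 4) (nat_lit 6) (nat_lit 5) (nat_lit 6) (nat_lit 4) (nat_lit 327) (nat_lit 229) (nat_lit 164)))) (XT.nd (nat_lit 78) (nat_lit 76) (nat_lit 0) (XT.lf (nat_lit 0) (nat_lit 4405959508) (nat_lit 152) (nat_lit 14764839471) (nat_lit 76) (nat_lit 78227442135) (nat_lit 4) (nat_lit 5) (nat_lit 6) (nat_lit 5) (nat_lit 5) (nat_lit 4) (nat_lit 328) (nat_lit 229) (nat_lit 163)) (XT.nd (nat_lit 78) (nat_lit 76) (nat_lit 0) (XT.lf (nat_lit 0) (nat_lit 9818403967) (nat_lit 152) (nat_lit 3824556326) (nat_lit 76) (nat_lit 88430592357) (nat_lit 4) (nat_lit 5) (nat_lit 6) (nat_lit 5) (nat_lit 5) (nat_lit 4) (nat_lit 329) (nat_lit 229) (nat_lit 162)) (XT.lf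 (nat_lit 0) (nat_lit 7774248751) (nat_lit 76) (nat_lit 7779892696) (nat_lit 152) (nat_lit 91426918087) (nat_lit 3) (nat_lit 5) (nat_lit 4) (nat_lit 5) (nat_lit 5) (nat_lit 4) (nat_lit 330) (nat_lit 229) (nat_lit 161))))))))
noncomputable def xc31 : XT := (XT.nd (nat_lit 33462) (nat_lit 0) (nat_lit 760) (XT.nd (nat_lit 32604) (nat_lit 0) (nat_lit 3268) (XT.nd (nat_lit 32136) (nat_lit 0) (nat_lit 6688) (XT.nd (nat_lit 234) (nat_lit 0) (nat_lit 0) (XT.nd (nat_lit 78) (nat_lit 0) (nat_lit 0) (XT.lf (nat_lit 0) (nat_lit 19993872449) (nat_lit 76) (nat_lit 1600778916) (nat_lit 152) (nat_lit 90538760254) (nat_lit 3) (nat_lit 5) (nat_lit 4) (nat_lit 5) (nat_lit 5) (nat_lit 4) (nat_lit 331) (nat_lit 229) (nat_lit 160)) (XT.lf (nat_lit 0) (nat_lit 27963638201) (nat_lit 152) (nat_lit 84803526304) (nat_lit 0) (nat_lit 4775432236) (nat_lit 3) (nat_lit 5) (nat_lit 5) (nat_lit 4) (nat_lit 3) (nat_lit 4)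 (nat_lit 332) (nat_lit 229) (nat_lit 159))) (XT.nd (nat_lit 31746) (nat_lit 0) (nat_lit 9348) (XT.lf (nat_lit 0) (nat_lit 41647305748) (nat_lit 152) (nat_lit 69153516490) (nat_lit 0) (nat_lit 18385838435) (nat_lit 3) (nat_lit 5) (nat_lit 5) (nat_lit 4) (nat_lit 3) (nat_lit 4) (nat_lit 334) (nat_lit 229) (nat_lit 157)) (XT.nd (nat_lit 78) (nat_lit 532) (nat_lit 0) (XT.lf (nat_lit 0) (nat_lit 891535090) (nat_lit 532) (nat_lit 1493030518) (nat_lit 532) (nat_lit 1493030518) (nat_lit 133) (nat_lit 4) (nat_lit 140) (nat_lit 5) (nat_lit 140) (nat_lit 4) (nat_lit 260) (nat_lit 230) (nat_lit 230)) (XT.lf (nat_lit 0) (nat_lit 2388135654) (nat_lit 532) (nat_lit 5225138747) (nat_lit 0) (nat_lit 286013996) (nat_lit 126) (nat_lit 5) (nat_lit 133) (nat_lit 4) (nat_lit 126) (nat_lit 4) (nat_lit 261) (nat_lit 230) (nat_lit 229))))) (XT.nd (nat_lit 234) (nat_lit 1216) (nat_lit 0) (XT.nd (nat_lit 78) (nat_lit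 988) (nat_lit 0) (XT.lf (nat_lit 0) (nat_lit 3545673823) (nat_lit 456) (nat_lit 4306076472) (nat_lit 456) (nat_lit 201934186) (nat_lit 120) (nat_lit 4) (nat_lit 126) (nat_lit 5) (nat_lit 126) (nat_lit 4) (nat_lit 262) (nat_lit 230) (nat_lit 228)) (XT.nd (nat_lit 78) (nat_lit 532) (nat_lit 0) (XT.lf (nat_lit 0) (nat_lit 4395393601) (nat_lit 380) (nat_lit 730824230) (nat_lit 456) (nat_lit 3092705384) (nat_lit 114) (nat_lit 5) (nat_lit 119) (nat_lit 5) (nat_lit 120) (nat_lit 4) (nat_lit 263) (nat_lit 230) (nat_lit 227)) (XT.lf (nat_lit 0) (nat_lit 2173621110) (nat_lit 532) (nat_lit 3186306740) (nat_lit 76) (nat_lit 3035313527) (nat_lit 107) (nat_lit 5) (nat_lit 114) (nat_lit 5) (nat_lit 108) (nat_lit 4) (nat_lit 264) (nat_lit 230) (nat_lit 226)))) (XT.nd (nat_lit 78) (nat_lit 836) (nat_lit 0) (XT.lf (nat_lit 0) (nat_lit 5988209767) (nat_lit 380) (nat_lit 1531995442) (nat_lit 456) (nat_lit 1063195828)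 (nat_lit 102) (nat_lit 5) (nat_lit 107) (nat_lit 5) (nat_lit 108) (nat_lit 4) (nat_lit 265) (nat_lit 230) (nat_lit 225)) (XT.nd (nat_lit 78) (nat_lit 380) (nat_lit 0) (XT.lf (nat_lit 0) (nat_lit 4171771000) (nat_lit 456) (nat_lit 2091403217) (nat_lit 76) (nat_lit 2519775435) (nat_lit 96) (nat_lit 5) (nat_lit 102) (nat_lit 5) (nat_lit 97) (nat_lit 4) (nat_lit 266) (nat_lit 230) (nat_lit 224)) (XT.lf (nat_lit 0) (nat_lit 541908035) (nat_lit 380) (nat_lit 1656732677) (nat_lit 76) (nat_lit 6796637782) (nat_lit 91) (nat_lit 5) (nat_lit 96) (nat_lit 5) (nat_lit 92) (nat_lit 5) (nat_lit 267) (nat_lit 230) (nat_lit 223)))))) (XT.nd (nat_lit 390) (nat_lit 1672) (nat_lit 0) (XT.nd (nat_lit 156) (nat_lit 988) (nat_lit 0) (XT.nd (nat_lit 78) (nat_lit 380) (nat_lit 0) (XT.lf (nat_lit 0) (nat_lit 5770051595) (nat_lit 456) (nat_lit 1342007131) (nat_lit 76) (nat_lit 2107714670) (nat_lit 86) (nat_lit 5) (nat_lit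 92) (nat_lit 5) (nat_lit 87) (nat_lit 4) (nat_lit 268) (nat_lit 230) (nat_lit 222)) (XT.lf (nat_lit 0) (nat_lit 1687546517) (nat_lit 380) (nat_lit 1137985728) (nat_lit 76) (nat_lit 6632160833) (nat_lit 81) (nat_lit 5) (nat_lit 86) (nat_lit 5) (nat_lit 82) (nat_lit 5) (nat_lit 269) (nat_lit 230) (nat_lit 221))) (XT.nd (nat_lit 78) (nat_lit 684) (nat_lit 0) (XT.lf (nat_lit 0) (nat_lit 6929769959) (nat_lit 380) (nat_lit 1075609307) (nat_lit 76) (nat_lit 1703787932) (nat_lit 77) (nat_lit 5) (nat_lit 82) (nat_lit 5) (nat_lit 78) (nat_lit 4) (nat_lit 270) (nat_lit 230) (nat_lit 220)) (XT.nd (nat_lit 78) (nat_lit 304) (nat_lit 0) (XT.lf (nat_lit 0) (nat_lit 2348185281) (nat_lit 380) (nat_lit 1176345087) (nat_lit 76) (nat_lit 6450161674) (nat_lit 72) (nat_lit 5) (nat_lit 77) (nat_lit 5) (nat_lit 73) (nat_lit 5) (nat_lit 271) (nat_lit 230) (nat_lit 219)) (XT.lf (nat_lit 0) (nat_lit 7598475095) (nat_lit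 380) (nat_lit 1450496572) (nat_lit 76) (nat_lit 1206216044) (nat_lit 68) (nat_lit 5) (nat_lit 73) (nat_lit 5) (nat_lit 69) (nat_lit 4) (nat_lit 272) (nat_lit 230) (nat_lit 218))))) (XT.nd (nat_lit 234) (nat_lit 760) (nat_lit 0) (XT.nd (nat_lit 78) (nat_lit 608) (nat_lit 0) (XT.lf (nat_lit 0) (nat_lit 2462794735) (nat_lit 304) (nat_lit 1942375949) (nat_lit 76) (nat_lit 6145479297) (nat_lit 64) (nat_lit 5) (nat_lit 68) (nat_lit 5) (nat_lit 65) (nat_lit 5) (nat_lit 273) (nat_lit 230) (nat_lit 217)) (XT.nd (nat_lit 78) (nat_lit 304) (nat_lit 0) (XT.lf (nat_lit 0) (nat_lit 7708144000) (nat_lit 380) (nat_lit 2650288427) (nat_lit 76) (nat_lit 504125937) (nat_lit 60) (nat_lit 5) (nat_lit 65) (nat_lit 5) (nat_lit 61) (nat_lit 4) (nat_lit 274) (nat_lit 230) (nat_lit 216)) (XT.lf (nat_lit 0) (nat_lit 1953591462) (nat_lit 304) (nat_lit 3634467453) (nat_lit 76) (nat_lit 5602587342) (nat_lit 56) (nat_lit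 5) (nat_lit 60) (nat_lit 5) (nat_lit 57) (nat_lit 5) (nat_lit 275) (nat_lit 230) (nat_lit 215)))) (XT.nd (nat_lit 78) (nat_lit 532) (nat_lit 0) (XT.lf (nat_lit 0) (nat_lit 6642271494) (nat_lit 228) (nat_lit 535853913) (nat_lit 304) (nat_lit 4358467022) (nat_lit 53) (nat_lit 5) (nat_lit 56) (nat_lit 5) (nat_lit 57) (nat_lit 5) (nat_lit 276) (nat_lit 230) (nat_lit 214)) (XT.nd (nat_lit 78) (nat_lit 228) (nat_lit 0) (XT.lf (nat_lit 0) (nat_lit 723610691) (nat_lit 304) (nat_lit 6484464893) (nat_lit 76) (nat_lit 4692474006) (nat_lit 49) (nat_lit 5) (nat_lit 53) (nat_lit 5) (nat_lit 50) (nat_lit 5) (nat_lit 277) (nat_lit 230) (nat_lit 213)) (XT.lf (nat_lit 0) (nat_lit 3845701836) (nat_lit 228) (nat_lit 2060834334) (nat_lit 304) (nat_lit 6376927445) (nat_lit 46) (nat_lit 5) (nat_lit 49) (nat_lit 5) (nat_lit 50) (nat_lit 5) (nat_lit 278) (nat_lit 230) (nat_lit 212))))))) (XT.nd (nat_lit 858) (nat_lit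 912) (nat_lit 0) (XT.nd (nat_lit 390) (nat_lit 760) (nat_lit 0) (XT.nd (nat_lit 156) (nat_lit 608) (nat_lit 0) (XT.nd (nat_lit 78) (nat_lit 76) (nat_lit 0) (XT.lf (nat_lit 0) (nat_lit 1909322898) (nat_lit 152) (nat_lit 9404400258) (nat_lit 228) (nat_lit 1372999211) (nat_lit 44) (nat_lit 5) (nat_lit 46) (nat_lit 5) (nat_lit 47) (nat_lit 4) (nat_lit 279) (nat_lit 230) (nat_lit 211)) (XT.lf (nat_lit 0) (nat_lit 3764551459) (nat_lit 228) (nat_lit 452162762) (nat_lit 76) (nat_lit 8893676777) (nat_lit 43) (nat_lit 5) (nat_lit 46) (nat_lit 5) (nat_lit 44) (nat_lit 5) (nat_lit 280) (nat_lit 230) (nat_lit 210))) (XT.nd (nat_lit 78) (nat_lit 380) (nat_lit 0) (XT.lf (nat_lit 0) (nat_lit 9100279067) (nat_lit 304) (nat_lit 3215416900) (nat_lit 76) (nat_lit 1240182696) (nat_lit 40) (nat_lit 5) (nat_lit 44) (nat_lit 5) (nat_lit 41) (nat_lit 4) (nat_lit 281) (nat_lit 230) (nat_lit 209)) (XT.nd (nat_lit 78)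 (nat_lit 152) (nat_lit 0) (XT.lf (nat_lit 0) (nat_lit 647002992) (nat_lit 228) (nat_lit 6489007421) (nat_lit 76) (nat_lit 6888125506) (nat_lit 37) (nat_lit 5) (nat_lit 40) (nat_lit 5) (nat_lit 38) (nat_lit 5) (nat_lit 282) (nat_lit 230) (nat_lit 208)) (XT.lf (nat_lit 0) (nat_lit 4194102490) (nat_lit 152) (nat_lit 1657816381) (nat_lit 228) (nat_lit 8664502015) (nat_lit 35) (nat_lit 5) (nat_lit 37) (nat_lit 5) (nat_lit 38) (nat_lit 5) (nat_lit 283) (nat_lit 230) (nat_lit 207))))) (XT.nd (nat_lit 234) (nat_lit 380) (nat_lit 0) (XT.nd (nat_lit 78) (nat_lit 228) (nat_lit 0) (XT.lf (nat_lit 0) (nat_lit 265788753) (nat_lit 152) (nat_lit 11029022748) (nat_lit 228) (nat_lit 3739289290) (nat_lit 33) (nat_lit 5) (nat_lit 35) (nat_lit 5) (nat_lit 36) (nat_lit 4) (nat_lit 284) (nat_lit 230) (nat_lit 206)) (XT.nd (nat_lit 78) (nat_lit 152) (nat_lit 0) (XT.lf (nat_lit 0) (nat_lit 1399534717) (nat_lit 228)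 (nat_lit 4218556471) (nat_lit 76) (nat_lit 9959405692) (nat_lit 32) (nat_lit 5) (nat_lit 35) (nat_lit 5) (nat_lit 33) (nat_lit 5) (nat_lit 285) (nat_lit 230) (nat_lit 205)) (XT.lf (nat_lit 0) (nat_lit 6661833603) (nat_lit 228) (nat_lit 9398404822) (nat_lit 76) (nat_lit 88496803) (nat_lit 30) (nat_lit 5) (nat_lit 33) (nat_lit 5) (nat_lit 31) (nat_lit 4) (nat_lit 286) (nat_lit 230) (nat_lit 204)))) (XT.nd (nat_lit 78) (nat_lit 228) (nat_lit 0) (XT.lf (nat_lit 0) (nat_lit 1379773141) (nat_lit 152) (nat_lit 10801900383) (nat_lit 228) (nat_lit 4567123636) (nat_lit 28) (nat_lit 5) (nat_lit 30) (nat_lit 5) (nat_lit 31) (nat_lit 4) (nat_lit 287) (nat_lit 230) (nat_lit 203)) (XT.nd (nat_lit 78) (nat_lit 152) (nat_lit 0) (XT.lf (nat_lit 0) (nat_lit 567868441) (nat_lit 228) (nat_lit 4684732992) (nat_lit 76) (nat_lit 12126748245) (nat_lit 27) (nat_lit 5) (nat_lit 30) (nat_lit 5) (nat_lit 28) (nat_lit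 5) (nat_lit 288) (nat_lit 230) (nat_lit 202)) (XT.lf (nat_lit 0) (nat_lit 5822445000) (nat_lit 228) (nat_lit 11620410312) (nat_lit 76) (nat_lit 598582413) (nat_lit 25) (nat_lit 5) (nat_lit 28) (nat_lit 5) (nat_lit 26) (nat_lit 4) (nat_lit 289) (nat_lit 230) (nat_lit 201)))))) (XT.nd (nat_lit 468) (nat_lit 532) (nat_lit 0) (XT.nd (nat_lit 234) (nat_lit 76) (nat_lit 0) (XT.nd (nat_lit 78) (nat_lit 304) (nat_lit 0) (XT.lf (nat_lit 0) (nat_lit 11333089733) (nat_lit 228) (nat_lit 791998119) (nat_lit 76) (nat_lit 6611821355) (nat_lit 25) (nat_lit 5) (nat_lit 28) (nat_lit 5) (nat_lit 26) (nat_lit 4) (nat_lit 290) (nat_lit 230) (nat_lit 200)) (XT.nd (nat_lit 78) (nat_lit 228) (nat_lit 0) (XT.lf (nat_lit 0) (nat_lit 10610314007) (nat_lit 76) (nat_lit 6507727332) (nat_lit 152) (nat_lit 2349225126) (nat_lit 24) (nat_lit 5) (nat_lit 25) (nat_lit 5) (nat_lit 26) (nat_lit 4) (nat_lit 291) (nat_lit 230)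 (nat_lit 199)) (XT.lf (nat_lit 0) (nat_lit 2208329937) (nat_lit 152) (nat_lit 620514440) (nat_lit 228) (nat_lit 17406659853) (nat_lit 21) (nat_lit 5) (nat_lit 23) (nat_lit 5) (nat_lit 24) (nat_lit 5) (nat_lit 292) (nat_lit 230) (nat_lit 198)))) (XT.nd (nat_lit 78) (nat_lit 76) (nat_lit 0) (XT.lf (nat_lit 0) (nat_lit 8264767994) (nat_lit 228) (nat_lit 7274587479) (nat_lit 76) (nat_lit 5500740969) (nat_lit 21) (nat_lit 5) (nat_lit 24) (nat_lit 5) (nat_lit 22) (nat_lit 4) (nat_lit 293) (nat_lit 230) (nat_lit 197)) (XT.nd (nat_lit 78) (nat_lit 0) (nat_lit 0) (XT.lf (nat_lit 0) (nat_lit 3924946740) (nat_lit 76) (nat_lit 9997772131) (nat_lit 152) (nat_lit 7963755733) (nat_lit 20) (nat_lit 5) (nat_lit 21) (nat_lit 5) (nat_lit 22) (nat_lit 4) (nat_lit 294) (nat_lit 230) (nat_lit 196)) (XT.lf (nat_lit 0) (nat_lit 15680081659) (nat_lit 76) (nat_lit 4167571636) (nat_lit 152) (nat_lit 2928056057) (nat_lit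 20) (nat_lit 5) (nat_lit 21) (nat_lit 5) (nat_lit 22) (nat_lit 4) (nat_lit 295) (nat_lit 230) (nat_lit 195))))) (XT.nd (nat_lit 234) (nat_lit 228) (nat_lit 0) (XT.nd (nat_lit 78) (nat_lit 76) (nat_lit 0) (XT.lf (nat_lit 0) (nat_lit 2285391010) (nat_lit 228) (nat_lit 19506443783) (nat_lit 76) (nat_lit 1917786250) (nat_lit 17) (nat_lit 5) (nat_lit 20) (nat_lit 5) (nat_lit 18) (nat_lit 4) (nat_lit 296) (nat_lit 230) (nat_lit 194)) (XT.nd (nat_lit 78) (nat_lit 76) (nat_lit 0) (XT.lf (nat_lit 0) (nat_lit 7730119203) (nat_lit 228) (nat_lit 8693596204) (nat_lit 76) (nat_lit 8264761293) (nat_lit 17) (nat_lit 5) (nat_lit 20) (nat_lit 5) (nat_lit 18) (nat_lit 4) (nat_lit 297) (nat_lit 230) (nat_lit 193)) (XT.lf (nat_lit 0) (nat_lit 2568666931) (nat_lit 76) (nat_lit 10821938758) (nat_lit 152) (nat_lit 12327414331) (nat_lit 16) (nat_lit 5) (nat_lit 17) (nat_lit 5) (nat_lit 18) (nat_lit 4) (nat_lit 298)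 (nat_lit 230) (nat_lit 192)))) (XT.nd (nat_lit 78) (nat_lit 228) (nat_lit 0) (XT.lf (nat_lit 0) (nat_lit 14438414840) (nat_lit 76) (nat_lit 4906570269) (nat_lit 152) (nat_lit 7453777468) (nat_lit 16) (nat_lit 5) (nat_lit 17) (nat_lit 5) (nat_lit 18) (nat_lit 4) (nat_lit 299) (nat_lit 230) (nat_lit 191)) (XT.nd (nat_lit 78) (nat_lit 228) (nat_lit 0) (XT.lf (nat_lit 0) (nat_lit 25534206358) (nat_lit 152) (nat_lit 1176948425) (nat_lit 0) (nat_lit 1224319632) (nat_lit 16) (nat_lit 5) (nat_lit 18) (nat_lit 4) (nat_lit 16) (nat_lit 4) (nat_lit 300) (nat_lit 230) (nat_lit 190)) (XT.lf (nat_lit 0) (nat_lit 2927505587) (nat_lit 228) (nat_lit 18558708631) (nat_lit 76) (nat_lit 7639603488) (nat_lit 13) (nat_lit 5) (nat_lit 16) (nat_lit 5) (nat_lit 14) (nat_lit 4) (nat_lit 301) (nat_lit 230) (nat_lit 189))))))))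
noncomputable def xc32 : XT := (XT.nd (nat_lit 1716) (nat_lit 152) (nat_lit 0) (XT.nd (nat_lit 858) (nat_lit 304) (nat_lit 0) (XT.nd (nat_lit 390) (nat_lit 152) (nat_lit 0) (XT.nd (nat_lit 156) (nat_lit 76) (nat_lit 0) (XT.nd (nat_lit 78) (nat_lit 76) (nat_lit 0) (XT.lf (nat_lit 0) (nat_lit 8415439311) (nat_lit 228) (nat_lit 7600734836) (nat_lit 76) (nat_lit 14360559634) (nat_lit 13) (nat_lit 5) (nat_lit 16) (nat_lit 5) (nat_lit 14) (nat_lit 4) (nat_lit 302) (nat_lit 230) (nat_lit 188)) (XT.lf (nat_lit 0) (nat_lit 3862384958) (nat_lit 76) (nat_lit 10285546705) (nat_lit 152) (nat_lit 17543197581) (nat_lit 12) (nat_lit 5) (nat_lit 13) (nat_lit 5) (nat_lit 14) (nat_lit 4) (nat_lit 303) (nat_lit 230) (nat_lit 187))) (XT.nd (nat_lit 78) (nat_lit 76) (nat_lit 0) (XT.lf (nat_lit 0) (nat_lit 15942757951) (nat_lit 76) (nat_lit 4237653807) (nat_lit 152) (nat_lit 12890468442) (nat_lit 12) (nat_lit 5)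 (nat_lit 13) (nat_lit 5) (nat_lit 14) (nat_lit 4) (nat_lit 304) (nat_lit 230) (nat_lit 186)) (XT.nd (nat_lit 78) (nat_lit 76) (nat_lit 0) (XT.lf (nat_lit 0) (nat_lit 26472577138) (nat_lit 152) (nat_lit 6023481376) (nat_lit 0) (nat_lit 2024853221) (nat_lit 12) (nat_lit 5) (nat_lit 14) (nat_lit 4) (nat_lit 12) (nat_lit 4) (nat_lit 305) (nat_lit 230) (nat_lit 185)) (XT.lf (nat_lit 0) (nat_lit 5597412857) (nat_lit 76) (nat_lit 27519232829) (nat_lit 76) (nat_lit 2925713522) (nat_lit 11) (nat_lit 4) (nat_lit 12) (nat_lit 5) (nat_lit 12) (nat_lit 4) (nat_lit 306) (nat_lit 230) (nat_lit 184))))) (XT.nd (nat_lit 234) (nat_lit 0) (nat_lit 0) (XT.nd (nat_lit 78) (nat_lit 76) (nat_lit 0) (XT.lf (nat_lit 0) (nat_lit 2409747599) (nat_lit 152) (nat_lit 19840584433) (nat_lit 76) (nat_lit 15388733028) (nat_lit 10) (nat_lit 5) (nat_lit 12) (nat_lit 5) (nat_lit 11) (nat_lit 4) (nat_lit 307) (nat_lit 230) (nat_lit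 183)) (XT.nd (nat_lit 78) (nat_lit 76) (nat_lit 0) (XT.lf (nat_lit 0) (nat_lit 7896756255) (nat_lit 152) (nat_lit 8834197578) (nat_lit 76) (nat_lit 22585454110) (nat_lit 10) (nat_lit 5) (nat_lit 12) (nat_lit 5) (nat_lit 11) (nat_lit 4) (nat_lit 308) (nat_lit 230) (nat_lit 182)) (XT.lf (nat_lit 0) (nat_lit 2680856816) (nat_lit 76) (nat_lit 10950381180) (nat_lit 152) (nat_lit 27447214146) (nat_lit 9) (nat_lit 5) (nat_lit 10) (nat_lit 5) (nat_lit 11) (nat_lit 4) (nat_lit 309) (nat_lit 230) (nat_lit 181)))) (XT.nd (nat_lit 78) (nat_lit 0) (nat_lit 0) (XT.lf (nat_lit 0) (nat_lit 14865001190) (nat_lit 76) (nat_lit 4827365182) (nat_lit 152) (nat_lit 23235061029) (nat_lit 9) (nat_lit 5) (nat_lit 10) (nat_lit 5) (nat_lit 11) (nat_lit 4) (nat_lit 310) (nat_lit 230) (nat_lit 180)) (XT.nd (nat_lit 78) (nat_lit 0) (nat_lit 0) (XT.lf (nat_lit 0) (nat_lit 26022991838) (nat_lit 152) (nat_lit 17313935758)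 (nat_lit 0) (nat_lit 1532955868) (nat_lit 9) (nat_lit 5) (nat_lit 11) (nat_lit 4) (nat_lit 9) (nat_lit 4) (nat_lit 311) (nat_lit 230) (nat_lit 179)) (XT.lf (nat_lit 0) (nat_lit 32672246797) (nat_lit 152) (nat_lit 6160591805) (nat_lit 0) (nat_lit 8076584841) (nat_lit 9) (nat_lit 5) (nat_lit 11) (nat_lit 4) (nat_lit 9) (nat_lit 4) (nat_lit 312) (nat_lit 230) (nat_lit 178)))))) (XT.nd (nat_lit 390) (nat_lit 152) (nat_lit 0) (XT.nd (nat_lit 156) (nat_lit 76) (nat_lit 0) (XT.nd (nat_lit 78) (nat_lit 0) (nat_lit 0) (XT.lf (nat_lit 0) (nat_lit 5579439779) (nat_lit 76) (nat_lit 34083752428) (nat_lit 76) (nat_lit 9387494296) (nat_lit 8) (nat_lit 4) (nat_lit 9) (nat_lit 5) (nat_lit 9) (nat_lit 4) (nat_lit 313) (nat_lit 230) (nat_lit 177)) (XT.lf (nat_lit 0) (nat_lit 17957645677) (nat_lit 76) (nat_lit 29066420716) (nat_lit 76) (nat_lit 4274356701) (nat_lit 8) (nat_lit 4) (nat_lit 9) (nat_lit 5) (nat_lit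 9) (nat_lit 4) (nat_lit 314) (nat_lit 230) (nat_lit 176))) (XT.nd (nat_lit 78) (nat_lit 0) (nat_lit 0) (XT.lf (nat_lit 0) (nat_lit 1031668157) (nat_lit 152) (nat_lit 22789021353) (nat_lit 76) (nat_lit 29838803966) (nat_lit 7) (nat_lit 5) (nat_lit 9) (nat_lit 5) (nat_lit 8) (nat_lit 4) (nat_lit 315) (nat_lit 230) (nat_lit 175)) (XT.nd (nat_lit 78) (nat_lit 0) (nat_lit 0) (XT.lf (nat_lit 0) (nat_lit 6475974623) (nat_lit 152) (nat_lit 11823977987) (nat_lit 76) (nat_lit 37838572954) (nat_lit 7) (nat_lit 5) (nat_lit 9) (nat_lit 5) (nat_lit 8) (nat_lit 4) (nat_lit 316) (nat_lit 230) (nat_lit 174)) (XT.lf (nat_lit 0) (nat_lit 12154933425) (nat_lit 152) (nat_lit 378452341) (nat_lit 76) (nat_lit 46209268682) (nat_lit 7) (nat_lit 5) (nat_lit 9) (nat_lit 5) (nat_lit 8) (nat_lit 4) (nat_lit 317) (nat_lit 230) (nat_lit 173))))) (XT.nd (nat_lit 234) (nat_lit 76) (nat_lit 0) (XT.nd (nat_lit 78) (nat_lit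 0) (nat_lit 0) (XT.lf (nat_lit 0) (nat_lit 11805168186) (nat_lit 76) (nat_lit 6390376207) (nat_lit 152) (nat_lit 43279131688) (nat_lit 6) (nat_lit 5) (nat_lit 7) (nat_lit 5) (nat_lit 8) (nat_lit 4) (nat_lit 318) (nat_lit 230) (nat_lit 172)) (XT.nd (nat_lit 78) (nat_lit 0) (nat_lit 0) (XT.lf (nat_lit 0) (nat_lit 24507752279) (nat_lit 152) (nat_lit 39801397000) (nat_lit 0) (nat_lit 35079125) (nat_lit 6) (nat_lit 5) (nat_lit 8) (nat_lit 4) (nat_lit 6) (nat_lit 4) (nat_lit 319) (nat_lit 230) (nat_lit 171)) (XT.lf (nat_lit 0) (nat_lit 31166791400) (nat_lit 152) (nat_lit 29564837422) (nat_lit 0) (nat_lit 6624708707) (nat_lit 6) (nat_lit 5) (nat_lit 8) (nat_lit 4) (nat_lit 6) (nat_lit 4) (nat_lit 320) (nat_lit 230) (nat_lit 170)))) (XT.nd (nat_lit 78) (nat_lit 76) (nat_lit 0) (XT.lf (nat_lit 0) (nat_lit 38127088404) (nat_lit 152) (nat_lit 18874028196) (nat_lit 0) (nat_lit 13518901389) (nat_lit 6)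 (nat_lit 5) (nat_lit 8) (nat_lit 4) (nat_lit 6) (nat_lit 4) (nat_lit 321) (nat_lit 230) (nat_lit 169)) (XT.nd (nat_lit 78) (nat_lit 76) (nat_lit 0) (XT.lf (nat_lit 0) (nat_lit 45405215427) (nat_lit 152) (nat_lit 7703515015) (nat_lit 0) (nat_lit 20734071915) (nat_lit 6) (nat_lit 5) (nat_lit 8) (nat_lit 4) (nat_lit 6) (nat_lit 4) (nat_lit 322) (nat_lit 230) (nat_lit 168)) (XT.lf (nat_lit 0) (nat_lit 4052375014) (nat_lit 76) (nat_lit 49005080237) (nat_lit 76) (nat_lit 24273978155) (nat_lit 5) (nat_lit 4) (nat_lit 6) (nat_lit 5) (nat_lit 6) (nat_lit 4) (nat_lit 323) (nat_lit 230) (nat_lit 167))))))) (XT.nd (nat_lit 32448) (nat_lit 0) (nat_lit 5928) (XT.nd (nat_lit 390) (nat_lit 152) (nat_lit 0) (XT.nd (nat_lit 156) (nat_lit 0) (nat_lit 0) (XT.nd (nat_lit 78) (nat_lit 0) (nat_lit 0) (XT.lf (nat_lit 0) (nat_lit 16506312135) (nat_lit 76) (nat_lit 44637429660) (nat_lit 76) (nat_lit 19849224179) (nat_lit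 5) (nat_lit 4) (nat_lit 6) (nat_lit 5) (nat_lit 6) (nat_lit 4) (nat_lit 324) (nat_lit 230) (nat_lit 166)) (XT.lf (nat_lit 0) (nat_lit 29534633524) (nat_lit 76) (nat_lit 40073169940) (nat_lit 76) (nat_lit 15230580270) (nat_lit 5) (nat_lit 4) (nat_lit 6) (nat_lit 5) (nat_lit 6) (nat_lit 4) (nat_lit 325) (nat_lit 230) (nat_lit 165))) (XT.nd (nat_lit 78) (nat_lit 0) (nat_lit 0) (XT.lf (nat_lit 0) (nat_lit 43168358995) (nat_lit 76) (nat_lit 35301433792) (nat_lit 76) (nat_lit 10407049655) (nat_lit 5) (nat_lit 4) (nat_lit 6) (nat_lit 5) (nat_lit 6) (nat_lit 4) (nat_lit 326) (nat_lit 230) (nat_lit 164)) (XT.nd (nat_lit 78) (nat_lit 0) (nat_lit 0) (XT.lf (nat_lit 0) (nat_lit 57439949797) (nat_lit 76) (nat_lit 30310859940) (nat_lit 76) (nat_lit 5367147740) (nat_lit 5) (nat_lit 4) (nat_lit 6) (nat_lit 5) (nat_lit 6) (nat_lit 4) (nat_lit 327) (nat_lit 230) (nat_lit 163)) (XT.lf (nat_lit 0) (nat_lit 72383385910)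 (nat_lit 76) (nat_lit 25089566064) (nat_lit 76) (nat_lit 98874756) (nat_lit 5) (nat_lit 4) (nat_lit 6) (nat_lit 5) (nat_lit 6) (nat_lit 4) (nat_lit 328) (nat_lit 230) (nat_lit 162))))) (XT.nd (nat_lit 234) (nat_lit 0) (nat_lit 0) (XT.nd (nat_lit 78) (nat_lit 76) (nat_lit 0) (XT.lf (nat_lit 0) (nat_lit 5304738111) (nat_lit 152) (nat_lit 14266814948) (nat_lit 76) (nat_lit 82675941378) (nat_lit 4) (nat_lit 5) (nat_lit 6) (nat_lit 5) (nat_lit 5) (nat_lit 4) (nat_lit 329) (nat_lit 230) (nat_lit 161)) (XT.nd (nat_lit 78) (nat_lit 76) (nat_lit 0) (XT.lf (nat_lit 0) (nat_lit 10955496192) (nat_lit 152) (nat_lit 2838387479) (nat_lit 76) (nat_lit 93363671628) (nat_lit 4) (nat_lit 5) (nat_lit 6) (nat_lit 5) (nat_lit 5) (nat_lit 4) (nat_lit 330) (nat_lit 230) (nat_lit 160)) (XT.lf (nat_lit 0) (nat_lit 9306608013) (nat_lit 76) (nat_lit 7651635870) (nat_lit 152) (nat_lit 95352800747) (nat_lit 3) (nat_lit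 5) (nat_lit 4) (nat_lit 5) (nat_lit 5) (nat_lit 4) (nat_lit 331) (nat_lit 230) (nat_lit 159)))) (XT.nd (nat_lit 156) (nat_lit 0) (nat_lit 0) (XT.lf (nat_lit 0) (nat_lit 22082753523) (nat_lit 76) (nat_lit 1188197423) (nat_lit 152) (nat_lit 94450971367) (nat_lit 3) (nat_lit 5) (nat_lit 4) (nat_lit 5) (nat_lit 5) (nat_lit 4) (nat_lit 332) (nat_lit 230) (nat_lit 158)) (XT.nd (nat_lit 31590) (nat_lit 0) (nat_lit 11020) (XT.lf (nat_lit 0) (nat_lit 36925463778) (nat_lit 152) (nat_lit 80010254475) (nat_lit 0) (nat_lit 12431150387) (nat_lit 3) (nat_lit 5) (nat_lit 5) (nat_lit 4) (nat_lit 3) (nat_lit 4) (nat_lit 334) (nat_lit 230) (nat_lit 156)) (XT.lf (nat_lit 0) (nat_lit 86414248) (nat_lit 608) (nat_lit 1830417858) (nat_lit 608) (nat_lit 1830417858) (nat_lit 148) (nat_lit 4) (nat_lit 156) (nat_lit 5) (nat_lit 156) (nat_lit 4) (nat_lit 258) (nat_lit 231) (nat_lit 231)))))) (XT.nd (nat_lit 390) (nat_lit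 2508) (nat_lit 0) (XT.nd (nat_lit 156) (nat_lit 1444) (nat_lit 0) (XT.nd (nat_lit 78) (nat_lit 532) (nat_lit 0) (XT.lf (nat_lit 0) (nat_lit 910287264) (nat_lit 532) (nat_lit 691651245) (nat_lit 608) (nat_lit 6019995652) (nat_lit 140) (nat_lit 5) (nat_lit 147) (nat_lit 5) (nat_lit 148) (nat_lit 4) (nat_lit 259) (nat_lit 231) (nat_lit 230)) (XT.lf (nat_lit 0) (nat_lit 1643125869) (nat_lit 532) (nat_lit 5277300660) (nat_lit 532) (nat_lit 838670778) (nat_lit 133) (nat_lit 4) (nat_lit 140) (nat_lit 5) (nat_lit 140) (nat_lit 4) (nat_lit 260) (nat_lit 231) (nat_lit 229))) (XT.nd (nat_lit 78) (nat_lit 912) (nat_lit 0) (XT.lf (nat_lit 0) (nat_lit 2370723760) (nat_lit 456) (nat_lit 1999441209) (nat_lit 532) (nat_lit 3536335396) (nat_lit 126) (nat_lit 5) (nat_lit 132) (nat_lit 5) (nat_lit 133) (nat_lit 4) (nat_lit 261) (nat_lit 231) (nat_lit 228)) (XT.nd (nat_lit 78) (nat_lit 380) (nat_lit 0) (XT.lf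 (nat_lit 0) (nat_lit 1599769025) (nat_lit 532) (nat_lit 4970525218) (nat_lit 76) (nat_lit 1494452195) (nat_lit 119) (nat_lit 5) (nat_lit 126) (nat_lit 5) (nat_lit 120) (nat_lit 4) (nat_lit 262) (nat_lit 231) (nat_lit 227)) (XT.lf (nat_lit 0) (nat_lit 3785125559) (nat_lit 380) (nat_lit 3022299871) (nat_lit 456) (nat_lit 1426194050) (nat_lit 114) (nat_lit 5) (nat_lit 119) (nat_lit 5) (nat_lit 120) (nat_lit 4) (nat_lit 263) (nat_lit 231) (nat_lit 226))))) (XT.nd (nat_lit 234) (nat_lit 1140) (nat_lit 0) (XT.nd (nat_lit 78) (nat_lit 836) (nat_lit 0) (XT.lf (nat_lit 0) (nat_lit 3669944465) (nat_lit 532) (nat_lit 3970759100) (nat_lit 76) (nat_lit 773064669) (nat_lit 107) (nat_lit 5) (nat_lit 114) (nat_lit 5) (nat_lit 108) (nat_lit 4) (nat_lit 264) (nat_lit 231) (nat_lit 225)) (XT.nd (nat_lit 78) (nat_lit 380) (nat_lit 0) (XT.lf (nat_lit 0) (nat_lit 291997276) (nat_lit 456) (nat_lit 3554490128) (nat_lit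 76) (nat_lit 4758923798) (nat_lit 101) (nat_lit 5) (nat_lit 107) (nat_lit 5) (nat_lit 102) (nat_lit 5) (nat_lit 265) (nat_lit 231) (nat_lit 224)) (XT.lf (nat_lit 0) (nat_lit 5371247194) (nat_lit 456) (nat_lit 3215579833) (nat_lit 76) (nat_lit 222034793) (nat_lit 96) (nat_lit 5) (nat_lit 102) (nat_lit 5) (nat_lit 97) (nat_lit 4) (nat_lit 266) (nat_lit 231) (nat_lit 223)))) (XT.nd (nat_lit 78) (nat_lit 760) (nat_lit 0) (XT.lf (nat_lit 0) (nat_lit 1580731673) (nat_lit 380) (nat_lit 2974576600) (nat_lit 76) (nat_lit 4469046639) (nat_lit 91) (nat_lit 5) (nat_lit 96) (nat_lit 5) (nat_lit 92) (nat_lit 5) (nat_lit 267) (nat_lit 231) (nat_lit 222)) (XT.nd (nat_lit 78) (nat_lit 380) (nat_lit 0) (XT.lf (nat_lit 0) (nat_lit 6424936786) (nat_lit 380) (nat_lit 253190721) (nat_lit 456) (nat_lit 2574785199) (nat_lit 86) (nat_lit 5) (nat_lit 91) (nat_lit 5) (nat_lit 92) (nat_lit 5) (nat_lit 268) (nat_lit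 231) (nat_lit 221)) (XT.lf (nat_lit 0) (nat_lit 2433123200) (nat_lit 380) (nat_lit 2823935141) (nat_lit 76) (nat_lit 4237020212) (nat_lit 81) (nat_lit 5) (nat_lit 86) (nat_lit 5) (nat_lit 82) (nat_lit 5) (nat_lit 269) (nat_lit 231) (nat_lit 220))))))))
noncomputable def xc33 : XT := (XT.nd (nat_lit 1716) (nat_lit 1140) (nat_lit 0) (XT.nd (nat_lit 858) (nat_lit 1444) (nat_lit 0) (XT.nd (nat_lit 390) (nat_lit 1292) (nat_lit 0) (XT.nd (nat_lit 156) (nat_lit 912) (nat_lit 0) (XT.nd (nat_lit 78) (nat_lit 380) (nat_lit 0) (XT.lf (nat_lit 0) (nat_lit 6804016524) (nat_lit 304) (nat_lit 746264383) (nat_lit 380) (nat_lit 2199147429) (nat_lit 77) (nat_lit 5) (nat_lit 81) (nat_lit 5) (nat_lit 82) (nat_lit 5) (nat_lit 270) (nat_lit 231) (nat_lit 219)) (XT.lf (nat_lit 0) (nat_lit 2801433264) (nat_lit 380) (nat_lit 3250360784) (nat_lit 76) (nat_lit 3966576541) (nat_lit 72) (nat_lit 5) (nat_lit 77) (nat_lit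 5) (nat_lit 73) (nat_lit 5) (nat_lit 271) (nat_lit 231) (nat_lit 218))) (XT.nd (nat_lit 78) (nat_lit 608) (nat_lit 0) (XT.lf (nat_lit 0) (nat_lit 6577280311) (nat_lit 304) (nat_lit 1355381543) (nat_lit 380) (nat_lit 2369885164) (nat_lit 68) (nat_lit 5) (nat_lit 72) (nat_lit 5) (nat_lit 73) (nat_lit 5) (nat_lit 272) (nat_lit 231) (nat_lit 217)) (XT.nd (nat_lit 78) (nat_lit 304) (nat_lit 0) (XT.lf (nat_lit 0) (nat_lit 2623248820) (nat_lit 304) (nat_lit 4424775819) (nat_lit 76) (nat_lit 3553625938) (nat_lit 64) (nat_lit 5) (nat_lit 68) (nat_lit 5) (nat_lit 65) (nat_lit 5) (nat_lit 273) (nat_lit 231) (nat_lit 216)) (XT.lf (nat_lit 0) (nat_lit 5564312709) (nat_lit 304) (nat_lit 2192673487) (nat_lit 380) (nat_lit 3160017040) (nat_lit 60) (nat_lit 5) (nat_lit 64) (nat_lit 5) (nat_lit 65) (nat_lit 5) (nat_lit 274) (nat_lit 231) (nat_lit 215))))) (XT.nd (nat_lit 234) (nat_lit 456) (nat_lit 0) (XT.nd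 (nat_lit 78) (nat_lit 532) (nat_lit 0) (XT.lf (nat_lit 0) (nat_lit 1819463086) (nat_lit 304) (nat_lit 6546092668) (nat_lit 76) (nat_lit 2883484733) (nat_lit 56) (nat_lit 5) (nat_lit 60) (nat_lit 5) (nat_lit 57) (nat_lit 5) (nat_lit 275) (nat_lit 231) (nat_lit 214)) (XT.nd (nat_lit 78) (nat_lit 304) (nat_lit 0) (XT.lf (nat_lit 0) (nat_lit 3554590879) (nat_lit 228) (nat_lit 3382771902) (nat_lit 304) (nat_lit 4660907371) (nat_lit 53) (nat_lit 5) (nat_lit 56) (nat_lit 5) (nat_lit 57) (nat_lit 5) (nat_lit 276) (nat_lit 231) (nat_lit 213)) (XT.lf (nat_lit 0) (nat_lit 291835395) (nat_lit 304) (nat_lit 9846837430) (nat_lit 76) (nat_lit 1827776909) (nat_lit 49) (nat_lit 5) (nat_lit 53) (nat_lit 5) (nat_lit 50) (nat_lit 5) (nat_lit 277) (nat_lit 231) (nat_lit 212)))) (XT.nd (nat_lit 78) (nat_lit 228) (nat_lit 0) (XT.lf (nat_lit 0) (nat_lit 301491807) (nat_lit 228) (nat_lit 5066163224) (nat_lit 304)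 (nat_lit 6984996285) (nat_lit 46) (nat_lit 5) (nat_lit 49) (nat_lit 5) (nat_lit 50) (nat_lit 5) (nat_lit 278) (nat_lit 231) (nat_lit 211)) (XT.nd (nat_lit 78) (nat_lit 228) (nat_lit 0) (XT.lf (nat_lit 0) (nat_lit 10656615196) (nat_lit 304) (nat_lit 1823706704) (nat_lit 76) (nat_lit 279205814) (nat_lit 46) (nat_lit 5) (nat_lit 50) (nat_lit 5) (nat_lit 47) (nat_lit 4) (nat_lit 279) (nat_lit 231) (nat_lit 210)) (XT.lf (nat_lit 0) (nat_lit 2961436248) (nat_lit 228) (nat_lit 4397156341) (nat_lit 76) (nat_lit 5827503103) (nat_lit 43) (nat_lit 5) (nat_lit 46) (nat_lit 5) (nat_lit 44) (nat_lit 5) (nat_lit 280) (nat_lit 231) (nat_lit 209)))))) (XT.nd (nat_lit 390) (nat_lit 684) (nat_lit 0) (XT.nd (nat_lit 156) (nat_lit 380) (nat_lit 0) (XT.nd (nat_lit 78) (nat_lit 152) (nat_lit 0) (XT.lf (nat_lit 0) (nat_lit 6223097565) (nat_lit 228) (nat_lit 1956124213) (nat_lit 304) (nat_lit 5455962225) (nat_lit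 40) (nat_lit 5) (nat_lit 43) (nat_lit 5) (nat_lit 44) (nat_lit 5) (nat_lit 281) (nat_lit 231) (nat_lit 208)) (XT.lf (nat_lit 0) (nat_lit 3175667226) (nat_lit 152) (nat_lit 10462438254) (nat_lit 228) (nat_lit 469336778) (nat_lit 38) (nat_lit 5) (nat_lit 40) (nat_lit 5) (nat_lit 41) (nat_lit 4) (nat_lit 282) (nat_lit 231) (nat_lit 207))) (XT.nd (nat_lit 78) (nat_lit 304) (nat_lit 0) (XT.lf (nat_lit 0) (nat_lit 4641578680) (nat_lit 228) (nat_lit 427283080) (nat_lit 76) (nat_lit 9534150514) (nat_lit 37) (nat_lit 5) (nat_lit 40) (nat_lit 5) (nat_lit 38) (nat_lit 5) (nat_lit 283) (nat_lit 231) (nat_lit 206)) (XT.nd (nat_lit 78) (nat_lit 152) (nat_lit 0) (XT.lf (nat_lit 0) (nat_lit 9983739666) (nat_lit 228) (nat_lit 4523072566) (nat_lit 76) (nat_lit 616954215) (nat_lit 35) (nat_lit 5) (nat_lit 38) (nat_lit 5) (nat_lit 36) (nat_lit 4) (nat_lit 284) (nat_lit 231) (nat_lit 205)) (XT.lf (nat_lit 0)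 (nat_lit 6397158263) (nat_lit 152) (nat_lit 9193545107) (nat_lit 228) (nat_lit 80026268) (nat_lit 33) (nat_lit 5) (nat_lit 35) (nat_lit 5) (nat_lit 36) (nat_lit 4) (nat_lit 285) (nat_lit 231) (nat_lit 204))))) (XT.nd (nat_lit 234) (nat_lit 304) (nat_lit 0) (XT.nd (nat_lit 78) (nat_lit 152) (nat_lit 0) (XT.lf (nat_lit 0) (nat_lit 1500931886) (nat_lit 152) (nat_lit 3574601476) (nat_lit 228) (nat_lit 11169752800) (nat_lit 30) (nat_lit 5) (nat_lit 32) (nat_lit 5) (nat_lit 33) (nat_lit 5) (nat_lit 286) (nat_lit 231) (nat_lit 203)) (XT.nd (nat_lit 78) (nat_lit 152) (nat_lit 0) (XT.lf (nat_lit 0) (nat_lit 10492279272) (nat_lit 228) (nat_lit 4051004593) (nat_lit 76) (nat_lit 2305200927) (nat_lit 30) (nat_lit 5) (nat_lit 33) (nat_lit 5) (nat_lit 31) (nat_lit 4) (nat_lit 287) (nat_lit 231) (nat_lit 202)) (XT.lf (nat_lit 0) (nat_lit 7099329944) (nat_lit 152) (nat_lit 9076557297) (nat_lit 228) (nat_lit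 1306161041) (nat_lit 28) (nat_lit 5) (nat_lit 30) (nat_lit 5) (nat_lit 31) (nat_lit 4) (nat_lit 288) (nat_lit 231) (nat_lit 201)))) (XT.nd (nat_lit 78) (nat_lit 76) (nat_lit 0) (XT.lf (nat_lit 0) (nat_lit 540351140) (nat_lit 152) (nat_lit 3319418813) (nat_lit 228) (nat_lit 14288205689) (nat_lit 25) (nat_lit 5) (nat_lit 27) (nat_lit 5) (nat_lit 28) (nat_lit 5) (nat_lit 289) (nat_lit 231) (nat_lit 200)) (XT.nd (nat_lit 78) (nat_lit 76) (nat_lit 0) (XT.lf (nat_lit 0) (nat_lit 9288156064) (nat_lit 228) (nat_lit 6832458229) (nat_lit 76) (nat_lit 2725337389) (nat_lit 25) (nat_lit 5) (nat_lit 28) (nat_lit 5) (nat_lit 26) (nat_lit 4) (nat_lit 290) (nat_lit 231) (nat_lit 199)) (XT.lf (nat_lit 0) (nat_lit 4366923620) (nat_lit 76) (nat_lit 10598216059) (nat_lit 152) (nat_lit 4614443349) (nat_lit 24) (nat_lit 5) (nat_lit 25) (nat_lit 5) (nat_lit 26) (nat_lit 4) (nat_lit 291) (nat_lit 231) (nat_lit 198)))))))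 (XT.nd (nat_lit 858) (nat_lit 304) (nat_lit 0) (XT.nd (nat_lit 390) (nat_lit 532) (nat_lit 0) (XT.nd (nat_lit 156) (nat_lit 76) (nat_lit 0) (XT.nd (nat_lit 78) (nat_lit 152) (nat_lit 0) (XT.lf (nat_lit 0) (nat_lit 539682037) (nat_lit 152) (nat_lit 4248435554) (nat_lit 76) (nat_lit 15562433250) (nat_lit 23) (nat_lit 5) (nat_lit 25) (nat_lit 5) (nat_lit 24) (nat_lit 5) (nat_lit 292) (nat_lit 231) (nat_lit 197)) (XT.lf (nat_lit 0) (nat_lit 5847743354) (nat_lit 228) (nat_lit 13970268247) (nat_lit 76) (nat_lit 1340998185) (nat_lit 21) (nat_lit 5) (nat_lit 24) (nat_lit 5) (nat_lit 22) (nat_lit 4) (nat_lit 293) (nat_lit 231) (nat_lit 196))) (XT.nd (nat_lit 78) (nat_lit 76) (nat_lit 0) (XT.lf (nat_lit 0) (nat_lit 11424406166) (nat_lit 228) (nat_lit 2922124702) (nat_lit 76) (nat_lit 7661325116) (nat_lit 21) (nat_lit 5) (nat_lit 24) (nat_lit 5) (nat_lit 22) (nat_lit 4) (nat_lit 294) (nat_lit 231) (nat_lit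 195)) (XT.nd (nat_lit 78) (nat_lit 0) (nat_lit 0) (XT.lf (nat_lit 0) (nat_lit 8702197528) (nat_lit 76) (nat_lit 8576311524) (nat_lit 152) (nat_lit 5620734618) (nat_lit 20) (nat_lit 5) (nat_lit 21) (nat_lit 5) (nat_lit 22) (nat_lit 4) (nat_lit 295) (nat_lit 231) (nat_lit 194)) (XT.lf (nat_lit 0) (nat_lit 20826946171) (nat_lit 76) (nat_lit 2546093825) (nat_lit 152) (nat_lit 463783715) (nat_lit 20) (nat_lit 5) (nat_lit 21) (nat_lit 5) (nat_lit 22) (nat_lit 4) (nat_lit 296) (nat_lit 231) (nat_lit 193))))) (XT.nd (nat_lit 234) (nat_lit 228) (nat_lit 0) (XT.nd (nat_lit 78) (nat_lit 76) (nat_lit 0) (XT.lf (nat_lit 0) (nat_lit 4896124206) (nat_lit 228) (nat_lit 16134368040) (nat_lit 76) (nat_lit 3788161629) (nat_lit 17) (nat_lit 5) (nat_lit 20) (nat_lit 5) (nat_lit 18) (nat_lit 4) (nat_lit 297) (nat_lit 231) (nat_lit 192)) (XT.nd (nat_lit 78) (nat_lit 76) (nat_lit 0) (XT.lf (nat_lit 0) (nat_lit 10494209586)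 (nat_lit 228) (nat_lit 4987897032) (nat_lit 76) (nat_lit 10367986087) (nat_lit 17) (nat_lit 5) (nat_lit 20) (nat_lit 5) (nat_lit 18) (nat_lit 4) (nat_lit 298) (nat_lit 231) (nat_lit 191)) (XT.lf (nat_lit 0) (nat_lit 6718796127) (nat_lit 76) (nat_lit 9644364964) (nat_lit 152) (nat_lit 10570259370) (nat_lit 16) (nat_lit 5) (nat_lit 17) (nat_lit 5) (nat_lit 18) (nat_lit 4) (nat_lit 299) (nat_lit 231) (nat_lit 190)))) (XT.nd (nat_lit 78) (nat_lit 228) (nat_lit 0) (XT.lf (nat_lit 0) (nat_lit 18990522106) (nat_lit 76) (nat_lit 3515069514) (nat_lit 152) (nat_lit 5565965695) (nat_lit 16) (nat_lit 5) (nat_lit 17) (nat_lit 5) (nat_lit 18) (nat_lit 4) (nat_lit 300) (nat_lit 231) (nat_lit 189)) (XT.nd (nat_lit 78) (nat_lit 76) (nat_lit 0) (XT.lf (nat_lit 0) (nat_lit 2509939940) (nat_lit 152) (nat_lit 26429000442) (nat_lit 152) (nat_lit 328188306) (nat_lit 14) (nat_lit 4) (nat_lit 16) (nat_lit 5) (nat_lit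 16) (nat_lit 4) (nat_lit 301) (nat_lit 231) (nat_lit 188)) (XT.lf (nat_lit 0) (nat_lit 5133483375) (nat_lit 228) (nat_lit 15853680564) (nat_lit 76) (nat_lit 9531974205) (nat_lit 13) (nat_lit 5) (nat_lit 16) (nat_lit 5) (nat_lit 14) (nat_lit 4) (nat_lit 302) (nat_lit 231) (nat_lit 187)))))) (XT.nd (nat_lit 390) (nat_lit 152) (nat_lit 0) (XT.nd (nat_lit 156) (nat_lit 76) (nat_lit 0) (XT.nd (nat_lit 78) (nat_lit 76) (nat_lit 0) (XT.lf (nat_lit 0) (nat_lit 10797737475) (nat_lit 228) (nat_lit 4520806341) (nat_lit 76) (nat_lit 16517054799) (nat_lit 13) (nat_lit 5) (nat_lit 16) (nat_lit 5) (nat_lit 14) (nat_lit 4) (nat_lit 303) (nat_lit 231) (nat_lit 186)) (XT.lf (nat_lit 0) (nat_lit 7416290234) (nat_lit 76) (nat_lit 9339464132) (nat_lit 152) (nat_lit 16461846110) (nat_lit 12) (nat_lit 5) (nat_lit 13) (nat_lit 5) (nat_lit 14) (nat_lit 4) (nat_lit 304) (nat_lit 231) (nat_lit 185))) (XT.nd (nat_lit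 78) (nat_lit 76) (nat_lit 0) (XT.lf (nat_lit 0) (nat_lit 19940644446) (nat_lit 76) (nat_lit 3058717538) (nat_lit 152) (nat_lit 11669742959) (nat_lit 12) (nat_lit 5) (nat_lit 13) (nat_lit 5) (nat_lit 14) (nat_lit 4) (nat_lit 305) (nat_lit 231) (nat_lit 184)) (XT.nd (nat_lit 78) (nat_lit 76) (nat_lit 0) (XT.lf (nat_lit 0) (nat_lit 29532681272) (nat_lit 152) (nat_lit 3236371195) (nat_lit 0) (nat_lit 3424837856) (nat_lit 12) (nat_lit 5) (nat_lit 14) (nat_lit 4) (nat_lit 12) (nat_lit 4) (nat_lit 306) (nat_lit 231) (nat_lit 183)) (XT.lf (nat_lit 0) (nat_lit 8877042702) (nat_lit 76) (nat_lit 27578056768) (nat_lit 76) (nat_lit 1337972634) (nat_lit 11) (nat_lit 4) (nat_lit 12) (nat_lit 5) (nat_lit 12) (nat_lit 4) (nat_lit 307) (nat_lit 231) (nat_lit 182))))) (XT.nd (nat_lit 234) (nat_lit 0) (nat_lit 0) (XT.nd (nat_lit 78) (nat_lit 76) (nat_lit 0) (XT.lf (nat_lit 0) (nat_lit 4149463036) (nat_lit 152)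 (nat_lit 17942617709) (nat_lit 76) (nat_lit 17379504120) (nat_lit 10) (nat_lit 5) (nat_lit 12) (nat_lit 5) (nat_lit 11) (nat_lit 4) (nat_lit 308) (nat_lit 231) (nat_lit 181)) (XT.nd (nat_lit 78) (nat_lit 76) (nat_lit 0) (XT.lf (nat_lit 0) (nat_lit 9833716027) (nat_lit 152) (nat_lit 6523530366) (nat_lit 76) (nat_lit 24877902473) (nat_lit 10) (nat_lit 5) (nat_lit 12) (nat_lit 5) (nat_lit 11) (nat_lit 4) (nat_lit 309) (nat_lit 231) (nat_lit 180)) (XT.lf (nat_lit 0) (nat_lit 5488380411) (nat_lit 76) (nat_lit 10318806197) (nat_lit 152) (nat_lit 27279579573) (nat_lit 9) (nat_lit 5) (nat_lit 10) (nat_lit 5) (nat_lit 11) (nat_lit 4) (nat_lit 310) (nat_lit 231) (nat_lit 179)))) (XT.nd (nat_lit 78) (nat_lit 0) (nat_lit 0) (XT.lf (nat_lit 0) (nat_lit 18154423396) (nat_lit 76) (nat_lit 3945786735) (nat_lit 152) (nat_lit 22930151908) (nat_lit 9) (nat_lit 5) (nat_lit 10) (nat_lit 5) (nat_lit 11) (nat_lit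 4) (nat_lit 311) (nat_lit 231) (nat_lit 178)) (XT.nd (nat_lit 78) (nat_lit 0) (nat_lit 0) (XT.lf (nat_lit 0) (nat_lit 28689874659) (nat_lit 152) (nat_lit 15723618805) (nat_lit 0) (nat_lit 2658207444) (nat_lit 9) (nat_lit 5) (nat_lit 11) (nat_lit 4) (nat_lit 9) (nat_lit 4) (nat_lit 312) (nat_lit 231) (nat_lit 177)) (XT.lf (nat_lit 0) (nat_lit 35606557450) (nat_lit 152) (nat_lit 4129560690) (nat_lit 0) (nat_lit 9479084352) (nat_lit 9) (nat_lit 5) (nat_lit 11) (nat_lit 4) (nat_lit 9) (nat_lit 4) (nat_lit 313) (nat_lit 231) (nat_lit 176))))))))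
noncomputable def xc34 : XT := (XT.nd (nat_lit 33150) (nat_lit 0) (nat_lit 3268) (XT.nd (nat_lit 858) (nat_lit 152) (nat_lit 0) (XT.nd (nat_lit 390) (nat_lit 76) (nat_lit 0) (XT.nd (nat_lit 156) (nat_lit 152) (nat_lit 0) (XT.nd (nat_lit 78) (nat_lit 0) (nat_lit 0) (XT.lf (nat_lit 0) (nat_lit 8130423768) (nat_lit 76) (nat_lit 34776528318) (nat_lit 76) (nat_lit 8557811522) (nat_lit 8) (nat_lit 4) (nat_lit 9) (nat_lit 5) (nat_lit 9) (nat_lit 4) (nat_lit 314) (nat_lit 231) (nat_lit 175)) (XT.lf (nat_lit 0) (nat_lit 21019348913) (nat_lit 76) (nat_lit 29556492484) (nat_lit 76) (nat_lit 3250876928) (nat_lit 8) (nat_lit 4) (nat_lit 9) (nat_lit 5) (nat_lit 9) (nat_lit 4) (nat_lit 315) (nat_lit 231) (nat_lit 174))) (XT.nd (nat_lit 78) (nat_lit 76) (nat_lit 0) (XT.lf (nat_lit 0) (nat_lit 2238542447) (nat_lit 152) (nat_lit 21844135110) (nat_lit 76) (nat_lit 32224568968) (nat_lit 7) (nat_lit 5) (nat_lit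 9) (nat_lit 5) (nat_lit 8) (nat_lit 4) (nat_lit 316) (nat_lit 231) (nat_lit 173)) (XT.nd (nat_lit 78) (nat_lit 76) (nat_lit 0) (XT.lf (nat_lit 0) (nat_lit 7900050385) (nat_lit 152) (nat_lit 10430093733) (nat_lit 76) (nat_lit 40581763320) (nat_lit 7) (nat_lit 5) (nat_lit 9) (nat_lit 5) (nat_lit 8) (nat_lit 4) (nat_lit 317) (nat_lit 231) (nat_lit 172)) (XT.lf (nat_lit 0) (nat_lit 1522897643) (nat_lit 76) (nat_lit 12302304364) (nat_lit 152) (nat_lit 47822198942) (nat_lit 6) (nat_lit 5) (nat_lit 7) (nat_lit 5) (nat_lit 8) (nat_lit 4) (nat_lit 318) (nat_lit 231) (nat_lit 171))))) (XT.nd (nat_lit 234) (nat_lit 76) (nat_lit 0) (XT.nd (nat_lit 78) (nat_lit 0) (nat_lit 0) (XT.lf (nat_lit 0) (nat_lit 14231789589) (nat_lit 76) (nat_lit 5889167970) (nat_lit 152) (nat_lit 44396496996) (nat_lit 6) (nat_lit 5) (nat_lit 7) (nat_lit 5) (nat_lit 8) (nat_lit 4) (nat_lit 319) (nat_lit 231) (nat_lit 170)) (XT.nd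 (nat_lit 78) (nat_lit 0) (nat_lit 0) (XT.lf (nat_lit 0) (nat_lit 26707925871) (nat_lit 152) (nat_lit 40020582094) (nat_lit 0) (nat_lit 803225183) (nat_lit 6) (nat_lit 5) (nat_lit 8) (nat_lit 4) (nat_lit 6) (nat_lit 4) (nat_lit 320) (nat_lit 231) (nat_lit 169)) (XT.lf (nat_lit 0) (nat_lit 33653498568) (nat_lit 152) (nat_lit 29356522383) (nat_lit 0) (nat_lit 7685841382) (nat_lit 6) (nat_lit 5) (nat_lit 8) (nat_lit 4) (nat_lit 6) (nat_lit 4) (nat_lit 321) (nat_lit 231) (nat_lit 168)))) (XT.nd (nat_lit 78) (nat_lit 76) (nat_lit 0) (XT.lf (nat_lit 0) (nat_lit 40917602441) (nat_lit 152) (nat_lit 18211484930) (nat_lit 0) (nat_lit 14889986686) (nat_lit 6) (nat_lit 5) (nat_lit 8) (nat_lit 4) (nat_lit 6) (nat_lit 4) (nat_lit 322) (nat_lit 231) (nat_lit 167)) (XT.nd (nat_lit 78) (nat_lit 76) (nat_lit 0) (XT.lf (nat_lit 0) (nat_lit 48517532977) (nat_lit 152) (nat_lit 6558933931) (nat_lit 0) (nat_lit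 22432813823) (nat_lit 6) (nat_lit 5) (nat_lit 8) (nat_lit 4) (nat_lit 6) (nat_lit 4) (nat_lit 323) (nat_lit 231) (nat_lit 166)) (XT.lf (nat_lit 0) (nat_lit 5740900427) (nat_lit 76) (nat_lit 50785669867) (nat_lit 76) (nat_lit 24646566523) (nat_lit 5) (nat_lit 4) (nat_lit 6) (nat_lit 5) (nat_lit 6) (nat_lit 4) (nat_lit 324) (nat_lit 231) (nat_lit 165)))))) (XT.nd (nat_lit 390) (nat_lit 76) (nat_lit 0) (XT.nd (nat_lit 156) (nat_lit 76) (nat_lit 0) (XT.nd (nat_lit 78) (nat_lit 0) (nat_lit 0) (XT.lf (nat_lit 0) (nat_lit 18746776944) (nat_lit 76) (nat_lit 46231525541) (nat_lit 76) (nat_lit 20040627731) (nat_lit 5) (nat_lit 4) (nat_lit 6) (nat_lit 5) (nat_lit 6) (nat_lit 4) (nat_lit 325) (nat_lit 231) (nat_lit 164)) (XT.lf (nat_lit 0) (nat_lit 32359126346) (nat_lit 76) (nat_lit 41469423102) (nat_lit 76) (nat_lit 15229197229) (nat_lit 5) (nat_lit 4) (nat_lit 6) (nat_lit 5) (nat_lit 6) (nat_lit 4)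 (nat_lit 326) (nat_lit 231) (nat_lit 163))) (XT.nd (nat_lit 78) (nat_lit 76) (nat_lit 0) (XT.lf (nat_lit 0) (nat_lit 46610358987) (nat_lit 76) (nat_lit 36488024210) (nat_lit 76) (nat_lit 10200819229) (nat_lit 5) (nat_lit 4) (nat_lit 6) (nat_lit 5) (nat_lit 6) (nat_lit 4) (nat_lit 327) (nat_lit 231) (nat_lit 162)) (XT.nd (nat_lit 78) (nat_lit 76) (nat_lit 0) (XT.lf (nat_lit 0) (nat_lit 61534406376) (nat_lit 76) (nat_lit 31275468392) (nat_lit 76) (nat_lit 4943521404) (nat_lit 5) (nat_lit 4) (nat_lit 6) (nat_lit 5) (nat_lit 6) (nat_lit 4) (nat_lit 328) (nat_lit 231) (nat_lit 161)) (XT.lf (nat_lit 0) (nat_lit 544379404) (nat_lit 152) (nat_lit 25269468232) (nat_lit 76) (nat_lit 76616925387) (nat_lit 4) (nat_lit 5) (nat_lit 6) (nat_lit 5) (nat_lit 5) (nat_lit 4) (nat_lit 329) (nat_lit 231) (nat_lit 160))))) (XT.nd (nat_lit 312) (nat_lit 0) (nat_lit 0) (XT.nd (nat_lit 78) (nat_lit 76) (nat_lit 0)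 (XT.lf (nat_lit 0) (nat_lit 6185376947) (nat_lit 152) (nat_lit 13858825540) (nat_lit 76) (nat_lit 87296928593) (nat_lit 4) (nat_lit 5) (nat_lit 6) (nat_lit 5) (nat_lit 5) (nat_lit 4) (nat_lit 330) (nat_lit 231) (nat_lit 159)) (XT.nd (nat_lit 78) (nat_lit 76) (nat_lit 0) (XT.lf (nat_lit 0) (nat_lit 12089368078) (nat_lit 152) (nat_lit 1912373372) (nat_lit 76) (nat_lit 98495845825) (nat_lit 4) (nat_lit 5) (nat_lit 6) (nat_lit 5) (nat_lit 5) (nat_lit 4) (nat_lit 331) (nat_lit 231) (nat_lit 158)) (XT.lf (nat_lit 0) (nat_lit 10809259796) (nat_lit 76) (nat_lit 7565055340) (nat_lit 152) (nat_lit 99534986593) (nat_lit 3) (nat_lit 5) (nat_lit 4) (nat_lit 5) (nat_lit 5) (nat_lit 4) (nat_lit 332) (nat_lit 231) (nat_lit 157)))) (XT.nd (nat_lit 31434) (nat_lit 0) (nat_lit 12160) (XT.lf (nat_lit 0) (nat_lit 31950641103) (nat_lit 152) (nat_lit 91440798103) (nat_lit 0) (nat_lit 6165161840) (nat_lit 3) (nat_lit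 5) (nat_lit 5) (nat_lit 4) (nat_lit 3) (nat_lit 4) (nat_lit 334) (nat_lit 231) (nat_lit 155)) (XT.nd (nat_lit 78) (nat_lit 1216) (nat_lit 0) (XT.lf (nat_lit 0) (nat_lit 1550578643) (nat_lit 1140) (nat_lit 531594575) (nat_lit 0) (nat_lit 1550578643) (nat_lit 179) (nat_lit 5) (nat_lit 194) (nat_lit 4) (nat_lit 179) (nat_lit 4) (nat_lit 256) (nat_lit 232) (nat_lit 232)) (XT.lf (nat_lit 0) (nat_lit 991484935) (nat_lit 1216) (nat_lit 519777795) (nat_lit 76) (nat_lit 5866027480) (nat_lit 163) (nat_lit 5) (nat_lit 179) (nat_lit 5) (nat_lit 164) (nat_lit 4) (nat_lit 257) (nat_lit 232) (nat_lit 231))))))) (XT.nd (nat_lit 858) (nat_lit 3040) (nat_lit 0) (XT.nd (nat_lit 390) (nat_lit 2508) (nat_lit 0) (XT.nd (nat_lit 156) (nat_lit 1596) (nat_lit 0) (XT.nd (nat_lit 78) (nat_lit 608) (nat_lit 0) (XT.lf (nat_lit 0) (nat_lit 38161737) (nat_lit 608) (nat_lit 6130346589) (nat_lit 608) (nat_lit 1329968372)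 (nat_lit 148) (nat_lit 4) (nat_lit 156) (nat_lit 5) (nat_lit 156) (nat_lit 4) (nat_lit 258) (nat_lit 232) (nat_lit 230)) (XT.lf (nat_lit 0) (nat_lit 612557342) (nat_lit 532) (nat_lit 3152504936) (nat_lit 608) (nat_lit 3864084855) (nat_lit 140) (nat_lit 5) (nat_lit 147) (nat_lit 5) (nat_lit 148) (nat_lit 4) (nat_lit 259) (nat_lit 232) (nat_lit 229))) (XT.nd (nat_lit 78) (nat_lit 988) (nat_lit 0) (XT.lf (nat_lit 0) (nat_lit 1147152366) (nat_lit 608) (nat_lit 6559108625) (nat_lit 76) (nat_lit 64223377) (nat_lit 132) (nat_lit 5) (nat_lit 140) (nat_lit 5) (nat_lit 133) (nat_lit 4) (nat_lit 260) (nat_lit 232) (nat_lit 228)) (XT.nd (nat_lit 78) (nat_lit 532) (nat_lit 0) (XT.lf (nat_lit 0) (nat_lit 1778593607) (nat_lit 456) (nat_lit 4443233209) (nat_lit 532) (nat_lit 1699564485) (nat_lit 126) (nat_lit 5) (nat_lit 132) (nat_lit 5) (nat_lit 133) (nat_lit 4) (nat_lit 261) (nat_lit 232) (nat_lit 227))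 (XT.lf (nat_lit 0) (nat_lit 2341616499) (nat_lit 456) (nat_lit 927809883) (nat_lit 532) (nat_lit 4813815341) (nat_lit 119) (nat_lit 5) (nat_lit 125) (nat_lit 5) (nat_lit 126) (nat_lit 5) (nat_lit 262) (nat_lit 232) (nat_lit 226))))) (XT.nd (nat_lit 234) (nat_lit 1140) (nat_lit 0) (XT.nd (nat_lit 78) (nat_lit 912) (nat_lit 0) (XT.lf (nat_lit 0) (nat_lit 96117462) (nat_lit 456) (nat_lit 5379225623) (nat_lit 76) (nat_lit 2780621751) (nat_lit 113) (nat_lit 5) (nat_lit 119) (nat_lit 5) (nat_lit 114) (nat_lit 5) (nat_lit 263) (nat_lit 232) (nat_lit 225)) (XT.nd (nat_lit 78) (nat_lit 456) (nat_lit 0) (XT.lf (nat_lit 0) (nat_lit 3358979036) (nat_lit 456) (nat_lit 1684603443) (nat_lit 532) (nat_lit 3395917629) (nat_lit 107) (nat_lit 5) (nat_lit 113) (nat_lit 5) (nat_lit 114) (nat_lit 5) (nat_lit 264) (nat_lit 232) (nat_lit 224)) (XT.lf (nat_lit 0) (nat_lit 1484756698) (nat_lit 456) (nat_lit 4839116865)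 (nat_lit 76) (nat_lit 2310905634) (nat_lit 101) (nat_lit 5) (nat_lit 107) (nat_lit 5) (nat_lit 102) (nat_lit 5) (nat_lit 265) (nat_lit 232) (nat_lit 223)))) (XT.nd (nat_lit 78) (nat_lit 760) (nat_lit 0) (XT.lf (nat_lit 0) (nat_lit 4158994728) (nat_lit 380) (nat_lit 2292204339) (nat_lit 456) (nat_lit 2390566883) (nat_lit 96) (nat_lit 5) (nat_lit 101) (nat_lit 5) (nat_lit 102) (nat_lit 5) (nat_lit 266) (nat_lit 232) (nat_lit 222)) (XT.nd (nat_lit 78) (nat_lit 380) (nat_lit 0) (XT.lf (nat_lit 0) (nat_lit 2474873249) (nat_lit 380) (nat_lit 4619696090) (nat_lit 76) (nat_lit 1966502452) (nat_lit 91) (nat_lit 5) (nat_lit 96) (nat_lit 5) (nat_lit 92) (nat_lit 5) (nat_lit 267) (nat_lit 232) (nat_lit 221)) (XT.lf (nat_lit 0) (nat_lit 4623226989) (nat_lit 380) (nat_lit 2840376504) (nat_lit 456) (nat_lit 1829419832) (nat_lit 86) (nat_lit 5) (nat_lit 91) (nat_lit 5) (nat_lit 92) (nat_lit 5) (nat_lit 268)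 (nat_lit 232) (nat_lit 220)))))) (XT.nd (nat_lit 390) (nat_lit 1368) (nat_lit 0) (XT.nd (nat_lit 156) (nat_lit 988) (nat_lit 0) (XT.nd (nat_lit 78) (nat_lit 304) (nat_lit 0) (XT.lf (nat_lit 0) (nat_lit 3030228470) (nat_lit 380) (nat_lit 4849940437) (nat_lit 76) (nat_lit 1657940467) (nat_lit 81) (nat_lit 5) (nat_lit 86) (nat_lit 5) (nat_lit 82) (nat_lit 5) (nat_lit 269) (nat_lit 232) (nat_lit 219)) (XT.lf (nat_lit 0) (nat_lit 4616505775) (nat_lit 304) (nat_lit 3423557590) (nat_lit 380) (nat_lit 1756733276) (nat_lit 77) (nat_lit 5) (nat_lit 81) (nat_lit 5) (nat_lit 82) (nat_lit 5) (nat_lit 270) (nat_lit 232) (nat_lit 218))) (XT.nd (nat_lit 78) (nat_lit 608) (nat_lit 0) (XT.lf (nat_lit 0) (nat_lit 3101643772) (nat_lit 380) (nat_lit 5677917032) (nat_lit 76) (nat_lit 1290166548) (nat_lit 72) (nat_lit 5) (nat_lit 77) (nat_lit 5) (nat_lit 73) (nat_lit 5) (nat_lit 271) (nat_lit 232) (nat_lit 217))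 (XT.nd (nat_lit 78) (nat_lit 304) (nat_lit 0) (XT.lf (nat_lit 0) (nat_lit 3983031343) (nat_lit 304) (nat_lit 4143277552) (nat_lit 380) (nat_lit 2230895525) (nat_lit 68) (nat_lit 5) (nat_lit 72) (nat_lit 5) (nat_lit 73) (nat_lit 5) (nat_lit 272) (nat_lit 232) (nat_lit 216)) (XT.lf (nat_lit 0) (nat_lit 2625333754) (nat_lit 304) (nat_lit 7274994600) (nat_lit 76) (nat_lit 760061239) (nat_lit 64) (nat_lit 5) (nat_lit 68) (nat_lit 5) (nat_lit 65) (nat_lit 5) (nat_lit 273) (nat_lit 232) (nat_lit 215))))) (XT.nd (nat_lit 234) (nat_lit 532) (nat_lit 0) (XT.nd (nat_lit 78) (nat_lit 532) (nat_lit 0) (XT.lf (nat_lit 0) (nat_lit 2541899065) (nat_lit 304) (nat_lit 5110817100) (nat_lit 380) (nat_lit 3326308087) (nat_lit 60) (nat_lit 5) (nat_lit 64) (nat_lit 5) (nat_lit 65) (nat_lit 5) (nat_lit 274) (nat_lit 232) (nat_lit 214)) (XT.nd (nat_lit 78) (nat_lit 228) (nat_lit 0) (XT.lf (nat_lit 0) (nat_lit 1474096009)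 (nat_lit 228) (nat_lit 47231472) (nat_lit 304) (nat_lit 9793919129) (nat_lit 56) (nat_lit 5) (nat_lit 59) (nat_lit 5) (nat_lit 60) (nat_lit 5) (nat_lit 275) (nat_lit 232) (nat_lit 213)) (XT.lf (nat_lit 0) (nat_lit 81933744) (nat_lit 228) (nat_lit 6450168993) (nat_lit 304) (nat_lit 5135667718) (nat_lit 53) (nat_lit 5) (nat_lit 56) (nat_lit 5) (nat_lit 57) (nat_lit 5) (nat_lit 276) (nat_lit 232) (nat_lit 212)))) (XT.nd (nat_lit 78) (nat_lit 532) (nat_lit 0) (XT.lf (nat_lit 0) (nat_lit 10486725309) (nat_lit 228) (nat_lit 1263270131) (nat_lit 304) (nat_lit 289384750) (nat_lit 53) (nat_lit 5) (nat_lit 56) (nat_lit 5) (nat_lit 57) (nat_lit 5) (nat_lit 277) (nat_lit 232) (nat_lit 211)) (XT.nd (nat_lit 78) (nat_lit 228) (nat_lit 0) (XT.lf (nat_lit 0) (nat_lit 4692108767) (nat_lit 304) (nat_lit 3573182392) (nat_lit 76) (nat_lit 4163444098) (nat_lit 49) (nat_lit 5) (nat_lit 53) (nat_lit 5) (nat_lit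 50) (nat_lit 5) (nat_lit 278) (nat_lit 232) (nat_lit 210)) (XT.lf (nat_lit 0) (nat_lit 6888617363) (nat_lit 228) (nat_lit 2987434615) (nat_lit 304) (nat_lit 2962777654) (nat_lit 46) (nat_lit 5) (nat_lit 49) (nat_lit 5) (nat_lit 50) (nat_lit 5) (nat_lit 279) (nat_lit 232) (nat_lit 209))))))))
noncomputable def xc35 : XT := (XT.nd (nat_lit 1716) (nat_lit 760) (nat_lit 0) (XT.nd (nat_lit 858) (nat_lit 684) (nat_lit 0) (XT.nd (nat_lit 390) (nat_lit 760) (nat_lit 0) (XT.nd (nat_lit 156) (nat_lit 380) (nat_lit 0) (XT.nd (nat_lit 78) (nat_lit 228) (nat_lit 0) (XT.lf (nat_lit 0) (nat_lit 1982692221) (nat_lit 228) (nat_lit 8753224952) (nat_lit 76) (nat_lit 2533860525) (nat_lit 43) (nat_lit 5) (nat_lit 46) (nat_lit 5) (nat_lit 44) (nat_lit 5) (nat_lit 280) (nat_lit 232) (nat_lit 208)) (XT.lf (nat_lit 0) (nat_lit 1679019480) (nat_lit 228) (nat_lit 5414840272) (nat_lit 304) (nat_lit 6628264209) (nat_lit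 40) (nat_lit 5) (nat_lit 43) (nat_lit 5) (nat_lit 44) (nat_lit 5) (nat_lit 281) (nat_lit 232) (nat_lit 207))) (XT.nd (nat_lit 78) (nat_lit 380) (nat_lit 0) (XT.lf (nat_lit 0) (nat_lit 12427759237) (nat_lit 304) (nat_lit 1582103061) (nat_lit 76) (nat_lit 188326029) (nat_lit 40) (nat_lit 5) (nat_lit 44) (nat_lit 5) (nat_lit 41) (nat_lit 4) (nat_lit 282) (nat_lit 232) (nat_lit 206)) (XT.nd (nat_lit 78) (nat_lit 152) (nat_lit 0) (XT.lf (nat_lit 0) (nat_lit 3290360888) (nat_lit 228) (nat_lit 5391555501) (nat_lit 76) (nat_lit 6014534915) (nat_lit 37) (nat_lit 5) (nat_lit 40) (nat_lit 5) (nat_lit 38) (nat_lit 5) (nat_lit 283) (nat_lit 232) (nat_lit 205)) (XT.lf (nat_lit 0) (nat_lit 5450153610) (nat_lit 152) (nat_lit 3069749577) (nat_lit 228) (nat_lit 6700730679) (nat_lit 35) (nat_lit 5) (nat_lit 37) (nat_lit 5) (nat_lit 38) (nat_lit 5) (nat_lit 284) (nat_lit 232) (nat_lit 204))))) (XT.nd (nat_lit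 234) (nat_lit 380) (nat_lit 0) (XT.nd (nat_lit 78) (nat_lit 228) (nat_lit 0) (XT.lf (nat_lit 0) (nat_lit 982997817) (nat_lit 152) (nat_lit 13006845214) (nat_lit 228) (nat_lit 1781912196) (nat_lit 33) (nat_lit 5) (nat_lit 35) (nat_lit 5) (nat_lit 36) (nat_lit 4) (nat_lit 285) (nat_lit 232) (nat_lit 203)) (XT.nd (nat_lit 78) (nat_lit 152) (nat_lit 0) (XT.lf (nat_lit 0) (nat_lit 3338177845) (nat_lit 228) (nat_lit 4116320701) (nat_lit 76) (nat_lit 8894408256) (nat_lit 32) (nat_lit 5) (nat_lit 35) (nat_lit 5) (nat_lit 33) (nat_lit 5) (nat_lit 286) (nat_lit 232) (nat_lit 202)) (XT.lf (nat_lit 0) (nat_lit 7035000344) (nat_lit 152) (nat_lit 1604466807) (nat_lit 228) (nat_lit 8316143771) (nat_lit 30) (nat_lit 5) (nat_lit 32) (nat_lit 5) (nat_lit 33) (nat_lit 5) (nat_lit 287) (nat_lit 232) (nat_lit 201)))) (XT.nd (nat_lit 78) (nat_lit 228) (nat_lit 0) (XT.lf (nat_lit 0) (nat_lit 1043284567) (nat_lit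 152) (nat_lit 13155840523) (nat_lit 228) (nat_lit 3393807621) (nat_lit 28) (nat_lit 5) (nat_lit 30) (nat_lit 5) (nat_lit 31) (nat_lit 4) (nat_lit 288) (nat_lit 232) (nat_lit 200)) (XT.nd (nat_lit 78) (nat_lit 152) (nat_lit 0) (XT.lf (nat_lit 0) (nat_lit 1758449307) (nat_lit 228) (nat_lit 5699359821) (nat_lit 76) (nat_lit 10803322122) (nat_lit 27) (nat_lit 5) (nat_lit 30) (nat_lit 5) (nat_lit 28) (nat_lit 5) (nat_lit 289) (nat_lit 232) (nat_lit 199)) (XT.lf (nat_lit 0) (nat_lit 5607929172) (nat_lit 152) (nat_lit 1448668990) (nat_lit 228) (nat_lit 11906451294) (nat_lit 25) (nat_lit 5) (nat_lit 27) (nat_lit 5) (nat_lit 28) (nat_lit 5) (nat_lit 290) (nat_lit 232) (nat_lit 198)))))) (XT.nd (nat_lit 390) (nat_lit 304) (nat_lit 0) (XT.nd (nat_lit 156) (nat_lit 304) (nat_lit 0) (XT.nd (nat_lit 78) (nat_lit 76) (nat_lit 0) (XT.lf (nat_lit 0) (nat_lit 12632009504) (nat_lit 228) (nat_lit 2304264725)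 (nat_lit 76) (nat_lit 4763487120) (nat_lit 25) (nat_lit 5) (nat_lit 28) (nat_lit 5) (nat_lit 26) (nat_lit 4) (nat_lit 291) (nat_lit 232) (nat_lit 197)) (XT.lf (nat_lit 0) (nat_lit 9315493907) (nat_lit 76) (nat_lit 9185701742) (nat_lit 152) (nat_lit 1971728230) (nat_lit 24) (nat_lit 5) (nat_lit 25) (nat_lit 5) (nat_lit 26) (nat_lit 4) (nat_lit 292) (nat_lit 232) (nat_lit 196))) (XT.nd (nat_lit 78) (nat_lit 76) (nat_lit 0) (XT.lf (nat_lit 0) (nat_lit 101350058) (nat_lit 152) (nat_lit 3149496201) (nat_lit 228) (nat_lit 18034853432) (nat_lit 21) (nat_lit 5) (nat_lit 23) (nat_lit 5) (nat_lit 24) (nat_lit 5) (nat_lit 293) (nat_lit 232) (nat_lit 195)) (XT.nd (nat_lit 78) (nat_lit 76) (nat_lit 0) (XT.lf (nat_lit 0) (nat_lit 8755749352) (nat_lit 228) (nat_lit 10177170086) (nat_lit 76) (nat_lit 3203807236) (nat_lit 21) (nat_lit 5) (nat_lit 24) (nat_lit 5) (nat_lit 22) (nat_lit 4) (nat_lit 294) (nat_lit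 232) (nat_lit 194)) (XT.lf (nat_lit 0) (nat_lit 1233565680) (nat_lit 76) (nat_lit 13264984134) (nat_lit 152) (nat_lit 8532930281) (nat_lit 20) (nat_lit 5) (nat_lit 21) (nat_lit 5) (nat_lit 22) (nat_lit 4) (nat_lit 295) (nat_lit 232) (nat_lit 193))))) (XT.nd (nat_lit 234) (nat_lit 76) (nat_lit 0) (XT.nd (nat_lit 78) (nat_lit 228) (nat_lit 0) (XT.lf (nat_lit 0) (nat_lit 13292412575) (nat_lit 76) (nat_lit 7262406726) (nat_lit 152) (nat_lit 3415414069) (nat_lit 20) (nat_lit 5) (nat_lit 21) (nat_lit 5) (nat_lit 22) (nat_lit 4) (nat_lit 296) (nat_lit 232) (nat_lit 192)) (XT.nd (nat_lit 78) (nat_lit 0) (nat_lit 0) (XT.lf (nat_lit 0) (nat_lit 866141943) (nat_lit 152) (nat_lit 986465535) (nat_lit 228) (nat_lit 23104815219) (nat_lit 17) (nat_lit 5) (nat_lit 19) (nat_lit 5) (nat_lit 20) (nat_lit 5) (nat_lit 297) (nat_lit 232) (nat_lit 191)) (XT.lf (nat_lit 0) (nat_lit 7405296534) (nat_lit 228) (nat_lit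 12997868364) (nat_lit 76) (nat_lit 5587080881) (nat_lit 17) (nat_lit 5) (nat_lit 20) (nat_lit 5) (nat_lit 18) (nat_lit 4) (nat_lit 298) (nat_lit 232) (nat_lit 190)))) (XT.nd (nat_lit 78) (nat_lit 76) (nat_lit 0) (XT.lf (nat_lit 0) (nat_lit 13175459226) (nat_lit 228) (nat_lit 1481846095) (nat_lit 76) (nat_lit 12419253174) (nat_lit 17) (nat_lit 5) (nat_lit 20) (nat_lit 5) (nat_lit 18) (nat_lit 4) (nat_lit 299) (nat_lit 232) (nat_lit 189)) (XT.nd (nat_lit 78) (nat_lit 0) (nat_lit 0) (XT.lf (nat_lit 0) (nat_lit 10702532623) (nat_lit 76) (nat_lit 8567698195) (nat_lit 152) (nat_lit 8945914580) (nat_lit 16) (nat_lit 5) (nat_lit 17) (nat_lit 5) (nat_lit 18) (nat_lit 4) (nat_lit 300) (nat_lit 232) (nat_lit 188)) (XT.lf (nat_lit 0) (nat_lit 23414140297) (nat_lit 76) (nat_lit 2206170592) (nat_lit 152) (nat_lit 3793923258) (nat_lit 16) (nat_lit 5) (nat_lit 17) (nat_lit 5) (nat_lit 18) (nat_lit 4) (nat_lit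 301) (nat_lit 232) (nat_lit 187))))))) (XT.nd (nat_lit 858) (nat_lit 228) (nat_lit 0) (XT.nd (nat_lit 390) (nat_lit 228) (nat_lit 0) (XT.nd (nat_lit 156) (nat_lit 76) (nat_lit 0) (XT.nd (nat_lit 78) (nat_lit 0) (nat_lit 0) (XT.lf (nat_lit 0) (nat_lit 1623652818) (nat_lit 228) (nat_lit 24631770465) (nat_lit 76) (nat_lit 4415189359) (nat_lit 13) (nat_lit 5) (nat_lit 16) (nat_lit 5) (nat_lit 14) (nat_lit 4) (nat_lit 302) (nat_lit 232) (nat_lit 186)) (XT.lf (nat_lit 0) (nat_lit 7258277732) (nat_lit 228) (nat_lit 13351159604) (nat_lit 76) (nat_lit 11378541662) (nat_lit 13) (nat_lit 5) (nat_lit 16) (nat_lit 5) (nat_lit 14) (nat_lit 4) (nat_lit 303) (nat_lit 232) (nat_lit 185))) (XT.nd (nat_lit 78) (nat_lit 76) (nat_lit 0) (XT.lf (nat_lit 0) (nat_lit 13116786433) (nat_lit 228) (nat_lit 1608556194) (nat_lit 76) (nat_lit 18647639679) (nat_lit 13) (nat_lit 5) (nat_lit 16) (nat_lit 5) (nat_lit 14) (nat_lit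 4) (nat_lit 304) (nat_lit 232) (nat_lit 184)) (XT.nd (nat_lit 78) (nat_lit 0) (nat_lit 0) (XT.lf (nat_lit 0) (nat_lit 10835436744) (nat_lit 76) (nat_lit 8481847853) (nat_lit 152) (nat_lit 15508510887) (nat_lit 12) (nat_lit 5) (nat_lit 13) (nat_lit 5) (nat_lit 14) (nat_lit 4) (nat_lit 305) (nat_lit 232) (nat_lit 183)) (XT.lf (nat_lit 0) (nat_lit 23840850000) (nat_lit 76) (nat_lit 1950139619) (nat_lit 152) (nat_lit 10561394365) (nat_lit 12) (nat_lit 5) (nat_lit 13) (nat_lit 5) (nat_lit 14) (nat_lit 4) (nat_lit 306) (nat_lit 232) (nat_lit 182))))) (XT.nd (nat_lit 234) (nat_lit 76) (nat_lit 0) (XT.nd (nat_lit 78) (nat_lit 152) (nat_lit 0) (XT.lf (nat_lit 0) (nat_lit 32584349600) (nat_lit 152) (nat_lit 597024903) (nat_lit 0) (nat_lit 4774077003) (nat_lit 12) (nat_lit 5) (nat_lit 14) (nat_lit 4) (nat_lit 12) (nat_lit 4) (nat_lit 307) (nat_lit 232) (nat_lit 181)) (XT.nd (nat_lit 78) (nat_lit 0)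 (nat_lit 0) (XT.lf (nat_lit 0) (nat_lit 164664790) (nat_lit 152) (nat_lit 27595949300) (nat_lit 76) (nat_lit 11875437279) (nat_lit 10) (nat_lit 5) (nat_lit 12) (nat_lit 5) (nat_lit 11) (nat_lit 4) (nat_lit 308) (nat_lit 232) (nat_lit 180)) (XT.lf (nat_lit 0) (nat_lit 5825623767) (nat_lit 152) (nat_lit 16218437080) (nat_lit 76) (nat_lit 19356265667) (nat_lit 10) (nat_lit 5) (nat_lit 12) (nat_lit 5) (nat_lit 11) (nat_lit 4) (nat_lit 309) (nat_lit 232) (nat_lit 179)))) (XT.nd (nat_lit 78) (nat_lit 76) (nat_lit 0) (XT.lf (nat_lit 0) (nat_lit 11724151904) (nat_lit 152) (nat_lit 4353219727) (nat_lit 76) (nat_lit 27176832207) (nat_lit 10) (nat_lit 5) (nat_lit 12) (nat_lit 5) (nat_lit 11) (nat_lit 4) (nat_lit 310) (nat_lit 232) (nat_lit 178)) (XT.nd (nat_lit 78) (nat_lit 0) (nat_lit 0) (XT.lf (nat_lit 0) (nat_lit 8187725285) (nat_lit 76) (nat_lit 9765273453) (nat_lit 152) (nat_lit 27246737435) (nat_lit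 9) (nat_lit 5) (nat_lit 10) (nat_lit 5) (nat_lit 11) (nat_lit 4) (nat_lit 311) (nat_lit 232) (nat_lit 177)) (XT.lf (nat_lit 0) (nat_lit 21371597760) (nat_lit 76) (nat_lit 3124530306) (nat_lit 152) (nat_lit 22746353679) (nat_lit 9) (nat_lit 5) (nat_lit 10) (nat_lit 5) (nat_lit 11) (nat_lit 4) (nat_lit 312) (nat_lit 232) (nat_lit 176)))))) (XT.nd (nat_lit 468) (nat_lit 76) (nat_lit 0) (XT.nd (nat_lit 234) (nat_lit 76) (nat_lit 0) (XT.nd (nat_lit 78) (nat_lit 76) (nat_lit 0) (XT.lf (nat_lit 0) (nat_lit 31363128691) (nat_lit 152) (nat_lit 14282122883) (nat_lit 0) (nat_lit 3742232357) (nat_lit 9) (nat_lit 5) (nat_lit 11) (nat_lit 4) (nat_lit 9) (nat_lit 4) (nat_lit 313) (nat_lit 232) (nat_lit 175)) (XT.nd (nat_lit 78) (nat_lit 76) (nat_lit 0) (XT.lf (nat_lit 0) (nat_lit 38566657036) (nat_lit 152) (nat_lit 2214441713) (nat_lit 0) (nat_lit 10858861942) (nat_lit 9) (nat_lit 5) (nat_lit 11) (nat_lit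 4) (nat_lit 9) (nat_lit 4) (nat_lit 314) (nat_lit 232) (nat_lit 174)) (XT.lf (nat_lit 0) (nat_lit 10597726816) (nat_lit 76) (nat_lit 35597974478) (nat_lit 76) (nat_lit 7807418661) (nat_lit 8) (nat_lit 4) (nat_lit 9) (nat_lit 5) (nat_lit 9) (nat_lit 4) (nat_lit 315) (nat_lit 232) (nat_lit 173)))) (XT.nd (nat_lit 78) (nat_lit 76) (nat_lit 0) (XT.lf (nat_lit 0) (nat_lit 24032965748) (nat_lit 76) (nat_lit 30160621626) (nat_lit 76) (nat_lit 2291246073) (nat_lit 8) (nat_lit 4) (nat_lit 9) (nat_lit 5) (nat_lit 9) (nat_lit 4) (nat_lit 316) (nat_lit 232) (nat_lit 172)) (XT.nd (nat_lit 78) (nat_lit 0) (nat_lit 0) (XT.lf (nat_lit 0) (nat_lit 3398352456) (nat_lit 152) (nat_lit 21045786482) (nat_lit 76) (nat_lit 34646522862) (nat_lit 7) (nat_lit 5) (nat_lit 9) (nat_lit 5) (nat_lit 8) (nat_lit 4) (nat_lit 317) (nat_lit 232) (nat_lit 171)) (XT.lf (nat_lit 0) (nat_lit 9293036606) (nat_lit 152) (nat_lit 9151069483)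 (nat_lit 76) (nat_lit 43382970958) (nat_lit 7) (nat_lit 5) (nat_lit 9) (nat_lit 5) (nat_lit 8) (nat_lit 4) (nat_lit 318) (nat_lit 232) (nat_lit 170))))) (XT.nd (nat_lit 234) (nat_lit 0) (nat_lit 0) (XT.nd (nat_lit 78) (nat_lit 0) (nat_lit 0) (XT.lf (nat_lit 0) (nat_lit 3347959662) (nat_lit 76) (nat_lit 12135774775) (nat_lit 152) (nat_lit 49216555292) (nat_lit 6) (nat_lit 5) (nat_lit 7) (nat_lit 5) (nat_lit 8) (nat_lit 4) (nat_lit 319) (nat_lit 232) (nat_lit 169)) (XT.nd (nat_lit 78) (nat_lit 0) (nat_lit 0) (XT.lf (nat_lit 0) (nat_lit 16609014437) (nat_lit 76) (nat_lit 5439202743) (nat_lit 152) (nat_lit 45667032705) (nat_lit 6) (nat_lit 5) (nat_lit 7) (nat_lit 5) (nat_lit 8) (nat_lit 4) (nat_lit 320) (nat_lit 232) (nat_lit 168)) (XT.lf (nat_lit 0) (nat_lit 28927481782) (nat_lit 152) (nat_lit 40415366522) (nat_lit 0) (nat_lit 1538526670) (nat_lit 6) (nat_lit 5) (nat_lit 8) (nat_lit 4) (nat_lit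 6) (nat_lit 4) (nat_lit 321) (nat_lit 232) (nat_lit 167)))) (XT.nd (nat_lit 78) (nat_lit 0) (nat_lit 0) (XT.lf (nat_lit 0) (nat_lit 36178230274) (nat_lit 152) (nat_lit 29294591667) (nat_lit 0) (nat_lit 8732171763) (nat_lit 6) (nat_lit 5) (nat_lit 8) (nat_lit 4) (nat_lit 6) (nat_lit 4) (nat_lit 322) (nat_lit 232) (nat_lit 166)) (XT.nd (nat_lit 78) (nat_lit 0) (nat_lit 0) (XT.lf (nat_lit 0) (nat_lit 43765441400) (nat_lit 152) (nat_lit 17665147905) (nat_lit 0) (nat_lit 16264998699) (nat_lit 6) (nat_lit 5) (nat_lit 8) (nat_lit 4) (nat_lit 6) (nat_lit 4) (nat_lit 323) (nat_lit 232) (nat_lit 165)) (XT.lf (nat_lit 0) (nat_lit 51707179946) (nat_lit 152) (nat_lit 5499346083) (nat_lit 0) (nat_lit 24154942779) (nat_lit 6) (nat_lit 5) (nat_lit 8) (nat_lit 4) (nat_lit 6) (nat_lit 4) (nat_lit 324) (nat_lit 232) (nat_lit 164))))))))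
noncomputable def xc36 : XT := (XT.nd (nat_lit 32994) (nat_lit 0) (nat_lit 2052) (XT.nd (nat_lit 32136) (nat_lit 0) (nat_lit 7068) (XT.nd (nat_lit 390) (nat_lit 152) (nat_lit 0) (XT.nd (nat_lit 156) (nat_lit 0) (nat_lit 0) (XT.nd (nat_lit 78) (nat_lit 0) (nat_lit 0) (XT.lf (nat_lit 0) (nat_lit 7375706594) (nat_lit 76) (nat_lit 52717548025) (nat_lit 76) (nat_lit 25115982795) (nat_lit 5) (nat_lit 4) (nat_lit 6) (nat_lit 5) (nat_lit 6) (nat_lit 4) (nat_lit 325) (nat_lit 232) (nat_lit 163)) (XT.lf (nat_lit 0) (nat_lit 20967697834) (nat_lit 76) (nat_lit 47964620546) (nat_lit 76) (nat_lit 20316076209) (nat_lit 5) (nat_lit 4) (nat_lit 6) (nat_lit 5) (nat_lit 6) (nat_lit 4) (nat_lit 326) (nat_lit 232) (nat_lit 162))) (XT.nd (nat_lit 78) (nat_lit 0) (nat_lit 0) (XT.lf (nat_lit 0) (nat_lit 35199541751) (nat_lit 76) (nat_lit 42991959712) (nat_lit 76) (nat_lit 15298673367) (nat_lit 5) (nat_lit 4) (nat_lit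 6) (nat_lit 5) (nat_lit 6) (nat_lit 4) (nat_lit 327) (nat_lit 232) (nat_lit 161)) (XT.nd (nat_lit 78) (nat_lit 0) (nat_lit 0) (XT.lf (nat_lit 0) (nat_lit 50105123688) (nat_lit 76) (nat_lit 37787725854) (nat_lit 76) (nat_lit 10051828074) (nat_lit 5) (nat_lit 4) (nat_lit 6) (nat_lit 5) (nat_lit 6) (nat_lit 4) (nat_lit 328) (nat_lit 232) (nat_lit 160)) (XT.lf (nat_lit 0) (nat_lit 65719933124) (nat_lit 76) (nat_lit 32339527939) (nat_lit 76) (nat_lit 4563047839) (nat_lit 5) (nat_lit 4) (nat_lit 6) (nat_lit 5) (nat_lit 6) (nat_lit 4) (nat_lit 329) (nat_lit 232) (nat_lit 159))))) (XT.nd (nat_lit 312) (nat_lit 76) (nat_lit 0) (XT.nd (nat_lit 78) (nat_lit 0) (nat_lit 0) (XT.lf (nat_lit 0) (nat_lit 1157695451) (nat_lit 152) (nat_lit 25465008162) (nat_lit 76) (nat_lit 80911762272) (nat_lit 4) (nat_lit 5) (nat_lit 6) (nat_lit 5) (nat_lit 5) (nat_lit 4) (nat_lit 330) (nat_lit 232) (nat_lit 158)) (XT.nd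 (nat_lit 78) (nat_lit 0) (nat_lit 0) (XT.lf (nat_lit 0) (nat_lit 7052833486) (nat_lit 152) (nat_lit 13534687310) (nat_lit 76) (nat_lit 92103670847) (nat_lit 4) (nat_lit 5) (nat_lit 6) (nat_lit 5) (nat_lit 5) (nat_lit 4) (nat_lit 331) (nat_lit 232) (nat_lit 157)) (XT.lf (nat_lit 0) (nat_lit 13225443807) (nat_lit 152) (nat_lit 1039344892) (nat_lit 76) (nat_lit 103841491283) (nat_lit 4) (nat_lit 5) (nat_lit 6) (nat_lit 5) (nat_lit 5) (nat_lit 4) (nat_lit 332) (nat_lit 232) (nat_lit 156)))) (XT.nd (nat_lit 31278) (nat_lit 0) (nat_lit 14440) (XT.lf (nat_lit 0) (nat_lit 26279634354) (nat_lit 76) (nat_lit 435545281) (nat_lit 152) (nat_lit 103041004399) (nat_lit 3) (nat_lit 5) (nat_lit 4) (nat_lit 5) (nat_lit 5) (nat_lit 4) (nat_lit 334) (nat_lit 232) (nat_lit 154)) (XT.nd (nat_lit 78) (nat_lit 1064) (nat_lit 0) (XT.lf (nat_lit 0) (nat_lit 1291136643) (nat_lit 988) (nat_lit 951192181) (nat_lit 0)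 (nat_lit 1291136643) (nat_lit 207) (nat_lit 5) (nat_lit 220) (nat_lit 4) (nat_lit 207) (nat_lit 4) (nat_lit 254) (nat_lit 233) (nat_lit 233)) (XT.lf (nat_lit 0) (nat_lit 580057809) (nat_lit 1064) (nat_lit 1561372977) (nat_lit 76) (nat_lit 5022212269) (nat_lit 193) (nat_lit 5) (nat_lit 207) (nat_lit 5) (nat_lit 194) (nat_lit 4) (nat_lit 255) (nat_lit 233) (nat_lit 232)))))) (XT.nd (nat_lit 390) (nat_lit 2736) (nat_lit 0) (XT.nd (nat_lit 156) (nat_lit 2356) (nat_lit 0) (XT.nd (nat_lit 78) (nat_lit 1216) (nat_lit 0) (XT.lf (nat_lit 0) (nat_lit 5635666273) (nat_lit 1140) (nat_lit 1189799843) (nat_lit 0) (nat_lit 444057230) (nat_lit 179) (nat_lit 5) (nat_lit 194) (nat_lit 4) (nat_lit 179) (nat_lit 4) (nat_lit 256) (nat_lit 233) (nat_lit 231)) (XT.lf (nat_lit 0) (nat_lit 3350036004) (nat_lit 1216) (nat_lit 802933301) (nat_lit 76) (nat_lit 3231547753) (nat_lit 163) (nat_lit 5) (nat_lit 179) (nat_lit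 5) (nat_lit 164) (nat_lit 4) (nat_lit 257) (nat_lit 233) (nat_lit 230))) (XT.nd (nat_lit 78) (nat_lit 1748) (nat_lit 0) (XT.lf (nat_lit 0) (nat_lit 866608338) (nat_lit 608) (nat_lit 379573435) (nat_lit 76) (nat_lit 6263512327) (nat_lit 155) (nat_lit 5) (nat_lit 163) (nat_lit 5) (nat_lit 156) (nat_lit 5) (nat_lit 258) (nat_lit 233) (nat_lit 229)) (XT.nd (nat_lit 78) (nat_lit 608) (nat_lit 0) (XT.lf (nat_lit 0) (nat_lit 39345950) (nat_lit 532) (nat_lit 5761380916) (nat_lit 608) (nat_lit 1843532045) (nat_lit 140) (nat_lit 5) (nat_lit 147) (nat_lit 5) (nat_lit 148) (nat_lit 4) (nat_lit 259) (nat_lit 233) (nat_lit 228)) (XT.lf (nat_lit 0) (nat_lit 466243071) (nat_lit 532) (nat_lit 2543476305) (nat_lit 608) (nat_lit 4779062667) (nat_lit 132) (nat_lit 5) (nat_lit 139) (nat_lit 5) (nat_lit 140) (nat_lit 5) (nat_lit 260) (nat_lit 233) (nat_lit 227))))) (XT.nd (nat_lit 234) (nat_lit 1292) (nat_lit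 0) (XT.nd (nat_lit 78) (nat_lit 912) (nat_lit 0) (XT.lf (nat_lit 0) (nat_lit 632486) (nat_lit 532) (nat_lit 7044849445) (nat_lit 76) (nat_lit 898598663) (nat_lit 125) (nat_lit 5) (nat_lit 132) (nat_lit 5) (nat_lit 126) (nat_lit 5) (nat_lit 261) (nat_lit 233) (nat_lit 226)) (XT.nd (nat_lit 78) (nat_lit 456) (nat_lit 0) (XT.lf (nat_lit 0) (nat_lit 1280581943) (nat_lit 456) (nat_lit 3541638916) (nat_lit 532) (nat_lit 3286833736) (nat_lit 119) (nat_lit 5) (nat_lit 125) (nat_lit 5) (nat_lit 126) (nat_lit 5) (nat_lit 262) (nat_lit 233) (nat_lit 225)) (XT.lf (nat_lit 0) (nat_lit 1454646717) (nat_lit 456) (nat_lit 6629372760) (nat_lit 76) (nat_lit 201650048) (nat_lit 113) (nat_lit 5) (nat_lit 119) (nat_lit 5) (nat_lit 114) (nat_lit 5) (nat_lit 263) (nat_lit 233) (nat_lit 224)))) (XT.nd (nat_lit 78) (nat_lit 836) (nat_lit 0) (XT.lf (nat_lit 0) (nat_lit 1961476133) (nat_lit 456) (nat_lit 4329326852)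 (nat_lit 532) (nat_lit 2181905362) (nat_lit 107) (nat_lit 5) (nat_lit 113) (nat_lit 5) (nat_lit 114) (nat_lit 5) (nat_lit 264) (nat_lit 233) (nat_lit 223)) (XT.nd (nat_lit 78) (nat_lit 380) (nat_lit 0) (XT.lf (nat_lit 0) (nat_lit 2226854283) (nat_lit 380) (nat_lit 314841283) (nat_lit 456) (nat_lit 6130095193) (nat_lit 101) (nat_lit 5) (nat_lit 106) (nat_lit 5) (nat_lit 107) (nat_lit 5) (nat_lit 265) (nat_lit 233) (nat_lit 222)) (XT.lf (nat_lit 0) (nat_lit 2403982793) (nat_lit 380) (nat_lit 4992047080) (nat_lit 456) (nat_lit 1486255555) (nat_lit 96) (nat_lit 5) (nat_lit 101) (nat_lit 5) (nat_lit 102) (nat_lit 5) (nat_lit 266) (nat_lit 233) (nat_lit 221))))))) (XT.nd (nat_lit 858) (nat_lit 1748) (nat_lit 0) (XT.nd (nat_lit 390) (nat_lit 1444) (nat_lit 0) (XT.nd (nat_lit 156) (nat_lit 1064) (nat_lit 0) (XT.nd (nat_lit 78) (nat_lit 380) (nat_lit 0) (XT.lf (nat_lit 0) (nat_lit 2502268633) (nat_lit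 304) (nat_lit 731221992) (nat_lit 380) (nat_lit 5871815057) (nat_lit 91) (nat_lit 5) (nat_lit 95) (nat_lit 5) (nat_lit 96) (nat_lit 5) (nat_lit 267) (nat_lit 233) (nat_lit 220)) (XT.lf (nat_lit 0) (nat_lit 2489630874) (nat_lit 380) (nat_lit 5618054987) (nat_lit 456) (nat_lit 1233134806) (nat_lit 86) (nat_lit 5) (nat_lit 91) (nat_lit 5) (nat_lit 92) (nat_lit 5) (nat_lit 268) (nat_lit 233) (nat_lit 219))) (XT.nd (nat_lit 78) (nat_lit 684) (nat_lit 0) (XT.lf (nat_lit 0) (nat_lit 2357843805) (nat_lit 304) (nat_lit 1133334506) (nat_lit 380) (nat_lit 6098385236) (nat_lit 81) (nat_lit 5) (nat_lit 85) (nat_lit 5) (nat_lit 86) (nat_lit 5) (nat_lit 269) (nat_lit 233) (nat_lit 218)) (XT.nd (nat_lit 78) (nat_lit 380) (nat_lit 0) (XT.lf (nat_lit 0) (nat_lit 2083022205) (nat_lit 304) (nat_lit 6300557475) (nat_lit 380) (nat_lit 1468306332) (nat_lit 77) (nat_lit 5) (nat_lit 81) (nat_lit 5) (nat_lit 82) (nat_lit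 5) (nat_lit 270) (nat_lit 233) (nat_lit 217)) (XT.lf (nat_lit 0) (nat_lit 1648081039) (nat_lit 304) (nat_lit 1616994088) (nat_lit 380) (nat_lit 6863343175) (nat_lit 72) (nat_lit 5) (nat_lit 76) (nat_lit 5) (nat_lit 77) (nat_lit 5) (nat_lit 271) (nat_lit 233) (nat_lit 216))))) (XT.nd (nat_lit 234) (nat_lit 836) (nat_lit 0) (XT.nd (nat_lit 78) (nat_lit 304) (nat_lit 0) (XT.lf (nat_lit 0) (nat_lit 1027947871) (nat_lit 304) (nat_lit 7140103767) (nat_lit 380) (nat_lit 2251593188) (nat_lit 68) (nat_lit 5) (nat_lit 72) (nat_lit 5) (nat_lit 73) (nat_lit 5) (nat_lit 272) (nat_lit 233) (nat_lit 215)) (XT.nd (nat_lit 78) (nat_lit 0) (nat_lit 0) (XT.lf (nat_lit 0) (nat_lit 204549904) (nat_lit 228) (nat_lit 2286483676) (nat_lit 304) (nat_lit 8235313931) (nat_lit 64) (nat_lit 5) (nat_lit 67) (nat_lit 5) (nat_lit 68) (nat_lit 5) (nat_lit 273) (nat_lit 233) (nat_lit 214)) (XT.lf (nat_lit 0) (nat_lit 7398381981)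 (nat_lit 304) (nat_lit 840351883) (nat_lit 76) (nat_lit 2809936328) (nat_lit 64) (nat_lit 5) (nat_lit 68) (nat_lit 5) (nat_lit 65) (nat_lit 5) (nat_lit 274) (nat_lit 233) (nat_lit 213)))) (XT.nd (nat_lit 78) (nat_lit 456) (nat_lit 0) (XT.lf (nat_lit 0) (nat_lit 1109272060) (nat_lit 380) (nat_lit 2126587906) (nat_lit 76) (nat_lit 8152038378) (nat_lit 59) (nat_lit 5) (nat_lit 64) (nat_lit 5) (nat_lit 60) (nat_lit 5) (nat_lit 275) (nat_lit 233) (nat_lit 212)) (XT.nd (nat_lit 78) (nat_lit 228) (nat_lit 0) (XT.lf (nat_lit 0) (nat_lit 5997754185) (nat_lit 304) (nat_lit 3710129295) (nat_lit 76) (nat_lit 2036284116) (nat_lit 56) (nat_lit 5) (nat_lit 60) (nat_lit 5) (nat_lit 57) (nat_lit 5) (nat_lit 276) (nat_lit 233) (nat_lit 211)) (XT.lf (nat_lit 0) (nat_lit 6518796989) (nat_lit 228) (nat_lit 4593019951) (nat_lit 304) (nat_lit 1007148256) (nat_lit 53) (nat_lit 5) (nat_lit 56) (nat_lit 5) (nat_lit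 57) (nat_lit 5) (nat_lit 277) (nat_lit 233) (nat_lit 210)))))) (XT.nd (nat_lit 390) (nat_lit 760) (nat_lit 0) (XT.nd (nat_lit 156) (nat_lit 456) (nat_lit 0) (XT.nd (nat_lit 78) (nat_lit 228) (nat_lit 0) (XT.lf (nat_lit 0) (nat_lit 3850022966) (nat_lit 304) (nat_lit 7844926092) (nat_lit 76) (nat_lit 817795514) (nat_lit 49) (nat_lit 5) (nat_lit 53) (nat_lit 5) (nat_lit 50) (nat_lit 5) (nat_lit 278) (nat_lit 233) (nat_lit 209)) (XT.lf (nat_lit 0) (nat_lit 2432585642) (nat_lit 228) (nat_lit 6495454560) (nat_lit 304) (nat_lit 3998040778) (nat_lit 46) (nat_lit 5) (nat_lit 49) (nat_lit 5) (nat_lit 50) (nat_lit 5) (nat_lit 279) (nat_lit 233) (nat_lit 208))) (XT.nd (nat_lit 78) (nat_lit 380) (nat_lit 0) (XT.lf (nat_lit 0) (nat_lit 837466971) (nat_lit 304) (nat_lit 175656505) (nat_lit 76) (nat_lit 12348168446) (nat_lit 45) (nat_lit 5) (nat_lit 49) (nat_lit 5) (nat_lit 46) (nat_lit 5) (nat_lit 280)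 (nat_lit 233) (nat_lit 207)) (XT.nd (nat_lit 78) (nat_lit 228) (nat_lit 0) (XT.lf (nat_lit 0) (nat_lit 5861076290) (nat_lit 228) (nat_lit 3225867227) (nat_lit 76) (nat_lit 4729377998) (nat_lit 43) (nat_lit 5) (nat_lit 46) (nat_lit 5) (nat_lit 44) (nat_lit 5) (nat_lit 281) (nat_lit 233) (nat_lit 206)) (XT.lf (nat_lit 0) (nat_lit 7557003356) (nat_lit 228) (nat_lit 3546530370) (nat_lit 304) (nat_lit 3191649304) (nat_lit 40) (nat_lit 5) (nat_lit 43) (nat_lit 5) (nat_lit 44) (nat_lit 5) (nat_lit 282) (nat_lit 233) (nat_lit 205))))) (XT.nd (nat_lit 234) (nat_lit 380) (nat_lit 0) (XT.nd (nat_lit 78) (nat_lit 152) (nat_lit 0) (XT.lf (nat_lit 0) (nat_lit 1754732032) (nat_lit 228) (nat_lit 10792376513) (nat_lit 76) (nat_lit 2251061393) (nat_lit 37) (nat_lit 5) (nat_lit 40) (nat_lit 5) (nat_lit 38) (nat_lit 5) (nat_lit 283) (nat_lit 233) (nat_lit 204)) (XT.nd (nat_lit 78) (nat_lit 152) (nat_lit 0) (XT.lf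 (nat_lit 0) (nat_lit 6877598326) (nat_lit 228) (nat_lit 144515450) (nat_lit 76) (nat_lit 8303486459) (nat_lit 37) (nat_lit 5) (nat_lit 40) (nat_lit 5) (nat_lit 38) (nat_lit 5) (nat_lit 284) (nat_lit 233) (nat_lit 203)) (XT.lf (nat_lit 0) (nat_lit 11081146374) (nat_lit 152) (nat_lit 1175993765) (nat_lit 228) (nat_lit 3622338593) (nat_lit 35) (nat_lit 5) (nat_lit 37) (nat_lit 5) (nat_lit 38) (nat_lit 5) (nat_lit 285) (nat_lit 233) (nat_lit 202)))) (XT.nd (nat_lit 78) (nat_lit 152) (nat_lit 0) (XT.lf (nat_lit 0) (nat_lit 1423183958) (nat_lit 228) (nat_lit 10157713325) (nat_lit 76) (nat_lit 4879619979) (nat_lit 32) (nat_lit 5) (nat_lit 35) (nat_lit 5) (nat_lit 33) (nat_lit 5) (nat_lit 286) (nat_lit 233) (nat_lit 201)) (XT.nd (nat_lit 78) (nat_lit 0) (nat_lit 0) (XT.lf (nat_lit 0) (nat_lit 790912709) (nat_lit 152) (nat_lit 5824330730) (nat_lit 228) (nat_lit 10455294636) (nat_lit 30) (nat_lit 5)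 (nat_lit 32) (nat_lit 5) (nat_lit 33) (nat_lit 5) (nat_lit 287) (nat_lit 233) (nat_lit 200)) (XT.lf (nat_lit 0) (nat_lit 12076392108) (nat_lit 228) (nat_lit 5375226690) (nat_lit 76) (nat_lit 259234249) (nat_lit 30) (nat_lit 5) (nat_lit 33) (nat_lit 5) (nat_lit 31) (nat_lit 4) (nat_lit 288) (nat_lit 233) (nat_lit 199))))))))
noncomputable def xc37 : XT := (XT.nd (nat_lit 1716) (nat_lit 456) (nat_lit 0) (XT.nd (nat_lit 858) (nat_lit 532) (nat_lit 0) (XT.nd (nat_lit 390) (nat_lit 456) (nat_lit 0) (XT.nd (nat_lit 156) (nat_lit 304) (nat_lit 0) (XT.nd (nat_lit 78) (nat_lit 76) (nat_lit 0) (XT.lf (nat_lit 0) (nat_lit 5976622013) (nat_lit 152) (nat_lit 11856661937) (nat_lit 228) (nat_lit 549293249) (nat_lit 28) (nat_lit 5) (nat_lit 30) (nat_lit 5) (nat_lit 31) (nat_lit 4) (nat_lit 289) (nat_lit 233) (nat_lit 198)) (XT.lf (nat_lit 0) (nat_lit 4661025831) (nat_lit 228) (nat_lit 1277469731) (nat_lit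 76) (nat_lit 13149148080) (nat_lit 27) (nat_lit 5) (nat_lit 30) (nat_lit 5) (nat_lit 28) (nat_lit 5) (nat_lit 290) (nat_lit 233) (nat_lit 197))) (XT.nd (nat_lit 78) (nat_lit 152) (nat_lit 0) (XT.lf (nat_lit 0) (nat_lit 10137135482) (nat_lit 228) (nat_lit 9370334136) (nat_lit 76) (nat_lit 319896758) (nat_lit 25) (nat_lit 5) (nat_lit 28) (nat_lit 5) (nat_lit 26) (nat_lit 4) (nat_lit 291) (nat_lit 233) (nat_lit 196)) (XT.nd (nat_lit 78) (nat_lit 76) (nat_lit 0) (XT.lf (nat_lit 0) (nat_lit 2037345021) (nat_lit 76) (nat_lit 13857591238) (nat_lit 152) (nat_lit 4708964482) (nat_lit 24) (nat_lit 5) (nat_lit 25) (nat_lit 5) (nat_lit 26) (nat_lit 4) (nat_lit 292) (nat_lit 233) (nat_lit 195)) (XT.lf (nat_lit 0) (nat_lit 525518826) (nat_lit 152) (nat_lit 7352324448) (nat_lit 76) (nat_lit 13540895769) (nat_lit 23) (nat_lit 5) (nat_lit 25) (nat_lit 5) (nat_lit 24) (nat_lit 5) (nat_lit 293) (nat_lit 233)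 (nat_lit 194))))) (XT.nd (nat_lit 234) (nat_lit 228) (nat_lit 0) (XT.nd (nat_lit 78) (nat_lit 76) (nat_lit 0) (XT.lf (nat_lit 0) (nat_lit 4325000054) (nat_lit 152) (nat_lit 1562686945) (nat_lit 228) (nat_lit 16386387736) (nat_lit 21) (nat_lit 5) (nat_lit 23) (nat_lit 5) (nat_lit 24) (nat_lit 5) (nat_lit 294) (nat_lit 233) (nat_lit 193)) (XT.nd (nat_lit 78) (nat_lit 76) (nat_lit 0) (XT.lf (nat_lit 0) (nat_lit 11565980203) (nat_lit 228) (nat_lit 6612004488) (nat_lit 76) (nat_lit 4992804075) (nat_lit 21) (nat_lit 5) (nat_lit 24) (nat_lit 5) (nat_lit 22) (nat_lit 4) (nat_lit 295) (nat_lit 233) (nat_lit 192)) (XT.lf (nat_lit 0) (nat_lit 5252486983) (nat_lit 76) (nat_lit 12268499651) (nat_lit 152) (nat_lit 6591617481) (nat_lit 20) (nat_lit 5) (nat_lit 21) (nat_lit 5) (nat_lit 22) (nat_lit 4) (nat_lit 296) (nat_lit 233) (nat_lit 191)))) (XT.nd (nat_lit 78) (nat_lit 228) (nat_lit 0) (XT.lf (nat_lit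 0) (nat_lit 17725836079) (nat_lit 76) (nat_lit 6044828310) (nat_lit 152) (nat_lit 1330985425) (nat_lit 20) (nat_lit 5) (nat_lit 21) (nat_lit 5) (nat_lit 22) (nat_lit 4) (nat_lit 297) (nat_lit 233) (nat_lit 190)) (XT.nd (nat_lit 78) (nat_lit 0) (nat_lit 0) (XT.lf (nat_lit 0) (nat_lit 4091820377) (nat_lit 228) (nat_lit 21530442368) (nat_lit 76) (nat_lit 517290940) (nat_lit 17) (nat_lit 5) (nat_lit 20) (nat_lit 5) (nat_lit 18) (nat_lit 4) (nat_lit 298) (nat_lit 233) (nat_lit 189)) (XT.lf (nat_lit 0) (nat_lit 9829408179) (nat_lit 228) (nat_lit 10071146745) (nat_lit 76) (nat_lit 7326309004) (nat_lit 17) (nat_lit 5) (nat_lit 20) (nat_lit 5) (nat_lit 18) (nat_lit 4) (nat_lit 299) (nat_lit 233) (nat_lit 188)))))) (XT.nd (nat_lit 390) (nat_lit 228) (nat_lit 0) (XT.nd (nat_lit 156) (nat_lit 228) (nat_lit 0) (XT.nd (nat_lit 78) (nat_lit 0) (nat_lit 0) (XT.lf (nat_lit 0) (nat_lit 1887187460) (nat_lit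 76) (nat_lit 13921230116) (nat_lit 152) (nat_lit 12561525437) (nat_lit 16) (nat_lit 5) (nat_lit 17) (nat_lit 5) (nat_lit 18) (nat_lit 4) (nat_lit 300) (nat_lit 233) (nat_lit 187)) (XT.lf (nat_lit 0) (nat_lit 14546318383) (nat_lit 76) (nat_lit 7582128440) (nat_lit 152) (nat_lit 7440504860) (nat_lit 16) (nat_lit 5) (nat_lit 17) (nat_lit 5) (nat_lit 18) (nat_lit 4) (nat_lit 301) (nat_lit 233) (nat_lit 186))) (XT.nd (nat_lit 78) (nat_lit 228) (nat_lit 0) (XT.lf (nat_lit 0) (nat_lit 27735951244) (nat_lit 76) (nat_lit 969855632) (nat_lit 152) (nat_lit 2123899945) (nat_lit 16) (nat_lit 5) (nat_lit 17) (nat_lit 5) (nat_lit 18) (nat_lit 4) (nat_lit 302) (nat_lit 233) (nat_lit 185)) (XT.nd (nat_lit 78) (nat_lit 0) (nat_lit 0) (XT.lf (nat_lit 0) (nat_lit 3483997544) (nat_lit 228) (nat_lit 22725068524) (nat_lit 76) (nat_lit 5940680967) (nat_lit 13) (nat_lit 5) (nat_lit 16) (nat_lit 5) (nat_lit 14) (nat_lit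 4) (nat_lit 303) (nat_lit 233) (nat_lit 184)) (XT.lf (nat_lit 0) (nat_lit 9315631700) (nat_lit 228) (nat_lit 11029869523) (nat_lit 76) (nat_lit 13190070783) (nat_lit 13) (nat_lit 5) (nat_lit 16) (nat_lit 5) (nat_lit 14) (nat_lit 4) (nat_lit 304) (nat_lit 233) (nat_lit 183))))) (XT.nd (nat_lit 234) (nat_lit 152) (nat_lit 0) (XT.nd (nat_lit 78) (nat_lit 0) (nat_lit 0) (XT.lf (nat_lit 0) (nat_lit 1180575234) (nat_lit 76) (nat_lit 14217151390) (nat_lit 152) (nat_lit 19594225351) (nat_lit 12) (nat_lit 5) (nat_lit 13) (nat_lit 5) (nat_lit 14) (nat_lit 4) (nat_lit 305) (nat_lit 233) (nat_lit 182)) (XT.nd (nat_lit 78) (nat_lit 0) (nat_lit 0) (XT.lf (nat_lit 0) (nat_lit 14142135564) (nat_lit 76) (nat_lit 7704498536) (nat_lit 152) (nat_lit 14672664296) (nat_lit 12) (nat_lit 5) (nat_lit 13) (nat_lit 5) (nat_lit 14) (nat_lit 4) (nat_lit 306) (nat_lit 233) (nat_lit 181)) (XT.lf (nat_lit 0) (nat_lit 27666156293)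 (nat_lit 76) (nat_lit 903416400) (nat_lit 152) (nat_lit 9554919193) (nat_lit 12) (nat_lit 5) (nat_lit 13) (nat_lit 5) (nat_lit 14) (nat_lit 4) (nat_lit 307) (nat_lit 233) (nat_lit 180)))) (XT.nd (nat_lit 78) (nat_lit 76) (nat_lit 0) (XT.lf (nat_lit 0) (nat_lit 1951952572) (nat_lit 76) (nat_lit 33708980378) (nat_lit 76) (nat_lit 4148069880) (nat_lit 11) (nat_lit 4) (nat_lit 12) (nat_lit 5) (nat_lit 12) (nat_lit 4) (nat_lit 308) (nat_lit 233) (nat_lit 179)) (XT.nd (nat_lit 78) (nat_lit 0) (nat_lit 0) (XT.lf (nat_lit 0) (nat_lit 1571648105) (nat_lit 152) (nat_lit 26479259608) (nat_lit 76) (nat_lit 13524243753) (nat_lit 10) (nat_lit 5) (nat_lit 12) (nat_lit 5) (nat_lit 11) (nat_lit 4) (nat_lit 309) (nat_lit 233) (nat_lit 178)) (XT.lf (nat_lit 0) (nat_lit 7449047885) (nat_lit 152) (nat_lit 14651752118) (nat_lit 76) (nat_lit 21328873817) (nat_lit 10) (nat_lit 5) (nat_lit 12) (nat_lit 5) (nat_lit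 11) (nat_lit 4) (nat_lit 310) (nat_lit 233) (nat_lit 177))))))) (XT.nd (nat_lit 858) (nat_lit 152) (nat_lit 0) (XT.nd (nat_lit 390) (nat_lit 228) (nat_lit 0) (XT.nd (nat_lit 156) (nat_lit 0) (nat_lit 0) (XT.nd (nat_lit 78) (nat_lit 76) (nat_lit 0) (XT.lf (nat_lit 0) (nat_lit 13579067051) (nat_lit 152) (nat_lit 2306493270) (nat_lit 76) (nat_lit 29492621310) (nat_lit 10) (nat_lit 5) (nat_lit 12) (nat_lit 5) (nat_lit 11) (nat_lit 4) (nat_lit 311) (nat_lit 233) (nat_lit 176)) (XT.lf (nat_lit 0) (nat_lit 10796590782) (nat_lit 76) (nat_lit 9283493540) (nat_lit 152) (nat_lit 27342116378) (nat_lit 9) (nat_lit 5) (nat_lit 10) (nat_lit 5) (nat_lit 11) (nat_lit 4) (nat_lit 312) (nat_lit 233) (nat_lit 175))) (XT.nd (nat_lit 78) (nat_lit 0) (nat_lit 0) (XT.lf (nat_lit 0) (nat_lit 24534919774) (nat_lit 76) (nat_lit 2356905787) (nat_lit 152) (nat_lit 22677044764) (nat_lit 9) (nat_lit 5) (nat_lit 10) (nat_lit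 5) (nat_lit 11) (nat_lit 4) (nat_lit 313) (nat_lit 233) (nat_lit 174)) (XT.nd (nat_lit 78) (nat_lit 0) (nat_lit 0) (XT.lf (nat_lit 0) (nat_lit 34054877234) (nat_lit 152) (nat_lit 12975660445) (nat_lit 0) (nat_lit 4792032902) (nat_lit 9) (nat_lit 5) (nat_lit 11) (nat_lit 4) (nat_lit 9) (nat_lit 4) (nat_lit 314) (nat_lit 233) (nat_lit 173)) (XT.lf (nat_lit 0) (nat_lit 41565077609) (nat_lit 152) (nat_lit 400812768) (nat_lit 0) (nat_lit 12223413541) (nat_lit 9) (nat_lit 5) (nat_lit 11) (nat_lit 4) (nat_lit 9) (nat_lit 4) (nat_lit 315) (nat_lit 233) (nat_lit 172))))) (XT.nd (nat_lit 234) (nat_lit 76) (nat_lit 0) (XT.nd (nat_lit 78) (nat_lit 76) (nat_lit 0) (XT.lf (nat_lit 0) (nat_lit 12996803051) (nat_lit 76) (nat_lit 36545782267) (nat_lit 76) (nat_lit 7129051783) (nat_lit 8) (nat_lit 4) (nat_lit 9) (nat_lit 5) (nat_lit 9) (nat_lit 4) (nat_lit 316) (nat_lit 233) (nat_lit 171)) (XT.nd (nat_lit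 78) (nat_lit 76) (nat_lit 0) (XT.lf (nat_lit 0) (nat_lit 27014794888) (nat_lit 76) (nat_lit 30876185151) (nat_lit 76) (nat_lit 1387962842) (nat_lit 8) (nat_lit 4) (nat_lit 9) (nat_lit 5) (nat_lit 9) (nat_lit 4) (nat_lit 317) (nat_lit 233) (nat_lit 170)) (XT.lf (nat_lit 0) (nat_lit 4518730748) (nat_lit 152) (nat_lit 20383286342) (nat_lit 76) (nat_lit 37114200883) (nat_lit 7) (nat_lit 5) (nat_lit 9) (nat_lit 5) (nat_lit 8) (nat_lit 4) (nat_lit 318) (nat_lit 233) (nat_lit 169)))) (XT.nd (nat_lit 78) (nat_lit 76) (nat_lit 0) (XT.lf (nat_lit 0) (nat_lit 10662889073) (nat_lit 152) (nat_lit 7975490134) (nat_lit 76) (nat_lit 46252454628) (nat_lit 7) (nat_lit 5) (nat_lit 9) (nat_lit 5) (nat_lit 8) (nat_lit 4) (nat_lit 319) (nat_lit 233) (nat_lit 168)) (XT.nd (nat_lit 78) (nat_lit 0) (nat_lit 0) (XT.lf (nat_lit 0) (nat_lit 5101677043) (nat_lit 76) (nat_lit 12033588632) (nat_lit 152) (nat_lit 50773298161)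 (nat_lit 6) (nat_lit 5) (nat_lit 7) (nat_lit 5) (nat_lit 8) (nat_lit 4) (nat_lit 320) (nat_lit 233) (nat_lit 167)) (XT.lf (nat_lit 0) (nat_lit 18950245538) (nat_lit 76) (nat_lit 5035948707) (nat_lit 152) (nat_lit 47089351107) (nat_lit 6) (nat_lit 5) (nat_lit 7) (nat_lit 5) (nat_lit 8) (nat_lit 4) (nat_lit 321) (nat_lit 233) (nat_lit 166)))))) (XT.nd (nat_lit 390) (nat_lit 76) (nat_lit 0) (XT.nd (nat_lit 156) (nat_lit 76) (nat_lit 0) (XT.nd (nat_lit 78) (nat_lit 0) (nat_lit 0) (XT.lf (nat_lit 0) (nat_lit 31175814707) (nat_lit 152) (nat_lit 40979223577) (nat_lit 0) (nat_lit 2245965682) (nat_lit 6) (nat_lit 5) (nat_lit 8) (nat_lit 4) (nat_lit 6) (nat_lit 4) (nat_lit 322) (nat_lit 233) (nat_lit 165)) (XT.lf (nat_lit 0) (nat_lit 38750912108) (nat_lit 152) (nat_lit 29371786706) (nat_lit 0) (nat_lit 9769268617) (nat_lit 6) (nat_lit 5) (nat_lit 8) (nat_lit 4) (nat_lit 6) (nat_lit 4) (nat_lit 323)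 (nat_lit 233) (nat_lit 164))) (XT.nd (nat_lit 78) (nat_lit 76) (nat_lit 0) (XT.lf (nat_lit 0) (nat_lit 46681113775) (nat_lit 152) (nat_lit 17226943829) (nat_lit 0) (nat_lit 17650142220) (nat_lit 6) (nat_lit 5) (nat_lit 8) (nat_lit 4) (nat_lit 6) (nat_lit 4) (nat_lit 324) (nat_lit 233) (nat_lit 163)) (XT.nd (nat_lit 78) (nat_lit 76) (nat_lit 0) (XT.lf (nat_lit 0) (nat_lit 54985301139) (nat_lit 152) (nat_lit 4515778653) (nat_lit 0) (nat_lit 25907350476) (nat_lit 6) (nat_lit 5) (nat_lit 8) (nat_lit 4) (nat_lit 6) (nat_lit 4) (nat_lit 325) (nat_lit 233) (nat_lit 162)) (XT.lf (nat_lit 0) (nat_lit 8966951012) (nat_lit 76) (nat_lit 54802490882) (nat_lit 76) (nat_lit 25679798212) (nat_lit 5) (nat_lit 4) (nat_lit 6) (nat_lit 5) (nat_lit 6) (nat_lit 4) (nat_lit 326) (nat_lit 233) (nat_lit 161))))) (XT.nd (nat_lit 234) (nat_lit 76) (nat_lit 0) (XT.nd (nat_lit 78) (nat_lit 0) (nat_lit 0) (XT.lf (nat_lit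 0) (nat_lit 23180329477) (nat_lit 76) (nat_lit 49838152008) (nat_lit 76) (nat_lit 20672847902) (nat_lit 5) (nat_lit 4) (nat_lit 6) (nat_lit 5) (nat_lit 6) (nat_lit 4) (nat_lit 327) (nat_lit 233) (nat_lit 160)) (XT.nd (nat_lit 78) (nat_lit 0) (nat_lit 0) (XT.lf (nat_lit 0) (nat_lit 38068325268) (nat_lit 76) (nat_lit 44641843826) (nat_lit 76) (nat_lit 15435957400) (nat_lit 5) (nat_lit 4) (nat_lit 6) (nat_lit 5) (nat_lit 6) (nat_lit 4) (nat_lit 328) (nat_lit 233) (nat_lit 159)) (XT.lf (nat_lit 0) (nat_lit 53666385995) (nat_lit 76) (nat_lit 39201194173) (nat_lit 76) (nat_lit 9956657920) (nat_lit 5) (nat_lit 4) (nat_lit 6) (nat_lit 5) (nat_lit 6) (nat_lit 4) (nat_lit 329) (nat_lit 233) (nat_lit 158)))) (XT.nd (nat_lit 78) (nat_lit 76) (nat_lit 0) (XT.lf (nat_lit 0) (nat_lit 70011649897) (nat_lit 76) (nat_lit 33503249123) (nat_lit 76) (nat_lit 4221903509) (nat_lit 5) (nat_lit 4) (nat_lit 6) (nat_lit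 5) (nat_lit 6) (nat_lit 4) (nat_lit 330) (nat_lit 233) (nat_lit 157)) (XT.nd (nat_lit 78) (nat_lit 0) (nat_lit 0) (XT.lf (nat_lit 0) (nat_lit 1747187549) (nat_lit 152) (nat_lit 25769611421) (nat_lit 76) (nat_lit 85378203552) (nat_lit 4) (nat_lit 5) (nat_lit 6) (nat_lit 5) (nat_lit 5) (nat_lit 4) (nat_lit 331) (nat_lit 233) (nat_lit 156)) (XT.lf (nat_lit 0) (nat_lit 7911767851) (nat_lit 152) (nat_lit 13288900582) (nat_lit 76) (nat_lit 97109666929) (nat_lit 4) (nat_lit 5) (nat_lit 6) (nat_lit 5) (nat_lit 5) (nat_lit 4) (nat_lit 332) (nat_lit 233) (nat_lit 155))))))))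
noncomputable def xc38 : XT := (XT.nd (nat_lit 32760) (nat_lit 0) (nat_lit 1520) (XT.nd (nat_lit 31902) (nat_lit 0) (nat_lit 5244) (XT.nd (nat_lit 31434) (nat_lit 0) (nat_lit 9728) (XT.nd (nat_lit 31200) (nat_lit 0) (nat_lit 14440) (XT.nd (nat_lit 31122) (nat_lit 0) (nat_lit 17328) (XT.lf (nat_lit 0) (nat_lit 13758540920) (nat_lit 76) (nat_lit 7507671248) (nat_lit 152) (nat_lit 108698092688) (nat_lit 3) (nat_lit 5) (nat_lit 4) (nat_lit 5) (nat_lit 5) (nat_lit 4) (nat_lit 334) (nat_lit 233) (nat_lit 153)) (XT.lf (nat_lit 0) (nat_lit 1147714825) (nat_lit 836) (nat_lit 1153302215) (nat_lit 0) (nat_lit 1147714825) (nat_lit 231) (nat_lit 5) (nat_lit 242) (nat_lit 4) (nat_lit 231) (nat_lit 4) (nat_lit 252) (nat_lit 234) (nat_lit 234))) (XT.nd (nat_lit 78) (nat_lit 1976) (nat_lit 0) (XT.lf (nat_lit 0) (nat_lit 381310524) (nat_lit 912) (nat_lit 2188049529) (nat_lit 76) (nat_lit 4410395628) (nat_lit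 219) (nat_lit 5) (nat_lit 231) (nat_lit 5) (nat_lit 220) (nat_lit 4) (nat_lit 253) (nat_lit 234) (nat_lit 233)) (XT.nd (nat_lit 78) (nat_lit 1064) (nat_lit 0) (XT.lf (nat_lit 0) (nat_lit 5044887942) (nat_lit 912) (nat_lit 289129238) (nat_lit 988) (nat_lit 1736940805) (nat_lit 207) (nat_lit 5) (nat_lit 219) (nat_lit 5) (nat_lit 220) (nat_lit 4) (nat_lit 254) (nat_lit 234) (nat_lit 232)) (XT.lf (nat_lit 0) (nat_lit 3146703516) (nat_lit 1064) (nat_lit 1835384023) (nat_lit 76) (nat_lit 2188895171) (nat_lit 193) (nat_lit 5) (nat_lit 207) (nat_lit 5) (nat_lit 194) (nat_lit 4) (nat_lit 255) (nat_lit 234) (nat_lit 231))))) (XT.nd (nat_lit 234) (nat_lit 1824) (nat_lit 0) (XT.nd (nat_lit 78) (nat_lit 1748) (nat_lit 0) (XT.lf (nat_lit 0) (nat_lit 780149647) (nat_lit 1140) (nat_lit 1600542296) (nat_lit 76) (nat_lit 4899981576) (nat_lit 178) (nat_lit 5) (nat_lit 193) (nat_lit 5) (nat_lit 179) (nat_lit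 5) (nat_lit 256) (nat_lit 234) (nat_lit 230)) (XT.nd (nat_lit 78) (nat_lit 608) (nat_lit 0) (XT.lf (nat_lit 0) (nat_lit 5589679569) (nat_lit 1216) (nat_lit 1345574626) (nat_lit 76) (nat_lit 464464082) (nat_lit 163) (nat_lit 5) (nat_lit 179) (nat_lit 5) (nat_lit 164) (nat_lit 4) (nat_lit 257) (nat_lit 234) (nat_lit 229)) (XT.lf (nat_lit 0) (nat_lit 2929793989) (nat_lit 608) (nat_lit 1088414706) (nat_lit 76) (nat_lit 3509809757) (nat_lit 155) (nat_lit 5) (nat_lit 163) (nat_lit 5) (nat_lit 156) (nat_lit 5) (nat_lit 258) (nat_lit 234) (nat_lit 228)))) (XT.nd (nat_lit 78) (nat_lit 1140) (nat_lit 0) (XT.lf (nat_lit 0) (nat_lit 61846788) (nat_lit 684) (nat_lit 803825511) (nat_lit 76) (nat_lit 6801131373) (nat_lit 146) (nat_lit 5) (nat_lit 155) (nat_lit 5) (nat_lit 147) (nat_lit 5) (nat_lit 259) (nat_lit 234) (nat_lit 227)) (XT.nd (nat_lit 78) (nat_lit 608) (nat_lit 0) (XT.lf (nat_lit 0) (nat_lit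 4752877654) (nat_lit 608) (nat_lit 551729369) (nat_lit 76) (nat_lit 2510177311) (nat_lit 139) (nat_lit 5) (nat_lit 147) (nat_lit 5) (nat_lit 140) (nat_lit 5) (nat_lit 260) (nat_lit 234) (nat_lit 226)) (XT.lf (nat_lit 0) (nat_lit 1558523252) (nat_lit 608) (nat_lit 297452139) (nat_lit 76) (nat_lit 6117571584) (nat_lit 131) (nat_lit 5) (nat_lit 139) (nat_lit 5) (nat_lit 132) (nat_lit 5) (nat_lit 261) (nat_lit 234) (nat_lit 225)))))) (XT.nd (nat_lit 390) (nat_lit 1824) (nat_lit 0) (XT.nd (nat_lit 156) (nat_lit 1292) (nat_lit 0) (XT.nd (nat_lit 78) (nat_lit 912) (nat_lit 0) (XT.lf (nat_lit 0) (nat_lit 6247931708) (nat_lit 532) (nat_lit 74828449) (nat_lit 76) (nat_lit 1819903894) (nat_lit 125) (nat_lit 5) (nat_lit 132) (nat_lit 5) (nat_lit 126) (nat_lit 5) (nat_lit 262) (nat_lit 234) (nat_lit 224)) (XT.lf (nat_lit 0) (nat_lit 109309125) (nat_lit 380) (nat_lit 2596104711) (nat_lit 456) (nat_lit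 5617053062) (nat_lit 113) (nat_lit 5) (nat_lit 118) (nat_lit 5) (nat_lit 119) (nat_lit 5) (nat_lit 263) (nat_lit 234) (nat_lit 223))) (XT.nd (nat_lit 78) (nat_lit 836) (nat_lit 0) (XT.lf (nat_lit 0) (nat_lit 254979477) (nat_lit 456) (nat_lit 7152017016) (nat_lit 532) (nat_lit 1106702900) (nat_lit 107) (nat_lit 5) (nat_lit 113) (nat_lit 5) (nat_lit 114) (nat_lit 5) (nat_lit 264) (nat_lit 234) (nat_lit 222)) (XT.nd (nat_lit 78) (nat_lit 380) (nat_lit 0) (XT.lf (nat_lit 0) (nat_lit 318755059) (nat_lit 380) (nat_lit 3167940985) (nat_lit 456) (nat_lit 5229196996) (nat_lit 101) (nat_lit 5) (nat_lit 106) (nat_lit 5) (nat_lit 107) (nat_lit 5) (nat_lit 265) (nat_lit 234) (nat_lit 221)) (XT.lf (nat_lit 0) (nat_lit 326309697) (nat_lit 380) (nat_lit 7879502697) (nat_lit 456) (nat_lit 724769637) (nat_lit 96) (nat_lit 5) (nat_lit 101) (nat_lit 5) (nat_lit 102) (nat_lit 5) (nat_lit 266) (nat_lit 234) (nat_lit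 220))))) (XT.nd (nat_lit 234) (nat_lit 988) (nat_lit 0) (XT.nd (nat_lit 78) (nat_lit 456) (nat_lit 0) (XT.lf (nat_lit 0) (nat_lit 213348056) (nat_lit 304) (nat_lit 3659112006) (nat_lit 380) (nat_lit 5284279744) (nat_lit 91) (nat_lit 5) (nat_lit 95) (nat_lit 5) (nat_lit 96) (nat_lit 5) (nat_lit 267) (nat_lit 234) (nat_lit 219)) (XT.nd (nat_lit 78) (nat_lit 76) (nat_lit 0) (XT.lf (nat_lit 0) (nat_lit 19068452) (nat_lit 380) (nat_lit 8592839692) (nat_lit 456) (nat_lit 784510395) (nat_lit 86) (nat_lit 5) (nat_lit 91) (nat_lit 5) (nat_lit 92) (nat_lit 5) (nat_lit 268) (nat_lit 234) (nat_lit 218)) (XT.lf (nat_lit 0) (nat_lit 3827541738) (nat_lit 456) (nat_lit 327345663) (nat_lit 76) (nat_lit 5493362036) (nat_lit 85) (nat_lit 5) (nat_lit 91) (nat_lit 5) (nat_lit 86) (nat_lit 5) (nat_lit 269) (nat_lit 234) (nat_lit 217)))) (XT.nd (nat_lit 78) (nat_lit 684) (nat_lit 0) (XT.lf (nat_lit 0) (nat_lit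 8589361544) (nat_lit 380) (nat_lit 786807282) (nat_lit 76) (nat_lit 538427373) (nat_lit 81) (nat_lit 5) (nat_lit 86) (nat_lit 5) (nat_lit 82) (nat_lit 5) (nat_lit 270) (nat_lit 234) (nat_lit 216)) (XT.nd (nat_lit 78) (nat_lit 304) (nat_lit 0) (XT.lf (nat_lit 0) (nat_lit 3305323371) (nat_lit 380) (nat_lit 1440110532) (nat_lit 76) (nat_lit 5448753071) (nat_lit 76) (nat_lit 5) (nat_lit 81) (nat_lit 5) (nat_lit 77) (nat_lit 5) (nat_lit 271) (nat_lit 234) (nat_lit 215)) (XT.lf (nat_lit 0) (nat_lit 8080050471) (nat_lit 380) (nat_lit 2250222185) (nat_lit 76) (nat_lit 159082417) (nat_lit 72) (nat_lit 5) (nat_lit 77) (nat_lit 5) (nat_lit 73) (nat_lit 5) (nat_lit 272) (nat_lit 234) (nat_lit 214))))))) (XT.nd (nat_lit 858) (nat_lit 1216) (nat_lit 0) (XT.nd (nat_lit 390) (nat_lit 1064) (nat_lit 0) (XT.nd (nat_lit 156) (nat_lit 836) (nat_lit 0) (XT.nd (nat_lit 78) (nat_lit 228) (nat_lit 0) (XT.lf (nat_lit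 0) (nat_lit 2239863704) (nat_lit 380) (nat_lit 3294819583) (nat_lit 76) (nat_lit 5264403031) (nat_lit 67) (nat_lit 5) (nat_lit 72) (nat_lit 5) (nat_lit 68) (nat_lit 5) (nat_lit 273) (nat_lit 234) (nat_lit 213)) (XT.lf (nat_lit 0) (nat_lit 6570938856) (nat_lit 228) (nat_lit 446605740) (nat_lit 304) (nat_lit 4107837287) (nat_lit 64) (nat_lit 5) (nat_lit 67) (nat_lit 5) (nat_lit 68) (nat_lit 5) (nat_lit 274) (nat_lit 234) (nat_lit 212))) (XT.nd (nat_lit 78) (nat_lit 456) (nat_lit 0) (XT.lf (nat_lit 0) (nat_lit 551102247) (nat_lit 380) (nat_lit 6084535825) (nat_lit 76) (nat_lit 4832466999) (nat_lit 59) (nat_lit 5) (nat_lit 64) (nat_lit 5) (nat_lit 60) (nat_lit 5) (nat_lit 275) (nat_lit 234) (nat_lit 211)) (XT.nd (nat_lit 78) (nat_lit 228) (nat_lit 0) (XT.lf (nat_lit 0) (nat_lit 3919595617) (nat_lit 228) (nat_lit 1395055137) (nat_lit 304) (nat_lit 6513544544) (nat_lit 56) (nat_lit 5) (nat_lit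 59) (nat_lit 5) (nat_lit 60) (nat_lit 5) (nat_lit 276) (nat_lit 234) (nat_lit 210)) (XT.lf (nat_lit 0) (nat_lit 2153277790) (nat_lit 228) (nat_lit 8156751660) (nat_lit 304) (nat_lit 1896593462) (nat_lit 53) (nat_lit 5) (nat_lit 56) (nat_lit 5) (nat_lit 57) (nat_lit 5) (nat_lit 277) (nat_lit 234) (nat_lit 209))))) (XT.nd (nat_lit 234) (nat_lit 532) (nat_lit 0) (XT.nd (nat_lit 78) (nat_lit 228) (nat_lit 0) (XT.lf (nat_lit 0) (nat_lit 47288989) (nat_lit 228) (nat_lit 2816277328) (nat_lit 304) (nat_lit 9740587753) (nat_lit 49) (nat_lit 5) (nat_lit 52) (nat_lit 5) (nat_lit 53) (nat_lit 5) (nat_lit 278) (nat_lit 234) (nat_lit 208)) (XT.nd (nat_lit 78) (nat_lit 228) (nat_lit 0) (XT.lf (nat_lit 0) (nat_lit 7831040777) (nat_lit 304) (nat_lit 2392449875) (nat_lit 76) (nat_lit 2797377305) (nat_lit 49) (nat_lit 5) (nat_lit 53) (nat_lit 5) (nat_lit 50) (nat_lit 5) (nat_lit 279) (nat_lit 234) (nat_lit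 207)) (XT.lf (nat_lit 0) (nat_lit 8231399649) (nat_lit 228) (nat_lit 4805726245) (nat_lit 304) (nat_lit 421704013) (nat_lit 46) (nat_lit 5) (nat_lit 49) (nat_lit 5) (nat_lit 50) (nat_lit 5) (nat_lit 280) (nat_lit 234) (nat_lit 206)))) (XT.nd (nat_lit 78) (nat_lit 304) (nat_lit 0) (XT.lf (nat_lit 0) (nat_lit 4466573684) (nat_lit 228) (nat_lit 8526306746) (nat_lit 76) (nat_lit 925461387) (nat_lit 43) (nat_lit 5) (nat_lit 46) (nat_lit 5) (nat_lit 44) (nat_lit 5) (nat_lit 281) (nat_lit 234) (nat_lit 205)) (XT.nd (nat_lit 78) (nat_lit 76) (nat_lit 0) (XT.lf (nat_lit 0) (nat_lit 2063554847) (nat_lit 228) (nat_lit 7538302073) (nat_lit 304) (nat_lit 4798612962) (nat_lit 40) (nat_lit 5) (nat_lit 43) (nat_lit 5) (nat_lit 44) (nat_lit 5) (nat_lit 282) (nat_lit 234) (nat_lit 204)) (XT.lf (nat_lit 0) (nat_lit 65183526) (nat_lit 304) (nat_lit 1717831993) (nat_lit 76) (nat_lit 13124370413) (nat_lit 39)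 (nat_lit 5) (nat_lit 43) (nat_lit 5) (nat_lit 40) (nat_lit 5) (nat_lit 283) (nat_lit 234) (nat_lit 203)))))) (XT.nd (nat_lit 390) (nat_lit 532) (nat_lit 0) (XT.nd (nat_lit 156) (nat_lit 380) (nat_lit 0) (XT.nd (nat_lit 78) (nat_lit 152) (nat_lit 0) (XT.lf (nat_lit 0) (nat_lit 5102201389) (nat_lit 228) (nat_lit 6078073599) (nat_lit 76) (nat_lit 4257161890) (nat_lit 37) (nat_lit 5) (nat_lit 40) (nat_lit 5) (nat_lit 38) (nat_lit 5) (nat_lit 284) (nat_lit 234) (nat_lit 202)) (XT.lf (nat_lit 0) (nat_lit 4948557956) (nat_lit 152) (nat_lit 5424996238) (nat_lit 228) (nat_lit 5621049894) (nat_lit 35) (nat_lit 5) (nat_lit 37) (nat_lit 5) (nat_lit 38) (nat_lit 5) (nat_lit 285) (nat_lit 234) (nat_lit 201))) (XT.nd (nat_lit 78) (nat_lit 380) (nat_lit 0) (XT.lf (nat_lit 0) (nat_lit 15879371228) (nat_lit 228) (nat_lit 91238745) (nat_lit 76) (nat_lit 609976826) (nat_lit 35) (nat_lit 5) (nat_lit 38) (nat_lit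 5) (nat_lit 36) (nat_lit 4) (nat_lit 286) (nat_lit 234) (nat_lit 200)) (XT.nd (nat_lit 78) (nat_lit 152) (nat_lit 0) (XT.lf (nat_lit 0) (nat_lit 4449156456) (nat_lit 228) (nat_lit 5810726715) (nat_lit 76) (nat_lit 6932625682) (nat_lit 32) (nat_lit 5) (nat_lit 35) (nat_lit 5) (nat_lit 33) (nat_lit 5) (nat_lit 287) (nat_lit 234) (nat_lit 199)) (XT.lf (nat_lit 0) (nat_lit 5546166681) (nat_lit 152) (nat_lit 4259277108) (nat_lit 228) (nat_lit 8030561976) (nat_lit 30) (nat_lit 5) (nat_lit 32) (nat_lit 5) (nat_lit 33) (nat_lit 5) (nat_lit 288) (nat_lit 234) (nat_lit 198))))) (XT.nd (nat_lit 234) (nat_lit 152) (nat_lit 0) (XT.nd (nat_lit 78) (nat_lit 380) (nat_lit 0) (XT.lf (nat_lit 0) (nat_lit 15420480078) (nat_lit 228) (nat_lit 1085965218) (nat_lit 76) (nat_lit 2005574668) (nat_lit 30) (nat_lit 5) (nat_lit 33) (nat_lit 5) (nat_lit 31) (nat_lit 4) (nat_lit 289) (nat_lit 234) (nat_lit 197)) (XT.nd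 (nat_lit 78) (nat_lit 152) (nat_lit 0) (XT.lf (nat_lit 0) (nat_lit 2115119624) (nat_lit 228) (nat_lit 8537986814) (nat_lit 76) (nat_lit 8566342926) (nat_lit 27) (nat_lit 5) (nat_lit 30) (nat_lit 5) (nat_lit 28) (nat_lit 5) (nat_lit 290) (nat_lit 234) (nat_lit 196)) (XT.lf (nat_lit 0) (nat_lit 2986187077) (nat_lit 152) (nat_lit 4489569305) (nat_lit 228) (nat_lit 12486910178) (nat_lit 25) (nat_lit 5) (nat_lit 27) (nat_lit 5) (nat_lit 28) (nat_lit 5) (nat_lit 291) (nat_lit 234) (nat_lit 195)))) (XT.nd (nat_lit 78) (nat_lit 152) (nat_lit 0) (XT.lf (nat_lit 0) (nat_lit 13131365659) (nat_lit 228) (nat_lit 5632120325) (nat_lit 76) (nat_lit 1978809520) (nat_lit 25) (nat_lit 5) (nat_lit 28) (nat_lit 5) (nat_lit 26) (nat_lit 4) (nat_lit 292) (nat_lit 234) (nat_lit 194)) (XT.nd (nat_lit 78) (nat_lit 76) (nat_lit 0) (XT.lf (nat_lit 0) (nat_lit 6225357704) (nat_lit 76) (nat_lit 12872530948) (nat_lit 152)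 (nat_lit 2462229541) (nat_lit 24) (nat_lit 5) (nat_lit 25) (nat_lit 5) (nat_lit 26) (nat_lit 4) (nat_lit 293) (nat_lit 234) (nat_lit 193)) (XT.lf (nat_lit 0) (nat_lit 2869648893) (nat_lit 152) (nat_lit 3780642810) (nat_lit 76) (nat_lit 15768247729) (nat_lit 23) (nat_lit 5) (nat_lit 25) (nat_lit 5) (nat_lit 24) (nat_lit 5) (nat_lit 294) (nat_lit 234) (nat_lit 192))))))))
noncomputable def xc39 : XT := (XT.nd (nat_lit 1716) (nat_lit 304) (nat_lit 0) (XT.nd (nat_lit 858) (nat_lit 380) (nat_lit 0) (XT.nd (nat_lit 390) (nat_lit 304) (nat_lit 0) (XT.nd (nat_lit 156) (nat_lit 304) (nat_lit 0) (XT.nd (nat_lit 78) (nat_lit 0) (nat_lit 0) (XT.lf (nat_lit 0) (nat_lit 8367628735) (nat_lit 152) (nat_lit 58704225) (nat_lit 228) (nat_lit 14892592958) (nat_lit 21) (nat_lit 5) (nat_lit 23) (nat_lit 5) (nat_lit 24) (nat_lit 5) (nat_lit 295) (nat_lit 234) (nat_lit 191)) (XT.lf (nat_lit 0) (nat_lit 14296155297)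 (nat_lit 228) (nat_lit 3247344756) (nat_lit 76) (nat_lit 6719819768) (nat_lit 21) (nat_lit 5) (nat_lit 24) (nat_lit 5) (nat_lit 22) (nat_lit 4) (nat_lit 296) (nat_lit 234) (nat_lit 190))) (XT.nd (nat_lit 78) (nat_lit 228) (nat_lit 0) (XT.lf (nat_lit 0) (nat_lit 9104447404) (nat_lit 76) (nat_lit 11376497250) (nat_lit 152) (nat_lit 4773389452) (nat_lit 20) (nat_lit 5) (nat_lit 21) (nat_lit 5) (nat_lit 22) (nat_lit 4) (nat_lit 297) (nat_lit 234) (nat_lit 189)) (XT.nd (nat_lit 78) (nat_lit 152) (nat_lit 0) (XT.lf (nat_lit 0) (nat_lit 635352824) (nat_lit 152) (nat_lit 4271560719) (nat_lit 76) (nat_lit 21388774548) (nat_lit 19) (nat_lit 5) (nat_lit 21) (nat_lit 5) (nat_lit 20) (nat_lit 5) (nat_lit 298) (nat_lit 234) (nat_lit 188)) (XT.lf (nat_lit 0) (nat_lit 6252455985) (nat_lit 228) (nat_lit 19200664451) (nat_lit 76) (nat_lit 1933511751) (nat_lit 17) (nat_lit 5) (nat_lit 20) (nat_lit 5) (nat_lit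 18) (nat_lit 4) (nat_lit 299) (nat_lit 234) (nat_lit 187))))) (XT.nd (nat_lit 234) (nat_lit 228) (nat_lit 0) (XT.nd (nat_lit 78) (nat_lit 76) (nat_lit 0) (XT.lf (nat_lit 0) (nat_lit 12183778197) (nat_lit 228) (nat_lit 7330608810) (nat_lit 76) (nat_lit 9016773278) (nat_lit 17) (nat_lit 5) (nat_lit 20) (nat_lit 5) (nat_lit 18) (nat_lit 4) (nat_lit 300) (nat_lit 234) (nat_lit 186)) (XT.nd (nat_lit 78) (nat_lit 0) (nat_lit 0) (XT.lf (nat_lit 0) (nat_lit 5132650765) (nat_lit 76) (nat_lit 13270668132) (nat_lit 152) (nat_lit 11329882234) (nat_lit 16) (nat_lit 5) (nat_lit 17) (nat_lit 5) (nat_lit 18) (nat_lit 4) (nat_lit 301) (nat_lit 234) (nat_lit 185)) (XT.lf (nat_lit 0) (nat_lit 18274685666) (nat_lit 76) (nat_lit 6678736301) (nat_lit 152) (nat_lit 6041368697) (nat_lit 16) (nat_lit 5) (nat_lit 17) (nat_lit 5) (nat_lit 18) (nat_lit 4) (nat_lit 302) (nat_lit 234) (nat_lit 184)))) (XT.nd (nat_lit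 78) (nat_lit 228) (nat_lit 0) (XT.lf (nat_lit 0) (nat_lit 31779766292) (nat_lit 152) (nat_lit 342147887) (nat_lit 0) (nat_lit 199115988) (nat_lit 16) (nat_lit 5) (nat_lit 18) (nat_lit 4) (nat_lit 16) (nat_lit 4) (nat_lit 303) (nat_lit 234) (nat_lit 183)) (XT.nd (nat_lit 78) (nat_lit 0) (nat_lit 0) (XT.lf (nat_lit 0) (nat_lit 5271949879) (nat_lit 228) (nat_lit 21014799987) (nat_lit 76) (nat_lit 7421145527) (nat_lit 13) (nat_lit 5) (nat_lit 16) (nat_lit 5) (nat_lit 14) (nat_lit 4) (nat_lit 304) (nat_lit 234) (nat_lit 182)) (XT.lf (nat_lit 0) (nat_lit 11318320387) (nat_lit 228) (nat_lit 8870389701) (nat_lit 76) (nat_lit 14976651000) (nat_lit 13) (nat_lit 5) (nat_lit 16) (nat_lit 5) (nat_lit 14) (nat_lit 4) (nat_lit 305) (nat_lit 234) (nat_lit 181)))))) (XT.nd (nat_lit 390) (nat_lit 152) (nat_lit 0) (XT.nd (nat_lit 156) (nat_lit 152) (nat_lit 0) (XT.nd (nat_lit 78) (nat_lit 0) (nat_lit 0) (XT.lf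 (nat_lit 0) (nat_lit 3872867789) (nat_lit 76) (nat_lit 13783778759) (nat_lit 152) (nat_lit 19039391729) (nat_lit 12) (nat_lit 5) (nat_lit 13) (nat_lit 5) (nat_lit 14) (nat_lit 4) (nat_lit 306) (nat_lit 234) (nat_lit 180)) (XT.lf (nat_lit 0) (nat_lit 17357112621) (nat_lit 76) (nat_lit 6999980414) (nat_lit 152) (nat_lit 13944826187) (nat_lit 12) (nat_lit 5) (nat_lit 13) (nat_lit 5) (nat_lit 14) (nat_lit 4) (nat_lit 307) (nat_lit 234) (nat_lit 179))) (XT.nd (nat_lit 78) (nat_lit 152) (nat_lit 0) (XT.lf (nat_lit 0) (nat_lit 31349506745) (nat_lit 152) (nat_lit 8552382453) (nat_lit 0) (nat_lit 87521453) (nat_lit 12) (nat_lit 5) (nat_lit 14) (nat_lit 4) (nat_lit 12) (nat_lit 4) (nat_lit 308) (nat_lit 234) (nat_lit 178)) (XT.nd (nat_lit 78) (nat_lit 76) (nat_lit 0) (XT.lf (nat_lit 0) (nat_lit 4399940028) (nat_lit 76) (nat_lit 34362417542) (nat_lit 76) (nat_lit 2996818188) (nat_lit 11) (nat_lit 4)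 (nat_lit 12) (nat_lit 5) (nat_lit 12) (nat_lit 4) (nat_lit 309) (nat_lit 234) (nat_lit 177)) (XT.lf (nat_lit 0) (nat_lit 2918938063) (nat_lit 152) (nat_lit 25538835145) (nat_lit 76) (nat_lit 15157403433) (nat_lit 10) (nat_lit 5) (nat_lit 12) (nat_lit 5) (nat_lit 11) (nat_lit 4) (nat_lit 310) (nat_lit 234) (nat_lit 176))))) (XT.nd (nat_lit 234) (nat_lit 76) (nat_lit 0) (XT.nd (nat_lit 78) (nat_lit 76) (nat_lit 0) (XT.lf (nat_lit 0) (nat_lit 9029793186) (nat_lit 152) (nat_lit 13227780253) (nat_lit 76) (nat_lit 23306696072) (nat_lit 10) (nat_lit 5) (nat_lit 12) (nat_lit 5) (nat_lit 11) (nat_lit 4) (nat_lit 311) (nat_lit 234) (nat_lit 175)) (XT.nd (nat_lit 78) (nat_lit 76) (nat_lit 0) (XT.lf (nat_lit 0) (nat_lit 15408775553) (nat_lit 152) (nat_lit 367951771) (nat_lit 76) (nat_lit 31835231960) (nat_lit 10) (nat_lit 5) (nat_lit 12) (nat_lit 5) (nat_lit 11) (nat_lit 4) (nat_lit 312) (nat_lit 234)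 (nat_lit 174)) (XT.lf (nat_lit 0) (nat_lit 13331412822) (nat_lit 76) (nat_lit 8867810089) (nat_lit 152) (nat_lit 27560054008) (nat_lit 9) (nat_lit 5) (nat_lit 10) (nat_lit 5) (nat_lit 11) (nat_lit 4) (nat_lit 313) (nat_lit 234) (nat_lit 173)))) (XT.nd (nat_lit 78) (nat_lit 76) (nat_lit 0) (XT.lf (nat_lit 0) (nat_lit 27661658621) (nat_lit 76) (nat_lit 1636790955) (nat_lit 152) (nat_lit 22716451108) (nat_lit 9) (nat_lit 5) (nat_lit 10) (nat_lit 5) (nat_lit 11) (nat_lit 4) (nat_lit 314) (nat_lit 234) (nat_lit 172)) (XT.nd (nat_lit 78) (nat_lit 76) (nat_lit 0) (XT.lf (nat_lit 0) (nat_lit 36776752259) (nat_lit 152) (nat_lit 11791728199) (nat_lit 0) (nat_lit 5814118835) (nat_lit 9) (nat_lit 5) (nat_lit 11) (nat_lit 4) (nat_lit 9) (nat_lit 4) (nat_lit 315) (nat_lit 234) (nat_lit 171)) (XT.lf (nat_lit 0) (nat_lit 1350951637) (nat_lit 76) (nat_lit 43275967134) (nat_lit 76) (nat_lit 12241841885) (nat_lit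 8) (nat_lit 4) (nat_lit 9) (nat_lit 5) (nat_lit 9) (nat_lit 4) (nat_lit 316) (nat_lit 234) (nat_lit 170))))))) (XT.nd (nat_lit 858) (nat_lit 76) (nat_lit 0) (XT.nd (nat_lit 390) (nat_lit 76) (nat_lit 0) (XT.nd (nat_lit 156) (nat_lit 152) (nat_lit 0) (XT.nd (nat_lit 78) (nat_lit 0) (nat_lit 0) (XT.lf (nat_lit 0) (nat_lit 15342053540) (nat_lit 76) (nat_lit 37618340374) (nat_lit 76) (nat_lit 6516127673) (nat_lit 8) (nat_lit 4) (nat_lit 9) (nat_lit 5) (nat_lit 9) (nat_lit 4) (nat_lit 317) (nat_lit 234) (nat_lit 169)) (XT.lf (nat_lit 0) (nat_lit 29980211142) (nat_lit 76) (nat_lit 31701202973) (nat_lit 76) (nat_lit 534145080) (nat_lit 8) (nat_lit 4) (nat_lit 9) (nat_lit 5) (nat_lit 9) (nat_lit 4) (nat_lit 318) (nat_lit 234) (nat_lit 168))) (XT.nd (nat_lit 78) (nat_lit 76) (nat_lit 0) (XT.lf (nat_lit 0) (nat_lit 5606763129) (nat_lit 152) (nat_lit 19847086066) (nat_lit 76) (nat_lit 39636896758) (nat_lit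 7) (nat_lit 5) (nat_lit 9) (nat_lit 5) (nat_lit 8) (nat_lit 4) (nat_lit 319) (nat_lit 234) (nat_lit 167)) (XT.nd (nat_lit 78) (nat_lit 76) (nat_lit 0) (XT.lf (nat_lit 0) (nat_lit 12017077188) (nat_lit 152) (nat_lit 6892965028) (nat_lit 76) (nat_lit 49200301960) (nat_lit 7) (nat_lit 5) (nat_lit 9) (nat_lit 5) (nat_lit 8) (nat_lit 4) (nat_lit 320) (nat_lit 234) (nat_lit 166)) (XT.lf (nat_lit 0) (nat_lit 6795599352) (nat_lit 76) (nat_lit 11992206947) (nat_lit 152) (nat_lit 52491931418) (nat_lit 6) (nat_lit 5) (nat_lit 7) (nat_lit 5) (nat_lit 8) (nat_lit 4) (nat_lit 321) (nat_lit 234) (nat_lit 165))))) (XT.nd (nat_lit 234) (nat_lit 76) (nat_lit 0) (XT.nd (nat_lit 78) (nat_lit 0) (nat_lit 0) (XT.lf (nat_lit 0) (nat_lit 21268080155) (nat_lit 76) (nat_lit 4675306983) (nat_lit 152) (nat_lit 48662836138) (nat_lit 6) (nat_lit 5) (nat_lit 7) (nat_lit 5) (nat_lit 8) (nat_lit 4) (nat_lit 322) (nat_lit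 234) (nat_lit 164)) (XT.nd (nat_lit 78) (nat_lit 0) (nat_lit 0) (XT.lf (nat_lit 0) (nat_lit 33462005748) (nat_lit 152) (nat_lit 41706723285) (nat_lit 0) (nat_lit 2930157552) (nat_lit 6) (nat_lit 5) (nat_lit 8) (nat_lit 4) (nat_lit 6) (nat_lit 4) (nat_lit 323) (nat_lit 234) (nat_lit 163)) (XT.lf (nat_lit 0) (nat_lit 41381219909) (nat_lit 152) (nat_lit 29581841308) (nat_lit 0) (nat_lit 10802392606) (nat_lit 6) (nat_lit 5) (nat_lit 8) (nat_lit 4) (nat_lit 6) (nat_lit 4) (nat_lit 324) (nat_lit 234) (nat_lit 162)))) (XT.nd (nat_lit 78) (nat_lit 76) (nat_lit 0) (XT.lf (nat_lit 0) (nat_lit 49674942983) (nat_lit 152) (nat_lit 16889686512) (nat_lit 0) (nat_lit 19051373672) (nat_lit 6) (nat_lit 5) (nat_lit 8) (nat_lit 4) (nat_lit 6) (nat_lit 4) (nat_lit 325) (nat_lit 234) (nat_lit 161)) (XT.nd (nat_lit 78) (nat_lit 76) (nat_lit 0) (XT.lf (nat_lit 0) (nat_lit 58362921929) (nat_lit 152) (nat_lit 3600039483)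 (nat_lit 0) (nat_lit 27696741182) (nat_lit 6) (nat_lit 5) (nat_lit 8) (nat_lit 4) (nat_lit 6) (nat_lit 4) (nat_lit 326) (nat_lit 234) (nat_lit 160)) (XT.lf (nat_lit 0) (nat_lit 10524104992) (nat_lit 76) (nat_lit 57042901553) (nat_lit 76) (nat_lit 26336138487) (nat_lit 5) (nat_lit 4) (nat_lit 6) (nat_lit 5) (nat_lit 6) (nat_lit 4) (nat_lit 327) (nat_lit 234) (nat_lit 159)))))) (XT.nd (nat_lit 31512) (nat_lit 0) (nat_lit 13224) (XT.nd (nat_lit 234) (nat_lit 76) (nat_lit 0) (XT.nd (nat_lit 78) (nat_lit 0) (nat_lit 0) (XT.lf (nat_lit 0) (nat_lit 25395352074) (nat_lit 76) (nat_lit 51854141634) (nat_lit 76) (nat_lit 21108728740) (nat_lit 5) (nat_lit 4) (nat_lit 6) (nat_lit 5) (nat_lit 6) (nat_lit 4) (nat_lit 328) (nat_lit 234) (nat_lit 158)) (XT.nd (nat_lit 78) (nat_lit 0) (nat_lit 0) (XT.lf (nat_lit 0) (nat_lit 40977461649) (nat_lit 76) (nat_lit 46420680804) (nat_lit 76) (nat_lit 15638458549)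 (nat_lit 5) (nat_lit 4) (nat_lit 6) (nat_lit 5) (nat_lit 6) (nat_lit 4) (nat_lit 329) (nat_lit 234) (nat_lit 157)) (XT.lf (nat_lit 0) (nat_lit 57307533978) (nat_lit 76) (nat_lit 40729582250) (nat_lit 76) (nat_lit 9912303462) (nat_lit 5) (nat_lit 4) (nat_lit 6) (nat_lit 5) (nat_lit 6) (nat_lit 4) (nat_lit 330) (nat_lit 234) (nat_lit 156)))) (XT.nd (nat_lit 78) (nat_lit 76) (nat_lit 0) (XT.lf (nat_lit 0) (nat_lit 74424450186) (nat_lit 76) (nat_lit 34767295740) (nat_lit 76) (nat_lit 3916629777) (nat_lit 5) (nat_lit 4) (nat_lit 6) (nat_lit 5) (nat_lit 6) (nat_lit 4) (nat_lit 331) (nat_lit 234) (nat_lit 155)) (XT.nd (nat_lit 31122) (nat_lit 0) (nat_lit 18772) (XT.lf (nat_lit 0) (nat_lit 2316730442) (nat_lit 152) (nat_lit 26179500474) (nat_lit 76) (nat_lit 90028839957) (nat_lit 4) (nat_lit 5) (nat_lit 6) (nat_lit 5) (nat_lit 5) (nat_lit 4) (nat_lit 332) (nat_lit 234) (nat_lit 154)) (XT.lf (nat_lit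 0) (nat_lit 1129323079) (nat_lit 684) (nat_lit 1119344626) (nat_lit 0) (nat_lit 1129323079) (nat_lit 251) (nat_lit 5) (nat_lit 260) (nat_lit 4) (nat_lit 251) (nat_lit 4) (nat_lit 250) (nat_lit 235) (nat_lit 235))))) (XT.nd (nat_lit 234) (nat_lit 3116) (nat_lit 0) (XT.nd (nat_lit 78) (nat_lit 1672) (nat_lit 0) (XT.lf (nat_lit 0) (nat_lit 415218950) (nat_lit 760) (nat_lit 2360627379) (nat_lit 76) (nat_lit 4048540166) (nat_lit 241) (nat_lit 5) (nat_lit 251) (nat_lit 5) (nat_lit 242) (nat_lit 4) (nat_lit 251) (nat_lit 235) (nat_lit 234)) (XT.nd (nat_lit 78) (nat_lit 912) (nat_lit 0) (XT.lf (nat_lit 0) (nat_lit 4472129722) (nat_lit 760) (nat_lit 811921884) (nat_lit 836) (nat_lit 1617389053) (nat_lit 231) (nat_lit 5) (nat_lit 241) (nat_lit 5) (nat_lit 242) (nat_lit 4) (nat_lit 252) (nat_lit 235) (nat_lit 233)) (XT.lf (nat_lit 0) (nat_lit 3172847500) (nat_lit 912) (nat_lit 2452501895) (nat_lit 76)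 (nat_lit 1361872831) (nat_lit 219) (nat_lit 5) (nat_lit 231) (nat_lit 5) (nat_lit 220) (nat_lit 4) (nat_lit 253) (nat_lit 235) (nat_lit 232)))) (XT.nd (nat_lit 78) (nat_lit 2128) (nat_lit 0) (XT.lf (nat_lit 0) (nat_lit 901673719) (nat_lit 988) (nat_lit 2427224677) (nat_lit 76) (nat_lit 3753256233) (nat_lit 206) (nat_lit 5) (nat_lit 219) (nat_lit 5) (nat_lit 207) (nat_lit 5) (nat_lit 254) (nat_lit 235) (nat_lit 231)) (XT.nd (nat_lit 78) (nat_lit 1140) (nat_lit 0) (XT.lf (nat_lit 0) (nat_lit 4820943795) (nat_lit 988) (nat_lit 787285348) (nat_lit 1064) (nat_lit 1578013151) (nat_lit 193) (nat_lit 5) (nat_lit 206) (nat_lit 5) (nat_lit 207) (nat_lit 5) (nat_lit 255) (nat_lit 235) (nat_lit 230)) (XT.lf (nat_lit 0) (nat_lit 3051455300) (nat_lit 1140) (nat_lit 2286014277) (nat_lit 76) (nat_lit 1961822618) (nat_lit 178) (nat_lit 5) (nat_lit 193) (nat_lit 5) (nat_lit 179) (nat_lit 5) (nat_lit 256) (nat_lit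 235) (nat_lit 229))))))))
noncomputable def xc40 : XT := (XT.nd (nat_lit 1716) (nat_lit 2660) (nat_lit 0) (XT.nd (nat_lit 858) (nat_lit 3268) (nat_lit 0) (XT.nd (nat_lit 390) (nat_lit 2736) (nat_lit 0) (XT.nd (nat_lit 156) (nat_lit 1824) (nat_lit 0) (XT.nd (nat_lit 78) (nat_lit 532) (nat_lit 0) (XT.lf (nat_lit 0) (nat_lit 311280472) (nat_lit 1216) (nat_lit 2175984877) (nat_lit 76) (nat_lit 4934854977) (nat_lit 162) (nat_lit 5) (nat_lit 178) (nat_lit 5) (nat_lit 163) (nat_lit 5) (nat_lit 257) (nat_lit 235) (nat_lit 228)) (XT.lf (nat_lit 0) (nat_lit 4876540724) (nat_lit 608) (nat_lit 2064464154) (nat_lit 76) (nat_lit 613289420) (nat_lit 155) (nat_lit 5) (nat_lit 163) (nat_lit 5) (nat_lit 156) (nat_lit 5) (nat_lit 258) (nat_lit 235) (nat_lit 227))) (XT.nd (nat_lit 78) (nat_lit 1140) (nat_lit 0) (XT.lf (nat_lit 0) (nat_lit 1830878516) (nat_lit 684) (nat_lit 1956322608) (nat_lit 76) (nat_lit 3908945253)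 (nat_lit 146) (nat_lit 5) (nat_lit 155) (nat_lit 5) (nat_lit 147) (nat_lit 5) (nat_lit 259) (nat_lit 235) (nat_lit 226)) (XT.nd (nat_lit 78) (nat_lit 608) (nat_lit 0) (XT.lf (nat_lit 0) (nat_lit 6004088486) (nat_lit 532) (nat_lit 381532364) (nat_lit 608) (nat_lit 1462787002) (nat_lit 139) (nat_lit 5) (nat_lit 146) (nat_lit 5) (nat_lit 147) (nat_lit 5) (nat_lit 260) (nat_lit 235) (nat_lit 225)) (XT.lf (nat_lit 0) (nat_lit 3012112255) (nat_lit 608) (nat_lit 1772266551) (nat_lit 76) (nat_lit 3225937996) (nat_lit 131) (nat_lit 5) (nat_lit 139) (nat_lit 5) (nat_lit 132) (nat_lit 5) (nat_lit 261) (nat_lit 235) (nat_lit 224))))) (XT.nd (nat_lit 234) (nat_lit 1368) (nat_lit 0) (XT.nd (nat_lit 78) (nat_lit 912) (nat_lit 0) (XT.lf (nat_lit 0) (nat_lit 6474309442) (nat_lit 456) (nat_lit 1100673853) (nat_lit 532) (nat_lit 608415921) (nat_lit 125) (nat_lit 5) (nat_lit 131) (nat_lit 5) (nat_lit 132) (nat_lit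 5) (nat_lit 262) (nat_lit 235) (nat_lit 223)) (XT.nd (nat_lit 78) (nat_lit 380) (nat_lit 0) (XT.lf (nat_lit 0) (nat_lit 3846854492) (nat_lit 532) (nat_lit 1711872227) (nat_lit 76) (nat_lit 2807854116) (nat_lit 118) (nat_lit 5) (nat_lit 125) (nat_lit 5) (nat_lit 119) (nat_lit 5) (nat_lit 263) (nat_lit 235) (nat_lit 222)) (XT.lf (nat_lit 0) (nat_lit 6815967646) (nat_lit 380) (nat_lit 1611303961) (nat_lit 456) (nat_lit 134325703) (nat_lit 113) (nat_lit 5) (nat_lit 118) (nat_lit 5) (nat_lit 119) (nat_lit 5) (nat_lit 264) (nat_lit 235) (nat_lit 221)))) (XT.nd (nat_lit 78) (nat_lit 836) (nat_lit 0) (XT.lf (nat_lit 0) (nat_lit 4317710771) (nat_lit 532) (nat_lit 1872574904) (nat_lit 76) (nat_lit 2577034291) (nat_lit 106) (nat_lit 5) (nat_lit 113) (nat_lit 5) (nat_lit 107) (nat_lit 5) (nat_lit 265) (nat_lit 235) (nat_lit 220)) (XT.nd (nat_lit 78) (nat_lit 456) (nat_lit 0) (XT.lf (nat_lit 0) (nat_lit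 6928029499) (nat_lit 380) (nat_lit 1993593170) (nat_lit 456) (nat_lit 63973645) (nat_lit 101) (nat_lit 5) (nat_lit 106) (nat_lit 5) (nat_lit 107) (nat_lit 5) (nat_lit 266) (nat_lit 235) (nat_lit 219)) (XT.lf (nat_lit 0) (nat_lit 4397199276) (nat_lit 456) (nat_lit 2363931154) (nat_lit 76) (nat_lit 2454249302) (nat_lit 95) (nat_lit 5) (nat_lit 101) (nat_lit 5) (nat_lit 96) (nat_lit 5) (nat_lit 267) (nat_lit 235) (nat_lit 218)))))) (XT.nd (nat_lit 390) (nat_lit 1520) (nat_lit 0) (XT.nd (nat_lit 156) (nat_lit 988) (nat_lit 0) (XT.nd (nat_lit 78) (nat_lit 456) (nat_lit 0) (XT.lf (nat_lit 0) (nat_lit 6696254558) (nat_lit 304) (nat_lit 2330479235) (nat_lit 380) (nat_lit 431737637) (nat_lit 91) (nat_lit 5) (nat_lit 95) (nat_lit 5) (nat_lit 96) (nat_lit 5) (nat_lit 268) (nat_lit 235) (nat_lit 217)) (XT.lf (nat_lit 0) (nat_lit 4046687889) (nat_lit 456) (nat_lit 3310720966) (nat_lit 76) (nat_lit 2356700870)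 (nat_lit 85) (nat_lit 5) (nat_lit 91) (nat_lit 5) (nat_lit 86) (nat_lit 5) (nat_lit 269) (nat_lit 235) (nat_lit 216))) (XT.nd (nat_lit 78) (nat_lit 684) (nat_lit 0) (XT.lf (nat_lit 0) (nat_lit 5989913140) (nat_lit 304) (nat_lit 2709774632) (nat_lit 380) (nat_lit 1284135072) (nat_lit 81) (nat_lit 5) (nat_lit 85) (nat_lit 5) (nat_lit 86) (nat_lit 5) (nat_lit 270) (nat_lit 235) (nat_lit 215)) (XT.nd (nat_lit 78) (nat_lit 304) (nat_lit 0) (XT.lf (nat_lit 0) (nat_lit 3215058447) (nat_lit 380) (nat_lit 4856486782) (nat_lit 76) (nat_lit 2195867507) (nat_lit 76) (nat_lit 5) (nat_lit 81) (nat_lit 5) (nat_lit 77) (nat_lit 5) (nat_lit 271) (nat_lit 235) (nat_lit 214)) (XT.lf (nat_lit 0) (nat_lit 4658031977) (nat_lit 304) (nat_lit 3226458566) (nat_lit 380) (nat_lit 2681338752) (nat_lit 72) (nat_lit 5) (nat_lit 76) (nat_lit 5) (nat_lit 77) (nat_lit 5) (nat_lit 272) (nat_lit 235) (nat_lit 213))))) (XT.nd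 (nat_lit 234) (nat_lit 608) (nat_lit 0) (XT.nd (nat_lit 78) (nat_lit 532) (nat_lit 0) (XT.lf (nat_lit 0) (nat_lit 1837061713) (nat_lit 380) (nat_lit 7167597174) (nat_lit 76) (nat_lit 1875145247) (nat_lit 67) (nat_lit 5) (nat_lit 72) (nat_lit 5) (nat_lit 68) (nat_lit 5) (nat_lit 273) (nat_lit 235) (nat_lit 212)) (XT.nd (nat_lit 78) (nat_lit 304) (nat_lit 0) (XT.lf (nat_lit 0) (nat_lit 2525074499) (nat_lit 228) (nat_lit 3985207355) (nat_lit 304) (nat_lit 4699030580) (nat_lit 64) (nat_lit 5) (nat_lit 67) (nat_lit 5) (nat_lit 68) (nat_lit 5) (nat_lit 274) (nat_lit 235) (nat_lit 211)) (XT.lf (nat_lit 0) (nat_lit 1116843158) (nat_lit 304) (nat_lit 10267552164) (nat_lit 380) (nat_lit 172037924) (nat_lit 60) (nat_lit 5) (nat_lit 64) (nat_lit 5) (nat_lit 65) (nat_lit 5) (nat_lit 275) (nat_lit 235) (nat_lit 210)))) (XT.nd (nat_lit 78) (nat_lit 532) (nat_lit 0) (XT.lf (nat_lit 0) (nat_lit 4495074065)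 (nat_lit 380) (nat_lit 602069768) (nat_lit 76) (nat_lit 6822492553) (nat_lit 59) (nat_lit 5) (nat_lit 64) (nat_lit 5) (nat_lit 60) (nat_lit 5) (nat_lit 276) (nat_lit 235) (nat_lit 209)) (XT.nd (nat_lit 78) (nat_lit 304) (nat_lit 0) (XT.lf (nat_lit 0) (nat_lit 9367911169) (nat_lit 304) (nat_lit 2569096327) (nat_lit 76) (nat_lit 364798933) (nat_lit 56) (nat_lit 5) (nat_lit 60) (nat_lit 5) (nat_lit 57) (nat_lit 5) (nat_lit 277) (nat_lit 235) (nat_lit 208)) (XT.lf (nat_lit 0) (nat_lit 1761704961) (nat_lit 304) (nat_lit 4902224422) (nat_lit 76) (nat_lit 6038312567) (nat_lit 52) (nat_lit 5) (nat_lit 56) (nat_lit 5) (nat_lit 53) (nat_lit 5) (nat_lit 278) (nat_lit 235) (nat_lit 207))))))) (XT.nd (nat_lit 858) (nat_lit 988) (nat_lit 0) (XT.nd (nat_lit 390) (nat_lit 760) (nat_lit 0) (XT.nd (nat_lit 156) (nat_lit 456) (nat_lit 0) (XT.nd (nat_lit 78) (nat_lit 228) (nat_lit 0) (XT.lf (nat_lit 0) (nat_lit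 5522782645) (nat_lit 228) (nat_lit 1073971397) (nat_lit 304) (nat_lit 6526232837) (nat_lit 49) (nat_lit 5) (nat_lit 52) (nat_lit 5) (nat_lit 53) (nat_lit 5) (nat_lit 279) (nat_lit 235) (nat_lit 206)) (XT.lf (nat_lit 0) (nat_lit 2844775059) (nat_lit 228) (nat_lit 8841459769) (nat_lit 304) (nat_lit 1878267637) (nat_lit 46) (nat_lit 5) (nat_lit 49) (nat_lit 5) (nat_lit 50) (nat_lit 5) (nat_lit 280) (nat_lit 235) (nat_lit 205))) (XT.nd (nat_lit 78) (nat_lit 380) (nat_lit 0) (XT.lf (nat_lit 0) (nat_lit 2924173903) (nat_lit 304) (nat_lit 265098400) (nat_lit 76) (nat_lit 10838641204) (nat_lit 45) (nat_lit 5) (nat_lit 49) (nat_lit 5) (nat_lit 46) (nat_lit 5) (nat_lit 281) (nat_lit 235) (nat_lit 204)) (XT.nd (nat_lit 78) (nat_lit 228) (nat_lit 0) (XT.lf (nat_lit 0) (nat_lit 7954560144) (nat_lit 228) (nat_lit 3799814418) (nat_lit 76) (nat_lit 2758862799) (nat_lit 43) (nat_lit 5) (nat_lit 46) (nat_lit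 5) (nat_lit 44) (nat_lit 5) (nat_lit 282) (nat_lit 235) (nat_lit 203)) (XT.lf (nat_lit 0) (nat_lit 7171836057) (nat_lit 228) (nat_lit 6067423706) (nat_lit 304) (nat_lit 1783579252) (nat_lit 40) (nat_lit 5) (nat_lit 43) (nat_lit 5) (nat_lit 44) (nat_lit 5) (nat_lit 283) (nat_lit 235) (nat_lit 202))))) (XT.nd (nat_lit 234) (nat_lit 380) (nat_lit 0) (XT.nd (nat_lit 78) (nat_lit 152) (nat_lit 0) (XT.lf (nat_lit 0) (nat_lit 3086475245) (nat_lit 152) (nat_lit 51111097) (nat_lit 228) (nat_lit 12420380698) (nat_lit 37) (nat_lit 5) (nat_lit 39) (nat_lit 5) (nat_lit 40) (nat_lit 5) (nat_lit 284) (nat_lit 235) (nat_lit 201)) (XT.nd (nat_lit 78) (nat_lit 152) (nat_lit 0) (XT.lf (nat_lit 0) (nat_lit 8313985160) (nat_lit 228) (nat_lit 1616515384) (nat_lit 76) (nat_lit 6187523320) (nat_lit 37) (nat_lit 5) (nat_lit 40) (nat_lit 5) (nat_lit 38) (nat_lit 5) (nat_lit 285) (nat_lit 235) (nat_lit 200)) (XT.lf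 (nat_lit 0) (nat_lit 9824846741) (nat_lit 152) (nat_lit 3927760321) (nat_lit 228) (nat_lit 2953454407) (nat_lit 35) (nat_lit 5) (nat_lit 37) (nat_lit 5) (nat_lit 38) (nat_lit 5) (nat_lit 286) (nat_lit 235) (nat_lit 199)))) (XT.nd (nat_lit 78) (nat_lit 152) (nat_lit 0) (XT.lf (nat_lit 0) (nat_lit 2091250436) (nat_lit 228) (nat_lit 12876576901) (nat_lit 76) (nat_lit 2355330277) (nat_lit 32) (nat_lit 5) (nat_lit 35) (nat_lit 5) (nat_lit 33) (nat_lit 5) (nat_lit 287) (nat_lit 235) (nat_lit 198)) (XT.nd (nat_lit 78) (nat_lit 152) (nat_lit 0) (XT.lf (nat_lit 0) (nat_lit 7351717045) (nat_lit 228) (nat_lit 1697750783) (nat_lit 76) (nat_lit 8920095700) (nat_lit 32) (nat_lit 5) (nat_lit 35) (nat_lit 5) (nat_lit 33) (nat_lit 5) (nat_lit 288) (nat_lit 235) (nat_lit 197)) (XT.lf (nat_lit 0) (nat_lit 10100761488) (nat_lit 152) (nat_lit 2788549209) (nat_lit 228) (nat_lit 5758623052) (nat_lit 30) (nat_lit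 5) (nat_lit 32) (nat_lit 5) (nat_lit 33) (nat_lit 5) (nat_lit 289) (nat_lit 235) (nat_lit 196)))))) (XT.nd (nat_lit 390) (nat_lit 532) (nat_lit 0) (XT.nd (nat_lit 156) (nat_lit 228) (nat_lit 0) (XT.nd (nat_lit 78) (nat_lit 76) (nat_lit 0) (XT.lf (nat_lit 0) (nat_lit 3053583991) (nat_lit 152) (nat_lit 15652777192) (nat_lit 228) (nat_lit 653847911) (nat_lit 28) (nat_lit 5) (nat_lit 30) (nat_lit 5) (nat_lit 31) (nat_lit 4) (nat_lit 290) (nat_lit 235) (nat_lit 195)) (XT.lf (nat_lit 0) (nat_lit 4652279608) (nat_lit 228) (nat_lit 4898925173) (nat_lit 76) (nat_lit 10554456943) (nat_lit 27) (nat_lit 5) (nat_lit 30) (nat_lit 5) (nat_lit 28) (nat_lit 5) (nat_lit 291) (nat_lit 235) (nat_lit 194))) (XT.nd (nat_lit 78) (nat_lit 76) (nat_lit 0) (XT.lf (nat_lit 0) (nat_lit 7084907457) (nat_lit 152) (nat_lit 3118223758) (nat_lit 228) (nat_lit 10685329645) (nat_lit 25) (nat_lit 5) (nat_lit 27) (nat_lit 5)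 (nat_lit 28) (nat_lit 5) (nat_lit 292) (nat_lit 235) (nat_lit 193)) (XT.nd (nat_lit 78) (nat_lit 76) (nat_lit 0) (XT.lf (nat_lit 0) (nat_lit 16044054943) (nat_lit 228) (nat_lit 2098097754) (nat_lit 76) (nat_lit 3567924984) (nat_lit 25) (nat_lit 5) (nat_lit 28) (nat_lit 5) (nat_lit 26) (nat_lit 4) (nat_lit 293) (nat_lit 235) (nat_lit 192)) (XT.lf (nat_lit 0) (nat_lit 10242879950) (nat_lit 76) (nat_lit 11994216587) (nat_lit 152) (nat_lit 333927716) (nat_lit 24) (nat_lit 5) (nat_lit 25) (nat_lit 5) (nat_lit 26) (nat_lit 4) (nat_lit 294) (nat_lit 235) (nat_lit 191))))) (XT.nd (nat_lit 234) (nat_lit 304) (nat_lit 0) (XT.nd (nat_lit 78) (nat_lit 152) (nat_lit 0) (XT.lf (nat_lit 0) (nat_lit 5115493355) (nat_lit 152) (nat_lit 396615666) (nat_lit 76) (nat_lit 17962834420) (nat_lit 23) (nat_lit 5) (nat_lit 25) (nat_lit 5) (nat_lit 24) (nat_lit 5) (nat_lit 295) (nat_lit 235) (nat_lit 190)) (XT.nd (nat_lit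 78) (nat_lit 0) (nat_lit 0) (XT.lf (nat_lit 0) (nat_lit 10896462888) (nat_lit 228) (nat_lit 12178974330) (nat_lit 76) (nat_lit 1346587646) (nat_lit 21) (nat_lit 5) (nat_lit 24) (nat_lit 5) (nat_lit 22) (nat_lit 4) (nat_lit 296) (nat_lit 235) (nat_lit 189)) (XT.lf (nat_lit 0) (nat_lit 16962778105) (nat_lit 228) (nat_lit 58002282) (nat_lit 76) (nat_lit 8395833876) (nat_lit 21) (nat_lit 5) (nat_lit 24) (nat_lit 5) (nat_lit 22) (nat_lit 4) (nat_lit 297) (nat_lit 235) (nat_lit 188)))) (XT.nd (nat_lit 78) (nat_lit 228) (nat_lit 0) (XT.lf (nat_lit 0) (nat_lit 12815303400) (nat_lit 76) (nat_lit 10579855098) (nat_lit 152) (nat_lit 3063932937) (nat_lit 20) (nat_lit 5) (nat_lit 21) (nat_lit 5) (nat_lit 22) (nat_lit 4) (nat_lit 298) (nat_lit 235) (nat_lit 187)) (XT.nd (nat_lit 78) (nat_lit 152) (nat_lit 0) (XT.lf (nat_lit 0) (nat_lit 2486273830) (nat_lit 152) (nat_lit 1347170732) (nat_lit 76) (nat_lit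 23721293481) (nat_lit 19) (nat_lit 5) (nat_lit 21) (nat_lit 5) (nat_lit 20) (nat_lit 5) (nat_lit 299) (nat_lit 235) (nat_lit 186)) (XT.lf (nat_lit 0) (nat_lit 8339268888) (nat_lit 228) (nat_lit 17071083129) (nat_lit 76) (nat_lit 3291281457) (nat_lit 17) (nat_lit 5) (nat_lit 20) (nat_lit 5) (nat_lit 18) (nat_lit 4) (nat_lit 300) (nat_lit 235) (nat_lit 185))))))))
noncomputable def xc41 : XT := (XT.nd (nat_lit 1716) (nat_lit 76) (nat_lit 0) (XT.nd (nat_lit 858) (nat_lit 304) (nat_lit 0) (XT.nd (nat_lit 390) (nat_lit 228) (nat_lit 0) (XT.nd (nat_lit 156) (nat_lit 228) (nat_lit 0) (XT.nd (nat_lit 78) (nat_lit 76) (nat_lit 0) (XT.lf (nat_lit 0) (nat_lit 14482671967) (nat_lit 228) (nat_lit 4754649208) (nat_lit 76) (nat_lit 10668653958) (nat_lit 17) (nat_lit 5) (nat_lit 20) (nat_lit 5) (nat_lit 18) (nat_lit 4) (nat_lit 301) (nat_lit 235) (nat_lit 184)) (XT.lf (nat_lit 0) (nat_lit 8247427459) (nat_lit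 76) (nat_lit 12712774337) (nat_lit 152) (nat_lit 10209555959) (nat_lit 16) (nat_lit 5) (nat_lit 17) (nat_lit 5) (nat_lit 18) (nat_lit 4) (nat_lit 302) (nat_lit 235) (nat_lit 183))) (XT.nd (nat_lit 78) (nat_lit 228) (nat_lit 0) (XT.lf (nat_lit 0) (nat_lit 21910462003) (nat_lit 76) (nat_lit 5849409114) (nat_lit 152) (nat_lit 4736941527) (nat_lit 16) (nat_lit 5) (nat_lit 17) (nat_lit 5) (nat_lit 18) (nat_lit 4) (nat_lit 303) (nat_lit 235) (nat_lit 182)) (XT.nd (nat_lit 78) (nat_lit 0) (nat_lit 0) (XT.lf (nat_lit 0) (nat_lit 976113158) (nat_lit 228) (nat_lit 31587121228) (nat_lit 76) (nat_lit 1327128375) (nat_lit 13) (nat_lit 5) (nat_lit 16) (nat_lit 5) (nat_lit 14) (nat_lit 4) (nat_lit 304) (nat_lit 235) (nat_lit 181)) (XT.lf (nat_lit 0) (nat_lit 6999268423) (nat_lit 228) (nat_lit 19483660654) (nat_lit 76) (nat_lit 8865609164) (nat_lit 13) (nat_lit 5) (nat_lit 16) (nat_lit 5) (nat_lit 14) (nat_lit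 4) (nat_lit 305) (nat_lit 235) (nat_lit 180))))) (XT.nd (nat_lit 234) (nat_lit 152) (nat_lit 0) (XT.nd (nat_lit 78) (nat_lit 76) (nat_lit 0) (XT.lf (nat_lit 0) (nat_lit 13278256454) (nat_lit 228) (nat_lit 6854976489) (nat_lit 76) (nat_lit 16747775322) (nat_lit 13) (nat_lit 5) (nat_lit 16) (nat_lit 5) (nat_lit 14) (nat_lit 4) (nat_lit 306) (nat_lit 235) (nat_lit 179)) (XT.nd (nat_lit 78) (nat_lit 0) (nat_lit 0) (XT.lf (nat_lit 0) (nat_lit 6454959063) (nat_lit 76) (nat_lit 13435117175) (nat_lit 152) (nat_lit 18599483863) (nat_lit 12) (nat_lit 5) (nat_lit 13) (nat_lit 5) (nat_lit 14) (nat_lit 4) (nat_lit 307) (nat_lit 235) (nat_lit 178)) (XT.lf (nat_lit 0) (nat_lit 20499680524) (nat_lit 76) (nat_lit 6361550367) (nat_lit 152) (nat_lit 13316469923) (nat_lit 12) (nat_lit 5) (nat_lit 13) (nat_lit 5) (nat_lit 14) (nat_lit 4) (nat_lit 308) (nat_lit 235) (nat_lit 177)))) (XT.nd (nat_lit 78) (nat_lit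 152) (nat_lit 0) (XT.lf (nat_lit 0) (nat_lit 34151062642) (nat_lit 152) (nat_lit 6785215617) (nat_lit 0) (nat_lit 1014889199) (nat_lit 12) (nat_lit 5) (nat_lit 14) (nat_lit 4) (nat_lit 12) (nat_lit 4) (nat_lit 309) (nat_lit 235) (nat_lit 176)) (XT.nd (nat_lit 78) (nat_lit 76) (nat_lit 0) (XT.lf (nat_lit 0) (nat_lit 6751809889) (nat_lit 76) (nat_lit 35144473244) (nat_lit 76) (nat_lit 1914318793) (nat_lit 11) (nat_lit 4) (nat_lit 12) (nat_lit 5) (nat_lit 12) (nat_lit 4) (nat_lit 310) (nat_lit 235) (nat_lit 175)) (XT.lf (nat_lit 0) (nat_lit 4215640115) (nat_lit 152) (nat_lit 24761910740) (nat_lit 76) (nat_lit 16783253189) (nat_lit 10) (nat_lit 5) (nat_lit 12) (nat_lit 5) (nat_lit 11) (nat_lit 4) (nat_lit 311) (nat_lit 235) (nat_lit 174)))))) (XT.nd (nat_lit 390) (nat_lit 228) (nat_lit 0) (XT.nd (nat_lit 156) (nat_lit 0) (nat_lit 0) (XT.nd (nat_lit 78) (nat_lit 76) (nat_lit 0) (XT.lf (nat_lit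 0) (nat_lit 10577240130) (nat_lit 152) (nat_lit 11933106254) (nat_lit 76) (nat_lit 25298678099) (nat_lit 10) (nat_lit 5) (nat_lit 12) (nat_lit 5) (nat_lit 11) (nat_lit 4) (nat_lit 312) (nat_lit 235) (nat_lit 173)) (XT.lf (nat_lit 0) (nat_lit 1505954388) (nat_lit 76) (nat_lit 15731504940) (nat_lit 152) (nat_lit 32722798394) (nat_lit 9) (nat_lit 5) (nat_lit 10) (nat_lit 5) (nat_lit 11) (nat_lit 4) (nat_lit 313) (nat_lit 235) (nat_lit 172))) (XT.nd (nat_lit 78) (nat_lit 0) (nat_lit 0) (XT.lf (nat_lit 0) (nat_lit 15807500471) (nat_lit 76) (nat_lit 8513143335) (nat_lit 152) (nat_lit 27895727285) (nat_lit 9) (nat_lit 5) (nat_lit 10) (nat_lit 5) (nat_lit 11) (nat_lit 4) (nat_lit 314) (nat_lit 235) (nat_lit 171)) (XT.nd (nat_lit 78) (nat_lit 0) (nat_lit 0) (XT.lf (nat_lit 0) (nat_lit 30768091083) (nat_lit 76) (nat_lit 958575970) (nat_lit 152) (nat_lit 22859578974) (nat_lit 9) (nat_lit 5) (nat_lit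 10) (nat_lit 5) (nat_lit 11) (nat_lit 4) (nat_lit 315) (nat_lit 235) (nat_lit 170)) (XT.lf (nat_lit 0) (nat_lit 39539971879) (nat_lit 152) (nat_lit 10718987836) (nat_lit 0) (nat_lit 6814561091) (nat_lit 9) (nat_lit 5) (nat_lit 11) (nat_lit 4) (nat_lit 9) (nat_lit 4) (nat_lit 316) (nat_lit 235) (nat_lit 169))))) (XT.nd (nat_lit 234) (nat_lit 76) (nat_lit 0) (XT.nd (nat_lit 78) (nat_lit 76) (nat_lit 0) (XT.lf (nat_lit 0) (nat_lit 3033175729) (nat_lit 76) (nat_lit 44720974056) (nat_lit 76) (nat_lit 11930718075) (nat_lit 8) (nat_lit 4) (nat_lit 9) (nat_lit 5) (nat_lit 9) (nat_lit 4) (nat_lit 317) (nat_lit 235) (nat_lit 168)) (XT.nd (nat_lit 78) (nat_lit 76) (nat_lit 0) (XT.lf (nat_lit 0) (nat_lit 17646943369) (nat_lit 76) (nat_lit 38814694122) (nat_lit 76) (nat_lit 5962680815) (nat_lit 8) (nat_lit 4) (nat_lit 9) (nat_lit 5) (nat_lit 9) (nat_lit 4) (nat_lit 318) (nat_lit 235) (nat_lit 167)) (XT.lf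 (nat_lit 0) (nat_lit 271135575) (nat_lit 152) (nat_lit 32360424588) (nat_lit 76) (nat_lit 32669907379) (nat_lit 7) (nat_lit 5) (nat_lit 9) (nat_lit 5) (nat_lit 8) (nat_lit 4) (nat_lit 319) (nat_lit 235) (nat_lit 166)))) (XT.nd (nat_lit 78) (nat_lit 76) (nat_lit 0) (XT.lf (nat_lit 0) (nat_lit 6669047630) (nat_lit 152) (nat_lit 19428678833) (nat_lit 76) (nat_lit 42223717406) (nat_lit 7) (nat_lit 5) (nat_lit 9) (nat_lit 5) (nat_lit 8) (nat_lit 4) (nat_lit 320) (nat_lit 235) (nat_lit 165)) (XT.nd (nat_lit 78) (nat_lit 76) (nat_lit 0) (XT.lf (nat_lit 0) (nat_lit 13362641851) (nat_lit 152) (nat_lit 5894030864) (nat_lit 76) (nat_lit 52236484496) (nat_lit 7) (nat_lit 5) (nat_lit 9) (nat_lit 5) (nat_lit 8) (nat_lit 4) (nat_lit 321) (nat_lit 235) (nat_lit 164)) (XT.lf (nat_lit 0) (nat_lit 8440448214) (nat_lit 76) (nat_lit 12008541905) (nat_lit 152) (nat_lit 54372735109) (nat_lit 6) (nat_lit 5) (nat_lit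 7) (nat_lit 5) (nat_lit 8) (nat_lit 4) (nat_lit 322) (nat_lit 235) (nat_lit 163))))))) (XT.nd (nat_lit 31746) (nat_lit 0) (nat_lit 10716) (XT.nd (nat_lit 390) (nat_lit 76) (nat_lit 0) (XT.nd (nat_lit 156) (nat_lit 0) (nat_lit 0) (XT.nd (nat_lit 78) (nat_lit 0) (nat_lit 0) (XT.lf (nat_lit 0) (nat_lit 23574406919) (nat_lit 76) (nat_lit 4353571961) (nat_lit 152) (nat_lit 50387603772) (nat_lit 6) (nat_lit 5) (nat_lit 7) (nat_lit 5) (nat_lit 8) (nat_lit 4) (nat_lit 323) (nat_lit 235) (nat_lit 162)) (XT.lf (nat_lit 0) (nat_lit 35794879555) (nat_lit 152) (nat_lit 42593454941) (nat_lit 0) (nat_lit 3595389771) (nat_lit 6) (nat_lit 5) (nat_lit 8) (nat_lit 4) (nat_lit 6) (nat_lit 4) (nat_lit 324) (nat_lit 235) (nat_lit 161))) (XT.nd (nat_lit 78) (nat_lit 0) (nat_lit 0) (XT.lf (nat_lit 0) (nat_lit 44078636637) (nat_lit 152) (nat_lit 29919405270) (nat_lit 0) (nat_lit 11836535418) (nat_lit 6) (nat_lit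 5) (nat_lit 8) (nat_lit 4) (nat_lit 6) (nat_lit 4) (nat_lit 325) (nat_lit 235) (nat_lit 160)) (XT.nd (nat_lit 78) (nat_lit 0) (nat_lit 0) (XT.lf (nat_lit 0) (nat_lit 52757124163) (nat_lit 152) (nat_lit 16647001216) (nat_lit 0) (nat_lit 20474440624) (nat_lit 6) (nat_lit 5) (nat_lit 8) (nat_lit 4) (nat_lit 6) (nat_lit 4) (nat_lit 326) (nat_lit 235) (nat_lit 159)) (XT.lf (nat_lit 0) (nat_lit 61851005197) (nat_lit 152) (nat_lit 2744641816) (nat_lit 0) (nat_lit 29529671830) (nat_lit 6) (nat_lit 5) (nat_lit 8) (nat_lit 4) (nat_lit 6) (nat_lit 4) (nat_lit 327) (nat_lit 235) (nat_lit 158))))) (XT.nd (nat_lit 234) (nat_lit 0) (nat_lit 0) (XT.nd (nat_lit 78) (nat_lit 0) (nat_lit 0) (XT.lf (nat_lit 0) (nat_lit 12056030359) (nat_lit 76) (nat_lit 59441791418) (nat_lit 76) (nat_lit 27083648690) (nat_lit 5) (nat_lit 4) (nat_lit 6) (nat_lit 5) (nat_lit 6) (nat_lit 4) (nat_lit 328) (nat_lit 235) (nat_lit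 157)) (XT.nd (nat_lit 78) (nat_lit 0) (nat_lit 0) (XT.lf (nat_lit 0) (nat_lit 27622948361) (nat_lit 76) (nat_lit 54015177084) (nat_lit 76) (nat_lit 21621977823) (nat_lit 5) (nat_lit 4) (nat_lit 6) (nat_lit 5) (nat_lit 6) (nat_lit 4) (nat_lit 329) (nat_lit 235) (nat_lit 156)) (XT.lf (nat_lit 0) (nat_lit 43938552525) (nat_lit 76) (nat_lit 48330599004) (nat_lit 76) (nat_lit 15904012568) (nat_lit 5) (nat_lit 4) (nat_lit 6) (nat_lit 5) (nat_lit 6) (nat_lit 4) (nat_lit 330) (nat_lit 235) (nat_lit 155)))) (XT.nd (nat_lit 78) (nat_lit 0) (nat_lit 0) (XT.lf (nat_lit 0) (nat_lit 61041689528) (nat_lit 76) (nat_lit 42374522468) (nat_lit 76) (nat_lit 9916138723) (nat_lit 5) (nat_lit 4) (nat_lit 6) (nat_lit 5) (nat_lit 6) (nat_lit 4) (nat_lit 331) (nat_lit 235) (nat_lit 154)) (XT.nd (nat_lit 30966) (nat_lit 0) (nat_lit 19912) (XT.lf (nat_lit 0) (nat_lit 78973081125) (nat_lit 76) (nat_lit 36132766341) (nat_lit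 76) (nat_lit 3644099444) (nat_lit 5) (nat_lit 4) (nat_lit 6) (nat_lit 5) (nat_lit 6) (nat_lit 4) (nat_lit 332) (nat_lit 235) (nat_lit 153)) (XT.lf (nat_lit 0) (nat_lit 1244236649) (nat_lit 532) (nat_lit 832322769) (nat_lit 0) (nat_lit 1244236649) (nat_lit 267) (nat_lit 5) (nat_lit 274) (nat_lit 4) (nat_lit 267) (nat_lit 4) (nat_lit 248) (nat_lit 236) (nat_lit 236)))))) (XT.nd (nat_lit 390) (nat_lit 5548) (nat_lit 0) (XT.nd (nat_lit 156) (nat_lit 2432) (nat_lit 0) (XT.nd (nat_lit 78) (nat_lit 608) (nat_lit 0) (XT.lf (nat_lit 0) (nat_lit 699969543) (nat_lit 608) (nat_lit 2043670707) (nat_lit 76) (nat_lit 3952890924) (nat_lit 259) (nat_lit 5) (nat_lit 267) (nat_lit 5) (nat_lit 260) (nat_lit 4) (nat_lit 249) (nat_lit 236) (nat_lit 235)) (XT.lf (nat_lit 0) (nat_lit 4402167350) (nat_lit 608) (nat_lit 1098524145) (nat_lit 684) (nat_lit 1259295598) (nat_lit 251) (nat_lit 5) (nat_lit 259) (nat_lit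 5) (nat_lit 260) (nat_lit 4) (nat_lit 250) (nat_lit 236) (nat_lit 234))) (XT.nd (nat_lit 78) (nat_lit 1672) (nat_lit 0) (XT.lf (nat_lit 0) (nat_lit 3449814430) (nat_lit 760) (nat_lit 2615069687) (nat_lit 76) (nat_lit 767111001) (nat_lit 241) (nat_lit 5) (nat_lit 251) (nat_lit 5) (nat_lit 242) (nat_lit 4) (nat_lit 251) (nat_lit 236) (nat_lit 233)) (XT.nd (nat_lit 78) (nat_lit 836) (nat_lit 0) (XT.lf (nat_lit 0) (nat_lit 1254632037) (nat_lit 836) (nat_lit 2818056551) (nat_lit 76) (nat_lit 2840082301) (nat_lit 230) (nat_lit 5) (nat_lit 241) (nat_lit 5) (nat_lit 231) (nat_lit 5) (nat_lit 252) (nat_lit 236) (nat_lit 232)) (XT.lf (nat_lit 0) (nat_lit 4031199361) (nat_lit 836) (nat_lit 1844793432) (nat_lit 912) (nat_lit 1126502515) (nat_lit 219) (nat_lit 5) (nat_lit 230) (nat_lit 5) (nat_lit 231) (nat_lit 5) (nat_lit 253) (nat_lit 236) (nat_lit 231))))) (XT.nd (nat_lit 234) (nat_lit 2432) (nat_lit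 0) (XT.nd (nat_lit 78) (nat_lit 2128) (nat_lit 0) (XT.lf (nat_lit 0) (nat_lit 3397650486) (nat_lit 988) (nat_lit 3088256425) (nat_lit 76) (nat_lit 615197024) (nat_lit 206) (nat_lit 5) (nat_lit 219) (nat_lit 5) (nat_lit 207) (nat_lit 5) (nat_lit 254) (nat_lit 236) (nat_lit 230)) (XT.nd (nat_lit 78) (nat_lit 1064) (nat_lit 0) (XT.lf (nat_lit 0) (nat_lit 761530159) (nat_lit 1064) (nat_lit 3175037080) (nat_lit 76) (nat_lit 3272211133) (nat_lit 192) (nat_lit 5) (nat_lit 206) (nat_lit 5) (nat_lit 193) (nat_lit 5) (nat_lit 255) (nat_lit 236) (nat_lit 229)) (XT.lf (nat_lit 0) (nat_lit 4087025143) (nat_lit 1064) (nat_lit 1136856602) (nat_lit 1140) (nat_lit 2101817180) (nat_lit 178) (nat_lit 5) (nat_lit 192) (nat_lit 5) (nat_lit 193) (nat_lit 5) (nat_lit 256) (nat_lit 236) (nat_lit 228)))) (XT.nd (nat_lit 78) (nat_lit 1216) (nat_lit 0) (XT.lf (nat_lit 0) (nat_lit 2289020677) (nat_lit 1216) (nat_lit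 3291409734) (nat_lit 76) (nat_lit 1871488079) (nat_lit 162) (nat_lit 5) (nat_lit 178) (nat_lit 5) (nat_lit 163) (nat_lit 5) (nat_lit 257) (nat_lit 236) (nat_lit 227)) (XT.nd (nat_lit 78) (nat_lit 684) (nat_lit 0) (XT.lf (nat_lit 0) (nat_lit 4253970517) (nat_lit 532) (nat_lit 2481365540) (nat_lit 608) (nat_lit 852532569) (nat_lit 155) (nat_lit 5) (nat_lit 162) (nat_lit 5) (nat_lit 163) (nat_lit 5) (nat_lit 258) (nat_lit 236) (nat_lit 226)) (XT.lf (nat_lit 0) (nat_lit 3484728494) (nat_lit 684) (nat_lit 3385293647) (nat_lit 76) (nat_lit 863437000) (nat_lit 146) (nat_lit 5) (nat_lit 155) (nat_lit 5) (nat_lit 147) (nat_lit 5) (nat_lit 259) (nat_lit 236) (nat_lit 225))))))))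
noncomputable def xc42 : XT := (XT.nd (nat_lit 1716) (nat_lit 2204) (nat_lit 0) (XT.nd (nat_lit 858) (nat_lit 2736) (nat_lit 0) (XT.nd (nat_lit 390) (nat_lit 2356) (nat_lit 0) (XT.nd (nat_lit 156) (nat_lit 1444) (nat_lit 0) (XT.nd (nat_lit 78) (nat_lit 532) (nat_lit 0) (XT.lf (nat_lit 0) (nat_lit 39875832) (nat_lit 608) (nat_lit 3446600249) (nat_lit 76) (nat_lit 4402704099) (nat_lit 138) (nat_lit 5) (nat_lit 146) (nat_lit 5) (nat_lit 139) (nat_lit 5) (nat_lit 260) (nat_lit 236) (nat_lit 224)) (XT.lf (nat_lit 0) (nat_lit 4347319445) (nat_lit 608) (nat_lit 3537373769) (nat_lit 76) (nat_lit 170310638) (nat_lit 131) (nat_lit 5) (nat_lit 139) (nat_lit 5) (nat_lit 132) (nat_lit 5) (nat_lit 261) (nat_lit 236) (nat_lit 223))) (XT.nd (nat_lit 78) (nat_lit 912) (nat_lit 0) (XT.lf (nat_lit 0) (nat_lit 560522168) (nat_lit 532) (nat_lit 3665488379) (nat_lit 76) (nat_lit 4005283632) (nat_lit 124) (nat_lit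 5) (nat_lit 131) (nat_lit 5) (nat_lit 125) (nat_lit 5) (nat_lit 262) (nat_lit 236) (nat_lit 222)) (XT.nd (nat_lit 78) (nat_lit 456) (nat_lit 0) (XT.lf (nat_lit 0) (nat_lit 4580189666) (nat_lit 456) (nat_lit 289516610) (nat_lit 532) (nat_lit 3548769498) (nat_lit 118) (nat_lit 5) (nat_lit 124) (nat_lit 5) (nat_lit 125) (nat_lit 5) (nat_lit 263) (nat_lit 236) (nat_lit 221)) (XT.lf (nat_lit 0) (nat_lit 711107838) (nat_lit 456) (nat_lit 4074995793) (nat_lit 76) (nat_lit 3830561065) (nat_lit 112) (nat_lit 5) (nat_lit 118) (nat_lit 5) (nat_lit 113) (nat_lit 5) (nat_lit 264) (nat_lit 236) (nat_lit 220))))) (XT.nd (nat_lit 234) (nat_lit 1064) (nat_lit 0) (XT.nd (nat_lit 78) (nat_lit 836) (nat_lit 0) (XT.lf (nat_lit 0) (nat_lit 4443620934) (nat_lit 456) (nat_lit 586529110) (nat_lit 532) (nat_lit 3796240987) (nat_lit 106) (nat_lit 5) (nat_lit 112) (nat_lit 5) (nat_lit 113) (nat_lit 5) (nat_lit 265)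 (nat_lit 236) (nat_lit 219)) (XT.nd (nat_lit 78) (nat_lit 380) (nat_lit 0) (XT.lf (nat_lit 0) (nat_lit 467030436) (nat_lit 456) (nat_lit 4778627410) (nat_lit 76) (nat_lit 3802286787) (nat_lit 100) (nat_lit 5) (nat_lit 106) (nat_lit 5) (nat_lit 101) (nat_lit 5) (nat_lit 266) (nat_lit 236) (nat_lit 218)) (XT.lf (nat_lit 0) (nat_lit 4001979258) (nat_lit 380) (nat_lit 796741191) (nat_lit 456) (nat_lit 4482951746) (nat_lit 95) (nat_lit 5) (nat_lit 100) (nat_lit 5) (nat_lit 101) (nat_lit 5) (nat_lit 267) (nat_lit 236) (nat_lit 217)))) (XT.nd (nat_lit 78) (nat_lit 760) (nat_lit 0) (XT.lf (nat_lit 0) (nat_lit 3632510315) (nat_lit 304) (nat_lit 5684643602) (nat_lit 380) (nat_lit 211053061) (nat_lit 91) (nat_lit 5) (nat_lit 95) (nat_lit 5) (nat_lit 96) (nat_lit 5) (nat_lit 268) (nat_lit 236) (nat_lit 216)) (XT.nd (nat_lit 78) (nat_lit 304) (nat_lit 0) (XT.lf (nat_lit 0) (nat_lit 3132650434) (nat_lit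 380) (nat_lit 1003469029) (nat_lit 456) (nat_lit 5651572331) (nat_lit 85) (nat_lit 5) (nat_lit 90) (nat_lit 5) (nat_lit 91) (nat_lit 5) (nat_lit 269) (nat_lit 236) (nat_lit 215)) (XT.lf (nat_lit 0) (nat_lit 2493098320) (nat_lit 304) (nat_lit 6182927472) (nat_lit 380) (nat_lit 1384868842) (nat_lit 81) (nat_lit 5) (nat_lit 85) (nat_lit 5) (nat_lit 86) (nat_lit 5) (nat_lit 270) (nat_lit 236) (nat_lit 214)))))) (XT.nd (nat_lit 390) (nat_lit 1444) (nat_lit 0) (XT.nd (nat_lit 156) (nat_lit 608) (nat_lit 0) (XT.nd (nat_lit 78) (nat_lit 304) (nat_lit 0) (XT.lf (nat_lit 0) (nat_lit 1694570481) (nat_lit 304) (nat_lit 1296111611) (nat_lit 380) (nat_lit 7357689343) (nat_lit 76) (nat_lit 5) (nat_lit 80) (nat_lit 5) (nat_lit 81) (nat_lit 5) (nat_lit 271) (nat_lit 236) (nat_lit 213)) (XT.lf (nat_lit 0) (nat_lit 704195075) (nat_lit 304) (nat_lit 6839457020) (nat_lit 380) (nat_lit 3106715106) (nat_lit 72)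 (nat_lit 5) (nat_lit 76) (nat_lit 5) (nat_lit 77) (nat_lit 5) (nat_lit 272) (nat_lit 236) (nat_lit 212))) (XT.nd (nat_lit 78) (nat_lit 532) (nat_lit 0) (XT.lf (nat_lit 0) (nat_lit 1301314590) (nat_lit 380) (nat_lit 466508545) (nat_lit 76) (nat_lit 9200280629) (nat_lit 71) (nat_lit 5) (nat_lit 76) (nat_lit 5) (nat_lit 72) (nat_lit 5) (nat_lit 273) (nat_lit 236) (nat_lit 211)) (XT.nd (nat_lit 78) (nat_lit 228) (nat_lit 0) (XT.lf (nat_lit 0) (nat_lit 5866202803) (nat_lit 380) (nat_lit 1873251543) (nat_lit 76) (nat_lit 3561482830) (nat_lit 67) (nat_lit 5) (nat_lit 72) (nat_lit 5) (nat_lit 68) (nat_lit 5) (nat_lit 274) (nat_lit 236) (nat_lit 210)) (XT.lf (nat_lit 0) (nat_lit 8142019473) (nat_lit 228) (nat_lit 2496354456) (nat_lit 304) (nat_lit 1012813907) (nat_lit 64) (nat_lit 5) (nat_lit 67) (nat_lit 5) (nat_lit 68) (nat_lit 5) (nat_lit 275) (nat_lit 236) (nat_lit 209))))) (XT.nd (nat_lit 234)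 (nat_lit 532) (nat_lit 0) (XT.nd (nat_lit 78) (nat_lit 532) (nat_lit 0) (XT.lf (nat_lit 0) (nat_lit 3552805783) (nat_lit 380) (nat_lit 5448697128) (nat_lit 76) (nat_lit 3016733673) (nat_lit 59) (nat_lit 5) (nat_lit 64) (nat_lit 5) (nat_lit 60) (nat_lit 5) (nat_lit 276) (nat_lit 236) (nat_lit 208)) (XT.nd (nat_lit 78) (nat_lit 304) (nat_lit 0) (XT.lf (nat_lit 0) (nat_lit 4708405692) (nat_lit 228) (nat_lit 3608987552) (nat_lit 304) (nat_lit 4086323903) (nat_lit 56) (nat_lit 5) (nat_lit 59) (nat_lit 5) (nat_lit 60) (nat_lit 5) (nat_lit 277) (nat_lit 236) (nat_lit 207)) (XT.lf (nat_lit 0) (nat_lit 490213298) (nat_lit 304) (nat_lit 10272724744) (nat_lit 76) (nat_lit 2045851774) (nat_lit 52) (nat_lit 5) (nat_lit 56) (nat_lit 5) (nat_lit 53) (nat_lit 5) (nat_lit 278) (nat_lit 236) (nat_lit 206)))) (XT.nd (nat_lit 78) (nat_lit 532) (nat_lit 0) (XT.lf (nat_lit 0) (nat_lit 5218741012) (nat_lit 304)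 (nat_lit 36546364) (nat_lit 76) (nat_lit 7977498516) (nat_lit 52) (nat_lit 5) (nat_lit 56) (nat_lit 5) (nat_lit 53) (nat_lit 5) (nat_lit 279) (nat_lit 236) (nat_lit 205)) (XT.nd (nat_lit 78) (nat_lit 304) (nat_lit 0) (XT.lf (nat_lit 0) (nat_lit 10188415028) (nat_lit 304) (nat_lit 2920483525) (nat_lit 76) (nat_lit 569049990) (nat_lit 49) (nat_lit 5) (nat_lit 53) (nat_lit 5) (nat_lit 50) (nat_lit 5) (nat_lit 280) (nat_lit 236) (nat_lit 204)) (XT.lf (nat_lit 0) (nat_lit 1264705912) (nat_lit 304) (nat_lit 6265854051) (nat_lit 76) (nat_lit 6613702467) (nat_lit 45) (nat_lit 5) (nat_lit 49) (nat_lit 5) (nat_lit 46) (nat_lit 5) (nat_lit 281) (nat_lit 236) (nat_lit 203))))))) (XT.nd (nat_lit 858) (nat_lit 836) (nat_lit 0) (XT.nd (nat_lit 390) (nat_lit 608) (nat_lit 0) (XT.nd (nat_lit 156) (nat_lit 380) (nat_lit 0) (XT.nd (nat_lit 78) (nat_lit 228) (nat_lit 0) (XT.lf (nat_lit 0) (nat_lit 4544518911)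 (nat_lit 152) (nat_lit 1615646075) (nat_lit 228) (nat_lit 8473515665) (nat_lit 43) (nat_lit 5) (nat_lit 45) (nat_lit 5) (nat_lit 46) (nat_lit 5) (nat_lit 282) (nat_lit 236) (nat_lit 202)) (XT.lf (nat_lit 0) (nat_lit 697555121) (nat_lit 228) (nat_lit 10622579195) (nat_lit 304) (nat_lit 3826934232) (nat_lit 40) (nat_lit 5) (nat_lit 43) (nat_lit 5) (nat_lit 44) (nat_lit 5) (nat_lit 283) (nat_lit 236) (nat_lit 201))) (XT.nd (nat_lit 78) (nat_lit 304) (nat_lit 0) (XT.lf (nat_lit 0) (nat_lit 1058523711) (nat_lit 304) (nat_lit 3625579019) (nat_lit 76) (nat_lit 11000991522) (nat_lit 39) (nat_lit 5) (nat_lit 43) (nat_lit 5) (nat_lit 40) (nat_lit 5) (nat_lit 284) (nat_lit 236) (nat_lit 200)) (XT.nd (nat_lit 78) (nat_lit 152) (nat_lit 0) (XT.lf (nat_lit 0) (nat_lit 6109829499) (nat_lit 228) (nat_lit 8556015370) (nat_lit 76) (nat_lit 1583098039) (nat_lit 37) (nat_lit 5) (nat_lit 40) (nat_lit 5) (nat_lit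 38) (nat_lit 5) (nat_lit 285) (nat_lit 236) (nat_lit 199)) (XT.lf (nat_lit 0) (nat_lit 2677317369) (nat_lit 152) (nat_lit 8759893267) (nat_lit 228) (nat_lit 5403144284) (nat_lit 35) (nat_lit 5) (nat_lit 37) (nat_lit 5) (nat_lit 38) (nat_lit 5) (nat_lit 286) (nat_lit 236) (nat_lit 198))))) (XT.nd (nat_lit 234) (nat_lit 228) (nat_lit 0) (XT.nd (nat_lit 78) (nat_lit 380) (nat_lit 0) (XT.lf (nat_lit 0) (nat_lit 14514602354) (nat_lit 152) (nat_lit 2520079650) (nat_lit 228) (nat_lit 426616486) (nat_lit 35) (nat_lit 5) (nat_lit 37) (nat_lit 5) (nat_lit 38) (nat_lit 5) (nat_lit 287) (nat_lit 236) (nat_lit 197)) (XT.nd (nat_lit 78) (nat_lit 152) (nat_lit 0) (XT.lf (nat_lit 0) (nat_lit 4748291782) (nat_lit 228) (nat_lit 9326584538) (nat_lit 76) (nat_lit 4035800348) (nat_lit 32) (nat_lit 5) (nat_lit 35) (nat_lit 5) (nat_lit 33) (nat_lit 5) (nat_lit 288) (nat_lit 236) (nat_lit 196)) (XT.lf (nat_lit 0)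 (nat_lit 2255489844) (nat_lit 152) (nat_lit 7916426415) (nat_lit 228) (nat_lit 8620580890) (nat_lit 30) (nat_lit 5) (nat_lit 32) (nat_lit 5) (nat_lit 33) (nat_lit 5) (nat_lit 289) (nat_lit 236) (nat_lit 195)))) (XT.nd (nat_lit 78) (nat_lit 228) (nat_lit 0) (XT.lf (nat_lit 0) (nat_lit 14485424482) (nat_lit 152) (nat_lit 1400818616) (nat_lit 228) (nat_lit 3621640805) (nat_lit 30) (nat_lit 5) (nat_lit 32) (nat_lit 5) (nat_lit 33) (nat_lit 5) (nat_lit 290) (nat_lit 236) (nat_lit 194)) (XT.nd (nat_lit 78) (nat_lit 0) (nat_lit 0) (XT.lf (nat_lit 0) (nat_lit 1642479426) (nat_lit 228) (nat_lit 13243013122) (nat_lit 76) (nat_lit 5371724881) (nat_lit 27) (nat_lit 5) (nat_lit 30) (nat_lit 5) (nat_lit 28) (nat_lit 5) (nat_lit 291) (nat_lit 236) (nat_lit 193)) (XT.lf (nat_lit 0) (nat_lit 7090248693) (nat_lit 228) (nat_lit 1455924964) (nat_lit 76) (nat_lit 12496961532) (nat_lit 27) (nat_lit 5) (nat_lit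 30) (nat_lit 5) (nat_lit 28) (nat_lit 5) (nat_lit 292) (nat_lit 236) (nat_lit 192)))))) (XT.nd (nat_lit 390) (nat_lit 380) (nat_lit 0) (XT.nd (nat_lit 156) (nat_lit 228) (nat_lit 0) (XT.nd (nat_lit 78) (nat_lit 76) (nat_lit 0) (XT.lf (nat_lit 0) (nat_lit 11021385053) (nat_lit 152) (nat_lit 1826675525) (nat_lit 228) (nat_lit 9019209694) (nat_lit 25) (nat_lit 5) (nat_lit 27) (nat_lit 5) (nat_lit 28) (nat_lit 5) (nat_lit 293) (nat_lit 236) (nat_lit 191)) (XT.lf (nat_lit 0) (nat_lit 1282919343) (nat_lit 76) (nat_lit 17622038808) (nat_lit 152) (nat_lit 3827366737) (nat_lit 24) (nat_lit 5) (nat_lit 25) (nat_lit 5) (nat_lit 26) (nat_lit 4) (nat_lit 294) (nat_lit 236) (nat_lit 190))) (XT.nd (nat_lit 78) (nat_lit 152) (nat_lit 0) (XT.lf (nat_lit 0) (nat_lit 1658467377) (nat_lit 152) (nat_lit 9538267502) (nat_lit 76) (nat_lit 12441491260) (nat_lit 23) (nat_lit 5) (nat_lit 25) (nat_lit 5) (nat_lit 24)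 (nat_lit 5) (nat_lit 295) (nat_lit 236) (nat_lit 189)) (XT.nd (nat_lit 78) (nat_lit 0) (nat_lit 0) (XT.lf (nat_lit 0) (nat_lit 2880635217) (nat_lit 152) (nat_lit 4425227559) (nat_lit 228) (nat_lit 17283472898) (nat_lit 21) (nat_lit 5) (nat_lit 23) (nat_lit 5) (nat_lit 24) (nat_lit 5) (nat_lit 296) (nat_lit 236) (nat_lit 188)) (XT.lf (nat_lit 0) (nat_lit 13300157501) (nat_lit 228) (nat_lit 9595818559) (nat_lit 76) (nat_lit 2690129523) (nat_lit 21) (nat_lit 5) (nat_lit 24) (nat_lit 5) (nat_lit 22) (nat_lit 4) (nat_lit 297) (nat_lit 236) (nat_lit 187))))) (XT.nd (nat_lit 234) (nat_lit 76) (nat_lit 0) (XT.nd (nat_lit 78) (nat_lit 228) (nat_lit 0) (XT.lf (nat_lit 0) (nat_lit 3038488979) (nat_lit 76) (nat_lit 16571989626) (nat_lit 152) (nat_lit 7021784877) (nat_lit 20) (nat_lit 5) (nat_lit 21) (nat_lit 5) (nat_lit 22) (nat_lit 4) (nat_lit 298) (nat_lit 236) (nat_lit 186)) (XT.nd (nat_lit 78) (nat_lit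 228) (nat_lit 0) (XT.lf (nat_lit 0) (nat_lit 16409024240) (nat_lit 76) (nat_lit 9870329020) (nat_lit 152) (nat_lit 1450121884) (nat_lit 20) (nat_lit 5) (nat_lit 21) (nat_lit 5) (nat_lit 22) (nat_lit 4) (nat_lit 299) (nat_lit 236) (nat_lit 185)) (XT.lf (nat_lit 0) (nat_lit 1460193872) (nat_lit 152) (nat_lit 2814455654) (nat_lit 228) (nat_lit 24606851540) (nat_lit 17) (nat_lit 5) (nat_lit 19) (nat_lit 5) (nat_lit 20) (nat_lit 5) (nat_lit 300) (nat_lit 236) (nat_lit 184)))) (XT.nd (nat_lit 78) (nat_lit 76) (nat_lit 0) (XT.lf (nat_lit 0) (nat_lit 10365475057) (nat_lit 228) (nat_lit 15122265817) (nat_lit 76) (nat_lit 4599695070) (nat_lit 17) (nat_lit 5) (nat_lit 20) (nat_lit 5) (nat_lit 18) (nat_lit 4) (nat_lit 301) (nat_lit 236) (nat_lit 183)) (XT.nd (nat_lit 78) (nat_lit 76) (nat_lit 0) (XT.lf (nat_lit 0) (nat_lit 16739417684) (nat_lit 228) (nat_lit 2323456460) (nat_lit 76) (nat_lit 12291467171)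 (nat_lit 17) (nat_lit 5) (nat_lit 20) (nat_lit 5) (nat_lit 18) (nat_lit 4) (nat_lit 302) (nat_lit 236) (nat_lit 182)) (XT.lf (nat_lit 0) (nat_lit 11252219836) (nat_lit 76) (nat_lit 12240542577) (nat_lit 152) (nat_lit 9190037942) (nat_lit 16) (nat_lit 5) (nat_lit 17) (nat_lit 5) (nat_lit 18) (nat_lit 4) (nat_lit 303) (nat_lit 236) (nat_lit 181))))))))
noncomputable def xc43 : XT := (XT.nd (nat_lit 1716) (nat_lit 76) (nat_lit 0) (XT.nd (nat_lit 858) (nat_lit 228) (nat_lit 0) (XT.nd (nat_lit 390) (nat_lit 228) (nat_lit 0) (XT.nd (nat_lit 156) (nat_lit 76) (nat_lit 0) (XT.nd (nat_lit 78) (nat_lit 228) (nat_lit 0) (XT.lf (nat_lit 0) (nat_lit 25474957487) (nat_lit 76) (nat_lit 5086764829) (nat_lit 152) (nat_lit 3516649731) (nat_lit 16) (nat_lit 5) (nat_lit 17) (nat_lit 5) (nat_lit 18) (nat_lit 4) (nat_lit 304) (nat_lit 236) (nat_lit 180)) (XT.lf (nat_lit 0) (nat_lit 2418938863) (nat_lit 228) (nat_lit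 30707544593) (nat_lit 76) (nat_lit 2415776565) (nat_lit 13) (nat_lit 5) (nat_lit 16) (nat_lit 5) (nat_lit 14) (nat_lit 4) (nat_lit 305) (nat_lit 236) (nat_lit 179))) (XT.nd (nat_lit 78) (nat_lit 76) (nat_lit 0) (XT.lf (nat_lit 0) (nat_lit 8676869985) (nat_lit 228) (nat_lit 18116003024) (nat_lit 76) (nat_lit 10282500833) (nat_lit 13) (nat_lit 5) (nat_lit 16) (nat_lit 5) (nat_lit 14) (nat_lit 4) (nat_lit 306) (nat_lit 236) (nat_lit 178)) (XT.nd (nat_lit 78) (nat_lit 76) (nat_lit 0) (XT.lf (nat_lit 0) (nat_lit 15206586554) (nat_lit 228) (nat_lit 4967400872) (nat_lit 76) (nat_lit 18512412860) (nat_lit 13) (nat_lit 5) (nat_lit 16) (nat_lit 5) (nat_lit 14) (nat_lit 4) (nat_lit 307) (nat_lit 236) (nat_lit 177)) (XT.lf (nat_lit 0) (nat_lit 8944099655) (nat_lit 76) (nat_lit 13165512016) (nat_lit 152) (nat_lit 18266984178) (nat_lit 12) (nat_lit 5) (nat_lit 13) (nat_lit 5) (nat_lit 14) (nat_lit 4) (nat_lit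 308) (nat_lit 236) (nat_lit 176))))) (XT.nd (nat_lit 234) (nat_lit 152) (nat_lit 0) (XT.nd (nat_lit 78) (nat_lit 76) (nat_lit 0) (XT.lf (nat_lit 0) (nat_lit 23587895635) (nat_lit 76) (nat_lit 5783093583) (nat_lit 152) (nat_lit 12779937344) (nat_lit 12) (nat_lit 5) (nat_lit 13) (nat_lit 5) (nat_lit 14) (nat_lit 4) (nat_lit 309) (nat_lit 236) (nat_lit 175)) (XT.nd (nat_lit 78) (nat_lit 76) (nat_lit 0) (XT.lf (nat_lit 0) (nat_lit 36977963220) (nat_lit 152) (nat_lit 5133740835) (nat_lit 0) (nat_lit 1902814315) (nat_lit 12) (nat_lit 5) (nat_lit 14) (nat_lit 4) (nat_lit 12) (nat_lit 4) (nat_lit 310) (nat_lit 236) (nat_lit 174)) (XT.lf (nat_lit 0) (nat_lit 9023071911) (nat_lit 76) (nat_lit 36052658199) (nat_lit 76) (nat_lit 892265749) (nat_lit 11) (nat_lit 4) (nat_lit 12) (nat_lit 5) (nat_lit 12) (nat_lit 4) (nat_lit 311) (nat_lit 236) (nat_lit 173)))) (XT.nd (nat_lit 78) (nat_lit 76) (nat_lit 0)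 (XT.lf (nat_lit 0) (nat_lit 5470190963) (nat_lit 152) (nat_lit 24137089123) (nat_lit 76) (nat_lit 18409698919) (nat_lit 10) (nat_lit 5) (nat_lit 12) (nat_lit 5) (nat_lit 11) (nat_lit 4) (nat_lit 312) (nat_lit 236) (nat_lit 172)) (XT.nd (nat_lit 78) (nat_lit 76) (nat_lit 0) (XT.lf (nat_lit 0) (nat_lit 12100167701) (nat_lit 152) (nat_lit 10755554754) (nat_lit 76) (nat_lit 27313405404) (nat_lit 10) (nat_lit 5) (nat_lit 12) (nat_lit 5) (nat_lit 11) (nat_lit 4) (nat_lit 313) (nat_lit 236) (nat_lit 171)) (XT.lf (nat_lit 0) (nat_lit 3304601638) (nat_lit 76) (nat_lit 15758025654) (nat_lit 152) (nat_lit 33366243625) (nat_lit 9) (nat_lit 5) (nat_lit 10) (nat_lit 5) (nat_lit 11) (nat_lit 4) (nat_lit 314) (nat_lit 236) (nat_lit 170)))))) (XT.nd (nat_lit 390) (nat_lit 152) (nat_lit 0) (XT.nd (nat_lit 156) (nat_lit 76) (nat_lit 0) (XT.nd (nat_lit 78) (nat_lit 0) (nat_lit 0) (XT.lf (nat_lit 0) (nat_lit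 18239160763) (nat_lit 76) (nat_lit 8214939042) (nat_lit 152) (nat_lit 28345090136) (nat_lit 9) (nat_lit 5) (nat_lit 10) (nat_lit 5) (nat_lit 11) (nat_lit 4) (nat_lit 315) (nat_lit 236) (nat_lit 169)) (XT.lf (nat_lit 0) (nat_lit 33869624464) (nat_lit 76) (nat_lit 317112903) (nat_lit 152) (nat_lit 23102154577) (nat_lit 9) (nat_lit 5) (nat_lit 10) (nat_lit 5) (nat_lit 11) (nat_lit 4) (nat_lit 316) (nat_lit 236) (nat_lit 168))) (XT.nd (nat_lit 78) (nat_lit 76) (nat_lit 0) (XT.lf (nat_lit 0) (nat_lit 42355412204) (nat_lit 152) (nat_lit 9747157841) (nat_lit 0) (nat_lit 7799040905) (nat_lit 9) (nat_lit 5) (nat_lit 11) (nat_lit 4) (nat_lit 9) (nat_lit 4) (nat_lit 317) (nat_lit 236) (nat_lit 167)) (XT.nd (nat_lit 78) (nat_lit 0) (nat_lit 0) (XT.lf (nat_lit 0) (nat_lit 4649393708) (nat_lit 76) (nat_lit 46305057738) (nat_lit 76) (nat_lit 11689869939) (nat_lit 8) (nat_lit 4) (nat_lit 9) (nat_lit 5) (nat_lit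 9) (nat_lit 4) (nat_lit 318) (nat_lit 236) (nat_lit 166)) (XT.lf (nat_lit 0) (nat_lit 19924108816) (nat_lit 76) (nat_lit 40134509761) (nat_lit 76) (nat_lit 5463306246) (nat_lit 8) (nat_lit 4) (nat_lit 9) (nat_lit 5) (nat_lit 9) (nat_lit 4) (nat_lit 319) (nat_lit 236) (nat_lit 165))))) (XT.nd (nat_lit 234) (nat_lit 76) (nat_lit 0) (XT.nd (nat_lit 78) (nat_lit 0) (nat_lit 0) (XT.lf (nat_lit 0) (nat_lit 1029403158) (nat_lit 152) (nat_lit 32634863403) (nat_lit 76) (nat_lit 34879570186) (nat_lit 7) (nat_lit 5) (nat_lit 9) (nat_lit 5) (nat_lit 8) (nat_lit 4) (nat_lit 320) (nat_lit 236) (nat_lit 164)) (XT.nd (nat_lit 78) (nat_lit 0) (nat_lit 0) (XT.lf (nat_lit 0) (nat_lit 7711748396) (nat_lit 152) (nat_lit 19120510475) (nat_lit 76) (nat_lit 44883634169) (nat_lit 7) (nat_lit 5) (nat_lit 9) (nat_lit 5) (nat_lit 8) (nat_lit 4) (nat_lit 321) (nat_lit 236) (nat_lit 163)) (XT.lf (nat_lit 0) (nat_lit 14706248596)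 (nat_lit 152) (nat_lit 4970063551) (nat_lit 76) (nat_lit 55370909572) (nat_lit 7) (nat_lit 5) (nat_lit 9) (nat_lit 5) (nat_lit 8) (nat_lit 4) (nat_lit 322) (nat_lit 236) (nat_lit 162)))) (XT.nd (nat_lit 78) (nat_lit 0) (nat_lit 0) (XT.lf (nat_lit 0) (nat_lit 10046206584) (nat_lit 76) (nat_lit 12079921027) (nat_lit 152) (nat_lit 56416729795) (nat_lit 6) (nat_lit 5) (nat_lit 7) (nat_lit 5) (nat_lit 8) (nat_lit 4) (nat_lit 323) (nat_lit 236) (nat_lit 161)) (XT.nd (nat_lit 78) (nat_lit 0) (nat_lit 0) (XT.lf (nat_lit 0) (nat_lit 25880494845) (nat_lit 76) (nat_lit 4067395347) (nat_lit 152) (nat_lit 52264467705) (nat_lit 6) (nat_lit 5) (nat_lit 7) (nat_lit 5) (nat_lit 8) (nat_lit 4) (nat_lit 324) (nat_lit 236) (nat_lit 160)) (XT.lf (nat_lit 0) (nat_lit 38183057564) (nat_lit 152) (nat_lit 43635958065) (nat_lit 0) (nat_lit 4245657528) (nat_lit 6) (nat_lit 5) (nat_lit 8) (nat_lit 4) (nat_lit 6) (nat_lit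 4) (nat_lit 325) (nat_lit 236) (nat_lit 159))))))) (XT.nd (nat_lit 31590) (nat_lit 0) (nat_lit 9576) (XT.nd (nat_lit 390) (nat_lit 0) (nat_lit 0) (XT.nd (nat_lit 156) (nat_lit 76) (nat_lit 0) (XT.nd (nat_lit 78) (nat_lit 0) (nat_lit 0) (XT.lf (nat_lit 0) (nat_lit 46852505642) (nat_lit 152) (nat_lit 30379975893) (nat_lit 0) (nat_lit 12876455778) (nat_lit 6) (nat_lit 5) (nat_lit 8) (nat_lit 4) (nat_lit 6) (nat_lit 4) (nat_lit 326) (nat_lit 236) (nat_lit 158)) (XT.lf (nat_lit 0) (nat_lit 55937777678) (nat_lit 152) (nat_lit 16493256381) (nat_lit 0) (nat_lit 21924918454) (nat_lit 6) (nat_lit 5) (nat_lit 8) (nat_lit 4) (nat_lit 6) (nat_lit 4) (nat_lit 327) (nat_lit 236) (nat_lit 157))) (XT.nd (nat_lit 78) (nat_lit 76) (nat_lit 0) (XT.lf (nat_lit 0) (nat_lit 65460505274) (nat_lit 152) (nat_lit 1942735912) (nat_lit 0) (nat_lit 31412589516) (nat_lit 6) (nat_lit 5) (nat_lit 8) (nat_lit 4) (nat_lit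 6) (nat_lit 4) (nat_lit 328) (nat_lit 236) (nat_lit 156)) (XT.nd (nat_lit 78) (nat_lit 0) (nat_lit 0) (XT.lf (nat_lit 0) (nat_lit 13571049671) (nat_lit 76) (nat_lit 62002765149) (nat_lit 76) (nat_lit 27921462217) (nat_lit 5) (nat_lit 4) (nat_lit 6) (nat_lit 5) (nat_lit 6) (nat_lit 4) (nat_lit 329) (nat_lit 236) (nat_lit 155)) (XT.lf (nat_lit 0) (nat_lit 29872874630) (nat_lit 76) (nat_lit 56324397044) (nat_lit 76) (nat_lit 22211296802) (nat_lit 5) (nat_lit 4) (nat_lit 6) (nat_lit 5) (nat_lit 6) (nat_lit 4) (nat_lit 330) (nat_lit 236) (nat_lit 154))))) (XT.nd (nat_lit 30966) (nat_lit 0) (nat_lit 19304) (XT.nd (nat_lit 78) (nat_lit 0) (nat_lit 0) (XT.lf (nat_lit 0) (nat_lit 46962888581) (nat_lit 76) (nat_lit 50374234769) (nat_lit 76) (nat_lit 16230851375) (nat_lit 5) (nat_lit 4) (nat_lit 6) (nat_lit 5) (nat_lit 6) (nat_lit 4) (nat_lit 331) (nat_lit 236) (nat_lit 153)) (XT.nd (nat_lit 30810)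 (nat_lit 0) (nat_lit 20824) (XT.lf (nat_lit 0) (nat_lit 64881782033) (nat_lit 76) (nat_lit 44138111272) (nat_lit 76) (nat_lit 9965886781) (nat_lit 5) (nat_lit 4) (nat_lit 6) (nat_lit 5) (nat_lit 6) (nat_lit 4) (nat_lit 332) (nat_lit 236) (nat_lit 152)) (XT.lf (nat_lit 0) (nat_lit 1500252791) (nat_lit 380) (nat_lit 276302306) (nat_lit 0) (nat_lit 1500252791) (nat_lit 279) (nat_lit 5) (nat_lit 284) (nat_lit 4) (nat_lit 279) (nat_lit 4) (nat_lit 246) (nat_lit 237) (nat_lit 237)))) (XT.nd (nat_lit 78) (nat_lit 1064) (nat_lit 0) (XT.lf (nat_lit 0) (nat_lit 1252513946) (nat_lit 456) (nat_lit 1204371192) (nat_lit 76) (nat_lit 4138520321) (nat_lit 273) (nat_lit 5) (nat_lit 279) (nat_lit 5) (nat_lit 274) (nat_lit 4) (nat_lit 247) (nat_lit 237) (nat_lit 236)) (XT.nd (nat_lit 78) (nat_lit 608) (nat_lit 0) (XT.lf (nat_lit 0) (nat_lit 4868282863) (nat_lit 456) (nat_lit 1133591281) (nat_lit 532) (nat_lit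 643836104) (nat_lit 267) (nat_lit 5) (nat_lit 273) (nat_lit 5) (nat_lit 274) (nat_lit 4) (nat_lit 248) (nat_lit 237) (nat_lit 235)) (XT.lf (nat_lit 0) (nat_lit 3997273046) (nat_lit 608) (nat_lit 2287611425) (nat_lit 76) (nat_lit 419413774) (nat_lit 259) (nat_lit 5) (nat_lit 267) (nat_lit 5) (nat_lit 260) (nat_lit 4) (nat_lit 249) (nat_lit 237) (nat_lit 234)))))) (XT.nd (nat_lit 468) (nat_lit 4636) (nat_lit 0) (XT.nd (nat_lit 234) (nat_lit 2888) (nat_lit 0) (XT.nd (nat_lit 78) (nat_lit 1520) (nat_lit 0) (XT.lf (nat_lit 0) (nat_lit 1860449035) (nat_lit 684) (nat_lit 2735833541) (nat_lit 76) (nat_lit 2175120469) (nat_lit 250) (nat_lit 5) (nat_lit 259) (nat_lit 5) (nat_lit 251) (nat_lit 5) (nat_lit 250) (nat_lit 237) (nat_lit 233)) (XT.nd (nat_lit 78) (nat_lit 836) (nat_lit 0) (XT.lf (nat_lit 0) (nat_lit 3727822150) (nat_lit 684) (nat_lit 2683191344) (nat_lit 760) (nat_lit 436367039) (nat_lit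 241) (nat_lit 5) (nat_lit 250) (nat_lit 5) (nat_lit 251) (nat_lit 5) (nat_lit 251) (nat_lit 237) (nat_lit 232)) (XT.lf (nat_lit 0) (nat_lit 3473412486) (nat_lit 760) (nat_lit 524816538) (nat_lit 836) (nat_lit 2933709597) (nat_lit 230) (nat_lit 5) (nat_lit 240) (nat_lit 5) (nat_lit 241) (nat_lit 5) (nat_lit 252) (nat_lit 237) (nat_lit 231)))) (XT.nd (nat_lit 78) (nat_lit 1976) (nat_lit 0) (XT.lf (nat_lit 0) (nat_lit 1439672009) (nat_lit 912) (nat_lit 3756629040) (nat_lit 76) (nat_lit 1828981374) (nat_lit 218) (nat_lit 5) (nat_lit 230) (nat_lit 5) (nat_lit 219) (nat_lit 5) (nat_lit 253) (nat_lit 237) (nat_lit 230)) (XT.nd (nat_lit 78) (nat_lit 1064) (nat_lit 0) (XT.lf (nat_lit 0) (nat_lit 3107483669) (nat_lit 912) (nat_lit 2709386884) (nat_lit 988) (nat_lit 1310700036) (nat_lit 206) (nat_lit 5) (nat_lit 218) (nat_lit 5) (nat_lit 219) (nat_lit 5) (nat_lit 254) (nat_lit 237) (nat_lit 229)) (XT.lf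 (nat_lit 0) (nat_lit 2964325556) (nat_lit 1064) (nat_lit 4251714250) (nat_lit 76) (nat_lit 23049199) (nat_lit 192) (nat_lit 5) (nat_lit 206) (nat_lit 5) (nat_lit 193) (nat_lit 5) (nat_lit 255) (nat_lit 237) (nat_lit 228))))) (XT.nd (nat_lit 234) (nat_lit 1748) (nat_lit 0) (XT.nd (nat_lit 78) (nat_lit 1824) (nat_lit 0) (XT.lf (nat_lit 0) (nat_lit 2889168888) (nat_lit 1064) (nat_lit 4423139965) (nat_lit 1140) (nat_lit 47356510) (nat_lit 178) (nat_lit 5) (nat_lit 192) (nat_lit 5) (nat_lit 193) (nat_lit 5) (nat_lit 256) (nat_lit 237) (nat_lit 227)) (XT.nd (nat_lit 78) (nat_lit 608) (nat_lit 0) (XT.lf (nat_lit 0) (nat_lit 2803792276) (nat_lit 1140) (nat_lit 1367970017) (nat_lit 1216) (nat_lit 3317686865) (nat_lit 162) (nat_lit 5) (nat_lit 177) (nat_lit 5) (nat_lit 178) (nat_lit 5) (nat_lit 257) (nat_lit 237) (nat_lit 226)) (XT.lf (nat_lit 0) (nat_lit 848057911) (nat_lit 608) (nat_lit 4891695668)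 (nat_lit 76) (nat_lit 1889309098) (nat_lit 154) (nat_lit 5) (nat_lit 162) (nat_lit 5) (nat_lit 155) (nat_lit 5) (nat_lit 258) (nat_lit 237) (nat_lit 225)))) (XT.nd (nat_lit 78) (nat_lit 1140) (nat_lit 0) (XT.lf (nat_lit 0) (nat_lit 2661033746) (nat_lit 608) (nat_lit 2389267818) (nat_lit 684) (nat_lit 2727840226) (nat_lit 146) (nat_lit 5) (nat_lit 154) (nat_lit 5) (nat_lit 155) (nat_lit 5) (nat_lit 259) (nat_lit 237) (nat_lit 224)) (XT.nd (nat_lit 78) (nat_lit 532) (nat_lit 0) (XT.lf (nat_lit 0) (nat_lit 1398854487) (nat_lit 608) (nat_lit 5350317900) (nat_lit 76) (nat_lit 1188388078) (nat_lit 138) (nat_lit 5) (nat_lit 146) (nat_lit 5) (nat_lit 139) (nat_lit 5) (nat_lit 260) (nat_lit 237) (nat_lit 223)) (XT.lf (nat_lit 0) (nat_lit 2479872568) (nat_lit 532) (nat_lit 3117417844) (nat_lit 608) (nat_lit 2509525114) (nat_lit 131) (nat_lit 5) (nat_lit 138) (nat_lit 5) (nat_lit 139) (nat_lit 5) (nat_lit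 261) (nat_lit 237) (nat_lit 222))))))))
noncomputable def xc44 : XT := (XT.nd (nat_lit 1716) (nat_lit 2052) (nat_lit 0) (XT.nd (nat_lit 858) (nat_lit 2508) (nat_lit 0) (XT.nd (nat_lit 390) (nat_lit 1824) (nat_lit 0) (XT.nd (nat_lit 156) (nat_lit 1368) (nat_lit 0) (XT.nd (nat_lit 78) (nat_lit 456) (nat_lit 0) (XT.lf (nat_lit 0) (nat_lit 1598173889) (nat_lit 532) (nat_lit 5930009498) (nat_lit 76) (nat_lit 758839772) (nat_lit 124) (nat_lit 5) (nat_lit 131) (nat_lit 5) (nat_lit 125) (nat_lit 5) (nat_lit 262) (nat_lit 237) (nat_lit 221)) (XT.lf (nat_lit 0) (nat_lit 2173863823) (nat_lit 456) (nat_lit 3628008966) (nat_lit 532) (nat_lit 2675638439) (nat_lit 118) (nat_lit 5) (nat_lit 124) (nat_lit 5) (nat_lit 125) (nat_lit 5) (nat_lit 263) (nat_lit 237) (nat_lit 220))) (XT.nd (nat_lit 78) (nat_lit 912) (nat_lit 0) (XT.lf (nat_lit 0) (nat_lit 1429403623) (nat_lit 456) (nat_lit 6723397013) (nat_lit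 76) (nat_lit 526912865) (nat_lit 112) (nat_lit 5) (nat_lit 118) (nat_lit 5) (nat_lit 113) (nat_lit 5) (nat_lit 264) (nat_lit 237) (nat_lit 219)) (XT.nd (nat_lit 78) (nat_lit 456) (nat_lit 0) (XT.lf (nat_lit 0) (nat_lit 1647173127) (nat_lit 456) (nat_lit 3996966590) (nat_lit 532) (nat_lit 3248554278) (nat_lit 106) (nat_lit 5) (nat_lit 112) (nat_lit 5) (nat_lit 113) (nat_lit 5) (nat_lit 265) (nat_lit 237) (nat_lit 218)) (XT.lf (nat_lit 0) (nat_lit 866358314) (nat_lit 456) (nat_lit 7834190949) (nat_lit 76) (nat_lit 417786093) (nat_lit 100) (nat_lit 5) (nat_lit 106) (nat_lit 5) (nat_lit 101) (nat_lit 5) (nat_lit 266) (nat_lit 237) (nat_lit 217))))) (XT.nd (nat_lit 234) (nat_lit 1064) (nat_lit 0) (XT.nd (nat_lit 78) (nat_lit 380) (nat_lit 0) (XT.lf (nat_lit 0) (nat_lit 791880016) (nat_lit 380) (nat_lit 4302411625) (nat_lit 456) (nat_lit 4260994032) (nat_lit 95) (nat_lit 5) (nat_lit 100) (nat_lit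 5) (nat_lit 101) (nat_lit 5) (nat_lit 267) (nat_lit 237) (nat_lit 216)) (XT.nd (nat_lit 78) (nat_lit 76) (nat_lit 0) (XT.lf (nat_lit 0) (nat_lit 224705762) (nat_lit 304) (nat_lit 9251094509) (nat_lit 380) (nat_lit 130232743) (nat_lit 91) (nat_lit 5) (nat_lit 95) (nat_lit 5) (nat_lit 96) (nat_lit 5) (nat_lit 268) (nat_lit 237) (nat_lit 215)) (XT.lf (nat_lit 0) (nat_lit 4116513884) (nat_lit 380) (nat_lit 505026310) (nat_lit 76) (nat_lit 5247016708) (nat_lit 90) (nat_lit 5) (nat_lit 95) (nat_lit 5) (nat_lit 91) (nat_lit 5) (nat_lit 269) (nat_lit 237) (nat_lit 214)))) (XT.nd (nat_lit 78) (nat_lit 684) (nat_lit 0) (XT.lf (nat_lit 0) (nat_lit 8526167011) (nat_lit 456) (nat_lit 1338897546) (nat_lit 76) (nat_lit 280695081) (nat_lit 85) (nat_lit 5) (nat_lit 91) (nat_lit 5) (nat_lit 86) (nat_lit 5) (nat_lit 270) (nat_lit 237) (nat_lit 213)) (XT.nd (nat_lit 78) (nat_lit 304) (nat_lit 0) (XT.lf (nat_lit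 0) (nat_lit 2666094745) (nat_lit 380) (nat_lit 2368258398) (nat_lit 76) (nat_lit 5401869645) (nat_lit 80) (nat_lit 5) (nat_lit 85) (nat_lit 5) (nat_lit 81) (nat_lit 5) (nat_lit 271) (nat_lit 237) (nat_lit 212)) (XT.lf (nat_lit 0) (nat_lit 7090059535) (nat_lit 380) (nat_lit 3559347304) (nat_lit 76) (nat_lit 92763152) (nat_lit 76) (nat_lit 5) (nat_lit 81) (nat_lit 5) (nat_lit 77) (nat_lit 5) (nat_lit 272) (nat_lit 237) (nat_lit 211)))))) (XT.nd (nat_lit 390) (nat_lit 1216) (nat_lit 0) (XT.nd (nat_lit 156) (nat_lit 608) (nat_lit 0) (XT.nd (nat_lit 78) (nat_lit 304) (nat_lit 0) (XT.lf (nat_lit 0) (nat_lit 669966904) (nat_lit 380) (nat_lit 4974395106) (nat_lit 76) (nat_lit 5418674828) (nat_lit 71) (nat_lit 5) (nat_lit 76) (nat_lit 5) (nat_lit 72) (nat_lit 5) (nat_lit 273) (nat_lit 237) (nat_lit 210)) (XT.lf (nat_lit 0) (nat_lit 4782274764) (nat_lit 304) (nat_lit 314231329) (nat_lit 380) (nat_lit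 6303586204) (nat_lit 67) (nat_lit 5) (nat_lit 71) (nat_lit 5) (nat_lit 72) (nat_lit 5) (nat_lit 274) (nat_lit 237) (nat_lit 209))) (XT.nd (nat_lit 78) (nat_lit 380) (nat_lit 0) (XT.lf (nat_lit 0) (nat_lit 3223170191) (nat_lit 228) (nat_lit 6538562120) (nat_lit 304) (nat_lit 1991887161) (nat_lit 64) (nat_lit 5) (nat_lit 67) (nat_lit 5) (nat_lit 68) (nat_lit 5) (nat_lit 275) (nat_lit 237) (nat_lit 208)) (XT.nd (nat_lit 78) (nat_lit 0) (nat_lit 0) (XT.lf (nat_lit 0) (nat_lit 1406639685) (nat_lit 304) (nat_lit 1051391800) (nat_lit 380) (nat_lit 9667026299) (nat_lit 59) (nat_lit 5) (nat_lit 63) (nat_lit 5) (nat_lit 64) (nat_lit 5) (nat_lit 276) (nat_lit 237) (nat_lit 207)) (XT.lf (nat_lit 0) (nat_lit 7113594074) (nat_lit 380) (nat_lit 722369131) (nat_lit 76) (nat_lit 4677905918) (nat_lit 59) (nat_lit 5) (nat_lit 64) (nat_lit 5) (nat_lit 60) (nat_lit 5) (nat_lit 277) (nat_lit 237) (nat_lit 206)))))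 (XT.nd (nat_lit 234) (nat_lit 456) (nat_lit 0) (XT.nd (nat_lit 78) (nat_lit 532) (nat_lit 0) (XT.lf (nat_lit 0) (nat_lit 9799300296) (nat_lit 228) (nat_lit 2202682116) (nat_lit 304) (nat_lit 920254388) (nat_lit 56) (nat_lit 5) (nat_lit 59) (nat_lit 5) (nat_lit 60) (nat_lit 5) (nat_lit 278) (nat_lit 237) (nat_lit 205)) (XT.nd (nat_lit 78) (nat_lit 228) (nat_lit 0) (XT.lf (nat_lit 0) (nat_lit 3723248537) (nat_lit 304) (nat_lit 5918942621) (nat_lit 76) (nat_lit 3707449430) (nat_lit 52) (nat_lit 5) (nat_lit 56) (nat_lit 5) (nat_lit 53) (nat_lit 5) (nat_lit 279) (nat_lit 237) (nat_lit 204)) (XT.lf (nat_lit 0) (nat_lit 4688757395) (nat_lit 228) (nat_lit 3891729561) (nat_lit 304) (nat_lit 5217739696) (nat_lit 49) (nat_lit 5) (nat_lit 52) (nat_lit 5) (nat_lit 53) (nat_lit 5) (nat_lit 280) (nat_lit 237) (nat_lit 203)))) (XT.nd (nat_lit 78) (nat_lit 228) (nat_lit 0) (XT.lf (nat_lit 0) (nat_lit 1543096704)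 (nat_lit 228) (nat_lit 12137974203) (nat_lit 304) (nat_lit 588254898) (nat_lit 46) (nat_lit 5) (nat_lit 49) (nat_lit 5) (nat_lit 50) (nat_lit 5) (nat_lit 281) (nat_lit 237) (nat_lit 202)) (XT.nd (nat_lit 78) (nat_lit 152) (nat_lit 0) (XT.lf (nat_lit 0) (nat_lit 4228986629) (nat_lit 304) (nat_lit 2070392183) (nat_lit 76) (nat_lit 8462270082) (nat_lit 45) (nat_lit 5) (nat_lit 49) (nat_lit 5) (nat_lit 46) (nat_lit 5) (nat_lit 282) (nat_lit 237) (nat_lit 201)) (XT.lf (nat_lit 0) (nat_lit 9151256883) (nat_lit 152) (nat_lit 121915302) (nat_lit 228) (nat_lit 6005380343) (nat_lit 43) (nat_lit 5) (nat_lit 45) (nat_lit 5) (nat_lit 46) (nat_lit 5) (nat_lit 283) (nat_lit 237) (nat_lit 200))))))) (XT.nd (nat_lit 858) (nat_lit 684) (nat_lit 0) (XT.nd (nat_lit 390) (nat_lit 532) (nat_lit 0) (XT.nd (nat_lit 156) (nat_lit 380) (nat_lit 0) (XT.nd (nat_lit 78) (nat_lit 228) (nat_lit 0) (XT.lf (nat_lit 0) (nat_lit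 5056029437) (nat_lit 228) (nat_lit 9557514681) (nat_lit 304) (nat_lit 1206520349) (nat_lit 40) (nat_lit 5) (nat_lit 43) (nat_lit 5) (nat_lit 44) (nat_lit 5) (nat_lit 284) (nat_lit 237) (nat_lit 199)) (XT.lf (nat_lit 0) (nat_lit 372725441) (nat_lit 152) (nat_lit 3367919719) (nat_lit 228) (nat_lit 12647483596) (nat_lit 37) (nat_lit 5) (nat_lit 39) (nat_lit 5) (nat_lit 40) (nat_lit 5) (nat_lit 285) (nat_lit 237) (nat_lit 198))) (XT.nd (nat_lit 78) (nat_lit 380) (nat_lit 0) (XT.lf (nat_lit 0) (nat_lit 8969406884) (nat_lit 228) (nat_lit 4867230979) (nat_lit 76) (nat_lit 3145896898) (nat_lit 37) (nat_lit 5) (nat_lit 40) (nat_lit 5) (nat_lit 38) (nat_lit 5) (nat_lit 286) (nat_lit 237) (nat_lit 197)) (XT.nd (nat_lit 78) (nat_lit 228) (nat_lit 0) (XT.lf (nat_lit 0) (nat_lit 6809767309) (nat_lit 152) (nat_lit 7670203465) (nat_lit 228) (nat_lit 3126148506) (nat_lit 35) (nat_lit 5) (nat_lit 37) (nat_lit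 5) (nat_lit 38) (nat_lit 5) (nat_lit 287) (nat_lit 237) (nat_lit 196)) (XT.lf (nat_lit 0) (nat_lit 783033531) (nat_lit 152) (nat_lit 1163809946) (nat_lit 228) (nat_lit 16314101470) (nat_lit 32) (nat_lit 5) (nat_lit 34) (nat_lit 5) (nat_lit 35) (nat_lit 5) (nat_lit 288) (nat_lit 237) (nat_lit 195))))) (XT.nd (nat_lit 234) (nat_lit 380) (nat_lit 0) (XT.nd (nat_lit 78) (nat_lit 152) (nat_lit 0) (XT.lf (nat_lit 0) (nat_lit 7300879909) (nat_lit 228) (nat_lit 5988994302) (nat_lit 76) (nat_lit 5655008557) (nat_lit 32) (nat_lit 5) (nat_lit 35) (nat_lit 5) (nat_lit 33) (nat_lit 5) (nat_lit 289) (nat_lit 237) (nat_lit 194)) (XT.nd (nat_lit 78) (nat_lit 0) (nat_lit 0) (XT.lf (nat_lit 0) (nat_lit 6063145212) (nat_lit 152) (nat_lit 6857811494) (nat_lit 228) (nat_lit 6742168602) (nat_lit 30) (nat_lit 5) (nat_lit 32) (nat_lit 5) (nat_lit 33) (nat_lit 5) (nat_lit 290) (nat_lit 237) (nat_lit 193)) (XT.lf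 (nat_lit 0) (nat_lit 18728629873) (nat_lit 152) (nat_lit 85682174) (nat_lit 228) (nat_lit 1603254909) (nat_lit 30) (nat_lit 5) (nat_lit 32) (nat_lit 5) (nat_lit 33) (nat_lit 5) (nat_lit 291) (nat_lit 237) (nat_lit 192)))) (XT.nd (nat_lit 78) (nat_lit 152) (nat_lit 0) (XT.lf (nat_lit 0) (nat_lit 3824941592) (nat_lit 228) (nat_lit 10392833808) (nat_lit 76) (nat_lit 6987722308) (nat_lit 27) (nat_lit 5) (nat_lit 30) (nat_lit 5) (nat_lit 28) (nat_lit 5) (nat_lit 292) (nat_lit 237) (nat_lit 191)) (XT.nd (nat_lit 78) (nat_lit 0) (nat_lit 0) (XT.lf (nat_lit 0) (nat_lit 1852503974) (nat_lit 152) (nat_lit 7610386645) (nat_lit 228) (nat_lit 12570361782) (nat_lit 25) (nat_lit 5) (nat_lit 27) (nat_lit 5) (nat_lit 28) (nat_lit 5) (nat_lit 293) (nat_lit 237) (nat_lit 190)) (XT.lf (nat_lit 0) (nat_lit 14821644531) (nat_lit 152) (nat_lit 605120938) (nat_lit 228) (nat_lit 7474354821) (nat_lit 25) (nat_lit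 5) (nat_lit 27) (nat_lit 5) (nat_lit 28) (nat_lit 5) (nat_lit 294) (nat_lit 237) (nat_lit 189)))))) (XT.nd (nat_lit 390) (nat_lit 304) (nat_lit 0) (XT.nd (nat_lit 156) (nat_lit 228) (nat_lit 0) (XT.nd (nat_lit 78) (nat_lit 76) (nat_lit 0) (XT.lf (nat_lit 0) (nat_lit 4548667176) (nat_lit 76) (nat_lit 17188430969) (nat_lit 152) (nat_lit 2073879614) (nat_lit 24) (nat_lit 5) (nat_lit 25) (nat_lit 5) (nat_lit 26) (nat_lit 4) (nat_lit 295) (nat_lit 237) (nat_lit 188)) (XT.lf (nat_lit 0) (nat_lit 3557490103) (nat_lit 152) (nat_lit 6928637926) (nat_lit 76) (nat_lit 14278272058) (nat_lit 23) (nat_lit 5) (nat_lit 25) (nat_lit 5) (nat_lit 24) (nat_lit 5) (nat_lit 296) (nat_lit 237) (nat_lit 187))) (XT.nd (nat_lit 78) (nat_lit 76) (nat_lit 0) (XT.lf (nat_lit 0) (nat_lit 6022734795) (nat_lit 152) (nat_lit 3406858816) (nat_lit 228) (nat_lit 16335261069) (nat_lit 21) (nat_lit 5) (nat_lit 23) (nat_lit 5)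 (nat_lit 24) (nat_lit 5) (nat_lit 297) (nat_lit 237) (nat_lit 186)) (XT.nd (nat_lit 78) (nat_lit 76) (nat_lit 0) (XT.lf (nat_lit 0) (nat_lit 15651216596) (nat_lit 228) (nat_lit 7180276619) (nat_lit 76) (nat_lit 3982198353) (nat_lit 21) (nat_lit 5) (nat_lit 24) (nat_lit 5) (nat_lit 22) (nat_lit 4) (nat_lit 298) (nat_lit 237) (nat_lit 185)) (XT.lf (nat_lit 0) (nat_lit 6002752161) (nat_lit 76) (nat_lit 16221047361) (nat_lit 152) (nat_lit 5690009646) (nat_lit 20) (nat_lit 5) (nat_lit 21) (nat_lit 5) (nat_lit 22) (nat_lit 4) (nat_lit 299) (nat_lit 237) (nat_lit 184))))) (XT.nd (nat_lit 234) (nat_lit 76) (nat_lit 0) (XT.nd (nat_lit 78) (nat_lit 152) (nat_lit 0) (XT.lf (nat_lit 0) (nat_lit 78537051) (nat_lit 152) (nat_lit 9161142257) (nat_lit 76) (nat_lit 19828563171) (nat_lit 19) (nat_lit 5) (nat_lit 21) (nat_lit 5) (nat_lit 20) (nat_lit 5) (nat_lit 300) (nat_lit 237) (nat_lit 183)) (XT.nd (nat_lit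 78) (nat_lit 0) (nat_lit 0) (XT.lf (nat_lit 0) (nat_lit 4166196805) (nat_lit 152) (nat_lit 1844117115) (nat_lit 228) (nat_lit 24268650030) (nat_lit 17) (nat_lit 5) (nat_lit 19) (nat_lit 5) (nat_lit 20) (nat_lit 5) (nat_lit 301) (nat_lit 237) (nat_lit 182)) (XT.lf (nat_lit 0) (nat_lit 12343379399) (nat_lit 228) (nat_lit 13336545575) (nat_lit 76) (nat_lit 5867185075) (nat_lit 17) (nat_lit 5) (nat_lit 20) (nat_lit 5) (nat_lit 18) (nat_lit 4) (nat_lit 302) (nat_lit 237) (nat_lit 181)))) (XT.nd (nat_lit 78) (nat_lit 76) (nat_lit 0) (XT.lf (nat_lit 0) (nat_lit 18966512939) (nat_lit 228) (nat_lit 18835443) (nat_lit 76) (nat_lit 13894140769) (nat_lit 17) (nat_lit 5) (nat_lit 20) (nat_lit 5) (nat_lit 18) (nat_lit 4) (nat_lit 303) (nat_lit 237) (nat_lit 180)) (XT.nd (nat_lit 78) (nat_lit 0) (nat_lit 0) (XT.lf (nat_lit 0) (nat_lit 14166233098) (nat_lit 76) (nat_lit 11847698524) (nat_lit 152) (nat_lit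 8261788533) (nat_lit 16) (nat_lit 5) (nat_lit 17) (nat_lit 5) (nat_lit 18) (nat_lit 4) (nat_lit 304) (nat_lit 237) (nat_lit 179)) (XT.lf (nat_lit 0) (nat_lit 28988136095) (nat_lit 76) (nat_lit 4384082898) (nat_lit 152) (nat_lit 2370814307) (nat_lit 16) (nat_lit 5) (nat_lit 17) (nat_lit 5) (nat_lit 18) (nat_lit 4) (nat_lit 305) (nat_lit 237) (nat_lit 178))))))))
noncomputable def xc45 : XT := (XT.nd (nat_lit 1716) (nat_lit 76) (nat_lit 0) (XT.nd (nat_lit 858) (nat_lit 228) (nat_lit 0) (XT.nd (nat_lit 390) (nat_lit 228) (nat_lit 0) (XT.nd (nat_lit 156) (nat_lit 76) (nat_lit 0) (XT.nd (nat_lit 78) (nat_lit 0) (nat_lit 0) (XT.lf (nat_lit 0) (nat_lit 3804303083) (nat_lit 228) (nat_lit 30012597381) (nat_lit 76) (nat_lit 3463814166) (nat_lit 13) (nat_lit 5) (nat_lit 16) (nat_lit 5) (nat_lit 14) (nat_lit 4) (nat_lit 306) (nat_lit 237) (nat_lit 177)) (XT.lf (nat_lit 0) (nat_lit 10314920415) (nat_lit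 228) (nat_lit 16897684659) (nat_lit 76) (nat_lit 11679719943) (nat_lit 13) (nat_lit 5) (nat_lit 16) (nat_lit 5) (nat_lit 14) (nat_lit 4) (nat_lit 307) (nat_lit 237) (nat_lit 176))) (XT.nd (nat_lit 78) (nat_lit 76) (nat_lit 0) (XT.lf (nat_lit 0) (nat_lit 17113779625) (nat_lit 228) (nat_lit 3192800901) (nat_lit 76) (nat_lit 20279075473) (nat_lit 13) (nat_lit 5) (nat_lit 16) (nat_lit 5) (nat_lit 14) (nat_lit 4) (nat_lit 308) (nat_lit 237) (nat_lit 175)) (XT.nd (nat_lit 78) (nat_lit 0) (nat_lit 0) (XT.lf (nat_lit 0) (nat_lit 11356286624) (nat_lit 76) (nat_lit 12969945424) (nat_lit 152) (nat_lit 18035232363) (nat_lit 12) (nat_lit 5) (nat_lit 13) (nat_lit 5) (nat_lit 14) (nat_lit 4) (nat_lit 309) (nat_lit 237) (nat_lit 174)) (XT.lf (nat_lit 0) (nat_lit 26638701831) (nat_lit 76) (nat_lit 5259065221) (nat_lit 152) (nat_lit 12328361808) (nat_lit 12) (nat_lit 5) (nat_lit 13) (nat_lit 5) (nat_lit 14)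 (nat_lit 4) (nat_lit 310) (nat_lit 237) (nat_lit 173))))) (XT.nd (nat_lit 234) (nat_lit 76) (nat_lit 0) (XT.nd (nat_lit 78) (nat_lit 152) (nat_lit 0) (XT.lf (nat_lit 0) (nat_lit 39842142512) (nat_lit 152) (nat_lit 3584772037) (nat_lit 0) (nat_lit 2757302564) (nat_lit 12) (nat_lit 5) (nat_lit 14) (nat_lit 4) (nat_lit 12) (nat_lit 4) (nat_lit 311) (nat_lit 237) (nat_lit 172)) (XT.nd (nat_lit 78) (nat_lit 0) (nat_lit 0) (XT.lf (nat_lit 0) (nat_lit 75468412) (nat_lit 152) (nat_lit 37008957478) (nat_lit 76) (nat_lit 11151892089) (nat_lit 10) (nat_lit 5) (nat_lit 12) (nat_lit 5) (nat_lit 11) (nat_lit 4) (nat_lit 312) (nat_lit 237) (nat_lit 171)) (XT.lf (nat_lit 0) (nat_lit 6690429620) (nat_lit 152) (nat_lit 23654222804) (nat_lit 76) (nat_lit 20044272817) (nat_lit 10) (nat_lit 5) (nat_lit 12) (nat_lit 5) (nat_lit 11) (nat_lit 4) (nat_lit 313) (nat_lit 237) (nat_lit 170)))) (XT.nd (nat_lit 78) (nat_lit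 76) (nat_lit 0) (XT.lf (nat_lit 0) (nat_lit 13606822856) (nat_lit 152) (nat_lit 9684074611) (nat_lit 76) (nat_lit 29359160390) (nat_lit 10) (nat_lit 5) (nat_lit 12) (nat_lit 5) (nat_lit 11) (nat_lit 4) (nat_lit 314) (nat_lit 237) (nat_lit 169)) (XT.nd (nat_lit 78) (nat_lit 0) (nat_lit 0) (XT.lf (nat_lit 0) (nat_lit 5032960547) (nat_lit 76) (nat_lit 15856535071) (nat_lit 152) (nat_lit 34134152461) (nat_lit 9) (nat_lit 5) (nat_lit 10) (nat_lit 5) (nat_lit 11) (nat_lit 4) (nat_lit 315) (nat_lit 237) (nat_lit 168)) (XT.lf (nat_lit 0) (nat_lit 20639812921) (nat_lit 76) (nat_lit 7969122313) (nat_lit 152) (nat_lit 28904817647) (nat_lit 9) (nat_lit 5) (nat_lit 10) (nat_lit 5) (nat_lit 11) (nat_lit 4) (nat_lit 316) (nat_lit 237) (nat_lit 167)))))) (XT.nd (nat_lit 390) (nat_lit 76) (nat_lit 0) (XT.nd (nat_lit 156) (nat_lit 152) (nat_lit 0) (XT.nd (nat_lit 78) (nat_lit 0) (nat_lit 0) (XT.lf (nat_lit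 0) (nat_lit 36691389471) (nat_lit 152) (nat_lit 23151049789) (nat_lit 0) (nat_lit 286625781) (nat_lit 9) (nat_lit 5) (nat_lit 11) (nat_lit 4) (nat_lit 9) (nat_lit 4) (nat_lit 317) (nat_lit 237) (nat_lit 166)) (XT.lf (nat_lit 0) (nat_lit 45233674179) (nat_lit 152) (nat_lit 8866915383) (nat_lit 0) (nat_lit 8772894774) (nat_lit 9) (nat_lit 5) (nat_lit 11) (nat_lit 4) (nat_lit 9) (nat_lit 4) (nat_lit 318) (nat_lit 237) (nat_lit 165))) (XT.nd (nat_lit 78) (nat_lit 76) (nat_lit 0) (XT.lf (nat_lit 0) (nat_lit 6210261755) (nat_lit 76) (nat_lit 48028959133) (nat_lit 76) (nat_lit 11514831427) (nat_lit 8) (nat_lit 4) (nat_lit 9) (nat_lit 5) (nat_lit 9) (nat_lit 4) (nat_lit 319) (nat_lit 237) (nat_lit 164)) (XT.nd (nat_lit 78) (nat_lit 76) (nat_lit 0) (XT.lf (nat_lit 0) (nat_lit 22185455553) (nat_lit 76) (nat_lit 41578043351) (nat_lit 76) (nat_lit 5013107740) (nat_lit 8) (nat_lit 4) (nat_lit 9) (nat_lit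 5) (nat_lit 9) (nat_lit 4) (nat_lit 320) (nat_lit 237) (nat_lit 163)) (XT.lf (nat_lit 0) (nat_lit 1756347968) (nat_lit 152) (nat_lit 33047937716) (nat_lit 76) (nat_lit 37146149546) (nat_lit 7) (nat_lit 5) (nat_lit 9) (nat_lit 5) (nat_lit 8) (nat_lit 4) (nat_lit 321) (nat_lit 237) (nat_lit 162))))) (XT.nd (nat_lit 234) (nat_lit 0) (nat_lit 0) (XT.nd (nat_lit 78) (nat_lit 76) (nat_lit 0) (XT.lf (nat_lit 0) (nat_lit 8740645008) (nat_lit 152) (nat_lit 18915898992) (nat_lit 76) (nat_lit 47625530974) (nat_lit 7) (nat_lit 5) (nat_lit 9) (nat_lit 5) (nat_lit 8) (nat_lit 4) (nat_lit 322) (nat_lit 237) (nat_lit 161)) (XT.nd (nat_lit 78) (nat_lit 76) (nat_lit 0) (XT.lf (nat_lit 0) (nat_lit 16054236447) (nat_lit 152) (nat_lit 4113198150) (nat_lit 76) (nat_lit 58613469428) (nat_lit 7) (nat_lit 5) (nat_lit 9) (nat_lit 5) (nat_lit 8) (nat_lit 4) (nat_lit 323) (nat_lit 237) (nat_lit 160)) (XT.lf (nat_lit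 0) (nat_lit 11622200323) (nat_lit 76) (nat_lit 12204054972) (nat_lit 152) (nat_lit 58625646041) (nat_lit 6) (nat_lit 5) (nat_lit 7) (nat_lit 5) (nat_lit 8) (nat_lit 4) (nat_lit 324) (nat_lit 237) (nat_lit 159)))) (XT.nd (nat_lit 78) (nat_lit 0) (nat_lit 0) (XT.lf (nat_lit 0) (nat_lit 28197075216) (nat_lit 76) (nat_lit 3813753585) (nat_lit 152) (nat_lit 54294909906) (nat_lit 6) (nat_lit 5) (nat_lit 7) (nat_lit 5) (nat_lit 8) (nat_lit 4) (nat_lit 325) (nat_lit 237) (nat_lit 158)) (XT.nd (nat_lit 78) (nat_lit 0) (nat_lit 0) (XT.lf (nat_lit 0) (nat_lit 40635007749) (nat_lit 152) (nat_lit 44831661073) (nat_lit 0) (nat_lit 4884696203) (nat_lit 6) (nat_lit 5) (nat_lit 8) (nat_lit 4) (nat_lit 6) (nat_lit 4) (nat_lit 326) (nat_lit 237) (nat_lit 157)) (XT.lf (nat_lit 0) (nat_lit 49712080740) (nat_lit 152) (nat_lit 30959836692) (nat_lit 0) (nat_lit 13926712661) (nat_lit 6) (nat_lit 5) (nat_lit 8) (nat_lit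 4) (nat_lit 6) (nat_lit 4) (nat_lit 327) (nat_lit 237) (nat_lit 156))))))) (XT.nd (nat_lit 31512) (nat_lit 0) (nat_lit 9500) (XT.nd (nat_lit 31044) (nat_lit 0) (nat_lit 18620) (XT.nd (nat_lit 156) (nat_lit 76) (nat_lit 0) (XT.nd (nat_lit 78) (nat_lit 0) (nat_lit 0) (XT.lf (nat_lit 0) (nat_lit 59226999721) (nat_lit 152) (nat_lit 16423502061) (nat_lit 0) (nat_lit 23408244467) (nat_lit 6) (nat_lit 5) (nat_lit 8) (nat_lit 4) (nat_lit 6) (nat_lit 4) (nat_lit 328) (nat_lit 237) (nat_lit 155)) (XT.lf (nat_lit 0) (nat_lit 69202419260) (nat_lit 152) (nat_lit 1188046861) (nat_lit 0) (nat_lit 33351866697) (nat_lit 6) (nat_lit 5) (nat_lit 8) (nat_lit 4) (nat_lit 6) (nat_lit 4) (nat_lit 329) (nat_lit 237) (nat_lit 154))) (XT.nd (nat_lit 78) (nat_lit 0) (nat_lit 0) (XT.lf (nat_lit 0) (nat_lit 15077010584) (nat_lit 76) (nat_lit 64730009221) (nat_lit 76) (nat_lit 28849173506) (nat_lit 5) (nat_lit 4) (nat_lit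 6) (nat_lit 5) (nat_lit 6) (nat_lit 4) (nat_lit 330) (nat_lit 237) (nat_lit 153)) (XT.nd (nat_lit 30732) (nat_lit 0) (nat_lit 21204) (XT.lf (nat_lit 0) (nat_lit 32154526390) (nat_lit 76) (nat_lit 58785479576) (nat_lit 76) (nat_lit 22875802764) (nat_lit 5) (nat_lit 4) (nat_lit 6) (nat_lit 5) (nat_lit 6) (nat_lit 4) (nat_lit 331) (nat_lit 237) (nat_lit 152)) (XT.lf (nat_lit 0) (nat_lit 575270394) (nat_lit 228) (nat_lit 1335175041) (nat_lit 228) (nat_lit 1335175041) (nat_lit 284) (nat_lit 4) (nat_lit 287) (nat_lit 5) (nat_lit 287) (nat_lit 4) (nat_lit 244) (nat_lit 238) (nat_lit 238))))) (XT.nd (nat_lit 234) (nat_lit 1748) (nat_lit 0) (XT.nd (nat_lit 78) (nat_lit 456) (nat_lit 0) (XT.lf (nat_lit 0) (nat_lit 192176133) (nat_lit 304) (nat_lit 1898724881) (nat_lit 380) (nat_lit 4429474614) (nat_lit 279) (nat_lit 5) (nat_lit 283) (nat_lit 5) (nat_lit 284) (nat_lit 4) (nat_lit 245) (nat_lit 238)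 (nat_lit 237)) (XT.nd (nat_lit 78) (nat_lit 380) (nat_lit 0) (XT.lf (nat_lit 0) (nat_lit 241965412) (nat_lit 380) (nat_lit 658469905) (nat_lit 76) (nat_lit 5657428995) (nat_lit 278) (nat_lit 5) (nat_lit 283) (nat_lit 5) (nat_lit 279) (nat_lit 5) (nat_lit 246) (nat_lit 238) (nat_lit 236)) (XT.lf (nat_lit 0) (nat_lit 4833778071) (nat_lit 456) (nat_lit 1437275394) (nat_lit 76) (nat_lit 332295170) (nat_lit 273) (nat_lit 5) (nat_lit 279) (nat_lit 5) (nat_lit 274) (nat_lit 4) (nat_lit 247) (nat_lit 238) (nat_lit 235)))) (XT.nd (nat_lit 78) (nat_lit 1216) (nat_lit 0) (XT.lf (nat_lit 0) (nat_lit 2739130395) (nat_lit 532) (nat_lit 2146512309) (nat_lit 76) (nat_lit 1771517557) (nat_lit 266) (nat_lit 5) (nat_lit 273) (nat_lit 5) (nat_lit 267) (nat_lit 5) (nat_lit 248) (nat_lit 238) (nat_lit 234)) (XT.nd (nat_lit 78) (nat_lit 608) (nat_lit 0) (XT.lf (nat_lit 0) (nat_lit 504402915) (nat_lit 608) (nat_lit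 2779329060) (nat_lit 76) (nat_lit 3436021244) (nat_lit 258) (nat_lit 5) (nat_lit 266) (nat_lit 5) (nat_lit 259) (nat_lit 5) (nat_lit 249) (nat_lit 238) (nat_lit 233)) (XT.lf (nat_lit 0) (nat_lit 3432472656) (nat_lit 608) (nat_lit 1442336107) (nat_lit 684) (nat_lit 1915909395) (nat_lit 250) (nat_lit 5) (nat_lit 258) (nat_lit 5) (nat_lit 259) (nat_lit 5) (nat_lit 250) (nat_lit 238) (nat_lit 232)))))) (XT.nd (nat_lit 468) (nat_lit 3572) (nat_lit 0) (XT.nd (nat_lit 234) (nat_lit 3116) (nat_lit 0) (XT.nd (nat_lit 78) (nat_lit 1672) (nat_lit 0) (XT.lf (nat_lit 0) (nat_lit 2370485022) (nat_lit 760) (nat_lit 3881423106) (nat_lit 76) (nat_lit 618487388) (nat_lit 240) (nat_lit 5) (nat_lit 250) (nat_lit 5) (nat_lit 241) (nat_lit 5) (nat_lit 251) (nat_lit 238) (nat_lit 231)) (XT.nd (nat_lit 78) (nat_lit 912) (nat_lit 0) (XT.lf (nat_lit 0) (nat_lit 2597987757) (nat_lit 760) (nat_lit 4077556998) (nat_lit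 836) (nat_lit 283189675) (nat_lit 230) (nat_lit 5) (nat_lit 240) (nat_lit 5) (nat_lit 241) (nat_lit 5) (nat_lit 252) (nat_lit 238) (nat_lit 230)) (XT.lf (nat_lit 0) (nat_lit 2247057542) (nat_lit 836) (nat_lit 1654050588) (nat_lit 912) (nat_lit 3154581856) (nat_lit 218) (nat_lit 5) (nat_lit 229) (nat_lit 5) (nat_lit 230) (nat_lit 5) (nat_lit 253) (nat_lit 238) (nat_lit 229)))) (XT.nd (nat_lit 78) (nat_lit 2128) (nat_lit 0) (XT.lf (nat_lit 0) (nat_lit 965021652) (nat_lit 988) (nat_lit 5215707564) (nat_lit 76) (nat_lit 981165207) (nat_lit 205) (nat_lit 5) (nat_lit 218) (nat_lit 5) (nat_lit 206) (nat_lit 5) (nat_lit 254) (nat_lit 238) (nat_lit 228)) (XT.nd (nat_lit 78) (nat_lit 1140) (nat_lit 0) (XT.lf (nat_lit 0) (nat_lit 1660931856) (nat_lit 988) (nat_lit 3438531925) (nat_lit 1064) (nat_lit 2177246045) (nat_lit 192) (nat_lit 5) (nat_lit 205) (nat_lit 5) (nat_lit 206) (nat_lit 5) (nat_lit 255)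 (nat_lit 238) (nat_lit 227)) (XT.lf (nat_lit 0) (nat_lit 1413349015) (nat_lit 1064) (nat_lit 454558543) (nat_lit 1140) (nat_lit 5533262643) (nat_lit 177) (nat_lit 5) (nat_lit 191) (nat_lit 5) (nat_lit 192) (nat_lit 5) (nat_lit 256) (nat_lit 238) (nat_lit 226))))) (XT.nd (nat_lit 234) (nat_lit 1216) (nat_lit 0) (XT.nd (nat_lit 78) (nat_lit 1216) (nat_lit 0) (XT.lf (nat_lit 0) (nat_lit 1165848015) (nat_lit 1140) (nat_lit 4804846547) (nat_lit 1216) (nat_lit 1563905931) (nat_lit 162) (nat_lit 5) (nat_lit 177) (nat_lit 5) (nat_lit 178) (nat_lit 5) (nat_lit 257) (nat_lit 238) (nat_lit 225)) (XT.nd (nat_lit 78) (nat_lit 608) (nat_lit 0) (XT.lf (nat_lit 0) (nat_lit 928882747) (nat_lit 532) (nat_lit 1509931421) (nat_lit 608) (nat_lit 5238941162) (nat_lit 154) (nat_lit 5) (nat_lit 161) (nat_lit 5) (nat_lit 162) (nat_lit 5) (nat_lit 258) (nat_lit 238) (nat_lit 224)) (XT.lf (nat_lit 0) (nat_lit 687706407)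 (nat_lit 608) (nat_lit 5830711243) (nat_lit 684) (nat_lit 1312270292) (nat_lit 146) (nat_lit 5) (nat_lit 154) (nat_lit 5) (nat_lit 155) (nat_lit 5) (nat_lit 259) (nat_lit 238) (nat_lit 223)))) (XT.nd (nat_lit 78) (nat_lit 608) (nat_lit 0) (XT.lf (nat_lit 0) (nat_lit 425948620) (nat_lit 532) (nat_lit 2241527179) (nat_lit 608) (nat_lit 5325963528) (nat_lit 138) (nat_lit 5) (nat_lit 145) (nat_lit 5) (nat_lit 146) (nat_lit 5) (nat_lit 260) (nat_lit 238) (nat_lit 222)) (XT.nd (nat_lit 78) (nat_lit 76) (nat_lit 0) (XT.lf (nat_lit 0) (nat_lit 147338047) (nat_lit 532) (nat_lit 6591049503) (nat_lit 608) (nat_lit 1428286048) (nat_lit 131) (nat_lit 5) (nat_lit 138) (nat_lit 5) (nat_lit 139) (nat_lit 5) (nat_lit 261) (nat_lit 238) (nat_lit 221)) (XT.lf (nat_lit 0) (nat_lit 2546774103) (nat_lit 608) (nat_lit 174787103) (nat_lit 76) (nat_lit 5628496337) (nat_lit 130) (nat_lit 5) (nat_lit 138) (nat_lit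 5) (nat_lit 131) (nat_lit 5) (nat_lit 262) (nat_lit 238) (nat_lit 220))))))))
noncomputable def xc46 : XT := (XT.nd (nat_lit 1716) (nat_lit 2052) (nat_lit 0) (XT.nd (nat_lit 858) (nat_lit 2204) (nat_lit 0) (XT.nd (nat_lit 390) (nat_lit 2128) (nat_lit 0) (XT.nd (nat_lit 156) (nat_lit 1292) (nat_lit 0) (XT.nd (nat_lit 78) (nat_lit 532) (nat_lit 0) (XT.lf (nat_lit 0) (nat_lit 6623252112) (nat_lit 532) (nat_lit 531075012) (nat_lit 76) (nat_lit 1390170275) (nat_lit 124) (nat_lit 5) (nat_lit 131) (nat_lit 5) (nat_lit 125) (nat_lit 5) (nat_lit 263) (nat_lit 238) (nat_lit 219)) (XT.lf (nat_lit 0) (nat_lit 2063380204) (nat_lit 532) (nat_lit 955880584) (nat_lit 76) (nat_lit 5730517177) (nat_lit 117) (nat_lit 5) (nat_lit 124) (nat_lit 5) (nat_lit 118) (nat_lit 5) (nat_lit 264) (nat_lit 238) (nat_lit 218))) (XT.nd (nat_lit 78) (nat_lit 912) (nat_lit 0) (XT.lf (nat_lit 0) (nat_lit 6150057473) (nat_lit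 456) (nat_lit 1446446454) (nat_lit 76) (nat_lit 1370215319) (nat_lit 112) (nat_lit 5) (nat_lit 118) (nat_lit 5) (nat_lit 113) (nat_lit 5) (nat_lit 265) (nat_lit 238) (nat_lit 217)) (XT.nd (nat_lit 78) (nat_lit 380) (nat_lit 0) (XT.lf (nat_lit 0) (nat_lit 1187148668) (nat_lit 532) (nat_lit 2025660995) (nat_lit 76) (nat_lit 5982616681) (nat_lit 105) (nat_lit 5) (nat_lit 112) (nat_lit 5) (nat_lit 106) (nat_lit 5) (nat_lit 266) (nat_lit 238) (nat_lit 216)) (XT.lf (nat_lit 0) (nat_lit 5287102562) (nat_lit 456) (nat_lit 2707818243) (nat_lit 76) (nat_lit 1441400053) (nat_lit 100) (nat_lit 5) (nat_lit 106) (nat_lit 5) (nat_lit 101) (nat_lit 5) (nat_lit 267) (nat_lit 238) (nat_lit 215))))) (XT.nd (nat_lit 234) (nat_lit 988) (nat_lit 0) (XT.nd (nat_lit 78) (nat_lit 760) (nat_lit 0) (XT.lf (nat_lit 0) (nat_lit 6191381550) (nat_lit 380) (nat_lit 3378124842) (nat_lit 456) (nat_lit 120634773) (nat_lit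 95) (nat_lit 5) (nat_lit 100) (nat_lit 5) (nat_lit 101) (nat_lit 5) (nat_lit 268) (nat_lit 238) (nat_lit 214)) (XT.nd (nat_lit 78) (nat_lit 380) (nat_lit 0) (XT.lf (nat_lit 0) (nat_lit 3993348063) (nat_lit 380) (nat_lit 4436388691) (nat_lit 76) (nat_lit 1526995125) (nat_lit 90) (nat_lit 5) (nat_lit 95) (nat_lit 5) (nat_lit 91) (nat_lit 5) (nat_lit 269) (nat_lit 238) (nat_lit 213)) (XT.lf (nat_lit 0) (nat_lit 4716705577) (nat_lit 380) (nat_lit 3581853926) (nat_lit 456) (nat_lit 1938596267) (nat_lit 85) (nat_lit 5) (nat_lit 90) (nat_lit 5) (nat_lit 91) (nat_lit 5) (nat_lit 270) (nat_lit 238) (nat_lit 212)))) (XT.nd (nat_lit 78) (nat_lit 608) (nat_lit 0) (XT.lf (nat_lit 0) (nat_lit 2215675715) (nat_lit 380) (nat_lit 6771799225) (nat_lit 76) (nat_lit 1544446463) (nat_lit 80) (nat_lit 5) (nat_lit 85) (nat_lit 5) (nat_lit 81) (nat_lit 5) (nat_lit 271) (nat_lit 238) (nat_lit 211)) (XT.nd (nat_lit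 78) (nat_lit 304) (nat_lit 0) (XT.lf (nat_lit 0) (nat_lit 2610944197) (nat_lit 304) (nat_lit 3924965579) (nat_lit 380) (nat_lit 4305148162) (nat_lit 76) (nat_lit 5) (nat_lit 80) (nat_lit 5) (nat_lit 81) (nat_lit 5) (nat_lit 272) (nat_lit 238) (nat_lit 210)) (XT.lf (nat_lit 0) (nat_lit 1289259969) (nat_lit 304) (nat_lit 9762185772) (nat_lit 380) (nat_lit 114977985) (nat_lit 72) (nat_lit 5) (nat_lit 76) (nat_lit 5) (nat_lit 77) (nat_lit 5) (nat_lit 273) (nat_lit 238) (nat_lit 209)))))) (XT.nd (nat_lit 390) (nat_lit 988) (nat_lit 0) (XT.nd (nat_lit 156) (nat_lit 836) (nat_lit 0) (XT.nd (nat_lit 78) (nat_lit 304) (nat_lit 0) (XT.lf (nat_lit 0) (nat_lit 4212184891) (nat_lit 380) (nat_lit 290934546) (nat_lit 76) (nat_lit 7003509672) (nat_lit 71) (nat_lit 5) (nat_lit 76) (nat_lit 5) (nat_lit 72) (nat_lit 5) (nat_lit 274) (nat_lit 238) (nat_lit 208)) (XT.lf (nat_lit 0) (nat_lit 8749337200) (nat_lit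 380) (nat_lit 2062499986) (nat_lit 76) (nat_lit 1052226237) (nat_lit 67) (nat_lit 5) (nat_lit 72) (nat_lit 5) (nat_lit 68) (nat_lit 5) (nat_lit 275) (nat_lit 238) (nat_lit 207))) (XT.nd (nat_lit 78) (nat_lit 532) (nat_lit 0) (XT.lf (nat_lit 0) (nat_lit 1270485844) (nat_lit 304) (nat_lit 4123919256) (nat_lit 76) (nat_lit 6844078983) (nat_lit 63) (nat_lit 5) (nat_lit 67) (nat_lit 5) (nat_lit 64) (nat_lit 5) (nat_lit 276) (nat_lit 238) (nat_lit 206)) (XT.nd (nat_lit 78) (nat_lit 228) (nat_lit 0) (XT.lf (nat_lit 0) (nat_lit 5792366823) (nat_lit 380) (nat_lit 6483000526) (nat_lit 76) (nat_lit 355995692) (nat_lit 59) (nat_lit 5) (nat_lit 64) (nat_lit 5) (nat_lit 60) (nat_lit 5) (nat_lit 277) (nat_lit 238) (nat_lit 205)) (XT.lf (nat_lit 0) (nat_lit 3850678278) (nat_lit 228) (nat_lit 6724225542) (nat_lit 304) (nat_lit 2468056887) (nat_lit 56) (nat_lit 5) (nat_lit 59) (nat_lit 5) (nat_lit 60) (nat_lit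 5) (nat_lit 278) (nat_lit 238) (nat_lit 204))))) (XT.nd (nat_lit 234) (nat_lit 456) (nat_lit 0) (XT.nd (nat_lit 78) (nat_lit 228) (nat_lit 0) (XT.lf (nat_lit 0) (nat_lit 1220915941) (nat_lit 228) (nat_lit 840793839) (nat_lit 304) (nat_lit 11413469596) (nat_lit 52) (nat_lit 5) (nat_lit 55) (nat_lit 5) (nat_lit 56) (nat_lit 5) (nat_lit 279) (nat_lit 238) (nat_lit 203)) (XT.nd (nat_lit 78) (nat_lit 228) (nat_lit 0) (XT.lf (nat_lit 0) (nat_lit 6819637335) (nat_lit 304) (nat_lit 1799997815) (nat_lit 76) (nat_lit 5307157564) (nat_lit 52) (nat_lit 5) (nat_lit 56) (nat_lit 5) (nat_lit 53) (nat_lit 5) (nat_lit 280) (nat_lit 238) (nat_lit 202)) (XT.lf (nat_lit 0) (nat_lit 9211535211) (nat_lit 228) (nat_lit 2610842402) (nat_lit 304) (nat_lit 2578495228) (nat_lit 49) (nat_lit 5) (nat_lit 52) (nat_lit 5) (nat_lit 53) (nat_lit 5) (nat_lit 281) (nat_lit 238) (nat_lit 201)))) (XT.nd (nat_lit 78) (nat_lit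 152) (nat_lit 0) (XT.lf (nat_lit 0) (nat_lit 2157285678) (nat_lit 304) (nat_lit 9062551184) (nat_lit 76) (nat_lit 3677584156) (nat_lit 45) (nat_lit 5) (nat_lit 49) (nat_lit 5) (nat_lit 46) (nat_lit 5) (nat_lit 282) (nat_lit 238) (nat_lit 200)) (XT.nd (nat_lit 78) (nat_lit 0) (nat_lit 0) (XT.lf (nat_lit 0) (nat_lit 1953786935) (nat_lit 152) (nat_lit 5136763735) (nat_lit 228) (nat_lit 8327141811) (nat_lit 43) (nat_lit 5) (nat_lit 45) (nat_lit 5) (nat_lit 46) (nat_lit 5) (nat_lit 283) (nat_lit 238) (nat_lit 199)) (XT.lf (nat_lit 0) (nat_lit 12293545066) (nat_lit 228) (nat_lit 2395070271) (nat_lit 76) (nat_lit 1274748708) (nat_lit 43) (nat_lit 5) (nat_lit 46) (nat_lit 5) (nat_lit 44) (nat_lit 5) (nat_lit 284) (nat_lit 238) (nat_lit 198))))))) (XT.nd (nat_lit 858) (nat_lit 684) (nat_lit 0) (XT.nd (nat_lit 390) (nat_lit 532) (nat_lit 0) (XT.nd (nat_lit 156) (nat_lit 380) (nat_lit 0) (XT.nd (nat_lit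 78) (nat_lit 152) (nat_lit 0) (XT.lf (nat_lit 0) (nat_lit 1258457605) (nat_lit 304) (nat_lit 7316430322) (nat_lit 76) (nat_lit 7959294882) (nat_lit 39) (nat_lit 5) (nat_lit 43) (nat_lit 5) (nat_lit 40) (nat_lit 5) (nat_lit 285) (nat_lit 238) (nat_lit 197)) (XT.lf (nat_lit 0) (nat_lit 4251087200) (nat_lit 152) (nat_lit 2095200104) (nat_lit 228) (nat_lit 10786563196) (nat_lit 37) (nat_lit 5) (nat_lit 39) (nat_lit 5) (nat_lit 40) (nat_lit 5) (nat_lit 286) (nat_lit 238) (nat_lit 196))) (XT.nd (nat_lit 78) (nat_lit 380) (nat_lit 0) (XT.lf (nat_lit 0) (nat_lit 11734508439) (nat_lit 228) (nat_lit 1376728438) (nat_lit 76) (nat_lit 4648900547) (nat_lit 37) (nat_lit 5) (nat_lit 40) (nat_lit 5) (nat_lit 38) (nat_lit 5) (nat_lit 287) (nat_lit 238) (nat_lit 195)) (XT.nd (nat_lit 78) (nat_lit 228) (nat_lit 0) (XT.lf (nat_lit 0) (nat_lit 10777089300) (nat_lit 152) (nat_lit 6668058795) (nat_lit 228) (nat_lit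 972113082) (nat_lit 35) (nat_lit 5) (nat_lit 37) (nat_lit 5) (nat_lit 38) (nat_lit 5) (nat_lit 288) (nat_lit 238) (nat_lit 194)) (XT.lf (nat_lit 0) (nat_lit 4237366214) (nat_lit 228) (nat_lit 14717279930) (nat_lit 76) (nat_lit 151767273) (nat_lit 32) (nat_lit 5) (nat_lit 35) (nat_lit 5) (nat_lit 33) (nat_lit 5) (nat_lit 289) (nat_lit 238) (nat_lit 193))))) (XT.nd (nat_lit 234) (nat_lit 152) (nat_lit 0) (XT.nd (nat_lit 78) (nat_lit 380) (nat_lit 0) (XT.lf (nat_lit 0) (nat_lit 9765854551) (nat_lit 228) (nat_lit 2838176930) (nat_lit 76) (nat_lit 7223399068) (nat_lit 32) (nat_lit 5) (nat_lit 35) (nat_lit 5) (nat_lit 33) (nat_lit 5) (nat_lit 290) (nat_lit 238) (nat_lit 192)) (XT.nd (nat_lit 78) (nat_lit 228) (nat_lit 0) (XT.lf (nat_lit 0) (nat_lit 9717668346) (nat_lit 152) (nat_lit 5881485523) (nat_lit 228) (nat_lit 4984545664) (nat_lit 30) (nat_lit 5) (nat_lit 32) (nat_lit 5) (nat_lit 33) (nat_lit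 5) (nat_lit 291) (nat_lit 238) (nat_lit 191)) (XT.lf (nat_lit 0) (nat_lit 331330908) (nat_lit 228) (nat_lit 19885349493) (nat_lit 76) (nat_lit 1161297730) (nat_lit 27) (nat_lit 5) (nat_lit 30) (nat_lit 5) (nat_lit 28) (nat_lit 5) (nat_lit 292) (nat_lit 238) (nat_lit 190)))) (XT.nd (nat_lit 78) (nat_lit 152) (nat_lit 0) (XT.lf (nat_lit 0) (nat_lit 5921257329) (nat_lit 228) (nat_lit 7726688678) (nat_lit 76) (nat_lit 8559250086) (nat_lit 27) (nat_lit 5) (nat_lit 30) (nat_lit 5) (nat_lit 28) (nat_lit 5) (nat_lit 293) (nat_lit 238) (nat_lit 189)) (XT.nd (nat_lit 78) (nat_lit 0) (nat_lit 0) (XT.lf (nat_lit 0) (nat_lit 5039596053) (nat_lit 152) (nat_lit 6740536107) (nat_lit 228) (nat_lit 11298103339) (nat_lit 25) (nat_lit 5) (nat_lit 27) (nat_lit 5) (nat_lit 28) (nat_lit 5) (nat_lit 294) (nat_lit 238) (nat_lit 188)) (XT.lf (nat_lit 0) (nat_lit 17959725949) (nat_lit 228) (nat_lit 5487697074) (nat_lit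 76) (nat_lit 544612604) (nat_lit 25) (nat_lit 5) (nat_lit 28) (nat_lit 5) (nat_lit 26) (nat_lit 4) (nat_lit 295) (nat_lit 238) (nat_lit 187)))))) (XT.nd (nat_lit 390) (nat_lit 304) (nat_lit 0) (XT.nd (nat_lit 156) (nat_lit 228) (nat_lit 0) (XT.nd (nat_lit 78) (nat_lit 76) (nat_lit 0) (XT.lf (nat_lit 0) (nat_lit 7680047806) (nat_lit 76) (nat_lit 16855371992) (nat_lit 152) (nat_lit 413532361) (nat_lit 24) (nat_lit 5) (nat_lit 25) (nat_lit 5) (nat_lit 26) (nat_lit 4) (nat_lit 296) (nat_lit 238) (nat_lit 186)) (XT.lf (nat_lit 0) (nat_lit 5382620261) (nat_lit 152) (nat_lit 4475484378) (nat_lit 76) (nat_lit 16093960023) (nat_lit 23) (nat_lit 5) (nat_lit 25) (nat_lit 5) (nat_lit 24) (nat_lit 5) (nat_lit 297) (nat_lit 238) (nat_lit 185))) (XT.nd (nat_lit 78) (nat_lit 76) (nat_lit 0) (XT.lf (nat_lit 0) (nat_lit 9043207424) (nat_lit 152) (nat_lit 2452820696) (nat_lit 228) (nat_lit 15508137071) (nat_lit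 21) (nat_lit 5) (nat_lit 23) (nat_lit 5) (nat_lit 24) (nat_lit 5) (nat_lit 298) (nat_lit 238) (nat_lit 184)) (XT.nd (nat_lit 78) (nat_lit 76) (nat_lit 0) (XT.lf (nat_lit 0) (nat_lit 17963075584) (nat_lit 228) (nat_lit 4913138189) (nat_lit 76) (nat_lit 5231251449) (nat_lit 21) (nat_lit 5) (nat_lit 24) (nat_lit 5) (nat_lit 22) (nat_lit 4) (nat_lit 299) (nat_lit 238) (nat_lit 183)) (XT.lf (nat_lit 0) (nat_lit 8853763903) (nat_lit 76) (nat_lit 15962220594) (nat_lit 152) (nat_lit 4448102440) (nat_lit 20) (nat_lit 5) (nat_lit 21) (nat_lit 5) (nat_lit 22) (nat_lit 4) (nat_lit 300) (nat_lit 238) (nat_lit 182))))) (XT.nd (nat_lit 234) (nat_lit 76) (nat_lit 0) (XT.nd (nat_lit 78) (nat_lit 152) (nat_lit 0) (XT.lf (nat_lit 0) (nat_lit 1507818166) (nat_lit 152) (nat_lit 7160519314) (nat_lit 76) (nat_lit 21809647721) (nat_lit 19) (nat_lit 5) (nat_lit 21) (nat_lit 5) (nat_lit 20) (nat_lit 5) (nat_lit 301)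 (nat_lit 238) (nat_lit 181)) (XT.nd (nat_lit 78) (nat_lit 0) (nat_lit 0) (XT.lf (nat_lit 0) (nat_lit 6762709131) (nat_lit 152) (nat_lit 928557598) (nat_lit 228) (nat_lit 24059366806) (nat_lit 17) (nat_lit 5) (nat_lit 19) (nat_lit 5) (nat_lit 20) (nat_lit 5) (nat_lit 302) (nat_lit 238) (nat_lit 180)) (XT.lf (nat_lit 0) (nat_lit 14284476341) (nat_lit 228) (nat_lit 11697854911) (nat_lit 76) (nat_lit 7101592176) (nat_lit 17) (nat_lit 5) (nat_lit 20) (nat_lit 5) (nat_lit 18) (nat_lit 4) (nat_lit 303) (nat_lit 238) (nat_lit 179)))) (XT.nd (nat_lit 78) (nat_lit 0) (nat_lit 0) (XT.lf (nat_lit 0) (nat_lit 2219259912) (nat_lit 76) (nat_lit 18977795340) (nat_lit 152) (nat_lit 13287156824) (nat_lit 16) (nat_lit 5) (nat_lit 17) (nat_lit 5) (nat_lit 18) (nat_lit 4) (nat_lit 304) (nat_lit 238) (nat_lit 178)) (XT.nd (nat_lit 78) (nat_lit 0) (nat_lit 0) (XT.lf (nat_lit 0) (nat_lit 17007335928) (nat_lit 76)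 (nat_lit 11528635666) (nat_lit 152) (nat_lit 7416146616) (nat_lit 16) (nat_lit 5) (nat_lit 17) (nat_lit 5) (nat_lit 18) (nat_lit 4) (nat_lit 305) (nat_lit 238) (nat_lit 177)) (XT.lf (nat_lit 0) (nat_lit 32468772591) (nat_lit 76) (nat_lit 3735241534) (nat_lit 152) (nat_lit 1290563267) (nat_lit 16) (nat_lit 5) (nat_lit 17) (nat_lit 5) (nat_lit 18) (nat_lit 4) (nat_lit 306) (nat_lit 238) (nat_lit 176))))))))
noncomputable def xc47 : XT := (XT.nd (nat_lit 1716) (nat_lit 76) (nat_lit 0) (XT.nd (nat_lit 858) (nat_lit 228) (nat_lit 0) (XT.nd (nat_lit 390) (nat_lit 228) (nat_lit 0) (XT.nd (nat_lit 156) (nat_lit 76) (nat_lit 0) (XT.nd (nat_lit 78) (nat_lit 0) (nat_lit 0) (XT.lf (nat_lit 0) (nat_lit 5141381981) (nat_lit 228) (nat_lit 29490257235) (nat_lit 76) (nat_lit 4478046845) (nat_lit 13) (nat_lit 5) (nat_lit 16) (nat_lit 5) (nat_lit 14) (nat_lit 4) (nat_lit 307) (nat_lit 238) (nat_lit 175)) (XT.lf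 (nat_lit 0) (nat_lit 11922917619) (nat_lit 228) (nat_lit 15815930782) (nat_lit 76) (nat_lit 13064698293) (nat_lit 13) (nat_lit 5) (nat_lit 16) (nat_lit 5) (nat_lit 14) (nat_lit 4) (nat_lit 308) (nat_lit 238) (nat_lit 174))) (XT.nd (nat_lit 78) (nat_lit 76) (nat_lit 0) (XT.lf (nat_lit 0) (nat_lit 19009707829) (nat_lit 228) (nat_lit 1517547508) (nat_lit 76) (nat_lit 22055879107) (nat_lit 13) (nat_lit 5) (nat_lit 16) (nat_lit 5) (nat_lit 14) (nat_lit 4) (nat_lit 309) (nat_lit 238) (nat_lit 173)) (XT.nd (nat_lit 78) (nat_lit 0) (nat_lit 0) (XT.lf (nat_lit 0) (nat_lit 13706397540) (nat_lit 76) (nat_lit 12843982657) (nat_lit 152) (nat_lit 17898353596) (nat_lit 12) (nat_lit 5) (nat_lit 13) (nat_lit 5) (nat_lit 14) (nat_lit 4) (nat_lit 310) (nat_lit 238) (nat_lit 172)) (XT.lf (nat_lit 0) (nat_lit 29668062243) (nat_lit 76) (nat_lit 4784437493) (nat_lit 152) (nat_lit 11955598579) (nat_lit 12) (nat_lit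 5) (nat_lit 13) (nat_lit 5) (nat_lit 14) (nat_lit 4) (nat_lit 311) (nat_lit 238) (nat_lit 171))))) (XT.nd (nat_lit 234) (nat_lit 76) (nat_lit 0) (XT.nd (nat_lit 78) (nat_lit 152) (nat_lit 0) (XT.lf (nat_lit 0) (nat_lit 42755139552) (nat_lit 152) (nat_lit 2126227565) (nat_lit 0) (nat_lit 3583918290) (nat_lit 12) (nat_lit 5) (nat_lit 14) (nat_lit 4) (nat_lit 12) (nat_lit 4) (nat_lit 312) (nat_lit 238) (nat_lit 170)) (XT.nd (nat_lit 78) (nat_lit 0) (nat_lit 0) (XT.lf (nat_lit 0) (nat_lit 980888603) (nat_lit 152) (nat_lit 37250147471) (nat_lit 76) (nat_lit 12389571410) (nat_lit 10) (nat_lit 5) (nat_lit 12) (nat_lit 5) (nat_lit 11) (nat_lit 4) (nat_lit 313) (nat_lit 238) (nat_lit 169)) (XT.lf (nat_lit 0) (nat_lit 7883662311) (nat_lit 152) (nat_lit 23304307392) (nat_lit 76) (nat_lit 21694186188) (nat_lit 10) (nat_lit 5) (nat_lit 12) (nat_lit 5) (nat_lit 11) (nat_lit 4) (nat_lit 314) (nat_lit 238)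 (nat_lit 168)))) (XT.nd (nat_lit 78) (nat_lit 76) (nat_lit 0) (XT.lf (nat_lit 0) (nat_lit 15104984199) (nat_lit 152) (nat_lit 8708634005) (nat_lit 76) (nat_lit 31443975296) (nat_lit 10) (nat_lit 5) (nat_lit 12) (nat_lit 5) (nat_lit 11) (nat_lit 4) (nat_lit 315) (nat_lit 238) (nat_lit 167)) (XT.nd (nat_lit 78) (nat_lit 0) (nat_lit 0) (XT.lf (nat_lit 0) (nat_lit 6702412498) (nat_lit 76) (nat_lit 16024063080) (nat_lit 152) (nat_lit 35024167706) (nat_lit 9) (nat_lit 5) (nat_lit 10) (nat_lit 5) (nat_lit 11) (nat_lit 4) (nat_lit 316) (nat_lit 238) (nat_lit 166)) (XT.lf (nat_lit 0) (nat_lit 23022093019) (nat_lit 76) (nat_lit 7772055814) (nat_lit 152) (nat_lit 29572256265) (nat_lit 9) (nat_lit 5) (nat_lit 10) (nat_lit 5) (nat_lit 11) (nat_lit 4) (nat_lit 317) (nat_lit 238) (nat_lit 165)))))) (XT.nd (nat_lit 390) (nat_lit 76) (nat_lit 0) (XT.nd (nat_lit 156) (nat_lit 152) (nat_lit 0) (XT.nd (nat_lit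 78) (nat_lit 0) (nat_lit 0) (XT.lf (nat_lit 0) (nat_lit 39250236436) (nat_lit 152) (nat_lit 23006125755) (nat_lit 0) (nat_lit 857054044) (nat_lit 9) (nat_lit 5) (nat_lit 11) (nat_lit 4) (nat_lit 9) (nat_lit 4) (nat_lit 318) (nat_lit 238) (nat_lit 164)) (XT.lf (nat_lit 0) (nat_lit 48185145975) (nat_lit 152) (nat_lit 8069807320) (nat_lit 0) (nat_lit 9741155678) (nat_lit 9) (nat_lit 5) (nat_lit 11) (nat_lit 4) (nat_lit 9) (nat_lit 4) (nat_lit 319) (nat_lit 238) (nat_lit 163))) (XT.nd (nat_lit 78) (nat_lit 76) (nat_lit 0) (XT.lf (nat_lit 0) (nat_lit 7725671315) (nat_lit 76) (nat_lit 49894033854) (nat_lit 76) (nat_lit 11401655076) (nat_lit 8) (nat_lit 4) (nat_lit 9) (nat_lit 5) (nat_lit 9) (nat_lit 4) (nat_lit 320) (nat_lit 238) (nat_lit 162)) (XT.nd (nat_lit 78) (nat_lit 76) (nat_lit 0) (XT.lf (nat_lit 0) (nat_lit 24442248781) (nat_lit 76) (nat_lit 43146113866) (nat_lit 76) (nat_lit 4607650821)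 (nat_lit 8) (nat_lit 4) (nat_lit 9) (nat_lit 5) (nat_lit 9) (nat_lit 4) (nat_lit 321) (nat_lit 238) (nat_lit 161)) (XT.lf (nat_lit 0) (nat_lit 2456840788) (nat_lit 152) (nat_lit 33594966024) (nat_lit 76) (nat_lit 39477471400) (nat_lit 7) (nat_lit 5) (nat_lit 9) (nat_lit 5) (nat_lit 8) (nat_lit 4) (nat_lit 322) (nat_lit 238) (nat_lit 160))))) (XT.nd (nat_lit 234) (nat_lit 0) (nat_lit 0) (XT.nd (nat_lit 78) (nat_lit 76) (nat_lit 0) (XT.lf (nat_lit 0) (nat_lit 9761177660) (nat_lit 152) (nat_lit 18808961962) (nat_lit 76) (nat_lit 50458249787) (nat_lit 7) (nat_lit 5) (nat_lit 9) (nat_lit 5) (nat_lit 8) (nat_lit 4) (nat_lit 323) (nat_lit 238) (nat_lit 159)) (XT.nd (nat_lit 78) (nat_lit 76) (nat_lit 0) (XT.lf (nat_lit 0) (nat_lit 17412662937) (nat_lit 152) (nat_lit 3316256173) (nat_lit 76) (nat_lit 61974087912) (nat_lit 7) (nat_lit 5) (nat_lit 9) (nat_lit 5) (nat_lit 8) (nat_lit 4) (nat_lit 324)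 (nat_lit 238) (nat_lit 158)) (XT.lf (nat_lit 0) (nat_lit 13177172842) (nat_lit 76) (nat_lit 12379008645) (nat_lit 152) (nat_lit 61001898644) (nat_lit 6) (nat_lit 5) (nat_lit 7) (nat_lit 5) (nat_lit 8) (nat_lit 4) (nat_lit 325) (nat_lit 238) (nat_lit 157)))) (XT.nd (nat_lit 78) (nat_lit 0) (nat_lit 0) (XT.lf (nat_lit 0) (nat_lit 30534417075) (nat_lit 76) (nat_lit 3589918334) (nat_lit 152) (nat_lit 56481055687) (nat_lit 6) (nat_lit 5) (nat_lit 7) (nat_lit 5) (nat_lit 8) (nat_lit 4) (nat_lit 326) (nat_lit 238) (nat_lit 156)) (XT.nd (nat_lit 78) (nat_lit 0) (nat_lit 0) (XT.lf (nat_lit 0) (nat_lit 43159091295) (nat_lit 152) (nat_lit 46178826988) (nat_lit 0) (nat_lit 5516011103) (nat_lit 6) (nat_lit 5) (nat_lit 8) (nat_lit 4) (nat_lit 6) (nat_lit 4) (nat_lit 327) (nat_lit 238) (nat_lit 155)) (XT.lf (nat_lit 0) (nat_lit 52666573500) (nat_lit 152) (nat_lit 31656002680) (nat_lit 0) (nat_lit 14991695999)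 (nat_lit 6) (nat_lit 5) (nat_lit 8) (nat_lit 4) (nat_lit 6) (nat_lit 4) (nat_lit 328) (nat_lit 238) (nat_lit 154))))))) (XT.nd (nat_lit 31356) (nat_lit 0) (nat_lit 10108) (XT.nd (nat_lit 30888) (nat_lit 0) (nat_lit 19228) (XT.nd (nat_lit 156) (nat_lit 76) (nat_lit 0) (XT.nd (nat_lit 78) (nat_lit 0) (nat_lit 0) (XT.lf (nat_lit 0) (nat_lit 62634910395) (nat_lit 152) (nat_lit 16433414454) (nat_lit 0) (nat_lit 24929749742) (nat_lit 6) (nat_lit 5) (nat_lit 8) (nat_lit 4) (nat_lit 6) (nat_lit 4) (nat_lit 329) (nat_lit 238) (nat_lit 153)) (XT.lf (nat_lit 0) (nat_lit 73087836116) (nat_lit 152) (nat_lit 474818051) (nat_lit 0) (nat_lit 35353834367) (nat_lit 6) (nat_lit 5) (nat_lit 8) (nat_lit 4) (nat_lit 6) (nat_lit 4) (nat_lit 330) (nat_lit 238) (nat_lit 152))) (XT.nd (nat_lit 30576) (nat_lit 0) (nat_lit 21432) (XT.lf (nat_lit 0) (nat_lit 16581344949) (nat_lit 76) (nat_lit 67628283663) (nat_lit 76)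 (nat_lit 29866814202) (nat_lit 5) (nat_lit 4) (nat_lit 6) (nat_lit 5) (nat_lit 6) (nat_lit 4) (nat_lit 331) (nat_lit 238) (nat_lit 151)) (XT.nd (nat_lit 78) (nat_lit 228) (nat_lit 0) (XT.lf (nat_lit 0) (nat_lit 1737752160) (nat_lit 76) (nat_lit 744666626) (nat_lit 76) (nat_lit 744666626) (nat_lit 290) (nat_lit 4) (nat_lit 291) (nat_lit 5) (nat_lit 291) (nat_lit 4) (nat_lit 242) (nat_lit 239) (nat_lit 239)) (XT.lf (nat_lit 0) (nat_lit 2208167440) (nat_lit 152) (nat_lit 1038525727) (nat_lit 228) (nat_lit 3223894244) (nat_lit 287) (nat_lit 5) (nat_lit 289) (nat_lit 5) (nat_lit 290) (nat_lit 4) (nat_lit 243) (nat_lit 239) (nat_lit 238))))) (XT.nd (nat_lit 234) (nat_lit 1520) (nat_lit 0) (XT.nd (nat_lit 78) (nat_lit 380) (nat_lit 0) (XT.lf (nat_lit 0) (nat_lit 1043609740) (nat_lit 228) (nat_lit 368304487) (nat_lit 304) (nat_lit 5083560442) (nat_lit 283) (nat_lit 5) (nat_lit 286) (nat_lit 5) (nat_lit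 287) (nat_lit 5) (nat_lit 244) (nat_lit 239) (nat_lit 237)) (XT.nd (nat_lit 78) (nat_lit 380) (nat_lit 0) (XT.lf (nat_lit 0) (nat_lit 5977264756) (nat_lit 304) (nat_lit 32859782) (nat_lit 76) (nat_lit 518444837) (nat_lit 283) (nat_lit 5) (nat_lit 287) (nat_lit 5) (nat_lit 284) (nat_lit 4) (nat_lit 245) (nat_lit 239) (nat_lit 236)) (XT.lf (nat_lit 0) (nat_lit 3909795376) (nat_lit 380) (nat_lit 1018168046) (nat_lit 76) (nat_lit 1641401101) (nat_lit 278) (nat_lit 5) (nat_lit 283) (nat_lit 5) (nat_lit 279) (nat_lit 5) (nat_lit 246) (nat_lit 239) (nat_lit 235)))) (XT.nd (nat_lit 78) (nat_lit 1064) (nat_lit 0) (XT.lf (nat_lit 0) (nat_lit 1712688718) (nat_lit 456) (nat_lit 1919492179) (nat_lit 76) (nat_lit 2986597387) (nat_lit 272) (nat_lit 5) (nat_lit 278) (nat_lit 5) (nat_lit 273) (nat_lit 5) (nat_lit 247) (nat_lit 239) (nat_lit 234)) (XT.nd (nat_lit 78) (nat_lit 608) (nat_lit 0) (XT.lf (nat_lit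 0) (nat_lit 3929625988) (nat_lit 456) (nat_lit 2113206145) (nat_lit 532) (nat_lit 633907273) (nat_lit 266) (nat_lit 5) (nat_lit 272) (nat_lit 5) (nat_lit 273) (nat_lit 5) (nat_lit 248) (nat_lit 239) (nat_lit 233)) (XT.lf (nat_lit 0) (nat_lit 3225797659) (nat_lit 532) (nat_lit 354728677) (nat_lit 608) (nat_lit 3162489832) (nat_lit 258) (nat_lit 5) (nat_lit 265) (nat_lit 5) (nat_lit 266) (nat_lit 5) (nat_lit 249) (nat_lit 239) (nat_lit 232)))))) (XT.nd (nat_lit 468) (nat_lit 4104) (nat_lit 0) (XT.nd (nat_lit 234) (nat_lit 2812) (nat_lit 0) (XT.nd (nat_lit 78) (nat_lit 1520) (nat_lit 0) (XT.lf (nat_lit 0) (nat_lit 986458211) (nat_lit 684) (nat_lit 4232742646) (nat_lit 76) (nat_lit 1598591415) (nat_lit 249) (nat_lit 5) (nat_lit 258) (nat_lit 5) (nat_lit 250) (nat_lit 5) (nat_lit 250) (nat_lit 239) (nat_lit 231)) (XT.nd (nat_lit 78) (nat_lit 836) (nat_lit 0) (XT.lf (nat_lit 0) (nat_lit 1996146793)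 (nat_lit 684) (nat_lit 3111660686) (nat_lit 760) (nat_lit 1793215436) (nat_lit 240) (nat_lit 5) (nat_lit 249) (nat_lit 5) (nat_lit 250) (nat_lit 5) (nat_lit 251) (nat_lit 239) (nat_lit 230)) (XT.lf (nat_lit 0) (nat_lit 1464933597) (nat_lit 760) (nat_lit 769196388) (nat_lit 836) (nat_lit 4759050708) (nat_lit 229) (nat_lit 5) (nat_lit 239) (nat_lit 5) (nat_lit 240) (nat_lit 5) (nat_lit 252) (nat_lit 239) (nat_lit 229)))) (XT.nd (nat_lit 78) (nat_lit 1976) (nat_lit 0) (XT.lf (nat_lit 0) (nat_lit 971654931) (nat_lit 836) (nat_lit 5317370322) (nat_lit 912) (nat_lit 804988699) (nat_lit 218) (nat_lit 5) (nat_lit 229) (nat_lit 5) (nat_lit 230) (nat_lit 5) (nat_lit 253) (nat_lit 239) (nat_lit 228)) (XT.nd (nat_lit 78) (nat_lit 988) (nat_lit 0) (XT.lf (nat_lit 0) (nat_lit 504033944) (nat_lit 912) (nat_lit 2639858314) (nat_lit 988) (nat_lit 4059619521) (nat_lit 205) (nat_lit 5) (nat_lit 217) (nat_lit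 5) (nat_lit 218) (nat_lit 5) (nat_lit 254) (nat_lit 239) (nat_lit 227)) (XT.lf (nat_lit 0) (nat_lit 83598505) (nat_lit 988) (nat_lit 7057027948) (nat_lit 1064) (nat_lit 182046020) (nat_lit 192) (nat_lit 5) (nat_lit 205) (nat_lit 5) (nat_lit 206) (nat_lit 5) (nat_lit 255) (nat_lit 239) (nat_lit 226))))) (XT.nd (nat_lit 234) (nat_lit 1748) (nat_lit 0) (XT.nd (nat_lit 78) (nat_lit 2280) (nat_lit 0) (XT.lf (nat_lit 0) (nat_lit 3716098043) (nat_lit 1064) (nat_lit 344416536) (nat_lit 76) (nat_lit 3389483099) (nat_lit 191) (nat_lit 5) (nat_lit 205) (nat_lit 5) (nat_lit 192) (nat_lit 5) (nat_lit 256) (nat_lit 239) (nat_lit 225)) (XT.nd (nat_lit 78) (nat_lit 1140) (nat_lit 0) (XT.lf (nat_lit 0) (nat_lit 97324897) (nat_lit 1140) (nat_lit 732862020) (nat_lit 76) (nat_lit 6757362287) (nat_lit 176) (nat_lit 5) (nat_lit 191) (nat_lit 5) (nat_lit 177) (nat_lit 5) (nat_lit 257) (nat_lit 239) (nat_lit 224))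 (XT.lf (nat_lit 0) (nat_lit 3957065288) (nat_lit 1216) (nat_lit 1150252451) (nat_lit 76) (nat_lit 2626483466) (nat_lit 161) (nat_lit 5) (nat_lit 177) (nat_lit 5) (nat_lit 162) (nat_lit 5) (nat_lit 258) (nat_lit 239) (nat_lit 223)))) (XT.nd (nat_lit 78) (nat_lit 1140) (nat_lit 0) (XT.lf (nat_lit 0) (nat_lit 23294723) (nat_lit 608) (nat_lit 1552581484) (nat_lit 76) (nat_lit 6314686964) (nat_lit 153) (nat_lit 5) (nat_lit 161) (nat_lit 5) (nat_lit 154) (nat_lit 5) (nat_lit 259) (nat_lit 239) (nat_lit 222)) (XT.nd (nat_lit 78) (nat_lit 532) (nat_lit 0) (XT.lf (nat_lit 0) (nat_lit 3860167547) (nat_lit 684) (nat_lit 1998249814) (nat_lit 76) (nat_lit 2198190234) (nat_lit 145) (nat_lit 5) (nat_lit 154) (nat_lit 5) (nat_lit 146) (nat_lit 5) (nat_lit 260) (nat_lit 239) (nat_lit 221)) (XT.lf (nat_lit 0) (nat_lit 5778551146) (nat_lit 532) (nat_lit 2036559427) (nat_lit 608) (nat_lit 418356530) (nat_lit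 138) (nat_lit 5) (nat_lit 145) (nat_lit 5) (nat_lit 146) (nat_lit 5) (nat_lit 261) (nat_lit 239) (nat_lit 220))))))))
noncomputable def xc48 : XT := (XT.nd (nat_lit 1716) (nat_lit 2204) (nat_lit 0) (XT.nd (nat_lit 858) (nat_lit 2660) (nat_lit 0) (XT.nd (nat_lit 390) (nat_lit 1900) (nat_lit 0) (XT.nd (nat_lit 156) (nat_lit 1444) (nat_lit 0) (XT.nd (nat_lit 78) (nat_lit 456) (nat_lit 0) (XT.lf (nat_lit 0) (nat_lit 3415618590) (nat_lit 608) (nat_lit 2969530332) (nat_lit 76) (nat_lit 2035187373) (nat_lit 130) (nat_lit 5) (nat_lit 138) (nat_lit 5) (nat_lit 131) (nat_lit 5) (nat_lit 262) (nat_lit 239) (nat_lit 219)) (XT.lf (nat_lit 0) (nat_lit 5093344912) (nat_lit 456) (nat_lit 2283113372) (nat_lit 532) (nat_lit 1241915740) (nat_lit 124) (nat_lit 5) (nat_lit 130) (nat_lit 5) (nat_lit 131) (nat_lit 5) (nat_lit 263) (nat_lit 239) (nat_lit 218))) (XT.nd (nat_lit 78) (nat_lit 912) (nat_lit 0) (XT.lf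 (nat_lit 0) (nat_lit 2605087408) (nat_lit 532) (nat_lit 4153602153) (nat_lit 76) (nat_lit 2068619135) (nat_lit 117) (nat_lit 5) (nat_lit 124) (nat_lit 5) (nat_lit 118) (nat_lit 5) (nat_lit 264) (nat_lit 239) (nat_lit 217)) (XT.nd (nat_lit 78) (nat_lit 532) (nat_lit 0) (XT.lf (nat_lit 0) (nat_lit 4190055189) (nat_lit 380) (nat_lit 2386820066) (nat_lit 456) (nat_lit 2470934760) (nat_lit 112) (nat_lit 5) (nat_lit 117) (nat_lit 5) (nat_lit 118) (nat_lit 5) (nat_lit 265) (nat_lit 239) (nat_lit 216)) (XT.lf (nat_lit 0) (nat_lit 1400960262) (nat_lit 532) (nat_lit 5650827657) (nat_lit 76) (nat_lit 2228489379) (nat_lit 105) (nat_lit 5) (nat_lit 112) (nat_lit 5) (nat_lit 106) (nat_lit 5) (nat_lit 266) (nat_lit 239) (nat_lit 215))))) (XT.nd (nat_lit 234) (nat_lit 760) (nat_lit 0) (XT.nd (nat_lit 78) (nat_lit 760) (nat_lit 0) (XT.lf (nat_lit 0) (nat_lit 2964322301) (nat_lit 380) (nat_lit 2420946357)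 (nat_lit 456) (nat_lit 4139472339) (nat_lit 100) (nat_lit 5) (nat_lit 105) (nat_lit 5) (nat_lit 106) (nat_lit 5) (nat_lit 267) (nat_lit 239) (nat_lit 214)) (XT.nd (nat_lit 78) (nat_lit 380) (nat_lit 0) (XT.lf (nat_lit 0) (nat_lit 2204879248) (nat_lit 380) (nat_lit 7338227813) (nat_lit 456) (nat_lit 239286276) (nat_lit 95) (nat_lit 5) (nat_lit 100) (nat_lit 5) (nat_lit 101) (nat_lit 5) (nat_lit 268) (nat_lit 239) (nat_lit 213)) (XT.lf (nat_lit 0) (nat_lit 1297018800) (nat_lit 304) (nat_lit 2462871626) (nat_lit 380) (nat_lit 6292729390) (nat_lit 90) (nat_lit 5) (nat_lit 94) (nat_lit 5) (nat_lit 95) (nat_lit 5) (nat_lit 269) (nat_lit 239) (nat_lit 212)))) (XT.nd (nat_lit 78) (nat_lit 380) (nat_lit 0) (XT.lf (nat_lit 0) (nat_lit 256262272) (nat_lit 380) (nat_lit 7682911845) (nat_lit 456) (nat_lit 2397731141) (nat_lit 85) (nat_lit 5) (nat_lit 90) (nat_lit 5) (nat_lit 91) (nat_lit 5) (nat_lit 270)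 (nat_lit 239) (nat_lit 211)) (XT.nd (nat_lit 78) (nat_lit 304) (nat_lit 0) (XT.lf (nat_lit 0) (nat_lit 1656142609) (nat_lit 456) (nat_lit 930603537) (nat_lit 76) (nat_lit 8048415286) (nat_lit 84) (nat_lit 5) (nat_lit 90) (nat_lit 5) (nat_lit 85) (nat_lit 5) (nat_lit 271) (nat_lit 239) (nat_lit 210)) (XT.lf (nat_lit 0) (nat_lit 5861137882) (nat_lit 380) (nat_lit 2304040053) (nat_lit 76) (nat_lit 2782650919) (nat_lit 80) (nat_lit 5) (nat_lit 85) (nat_lit 5) (nat_lit 81) (nat_lit 5) (nat_lit 272) (nat_lit 239) (nat_lit 209)))))) (XT.nd (nat_lit 390) (nat_lit 1064) (nat_lit 0) (XT.nd (nat_lit 156) (nat_lit 912) (nat_lit 0) (XT.nd (nat_lit 78) (nat_lit 380) (nat_lit 0) (XT.lf (nat_lit 0) (nat_lit 7410067507) (nat_lit 304) (nat_lit 2863875330) (nat_lit 380) (nat_lit 1002403949) (nat_lit 76) (nat_lit 5) (nat_lit 80) (nat_lit 5) (nat_lit 81) (nat_lit 5) (nat_lit 273) (nat_lit 239) (nat_lit 208))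 (XT.lf (nat_lit 0) (nat_lit 3223266685) (nat_lit 380) (nat_lit 5672546859) (nat_lit 76) (nat_lit 2724623736) (nat_lit 71) (nat_lit 5) (nat_lit 76) (nat_lit 5) (nat_lit 72) (nat_lit 5) (nat_lit 274) (nat_lit 239) (nat_lit 207))) (XT.nd (nat_lit 78) (nat_lit 608) (nat_lit 0) (XT.lf (nat_lit 0) (nat_lit 4251106056) (nat_lit 304) (nat_lit 3395064457) (nat_lit 380) (nat_lit 4335190363) (nat_lit 67) (nat_lit 5) (nat_lit 71) (nat_lit 5) (nat_lit 72) (nat_lit 5) (nat_lit 275) (nat_lit 239) (nat_lit 206)) (XT.nd (nat_lit 78) (nat_lit 380) (nat_lit 0) (XT.lf (nat_lit 0) (nat_lit 2308480109) (nat_lit 228) (nat_lit 9985482649) (nat_lit 304) (nat_lit 66376316) (nat_lit 64) (nat_lit 5) (nat_lit 67) (nat_lit 5) (nat_lit 68) (nat_lit 5) (nat_lit 276) (nat_lit 239) (nat_lit 205)) (XT.lf (nat_lit 0) (nat_lit 36074335) (nat_lit 304) (nat_lit 4310668080) (nat_lit 380) (nat_lit 8409850932) (nat_lit 59) (nat_lit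 5) (nat_lit 63) (nat_lit 5) (nat_lit 64) (nat_lit 5) (nat_lit 277) (nat_lit 239) (nat_lit 204))))) (XT.nd (nat_lit 234) (nat_lit 532) (nat_lit 0) (XT.nd (nat_lit 78) (nat_lit 532) (nat_lit 0) (XT.lf (nat_lit 0) (nat_lit 9004475609) (nat_lit 380) (nat_lit 2489031253) (nat_lit 76) (nat_lit 1678480120) (nat_lit 59) (nat_lit 5) (nat_lit 64) (nat_lit 5) (nat_lit 60) (nat_lit 5) (nat_lit 278) (nat_lit 239) (nat_lit 203)) (XT.nd (nat_lit 78) (nat_lit 228) (nat_lit 0) (XT.lf (nat_lit 0) (nat_lit 313761693) (nat_lit 304) (nat_lit 5372808280) (nat_lit 76) (nat_lit 7920623396) (nat_lit 55) (nat_lit 5) (nat_lit 59) (nat_lit 5) (nat_lit 56) (nat_lit 5) (nat_lit 279) (nat_lit 239) (nat_lit 202)) (XT.lf (nat_lit 0) (nat_lit 4927953097) (nat_lit 304) (nat_lit 8653831284) (nat_lit 76) (nat_lit 481380075) (nat_lit 52) (nat_lit 5) (nat_lit 56) (nat_lit 5) (nat_lit 53) (nat_lit 5) (nat_lit 280) (nat_lit 239)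 (nat_lit 201)))) (XT.nd (nat_lit 78) (nat_lit 304) (nat_lit 0) (XT.lf (nat_lit 0) (nat_lit 2156520914) (nat_lit 228) (nat_lit 7664489192) (nat_lit 304) (nat_lit 4719568464) (nat_lit 49) (nat_lit 5) (nat_lit 52) (nat_lit 5) (nat_lit 53) (nat_lit 5) (nat_lit 281) (nat_lit 239) (nat_lit 200)) (XT.nd (nat_lit 78) (nat_lit 304) (nat_lit 0) (XT.lf (nat_lit 0) (nat_lit 13561762716) (nat_lit 228) (nat_lit 1403086440) (nat_lit 304) (nat_lit 76915269) (nat_lit 49) (nat_lit 5) (nat_lit 52) (nat_lit 5) (nat_lit 53) (nat_lit 5) (nat_lit 282) (nat_lit 239) (nat_lit 199)) (XT.lf (nat_lit 0) (nat_lit 4771182072) (nat_lit 304) (nat_lit 5620847022) (nat_lit 76) (nat_lit 5172667330) (nat_lit 45) (nat_lit 5) (nat_lit 49) (nat_lit 5) (nat_lit 46) (nat_lit 5) (nat_lit 283) (nat_lit 239) (nat_lit 198))))))) (XT.nd (nat_lit 858) (nat_lit 836) (nat_lit 0) (XT.nd (nat_lit 390) (nat_lit 608) (nat_lit 0) (XT.nd (nat_lit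 156) (nat_lit 380) (nat_lit 0) (XT.nd (nat_lit 78) (nat_lit 228) (nat_lit 0) (XT.lf (nat_lit 0) (nat_lit 5834663434) (nat_lit 152) (nat_lit 4033478327) (nat_lit 228) (nat_lit 6245443741) (nat_lit 43) (nat_lit 5) (nat_lit 45) (nat_lit 5) (nat_lit 46) (nat_lit 5) (nat_lit 284) (nat_lit 239) (nat_lit 197)) (XT.lf (nat_lit 0) (nat_lit 1170011560) (nat_lit 228) (nat_lit 14069588956) (nat_lit 304) (nat_lit 1449800198) (nat_lit 40) (nat_lit 5) (nat_lit 43) (nat_lit 5) (nat_lit 44) (nat_lit 5) (nat_lit 285) (nat_lit 239) (nat_lit 196))) (XT.nd (nat_lit 78) (nat_lit 304) (nat_lit 0) (XT.lf (nat_lit 0) (nat_lit 3589483194) (nat_lit 304) (nat_lit 4078053418) (nat_lit 76) (nat_lit 9623287117) (nat_lit 39) (nat_lit 5) (nat_lit 43) (nat_lit 5) (nat_lit 40) (nat_lit 5) (nat_lit 286) (nat_lit 239) (nat_lit 195)) (XT.nd (nat_lit 78) (nat_lit 152) (nat_lit 0) (XT.lf (nat_lit 0) (nat_lit 7964526356) (nat_lit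 152) (nat_lit 892825778) (nat_lit 228) (nat_lit 9064399675) (nat_lit 37) (nat_lit 5) (nat_lit 39) (nat_lit 5) (nat_lit 40) (nat_lit 5) (nat_lit 287) (nat_lit 239) (nat_lit 194)) (XT.lf (nat_lit 0) (nat_lit 1979792826) (nat_lit 152) (nat_lit 12461724812) (nat_lit 228) (nat_lit 4141181282) (nat_lit 35) (nat_lit 5) (nat_lit 37) (nat_lit 5) (nat_lit 38) (nat_lit 5) (nat_lit 288) (nat_lit 239) (nat_lit 193))))) (XT.nd (nat_lit 234) (nat_lit 228) (nat_lit 0) (XT.nd (nat_lit 78) (nat_lit 304) (nat_lit 0) (XT.lf (nat_lit 0) (nat_lit 1053856521) (nat_lit 228) (nat_lit 4680133539) (nat_lit 76) (nat_lit 13541090371) (nat_lit 34) (nat_lit 5) (nat_lit 37) (nat_lit 5) (nat_lit 35) (nat_lit 5) (nat_lit 289) (nat_lit 239) (nat_lit 192)) (XT.nd (nat_lit 78) (nat_lit 152) (nat_lit 0) (XT.lf (nat_lit 0) (nat_lit 6449168473) (nat_lit 228) (nat_lit 12167175273) (nat_lit 76) (nat_lit 1383774764) (nat_lit 32) (nat_lit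 5) (nat_lit 35) (nat_lit 5) (nat_lit 33) (nat_lit 5) (nat_lit 290) (nat_lit 239) (nat_lit 191)) (XT.lf (nat_lit 0) (nat_lit 152381694) (nat_lit 152) (nat_lit 12007929369) (nat_lit 228) (nat_lit 8599765567) (nat_lit 30) (nat_lit 5) (nat_lit 32) (nat_lit 5) (nat_lit 33) (nat_lit 5) (nat_lit 291) (nat_lit 239) (nat_lit 190)))) (XT.nd (nat_lit 78) (nat_lit 228) (nat_lit 0) (XT.lf (nat_lit 0) (nat_lit 13243339403) (nat_lit 152) (nat_lit 4978991504) (nat_lit 228) (nat_lit 3333789848) (nat_lit 30) (nat_lit 5) (nat_lit 32) (nat_lit 5) (nat_lit 33) (nat_lit 5) (nat_lit 292) (nat_lit 239) (nat_lit 189)) (XT.nd (nat_lit 78) (nat_lit 0) (nat_lit 0) (XT.lf (nat_lit 0) (nat_lit 2162248556) (nat_lit 228) (nat_lit 17845534281) (nat_lit 76) (nat_lit 2383307057) (nat_lit 27) (nat_lit 5) (nat_lit 30) (nat_lit 5) (nat_lit 28) (nat_lit 5) (nat_lit 293) (nat_lit 239) (nat_lit 188)) (XT.lf (nat_lit 0) (nat_lit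 7945273626) (nat_lit 228) (nat_lit 5223420553) (nat_lit 76) (nat_lit 10095731105) (nat_lit 27) (nat_lit 5) (nat_lit 30) (nat_lit 5) (nat_lit 28) (nat_lit 5) (nat_lit 294) (nat_lit 239) (nat_lit 187)))))) (XT.nd (nat_lit 390) (nat_lit 380) (nat_lit 0) (XT.nd (nat_lit 156) (nat_lit 304) (nat_lit 0) (XT.nd (nat_lit 78) (nat_lit 0) (nat_lit 0) (XT.lf (nat_lit 0) (nat_lit 8098348537) (nat_lit 152) (nat_lit 5943440581) (nat_lit 228) (nat_lit 10138948159) (nat_lit 25) (nat_lit 5) (nat_lit 27) (nat_lit 5) (nat_lit 28) (nat_lit 5) (nat_lit 295) (nat_lit 239) (nat_lit 186)) (XT.lf (nat_lit 0) (nat_lit 20461095321) (nat_lit 228) (nat_lit 3050385928) (nat_lit 76) (nat_lit 1630882776) (nat_lit 25) (nat_lit 5) (nat_lit 28) (nat_lit 5) (nat_lit 26) (nat_lit 4) (nat_lit 296) (nat_lit 239) (nat_lit 185))) (XT.nd (nat_lit 78) (nat_lit 152) (nat_lit 0) (XT.lf (nat_lit 0) (nat_lit 1143078908) (nat_lit 152) (nat_lit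 15461903838) (nat_lit 76) (nat_lit 9543394210) (nat_lit 23) (nat_lit 5) (nat_lit 25) (nat_lit 5) (nat_lit 24) (nat_lit 5) (nat_lit 297) (nat_lit 239) (nat_lit 184)) (XT.nd (nat_lit 78) (nat_lit 152) (nat_lit 0) (XT.lf (nat_lit 0) (nat_lit 7145860710) (nat_lit 152) (nat_lit 2159952073) (nat_lit 76) (nat_lit 17897999850) (nat_lit 23) (nat_lit 5) (nat_lit 25) (nat_lit 5) (nat_lit 24) (nat_lit 5) (nat_lit 298) (nat_lit 239) (nat_lit 183)) (XT.lf (nat_lit 0) (nat_lit 11961885608) (nat_lit 152) (nat_lit 1555614963) (nat_lit 228) (nat_lit 14792489909) (nat_lit 21) (nat_lit 5) (nat_lit 23) (nat_lit 5) (nat_lit 24) (nat_lit 5) (nat_lit 299) (nat_lit 239) (nat_lit 182))))) (XT.nd (nat_lit 234) (nat_lit 228) (nat_lit 0) (XT.nd (nat_lit 78) (nat_lit 152) (nat_lit 0) (XT.lf (nat_lit 0) (nat_lit 20248347873) (nat_lit 228) (nat_lit 2776797582) (nat_lit 76) (nat_lit 6445143434) (nat_lit 21) (nat_lit 5) (nat_lit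 24) (nat_lit 5) (nat_lit 22) (nat_lit 4) (nat_lit 300) (nat_lit 239) (nat_lit 181)) (XT.nd (nat_lit 78) (nat_lit 76) (nat_lit 0) (XT.lf (nat_lit 0) (nat_lit 11610170133) (nat_lit 76) (nat_lit 15789919710) (nat_lit 152) (nat_lit 3286010794) (nat_lit 20) (nat_lit 5) (nat_lit 21) (nat_lit 5) (nat_lit 22) (nat_lit 4) (nat_lit 301) (nat_lit 239) (nat_lit 180)) (XT.lf (nat_lit 0) (nat_lit 2876047408) (nat_lit 152) (nat_lit 5288449992) (nat_lit 76) (nat_lit 23797777627) (nat_lit 19) (nat_lit 5) (nat_lit 21) (nat_lit 5) (nat_lit 20) (nat_lit 5) (nat_lit 302) (nat_lit 239) (nat_lit 179)))) (XT.nd (nat_lit 78) (nat_lit 76) (nat_lit 0) (XT.lf (nat_lit 0) (nat_lit 9267014642) (nat_lit 152) (nat_lit 60912579) (nat_lit 228) (nat_lit 23971890044) (nat_lit 17) (nat_lit 5) (nat_lit 19) (nat_lit 5) (nat_lit 20) (nat_lit 5) (nat_lit 303) (nat_lit 239) (nat_lit 178)) (XT.nd (nat_lit 78) (nat_lit 76) (nat_lit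 0) (XT.lf (nat_lit 0) (nat_lit 16199541856) (nat_lit 228) (nat_lit 10191574920) (nat_lit 76) (nat_lit 8310229923) (nat_lit 17) (nat_lit 5) (nat_lit 20) (nat_lit 5) (nat_lit 18) (nat_lit 4) (nat_lit 304) (nat_lit 239) (nat_lit 177)) (XT.lf (nat_lit 0) (nat_lit 4361452598) (nat_lit 76) (nat_lit 19058639599) (nat_lit 152) (nat_lit 12752722909) (nat_lit 16) (nat_lit 5) (nat_lit 17) (nat_lit 5) (nat_lit 18) (nat_lit 4) (nat_lit 305) (nat_lit 239) (nat_lit 176))))))))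
noncomputable def xc49 : XT := (XT.nd (nat_lit 1716) (nat_lit 76) (nat_lit 0) (XT.nd (nat_lit 858) (nat_lit 304) (nat_lit 0) (XT.nd (nat_lit 390) (nat_lit 152) (nat_lit 0) (XT.nd (nat_lit 156) (nat_lit 304) (nat_lit 0) (XT.nd (nat_lit 78) (nat_lit 0) (nat_lit 0) (XT.lf (nat_lit 0) (nat_lit 19792207192) (nat_lit 76) (nat_lit 11278357442) (nat_lit 152) (nat_lit 6645247513) (nat_lit 16) (nat_lit 5) (nat_lit 17) (nat_lit 5) (nat_lit 18) (nat_lit 4) (nat_lit 306) (nat_lit 239) (nat_lit 175)) (XT.lf (nat_lit 0) (nat_lit 35934596427) (nat_lit 76) (nat_lit 3134660747) (nat_lit 152) (nat_lit 267751970) (nat_lit 16) (nat_lit 5) (nat_lit 17) (nat_lit 5) (nat_lit 18) (nat_lit 4) (nat_lit 307) (nat_lit 239) (nat_lit 174))) (XT.nd (nat_lit 78) (nat_lit 76) (nat_lit 0) (XT.lf (nat_lit 0) (nat_lit 6438690303) (nat_lit 228) (nat_lit 29129876659) (nat_lit 76) (nat_lit 5464799047) (nat_lit 13) (nat_lit 5) (nat_lit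 16) (nat_lit 5) (nat_lit 14) (nat_lit 4) (nat_lit 308) (nat_lit 239) (nat_lit 173)) (XT.nd (nat_lit 78) (nat_lit 76) (nat_lit 0) (XT.lf (nat_lit 0) (nat_lit 13509767522) (nat_lit 228) (nat_lit 14859209762) (nat_lit 76) (nat_lit 14444456884) (nat_lit 13) (nat_lit 5) (nat_lit 16) (nat_lit 5) (nat_lit 14) (nat_lit 4) (nat_lit 309) (nat_lit 239) (nat_lit 172)) (XT.lf (nat_lit 0) (nat_lit 72288155) (nat_lit 76) (nat_lit 20832127583) (nat_lit 152) (nat_lit 23779007095) (nat_lit 12) (nat_lit 5) (nat_lit 13) (nat_lit 5) (nat_lit 14) (nat_lit 4) (nat_lit 310) (nat_lit 239) (nat_lit 171))))) (XT.nd (nat_lit 234) (nat_lit 152) (nat_lit 0) (XT.nd (nat_lit 78) (nat_lit 0) (nat_lit 0) (XT.lf (nat_lit 0) (nat_lit 16008312960) (nat_lit 76) (nat_lit 12783723705) (nat_lit 152) (nat_lit 17851193830) (nat_lit 12) (nat_lit 5) (nat_lit 13) (nat_lit 5) (nat_lit 14) (nat_lit 4) (nat_lit 311) (nat_lit 239) (nat_lit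 170)) (XT.nd (nat_lit 78) (nat_lit 0) (nat_lit 0) (XT.lf (nat_lit 0) (nat_lit 32691080157) (nat_lit 76) (nat_lit 4354651668) (nat_lit 152) (nat_lit 11656161893) (nat_lit 12) (nat_lit 5) (nat_lit 13) (nat_lit 5) (nat_lit 14) (nat_lit 4) (nat_lit 312) (nat_lit 239) (nat_lit 169)) (XT.lf (nat_lit 0) (nat_lit 45728170828) (nat_lit 152) (nat_lit 747021415) (nat_lit 0) (nat_lit 4387831300) (nat_lit 12) (nat_lit 5) (nat_lit 14) (nat_lit 4) (nat_lit 12) (nat_lit 4) (nat_lit 313) (nat_lit 239) (nat_lit 168)))) (XT.nd (nat_lit 78) (nat_lit 0) (nat_lit 0) (XT.lf (nat_lit 0) (nat_lit 1847753233) (nat_lit 152) (nat_lit 37653010509) (nat_lit 76) (nat_lit 13625906867) (nat_lit 10) (nat_lit 5) (nat_lit 12) (nat_lit 5) (nat_lit 11) (nat_lit 4) (nat_lit 314) (nat_lit 239) (nat_lit 167)) (XT.nd (nat_lit 78) (nat_lit 0) (nat_lit 0) (XT.lf (nat_lit 0) (nat_lit 9056721808) (nat_lit 152) (nat_lit 23079385298) (nat_lit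 76) (nat_lit 23366378246) (nat_lit 10) (nat_lit 5) (nat_lit 12) (nat_lit 5) (nat_lit 11) (nat_lit 4) (nat_lit 315) (nat_lit 239) (nat_lit 166)) (XT.lf (nat_lit 0) (nat_lit 16602020439) (nat_lit 152) (nat_lit 7820125265) (nat_lit 76) (nat_lit 33575681440) (nat_lit 10) (nat_lit 5) (nat_lit 12) (nat_lit 5) (nat_lit 11) (nat_lit 4) (nat_lit 316) (nat_lit 239) (nat_lit 165)))))) (XT.nd (nat_lit 390) (nat_lit 152) (nat_lit 0) (XT.nd (nat_lit 156) (nat_lit 76) (nat_lit 0) (XT.nd (nat_lit 78) (nat_lit 0) (nat_lit 0) (XT.lf (nat_lit 0) (nat_lit 8323523077) (nat_lit 76) (nat_lit 16258101840) (nat_lit 152) (nat_lit 36034612031) (nat_lit 9) (nat_lit 5) (nat_lit 10) (nat_lit 5) (nat_lit 11) (nat_lit 4) (nat_lit 317) (nat_lit 239) (nat_lit 164)) (XT.lf (nat_lit 0) (nat_lit 25397950007) (nat_lit 76) (nat_lit 7620502039) (nat_lit 152) (nat_lit 30345379497) (nat_lit 9) (nat_lit 5) (nat_lit 10) (nat_lit 5)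 (nat_lit 11) (nat_lit 4) (nat_lit 318) (nat_lit 239) (nat_lit 163))) (XT.nd (nat_lit 78) (nat_lit 76) (nat_lit 0) (XT.lf (nat_lit 0) (nat_lit 41869689292) (nat_lit 152) (nat_lit 22975047440) (nat_lit 0) (nat_lit 1404303095) (nat_lit 9) (nat_lit 5) (nat_lit 11) (nat_lit 4) (nat_lit 9) (nat_lit 4) (nat_lit 319) (nat_lit 239) (nat_lit 162)) (XT.nd (nat_lit 78) (nat_lit 76) (nat_lit 0) (XT.lf (nat_lit 0) (nat_lit 51220061402) (nat_lit 152) (nat_lit 7348169493) (nat_lit 0) (nat_lit 10708590937) (nat_lit 9) (nat_lit 5) (nat_lit 11) (nat_lit 4) (nat_lit 9) (nat_lit 4) (nat_lit 320) (nat_lit 239) (nat_lit 161)) (XT.lf (nat_lit 0) (nat_lit 9204831500) (nat_lit 76) (nat_lit 51902229210) (nat_lit 76) (nat_lit 11346868966) (nat_lit 8) (nat_lit 4) (nat_lit 9) (nat_lit 5) (nat_lit 9) (nat_lit 4) (nat_lit 321) (nat_lit 239) (nat_lit 160))))) (XT.nd (nat_lit 234) (nat_lit 76) (nat_lit 0) (XT.nd (nat_lit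 78) (nat_lit 76) (nat_lit 0) (XT.lf (nat_lit 0) (nat_lit 26705196095) (nat_lit 76) (nat_lit 44840080192) (nat_lit 76) (nat_lit 4242920158) (nat_lit 8) (nat_lit 4) (nat_lit 9) (nat_lit 5) (nat_lit 9) (nat_lit 4) (nat_lit 322) (nat_lit 239) (nat_lit 159)) (XT.nd (nat_lit 78) (nat_lit 0) (nat_lit 0) (XT.lf (nat_lit 0) (nat_lit 3135397495) (nat_lit 152) (nat_lit 34272112440) (nat_lit 76) (nat_lit 41881289984) (nat_lit 7) (nat_lit 5) (nat_lit 9) (nat_lit 5) (nat_lit 8) (nat_lit 4) (nat_lit 323) (nat_lit 239) (nat_lit 158)) (XT.lf (nat_lit 0) (nat_lit 10778488608) (nat_lit 152) (nat_lit 18794551122) (nat_lit 76) (nat_lit 53390633717) (nat_lit 7) (nat_lit 5) (nat_lit 9) (nat_lit 5) (nat_lit 8) (nat_lit 4) (nat_lit 324) (nat_lit 239) (nat_lit 157)))) (XT.nd (nat_lit 78) (nat_lit 76) (nat_lit 0) (XT.lf (nat_lit 0) (nat_lit 18787345669) (nat_lit 152) (nat_lit 2572679517) (nat_lit 76) (nat_lit 65462765109)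 (nat_lit 7) (nat_lit 5) (nat_lit 9) (nat_lit 5) (nat_lit 8) (nat_lit 4) (nat_lit 325) (nat_lit 239) (nat_lit 156)) (XT.nd (nat_lit 78) (nat_lit 0) (nat_lit 0) (XT.lf (nat_lit 0) (nat_lit 14719353483) (nat_lit 76) (nat_lit 12603175334) (nat_lit 152) (nat_lit 63548565277) (nat_lit 6) (nat_lit 5) (nat_lit 7) (nat_lit 5) (nat_lit 8) (nat_lit 4) (nat_lit 326) (nat_lit 239) (nat_lit 155)) (XT.lf (nat_lit 0) (nat_lit 32902396974) (nat_lit 76) (nat_lit 3393429734) (nat_lit 152) (nat_lit 58825652948) (nat_lit 6) (nat_lit 5) (nat_lit 7) (nat_lit 5) (nat_lit 8) (nat_lit 4) (nat_lit 327) (nat_lit 239) (nat_lit 154))))))) (XT.nd (nat_lit 31200) (nat_lit 0) (nat_lit 12996) (XT.nd (nat_lit 30732) (nat_lit 0) (nat_lit 20672) (XT.nd (nat_lit 156) (nat_lit 76) (nat_lit 0) (XT.nd (nat_lit 78) (nat_lit 0) (nat_lit 0) (XT.lf (nat_lit 0) (nat_lit 45763606548) (nat_lit 152) (nat_lit 47676505627) (nat_lit 0) (nat_lit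 6142904711) (nat_lit 6) (nat_lit 5) (nat_lit 8) (nat_lit 4) (nat_lit 6) (nat_lit 4) (nat_lit 328) (nat_lit 239) (nat_lit 153)) (XT.lf (nat_lit 0) (nat_lit 55725198068) (nat_lit 152) (nat_lit 32466171661) (nat_lit 0) (nat_lit 16075655134) (nat_lit 6) (nat_lit 5) (nat_lit 8) (nat_lit 4) (nat_lit 6) (nat_lit 4) (nat_lit 329) (nat_lit 239) (nat_lit 152))) (XT.nd (nat_lit 78) (nat_lit 76) (nat_lit 0) (XT.lf (nat_lit 0) (nat_lit 66171699622) (nat_lit 152) (nat_lit 16519245983) (nat_lit 0) (nat_lit 26494688977) (nat_lit 6) (nat_lit 5) (nat_lit 8) (nat_lit 4) (nat_lit 6) (nat_lit 4) (nat_lit 330) (nat_lit 239) (nat_lit 151)) (XT.nd (nat_lit 30420) (nat_lit 0) (nat_lit 21812) (XT.lf (nat_lit 0) (nat_lit 206265256) (nat_lit 76) (nat_lit 76923701326) (nat_lit 76) (nat_lit 37220530955) (nat_lit 5) (nat_lit 4) (nat_lit 6) (nat_lit 5) (nat_lit 6) (nat_lit 4) (nat_lit 331) (nat_lit 239) (nat_lit 150)) (XT.lf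 (nat_lit 0) (nat_lit 1073741823) (nat_lit 0) (nat_lit 0) (nat_lit 0) (nat_lit 0) (nat_lit 292) (nat_lit 0) (nat_lit 1) (nat_lit 0) (nat_lit 1) (nat_lit 0) (nat_lit 240) (nat_lit 240) (nat_lit 240))))) (XT.nd (nat_lit 234) (nat_lit 684) (nat_lit 0) (XT.nd (nat_lit 78) (nat_lit 380) (nat_lit 0) (XT.lf (nat_lit 0) (nat_lit 4725527136) (nat_lit 76) (nat_lit 1596847983) (nat_lit 0) (nat_lit 123776462) (nat_lit 291) (nat_lit 5) (nat_lit 292) (nat_lit 0) (nat_lit 291) (nat_lit 4) (nat_lit 241) (nat_lit 240) (nat_lit 239)) (XT.nd (nat_lit 78) (nat_lit 228) (nat_lit 0) (XT.lf (nat_lit 0) (nat_lit 2902155439) (nat_lit 152) (nat_lit 3092994821) (nat_lit 76) (nat_lit 463081613) (nat_lit 289) (nat_lit 5) (nat_lit 291) (nat_lit 5) (nat_lit 290) (nat_lit 4) (nat_lit 242) (nat_lit 240) (nat_lit 238)) (XT.lf (nat_lit 0) (nat_lit 966426389) (nat_lit 228) (nat_lit 4493505491) (nat_lit 76) (nat_lit 1018786798)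 (nat_lit 286) (nat_lit 5) (nat_lit 289) (nat_lit 5) (nat_lit 287) (nat_lit 5) (nat_lit 243) (nat_lit 240) (nat_lit 237)))) (XT.nd (nat_lit 78) (nat_lit 456) (nat_lit 0) (XT.lf (nat_lit 0) (nat_lit 693449597) (nat_lit 228) (nat_lit 4704362342) (nat_lit 304) (nat_lit 1109526023) (nat_lit 283) (nat_lit 5) (nat_lit 286) (nat_lit 5) (nat_lit 287) (nat_lit 5) (nat_lit 244) (nat_lit 240) (nat_lit 236)) (XT.nd (nat_lit 78) (nat_lit 380) (nat_lit 0) (XT.lf (nat_lit 0) (nat_lit 3216780558) (nat_lit 304) (nat_lit 504626447) (nat_lit 76) (nat_lit 2822598361) (nat_lit 282) (nat_lit 5) (nat_lit 286) (nat_lit 5) (nat_lit 283) (nat_lit 5) (nat_lit 245) (nat_lit 240) (nat_lit 235)) (XT.lf (nat_lit 0) (nat_lit 915475786) (nat_lit 380) (nat_lit 1601956026) (nat_lit 76) (nat_lit 4071629966) (nat_lit 277) (nat_lit 5) (nat_lit 282) (nat_lit 5) (nat_lit 278) (nat_lit 5) (nat_lit 246) (nat_lit 240) (nat_lit 234))))))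 (XT.nd (nat_lit 390) (nat_lit 4788) (nat_lit 0) (XT.nd (nat_lit 156) (nat_lit 1976) (nat_lit 0) (XT.nd (nat_lit 78) (nat_lit 532) (nat_lit 0) (XT.lf (nat_lit 0) (nat_lit 4011186882) (nat_lit 380) (nat_lit 1080867801) (nat_lit 456) (nat_lit 1550306325) (nat_lit 272) (nat_lit 5) (nat_lit 277) (nat_lit 5) (nat_lit 278) (nat_lit 5) (nat_lit 247) (nat_lit 240) (nat_lit 233)) (XT.lf (nat_lit 0) (nat_lit 2530761595) (nat_lit 532) (nat_lit 3597448262) (nat_lit 76) (nat_lit 575780818) (nat_lit 265) (nat_lit 5) (nat_lit 272) (nat_lit 5) (nat_lit 266) (nat_lit 5) (nat_lit 248) (nat_lit 240) (nat_lit 232))) (XT.nd (nat_lit 78) (nat_lit 1444) (nat_lit 0) (XT.lf (nat_lit 0) (nat_lit 2269769284) (nat_lit 532) (nat_lit 4339042893) (nat_lit 608) (nat_lit 165291376) (nat_lit 258) (nat_lit 5) (nat_lit 265) (nat_lit 5) (nat_lit 266) (nat_lit 5) (nat_lit 249) (nat_lit 240) (nat_lit 231)) (XT.nd (nat_lit 78) (nat_lit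 760) (nat_lit 0) (XT.lf (nat_lit 0) (nat_lit 1482313325) (nat_lit 608) (nat_lit 2304949125) (nat_lit 684) (nat_lit 3065166150) (nat_lit 249) (nat_lit 5) (nat_lit 257) (nat_lit 5) (nat_lit 258) (nat_lit 5) (nat_lit 250) (nat_lit 240) (nat_lit 230)) (XT.lf (nat_lit 0) (nat_lit 765902670) (nat_lit 684) (nat_lit 46301785) (nat_lit 760) (nat_lit 6127682304) (nat_lit 239) (nat_lit 5) (nat_lit 248) (nat_lit 5) (nat_lit 249) (nat_lit 5) (nat_lit 251) (nat_lit 240) (nat_lit 229))))) (XT.nd (nat_lit 234) (nat_lit 3116) (nat_lit 0) (XT.nd (nat_lit 78) (nat_lit 912) (nat_lit 0) (XT.lf (nat_lit 0) (nat_lit 69325768) (nat_lit 760) (nat_lit 4617762361) (nat_lit 836) (nat_lit 2348206446) (nat_lit 229) (nat_lit 5) (nat_lit 239) (nat_lit 5) (nat_lit 240) (nat_lit 5) (nat_lit 252) (nat_lit 240) (nat_lit 228)) (XT.nd (nat_lit 78) (nat_lit 836) (nat_lit 0) (XT.lf (nat_lit 0) (nat_lit 1446931836) (nat_lit 836)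 (nat_lit 565211251) (nat_lit 76) (nat_lit 5127574039) (nat_lit 228) (nat_lit 5) (nat_lit 239) (nat_lit 5) (nat_lit 229) (nat_lit 5) (nat_lit 253) (nat_lit 240) (nat_lit 227)) (XT.lf (nat_lit 0) (nat_lit 5253848847) (nat_lit 912) (nat_lit 1171378183) (nat_lit 76) (nat_lit 827757508) (nat_lit 217) (nat_lit 5) (nat_lit 229) (nat_lit 5) (nat_lit 218) (nat_lit 5) (nat_lit 254) (nat_lit 240) (nat_lit 226)))) (XT.nd (nat_lit 78) (nat_lit 2128) (nat_lit 0) (XT.lf (nat_lit 0) (nat_lit 1732977981) (nat_lit 988) (nat_lit 1764816573) (nat_lit 76) (nat_lit 3877271043) (nat_lit 204) (nat_lit 5) (nat_lit 217) (nat_lit 5) (nat_lit 205) (nat_lit 5) (nat_lit 255) (nat_lit 240) (nat_lit 225)) (XT.nd (nat_lit 78) (nat_lit 1140) (nat_lit 0) (XT.lf (nat_lit 0) (nat_lit 5171250975) (nat_lit 988) (nat_lit 318291433) (nat_lit 1064) (nat_lit 2017125210) (nat_lit 191) (nat_lit 5) (nat_lit 204) (nat_lit 5) (nat_lit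 205) (nat_lit 5) (nat_lit 256) (nat_lit 240) (nat_lit 224)) (XT.lf (nat_lit 0) (nat_lit 1670308874) (nat_lit 1140) (nat_lit 2917048073) (nat_lit 76) (nat_lit 3059850110) (nat_lit 176) (nat_lit 5) (nat_lit 191) (nat_lit 5) (nat_lit 177) (nat_lit 5) (nat_lit 257) (nat_lit 240) (nat_lit 223))))))))
noncomputable def xc50 : XT := (XT.nd (nat_lit 1716) (nat_lit 2660) (nat_lit 0) (XT.nd (nat_lit 858) (nat_lit 3344) (nat_lit 0) (XT.nd (nat_lit 390) (nat_lit 2280) (nat_lit 0) (XT.nd (nat_lit 156) (nat_lit 1748) (nat_lit 0) (XT.nd (nat_lit 78) (nat_lit 608) (nat_lit 0) (XT.lf (nat_lit 0) (nat_lit 4301740426) (nat_lit 1140) (nat_lit 1097019902) (nat_lit 1216) (nat_lit 2398803390) (nat_lit 161) (nat_lit 5) (nat_lit 176) (nat_lit 5) (nat_lit 177) (nat_lit 5) (nat_lit 258) (nat_lit 240) (nat_lit 222)) (XT.lf (nat_lit 0) (nat_lit 1258747824) (nat_lit 608) (nat_lit 4094548067) (nat_lit 76) (nat_lit 2604253641)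 (nat_lit 153) (nat_lit 5) (nat_lit 161) (nat_lit 5) (nat_lit 154) (nat_lit 5) (nat_lit 259) (nat_lit 240) (nat_lit 221))) (XT.nd (nat_lit 78) (nat_lit 1140) (nat_lit 0) (XT.lf (nat_lit 0) (nat_lit 3407582355) (nat_lit 608) (nat_lit 1562867158) (nat_lit 684) (nat_lit 3157045753) (nat_lit 145) (nat_lit 5) (nat_lit 153) (nat_lit 5) (nat_lit 154) (nat_lit 5) (nat_lit 260) (nat_lit 240) (nat_lit 220)) (XT.nd (nat_lit 78) (nat_lit 532) (nat_lit 0) (XT.lf (nat_lit 0) (nat_lit 490321011) (nat_lit 608) (nat_lit 5375306489) (nat_lit 76) (nat_lit 2442241282) (nat_lit 137) (nat_lit 5) (nat_lit 145) (nat_lit 5) (nat_lit 138) (nat_lit 5) (nat_lit 261) (nat_lit 240) (nat_lit 219)) (XT.lf (nat_lit 0) (nat_lit 2408909306) (nat_lit 532) (nat_lit 1784853504) (nat_lit 608) (nat_lit 4304654335) (nat_lit 130) (nat_lit 5) (nat_lit 137) (nat_lit 5) (nat_lit 138) (nat_lit 5) (nat_lit 262) (nat_lit 240) (nat_lit 218)))))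 (XT.nd (nat_lit 234) (nat_lit 912) (nat_lit 0) (XT.nd (nat_lit 78) (nat_lit 912) (nat_lit 0) (XT.lf (nat_lit 0) (nat_lit 1849009089) (nat_lit 456) (nat_lit 6186959598) (nat_lit 532) (nat_lit 664167794) (nat_lit 124) (nat_lit 5) (nat_lit 130) (nat_lit 5) (nat_lit 131) (nat_lit 5) (nat_lit 263) (nat_lit 240) (nat_lit 217)) (XT.nd (nat_lit 78) (nat_lit 380) (nat_lit 0) (XT.lf (nat_lit 0) (nat_lit 1217655203) (nat_lit 456) (nat_lit 1831745397) (nat_lit 532) (nat_lit 5863282123) (nat_lit 117) (nat_lit 5) (nat_lit 123) (nat_lit 5) (nat_lit 124) (nat_lit 5) (nat_lit 264) (nat_lit 240) (nat_lit 216)) (XT.lf (nat_lit 0) (nat_lit 517352904) (nat_lit 380) (nat_lit 6384913098) (nat_lit 456) (nat_lit 2234593671) (nat_lit 112) (nat_lit 5) (nat_lit 117) (nat_lit 5) (nat_lit 118) (nat_lit 5) (nat_lit 265) (nat_lit 240) (nat_lit 215)))) (XT.nd (nat_lit 78) (nat_lit 836) (nat_lit 0) (XT.lf (nat_lit 0) (nat_lit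 1511418389) (nat_lit 456) (nat_lit 259717136) (nat_lit 76) (nat_lit 7601861230) (nat_lit 111) (nat_lit 5) (nat_lit 117) (nat_lit 5) (nat_lit 112) (nat_lit 5) (nat_lit 266) (nat_lit 240) (nat_lit 214)) (XT.nd (nat_lit 78) (nat_lit 380) (nat_lit 0) (XT.lf (nat_lit 0) (nat_lit 5385548921) (nat_lit 532) (nat_lit 1139634047) (nat_lit 76) (nat_lit 3095677892) (nat_lit 105) (nat_lit 5) (nat_lit 112) (nat_lit 5) (nat_lit 106) (nat_lit 5) (nat_lit 267) (nat_lit 240) (nat_lit 213)) (XT.lf (nat_lit 0) (nat_lit 7768861958) (nat_lit 380) (nat_lit 1658563513) (nat_lit 456) (nat_lit 454657125) (nat_lit 100) (nat_lit 5) (nat_lit 105) (nat_lit 5) (nat_lit 106) (nat_lit 5) (nat_lit 268) (nat_lit 240) (nat_lit 212)))))) (XT.nd (nat_lit 390) (nat_lit 1520) (nat_lit 0) (XT.nd (nat_lit 156) (nat_lit 1064) (nat_lit 0) (XT.nd (nat_lit 78) (nat_lit 304) (nat_lit 0) (XT.lf (nat_lit 0) (nat_lit 3440906957) (nat_lit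 456) (nat_lit 3245222912) (nat_lit 76) (nat_lit 3469559491) (nat_lit 94) (nat_lit 5) (nat_lit 100) (nat_lit 5) (nat_lit 95) (nat_lit 5) (nat_lit 269) (nat_lit 240) (nat_lit 211)) (XT.lf (nat_lit 0) (nat_lit 5935646024) (nat_lit 304) (nat_lit 1567876043) (nat_lit 380) (nat_lit 2940032525) (nat_lit 90) (nat_lit 5) (nat_lit 94) (nat_lit 5) (nat_lit 95) (nat_lit 5) (nat_lit 270) (nat_lit 240) (nat_lit 210))) (XT.nd (nat_lit 78) (nat_lit 608) (nat_lit 0) (XT.lf (nat_lit 0) (nat_lit 1009556039) (nat_lit 456) (nat_lit 5944948116) (nat_lit 76) (nat_lit 3790982747) (nat_lit 84) (nat_lit 5) (nat_lit 90) (nat_lit 5) (nat_lit 85) (nat_lit 5) (nat_lit 271) (nat_lit 240) (nat_lit 209)) (XT.nd (nat_lit 78) (nat_lit 304) (nat_lit 0) (XT.lf (nat_lit 0) (nat_lit 3486642415) (nat_lit 304) (nat_lit 1598247776) (nat_lit 380) (nat_lit 5977224178) (nat_lit 80) (nat_lit 5) (nat_lit 84) (nat_lit 5) (nat_lit 85) (nat_lit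 5) (nat_lit 272) (nat_lit 240) (nat_lit 208)) (XT.lf (nat_lit 0) (nat_lit 1978873236) (nat_lit 304) (nat_lit 7400401170) (nat_lit 380) (nat_lit 2014977388) (nat_lit 76) (nat_lit 5) (nat_lit 80) (nat_lit 5) (nat_lit 81) (nat_lit 5) (nat_lit 273) (nat_lit 240) (nat_lit 207))))) (XT.nd (nat_lit 234) (nat_lit 836) (nat_lit 0) (XT.nd (nat_lit 78) (nat_lit 304) (nat_lit 0) (XT.lf (nat_lit 0) (nat_lit 256225241) (nat_lit 304) (nat_lit 1842916758) (nat_lit 380) (nat_lit 9643493427) (nat_lit 71) (nat_lit 5) (nat_lit 75) (nat_lit 5) (nat_lit 76) (nat_lit 5) (nat_lit 274) (nat_lit 240) (nat_lit 206)) (XT.nd (nat_lit 78) (nat_lit 304) (nat_lit 0) (XT.lf (nat_lit 0) (nat_lit 6415393968) (nat_lit 380) (nat_lit 1695571402) (nat_lit 76) (nat_lit 3995852096) (nat_lit 71) (nat_lit 5) (nat_lit 76) (nat_lit 5) (nat_lit 72) (nat_lit 5) (nat_lit 275) (nat_lit 240) (nat_lit 205)) (XT.lf (nat_lit 0) (nat_lit 8602134834)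 (nat_lit 304) (nat_lit 2352758076) (nat_lit 380) (nat_lit 1534207634) (nat_lit 67) (nat_lit 5) (nat_lit 71) (nat_lit 5) (nat_lit 72) (nat_lit 5) (nat_lit 276) (nat_lit 240) (nat_lit 204)))) (XT.nd (nat_lit 78) (nat_lit 532) (nat_lit 0) (XT.lf (nat_lit 0) (nat_lit 2800603452) (nat_lit 304) (nat_lit 6396176615) (nat_lit 76) (nat_lit 3692258406) (nat_lit 63) (nat_lit 5) (nat_lit 67) (nat_lit 5) (nat_lit 64) (nat_lit 5) (nat_lit 277) (nat_lit 240) (nat_lit 203)) (XT.nd (nat_lit 78) (nat_lit 228) (nat_lit 0) (XT.lf (nat_lit 0) (nat_lit 4076306476) (nat_lit 304) (nat_lit 3258915364) (nat_lit 380) (nat_lit 5972953099) (nat_lit 59) (nat_lit 5) (nat_lit 63) (nat_lit 5) (nat_lit 64) (nat_lit 5) (nat_lit 278) (nat_lit 240) (nat_lit 202)) (XT.lf (nat_lit 0) (nat_lit 1329114489) (nat_lit 228) (nat_lit 10789146146) (nat_lit 304) (nat_lit 1629453330) (nat_lit 56) (nat_lit 5) (nat_lit 59) (nat_lit 5) (nat_lit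 60) (nat_lit 5) (nat_lit 279) (nat_lit 240) (nat_lit 201))))))) (XT.nd (nat_lit 858) (nat_lit 988) (nat_lit 0) (XT.nd (nat_lit 390) (nat_lit 836) (nat_lit 0) (XT.nd (nat_lit 156) (nat_lit 532) (nat_lit 0) (XT.nd (nat_lit 78) (nat_lit 228) (nat_lit 0) (XT.lf (nat_lit 0) (nat_lit 2918703937) (nat_lit 304) (nat_lit 1782784227) (nat_lit 76) (nat_lit 9505645196) (nat_lit 55) (nat_lit 5) (nat_lit 59) (nat_lit 5) (nat_lit 56) (nat_lit 5) (nat_lit 280) (nat_lit 240) (nat_lit 200)) (XT.lf (nat_lit 0) (nat_lit 7688313711) (nat_lit 304) (nat_lit 5272773200) (nat_lit 76) (nat_lit 1727205401) (nat_lit 52) (nat_lit 5) (nat_lit 56) (nat_lit 5) (nat_lit 53) (nat_lit 5) (nat_lit 281) (nat_lit 240) (nat_lit 199))) (XT.nd (nat_lit 78) (nat_lit 304) (nat_lit 0) (XT.lf (nat_lit 0) (nat_lit 5968776240) (nat_lit 228) (nat_lit 6773144049) (nat_lit 304) (nat_lit 2450304297) (nat_lit 49) (nat_lit 5) (nat_lit 52) (nat_lit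 5) (nat_lit 53) (nat_lit 5) (nat_lit 282) (nat_lit 240) (nat_lit 198)) (XT.nd (nat_lit 78) (nat_lit 0) (nat_lit 0) (XT.lf (nat_lit 0) (nat_lit 2063935311) (nat_lit 228) (nat_lit 216106340) (nat_lit 304) (nat_lit 13440757786) (nat_lit 45) (nat_lit 5) (nat_lit 48) (nat_lit 5) (nat_lit 49) (nat_lit 5) (nat_lit 283) (nat_lit 240) (nat_lit 197)) (XT.lf (nat_lit 0) (nat_lit 7282786173) (nat_lit 304) (nat_lit 2369162188) (nat_lit 76) (nat_lit 6620601346) (nat_lit 45) (nat_lit 5) (nat_lit 49) (nat_lit 5) (nat_lit 46) (nat_lit 5) (nat_lit 284) (nat_lit 240) (nat_lit 196))))) (XT.nd (nat_lit 234) (nat_lit 380) (nat_lit 0) (XT.nd (nat_lit 78) (nat_lit 304) (nat_lit 0) (XT.lf (nat_lit 0) (nat_lit 9557858874) (nat_lit 152) (nat_lit 3001480048) (nat_lit 228) (nat_lit 4291906259) (nat_lit 43) (nat_lit 5) (nat_lit 45) (nat_lit 5) (nat_lit 46) (nat_lit 5) (nat_lit 285) (nat_lit 240) (nat_lit 195)) (XT.nd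 (nat_lit 78) (nat_lit 0) (nat_lit 0) (XT.lf (nat_lit 0) (nat_lit 667512974) (nat_lit 304) (nat_lit 12848155503) (nat_lit 76) (nat_lit 3941909629) (nat_lit 39) (nat_lit 5) (nat_lit 43) (nat_lit 5) (nat_lit 40) (nat_lit 5) (nat_lit 286) (nat_lit 240) (nat_lit 194)) (XT.lf (nat_lit 0) (nat_lit 5826193370) (nat_lit 304) (nat_lit 1012841876) (nat_lit 76) (nat_lit 11252775728) (nat_lit 39) (nat_lit 5) (nat_lit 43) (nat_lit 5) (nat_lit 40) (nat_lit 5) (nat_lit 287) (nat_lit 240) (nat_lit 193)))) (XT.nd (nat_lit 78) (nat_lit 228) (nat_lit 0) (XT.lf (nat_lit 0) (nat_lit 11292401375) (nat_lit 228) (nat_lit 7220623030) (nat_lit 76) (nat_lit 243300153) (nat_lit 37) (nat_lit 5) (nat_lit 40) (nat_lit 5) (nat_lit 38) (nat_lit 5) (nat_lit 288) (nat_lit 240) (nat_lit 192)) (XT.nd (nat_lit 78) (nat_lit 76) (nat_lit 0) (XT.lf (nat_lit 0) (nat_lit 5211777717) (nat_lit 152) (nat_lit 11887830301) (nat_lit 228)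 (nat_lit 2352479327) (nat_lit 35) (nat_lit 5) (nat_lit 37) (nat_lit 5) (nat_lit 38) (nat_lit 5) (nat_lit 289) (nat_lit 240) (nat_lit 191)) (XT.lf (nat_lit 0) (nat_lit 2970184141) (nat_lit 228) (nat_lit 1891704697) (nat_lit 76) (nat_lit 15319496038) (nat_lit 34) (nat_lit 5) (nat_lit 37) (nat_lit 5) (nat_lit 35) (nat_lit 5) (nat_lit 290) (nat_lit 240) (nat_lit 190)))))) (XT.nd (nat_lit 390) (nat_lit 456) (nat_lit 0) (XT.nd (nat_lit 156) (nat_lit 228) (nat_lit 0) (XT.nd (nat_lit 78) (nat_lit 152) (nat_lit 0) (XT.lf (nat_lit 0) (nat_lit 8585625944) (nat_lit 228) (nat_lit 9795063602) (nat_lit 76) (nat_lit 2563547744) (nat_lit 32) (nat_lit 5) (nat_lit 35) (nat_lit 5) (nat_lit 33) (nat_lit 5) (nat_lit 291) (nat_lit 240) (nat_lit 189)) (XT.lf (nat_lit 0) (nat_lit 3055036626) (nat_lit 152) (nat_lit 11468736985) (nat_lit 228) (nat_lit 7220246131) (nat_lit 30) (nat_lit 5) (nat_lit 32) (nat_lit 5) (nat_lit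 33) (nat_lit 5) (nat_lit 292) (nat_lit 240) (nat_lit 188))) (XT.nd (nat_lit 78) (nat_lit 228) (nat_lit 0) (XT.lf (nat_lit 0) (nat_lit 16662683371) (nat_lit 152) (nat_lit 4142618363) (nat_lit 228) (nat_lit 1777138660) (nat_lit 30) (nat_lit 5) (nat_lit 32) (nat_lit 5) (nat_lit 33) (nat_lit 5) (nat_lit 293) (nat_lit 240) (nat_lit 187)) (XT.nd (nat_lit 78) (nat_lit 0) (nat_lit 0) (XT.lf (nat_lit 0) (nat_lit 3916030918) (nat_lit 228) (nat_lit 15985808558) (nat_lit 76) (nat_lit 3558204329) (nat_lit 27) (nat_lit 5) (nat_lit 30) (nat_lit 5) (nat_lit 28) (nat_lit 5) (nat_lit 294) (nat_lit 240) (nat_lit 186)) (XT.lf (nat_lit 0) (nat_lit 9909842006) (nat_lit 228) (nat_lit 2863636880) (nat_lit 76) (nat_lit 11605976631) (nat_lit 27) (nat_lit 5) (nat_lit 30) (nat_lit 5) (nat_lit 28) (nat_lit 5) (nat_lit 295) (nat_lit 240) (nat_lit 185))))) (XT.nd (nat_lit 234) (nat_lit 152) (nat_lit 0) (XT.nd (nat_lit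 78) (nat_lit 152) (nat_lit 0) (XT.lf (nat_lit 0) (nat_lit 11049091525) (nat_lit 152) (nat_lit 5211930224) (nat_lit 228) (nat_lit 9082122011) (nat_lit 25) (nat_lit 5) (nat_lit 27) (nat_lit 5) (nat_lit 28) (nat_lit 5) (nat_lit 296) (nat_lit 240) (nat_lit 184)) (XT.nd (nat_lit 78) (nat_lit 152) (nat_lit 0) (XT.lf (nat_lit 0) (nat_lit 22938465800) (nat_lit 228) (nat_lit 743317016) (nat_lit 76) (nat_lit 2673006999) (nat_lit 25) (nat_lit 5) (nat_lit 28) (nat_lit 5) (nat_lit 26) (nat_lit 4) (nat_lit 297) (nat_lit 240) (nat_lit 183)) (XT.lf (nat_lit 0) (nat_lit 2623194221) (nat_lit 152) (nat_lit 13816611863) (nat_lit 76) (nat_lit 10972318040) (nat_lit 23) (nat_lit 5) (nat_lit 25) (nat_lit 5) (nat_lit 24) (nat_lit 5) (nat_lit 298) (nat_lit 240) (nat_lit 182)))) (XT.nd (nat_lit 78) (nat_lit 0) (nat_lit 0) (XT.lf (nat_lit 0) (nat_lit 35978261) (nat_lit 152) (nat_lit 8822722631) (nat_lit 228) (nat_lit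 19663699921) (nat_lit 21) (nat_lit 5) (nat_lit 23) (nat_lit 5) (nat_lit 24) (nat_lit 5) (nat_lit 299) (nat_lit 240) (nat_lit 181)) (XT.nd (nat_lit 78) (nat_lit 0) (nat_lit 0) (XT.lf (nat_lit 0) (nat_lit 14797184253) (nat_lit 152) (nat_lit 708364630) (nat_lit 228) (nat_lit 14179684459) (nat_lit 21) (nat_lit 5) (nat_lit 23) (nat_lit 5) (nat_lit 24) (nat_lit 5) (nat_lit 300) (nat_lit 240) (nat_lit 180)) (XT.lf (nat_lit 0) (nat_lit 22518922646) (nat_lit 228) (nat_lit 755095496) (nat_lit 76) (nat_lit 7631191457) (nat_lit 21) (nat_lit 5) (nat_lit 24) (nat_lit 5) (nat_lit 22) (nat_lit 4) (nat_lit 301) (nat_lit 240) (nat_lit 179))))))))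
noncomputable def xc51 : XT := (XT.nd (nat_lit 1716) (nat_lit 152) (nat_lit 0) (XT.nd (nat_lit 858) (nat_lit 304) (nat_lit 0) (XT.nd (nat_lit 390) (nat_lit 304) (nat_lit 0) (XT.nd (nat_lit 156) (nat_lit 228) (nat_lit 0) (XT.nd (nat_lit 78) (nat_lit 76) (nat_lit 0) (XT.lf (nat_lit 0) (nat_lit 14289289103) (nat_lit 76) (nat_lit 15699223483) (nat_lit 152) (nat_lit 2194531951) (nat_lit 20) (nat_lit 5) (nat_lit 21) (nat_lit 5) (nat_lit 22) (nat_lit 4) (nat_lit 302) (nat_lit 240) (nat_lit 178)) (XT.lf (nat_lit 0) (nat_lit 4192492258) (nat_lit 152) (nat_lit 3530110325) (nat_lit 76) (nat_lit 25801859271) (nat_lit 19) (nat_lit 5) (nat_lit 21) (nat_lit 5) (nat_lit 20) (nat_lit 5) (nat_lit 303) (nat_lit 240) (nat_lit 177))) (XT.nd (nat_lit 78) (nat_lit 76) (nat_lit 0) (XT.lf (nat_lit 0) (nat_lit 10937367536) (nat_lit 228) (nat_lit 23242234866) (nat_lit 76) (nat_lit 750202359) (nat_lit 17) (nat_lit 5)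 (nat_lit 20) (nat_lit 5) (nat_lit 18) (nat_lit 4) (nat_lit 304) (nat_lit 240) (nat_lit 176)) (XT.nd (nat_lit 78) (nat_lit 76) (nat_lit 0) (XT.lf (nat_lit 0) (nat_lit 18098717768) (nat_lit 228) (nat_lit 8804398348) (nat_lit 76) (nat_lit 9499943812) (nat_lit 17) (nat_lit 5) (nat_lit 20) (nat_lit 5) (nat_lit 18) (nat_lit 4) (nat_lit 305) (nat_lit 240) (nat_lit 175)) (XT.lf (nat_lit 0) (nat_lit 6421910435) (nat_lit 76) (nat_lit 19224228714) (nat_lit 152) (nat_lit 12303019594) (nat_lit 16) (nat_lit 5) (nat_lit 17) (nat_lit 5) (nat_lit 18) (nat_lit 4) (nat_lit 306) (nat_lit 240) (nat_lit 174))))) (XT.nd (nat_lit 234) (nat_lit 76) (nat_lit 0) (XT.nd (nat_lit 78) (nat_lit 228) (nat_lit 0) (XT.lf (nat_lit 0) (nat_lit 22536470129) (nat_lit 76) (nat_lit 11092424967) (nat_lit 152) (nat_lit 5941948498) (nat_lit 16) (nat_lit 5) (nat_lit 17) (nat_lit 5) (nat_lit 18) (nat_lit 4) (nat_lit 307) (nat_lit 240)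 (nat_lit 173)) (XT.nd (nat_lit 78) (nat_lit 152) (nat_lit 0) (XT.lf (nat_lit 0) (nat_lit 691350151) (nat_lit 152) (nat_lit 1878919163) (nat_lit 76) (nat_lit 38704092509) (nat_lit 15) (nat_lit 5) (nat_lit 17) (nat_lit 5) (nat_lit 16) (nat_lit 5) (nat_lit 308) (nat_lit 240) (nat_lit 172)) (XT.lf (nat_lit 0) (nat_lit 7704152458) (nat_lit 228) (nat_lit 28922068054) (nat_lit 76) (nat_lit 6429966309) (nat_lit 13) (nat_lit 5) (nat_lit 16) (nat_lit 5) (nat_lit 14) (nat_lit 4) (nat_lit 309) (nat_lit 240) (nat_lit 171)))) (XT.nd (nat_lit 78) (nat_lit 76) (nat_lit 0) (XT.lf (nat_lit 0) (nat_lit 15083853651) (nat_lit 228) (nat_lit 14017120309) (nat_lit 76) (nat_lit 15825658119) (nat_lit 13) (nat_lit 5) (nat_lit 16) (nat_lit 5) (nat_lit 14) (nat_lit 4) (nat_lit 310) (nat_lit 240) (nat_lit 170)) (XT.nd (nat_lit 78) (nat_lit 0) (nat_lit 0) (XT.lf (nat_lit 0) (nat_lit 1615517366) (nat_lit 76) (nat_lit 21204726262)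 (nat_lit 152) (nat_lit 24070740834) (nat_lit 12) (nat_lit 5) (nat_lit 13) (nat_lit 5) (nat_lit 14) (nat_lit 4) (nat_lit 311) (nat_lit 240) (nat_lit 169)) (XT.lf (nat_lit 0) (nat_lit 18275028420) (nat_lit 76) (nat_lit 12785759700) (nat_lit 152) (nat_lit 17889261506) (nat_lit 12) (nat_lit 5) (nat_lit 13) (nat_lit 5) (nat_lit 14) (nat_lit 4) (nat_lit 312) (nat_lit 240) (nat_lit 168)))))) (XT.nd (nat_lit 390) (nat_lit 152) (nat_lit 0) (XT.nd (nat_lit 156) (nat_lit 76) (nat_lit 0) (XT.nd (nat_lit 78) (nat_lit 76) (nat_lit 0) (XT.lf (nat_lit 0) (nat_lit 35722110176) (nat_lit 76) (nat_lit 3965574546) (nat_lit 152) (nat_lit 11425168068) (nat_lit 12) (nat_lit 5) (nat_lit 13) (nat_lit 5) (nat_lit 14) (nat_lit 4) (nat_lit 313) (nat_lit 240) (nat_lit 167)) (XT.lf (nat_lit 0) (nat_lit 574241216) (nat_lit 76) (nat_lit 48203476522) (nat_lit 76) (nat_lit 4605138427) (nat_lit 11) (nat_lit 4) (nat_lit 12)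 (nat_lit 5) (nat_lit 12) (nat_lit 4) (nat_lit 314) (nat_lit 240) (nat_lit 166))) (XT.nd (nat_lit 78) (nat_lit 0) (nat_lit 0) (XT.lf (nat_lit 0) (nat_lit 2681927924) (nat_lit 152) (nat_lit 38211720593) (nat_lit 76) (nat_lit 14866709589) (nat_lit 10) (nat_lit 5) (nat_lit 12) (nat_lit 5) (nat_lit 11) (nat_lit 4) (nat_lit 315) (nat_lit 240) (nat_lit 165)) (XT.nd (nat_lit 78) (nat_lit 0) (nat_lit 0) (XT.lf (nat_lit 0) (nat_lit 10216021736) (nat_lit 152) (nat_lit 22972458905) (nat_lit 76) (nat_lit 25067561329) (nat_lit 10) (nat_lit 5) (nat_lit 12) (nat_lit 5) (nat_lit 11) (nat_lit 4) (nat_lit 316) (nat_lit 240) (nat_lit 164)) (XT.lf (nat_lit 0) (nat_lit 18104944163) (nat_lit 152) (nat_lit 7010278520) (nat_lit 76) (nat_lit 35761955199) (nat_lit 10) (nat_lit 5) (nat_lit 12) (nat_lit 5) (nat_lit 11) (nat_lit 4) (nat_lit 317) (nat_lit 240) (nat_lit 163))))) (XT.nd (nat_lit 234) (nat_lit 76) (nat_lit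 0) (XT.nd (nat_lit 78) (nat_lit 0) (nat_lit 0) (XT.lf (nat_lit 0) (nat_lit 9906130028) (nat_lit 76) (nat_lit 16556572107) (nat_lit 152) (nat_lit 37164447793) (nat_lit 9) (nat_lit 5) (nat_lit 10) (nat_lit 5) (nat_lit 11) (nat_lit 4) (nat_lit 318) (nat_lit 240) (nat_lit 162)) (XT.nd (nat_lit 78) (nat_lit 0) (nat_lit 0) (XT.lf (nat_lit 0) (nat_lit 27778733981) (nat_lit 76) (nat_lit 7511589213) (nat_lit 152) (nat_lit 31222748624) (nat_lit 9) (nat_lit 5) (nat_lit 10) (nat_lit 5) (nat_lit 11) (nat_lit 4) (nat_lit 319) (nat_lit 240) (nat_lit 161)) (XT.lf (nat_lit 0) (nat_lit 44559038641) (nat_lit 152) (nat_lit 23052249152) (nat_lit 0) (nat_lit 1932020606) (nat_lit 9) (nat_lit 5) (nat_lit 11) (nat_lit 4) (nat_lit 9) (nat_lit 4) (nat_lit 320) (nat_lit 240) (nat_lit 160)))) (XT.nd (nat_lit 78) (nat_lit 76) (nat_lit 0) (XT.lf (nat_lit 0) (nat_lit 54348554838) (nat_lit 152) (nat_lit 6695053530) (nat_lit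 0) (nat_lit 11679737014) (nat_lit 9) (nat_lit 5) (nat_lit 11) (nat_lit 4) (nat_lit 9) (nat_lit 4) (nat_lit 321) (nat_lit 240) (nat_lit 159)) (XT.nd (nat_lit 78) (nat_lit 0) (nat_lit 0) (XT.lf (nat_lit 0) (nat_lit 10656344384) (nat_lit 76) (nat_lit 54056065083) (nat_lit 76) (nat_lit 11347437935) (nat_lit 8) (nat_lit 4) (nat_lit 9) (nat_lit 5) (nat_lit 9) (nat_lit 4) (nat_lit 322) (nat_lit 240) (nat_lit 158)) (XT.lf (nat_lit 0) (nat_lit 28984523814) (nat_lit 76) (nat_lit 46661821736) (nat_lit 76) (nat_lit 3915280948) (nat_lit 8) (nat_lit 4) (nat_lit 9) (nat_lit 5) (nat_lit 9) (nat_lit 4) (nat_lit 323) (nat_lit 240) (nat_lit 157))))))) (XT.nd (nat_lit 31278) (nat_lit 0) (nat_lit 15048) (XT.nd (nat_lit 390) (nat_lit 0) (nat_lit 0) (XT.nd (nat_lit 156) (nat_lit 76) (nat_lit 0) (XT.nd (nat_lit 78) (nat_lit 0) (nat_lit 0) (XT.lf (nat_lit 0) (nat_lit 3796216955) (nat_lit 152) (nat_lit 35076328597)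 (nat_lit 76) (nat_lit 44365327284) (nat_lit 7) (nat_lit 5) (nat_lit 9) (nat_lit 5) (nat_lit 8) (nat_lit 4) (nat_lit 324) (nat_lit 240) (nat_lit 156)) (XT.lf (nat_lit 0) (nat_lit 11797460262) (nat_lit 152) (nat_lit 18868193474) (nat_lit 76) (nat_lit 56431568071) (nat_lit 7) (nat_lit 5) (nat_lit 9) (nat_lit 5) (nat_lit 8) (nat_lit 4) (nat_lit 325) (nat_lit 240) (nat_lit 155))) (XT.nd (nat_lit 78) (nat_lit 76) (nat_lit 0) (XT.lf (nat_lit 0) (nat_lit 20183900785) (nat_lit 152) (nat_lit 1876470441) (nat_lit 76) (nat_lit 69089620191) (nat_lit 7) (nat_lit 5) (nat_lit 9) (nat_lit 5) (nat_lit 8) (nat_lit 4) (nat_lit 326) (nat_lit 240) (nat_lit 154)) (XT.nd (nat_lit 78) (nat_lit 0) (nat_lit 0) (XT.lf (nat_lit 0) (nat_lit 16256520248) (nat_lit 76) (nat_lit 12875253609) (nat_lit 152) (nat_lit 66269369233) (nat_lit 6) (nat_lit 5) (nat_lit 7) (nat_lit 5) (nat_lit 8) (nat_lit 4) (nat_lit 327) (nat_lit 240)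 (nat_lit 153)) (XT.lf (nat_lit 0) (nat_lit 35310563577) (nat_lit 76) (nat_lit 3222072181) (nat_lit 152) (nat_lit 61332055303) (nat_lit 6) (nat_lit 5) (nat_lit 7) (nat_lit 5) (nat_lit 8) (nat_lit 4) (nat_lit 328) (nat_lit 240) (nat_lit 152))))) (XT.nd (nat_lit 30654) (nat_lit 0) (nat_lit 21204) (XT.nd (nat_lit 78) (nat_lit 0) (nat_lit 0) (XT.lf (nat_lit 0) (nat_lit 48456830583) (nat_lit 152) (nat_lit 49324491715) (nat_lit 0) (nat_lit 6768501694) (nat_lit 6) (nat_lit 5) (nat_lit 8) (nat_lit 4) (nat_lit 6) (nat_lit 4) (nat_lit 329) (nat_lit 240) (nat_lit 151)) (XT.nd (nat_lit 78) (nat_lit 0) (nat_lit 0) (XT.lf (nat_lit 0) (nat_lit 58897213883) (nat_lit 152) (nat_lit 33388681012) (nat_lit 0) (nat_lit 17182725270) (nat_lit 6) (nat_lit 5) (nat_lit 8) (nat_lit 4) (nat_lit 6) (nat_lit 4) (nat_lit 330) (nat_lit 240) (nat_lit 150)) (XT.lf (nat_lit 0) (nat_lit 69847671187) (nat_lit 152) (nat_lit 16677780442)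 (nat_lit 0) (nat_lit 28108268549) (nat_lit 6) (nat_lit 5) (nat_lit 8) (nat_lit 4) (nat_lit 6) (nat_lit 4) (nat_lit 331) (nat_lit 240) (nat_lit 149)))) (XT.nd (nat_lit 78) (nat_lit 228) (nat_lit 0) (XT.lf (nat_lit 0) (nat_lit 1395364587) (nat_lit 228) (nat_lit 915821898) (nat_lit 228) (nat_lit 915821898) (nat_lit 288) (nat_lit 3) (nat_lit 291) (nat_lit 3) (nat_lit 291) (nat_lit 5) (nat_lit 241) (nat_lit 241) (nat_lit 238)) (XT.nd (nat_lit 78) (nat_lit 0) (nat_lit 0) (XT.lf (nat_lit 0) (nat_lit 745723376) (nat_lit 228) (nat_lit 3440495842) (nat_lit 304) (nat_lit 2284078145) (nat_lit 285) (nat_lit 5) (nat_lit 288) (nat_lit 3) (nat_lit 289) (nat_lit 5) (nat_lit 242) (nat_lit 241) (nat_lit 237)) (XT.lf (nat_lit 76) (nat_lit 1525473892) (nat_lit 0) (nat_lit 3525420663) (nat_lit 304) (nat_lit 1443718643) (nat_lit 286) (nat_lit 5) (nat_lit 285) (nat_lit 5) (nat_lit 289) (nat_lit 5) (nat_lit 243)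 (nat_lit 241) (nat_lit 236)))))) (XT.nd (nat_lit 468) (nat_lit 4028) (nat_lit 0) (XT.nd (nat_lit 234) (nat_lit 1444) (nat_lit 0) (XT.nd (nat_lit 78) (nat_lit 380) (nat_lit 0) (XT.lf (nat_lit 76) (nat_lit 110259113) (nat_lit 0) (nat_lit 2643836928) (nat_lit 380) (nat_lit 3773084367) (nat_lit 282) (nat_lit 5) (nat_lit 281) (nat_lit 5) (nat_lit 286) (nat_lit 5) (nat_lit 244) (nat_lit 241) (nat_lit 235)) (XT.nd (nat_lit 78) (nat_lit 0) (nat_lit 0) (XT.lf (nat_lit 0) (nat_lit 345559680) (nat_lit 380) (nat_lit 1189156056) (nat_lit 456) (nat_lit 5033225268) (nat_lit 276) (nat_lit 5) (nat_lit 281) (nat_lit 5) (nat_lit 282) (nat_lit 5) (nat_lit 245) (nat_lit 241) (nat_lit 234)) (XT.lf (nat_lit 76) (nat_lit 4194860180) (nat_lit 0) (nat_lit 184872929) (nat_lit 456) (nat_lit 2236951836) (nat_lit 277) (nat_lit 5) (nat_lit 276) (nat_lit 5) (nat_lit 282) (nat_lit 5) (nat_lit 246) (nat_lit 241) (nat_lit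 233)))) (XT.nd (nat_lit 78) (nat_lit 1064) (nat_lit 0) (XT.lf (nat_lit 0) (nat_lit 1719447798) (nat_lit 456) (nat_lit 3590588399) (nat_lit 76) (nat_lit 1363619583) (nat_lit 271) (nat_lit 5) (nat_lit 277) (nat_lit 5) (nat_lit 272) (nat_lit 5) (nat_lit 247) (nat_lit 241) (nat_lit 232)) (XT.nd (nat_lit 78) (nat_lit 608) (nat_lit 0) (XT.lf (nat_lit 0) (nat_lit 2041827754) (nat_lit 456) (nat_lit 3598046741) (nat_lit 532) (nat_lit 1099174075) (nat_lit 265) (nat_lit 5) (nat_lit 271) (nat_lit 5) (nat_lit 272) (nat_lit 5) (nat_lit 248) (nat_lit 241) (nat_lit 231)) (XT.lf (nat_lit 0) (nat_lit 1061211558) (nat_lit 532) (nat_lit 1649693751) (nat_lit 608) (nat_lit 4101926279) (nat_lit 257) (nat_lit 5) (nat_lit 264) (nat_lit 5) (nat_lit 265) (nat_lit 5) (nat_lit 249) (nat_lit 241) (nat_lit 230))))) (XT.nd (nat_lit 234) (nat_lit 2584) (nat_lit 0) (XT.nd (nat_lit 78) (nat_lit 836) (nat_lit 0) (XT.lf (nat_lit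 0) (nat_lit 145963436) (nat_lit 608) (nat_lit 6379394911) (nat_lit 684) (nat_lit 370059766) (nat_lit 249) (nat_lit 5) (nat_lit 257) (nat_lit 5) (nat_lit 258) (nat_lit 5) (nat_lit 250) (nat_lit 241) (nat_lit 229)) (XT.nd (nat_lit 78) (nat_lit 760) (nat_lit 0) (XT.lf (nat_lit 0) (nat_lit 3344266279) (nat_lit 684) (nat_lit 731625630) (nat_lit 76) (nat_lit 2909763827) (nat_lit 248) (nat_lit 5) (nat_lit 257) (nat_lit 5) (nat_lit 249) (nat_lit 5) (nat_lit 251) (nat_lit 241) (nat_lit 228)) (XT.lf (nat_lit 0) (nat_lit 3435424) (nat_lit 760) (nat_lit 1544757345) (nat_lit 76) (nat_lit 5537014410) (nat_lit 238) (nat_lit 5) (nat_lit 248) (nat_lit 5) (nat_lit 239) (nat_lit 5) (nat_lit 252) (nat_lit 241) (nat_lit 227)))) (XT.nd (nat_lit 78) (nat_lit 1824) (nat_lit 0) (XT.lf (nat_lit 0) (nat_lit 3626711103) (nat_lit 836) (nat_lit 2346362471) (nat_lit 76) (nat_lit 1219874257) (nat_lit 228) (nat_lit 5) (nat_lit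 239) (nat_lit 5) (nat_lit 229) (nat_lit 5) (nat_lit 253) (nat_lit 241) (nat_lit 226)) (XT.nd (nat_lit 78) (nat_lit 912) (nat_lit 0) (XT.lf (nat_lit 0) (nat_lit 5953648) (nat_lit 912) (nat_lit 3112809645) (nat_lit 76) (nat_lit 4191182316) (nat_lit 216) (nat_lit 5) (nat_lit 228) (nat_lit 5) (nat_lit 217) (nat_lit 5) (nat_lit 254) (nat_lit 241) (nat_lit 225)) (XT.lf (nat_lit 0) (nat_lit 3560547626) (nat_lit 988) (nat_lit 3870447216) (nat_lit 76) (nat_lit 4799097) (nat_lit 204) (nat_lit 5) (nat_lit 217) (nat_lit 5) (nat_lit 205) (nat_lit 5) (nat_lit 255) (nat_lit 241) (nat_lit 224))))))))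
noncomputable def xc52 : XT := (XT.nd (nat_lit 1716) (nat_lit 3268) (nat_lit 0) (XT.nd (nat_lit 858) (nat_lit 3420) (nat_lit 0) (XT.nd (nat_lit 390) (nat_lit 2584) (nat_lit 0) (XT.nd (nat_lit 156) (nat_lit 2356) (nat_lit 0) (XT.nd (nat_lit 78) (nat_lit 1140) (nat_lit 0) (XT.lf (nat_lit 0) (nat_lit 2946998291) (nat_lit 988) (nat_lit 4263677836) (nat_lit 1064) (nat_lit 360092434) (nat_lit 191) (nat_lit 5) (nat_lit 204) (nat_lit 5) (nat_lit 205) (nat_lit 5) (nat_lit 256) (nat_lit 241) (nat_lit 223)) (XT.lf (nat_lit 0) (nat_lit 2334551266) (nat_lit 1064) (nat_lit 824448362) (nat_lit 1140) (nat_lit 4556076732) (nat_lit 176) (nat_lit 5) (nat_lit 190) (nat_lit 5) (nat_lit 191) (nat_lit 5) (nat_lit 257) (nat_lit 241) (nat_lit 222))) (XT.nd (nat_lit 78) (nat_lit 1216) (nat_lit 0) (XT.lf (nat_lit 0) (nat_lit 1720484853) (nat_lit 1140) (nat_lit 5054847556) (nat_lit 1216) (nat_lit 1093622261) (nat_lit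 161) (nat_lit 5) (nat_lit 176) (nat_lit 5) (nat_lit 177) (nat_lit 5) (nat_lit 258) (nat_lit 241) (nat_lit 221)) (XT.nd (nat_lit 78) (nat_lit 608) (nat_lit 0) (XT.lf (nat_lit 0) (nat_lit 1094716848) (nat_lit 532) (nat_lit 1314140757) (nat_lit 608) (nat_lit 5623740746) (nat_lit 153) (nat_lit 5) (nat_lit 160) (nat_lit 5) (nat_lit 161) (nat_lit 5) (nat_lit 259) (nat_lit 241) (nat_lit 220)) (XT.lf (nat_lit 0) (nat_lit 443957946) (nat_lit 608) (nat_lit 5561265615) (nat_lit 684) (nat_lit 2200919811) (nat_lit 145) (nat_lit 5) (nat_lit 153) (nat_lit 5) (nat_lit 154) (nat_lit 5) (nat_lit 260) (nat_lit 241) (nat_lit 219))))) (XT.nd (nat_lit 234) (nat_lit 1444) (nat_lit 0) (XT.nd (nat_lit 78) (nat_lit 1064) (nat_lit 0) (XT.lf (nat_lit 0) (nat_lit 1303200228) (nat_lit 684) (nat_lit 226451164) (nat_lit 76) (nat_lit 6860456172) (nat_lit 144) (nat_lit 5) (nat_lit 153) (nat_lit 5) (nat_lit 145) (nat_lit 5)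 (nat_lit 261) (nat_lit 241) (nat_lit 218)) (XT.nd (nat_lit 78) (nat_lit 532) (nat_lit 0) (XT.lf (nat_lit 0) (nat_lit 4897036521) (nat_lit 608) (nat_lit 943746108) (nat_lit 76) (nat_lit 2743284055) (nat_lit 137) (nat_lit 5) (nat_lit 145) (nat_lit 5) (nat_lit 138) (nat_lit 5) (nat_lit 262) (nat_lit 241) (nat_lit 217)) (XT.lf (nat_lit 0) (nat_lit 7094946584) (nat_lit 532) (nat_lit 1525914922) (nat_lit 608) (nat_lit 168592699) (nat_lit 130) (nat_lit 5) (nat_lit 137) (nat_lit 5) (nat_lit 138) (nat_lit 5) (nat_lit 263) (nat_lit 241) (nat_lit 216)))) (XT.nd (nat_lit 78) (nat_lit 912) (nat_lit 0) (XT.lf (nat_lit 0) (nat_lit 3426957202) (nat_lit 532) (nat_lit 2536846845) (nat_lit 76) (nat_lit 3041411884) (nat_lit 123) (nat_lit 5) (nat_lit 130) (nat_lit 5) (nat_lit 124) (nat_lit 5) (nat_lit 264) (nat_lit 241) (nat_lit 215)) (XT.nd (nat_lit 78) (nat_lit 456) (nat_lit 0) (XT.lf (nat_lit 0) (nat_lit 5795376136)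 (nat_lit 456) (nat_lit 1364889358) (nat_lit 532) (nat_lit 2072816918) (nat_lit 117) (nat_lit 5) (nat_lit 123) (nat_lit 5) (nat_lit 124) (nat_lit 5) (nat_lit 265) (nat_lit 241) (nat_lit 214)) (XT.lf (nat_lit 0) (nat_lit 1561625873) (nat_lit 456) (nat_lit 4441274776) (nat_lit 76) (nat_lit 3469619634) (nat_lit 111) (nat_lit 5) (nat_lit 117) (nat_lit 5) (nat_lit 112) (nat_lit 5) (nat_lit 266) (nat_lit 241) (nat_lit 213)))))) (XT.nd (nat_lit 390) (nat_lit 1748) (nat_lit 0) (XT.nd (nat_lit 156) (nat_lit 836) (nat_lit 0) (XT.nd (nat_lit 78) (nat_lit 380) (nat_lit 0) (XT.lf (nat_lit 0) (nat_lit 4177047230) (nat_lit 456) (nat_lit 1128345848) (nat_lit 532) (nat_lit 4418992751) (nat_lit 105) (nat_lit 5) (nat_lit 111) (nat_lit 5) (nat_lit 112) (nat_lit 5) (nat_lit 267) (nat_lit 241) (nat_lit 212)) (XT.lf (nat_lit 0) (nat_lit 3214163099) (nat_lit 380) (nat_lit 6022163531) (nat_lit 456) (nat_lit 752695455)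 (nat_lit 100) (nat_lit 5) (nat_lit 105) (nat_lit 5) (nat_lit 106) (nat_lit 5) (nat_lit 268) (nat_lit 241) (nat_lit 211))) (XT.nd (nat_lit 78) (nat_lit 380) (nat_lit 0) (XT.lf (nat_lit 0) (nat_lit 2124496052) (nat_lit 380) (nat_lit 888936339) (nat_lit 456) (nat_lit 7253419700) (nat_lit 94) (nat_lit 5) (nat_lit 99) (nat_lit 5) (nat_lit 100) (nat_lit 5) (nat_lit 269) (nat_lit 241) (nat_lit 210)) (XT.nd (nat_lit 78) (nat_lit 76) (nat_lit 0) (XT.lf (nat_lit 0) (nat_lit 880677741) (nat_lit 304) (nat_lit 6085188923) (nat_lit 380) (nat_lit 3592232018) (nat_lit 90) (nat_lit 5) (nat_lit 94) (nat_lit 5) (nat_lit 95) (nat_lit 5) (nat_lit 270) (nat_lit 241) (nat_lit 209)) (XT.lf (nat_lit 0) (nat_lit 234674801) (nat_lit 380) (nat_lit 485743052) (nat_lit 76) (nat_lit 10143933687) (nat_lit 89) (nat_lit 5) (nat_lit 94) (nat_lit 5) (nat_lit 90) (nat_lit 5) (nat_lit 271) (nat_lit 241) (nat_lit 208))))) (XT.nd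 (nat_lit 234) (nat_lit 684) (nat_lit 0) (XT.nd (nat_lit 78) (nat_lit 684) (nat_lit 0) (XT.lf (nat_lit 0) (nat_lit 4214724043) (nat_lit 456) (nat_lit 2055777257) (nat_lit 76) (nat_lit 4913403126) (nat_lit 84) (nat_lit 5) (nat_lit 90) (nat_lit 5) (nat_lit 85) (nat_lit 5) (nat_lit 272) (nat_lit 241) (nat_lit 207)) (XT.nd (nat_lit 78) (nat_lit 380) (nat_lit 0) (XT.lf (nat_lit 0) (nat_lit 7727389962) (nat_lit 304) (nat_lit 655300471) (nat_lit 380) (nat_lit 3137207635) (nat_lit 80) (nat_lit 5) (nat_lit 84) (nat_lit 5) (nat_lit 85) (nat_lit 5) (nat_lit 273) (nat_lit 241) (nat_lit 206)) (XT.lf (nat_lit 0) (nat_lit 905239768) (nat_lit 380) (nat_lit 5769904019) (nat_lit 76) (nat_lit 5196327549) (nat_lit 75) (nat_lit 5) (nat_lit 80) (nat_lit 5) (nat_lit 76) (nat_lit 5) (nat_lit 274) (nat_lit 241) (nat_lit 205)))) (XT.nd (nat_lit 78) (nat_lit 380) (nat_lit 0) (XT.lf (nat_lit 0) (nat_lit 4247533997) (nat_lit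 304) (nat_lit 832599889) (nat_lit 380) (nat_lit 7159816308) (nat_lit 71) (nat_lit 5) (nat_lit 75) (nat_lit 5) (nat_lit 76) (nat_lit 5) (nat_lit 275) (nat_lit 241) (nat_lit 204)) (XT.nd (nat_lit 78) (nat_lit 76) (nat_lit 0) (XT.lf (nat_lit 0) (nat_lit 2125620881) (nat_lit 304) (nat_lit 7380149203) (nat_lit 380) (nat_lit 3119932482) (nat_lit 67) (nat_lit 5) (nat_lit 71) (nat_lit 5) (nat_lit 72) (nat_lit 5) (nat_lit 276) (nat_lit 241) (nat_lit 203)) (XT.lf (nat_lit 0) (nat_lit 1104285709) (nat_lit 380) (nat_lit 255585359) (nat_lit 76) (nat_lit 11670522184) (nat_lit 66) (nat_lit 5) (nat_lit 71) (nat_lit 5) (nat_lit 67) (nat_lit 5) (nat_lit 277) (nat_lit 241) (nat_lit 202))))))) (XT.nd (nat_lit 858) (nat_lit 1064) (nat_lit 0) (XT.nd (nat_lit 390) (nat_lit 1140) (nat_lit 0) (XT.nd (nat_lit 156) (nat_lit 532) (nat_lit 0) (XT.nd (nat_lit 78) (nat_lit 304) (nat_lit 0) (XT.lf (nat_lit 0) (nat_lit 5542845491)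 (nat_lit 304) (nat_lit 2944914836) (nat_lit 76) (nat_lit 4964698184) (nat_lit 63) (nat_lit 5) (nat_lit 67) (nat_lit 5) (nat_lit 64) (nat_lit 5) (nat_lit 278) (nat_lit 241) (nat_lit 201)) (XT.lf (nat_lit 0) (nat_lit 7943095428) (nat_lit 304) (nat_lit 2272395263) (nat_lit 380) (nat_lit 3679863449) (nat_lit 59) (nat_lit 5) (nat_lit 63) (nat_lit 5) (nat_lit 64) (nat_lit 5) (nat_lit 279) (nat_lit 241) (nat_lit 200))) (XT.nd (nat_lit 78) (nat_lit 228) (nat_lit 0) (XT.lf (nat_lit 0) (nat_lit 788416674) (nat_lit 304) (nat_lit 9348164443) (nat_lit 76) (nat_lit 4222421772) (nat_lit 55) (nat_lit 5) (nat_lit 59) (nat_lit 5) (nat_lit 56) (nat_lit 5) (nat_lit 280) (nat_lit 241) (nat_lit 199)) (XT.nd (nat_lit 78) (nat_lit 0) (nat_lit 0) (XT.lf (nat_lit 0) (nat_lit 1660399352) (nat_lit 228) (nat_lit 3768730407) (nat_lit 304) (nat_lit 9414938429) (nat_lit 52) (nat_lit 5) (nat_lit 55) (nat_lit 5) (nat_lit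 56) (nat_lit 5) (nat_lit 281) (nat_lit 241) (nat_lit 198)) (XT.lf (nat_lit 0) (nat_lit 10352967908) (nat_lit 304) (nat_lit 2077228505) (nat_lit 76) (nat_lit 2921734670) (nat_lit 52) (nat_lit 5) (nat_lit 56) (nat_lit 5) (nat_lit 53) (nat_lit 5) (nat_lit 282) (nat_lit 241) (nat_lit 197))))) (XT.nd (nat_lit 234) (nat_lit 456) (nat_lit 0) (XT.nd (nat_lit 78) (nat_lit 456) (nat_lit 0) (XT.lf (nat_lit 0) (nat_lit 9627241611) (nat_lit 228) (nat_lit 5955729050) (nat_lit 304) (nat_lit 300490632) (nat_lit 49) (nat_lit 5) (nat_lit 52) (nat_lit 5) (nat_lit 53) (nat_lit 5) (nat_lit 283) (nat_lit 241) (nat_lit 196)) (XT.nd (nat_lit 78) (nat_lit 152) (nat_lit 0) (XT.lf (nat_lit 0) (nat_lit 4556667279) (nat_lit 304) (nat_lit 10973024038) (nat_lit 76) (nat_lit 910183491) (nat_lit 45) (nat_lit 5) (nat_lit 49) (nat_lit 5) (nat_lit 46) (nat_lit 5) (nat_lit 284) (nat_lit 241) (nat_lit 195)) (XT.lf (nat_lit 0)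 (nat_lit 730930484) (nat_lit 152) (nat_lit 8984739967) (nat_lit 228) (nat_lit 7306457828) (nat_lit 43) (nat_lit 5) (nat_lit 45) (nat_lit 5) (nat_lit 46) (nat_lit 5) (nat_lit 285) (nat_lit 241) (nat_lit 194)))) (XT.nd (nat_lit 78) (nat_lit 456) (nat_lit 0) (XT.lf (nat_lit 0) (nat_lit 13148189251) (nat_lit 152) (nat_lit 2032577003) (nat_lit 228) (nat_lit 2451345409) (nat_lit 43) (nat_lit 5) (nat_lit 45) (nat_lit 5) (nat_lit 46) (nat_lit 5) (nat_lit 286) (nat_lit 241) (nat_lit 193)) (XT.nd (nat_lit 78) (nat_lit 152) (nat_lit 0) (XT.lf (nat_lit 0) (nat_lit 2660161020) (nat_lit 304) (nat_lit 10377121171) (nat_lit 76) (nat_lit 5232647258) (nat_lit 39) (nat_lit 5) (nat_lit 43) (nat_lit 5) (nat_lit 40) (nat_lit 5) (nat_lit 287) (nat_lit 241) (nat_lit 192)) (XT.lf (nat_lit 0) (nat_lit 1939546527) (nat_lit 152) (nat_lit 6062574330) (nat_lit 228) (nat_lit 10936076045) (nat_lit 37) (nat_lit 5) (nat_lit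 39) (nat_lit 5) (nat_lit 40) (nat_lit 5) (nat_lit 288) (nat_lit 241) (nat_lit 191)))))) (XT.nd (nat_lit 390) (nat_lit 532) (nat_lit 0) (XT.nd (nat_lit 156) (nat_lit 380) (nat_lit 0) (XT.nd (nat_lit 78) (nat_lit 152) (nat_lit 0) (XT.lf (nat_lit 0) (nat_lit 13672162616) (nat_lit 228) (nat_lit 4656073965) (nat_lit 76) (nat_lit 1309863221) (nat_lit 37) (nat_lit 5) (nat_lit 40) (nat_lit 5) (nat_lit 38) (nat_lit 5) (nat_lit 289) (nat_lit 241) (nat_lit 190)) (XT.lf (nat_lit 0) (nat_lit 8314085650) (nat_lit 152) (nat_lit 11396524989) (nat_lit 228) (nat_lit 659889217) (nat_lit 35) (nat_lit 5) (nat_lit 37) (nat_lit 5) (nat_lit 38) (nat_lit 5) (nat_lit 290) (nat_lit 241) (nat_lit 189))) (XT.nd (nat_lit 78) (nat_lit 152) (nat_lit 0) (XT.lf (nat_lit 0) (nat_lit 770177109) (nat_lit 152) (nat_lit 4046291346) (nat_lit 228) (nat_lit 16321655102) (nat_lit 32) (nat_lit 5) (nat_lit 34) (nat_lit 5) (nat_lit 35)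 (nat_lit 5) (nat_lit 291) (nat_lit 241) (nat_lit 188)) (XT.nd (nat_lit 78) (nat_lit 152) (nat_lit 0) (XT.lf (nat_lit 0) (nat_lit 10660257850) (nat_lit 228) (nat_lit 7581442238) (nat_lit 76) (nat_lit 3699057777) (nat_lit 32) (nat_lit 5) (nat_lit 35) (nat_lit 5) (nat_lit 33) (nat_lit 5) (nat_lit 292) (nat_lit 241) (nat_lit 187)) (XT.lf (nat_lit 0) (nat_lit 5833671313) (nat_lit 152) (nat_lit 11008533152) (nat_lit 228) (nat_lit 5939981600) (nat_lit 30) (nat_lit 5) (nat_lit 32) (nat_lit 5) (nat_lit 33) (nat_lit 5) (nat_lit 293) (nat_lit 241) (nat_lit 186))))) (XT.nd (nat_lit 234) (nat_lit 304) (nat_lit 0) (XT.nd (nat_lit 78) (nat_lit 228) (nat_lit 0) (XT.lf (nat_lit 0) (nat_lit 19996658354) (nat_lit 152) (nat_lit 3365329583) (nat_lit 228) (nat_lit 302874795) (nat_lit 30) (nat_lit 5) (nat_lit 32) (nat_lit 5) (nat_lit 33) (nat_lit 5) (nat_lit 294) (nat_lit 241) (nat_lit 185)) (XT.nd (nat_lit 78)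 (nat_lit 0) (nat_lit 0) (XT.lf (nat_lit 0) (nat_lit 5604503605) (nat_lit 228) (nat_lit 14288951652) (nat_lit 76) (nat_lit 4693694517) (nat_lit 27) (nat_lit 5) (nat_lit 30) (nat_lit 5) (nat_lit 28) (nat_lit 5) (nat_lit 295) (nat_lit 241) (nat_lit 184)) (XT.lf (nat_lit 0) (nat_lit 11826925671) (nat_lit 228) (nat_lit 629535548) (nat_lit 76) (nat_lit 13098256388) (nat_lit 27) (nat_lit 5) (nat_lit 30) (nat_lit 5) (nat_lit 28) (nat_lit 5) (nat_lit 296) (nat_lit 241) (nat_lit 183)))) (XT.nd (nat_lit 78) (nat_lit 152) (nat_lit 0) (XT.lf (nat_lit 0) (nat_lit 13910684933) (nat_lit 152) (nat_lit 4539481486) (nat_lit 228) (nat_lit 8117839398) (nat_lit 25) (nat_lit 5) (nat_lit 27) (nat_lit 5) (nat_lit 28) (nat_lit 5) (nat_lit 297) (nat_lit 241) (nat_lit 182)) (XT.nd (nat_lit 78) (nat_lit 76) (nat_lit 0) (XT.lf (nat_lit 0) (nat_lit 1479302665) (nat_lit 76) (nat_lit 23939413609) (nat_lit 152) (nat_lit 2212849098)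 (nat_lit 24) (nat_lit 5) (nat_lit 25) (nat_lit 5) (nat_lit 26) (nat_lit 4) (nat_lit 298) (nat_lit 241) (nat_lit 181)) (XT.lf (nat_lit 0) (nat_lit 4045021838) (nat_lit 152) (nat_lit 12313894006) (nat_lit 76) (nat_lit 12384202985) (nat_lit 23) (nat_lit 5) (nat_lit 25) (nat_lit 5) (nat_lit 24) (nat_lit 5) (nat_lit 299) (nat_lit 241) (nat_lit 180))))))))
noncomputable def xc53 : XT := (XT.nd (nat_lit 1716) (nat_lit 228) (nat_lit 0) (XT.nd (nat_lit 858) (nat_lit 304) (nat_lit 0) (XT.nd (nat_lit 390) (nat_lit 456) (nat_lit 0) (XT.nd (nat_lit 156) (nat_lit 152) (nat_lit 0) (XT.nd (nat_lit 78) (nat_lit 0) (nat_lit 0) (XT.lf (nat_lit 0) (nat_lit 2168447998) (nat_lit 152) (nat_lit 8382876780) (nat_lit 228) (nat_lit 19358856398) (nat_lit 21) (nat_lit 5) (nat_lit 23) (nat_lit 5) (nat_lit 24) (nat_lit 5) (nat_lit 300) (nat_lit 241) (nat_lit 179)) (XT.lf (nat_lit 0) (nat_lit 17471921755) (nat_lit 228)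 (nat_lit 13567642833) (nat_lit 76) (nat_lit 93388974) (nat_lit 21) (nat_lit 5) (nat_lit 24) (nat_lit 5) (nat_lit 22) (nat_lit 4) (nat_lit 301) (nat_lit 241) (nat_lit 178))) (XT.nd (nat_lit 78) (nat_lit 76) (nat_lit 0) (XT.lf (nat_lit 0) (nat_lit 1190047084) (nat_lit 76) (nat_lit 23607446986) (nat_lit 152) (nat_lit 7617627171) (nat_lit 20) (nat_lit 5) (nat_lit 21) (nat_lit 5) (nat_lit 22) (nat_lit 4) (nat_lit 302) (nat_lit 241) (nat_lit 177)) (XT.nd (nat_lit 78) (nat_lit 76) (nat_lit 0) (XT.lf (nat_lit 0) (nat_lit 16907255112) (nat_lit 76) (nat_lit 15685824374) (nat_lit 152) (nat_lit 1165229631) (nat_lit 20) (nat_lit 5) (nat_lit 21) (nat_lit 5) (nat_lit 22) (nat_lit 4) (nat_lit 303) (nat_lit 241) (nat_lit 176)) (XT.lf (nat_lit 0) (nat_lit 5465738167) (nat_lit 152) (nat_lit 1871910928) (nat_lit 76) (nat_lit 27830449071) (nat_lit 19) (nat_lit 5) (nat_lit 21) (nat_lit 5) (nat_lit 20) (nat_lit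 5) (nat_lit 304) (nat_lit 241) (nat_lit 175))))) (XT.nd (nat_lit 234) (nat_lit 228) (nat_lit 0) (XT.nd (nat_lit 78) (nat_lit 76) (nat_lit 0) (XT.lf (nat_lit 0) (nat_lit 12521568122) (nat_lit 228) (nat_lit 22597912974) (nat_lit 76) (nat_lit 1525048089) (nat_lit 17) (nat_lit 5) (nat_lit 20) (nat_lit 5) (nat_lit 18) (nat_lit 4) (nat_lit 305) (nat_lit 241) (nat_lit 174)) (XT.nd (nat_lit 78) (nat_lit 76) (nat_lit 0) (XT.lf (nat_lit 0) (nat_lit 19991589093) (nat_lit 228) (nat_lit 7524205280) (nat_lit 76) (nat_lit 10677165395) (nat_lit 17) (nat_lit 5) (nat_lit 20) (nat_lit 5) (nat_lit 18) (nat_lit 4) (nat_lit 306) (nat_lit 241) (nat_lit 173)) (XT.lf (nat_lit 0) (nat_lit 8414103650) (nat_lit 76) (nat_lit 19471296962) (nat_lit 152) (nat_lit 11931921630) (nat_lit 16) (nat_lit 5) (nat_lit 17) (nat_lit 5) (nat_lit 18) (nat_lit 4) (nat_lit 307) (nat_lit 241) (nat_lit 172)))) (XT.nd (nat_lit 78) (nat_lit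 228) (nat_lit 0) (XT.lf (nat_lit 0) (nat_lit 25254815248) (nat_lit 76) (nat_lit 10966909846) (nat_lit 152) (nat_lit 5299761214) (nat_lit 16) (nat_lit 5) (nat_lit 17) (nat_lit 5) (nat_lit 18) (nat_lit 4) (nat_lit 308) (nat_lit 241) (nat_lit 171)) (XT.nd (nat_lit 78) (nat_lit 152) (nat_lit 0) (XT.lf (nat_lit 0) (nat_lit 1603018498) (nat_lit 152) (nat_lit 439158361) (nat_lit 76) (nat_lit 41269074166) (nat_lit 15) (nat_lit 5) (nat_lit 17) (nat_lit 5) (nat_lit 16) (nat_lit 5) (nat_lit 309) (nat_lit 241) (nat_lit 170)) (XT.lf (nat_lit 0) (nat_lit 8945167463) (nat_lit 228) (nat_lit 28858600085) (nat_lit 76) (nat_lit 7379063092) (nat_lit 13) (nat_lit 5) (nat_lit 16) (nat_lit 5) (nat_lit 14) (nat_lit 4) (nat_lit 310) (nat_lit 241) (nat_lit 169)))))) (XT.nd (nat_lit 390) (nat_lit 152) (nat_lit 0) (XT.nd (nat_lit 156) (nat_lit 76) (nat_lit 0) (XT.nd (nat_lit 78) (nat_lit 76) (nat_lit 0) (XT.lf (nat_lit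 0) (nat_lit 16653100984) (nat_lit 228) (nat_lit 13280289304) (nat_lit 76) (nat_lit 17214653851) (nat_lit 13) (nat_lit 5) (nat_lit 16) (nat_lit 5) (nat_lit 14) (nat_lit 4) (nat_lit 311) (nat_lit 241) (nat_lit 168)) (XT.lf (nat_lit 0) (nat_lit 3092769245) (nat_lit 76) (nat_lit 21658152870) (nat_lit 152) (nat_lit 24460475957) (nat_lit 12) (nat_lit 5) (nat_lit 13) (nat_lit 5) (nat_lit 14) (nat_lit 4) (nat_lit 312) (nat_lit 241) (nat_lit 167))) (XT.nd (nat_lit 78) (nat_lit 76) (nat_lit 0) (XT.lf (nat_lit 0) (nat_lit 20518756994) (nat_lit 76) (nat_lit 12847133680) (nat_lit 152) (nat_lit 18008675135) (nat_lit 12) (nat_lit 5) (nat_lit 13) (nat_lit 5) (nat_lit 14) (nat_lit 4) (nat_lit 313) (nat_lit 241) (nat_lit 166)) (XT.nd (nat_lit 78) (nat_lit 76) (nat_lit 0) (XT.lf (nat_lit 0) (nat_lit 38774860593) (nat_lit 76) (nat_lit 3613458983) (nat_lit 152) (nat_lit 11258284142) (nat_lit 12) (nat_lit 5) (nat_lit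 13) (nat_lit 5) (nat_lit 14) (nat_lit 4) (nat_lit 314) (nat_lit 241) (nat_lit 165)) (XT.lf (nat_lit 0) (nat_lit 1849415185) (nat_lit 76) (nat_lit 50066352427) (nat_lit 76) (nat_lit 4114871495) (nat_lit 11) (nat_lit 4) (nat_lit 12) (nat_lit 5) (nat_lit 12) (nat_lit 4) (nat_lit 315) (nat_lit 241) (nat_lit 164))))) (XT.nd (nat_lit 234) (nat_lit 76) (nat_lit 0) (XT.nd (nat_lit 78) (nat_lit 0) (nat_lit 0) (XT.lf (nat_lit 0) (nat_lit 3488847023) (nat_lit 152) (nat_lit 38921453615) (nat_lit 76) (nat_lit 16117534755) (nat_lit 10) (nat_lit 5) (nat_lit 12) (nat_lit 5) (nat_lit 11) (nat_lit 4) (nat_lit 316) (nat_lit 241) (nat_lit 163)) (XT.nd (nat_lit 78) (nat_lit 0) (nat_lit 0) (XT.lf (nat_lit 0) (nat_lit 11367606349) (nat_lit 152) (nat_lit 22977412319) (nat_lit 76) (nat_lit 26804262907) (nat_lit 10) (nat_lit 5) (nat_lit 12) (nat_lit 5) (nat_lit 11) (nat_lit 4) (nat_lit 317) (nat_lit 241) (nat_lit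 162)) (XT.lf (nat_lit 0) (nat_lit 19620461396) (nat_lit 152) (nat_lit 6271583369) (nat_lit 76) (nat_lit 38010361064) (nat_lit 10) (nat_lit 5) (nat_lit 12) (nat_lit 5) (nat_lit 11) (nat_lit 4) (nat_lit 318) (nat_lit 241) (nat_lit 161)))) (XT.nd (nat_lit 78) (nat_lit 0) (nat_lit 0) (XT.lf (nat_lit 0) (nat_lit 11459423648) (nat_lit 76) (nat_lit 16917793162) (nat_lit 152) (nat_lit 38413241756) (nat_lit 9) (nat_lit 5) (nat_lit 10) (nat_lit 5) (nat_lit 11) (nat_lit 4) (nat_lit 319) (nat_lit 241) (nat_lit 160)) (XT.nd (nat_lit 78) (nat_lit 0) (nat_lit 0) (XT.lf (nat_lit 0) (nat_lit 30175277459) (nat_lit 76) (nat_lit 7442780530) (nat_lit 152) (nat_lit 32203478030) (nat_lit 9) (nat_lit 5) (nat_lit 10) (nat_lit 5) (nat_lit 11) (nat_lit 4) (nat_lit 320) (nat_lit 241) (nat_lit 159)) (XT.lf (nat_lit 0) (nat_lit 47327457588) (nat_lit 152) (nat_lit 23232933574) (nat_lit 0) (nat_lit 2443589761) (nat_lit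 9) (nat_lit 5) (nat_lit 11) (nat_lit 4) (nat_lit 9) (nat_lit 4) (nat_lit 321) (nat_lit 241) (nat_lit 158))))))) (XT.nd (nat_lit 31356) (nat_lit 0) (nat_lit 16872) (XT.nd (nat_lit 390) (nat_lit 76) (nat_lit 0) (XT.nd (nat_lit 156) (nat_lit 76) (nat_lit 0) (XT.nd (nat_lit 78) (nat_lit 76) (nat_lit 0) (XT.lf (nat_lit 0) (nat_lit 57580713070) (nat_lit 152) (nat_lit 6104160458) (nat_lit 0) (nat_lit 12658931602) (nat_lit 9) (nat_lit 5) (nat_lit 11) (nat_lit 4) (nat_lit 9) (nat_lit 4) (nat_lit 322) (nat_lit 241) (nat_lit 157)) (XT.lf (nat_lit 0) (nat_lit 12088273903) (nat_lit 76) (nat_lit 56358618370) (nat_lit 76) (nat_lit 11400728672) (nat_lit 8) (nat_lit 4) (nat_lit 9) (nat_lit 5) (nat_lit 9) (nat_lit 4) (nat_lit 323) (nat_lit 241) (nat_lit 156))) (XT.nd (nat_lit 78) (nat_lit 76) (nat_lit 0) (XT.lf (nat_lit 0) (nat_lit 31290047432) (nat_lit 76) (nat_lit 48613722378) (nat_lit 76) (nat_lit 3621443890)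 (nat_lit 8) (nat_lit 4) (nat_lit 9) (nat_lit 5) (nat_lit 9) (nat_lit 4) (nat_lit 324) (nat_lit 241) (nat_lit 155)) (XT.nd (nat_lit 78) (nat_lit 0) (nat_lit 0) (XT.lf (nat_lit 0) (nat_lit 4443215636) (nat_lit 152) (nat_lit 36005301975) (nat_lit 76) (nat_lit 46937310475) (nat_lit 7) (nat_lit 5) (nat_lit 9) (nat_lit 5) (nat_lit 8) (nat_lit 4) (nat_lit 325) (nat_lit 241) (nat_lit 154)) (XT.lf (nat_lit 0) (nat_lit 12822750259) (nat_lit 152) (nat_lit 19026038337) (nat_lit 76) (nat_lit 59590019643) (nat_lit 7) (nat_lit 5) (nat_lit 9) (nat_lit 5) (nat_lit 8) (nat_lit 4) (nat_lit 326) (nat_lit 241) (nat_lit 153))))) (XT.nd (nat_lit 234) (nat_lit 0) (nat_lit 0) (XT.nd (nat_lit 78) (nat_lit 76) (nat_lit 0) (XT.lf (nat_lit 0) (nat_lit 21607778666) (nat_lit 152) (nat_lit 1222137000) (nat_lit 76) (nat_lit 72864932789) (nat_lit 7) (nat_lit 5) (nat_lit 9) (nat_lit 5) (nat_lit 8) (nat_lit 4) (nat_lit 327)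 (nat_lit 241) (nat_lit 152)) (XT.nd (nat_lit 78) (nat_lit 0) (nat_lit 0) (XT.lf (nat_lit 0) (nat_lit 17796057454) (nat_lit 76) (nat_lit 13194226727) (nat_lit 152) (nat_lit 69168665988) (nat_lit 6) (nat_lit 5) (nat_lit 7) (nat_lit 5) (nat_lit 8) (nat_lit 4) (nat_lit 328) (nat_lit 241) (nat_lit 151)) (XT.lf (nat_lit 0) (nat_lit 37768197655) (nat_lit 76) (nat_lit 3073852397) (nat_lit 152) (nat_lit 64004208823) (nat_lit 6) (nat_lit 5) (nat_lit 7) (nat_lit 5) (nat_lit 8) (nat_lit 4) (nat_lit 329) (nat_lit 241) (nat_lit 150)))) (XT.nd (nat_lit 78) (nat_lit 0) (nat_lit 0) (XT.lf (nat_lit 0) (nat_lit 51247058695) (nat_lit 152) (nat_lit 51123288460) (nat_lit 0) (nat_lit 7395771902) (nat_lit 6) (nat_lit 5) (nat_lit 8) (nat_lit 4) (nat_lit 6) (nat_lit 4) (nat_lit 330) (nat_lit 241) (nat_lit 149)) (XT.nd (nat_lit 30576) (nat_lit 0) (nat_lit 21204) (XT.lf (nat_lit 0) (nat_lit 62191966562) (nat_lit 152)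 (nat_lit 34422469501) (nat_lit 0) (nat_lit 18316952126) (nat_lit 6) (nat_lit 5) (nat_lit 8) (nat_lit 4) (nat_lit 6) (nat_lit 4) (nat_lit 331) (nat_lit 241) (nat_lit 148)) (XT.lf (nat_lit 0) (nat_lit 1233837224) (nat_lit 0) (nat_lit 1233837224) (nat_lit 228) (nat_lit 777513012) (nat_lit 285) (nat_lit 5) (nat_lit 285) (nat_lit 3) (nat_lit 288) (nat_lit 3) (nat_lit 242) (nat_lit 242) (nat_lit 236)))))) (XT.nd (nat_lit 390) (nat_lit 3192) (nat_lit 0) (XT.nd (nat_lit 156) (nat_lit 380) (nat_lit 0) (XT.nd (nat_lit 78) (nat_lit 380) (nat_lit 0) (XT.lf (nat_lit 76) (nat_lit 841413882) (nat_lit 0) (nat_lit 1684088303) (nat_lit 380) (nat_lit 3993201549) (nat_lit 281) (nat_lit 5) (nat_lit 280) (nat_lit 3) (nat_lit 285) (nat_lit 5) (nat_lit 243) (nat_lit 242) (nat_lit 235)) (XT.lf (nat_lit 0) (nat_lit 1546700) (nat_lit 380) (nat_lit 676163801) (nat_lit 456) (nat_lit 5877656276) (nat_lit 275) (nat_lit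 5) (nat_lit 280) (nat_lit 3) (nat_lit 281) (nat_lit 5) (nat_lit 244) (nat_lit 242) (nat_lit 234))) (XT.nd (nat_lit 78) (nat_lit 456) (nat_lit 0) (XT.lf (nat_lit 0) (nat_lit 3909736197) (nat_lit 380) (nat_lit 2119749917) (nat_lit 456) (nat_lit 569997022) (nat_lit 276) (nat_lit 5) (nat_lit 281) (nat_lit 5) (nat_lit 282) (nat_lit 5) (nat_lit 245) (nat_lit 242) (nat_lit 233)) (XT.nd (nat_lit 78) (nat_lit 0) (nat_lit 0) (XT.lf (nat_lit 0) (nat_lit 1141285921) (nat_lit 456) (nat_lit 3488376875) (nat_lit 532) (nat_lit 2022377481) (nat_lit 270) (nat_lit 5) (nat_lit 276) (nat_lit 5) (nat_lit 277) (nat_lit 5) (nat_lit 246) (nat_lit 242) (nat_lit 232)) (XT.lf (nat_lit 76) (nat_lit 1915970473) (nat_lit 0) (nat_lit 2999154164) (nat_lit 532) (nat_lit 1797707209) (nat_lit 271) (nat_lit 5) (nat_lit 270) (nat_lit 5) (nat_lit 277) (nat_lit 5) (nat_lit 247) (nat_lit 242) (nat_lit 231))))) (XT.nd (nat_lit 234)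 (nat_lit 2128) (nat_lit 0) (XT.nd (nat_lit 78) (nat_lit 532) (nat_lit 0) (XT.lf (nat_lit 76) (nat_lit 737678344) (nat_lit 0) (nat_lit 1138602687) (nat_lit 608) (nat_lit 4905853340) (nat_lit 264) (nat_lit 5) (nat_lit 263) (nat_lit 5) (nat_lit 271) (nat_lit 5) (nat_lit 248) (nat_lit 242) (nat_lit 230)) (XT.nd (nat_lit 78) (nat_lit 608) (nat_lit 0) (XT.lf (nat_lit 0) (nat_lit 5537982987) (nat_lit 532) (nat_lit 378400083) (nat_lit 76) (nat_lit 943288082) (nat_lit 264) (nat_lit 5) (nat_lit 271) (nat_lit 5) (nat_lit 265) (nat_lit 5) (nat_lit 249) (nat_lit 242) (nat_lit 229)) (XT.lf (nat_lit 0) (nat_lit 2250220632) (nat_lit 608) (nat_lit 1441268998) (nat_lit 76) (nat_lit 3253703871) (nat_lit 256) (nat_lit 5) (nat_lit 264) (nat_lit 5) (nat_lit 257) (nat_lit 5) (nat_lit 250) (nat_lit 242) (nat_lit 228)))) (XT.nd (nat_lit 78) (nat_lit 1520) (nat_lit 0) (XT.lf (nat_lit 0) (nat_lit 4588460683) (nat_lit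 608) (nat_lit 1232778261) (nat_lit 684) (nat_lit 1218399556) (nat_lit 248) (nat_lit 5) (nat_lit 256) (nat_lit 5) (nat_lit 257) (nat_lit 5) (nat_lit 251) (nat_lit 242) (nat_lit 227)) (XT.nd (nat_lit 78) (nat_lit 760) (nat_lit 0) (XT.lf (nat_lit 0) (nat_lit 2254925500) (nat_lit 760) (nat_lit 3437948620) (nat_lit 76) (nat_lit 1449557697) (nat_lit 238) (nat_lit 5) (nat_lit 248) (nat_lit 5) (nat_lit 239) (nat_lit 5) (nat_lit 252) (nat_lit 242) (nat_lit 226)) (XT.lf (nat_lit 0) (nat_lit 2856491499) (nat_lit 760) (nat_lit 2899698787) (nat_lit 836) (nat_lit 1497846370) (nat_lit 228) (nat_lit 5) (nat_lit 238) (nat_lit 5) (nat_lit 239) (nat_lit 5) (nat_lit 253) (nat_lit 242) (nat_lit 225))))))))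
noncomputable def xc54 : XT := (XT.nd (nat_lit 1716) (nat_lit 3800) (nat_lit 0) (XT.nd (nat_lit 858) (nat_lit 3648) (nat_lit 0) (XT.nd (nat_lit 390) (nat_lit 3952) (nat_lit 0) (XT.nd (nat_lit 156) (nat_lit 2204) (nat_lit 0) (XT.nd (nat_lit 78) (nat_lit 912) (nat_lit 0) (XT.lf (nat_lit 0) (nat_lit 1897093025) (nat_lit 912) (nat_lit 5332813052) (nat_lit 76) (nat_lit 144827053) (nat_lit 216) (nat_lit 5) (nat_lit 228) (nat_lit 5) (nat_lit 217) (nat_lit 5) (nat_lit 254) (nat_lit 242) (nat_lit 224)) (XT.lf (nat_lit 0) (nat_lit 1228848577) (nat_lit 912) (nat_lit 4115848377) (nat_lit 988) (nat_lit 2159273729) (nat_lit 204) (nat_lit 5) (nat_lit 216) (nat_lit 5) (nat_lit 217) (nat_lit 5) (nat_lit 255) (nat_lit 242) (nat_lit 223))) (XT.nd (nat_lit 78) (nat_lit 1140) (nat_lit 0) (XT.lf (nat_lit 0) (nat_lit 442397184) (nat_lit 988) (nat_lit 748160167) (nat_lit 1064) (nat_lit 6452328880) (nat_lit 190)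 (nat_lit 5) (nat_lit 203) (nat_lit 5) (nat_lit 204) (nat_lit 5) (nat_lit 256) (nat_lit 242) (nat_lit 222)) (XT.nd (nat_lit 78) (nat_lit 1140) (nat_lit 0) (XT.lf (nat_lit 0) (nat_lit 4594243376) (nat_lit 1064) (nat_lit 355301517) (nat_lit 76) (nat_lit 2840954764) (nat_lit 190) (nat_lit 5) (nat_lit 204) (nat_lit 5) (nat_lit 191) (nat_lit 5) (nat_lit 257) (nat_lit 242) (nat_lit 221)) (XT.lf (nat_lit 0) (nat_lit 136525896) (nat_lit 1140) (nat_lit 1131136350) (nat_lit 76) (nat_lit 6680519465) (nat_lit 175) (nat_lit 5) (nat_lit 190) (nat_lit 5) (nat_lit 176) (nat_lit 5) (nat_lit 258) (nat_lit 242) (nat_lit 220))))) (XT.nd (nat_lit 234) (nat_lit 1596) (nat_lit 0) (XT.nd (nat_lit 78) (nat_lit 1216) (nat_lit 0) (XT.lf (nat_lit 0) (nat_lit 3510226368) (nat_lit 1216) (nat_lit 1949847749) (nat_lit 76) (nat_lit 2654798279) (nat_lit 160) (nat_lit 5) (nat_lit 176) (nat_lit 5) (nat_lit 161) (nat_lit 5) (nat_lit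 259) (nat_lit 242) (nat_lit 219)) (XT.nd (nat_lit 78) (nat_lit 684) (nat_lit 0) (XT.lf (nat_lit 0) (nat_lit 5515611572) (nat_lit 532) (nat_lit 1471013588) (nat_lit 608) (nat_lit 1305523857) (nat_lit 153) (nat_lit 5) (nat_lit 160) (nat_lit 5) (nat_lit 161) (nat_lit 5) (nat_lit 260) (nat_lit 242) (nat_lit 218)) (XT.lf (nat_lit 0) (nat_lit 2070712959) (nat_lit 684) (nat_lit 3654182599) (nat_lit 76) (nat_lit 2754394357) (nat_lit 144) (nat_lit 5) (nat_lit 153) (nat_lit 5) (nat_lit 145) (nat_lit 5) (nat_lit 261) (nat_lit 242) (nat_lit 217)))) (XT.nd (nat_lit 78) (nat_lit 1064) (nat_lit 0) (XT.lf (nat_lit 0) (nat_lit 4103148416) (nat_lit 532) (nat_lit 1434733314) (nat_lit 608) (nat_lit 3139284087) (nat_lit 137) (nat_lit 5) (nat_lit 144) (nat_lit 5) (nat_lit 145) (nat_lit 5) (nat_lit 262) (nat_lit 242) (nat_lit 216)) (XT.nd (nat_lit 78) (nat_lit 456) (nat_lit 0) (XT.lf (nat_lit 0) (nat_lit 257575445)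 (nat_lit 608) (nat_lit 5551050596) (nat_lit 76) (nat_lit 3077351294) (nat_lit 129) (nat_lit 5) (nat_lit 137) (nat_lit 5) (nat_lit 130) (nat_lit 5) (nat_lit 263) (nat_lit 242) (nat_lit 215)) (XT.lf (nat_lit 0) (nat_lit 2495794904) (nat_lit 456) (nat_lit 1224365106) (nat_lit 532) (nat_lit 5385523514) (nat_lit 123) (nat_lit 5) (nat_lit 129) (nat_lit 5) (nat_lit 130) (nat_lit 5) (nat_lit 264) (nat_lit 242) (nat_lit 214)))))) (XT.nd (nat_lit 390) (nat_lit 1824) (nat_lit 0) (XT.nd (nat_lit 156) (nat_lit 912) (nat_lit 0) (XT.nd (nat_lit 78) (nat_lit 456) (nat_lit 0) (XT.lf (nat_lit 0) (nat_lit 1585048815) (nat_lit 456) (nat_lit 5757041518) (nat_lit 532) (nat_lit 1994898931) (nat_lit 117) (nat_lit 5) (nat_lit 123) (nat_lit 5) (nat_lit 124) (nat_lit 5) (nat_lit 265) (nat_lit 242) (nat_lit 213)) (XT.lf (nat_lit 0) (nat_lit 597888675) (nat_lit 380) (nat_lit 905565689) (nat_lit 456) (nat_lit 8077077914)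 (nat_lit 111) (nat_lit 5) (nat_lit 116) (nat_lit 5) (nat_lit 117) (nat_lit 5) (nat_lit 266) (nat_lit 242) (nat_lit 212))) (XT.nd (nat_lit 78) (nat_lit 912) (nat_lit 0) (XT.lf (nat_lit 0) (nat_lit 5142803773) (nat_lit 456) (nat_lit 503109003) (nat_lit 76) (nat_lit 4189703813) (nat_lit 111) (nat_lit 5) (nat_lit 117) (nat_lit 5) (nat_lit 112) (nat_lit 5) (nat_lit 267) (nat_lit 242) (nat_lit 211)) (XT.nd (nat_lit 78) (nat_lit 456) (nat_lit 0) (XT.lf (nat_lit 0) (nat_lit 8426876960) (nat_lit 456) (nat_lit 518912601) (nat_lit 532) (nat_lit 1158383841) (nat_lit 105) (nat_lit 5) (nat_lit 111) (nat_lit 5) (nat_lit 112) (nat_lit 5) (nat_lit 268) (nat_lit 242) (nat_lit 210)) (XT.lf (nat_lit 0) (nat_lit 2521363217) (nat_lit 456) (nat_lit 3013307476) (nat_lit 76) (nat_lit 4850354558) (nat_lit 99) (nat_lit 5) (nat_lit 105) (nat_lit 5) (nat_lit 100) (nat_lit 5) (nat_lit 269) (nat_lit 242) (nat_lit 209)))))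 (XT.nd (nat_lit 234) (nat_lit 684) (nat_lit 0) (XT.nd (nat_lit 78) (nat_lit 760) (nat_lit 0) (XT.lf (nat_lit 0) (nat_lit 6206101830) (nat_lit 380) (nat_lit 135521932) (nat_lit 456) (nat_lit 4338685611) (nat_lit 94) (nat_lit 5) (nat_lit 99) (nat_lit 5) (nat_lit 100) (nat_lit 5) (nat_lit 270) (nat_lit 242) (nat_lit 208)) (XT.nd (nat_lit 78) (nat_lit 456) (nat_lit 0) (XT.lf (nat_lit 0) (nat_lit 4875711550) (nat_lit 304) (nat_lit 5509941478) (nat_lit 380) (nat_lit 603863198) (nat_lit 90) (nat_lit 5) (nat_lit 94) (nat_lit 5) (nat_lit 95) (nat_lit 5) (nat_lit 271) (nat_lit 242) (nat_lit 207)) (XT.lf (nat_lit 0) (nat_lit 3238554244) (nat_lit 456) (nat_lit 7933514059) (nat_lit 76) (nat_lit 141721095) (nat_lit 84) (nat_lit 5) (nat_lit 90) (nat_lit 5) (nat_lit 85) (nat_lit 5) (nat_lit 272) (nat_lit 242) (nat_lit 206)))) (XT.nd (nat_lit 78) (nat_lit 380) (nat_lit 0) (XT.lf (nat_lit 0) (nat_lit 1671250778)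 (nat_lit 304) (nat_lit 5631671561) (nat_lit 380) (nat_lit 4350029304) (nat_lit 80) (nat_lit 5) (nat_lit 84) (nat_lit 5) (nat_lit 85) (nat_lit 5) (nat_lit 273) (nat_lit 242) (nat_lit 205)) (XT.nd (nat_lit 78) (nat_lit 380) (nat_lit 0) (XT.lf (nat_lit 0) (nat_lit 11564723851) (nat_lit 380) (nat_lit 209619094) (nat_lit 76) (nat_lit 235021021) (nat_lit 80) (nat_lit 5) (nat_lit 85) (nat_lit 5) (nat_lit 81) (nat_lit 5) (nat_lit 274) (nat_lit 242) (nat_lit 204)) (XT.lf (nat_lit 0) (nat_lit 3653159885) (nat_lit 380) (nat_lit 2343291908) (nat_lit 76) (nat_lit 6384145786) (nat_lit 75) (nat_lit 5) (nat_lit 80) (nat_lit 5) (nat_lit 76) (nat_lit 5) (nat_lit 275) (nat_lit 242) (nat_lit 203))))))) (XT.nd (nat_lit 858) (nat_lit 1368) (nat_lit 0) (XT.nd (nat_lit 390) (nat_lit 1216) (nat_lit 0) (XT.nd (nat_lit 156) (nat_lit 608) (nat_lit 0) (XT.nd (nat_lit 78) (nat_lit 304) (nat_lit 0) (XT.lf (nat_lit 0) (nat_lit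 7943997567) (nat_lit 380) (nat_lit 4703164484) (nat_lit 76) (nat_lit 123282723) (nat_lit 71) (nat_lit 5) (nat_lit 76) (nat_lit 5) (nat_lit 72) (nat_lit 5) (nat_lit 276) (nat_lit 242) (nat_lit 202)) (XT.lf (nat_lit 0) (nat_lit 5806870914) (nat_lit 304) (nat_lit 6702134005) (nat_lit 380) (nat_lit 669089890) (nat_lit 67) (nat_lit 5) (nat_lit 71) (nat_lit 5) (nat_lit 72) (nat_lit 5) (nat_lit 277) (nat_lit 242) (nat_lit 201))) (XT.nd (nat_lit 78) (nat_lit 304) (nat_lit 0) (XT.lf (nat_lit 0) (nat_lit 3251078811) (nat_lit 228) (nat_lit 373930059) (nat_lit 304) (nat_lit 9980114465) (nat_lit 63) (nat_lit 5) (nat_lit 66) (nat_lit 5) (nat_lit 67) (nat_lit 5) (nat_lit 278) (nat_lit 242) (nat_lit 200)) (XT.nd (nat_lit 78) (nat_lit 0) (nat_lit 0) (XT.lf (nat_lit 0) (nat_lit 334845674) (nat_lit 304) (nat_lit 7848643704) (nat_lit 380) (nat_lit 5867997188) (nat_lit 59) (nat_lit 5) (nat_lit 63) (nat_lit 5)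 (nat_lit 64) (nat_lit 5) (nat_lit 279) (nat_lit 242) (nat_lit 199)) (XT.lf (nat_lit 0) (nat_lit 11662675258) (nat_lit 304) (nat_lit 1343415598) (nat_lit 380) (nat_lit 1513074485) (nat_lit 59) (nat_lit 5) (nat_lit 63) (nat_lit 5) (nat_lit 64) (nat_lit 5) (nat_lit 280) (nat_lit 242) (nat_lit 198))))) (XT.nd (nat_lit 234) (nat_lit 456) (nat_lit 0) (XT.nd (nat_lit 78) (nat_lit 456) (nat_lit 0) (XT.lf (nat_lit 0) (nat_lit 3064532603) (nat_lit 304) (nat_lit 6482313218) (nat_lit 76) (nat_lit 5460637671) (nat_lit 55) (nat_lit 5) (nat_lit 59) (nat_lit 5) (nat_lit 56) (nat_lit 5) (nat_lit 281) (nat_lit 242) (nat_lit 197)) (XT.nd (nat_lit 78) (nat_lit 228) (nat_lit 0) (XT.lf (nat_lit 0) (nat_lit 4981131553) (nat_lit 228) (nat_lit 2880763369) (nat_lit 304) (nat_lit 7657281521) (nat_lit 52) (nat_lit 5) (nat_lit 55) (nat_lit 5) (nat_lit 56) (nat_lit 5) (nat_lit 282) (nat_lit 242) (nat_lit 196)) (XT.lf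 (nat_lit 0) (nat_lit 975527396) (nat_lit 228) (nat_lit 11972709821) (nat_lit 304) (nat_lit 3106813324) (nat_lit 49) (nat_lit 5) (nat_lit 52) (nat_lit 5) (nat_lit 53) (nat_lit 5) (nat_lit 283) (nat_lit 242) (nat_lit 195)))) (XT.nd (nat_lit 78) (nat_lit 380) (nat_lit 0) (XT.lf (nat_lit 0) (nat_lit 1711492067) (nat_lit 304) (nat_lit 3476149154) (nat_lit 76) (nat_lit 11427472047) (nat_lit 48) (nat_lit 5) (nat_lit 52) (nat_lit 5) (nat_lit 49) (nat_lit 5) (nat_lit 284) (nat_lit 242) (nat_lit 194)) (XT.nd (nat_lit 78) (nat_lit 152) (nat_lit 0) (XT.lf (nat_lit 0) (nat_lit 6748042375) (nat_lit 304) (nat_lit 8469972672) (nat_lit 76) (nat_lit 1983055283) (nat_lit 45) (nat_lit 5) (nat_lit 49) (nat_lit 5) (nat_lit 46) (nat_lit 5) (nat_lit 285) (nat_lit 242) (nat_lit 193)) (XT.lf (nat_lit 0) (nat_lit 3731703134) (nat_lit 152) (nat_lit 8368284539) (nat_lit 228) (nat_lit 5714489136) (nat_lit 43) (nat_lit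 5) (nat_lit 45) (nat_lit 5) (nat_lit 46) (nat_lit 5) (nat_lit 286) (nat_lit 242) (nat_lit 192)))))) (XT.nd (nat_lit 390) (nat_lit 684) (nat_lit 0) (XT.nd (nat_lit 156) (nat_lit 380) (nat_lit 0) (XT.nd (nat_lit 78) (nat_lit 304) (nat_lit 0) (XT.lf (nat_lit 0) (nat_lit 16628671214) (nat_lit 152) (nat_lit 1119260685) (nat_lit 228) (nat_lit 709825458) (nat_lit 43) (nat_lit 5) (nat_lit 45) (nat_lit 5) (nat_lit 46) (nat_lit 5) (nat_lit 287) (nat_lit 242) (nat_lit 191)) (XT.lf (nat_lit 0) (nat_lit 4570286891) (nat_lit 304) (nat_lit 8071993458) (nat_lit 76) (nat_lit 6486245288) (nat_lit 39) (nat_lit 5) (nat_lit 43) (nat_lit 5) (nat_lit 40) (nat_lit 5) (nat_lit 288) (nat_lit 242) (nat_lit 190))) (XT.nd (nat_lit 78) (nat_lit 228) (nat_lit 0) (XT.lf (nat_lit 0) (nat_lit 4779558697) (nat_lit 152) (nat_lit 5341529095) (nat_lit 228) (nat_lit 9710941939) (nat_lit 37) (nat_lit 5) (nat_lit 39) (nat_lit 5)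 (nat_lit 40) (nat_lit 5) (nat_lit 289) (nat_lit 242) (nat_lit 189)) (XT.nd (nat_lit 78) (nat_lit 228) (nat_lit 0) (XT.lf (nat_lit 0) (nat_lit 16002157297) (nat_lit 228) (nat_lit 2235290165) (nat_lit 76) (nat_lit 2331726506) (nat_lit 37) (nat_lit 5) (nat_lit 40) (nat_lit 5) (nat_lit 38) (nat_lit 5) (nat_lit 290) (nat_lit 242) (nat_lit 188)) (XT.lf (nat_lit 0) (nat_lit 930514781) (nat_lit 228) (nat_lit 10041681054) (nat_lit 76) (nat_lit 10367401721) (nat_lit 34) (nat_lit 5) (nat_lit 37) (nat_lit 5) (nat_lit 35) (nat_lit 5) (nat_lit 291) (nat_lit 242) (nat_lit 187))))) (XT.nd (nat_lit 234) (nat_lit 380) (nat_lit 0) (XT.nd (nat_lit 78) (nat_lit 152) (nat_lit 0) (XT.lf (nat_lit 0) (nat_lit 3344738669) (nat_lit 152) (nat_lit 3270148256) (nat_lit 228) (nat_lit 15532147559) (nat_lit 32) (nat_lit 5) (nat_lit 34) (nat_lit 5) (nat_lit 35) (nat_lit 5) (nat_lit 292) (nat_lit 242) (nat_lit 186)) (XT.nd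 (nat_lit 78) (nat_lit 152) (nat_lit 0) (XT.lf (nat_lit 0) (nat_lit 12685652247) (nat_lit 228) (nat_lit 5508473948) (nat_lit 76) (nat_lit 4797691070) (nat_lit 32) (nat_lit 5) (nat_lit 35) (nat_lit 5) (nat_lit 33) (nat_lit 5) (nat_lit 293) (nat_lit 242) (nat_lit 185)) (XT.lf (nat_lit 0) (nat_lit 8507108035) (nat_lit 152) (nat_lit 10621417240) (nat_lit 228) (nat_lit 4748294205) (nat_lit 30) (nat_lit 5) (nat_lit 32) (nat_lit 5) (nat_lit 33) (nat_lit 5) (nat_lit 294) (nat_lit 242) (nat_lit 184)))) (XT.nd (nat_lit 78) (nat_lit 304) (nat_lit 0) (XT.lf (nat_lit 0) (nat_lit 1078317475) (nat_lit 228) (nat_lit 1551492010) (nat_lit 76) (nat_lit 22175621244) (nat_lit 29) (nat_lit 5) (nat_lit 32) (nat_lit 5) (nat_lit 30) (nat_lit 5) (nat_lit 295) (nat_lit 242) (nat_lit 183)) (XT.nd (nat_lit 78) (nat_lit 152) (nat_lit 0) (XT.lf (nat_lit 0) (nat_lit 7238625513) (nat_lit 228) (nat_lit 12739320019) (nat_lit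 76) (nat_lit 5796932506) (nat_lit 27) (nat_lit 5) (nat_lit 30) (nat_lit 5) (nat_lit 28) (nat_lit 5) (nat_lit 296) (nat_lit 242) (nat_lit 182)) (XT.lf (nat_lit 0) (nat_lit 1525012072) (nat_lit 152) (nat_lit 12197344686) (nat_lit 228) (nat_lit 13070010067) (nat_lit 25) (nat_lit 5) (nat_lit 27) (nat_lit 5) (nat_lit 28) (nat_lit 5) (nat_lit 297) (nat_lit 242) (nat_lit 181))))))))
noncomputable def xc55 : XT := (XT.nd (nat_lit 1716) (nat_lit 304) (nat_lit 0) (XT.nd (nat_lit 858) (nat_lit 456) (nat_lit 0) (XT.nd (nat_lit 390) (nat_lit 380) (nat_lit 0) (XT.nd (nat_lit 156) (nat_lit 228) (nat_lit 0) (XT.nd (nat_lit 78) (nat_lit 76) (nat_lit 0) (XT.lf (nat_lit 0) (nat_lit 16700676169) (nat_lit 152) (nat_lit 3920156015) (nat_lit 228) (nat_lit 7237210992) (nat_lit 25) (nat_lit 5) (nat_lit 27) (nat_lit 5) (nat_lit 28) (nat_lit 5) (nat_lit 298) (nat_lit 242) (nat_lit 180)) (XT.lf (nat_lit 0) (nat_lit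 3617048908) (nat_lit 76) (nat_lit 24288910644) (nat_lit 152) (nat_lit 1069820382) (nat_lit 24) (nat_lit 5) (nat_lit 25) (nat_lit 5) (nat_lit 26) (nat_lit 4) (nat_lit 299) (nat_lit 242) (nat_lit 179))) (XT.nd (nat_lit 78) (nat_lit 152) (nat_lit 0) (XT.lf (nat_lit 0) (nat_lit 5417946768) (nat_lit 152) (nat_lit 10939975600) (nat_lit 76) (nat_lit 13786423604) (nat_lit 23) (nat_lit 5) (nat_lit 25) (nat_lit 5) (nat_lit 24) (nat_lit 5) (nat_lit 300) (nat_lit 242) (nat_lit 178)) (XT.nd (nat_lit 78) (nat_lit 0) (nat_lit 0) (XT.lf (nat_lit 0) (nat_lit 4209451644) (nat_lit 152) (nat_lit 8002943991) (nat_lit 228) (nat_lit 19158519381) (nat_lit 21) (nat_lit 5) (nat_lit 23) (nat_lit 5) (nat_lit 24) (nat_lit 5) (nat_lit 301) (nat_lit 242) (nat_lit 177)) (XT.lf (nat_lit 0) (nat_lit 19432361492) (nat_lit 228) (nat_lit 12379667593) (nat_lit 76) (nat_lit 844233437) (nat_lit 21) (nat_lit 5) (nat_lit 24) (nat_lit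 5) (nat_lit 22) (nat_lit 4) (nat_lit 302) (nat_lit 242) (nat_lit 176))))) (XT.nd (nat_lit 234) (nat_lit 228) (nat_lit 0) (XT.nd (nat_lit 78) (nat_lit 76) (nat_lit 0) (XT.lf (nat_lit 0) (nat_lit 3062408061) (nat_lit 76) (nat_lit 24027476209) (nat_lit 152) (nat_lit 6913719084) (nat_lit 20) (nat_lit 5) (nat_lit 21) (nat_lit 5) (nat_lit 22) (nat_lit 4) (nat_lit 303) (nat_lit 242) (nat_lit 175)) (XT.nd (nat_lit 78) (nat_lit 76) (nat_lit 0) (XT.lf (nat_lit 0) (nat_lit 19479149889) (nat_lit 76) (nat_lit 15745979281) (nat_lit 152) (nat_lit 190358307) (nat_lit 20) (nat_lit 5) (nat_lit 21) (nat_lit 5) (nat_lit 22) (nat_lit 4) (nat_lit 304) (nat_lit 242) (nat_lit 174)) (XT.lf (nat_lit 0) (nat_lit 6703760945) (nat_lit 152) (nat_lit 301375035) (nat_lit 76) (nat_lit 29891809925) (nat_lit 19) (nat_lit 5) (nat_lit 21) (nat_lit 5) (nat_lit 20) (nat_lit 5) (nat_lit 305) (nat_lit 242) (nat_lit 173)))) (XT.nd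 (nat_lit 78) (nat_lit 76) (nat_lit 0) (XT.lf (nat_lit 0) (nat_lit 14088537420) (nat_lit 228) (nat_lit 22089320064) (nat_lit 76) (nat_lit 2270085630) (nat_lit 17) (nat_lit 5) (nat_lit 20) (nat_lit 5) (nat_lit 18) (nat_lit 4) (nat_lit 306) (nat_lit 242) (nat_lit 172)) (XT.nd (nat_lit 78) (nat_lit 76) (nat_lit 0) (XT.lf (nat_lit 0) (nat_lit 21887255112) (nat_lit 228) (nat_lit 6339950250) (nat_lit 76) (nat_lit 11847961890) (nat_lit 17) (nat_lit 5) (nat_lit 20) (nat_lit 5) (nat_lit 18) (nat_lit 4) (nat_lit 307) (nat_lit 242) (nat_lit 171)) (XT.lf (nat_lit 0) (nat_lit 10350543702) (nat_lit 76) (nat_lit 19797112887) (nat_lit 152) (nat_lit 11633960846) (nat_lit 16) (nat_lit 5) (nat_lit 17) (nat_lit 5) (nat_lit 18) (nat_lit 4) (nat_lit 308) (nat_lit 242) (nat_lit 170)))))) (XT.nd (nat_lit 390) (nat_lit 152) (nat_lit 0) (XT.nd (nat_lit 156) (nat_lit 76) (nat_lit 0) (XT.nd (nat_lit 78) (nat_lit 228)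 (nat_lit 0) (XT.lf (nat_lit 0) (nat_lit 27961113029) (nat_lit 76) (nat_lit 10898351601) (nat_lit 152) (nat_lit 4712790355) (nat_lit 16) (nat_lit 5) (nat_lit 17) (nat_lit 5) (nat_lit 18) (nat_lit 4) (nat_lit 309) (nat_lit 242) (nat_lit 169)) (XT.lf (nat_lit 0) (nat_lit 948509806) (nat_lit 152) (nat_lit 1539333589) (nat_lit 228) (nat_lit 42964362057) (nat_lit 13) (nat_lit 5) (nat_lit 15) (nat_lit 5) (nat_lit 16) (nat_lit 5) (nat_lit 310) (nat_lit 242) (nat_lit 168))) (XT.nd (nat_lit 78) (nat_lit 76) (nat_lit 0) (XT.lf (nat_lit 0) (nat_lit 10168668361) (nat_lit 228) (nat_lit 28932304355) (nat_lit 76) (nat_lit 8317266558) (nat_lit 13) (nat_lit 5) (nat_lit 16) (nat_lit 5) (nat_lit 14) (nat_lit 4) (nat_lit 311) (nat_lit 242) (nat_lit 167)) (XT.nd (nat_lit 78) (nat_lit 76) (nat_lit 0) (XT.lf (nat_lit 0) (nat_lit 18225034627) (nat_lit 228) (nat_lit 12640279260) (nat_lit 76) (nat_lit 18617529697)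 (nat_lit 13) (nat_lit 5) (nat_lit 16) (nat_lit 5) (nat_lit 14) (nat_lit 4) (nat_lit 312) (nat_lit 242) (nat_lit 166)) (XT.lf (nat_lit 0) (nat_lit 4514052616) (nat_lit 76) (nat_lit 22190666223) (nat_lit 152) (nat_lit 24945357424) (nat_lit 12) (nat_lit 5) (nat_lit 13) (nat_lit 5) (nat_lit 14) (nat_lit 4) (nat_lit 313) (nat_lit 242) (nat_lit 165))))) (XT.nd (nat_lit 234) (nat_lit 76) (nat_lit 0) (XT.nd (nat_lit 78) (nat_lit 76) (nat_lit 0) (XT.lf (nat_lit 0) (nat_lit 22751023328) (nat_lit 76) (nat_lit 12965305325) (nat_lit 152) (nat_lit 18206116196) (nat_lit 12) (nat_lit 5) (nat_lit 13) (nat_lit 5) (nat_lit 14) (nat_lit 4) (nat_lit 314) (nat_lit 242) (nat_lit 164)) (XT.nd (nat_lit 78) (nat_lit 76) (nat_lit 0) (XT.lf (nat_lit 0) (nat_lit 41862487893) (nat_lit 76) (nat_lit 3294908086) (nat_lit 152) (nat_lit 11151681496) (nat_lit 12) (nat_lit 5) (nat_lit 13) (nat_lit 5) (nat_lit 14) (nat_lit 4)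 (nat_lit 315) (nat_lit 242) (nat_lit 163)) (XT.lf (nat_lit 0) (nat_lit 3072463639) (nat_lit 76) (nat_lit 52073254701) (nat_lit 76) (nat_lit 3667078696) (nat_lit 11) (nat_lit 4) (nat_lit 12) (nat_lit 5) (nat_lit 12) (nat_lit 4) (nat_lit 316) (nat_lit 242) (nat_lit 162)))) (XT.nd (nat_lit 78) (nat_lit 0) (nat_lit 0) (XT.lf (nat_lit 0) (nat_lit 4273559399) (nat_lit 152) (nat_lit 39778317219) (nat_lit 76) (nat_lit 17383719599) (nat_lit 10) (nat_lit 5) (nat_lit 12) (nat_lit 5) (nat_lit 11) (nat_lit 4) (nat_lit 317) (nat_lit 242) (nat_lit 161)) (XT.nd (nat_lit 78) (nat_lit 0) (nat_lit 0) (XT.lf (nat_lit 0) (nat_lit 12517196214) (nat_lit 152) (nat_lit 23088940957) (nat_lit 76) (nat_lit 28582864724) (nat_lit 10) (nat_lit 5) (nat_lit 12) (nat_lit 5) (nat_lit 11) (nat_lit 4) (nat_lit 318) (nat_lit 242) (nat_lit 160)) (XT.lf (nat_lit 0) (nat_lit 21155017368) (nat_lit 152) (nat_lit 5597217796) (nat_lit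 76) (nat_lit 40328392138) (nat_lit 10) (nat_lit 5) (nat_lit 12) (nat_lit 5) (nat_lit 11) (nat_lit 4) (nat_lit 319) (nat_lit 242) (nat_lit 159))))))) (XT.nd (nat_lit 858) (nat_lit 0) (nat_lit 0) (XT.nd (nat_lit 390) (nat_lit 152) (nat_lit 0) (XT.nd (nat_lit 156) (nat_lit 76) (nat_lit 0) (XT.nd (nat_lit 78) (nat_lit 0) (nat_lit 0) (XT.lf (nat_lit 0) (nat_lit 12992020334) (nat_lit 76) (nat_lit 17340456016) (nat_lit 152) (nat_lit 39781134296) (nat_lit 9) (nat_lit 5) (nat_lit 10) (nat_lit 5) (nat_lit 11) (nat_lit 4) (nat_lit 320) (nat_lit 242) (nat_lit 158)) (XT.lf (nat_lit 0) (nat_lit 32597970383) (nat_lit 76) (nat_lit 7411846410) (nat_lit 152) (nat_lit 33287204744) (nat_lit 9) (nat_lit 5) (nat_lit 10) (nat_lit 5) (nat_lit 11) (nat_lit 4) (nat_lit 321) (nat_lit 242) (nat_lit 157))) (XT.nd (nat_lit 78) (nat_lit 76) (nat_lit 0) (XT.lf (nat_lit 0) (nat_lit 50184049983) (nat_lit 152) (nat_lit 23513012873)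 (nat_lit 0) (nat_lit 2942157570) (nat_lit 9) (nat_lit 5) (nat_lit 11) (nat_lit 4) (nat_lit 9) (nat_lit 4) (nat_lit 322) (nat_lit 242) (nat_lit 156)) (XT.nd (nat_lit 78) (nat_lit 76) (nat_lit 0) (XT.lf (nat_lit 0) (nat_lit 60926624452) (nat_lit 152) (nat_lit 5569780500) (nat_lit 0) (nat_lit 13650343250) (nat_lit 9) (nat_lit 5) (nat_lit 11) (nat_lit 4) (nat_lit 9) (nat_lit 4) (nat_lit 323) (nat_lit 242) (nat_lit 155)) (XT.lf (nat_lit 0) (nat_lit 13508208958) (nat_lit 76) (nat_lit 58813510770) (nat_lit 76) (nat_lit 11504478338) (nat_lit 8) (nat_lit 4) (nat_lit 9) (nat_lit 5) (nat_lit 9) (nat_lit 4) (nat_lit 324) (nat_lit 242) (nat_lit 154))))) (XT.nd (nat_lit 234) (nat_lit 76) (nat_lit 0) (XT.nd (nat_lit 78) (nat_lit 76) (nat_lit 0) (XT.lf (nat_lit 0) (nat_lit 33631236813) (nat_lit 76) (nat_lit 50698657527) (nat_lit 76) (nat_lit 3358433449) (nat_lit 8) (nat_lit 4) (nat_lit 9) (nat_lit 5) (nat_lit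 9) (nat_lit 4) (nat_lit 325) (nat_lit 242) (nat_lit 153)) (XT.nd (nat_lit 78) (nat_lit 0) (nat_lit 0) (XT.lf (nat_lit 0) (nat_lit 5080059259) (nat_lit 152) (nat_lit 37057410111) (nat_lit 76) (nat_lit 49605007587) (nat_lit 7) (nat_lit 5) (nat_lit 9) (nat_lit 5) (nat_lit 8) (nat_lit 4) (nat_lit 326) (nat_lit 242) (nat_lit 152)) (XT.lf (nat_lit 0) (nat_lit 13858823811) (nat_lit 152) (nat_lit 19264809812) (nat_lit 76) (nat_lit 62875074519) (nat_lit 7) (nat_lit 5) (nat_lit 9) (nat_lit 5) (nat_lit 8) (nat_lit 4) (nat_lit 327) (nat_lit 242) (nat_lit 151)))) (XT.nd (nat_lit 78) (nat_lit 76) (nat_lit 0) (XT.lf (nat_lit 0) (nat_lit 23064297160) (nat_lit 152) (nat_lit 604643430) (nat_lit 76) (nat_lit 76799183137) (nat_lit 7) (nat_lit 5) (nat_lit 9) (nat_lit 5) (nat_lit 8) (nat_lit 4) (nat_lit 328) (nat_lit 242) (nat_lit 150)) (XT.nd (nat_lit 78) (nat_lit 0) (nat_lit 0) (XT.lf (nat_lit 0) (nat_lit 19345008802)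 (nat_lit 76) (nat_lit 13559344357) (nat_lit 152) (nat_lit 72251433339) (nat_lit 6) (nat_lit 5) (nat_lit 7) (nat_lit 5) (nat_lit 8) (nat_lit 4) (nat_lit 329) (nat_lit 242) (nat_lit 149)) (XT.lf (nat_lit 0) (nat_lit 40284367990) (nat_lit 76) (nat_lit 2946979582) (nat_lit 152) (nat_lit 66846642171) (nat_lit 6) (nat_lit 5) (nat_lit 7) (nat_lit 5) (nat_lit 8) (nat_lit 4) (nat_lit 330) (nat_lit 242) (nat_lit 148)))))) (XT.nd (nat_lit 31044) (nat_lit 0) (nat_lit 16796) (XT.nd (nat_lit 30810) (nat_lit 0) (nat_lit 19456) (XT.nd (nat_lit 30654) (nat_lit 0) (nat_lit 20444) (XT.lf (nat_lit 0) (nat_lit 54142642091) (nat_lit 152) (nat_lit 53074076158) (nat_lit 0) (nat_lit 8027551538) (nat_lit 6) (nat_lit 5) (nat_lit 8) (nat_lit 4) (nat_lit 6) (nat_lit 4) (nat_lit 331) (nat_lit 242) (nat_lit 147)) (XT.nd (nat_lit 78) (nat_lit 380) (nat_lit 0) (XT.lf (nat_lit 0) (nat_lit 3216051375) (nat_lit 380) (nat_lit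 29788872) (nat_lit 380) (nat_lit 29788872) (nat_lit 280) (nat_lit 3) (nat_lit 285) (nat_lit 3) (nat_lit 285) (nat_lit 5) (nat_lit 243) (nat_lit 243) (nat_lit 234)) (XT.lf (nat_lit 0) (nat_lit 3675901993) (nat_lit 380) (nat_lit 1714855956) (nat_lit 456) (nat_lit 1200107966) (nat_lit 275) (nat_lit 5) (nat_lit 280) (nat_lit 3) (nat_lit 281) (nat_lit 5) (nat_lit 244) (nat_lit 243) (nat_lit 233)))) (XT.nd (nat_lit 78) (nat_lit 532) (nat_lit 0) (XT.lf (nat_lit 0) (nat_lit 794927749) (nat_lit 456) (nat_lit 3285790826) (nat_lit 532) (nat_lit 2558373275) (nat_lit 269) (nat_lit 5) (nat_lit 275) (nat_lit 5) (nat_lit 276) (nat_lit 5) (nat_lit 245) (nat_lit 243) (nat_lit 232)) (XT.nd (nat_lit 78) (nat_lit 532) (nat_lit 0) (XT.lf (nat_lit 76) (nat_lit 1897153747) (nat_lit 0) (nat_lit 2535734020) (nat_lit 532) (nat_lit 2262501670) (nat_lit 270) (nat_lit 5) (nat_lit 269) (nat_lit 5) (nat_lit 276) (nat_lit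 5) (nat_lit 246) (nat_lit 243) (nat_lit 231)) (XT.lf (nat_lit 76) (nat_lit 516695814) (nat_lit 0) (nat_lit 764786277) (nat_lit 608) (nat_lit 5478779377) (nat_lit 263) (nat_lit 5) (nat_lit 262) (nat_lit 5) (nat_lit 270) (nat_lit 5) (nat_lit 247) (nat_lit 243) (nat_lit 230))))) (XT.nd (nat_lit 234) (nat_lit 2128) (nat_lit 0) (XT.nd (nat_lit 78) (nat_lit 608) (nat_lit 0) (XT.lf (nat_lit 0) (nat_lit 4800456852) (nat_lit 532) (nat_lit 800253902) (nat_lit 608) (nat_lit 1232195715) (nat_lit 263) (nat_lit 5) (nat_lit 270) (nat_lit 5) (nat_lit 271) (nat_lit 5) (nat_lit 248) (nat_lit 243) (nat_lit 229)) (XT.nd (nat_lit 78) (nat_lit 0) (nat_lit 0) (XT.lf (nat_lit 0) (nat_lit 1401834378) (nat_lit 608) (nat_lit 2056031454) (nat_lit 684) (nat_lit 3455961060) (nat_lit 255) (nat_lit 5) (nat_lit 263) (nat_lit 5) (nat_lit 264) (nat_lit 5) (nat_lit 249) (nat_lit 243) (nat_lit 228)) (XT.lf (nat_lit 76) (nat_lit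 3737939932) (nat_lit 0) (nat_lit 1072695671) (nat_lit 684) (nat_lit 2192683490) (nat_lit 256) (nat_lit 5) (nat_lit 255) (nat_lit 5) (nat_lit 264) (nat_lit 5) (nat_lit 250) (nat_lit 243) (nat_lit 227)))) (XT.nd (nat_lit 78) (nat_lit 1520) (nat_lit 0) (XT.lf (nat_lit 0) (nat_lit 1135554799) (nat_lit 684) (nat_lit 4441063701) (nat_lit 76) (nat_lit 1524687851) (nat_lit 247) (nat_lit 5) (nat_lit 256) (nat_lit 5) (nat_lit 248) (nat_lit 5) (nat_lit 251) (nat_lit 243) (nat_lit 226)) (XT.nd (nat_lit 78) (nat_lit 836) (nat_lit 0) (XT.lf (nat_lit 0) (nat_lit 1610706734) (nat_lit 684) (nat_lit 2849528752) (nat_lit 760) (nat_lit 2747462752) (nat_lit 238) (nat_lit 5) (nat_lit 247) (nat_lit 5) (nat_lit 248) (nat_lit 5) (nat_lit 252) (nat_lit 243) (nat_lit 225)) (XT.lf (nat_lit 0) (nat_lit 492710517) (nat_lit 836) (nat_lit 6714110368) (nat_lit 76) (nat_lit 116594146) (nat_lit 227) (nat_lit 5) (nat_lit 238)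 (nat_lit 5) (nat_lit 228) (nat_lit 5) (nat_lit 253) (nat_lit 243) (nat_lit 224))))))))
noncomputable def xc56 : XT := (XT.nd (nat_lit 1716) (nat_lit 3648) (nat_lit 0) (XT.nd (nat_lit 858) (nat_lit 4104) (nat_lit 0) (XT.nd (nat_lit 390) (nat_lit 3496) (nat_lit 0) (XT.nd (nat_lit 156) (nat_lit 3116) (nat_lit 0) (XT.nd (nat_lit 78) (nat_lit 836) (nat_lit 0) (XT.lf (nat_lit 0) (nat_lit 3753371780) (nat_lit 836) (nat_lit 394197015) (nat_lit 76) (nat_lit 3299441779) (nat_lit 227) (nat_lit 5) (nat_lit 238) (nat_lit 5) (nat_lit 228) (nat_lit 5) (nat_lit 254) (nat_lit 243) (nat_lit 223)) (XT.lf (nat_lit 0) (nat_lit 6233034399) (nat_lit 836) (nat_lit 839971579) (nat_lit 912) (nat_lit 507252214) (nat_lit 216) (nat_lit 5) (nat_lit 227) (nat_lit 5) (nat_lit 228) (nat_lit 5) (nat_lit 255) (nat_lit 243) (nat_lit 222))) (XT.nd (nat_lit 78) (nat_lit 2128) (nat_lit 0) (XT.lf (nat_lit 0) (nat_lit 2706492425)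 (nat_lit 988) (nat_lit 2320826703) (nat_lit 76) (nat_lit 2694651780) (nat_lit 203) (nat_lit 5) (nat_lit 216) (nat_lit 5) (nat_lit 204) (nat_lit 5) (nat_lit 256) (nat_lit 243) (nat_lit 221)) (XT.nd (nat_lit 78) (nat_lit 1140) (nat_lit 0) (XT.lf (nat_lit 0) (nat_lit 4589056363) (nat_lit 988) (nat_lit 1395426807) (nat_lit 1064) (nat_lit 1889022583) (nat_lit 190) (nat_lit 5) (nat_lit 203) (nat_lit 5) (nat_lit 204) (nat_lit 5) (nat_lit 257) (nat_lit 243) (nat_lit 220)) (XT.lf (nat_lit 0) (nat_lit 1302922100) (nat_lit 1140) (nat_lit 4268872331) (nat_lit 76) (nat_lit 2462615473) (nat_lit 175) (nat_lit 5) (nat_lit 190) (nat_lit 5) (nat_lit 176) (nat_lit 5) (nat_lit 258) (nat_lit 243) (nat_lit 219))))) (XT.nd (nat_lit 234) (nat_lit 1140) (nat_lit 0) (XT.nd (nat_lit 78) (nat_lit 1216) (nat_lit 0) (XT.lf (nat_lit 0) (nat_lit 2926029523) (nat_lit 1140) (nat_lit 1623731290) (nat_lit 1216) (nat_lit 3655278214)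 (nat_lit 160) (nat_lit 5) (nat_lit 175) (nat_lit 5) (nat_lit 176) (nat_lit 5) (nat_lit 259) (nat_lit 243) (nat_lit 218)) (XT.nd (nat_lit 78) (nat_lit 684) (nat_lit 0) (XT.lf (nat_lit 0) (nat_lit 2070160333) (nat_lit 532) (nat_lit 5840576510) (nat_lit 608) (nat_lit 475167759) (nat_lit 153) (nat_lit 5) (nat_lit 160) (nat_lit 5) (nat_lit 161) (nat_lit 5) (nat_lit 260) (nat_lit 243) (nat_lit 217)) (XT.lf (nat_lit 0) (nat_lit 1169639568) (nat_lit 608) (nat_lit 1587941117) (nat_lit 684) (nat_lit 5819160668) (nat_lit 144) (nat_lit 5) (nat_lit 152) (nat_lit 5) (nat_lit 153) (nat_lit 5) (nat_lit 261) (nat_lit 243) (nat_lit 216)))) (XT.nd (nat_lit 78) (nat_lit 608) (nat_lit 0) (XT.lf (nat_lit 0) (nat_lit 225464984) (nat_lit 532) (nat_lit 5884359994) (nat_lit 608) (nat_lit 2668351208) (nat_lit 137) (nat_lit 5) (nat_lit 144) (nat_lit 5) (nat_lit 145) (nat_lit 5) (nat_lit 262) (nat_lit 243) (nat_lit 215))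 (XT.nd (nat_lit 78) (nat_lit 532) (nat_lit 0) (XT.lf (nat_lit 0) (nat_lit 596078743) (nat_lit 608) (nat_lit 746728748) (nat_lit 76) (nat_lit 7647844423) (nat_lit 136) (nat_lit 5) (nat_lit 144) (nat_lit 5) (nat_lit 137) (nat_lit 5) (nat_lit 263) (nat_lit 243) (nat_lit 214)) (XT.lf (nat_lit 0) (nat_lit 3955917927) (nat_lit 608) (nat_lit 1805151399) (nat_lit 76) (nat_lit 3452469059) (nat_lit 129) (nat_lit 5) (nat_lit 137) (nat_lit 5) (nat_lit 130) (nat_lit 5) (nat_lit 264) (nat_lit 243) (nat_lit 213)))))) (XT.nd (nat_lit 390) (nat_lit 1824) (nat_lit 0) (XT.nd (nat_lit 156) (nat_lit 1292) (nat_lit 0) (XT.nd (nat_lit 78) (nat_lit 532) (nat_lit 0) (XT.lf (nat_lit 0) (nat_lit 6528704940) (nat_lit 456) (nat_lit 924995751) (nat_lit 532) (nat_lit 1994961119) (nat_lit 123) (nat_lit 5) (nat_lit 129) (nat_lit 5) (nat_lit 130) (nat_lit 5) (nat_lit 265) (nat_lit 243) (nat_lit 212)) (XT.lf (nat_lit 0) (nat_lit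 1404986669) (nat_lit 532) (nat_lit 4143314987) (nat_lit 76) (nat_lit 4146941616) (nat_lit 116) (nat_lit 5) (nat_lit 123) (nat_lit 5) (nat_lit 117) (nat_lit 5) (nat_lit 266) (nat_lit 243) (nat_lit 211))) (XT.nd (nat_lit 78) (nat_lit 912) (nat_lit 0) (XT.lf (nat_lit 0) (nat_lit 4489896846) (nat_lit 380) (nat_lit 419909047) (nat_lit 456) (nat_lit 5044639721) (nat_lit 111) (nat_lit 5) (nat_lit 116) (nat_lit 5) (nat_lit 117) (nat_lit 5) (nat_lit 267) (nat_lit 243) (nat_lit 210)) (XT.nd (nat_lit 78) (nat_lit 456) (nat_lit 0) (XT.lf (nat_lit 0) (nat_lit 3309771921) (nat_lit 456) (nat_lit 5299399480) (nat_lit 532) (nat_lit 1617017847) (nat_lit 105) (nat_lit 5) (nat_lit 111) (nat_lit 5) (nat_lit 112) (nat_lit 5) (nat_lit 268) (nat_lit 243) (nat_lit 209)) (XT.lf (nat_lit 0) (nat_lit 1924062627) (nat_lit 456) (nat_lit 8491204602) (nat_lit 76) (nat_lit 96406933) (nat_lit 99) (nat_lit 5) (nat_lit 105)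 (nat_lit 5) (nat_lit 100) (nat_lit 5) (nat_lit 269) (nat_lit 243) (nat_lit 208))))) (XT.nd (nat_lit 234) (nat_lit 1064) (nat_lit 0) (XT.nd (nat_lit 78) (nat_lit 380) (nat_lit 0) (XT.lf (nat_lit 0) (nat_lit 559135006) (nat_lit 380) (nat_lit 5083486318) (nat_lit 456) (nat_lit 5167456892) (nat_lit 94) (nat_lit 5) (nat_lit 99) (nat_lit 5) (nat_lit 100) (nat_lit 5) (nat_lit 270) (nat_lit 243) (nat_lit 207)) (XT.nd (nat_lit 78) (nat_lit 380) (nat_lit 0) (XT.lf (nat_lit 0) (nat_lit 9546397670) (nat_lit 456) (nat_lit 1007119891) (nat_lit 76) (nat_lit 570040691) (nat_lit 94) (nat_lit 5) (nat_lit 100) (nat_lit 5) (nat_lit 95) (nat_lit 5) (nat_lit 271) (nat_lit 243) (nat_lit 206)) (XT.lf (nat_lit 0) (nat_lit 2195696602) (nat_lit 380) (nat_lit 2769831042) (nat_lit 76) (nat_lit 6485301694) (nat_lit 89) (nat_lit 5) (nat_lit 94) (nat_lit 5) (nat_lit 90) (nat_lit 5) (nat_lit 272) (nat_lit 243) (nat_lit 205))))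 (XT.nd (nat_lit 78) (nat_lit 684) (nat_lit 0) (XT.lf (nat_lit 0) (nat_lit 6125621965) (nat_lit 456) (nat_lit 4713804261) (nat_lit 76) (nat_lit 954656403) (nat_lit 84) (nat_lit 5) (nat_lit 90) (nat_lit 5) (nat_lit 85) (nat_lit 5) (nat_lit 273) (nat_lit 243) (nat_lit 204)) (XT.nd (nat_lit 78) (nat_lit 380) (nat_lit 0) (XT.lf (nat_lit 0) (nat_lit 5267535853) (nat_lit 304) (nat_lit 5029670477) (nat_lit 380) (nat_lit 1856050150) (nat_lit 80) (nat_lit 5) (nat_lit 84) (nat_lit 5) (nat_lit 85) (nat_lit 5) (nat_lit 274) (nat_lit 243) (nat_lit 203)) (XT.lf (nat_lit 0) (nat_lit 2114019149) (nat_lit 380) (nat_lit 9291670707) (nat_lit 76) (nat_lit 1123916297) (nat_lit 75) (nat_lit 5) (nat_lit 80) (nat_lit 5) (nat_lit 76) (nat_lit 5) (nat_lit 275) (nat_lit 243) (nat_lit 202))))))) (XT.nd (nat_lit 858) (nat_lit 1368) (nat_lit 0) (XT.nd (nat_lit 390) (nat_lit 1064) (nat_lit 0) (XT.nd (nat_lit 156) (nat_lit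 912) (nat_lit 0) (XT.nd (nat_lit 78) (nat_lit 0) (nat_lit 0) (XT.lf (nat_lit 0) (nat_lit 927351308) (nat_lit 304) (nat_lit 5368771431) (nat_lit 380) (nat_lit 6626641077) (nat_lit 71) (nat_lit 5) (nat_lit 75) (nat_lit 5) (nat_lit 76) (nat_lit 5) (nat_lit 276) (nat_lit 243) (nat_lit 201)) (XT.lf (nat_lit 0) (nat_lit 10716037009) (nat_lit 380) (nat_lit 1600028930) (nat_lit 76) (nat_lit 1018746843) (nat_lit 71) (nat_lit 5) (nat_lit 76) (nat_lit 5) (nat_lit 72) (nat_lit 5) (nat_lit 277) (nat_lit 243) (nat_lit 200))) (XT.nd (nat_lit 78) (nat_lit 532) (nat_lit 0) (XT.lf (nat_lit 0) (nat_lit 1629505279) (nat_lit 380) (nat_lit 4441600202) (nat_lit 76) (nat_lit 7693856629) (nat_lit 66) (nat_lit 5) (nat_lit 71) (nat_lit 5) (nat_lit 67) (nat_lit 5) (nat_lit 278) (nat_lit 243) (nat_lit 199)) (XT.nd (nat_lit 78) (nat_lit 304) (nat_lit 0) (XT.lf (nat_lit 0) (nat_lit 6050373597) (nat_lit 304) (nat_lit 7610380004)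 (nat_lit 76) (nat_lit 554740736) (nat_lit 63) (nat_lit 5) (nat_lit 67) (nat_lit 5) (nat_lit 64) (nat_lit 5) (nat_lit 279) (nat_lit 243) (nat_lit 198)) (XT.lf (nat_lit 0) (nat_lit 3515802300) (nat_lit 304) (nat_lit 7248124053) (nat_lit 380) (nat_lit 3922556917) (nat_lit 59) (nat_lit 5) (nat_lit 63) (nat_lit 5) (nat_lit 64) (nat_lit 5) (nat_lit 280) (nat_lit 243) (nat_lit 197))))) (XT.nd (nat_lit 234) (nat_lit 532) (nat_lit 0) (XT.nd (nat_lit 78) (nat_lit 228) (nat_lit 0) (XT.lf (nat_lit 0) (nat_lit 74818031) (nat_lit 228) (nat_lit 458795998) (nat_lit 304) (nat_lit 14646971629) (nat_lit 55) (nat_lit 5) (nat_lit 58) (nat_lit 5) (nat_lit 59) (nat_lit 5) (nat_lit 281) (nat_lit 243) (nat_lit 196)) (XT.nd (nat_lit 78) (nat_lit 228) (nat_lit 0) (XT.lf (nat_lit 0) (nat_lit 5246507619) (nat_lit 304) (nat_lit 3783064302) (nat_lit 76) (nat_lit 6665274825) (nat_lit 55) (nat_lit 5) (nat_lit 59) (nat_lit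 5) (nat_lit 56) (nat_lit 5) (nat_lit 282) (nat_lit 243) (nat_lit 195)) (XT.lf (nat_lit 0) (nat_lit 8166888570) (nat_lit 228) (nat_lit 2048471780) (nat_lit 304) (nat_lit 6018917633) (nat_lit 52) (nat_lit 5) (nat_lit 55) (nat_lit 5) (nat_lit 56) (nat_lit 5) (nat_lit 283) (nat_lit 243) (nat_lit 194)))) (XT.nd (nat_lit 78) (nat_lit 304) (nat_lit 0) (XT.lf (nat_lit 0) (nat_lit 3926821039) (nat_lit 228) (nat_lit 11572686678) (nat_lit 304) (nat_lit 1299230867) (nat_lit 49) (nat_lit 5) (nat_lit 52) (nat_lit 5) (nat_lit 53) (nat_lit 5) (nat_lit 284) (nat_lit 243) (nat_lit 193)) (XT.nd (nat_lit 78) (nat_lit 228) (nat_lit 0) (XT.lf (nat_lit 0) (nat_lit 3630037549) (nat_lit 304) (nat_lit 847372860) (nat_lit 76) (nat_lit 12911667523) (nat_lit 48) (nat_lit 5) (nat_lit 52) (nat_lit 5) (nat_lit 49) (nat_lit 5) (nat_lit 285) (nat_lit 243) (nat_lit 192)) (XT.lf (nat_lit 0) (nat_lit 8866434727) (nat_lit 304)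 (nat_lit 6125487118) (nat_lit 76) (nat_lit 3014056226) (nat_lit 45) (nat_lit 5) (nat_lit 49) (nat_lit 5) (nat_lit 46) (nat_lit 5) (nat_lit 286) (nat_lit 243) (nat_lit 191)))))) (XT.nd (nat_lit 390) (nat_lit 608) (nat_lit 0) (XT.nd (nat_lit 156) (nat_lit 304) (nat_lit 0) (XT.nd (nat_lit 78) (nat_lit 304) (nat_lit 0) (XT.lf (nat_lit 0) (nat_lit 6606928768) (nat_lit 152) (nat_lit 7820084320) (nat_lit 228) (nat_lit 4224892429) (nat_lit 43) (nat_lit 5) (nat_lit 45) (nat_lit 5) (nat_lit 46) (nat_lit 5) (nat_lit 287) (nat_lit 243) (nat_lit 190)) (XT.lf (nat_lit 0) (nat_lit 695306336) (nat_lit 228) (nat_lit 238393269) (nat_lit 304) (nat_lit 18395715188) (nat_lit 39) (nat_lit 5) (nat_lit 42) (nat_lit 5) (nat_lit 43) (nat_lit 5) (nat_lit 288) (nat_lit 243) (nat_lit 189))) (XT.nd (nat_lit 78) (nat_lit 304) (nat_lit 0) (XT.lf (nat_lit 0) (nat_lit 6410699486) (nat_lit 304) (nat_lit 5914156604) (nat_lit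 76) (nat_lit 7710299653) (nat_lit 39) (nat_lit 5) (nat_lit 43) (nat_lit 5) (nat_lit 40) (nat_lit 5) (nat_lit 289) (nat_lit 243) (nat_lit 188)) (XT.nd (nat_lit 78) (nat_lit 152) (nat_lit 0) (XT.lf (nat_lit 0) (nat_lit 7506550095) (nat_lit 152) (nat_lit 4679649584) (nat_lit 228) (nat_lit 8589289120) (nat_lit 37) (nat_lit 5) (nat_lit 39) (nat_lit 5) (nat_lit 40) (nat_lit 5) (nat_lit 290) (nat_lit 243) (nat_lit 187)) (XT.lf (nat_lit 0) (nat_lit 61018093) (nat_lit 152) (nat_lit 18235154746) (nat_lit 228) (nat_lit 3255337174) (nat_lit 35) (nat_lit 5) (nat_lit 37) (nat_lit 5) (nat_lit 38) (nat_lit 5) (nat_lit 291) (nat_lit 243) (nat_lit 186))))) (XT.nd (nat_lit 234) (nat_lit 380) (nat_lit 0) (XT.nd (nat_lit 78) (nat_lit 152) (nat_lit 0) (XT.lf (nat_lit 0) (nat_lit 2437247146) (nat_lit 228) (nat_lit 8175607791) (nat_lit 76) (nat_lit 11748709251) (nat_lit 34) (nat_lit 5) (nat_lit 37) (nat_lit 5) (nat_lit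 35) (nat_lit 5) (nat_lit 292) (nat_lit 243) (nat_lit 185)) (XT.nd (nat_lit 78) (nat_lit 0) (nat_lit 0) (XT.lf (nat_lit 0) (nat_lit 5812250164) (nat_lit 152) (nat_lit 2546165730) (nat_lit 228) (nat_lit 14852437206) (nat_lit 32) (nat_lit 5) (nat_lit 34) (nat_lit 5) (nat_lit 35) (nat_lit 5) (nat_lit 293) (nat_lit 243) (nat_lit 184)) (XT.lf (nat_lit 0) (nat_lit 14673568878) (nat_lit 228) (nat_lit 3559824718) (nat_lit 76) (nat_lit 5866310684) (nat_lit 32) (nat_lit 5) (nat_lit 35) (nat_lit 5) (nat_lit 33) (nat_lit 5) (nat_lit 294) (nat_lit 243) (nat_lit 183)))) (XT.nd (nat_lit 78) (nat_lit 228) (nat_lit 0) (XT.lf (nat_lit 0) (nat_lit 11092783760) (nat_lit 152) (nat_lit 10302109354) (nat_lit 228) (nat_lit 3635426399) (nat_lit 30) (nat_lit 5) (nat_lit 32) (nat_lit 5) (nat_lit 33) (nat_lit 5) (nat_lit 295) (nat_lit 243) (nat_lit 182)) (XT.nd (nat_lit 78) (nat_lit 0) (nat_lit 0) (XT.lf (nat_lit 0)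 (nat_lit 463483839) (nat_lit 152) (nat_lit 1934093981) (nat_lit 228) (nat_lit 23609199994) (nat_lit 27) (nat_lit 5) (nat_lit 29) (nat_lit 5) (nat_lit 30) (nat_lit 5) (nat_lit 296) (nat_lit 243) (nat_lit 181)) (XT.lf (nat_lit 0) (nat_lit 8828581031) (nat_lit 228) (nat_lit 11322699430) (nat_lit 76) (nat_lit 6874582543) (nat_lit 27) (nat_lit 5) (nat_lit 30) (nat_lit 5) (nat_lit 28) (nat_lit 5) (nat_lit 297) (nat_lit 243) (nat_lit 180))))))))
noncomputable def xc57 : XT := (XT.nd (nat_lit 1716) (nat_lit 304) (nat_lit 0) (XT.nd (nat_lit 858) (nat_lit 532) (nat_lit 0) (XT.nd (nat_lit 390) (nat_lit 304) (nat_lit 0) (XT.nd (nat_lit 156) (nat_lit 304) (nat_lit 0) (XT.nd (nat_lit 78) (nat_lit 0) (nat_lit 0) (XT.lf (nat_lit 0) (nat_lit 3595983618) (nat_lit 152) (nat_lit 12001212353) (nat_lit 228) (nat_lit 12498253070) (nat_lit 25) (nat_lit 5) (nat_lit 27) (nat_lit 5) (nat_lit 28) (nat_lit 5) (nat_lit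 298) (nat_lit 243) (nat_lit 179)) (XT.lf (nat_lit 0) (nat_lit 19435444208) (nat_lit 152) (nat_lit 3348545181) (nat_lit 228) (nat_lit 6432159637) (nat_lit 25) (nat_lit 5) (nat_lit 27) (nat_lit 5) (nat_lit 28) (nat_lit 5) (nat_lit 299) (nat_lit 243) (nat_lit 178))) (XT.nd (nat_lit 78) (nat_lit 152) (nat_lit 0) (XT.lf (nat_lit 0) (nat_lit 13535914) (nat_lit 152) (nat_lit 24720999996) (nat_lit 76) (nat_lit 5656139055) (nat_lit 23) (nat_lit 5) (nat_lit 25) (nat_lit 5) (nat_lit 24) (nat_lit 5) (nat_lit 300) (nat_lit 243) (nat_lit 177)) (XT.nd (nat_lit 78) (nat_lit 152) (nat_lit 0) (XT.lf (nat_lit 0) (nat_lit 6750679788) (nat_lit 152) (nat_lit 9682336642) (nat_lit 76) (nat_lit 15185958362) (nat_lit 23) (nat_lit 5) (nat_lit 25) (nat_lit 5) (nat_lit 24) (nat_lit 5) (nat_lit 301) (nat_lit 243) (nat_lit 176)) (XT.lf (nat_lit 0) (nat_lit 6172832387) (nat_lit 152) (nat_lit 7678305133) (nat_lit 228) (nat_lit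 19056781099) (nat_lit 21) (nat_lit 5) (nat_lit 23) (nat_lit 5) (nat_lit 24) (nat_lit 5) (nat_lit 302) (nat_lit 243) (nat_lit 175))))) (XT.nd (nat_lit 234) (nat_lit 152) (nat_lit 0) (XT.nd (nat_lit 78) (nat_lit 152) (nat_lit 0) (XT.lf (nat_lit 0) (nat_lit 21389778795) (nat_lit 228) (nat_lit 11305809809) (nat_lit 76) (nat_lit 1563247843) (nat_lit 21) (nat_lit 5) (nat_lit 24) (nat_lit 5) (nat_lit 22) (nat_lit 4) (nat_lit 303) (nat_lit 243) (nat_lit 174)) (XT.nd (nat_lit 78) (nat_lit 76) (nat_lit 0) (XT.lf (nat_lit 0) (nat_lit 4859844675) (nat_lit 76) (nat_lit 24539196390) (nat_lit 152) (nat_lit 6275469033) (nat_lit 20) (nat_lit 5) (nat_lit 21) (nat_lit 5) (nat_lit 22) (nat_lit 4) (nat_lit 304) (nat_lit 243) (nat_lit 173)) (XT.lf (nat_lit 0) (nat_lit 722820148) (nat_lit 152) (nat_lit 15146346050) (nat_lit 76) (nat_lit 21289003608) (nat_lit 19) (nat_lit 5) (nat_lit 21) (nat_lit 5) (nat_lit 20)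 (nat_lit 5) (nat_lit 305) (nat_lit 243) (nat_lit 172)))) (XT.nd (nat_lit 78) (nat_lit 0) (nat_lit 0) (XT.lf (nat_lit 0) (nat_lit 1216714976) (nat_lit 152) (nat_lit 6708973697) (nat_lit 228) (nat_lit 30788944429) (nat_lit 17) (nat_lit 5) (nat_lit 19) (nat_lit 5) (nat_lit 20) (nat_lit 5) (nat_lit 306) (nat_lit 243) (nat_lit 171)) (XT.nd (nat_lit 78) (nat_lit 0) (nat_lit 0) (XT.lf (nat_lit 0) (nat_lit 15646380066) (nat_lit 228) (nat_lit 21707628645) (nat_lit 76) (nat_lit 2990197744) (nat_lit 17) (nat_lit 5) (nat_lit 20) (nat_lit 5) (nat_lit 18) (nat_lit 4) (nat_lit 307) (nat_lit 243) (nat_lit 170)) (XT.lf (nat_lit 0) (nat_lit 23794394796) (nat_lit 228) (nat_lit 5241559741) (nat_lit 76) (nat_lit 13018081730) (nat_lit 17) (nat_lit 5) (nat_lit 20) (nat_lit 5) (nat_lit 18) (nat_lit 4) (nat_lit 308) (nat_lit 243) (nat_lit 169)))))) (XT.nd (nat_lit 390) (nat_lit 228) (nat_lit 0) (XT.nd (nat_lit 156)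 (nat_lit 228) (nat_lit 0) (XT.nd (nat_lit 78) (nat_lit 0) (nat_lit 0) (XT.lf (nat_lit 0) (nat_lit 12242887095) (nat_lit 76) (nat_lit 20199441163) (nat_lit 152) (nat_lit 11404269441) (nat_lit 16) (nat_lit 5) (nat_lit 17) (nat_lit 5) (nat_lit 18) (nat_lit 4) (nat_lit 309) (nat_lit 243) (nat_lit 168)) (XT.lf (nat_lit 0) (nat_lit 30668517450) (nat_lit 76) (nat_lit 10883719307) (nat_lit 152) (nat_lit 4175678019) (nat_lit 16) (nat_lit 5) (nat_lit 17) (nat_lit 5) (nat_lit 18) (nat_lit 4) (nat_lit 310) (nat_lit 243) (nat_lit 167))) (XT.nd (nat_lit 78) (nat_lit 0) (nat_lit 0) (XT.lf (nat_lit 0) (nat_lit 2282831627) (nat_lit 152) (nat_lit 1063367403) (nat_lit 228) (nat_lit 44356173386) (nat_lit 13) (nat_lit 5) (nat_lit 15) (nat_lit 5) (nat_lit 16) (nat_lit 5) (nat_lit 311) (nat_lit 243) (nat_lit 166)) (XT.nd (nat_lit 78) (nat_lit 0) (nat_lit 0) (XT.lf (nat_lit 0) (nat_lit 11381176631) (nat_lit 228)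 (nat_lit 29136991469) (nat_lit 76) (nat_lit 9249456698) (nat_lit 13) (nat_lit 5) (nat_lit 16) (nat_lit 5) (nat_lit 14) (nat_lit 4) (nat_lit 312) (nat_lit 243) (nat_lit 165)) (XT.lf (nat_lit 0) (nat_lit 19806833837) (nat_lit 228) (nat_lit 12089504553) (nat_lit 76) (nat_lit 20040146003) (nat_lit 13) (nat_lit 5) (nat_lit 16) (nat_lit 5) (nat_lit 14) (nat_lit 4) (nat_lit 313) (nat_lit 243) (nat_lit 164))))) (XT.nd (nat_lit 234) (nat_lit 152) (nat_lit 0) (XT.nd (nat_lit 78) (nat_lit 0) (nat_lit 0) (XT.lf (nat_lit 0) (nat_lit 5888639517) (nat_lit 76) (nat_lit 22800975688) (nat_lit 152) (nat_lit 25523108443) (nat_lit 12) (nat_lit 5) (nat_lit 13) (nat_lit 5) (nat_lit 14) (nat_lit 4) (nat_lit 314) (nat_lit 243) (nat_lit 163)) (XT.nd (nat_lit 78) (nat_lit 0) (nat_lit 0) (XT.lf (nat_lit 0) (nat_lit 24982749990) (nat_lit 76) (nat_lit 13138119309) (nat_lit 152) (nat_lit 18478786909) (nat_lit 12) (nat_lit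 5) (nat_lit 13) (nat_lit 5) (nat_lit 14) (nat_lit 4) (nat_lit 315) (nat_lit 243) (nat_lit 162)) (XT.lf (nat_lit 0) (nat_lit 44997684189) (nat_lit 76) (nat_lit 3006842745) (nat_lit 152) (nat_lit 11101994049) (nat_lit 12) (nat_lit 5) (nat_lit 13) (nat_lit 5) (nat_lit 14) (nat_lit 4) (nat_lit 316) (nat_lit 243) (nat_lit 161)))) (XT.nd (nat_lit 78) (nat_lit 76) (nat_lit 0) (XT.lf (nat_lit 0) (nat_lit 4251554117) (nat_lit 76) (nat_lit 54226654082) (nat_lit 76) (nat_lit 3257655873) (nat_lit 11) (nat_lit 4) (nat_lit 12) (nat_lit 5) (nat_lit 12) (nat_lit 4) (nat_lit 317) (nat_lit 243) (nat_lit 160)) (XT.nd (nat_lit 78) (nat_lit 0) (nat_lit 0) (XT.lf (nat_lit 0) (nat_lit 5040770272) (nat_lit 152) (nat_lit 40779288339) (nat_lit 76) (nat_lit 18670418600) (nat_lit 10) (nat_lit 5) (nat_lit 12) (nat_lit 5) (nat_lit 11) (nat_lit 4) (nat_lit 318) (nat_lit 243) (nat_lit 159)) (XT.lf (nat_lit 0) (nat_lit 13670230217)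 (nat_lit 152) (nat_lit 23302488251) (nat_lit 76) (nat_lit 30409639409) (nat_lit 10) (nat_lit 5) (nat_lit 12) (nat_lit 5) (nat_lit 11) (nat_lit 4) (nat_lit 319) (nat_lit 243) (nat_lit 158))))))) (XT.nd (nat_lit 858) (nat_lit 0) (nat_lit 0) (XT.nd (nat_lit 390) (nat_lit 228) (nat_lit 0) (XT.nd (nat_lit 156) (nat_lit 0) (nat_lit 0) (XT.nd (nat_lit 78) (nat_lit 76) (nat_lit 0) (XT.lf (nat_lit 0) (nat_lit 22714838897) (nat_lit 152) (nat_lit 4980983683) (nat_lit 76) (nat_lit 42723508363) (nat_lit 10) (nat_lit 5) (nat_lit 12) (nat_lit 5) (nat_lit 11) (nat_lit 4) (nat_lit 320) (nat_lit 243) (nat_lit 157)) (XT.lf (nat_lit 0) (nat_lit 14512029970) (nat_lit 76) (nat_lit 17823599631) (nat_lit 152) (nat_lit 41268812737) (nat_lit 9) (nat_lit 5) (nat_lit 10) (nat_lit 5) (nat_lit 11) (nat_lit 4) (nat_lit 321) (nat_lit 243) (nat_lit 156))) (XT.nd (nat_lit 78) (nat_lit 0) (nat_lit 0) (XT.lf (nat_lit 0) (nat_lit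 35056829493) (nat_lit 76) (nat_lit 7416839505) (nat_lit 152) (nat_lit 34474061862) (nat_lit 9) (nat_lit 5) (nat_lit 10) (nat_lit 5) (nat_lit 11) (nat_lit 4) (nat_lit 322) (nat_lit 243) (nat_lit 155)) (XT.nd (nat_lit 78) (nat_lit 0) (nat_lit 0) (XT.lf (nat_lit 0) (nat_lit 53137896033) (nat_lit 152) (nat_lit 23889055916) (nat_lit 0) (nat_lit 3430660751) (nat_lit 9) (nat_lit 5) (nat_lit 11) (nat_lit 4) (nat_lit 9) (nat_lit 4) (nat_lit 323) (nat_lit 243) (nat_lit 154)) (XT.lf (nat_lit 0) (nat_lit 64396425724) (nat_lit 152) (nat_lit 5086738477) (nat_lit 0) (nat_lit 14657998796) (nat_lit 9) (nat_lit 5) (nat_lit 11) (nat_lit 4) (nat_lit 9) (nat_lit 4) (nat_lit 324) (nat_lit 243) (nat_lit 153))))) (XT.nd (nat_lit 234) (nat_lit 76) (nat_lit 0) (XT.nd (nat_lit 78) (nat_lit 76) (nat_lit 0) (XT.lf (nat_lit 0) (nat_lit 14923321319) (nat_lit 76) (nat_lit 61424899670) (nat_lit 76) (nat_lit 11656766412)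 (nat_lit 8) (nat_lit 4) (nat_lit 9) (nat_lit 5) (nat_lit 9) (nat_lit 4) (nat_lit 325) (nat_lit 243) (nat_lit 152)) (XT.nd (nat_lit 78) (nat_lit 76) (nat_lit 0) (XT.lf (nat_lit 0) (nat_lit 36017276667) (nat_lit 76) (nat_lit 52919984081) (nat_lit 76) (nat_lit 3123559081) (nat_lit 8) (nat_lit 4) (nat_lit 9) (nat_lit 5) (nat_lit 9) (nat_lit 4) (nat_lit 326) (nat_lit 243) (nat_lit 151)) (XT.lf (nat_lit 0) (nat_lit 5710191783) (nat_lit 152) (nat_lit 38231680197) (nat_lit 76) (nat_lit 52376261675) (nat_lit 7) (nat_lit 5) (nat_lit 9) (nat_lit 5) (nat_lit 8) (nat_lit 4) (nat_lit 327) (nat_lit 243) (nat_lit 150)))) (XT.nd (nat_lit 78) (nat_lit 76) (nat_lit 0) (XT.lf (nat_lit 0) (nat_lit 14909983631) (nat_lit 152) (nat_lit 19581764189) (nat_lit 76) (nat_lit 66295974634) (nat_lit 7) (nat_lit 5) (nat_lit 9) (nat_lit 5) (nat_lit 8) (nat_lit 4) (nat_lit 328) (nat_lit 243) (nat_lit 149)) (XT.nd (nat_lit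 78) (nat_lit 76) (nat_lit 0) (XT.lf (nat_lit 0) (nat_lit 24558672618) (nat_lit 152) (nat_lit 19365016) (nat_lit 76) (nat_lit 80903091236) (nat_lit 7) (nat_lit 5) (nat_lit 9) (nat_lit 5) (nat_lit 8) (nat_lit 4) (nat_lit 329) (nat_lit 243) (nat_lit 148)) (XT.lf (nat_lit 0) (nat_lit 20910126340) (nat_lit 76) (nat_lit 13970106398) (nat_lit 152) (nat_lit 75523264917) (nat_lit 6) (nat_lit 5) (nat_lit 7) (nat_lit 5) (nat_lit 8) (nat_lit 4) (nat_lit 330) (nat_lit 243) (nat_lit 147)))))) (XT.nd (nat_lit 31044) (nat_lit 0) (nat_lit 17556) (XT.nd (nat_lit 30810) (nat_lit 0) (nat_lit 19380) (XT.nd (nat_lit 30732) (nat_lit 0) (nat_lit 19912) (XT.lf (nat_lit 0) (nat_lit 42867983625) (nat_lit 76) (nat_lit 2839847441) (nat_lit 152) (nat_lit 69864459910) (nat_lit 6) (nat_lit 5) (nat_lit 7) (nat_lit 5) (nat_lit 8) (nat_lit 4) (nat_lit 331) (nat_lit 243) (nat_lit 146)) (XT.lf (nat_lit 0) (nat_lit 339782413)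 (nat_lit 532) (nat_lit 1488803589) (nat_lit 532) (nat_lit 1488803589) (nat_lit 268) (nat_lit 3) (nat_lit 275) (nat_lit 3) (nat_lit 275) (nat_lit 5) (nat_lit 244) (nat_lit 244) (nat_lit 232))) (XT.nd (nat_lit 78) (nat_lit 532) (nat_lit 0) (XT.lf (nat_lit 76) (nat_lit 1990536662) (nat_lit 0) (nat_lit 2201511482) (nat_lit 532) (nat_lit 2494630695) (nat_lit 269) (nat_lit 5) (nat_lit 268) (nat_lit 3) (nat_lit 275) (nat_lit 5) (nat_lit 245) (nat_lit 244) (nat_lit 231)) (XT.nd (nat_lit 78) (nat_lit 0) (nat_lit 76) (XT.lf (nat_lit 76) (nat_lit 403423429) (nat_lit 0) (nat_lit 521723590) (nat_lit 608) (nat_lit 5822012141) (nat_lit 262) (nat_lit 5) (nat_lit 261) (nat_lit 5) (nat_lit 269) (nat_lit 5) (nat_lit 246) (nat_lit 244) (nat_lit 230)) (XT.lf (nat_lit 0) (nat_lit 4309702363) (nat_lit 532) (nat_lit 1117442125) (nat_lit 608) (nat_lit 1387955498) (nat_lit 262) (nat_lit 5) (nat_lit 269) (nat_lit 5)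 (nat_lit 270) (nat_lit 5) (nat_lit 247) (nat_lit 244) (nat_lit 229))))) (XT.nd (nat_lit 234) (nat_lit 684) (nat_lit 0) (XT.nd (nat_lit 78) (nat_lit 608) (nat_lit 0) (XT.lf (nat_lit 0) (nat_lit 797203290) (nat_lit 608) (nat_lit 2570859609) (nat_lit 684) (nat_lit 3523414854) (nat_lit 254) (nat_lit 5) (nat_lit 262) (nat_lit 5) (nat_lit 263) (nat_lit 5) (nat_lit 248) (nat_lit 244) (nat_lit 228)) (XT.nd (nat_lit 78) (nat_lit 608) (nat_lit 0) (XT.lf (nat_lit 76) (nat_lit 2993942519) (nat_lit 0) (nat_lit 1060708353) (nat_lit 684) (nat_lit 2921507967) (nat_lit 255) (nat_lit 5) (nat_lit 254) (nat_lit 5) (nat_lit 263) (nat_lit 5) (nat_lit 249) (nat_lit 244) (nat_lit 227)) (XT.lf (nat_lit 0) (nat_lit 266207570) (nat_lit 684) (nat_lit 5350560825) (nat_lit 760) (nat_lit 1452696911) (nat_lit 246) (nat_lit 5) (nat_lit 255) (nat_lit 5) (nat_lit 256) (nat_lit 5) (nat_lit 250) (nat_lit 244) (nat_lit 226))))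 (XT.nd (nat_lit 78) (nat_lit 684) (nat_lit 0) (XT.lf (nat_lit 76) (nat_lit 464982331) (nat_lit 0) (nat_lit 2960417661) (nat_lit 760) (nat_lit 3745411870) (nat_lit 247) (nat_lit 5) (nat_lit 246) (nat_lit 5) (nat_lit 256) (nat_lit 5) (nat_lit 251) (nat_lit 244) (nat_lit 225)) (XT.nd (nat_lit 78) (nat_lit 684) (nat_lit 0) (XT.lf (nat_lit 76) (nat_lit 6561130988) (nat_lit 0) (nat_lit 59495160) (nat_lit 760) (nat_lit 660655389) (nat_lit 247) (nat_lit 5) (nat_lit 246) (nat_lit 5) (nat_lit 256) (nat_lit 5) (nat_lit 252) (nat_lit 244) (nat_lit 224)) (XT.lf (nat_lit 0) (nat_lit 2440513752) (nat_lit 760) (nat_lit 1902429378) (nat_lit 76) (nat_lit 3056581423) (nat_lit 237) (nat_lit 5) (nat_lit 247) (nat_lit 5) (nat_lit 238) (nat_lit 5) (nat_lit 253) (nat_lit 244) (nat_lit 223))))))))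
noncomputable def xc58 : XT := (XT.nd (nat_lit 1716) (nat_lit 3952) (nat_lit 0) (XT.nd (nat_lit 858) (nat_lit 3800) (nat_lit 0) (XT.nd (nat_lit 390) (nat_lit 3496) (nat_lit 0) (XT.nd (nat_lit 156) (nat_lit 3040) (nat_lit 0) (XT.nd (nat_lit 78) (nat_lit 912) (nat_lit 0) (XT.lf (nat_lit 0) (nat_lit 4474556216) (nat_lit 760) (nat_lit 1096588690) (nat_lit 836) (nat_lit 1956047064) (nat_lit 227) (nat_lit 5) (nat_lit 237) (nat_lit 5) (nat_lit 238) (nat_lit 5) (nat_lit 254) (nat_lit 244) (nat_lit 222)) (XT.lf (nat_lit 0) (nat_lit 1091776354) (nat_lit 912) (nat_lit 4204008055) (nat_lit 76) (nat_lit 2367895109) (nat_lit 215) (nat_lit 5) (nat_lit 227) (nat_lit 5) (nat_lit 216) (nat_lit 5) (nat_lit 255) (nat_lit 244) (nat_lit 221))) (XT.nd (nat_lit 78) (nat_lit 2128) (nat_lit 0) (XT.lf (nat_lit 0) (nat_lit 2448114210) (nat_lit 912) (nat_lit 1718449512) (nat_lit 988) (nat_lit 3642704562) (nat_lit 203)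 (nat_lit 5) (nat_lit 215) (nat_lit 5) (nat_lit 216) (nat_lit 5) (nat_lit 256) (nat_lit 244) (nat_lit 220)) (XT.nd (nat_lit 78) (nat_lit 1140) (nat_lit 0) (XT.lf (nat_lit 0) (nat_lit 1442766193) (nat_lit 988) (nat_lit 5884110419) (nat_lit 1064) (nat_lit 637600242) (nat_lit 190) (nat_lit 5) (nat_lit 203) (nat_lit 5) (nat_lit 204) (nat_lit 5) (nat_lit 257) (nat_lit 244) (nat_lit 219)) (XT.lf (nat_lit 0) (nat_lit 414397101) (nat_lit 1064) (nat_lit 1990015336) (nat_lit 1140) (nat_lit 5724505638) (nat_lit 175) (nat_lit 5) (nat_lit 189) (nat_lit 5) (nat_lit 190) (nat_lit 5) (nat_lit 258) (nat_lit 244) (nat_lit 218))))) (XT.nd (nat_lit 234) (nat_lit 1748) (nat_lit 0) (XT.nd (nat_lit 78) (nat_lit 1748) (nat_lit 0) (XT.lf (nat_lit 0) (nat_lit 5537860431) (nat_lit 1140) (nat_lit 618863264) (nat_lit 76) (nat_lit 2146351498) (nat_lit 175) (nat_lit 5) (nat_lit 190) (nat_lit 5) (nat_lit 176) (nat_lit 5)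 (nat_lit 259) (nat_lit 244) (nat_lit 217)) (XT.nd (nat_lit 78) (nat_lit 532) (nat_lit 0) (XT.lf (nat_lit 0) (nat_lit 291266554) (nat_lit 1216) (nat_lit 1665306503) (nat_lit 76) (nat_lit 6530830811) (nat_lit 159) (nat_lit 5) (nat_lit 175) (nat_lit 5) (nat_lit 160) (nat_lit 5) (nat_lit 260) (nat_lit 244) (nat_lit 216)) (XT.lf (nat_lit 0) (nat_lit 3406417507) (nat_lit 608) (nat_lit 2770542130) (nat_lit 76) (nat_lit 2504504908) (nat_lit 152) (nat_lit 5) (nat_lit 160) (nat_lit 5) (nat_lit 153) (nat_lit 5) (nat_lit 261) (nat_lit 244) (nat_lit 215)))) (XT.nd (nat_lit 78) (nat_lit 1140) (nat_lit 0) (XT.lf (nat_lit 0) (nat_lit 4973777908) (nat_lit 608) (nat_lit 1667790028) (nat_lit 684) (nat_lit 2244950161) (nat_lit 144) (nat_lit 5) (nat_lit 152) (nat_lit 5) (nat_lit 153) (nat_lit 5) (nat_lit 262) (nat_lit 244) (nat_lit 214)) (XT.nd (nat_lit 78) (nat_lit 532) (nat_lit 0) (XT.lf (nat_lit 0) (nat_lit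 898623220) (nat_lit 608) (nat_lit 5120744001) (nat_lit 76) (nat_lit 3082980257) (nat_lit 136) (nat_lit 5) (nat_lit 144) (nat_lit 5) (nat_lit 137) (nat_lit 5) (nat_lit 263) (nat_lit 244) (nat_lit 213)) (XT.lf (nat_lit 0) (nat_lit 2923138097) (nat_lit 532) (nat_lit 1202957279) (nat_lit 608) (nat_lit 5203202843) (nat_lit 129) (nat_lit 5) (nat_lit 136) (nat_lit 5) (nat_lit 137) (nat_lit 5) (nat_lit 264) (nat_lit 244) (nat_lit 212)))))) (XT.nd (nat_lit 390) (nat_lit 1900) (nat_lit 0) (XT.nd (nat_lit 156) (nat_lit 912) (nat_lit 0) (XT.nd (nat_lit 78) (nat_lit 532) (nat_lit 0) (XT.lf (nat_lit 0) (nat_lit 1788888000) (nat_lit 456) (nat_lit 5724845935) (nat_lit 532) (nat_lit 2054080852) (nat_lit 123) (nat_lit 5) (nat_lit 129) (nat_lit 5) (nat_lit 130) (nat_lit 5) (nat_lit 265) (nat_lit 244) (nat_lit 211)) (XT.lf (nat_lit 0) (nat_lit 580238672) (nat_lit 456) (nat_lit 626309560) (nat_lit 532) (nat_lit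 8612161361) (nat_lit 116) (nat_lit 5) (nat_lit 122) (nat_lit 5) (nat_lit 123) (nat_lit 5) (nat_lit 266) (nat_lit 244) (nat_lit 210))) (XT.nd (nat_lit 78) (nat_lit 912) (nat_lit 0) (XT.lf (nat_lit 0) (nat_lit 4612430109) (nat_lit 532) (nat_lit 744052177) (nat_lit 76) (nat_lit 4724475981) (nat_lit 116) (nat_lit 5) (nat_lit 123) (nat_lit 5) (nat_lit 117) (nat_lit 5) (nat_lit 267) (nat_lit 244) (nat_lit 209)) (XT.nd (nat_lit 78) (nat_lit 532) (nat_lit 0) (XT.lf (nat_lit 0) (nat_lit 8177164504) (nat_lit 456) (nat_lit 2139775292) (nat_lit 76) (nat_lit 39875528) (nat_lit 111) (nat_lit 5) (nat_lit 117) (nat_lit 5) (nat_lit 112) (nat_lit 5) (nat_lit 268) (nat_lit 244) (nat_lit 208)) (XT.lf (nat_lit 0) (nat_lit 1284076789) (nat_lit 532) (nat_lit 3692139276) (nat_lit 76) (nat_lit 5668965255) (nat_lit 104) (nat_lit 5) (nat_lit 111) (nat_lit 5) (nat_lit 105) (nat_lit 5) (nat_lit 269) (nat_lit 244) (nat_lit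 207))))) (XT.nd (nat_lit 234) (nat_lit 760) (nat_lit 0) (XT.nd (nat_lit 78) (nat_lit 760) (nat_lit 0) (XT.lf (nat_lit 0) (nat_lit 4867708805) (nat_lit 456) (nat_lit 5380339005) (nat_lit 76) (nat_lit 699650960) (nat_lit 99) (nat_lit 5) (nat_lit 105) (nat_lit 5) (nat_lit 100) (nat_lit 5) (nat_lit 270) (nat_lit 244) (nat_lit 206)) (XT.nd (nat_lit 78) (nat_lit 380) (nat_lit 0) (XT.lf (nat_lit 0) (nat_lit 4021175311) (nat_lit 380) (nat_lit 4648438111) (nat_lit 456) (nat_lit 2594684008) (nat_lit 94) (nat_lit 5) (nat_lit 99) (nat_lit 5) (nat_lit 100) (nat_lit 5) (nat_lit 271) (nat_lit 244) (nat_lit 205)) (XT.lf (nat_lit 0) (nat_lit 1049045490) (nat_lit 380) (nat_lit 9272481958) (nat_lit 76) (nat_lit 1274861761) (nat_lit 89) (nat_lit 5) (nat_lit 94) (nat_lit 5) (nat_lit 90) (nat_lit 5) (nat_lit 272) (nat_lit 244) (nat_lit 204)))) (XT.nd (nat_lit 78) (nat_lit 380) (nat_lit 0) (XT.lf (nat_lit 0) (nat_lit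 404392996) (nat_lit 380) (nat_lit 4460422637) (nat_lit 456) (nat_lit 7078306538) (nat_lit 84) (nat_lit 5) (nat_lit 89) (nat_lit 5) (nat_lit 90) (nat_lit 5) (nat_lit 273) (nat_lit 244) (nat_lit 203)) (XT.nd (nat_lit 78) (nat_lit 380) (nat_lit 0) (XT.lf (nat_lit 0) (nat_lit 8903685384) (nat_lit 456) (nat_lit 1669326219) (nat_lit 76) (nat_lit 1733318250) (nat_lit 84) (nat_lit 5) (nat_lit 90) (nat_lit 5) (nat_lit 85) (nat_lit 5) (nat_lit 274) (nat_lit 244) (nat_lit 202)) (XT.lf (nat_lit 0) (nat_lit 500577715) (nat_lit 380) (nat_lit 3974084096) (nat_lit 76) (nat_lit 8211422967) (nat_lit 79) (nat_lit 5) (nat_lit 84) (nat_lit 5) (nat_lit 80) (nat_lit 5) (nat_lit 275) (nat_lit 244) (nat_lit 201))))))) (XT.nd (nat_lit 858) (nat_lit 1368) (nat_lit 0) (XT.nd (nat_lit 390) (nat_lit 1368) (nat_lit 0) (XT.nd (nat_lit 156) (nat_lit 608) (nat_lit 0) (XT.nd (nat_lit 78) (nat_lit 304) (nat_lit 0) (XT.lf (nat_lit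 0) (nat_lit 4554377813) (nat_lit 380) (nat_lit 6547004863) (nat_lit 76) (nat_lit 1981755009) (nat_lit 75) (nat_lit 5) (nat_lit 80) (nat_lit 5) (nat_lit 76) (nat_lit 5) (nat_lit 276) (nat_lit 244) (nat_lit 200)) (XT.lf (nat_lit 0) (nat_lit 4090975763) (nat_lit 304) (nat_lit 4773401624) (nat_lit 380) (nat_lit 4634150647) (nat_lit 71) (nat_lit 5) (nat_lit 75) (nat_lit 5) (nat_lit 76) (nat_lit 5) (nat_lit 277) (nat_lit 244) (nat_lit 199))) (XT.nd (nat_lit 78) (nat_lit 304) (nat_lit 0) (XT.lf (nat_lit 0) (nat_lit 1374726349) (nat_lit 304) (nat_lit 12044376711) (nat_lit 380) (nat_lit 514793847) (nat_lit 67) (nat_lit 5) (nat_lit 71) (nat_lit 5) (nat_lit 72) (nat_lit 5) (nat_lit 278) (nat_lit 244) (nat_lit 198)) (XT.nd (nat_lit 78) (nat_lit 228) (nat_lit 0) (XT.lf (nat_lit 0) (nat_lit 3813783711) (nat_lit 380) (nat_lit 1678254724) (nat_lit 76) (nat_lit 8895647937) (nat_lit 66) (nat_lit 5) (nat_lit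 71) (nat_lit 5) (nat_lit 67) (nat_lit 5) (nat_lit 279) (nat_lit 244) (nat_lit 197)) (XT.lf (nat_lit 0) (nat_lit 8391793364) (nat_lit 304) (nat_lit 5036166506) (nat_lit 76) (nat_lit 1434818581) (nat_lit 63) (nat_lit 5) (nat_lit 67) (nat_lit 5) (nat_lit 64) (nat_lit 5) (nat_lit 280) (nat_lit 244) (nat_lit 196))))) (XT.nd (nat_lit 234) (nat_lit 760) (nat_lit 0) (XT.nd (nat_lit 78) (nat_lit 304) (nat_lit 0) (XT.lf (nat_lit 0) (nat_lit 6561628099) (nat_lit 304) (nat_lit 6709893670) (nat_lit 380) (nat_lit 2087990768) (nat_lit 59) (nat_lit 5) (nat_lit 63) (nat_lit 5) (nat_lit 64) (nat_lit 5) (nat_lit 281) (nat_lit 244) (nat_lit 195)) (XT.nd (nat_lit 78) (nat_lit 0) (nat_lit 0) (XT.lf (nat_lit 0) (nat_lit 2487805311) (nat_lit 304) (nat_lit 12977030434) (nat_lit 76) (nat_lit 414907716) (nat_lit 55) (nat_lit 5) (nat_lit 59) (nat_lit 5) (nat_lit 56) (nat_lit 5) (nat_lit 282) (nat_lit 244) (nat_lit 194))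 (XT.lf (nat_lit 0) (nat_lit 7348967591) (nat_lit 304) (nat_lit 1229936721) (nat_lit 76) (nat_lit 7843532008) (nat_lit 55) (nat_lit 5) (nat_lit 59) (nat_lit 5) (nat_lit 56) (nat_lit 5) (nat_lit 283) (nat_lit 244) (nat_lit 193)))) (XT.nd (nat_lit 78) (nat_lit 532) (nat_lit 0) (XT.lf (nat_lit 0) (nat_lit 11238906866) (nat_lit 228) (nat_lit 1265335499) (nat_lit 304) (nat_lit 4486550170) (nat_lit 52) (nat_lit 5) (nat_lit 55) (nat_lit 5) (nat_lit 56) (nat_lit 5) (nat_lit 284) (nat_lit 244) (nat_lit 192)) (XT.nd (nat_lit 78) (nat_lit 228) (nat_lit 0) (XT.lf (nat_lit 0) (nat_lit 408114448) (nat_lit 304) (nat_lit 10833272587) (nat_lit 76) (nat_lit 6343595215) (nat_lit 48) (nat_lit 5) (nat_lit 52) (nat_lit 5) (nat_lit 49) (nat_lit 5) (nat_lit 285) (nat_lit 244) (nat_lit 191)) (XT.lf (nat_lit 0) (nat_lit 1685168278) (nat_lit 228) (nat_lit 3805128637) (nat_lit 304) (nat_lit 12716237838) (nat_lit 45)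 (nat_lit 5) (nat_lit 48) (nat_lit 5) (nat_lit 49) (nat_lit 5) (nat_lit 286) (nat_lit 244) (nat_lit 190)))))) (XT.nd (nat_lit 390) (nat_lit 760) (nat_lit 0) (XT.nd (nat_lit 156) (nat_lit 456) (nat_lit 0) (XT.nd (nat_lit 78) (nat_lit 152) (nat_lit 0) (XT.lf (nat_lit 0) (nat_lit 10925167106) (nat_lit 304) (nat_lit 3921118219) (nat_lit 76) (nat_lit 4009972805) (nat_lit 45) (nat_lit 5) (nat_lit 49) (nat_lit 5) (nat_lit 46) (nat_lit 5) (nat_lit 287) (nat_lit 244) (nat_lit 189)) (XT.lf (nat_lit 0) (nat_lit 9375951376) (nat_lit 152) (nat_lit 7334340739) (nat_lit 228) (nat_lit 2825868421) (nat_lit 43) (nat_lit 5) (nat_lit 45) (nat_lit 5) (nat_lit 46) (nat_lit 5) (nat_lit 288) (nat_lit 244) (nat_lit 188))) (XT.nd (nat_lit 78) (nat_lit 152) (nat_lit 0) (XT.lf (nat_lit 0) (nat_lit 2513119615) (nat_lit 304) (nat_lit 17123944360) (nat_lit 76) (nat_lit 611468813) (nat_lit 39) (nat_lit 5) (nat_lit 43) (nat_lit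 5) (nat_lit 40) (nat_lit 5) (nat_lit 289) (nat_lit 244) (nat_lit 187)) (XT.nd (nat_lit 78) (nat_lit 152) (nat_lit 0) (XT.lf (nat_lit 0) (nat_lit 8193273689) (nat_lit 304) (nat_lit 3886565998) (nat_lit 76) (nat_lit 8911907245) (nat_lit 39) (nat_lit 5) (nat_lit 43) (nat_lit 5) (nat_lit 40) (nat_lit 5) (nat_lit 290) (nat_lit 244) (nat_lit 186)) (XT.lf (nat_lit 0) (nat_lit 10138579153) (nat_lit 152) (nat_lit 4071041619) (nat_lit 228) (nat_lit 7560975874) (nat_lit 37) (nat_lit 5) (nat_lit 39) (nat_lit 5) (nat_lit 40) (nat_lit 5) (nat_lit 291) (nat_lit 244) (nat_lit 185))))) (XT.nd (nat_lit 234) (nat_lit 380) (nat_lit 0) (XT.nd (nat_lit 78) (nat_lit 228) (nat_lit 0) (XT.lf (nat_lit 0) (nat_lit 2290630229) (nat_lit 152) (nat_lit 18296240610) (nat_lit 228) (nat_lit 1999753938) (nat_lit 35) (nat_lit 5) (nat_lit 37) (nat_lit 5) (nat_lit 38) (nat_lit 5) (nat_lit 292) (nat_lit 244) (nat_lit 184)) (XT.nd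 (nat_lit 78) (nat_lit 152) (nat_lit 0) (XT.lf (nat_lit 0) (nat_lit 3883559957) (nat_lit 228) (nat_lit 6436399686) (nat_lit 76) (nat_lit 13118854413) (nat_lit 34) (nat_lit 5) (nat_lit 37) (nat_lit 5) (nat_lit 35) (nat_lit 5) (nat_lit 293) (nat_lit 244) (nat_lit 183)) (XT.lf (nat_lit 0) (nat_lit 8189279508) (nat_lit 152) (nat_lit 1868494480) (nat_lit 228) (nat_lit 14274135954) (nat_lit 32) (nat_lit 5) (nat_lit 34) (nat_lit 5) (nat_lit 35) (nat_lit 5) (nat_lit 294) (nat_lit 244) (nat_lit 182)))) (XT.nd (nat_lit 78) (nat_lit 380) (nat_lit 0) (XT.lf (nat_lit 0) (nat_lit 16635033279) (nat_lit 228) (nat_lit 1720516246) (nat_lit 76) (nat_lit 6911313348) (nat_lit 32) (nat_lit 5) (nat_lit 35) (nat_lit 5) (nat_lit 33) (nat_lit 5) (nat_lit 295) (nat_lit 244) (nat_lit 181)) (XT.nd (nat_lit 78) (nat_lit 228) (nat_lit 0) (XT.lf (nat_lit 0) (nat_lit 13606897164) (nat_lit 152) (nat_lit 10045896230) (nat_lit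 228) (nat_lit 2592451672) (nat_lit 30) (nat_lit 5) (nat_lit 32) (nat_lit 5) (nat_lit 33) (nat_lit 5) (nat_lit 296) (nat_lit 244) (nat_lit 180)) (XT.lf (nat_lit 0) (nat_lit 2414070340) (nat_lit 152) (nat_lit 1265577494) (nat_lit 228) (nat_lit 23591728653) (nat_lit 27) (nat_lit 5) (nat_lit 29) (nat_lit 5) (nat_lit 30) (nat_lit 5) (nat_lit 297) (nat_lit 244) (nat_lit 179))))))))
noncomputable def xc59 : XT := (XT.nd (nat_lit 1716) (nat_lit 304) (nat_lit 0) (XT.nd (nat_lit 858) (nat_lit 532) (nat_lit 0) (XT.nd (nat_lit 390) (nat_lit 456) (nat_lit 0) (XT.nd (nat_lit 156) (nat_lit 152) (nat_lit 0) (XT.nd (nat_lit 78) (nat_lit 152) (nat_lit 0) (XT.lf (nat_lit 0) (nat_lit 10383864271) (nat_lit 228) (nat_lit 10026170828) (nat_lit 76) (nat_lit 7932872589) (nat_lit 27) (nat_lit 5) (nat_lit 30) (nat_lit 5) (nat_lit 28) (nat_lit 5) (nat_lit 298) (nat_lit 244) (nat_lit 178)) (XT.lf (nat_lit 0) (nat_lit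 5585053495) (nat_lit 152) (nat_lit 11870207604) (nat_lit 228) (nat_lit 12011821053) (nat_lit 25) (nat_lit 5) (nat_lit 27) (nat_lit 5) (nat_lit 28) (nat_lit 5) (nat_lit 299) (nat_lit 244) (nat_lit 177))) (XT.nd (nat_lit 78) (nat_lit 152) (nat_lit 0) (XT.lf (nat_lit 0) (nat_lit 22130331367) (nat_lit 152) (nat_lit 2819719710) (nat_lit 228) (nat_lit 5695344122) (nat_lit 25) (nat_lit 5) (nat_lit 27) (nat_lit 5) (nat_lit 28) (nat_lit 5) (nat_lit 300) (nat_lit 244) (nat_lit 176)) (XT.nd (nat_lit 78) (nat_lit 0) (nat_lit 0) (XT.lf (nat_lit 0) (nat_lit 1025484787) (nat_lit 152) (nat_lit 24238347388) (nat_lit 76) (nat_lit 6615339892) (nat_lit 23) (nat_lit 5) (nat_lit 25) (nat_lit 5) (nat_lit 24) (nat_lit 5) (nat_lit 301) (nat_lit 244) (nat_lit 175)) (XT.lf (nat_lit 0) (nat_lit 8051330041) (nat_lit 152) (nat_lit 8529593847) (nat_lit 76) (nat_lit 16589440931) (nat_lit 23) (nat_lit 5) (nat_lit 25) (nat_lit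 5) (nat_lit 24) (nat_lit 5) (nat_lit 302) (nat_lit 244) (nat_lit 174))))) (XT.nd (nat_lit 234) (nat_lit 228) (nat_lit 0) (XT.nd (nat_lit 78) (nat_lit 76) (nat_lit 0) (XT.lf (nat_lit 0) (nat_lit 8071413380) (nat_lit 152) (nat_lit 7404818070) (nat_lit 228) (nat_lit 19048473441) (nat_lit 21) (nat_lit 5) (nat_lit 23) (nat_lit 5) (nat_lit 24) (nat_lit 5) (nat_lit 303) (nat_lit 244) (nat_lit 173)) (XT.nd (nat_lit 78) (nat_lit 76) (nat_lit 0) (XT.lf (nat_lit 0) (nat_lit 23353416694) (nat_lit 228) (nat_lit 10335643463) (nat_lit 76) (nat_lit 2255290266) (nat_lit 21) (nat_lit 5) (nat_lit 24) (nat_lit 5) (nat_lit 22) (nat_lit 4) (nat_lit 304) (nat_lit 244) (nat_lit 172)) (XT.lf (nat_lit 0) (nat_lit 6594280184) (nat_lit 76) (nat_lit 25140620037) (nat_lit 152) (nat_lit 5696783523) (nat_lit 20) (nat_lit 5) (nat_lit 21) (nat_lit 5) (nat_lit 22) (nat_lit 4) (nat_lit 305) (nat_lit 244) (nat_lit 171)))) (XT.nd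 (nat_lit 78) (nat_lit 152) (nat_lit 0) (XT.lf (nat_lit 0) (nat_lit 1592336272) (nat_lit 152) (nat_lit 14466124046) (nat_lit 76) (nat_lit 22932085384) (nat_lit 19) (nat_lit 5) (nat_lit 21) (nat_lit 5) (nat_lit 20) (nat_lit 5) (nat_lit 306) (nat_lit 244) (nat_lit 170)) (XT.nd (nat_lit 78) (nat_lit 0) (nat_lit 0) (XT.lf (nat_lit 0) (nat_lit 2673883256) (nat_lit 152) (nat_lit 6455202840) (nat_lit 228) (nat_lit 31496559231) (nat_lit 17) (nat_lit 5) (nat_lit 19) (nat_lit 5) (nat_lit 20) (nat_lit 5) (nat_lit 307) (nat_lit 244) (nat_lit 169)) (XT.lf (nat_lit 0) (nat_lit 17202772335) (nat_lit 228) (nat_lit 21445021486) (nat_lit 76) (nat_lit 3689918818) (nat_lit 17) (nat_lit 5) (nat_lit 20) (nat_lit 5) (nat_lit 18) (nat_lit 4) (nat_lit 308) (nat_lit 244) (nat_lit 168)))))) (XT.nd (nat_lit 390) (nat_lit 228) (nat_lit 0) (XT.nd (nat_lit 156) (nat_lit 228) (nat_lit 0) (XT.nd (nat_lit 78) (nat_lit 76)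 (nat_lit 0) (XT.lf (nat_lit 0) (nat_lit 25721327169) (nat_lit 228) (nat_lit 4219839069) (nat_lit 76) (nat_lit 14192996470) (nat_lit 17) (nat_lit 5) (nat_lit 20) (nat_lit 5) (nat_lit 18) (nat_lit 4) (nat_lit 309) (nat_lit 244) (nat_lit 167)) (XT.lf (nat_lit 0) (nat_lit 14102030278) (nat_lit 76) (nat_lit 20676508579) (nat_lit 152) (nat_lit 11238528766) (nat_lit 16) (nat_lit 5) (nat_lit 17) (nat_lit 5) (nat_lit 18) (nat_lit 4) (nat_lit 310) (nat_lit 244) (nat_lit 166))) (XT.nd (nat_lit 78) (nat_lit 228) (nat_lit 0) (XT.lf (nat_lit 0) (nat_lit 33389561254) (nat_lit 76) (nat_lit 10920377042) (nat_lit 152) (nat_lit 3683553208) (nat_lit 16) (nat_lit 5) (nat_lit 17) (nat_lit 5) (nat_lit 18) (nat_lit 4) (nat_lit 311) (nat_lit 244) (nat_lit 165)) (XT.nd (nat_lit 78) (nat_lit 0) (nat_lit 0) (XT.lf (nat_lit 0) (nat_lit 3564226116) (nat_lit 152) (nat_lit 615009366) (nat_lit 228) (nat_lit 45887898815)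 (nat_lit 13) (nat_lit 5) (nat_lit 15) (nat_lit 5) (nat_lit 16) (nat_lit 5) (nat_lit 312) (nat_lit 244) (nat_lit 164)) (XT.lf (nat_lit 0) (nat_lit 12588852108) (nat_lit 228) (nat_lit 29467375642) (nat_lit 76) (nat_lit 10180253172) (nat_lit 13) (nat_lit 5) (nat_lit 16) (nat_lit 5) (nat_lit 14) (nat_lit 4) (nat_lit 313) (nat_lit 244) (nat_lit 163))))) (XT.nd (nat_lit 234) (nat_lit 152) (nat_lit 0) (XT.nd (nat_lit 78) (nat_lit 76) (nat_lit 0) (XT.lf (nat_lit 0) (nat_lit 21405381858) (nat_lit 228) (nat_lit 11621155590) (nat_lit 76) (nat_lit 21488175816) (nat_lit 13) (nat_lit 5) (nat_lit 16) (nat_lit 5) (nat_lit 14) (nat_lit 4) (nat_lit 314) (nat_lit 244) (nat_lit 162)) (XT.nd (nat_lit 78) (nat_lit 0) (nat_lit 0) (XT.lf (nat_lit 0) (nat_lit 7225143393) (nat_lit 76) (nat_lit 23488213727) (nat_lit 152) (nat_lit 26191992343) (nat_lit 12) (nat_lit 5) (nat_lit 13) (nat_lit 5) (nat_lit 14) (nat_lit 4)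 (nat_lit 315) (nat_lit 244) (nat_lit 161)) (XT.lf (nat_lit 0) (nat_lit 27224336919) (nat_lit 76) (nat_lit 13363776946) (nat_lit 152) (nat_lit 18824372424) (nat_lit 12) (nat_lit 5) (nat_lit 13) (nat_lit 5) (nat_lit 14) (nat_lit 4) (nat_lit 316) (nat_lit 244) (nat_lit 160)))) (XT.nd (nat_lit 78) (nat_lit 152) (nat_lit 0) (XT.lf (nat_lit 0) (nat_lit 48192758331) (nat_lit 76) (nat_lit 2746472189) (nat_lit 152) (nat_lit 11106280580) (nat_lit 12) (nat_lit 5) (nat_lit 13) (nat_lit 5) (nat_lit 14) (nat_lit 4) (nat_lit 317) (nat_lit 244) (nat_lit 159)) (XT.nd (nat_lit 78) (nat_lit 76) (nat_lit 0) (XT.lf (nat_lit 0) (nat_lit 5394260890) (nat_lit 76) (nat_lit 56529584651) (nat_lit 76) (nat_lit 2882872674) (nat_lit 11) (nat_lit 4) (nat_lit 12) (nat_lit 5) (nat_lit 12) (nat_lit 4) (nat_lit 318) (nat_lit 244) (nat_lit 158)) (XT.lf (nat_lit 0) (nat_lit 5794879445) (nat_lit 152) (nat_lit 41922157752) (nat_lit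 76) (nat_lit 19982636148) (nat_lit 10) (nat_lit 5) (nat_lit 12) (nat_lit 5) (nat_lit 11) (nat_lit 4) (nat_lit 319) (nat_lit 244) (nat_lit 157))))))) (XT.nd (nat_lit 858) (nat_lit 0) (nat_lit 0) (XT.nd (nat_lit 390) (nat_lit 228) (nat_lit 0) (XT.nd (nat_lit 156) (nat_lit 76) (nat_lit 0) (XT.nd (nat_lit 78) (nat_lit 0) (nat_lit 0) (XT.lf (nat_lit 0) (nat_lit 14831904262) (nat_lit 152) (nat_lit 23614188851) (nat_lit 76) (nat_lit 32290784825) (nat_lit 10) (nat_lit 5) (nat_lit 12) (nat_lit 5) (nat_lit 11) (nat_lit 4) (nat_lit 320) (nat_lit 244) (nat_lit 156)) (XT.lf (nat_lit 0) (nat_lit 24305973730) (nat_lit 152) (nat_lit 4417248283) (nat_lit 76) (nat_lit 45203172777) (nat_lit 10) (nat_lit 5) (nat_lit 12) (nat_lit 5) (nat_lit 11) (nat_lit 4) (nat_lit 321) (nat_lit 244) (nat_lit 155))) (XT.nd (nat_lit 78) (nat_lit 0) (nat_lit 0) (XT.lf (nat_lit 0) (nat_lit 16027117746) (nat_lit 76) (nat_lit 18366589873)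 (nat_lit 152) (nat_lit 42877488499) (nat_lit 9) (nat_lit 5) (nat_lit 10) (nat_lit 5) (nat_lit 11) (nat_lit 4) (nat_lit 322) (nat_lit 244) (nat_lit 154)) (XT.nd (nat_lit 78) (nat_lit 0) (nat_lit 0) (XT.lf (nat_lit 0) (nat_lit 37561562659) (nat_lit 76) (nat_lit 7456072206) (nat_lit 152) (nat_lit 35764655551) (nat_lit 9) (nat_lit 5) (nat_lit 10) (nat_lit 5) (nat_lit 11) (nat_lit 4) (nat_lit 323) (nat_lit 244) (nat_lit 153)) (XT.lf (nat_lit 0) (nat_lit 56198095642) (nat_lit 152) (nat_lit 24358241047) (nat_lit 0) (nat_lit 3911849392) (nat_lit 9) (nat_lit 5) (nat_lit 11) (nat_lit 4) (nat_lit 9) (nat_lit 4) (nat_lit 324) (nat_lit 244) (nat_lit 152))))) (XT.nd (nat_lit 234) (nat_lit 152) (nat_lit 0) (XT.nd (nat_lit 78) (nat_lit 76) (nat_lit 0) (XT.lf (nat_lit 0) (nat_lit 68000346827) (nat_lit 152) (nat_lit 4650344291) (nat_lit 0) (nat_lit 15685808834) (nat_lit 9) (nat_lit 5) (nat_lit 11) (nat_lit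 4) (nat_lit 9) (nat_lit 4) (nat_lit 325) (nat_lit 244) (nat_lit 151)) (XT.nd (nat_lit 78) (nat_lit 0) (nat_lit 0) (XT.lf (nat_lit 0) (nat_lit 16340418826) (nat_lit 76) (nat_lit 64197471966) (nat_lit 76) (nat_lit 11855989456) (nat_lit 8) (nat_lit 4) (nat_lit 9) (nat_lit 5) (nat_lit 9) (nat_lit 4) (nat_lit 326) (nat_lit 244) (nat_lit 150)) (XT.lf (nat_lit 0) (nat_lit 38457122825) (nat_lit 76) (nat_lit 55281533107) (nat_lit 76) (nat_lit 2914389152) (nat_lit 8) (nat_lit 4) (nat_lit 9) (nat_lit 5) (nat_lit 9) (nat_lit 4) (nat_lit 327) (nat_lit 244) (nat_lit 149)))) (XT.nd (nat_lit 78) (nat_lit 76) (nat_lit 0) (XT.lf (nat_lit 0) (nat_lit 6336861972) (nat_lit 152) (nat_lit 39527753621) (nat_lit 76) (nat_lit 55259023701) (nat_lit 7) (nat_lit 5) (nat_lit 9) (nat_lit 5) (nat_lit 8) (nat_lit 4) (nat_lit 328) (nat_lit 244) (nat_lit 148)) (XT.nd (nat_lit 78) (nat_lit 76) (nat_lit 0) (XT.lf (nat_lit 0)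 (nat_lit 15980397670) (nat_lit 152) (nat_lit 19974651841) (nat_lit 76) (nat_lit 69862153310) (nat_lit 7) (nat_lit 5) (nat_lit 9) (nat_lit 5) (nat_lit 8) (nat_lit 4) (nat_lit 329) (nat_lit 244) (nat_lit 147)) (XT.lf (nat_lit 0) (nat_lit 548659296) (nat_lit 76) (nat_lit 25552663723) (nat_lit 152) (nat_lit 84644270022) (nat_lit 6) (nat_lit 5) (nat_lit 7) (nat_lit 5) (nat_lit 8) (nat_lit 4) (nat_lit 330) (nat_lit 244) (nat_lit 146)))))) (XT.nd (nat_lit 31200) (nat_lit 0) (nat_lit 15884) (XT.nd (nat_lit 30966) (nat_lit 0) (nat_lit 18772) (XT.nd (nat_lit 30810) (nat_lit 0) (nat_lit 19380) (XT.lf (nat_lit 0) (nat_lit 22497915739) (nat_lit 76) (nat_lit 14426248746) (nat_lit 152) (nat_lit 78990366858) (nat_lit 6) (nat_lit 5) (nat_lit 7) (nat_lit 5) (nat_lit 8) (nat_lit 4) (nat_lit 331) (nat_lit 244) (nat_lit 145)) (XT.nd (nat_lit 78) (nat_lit 0) (nat_lit 0) (XT.lf (nat_lit 0) (nat_lit 201614839) (nat_lit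 0) (nat_lit 201614839) (nat_lit 532) (nat_lit 2968167968) (nat_lit 261) (nat_lit 5) (nat_lit 261) (nat_lit 3) (nat_lit 268) (nat_lit 3) (nat_lit 245) (nat_lit 245) (nat_lit 230)) (XT.lf (nat_lit 0) (nat_lit 4064603912) (nat_lit 532) (nat_lit 1324772242) (nat_lit 608) (nat_lit 1416831566) (nat_lit 261) (nat_lit 5) (nat_lit 268) (nat_lit 3) (nat_lit 269) (nat_lit 5) (nat_lit 246) (nat_lit 245) (nat_lit 229)))) (XT.nd (nat_lit 78) (nat_lit 0) (nat_lit 0) (XT.lf (nat_lit 0) (nat_lit 434968094) (nat_lit 608) (nat_lit 2980538645) (nat_lit 684) (nat_lit 3462583721) (nat_lit 253) (nat_lit 5) (nat_lit 261) (nat_lit 5) (nat_lit 262) (nat_lit 5) (nat_lit 247) (nat_lit 245) (nat_lit 228)) (XT.nd (nat_lit 78) (nat_lit 0) (nat_lit 76) (XT.lf (nat_lit 76) (nat_lit 2361649640) (nat_lit 0) (nat_lit 1189948075) (nat_lit 684) (nat_lit 3406491966) (nat_lit 254) (nat_lit 5) (nat_lit 253) (nat_lit 5) (nat_lit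 262) (nat_lit 5) (nat_lit 248) (nat_lit 245) (nat_lit 227)) (XT.lf (nat_lit 76) (nat_lit 882059621) (nat_lit 0) (nat_lit 5802635003) (nat_lit 684) (nat_lit 362027140) (nat_lit 255) (nat_lit 5) (nat_lit 254) (nat_lit 5) (nat_lit 263) (nat_lit 5) (nat_lit 249) (nat_lit 245) (nat_lit 226))))) (XT.nd (nat_lit 234) (nat_lit 1596) (nat_lit 0) (XT.nd (nat_lit 78) (nat_lit 684) (nat_lit 0) (XT.lf (nat_lit 0) (nat_lit 2655023806) (nat_lit 684) (nat_lit 564204939) (nat_lit 760) (nat_lit 3923886843) (nat_lit 245) (nat_lit 5) (nat_lit 254) (nat_lit 5) (nat_lit 255) (nat_lit 5) (nat_lit 250) (nat_lit 245) (nat_lit 225)) (XT.nd (nat_lit 78) (nat_lit 684) (nat_lit 0) (XT.lf (nat_lit 76) (nat_lit 5305048445) (nat_lit 0) (nat_lit 386106185) (nat_lit 760) (nat_lit 1557193516) (nat_lit 246) (nat_lit 5) (nat_lit 245) (nat_lit 5) (nat_lit 255) (nat_lit 5) (nat_lit 251) (nat_lit 245) (nat_lit 224)) (XT.lf (nat_lit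 0) (nat_lit 1391574771) (nat_lit 760) (nat_lit 3314505784) (nat_lit 836) (nat_lit 2655661670) (nat_lit 236) (nat_lit 5) (nat_lit 246) (nat_lit 5) (nat_lit 247) (nat_lit 5) (nat_lit 252) (nat_lit 245) (nat_lit 223)))) (XT.nd (nat_lit 78) (nat_lit 1596) (nat_lit 0) (XT.lf (nat_lit 76) (nat_lit 2818666580) (nat_lit 0) (nat_lit 1525911062) (nat_lit 836) (nat_lit 3139446287) (nat_lit 237) (nat_lit 5) (nat_lit 236) (nat_lit 5) (nat_lit 247) (nat_lit 5) (nat_lit 253) (nat_lit 245) (nat_lit 222)) (XT.nd (nat_lit 78) (nat_lit 912) (nat_lit 0) (XT.lf (nat_lit 0) (nat_lit 1613694049) (nat_lit 760) (nat_lit 5743546414) (nat_lit 836) (nat_lit 258152766) (nat_lit 227) (nat_lit 5) (nat_lit 237) (nat_lit 5) (nat_lit 238) (nat_lit 5) (nat_lit 254) (nat_lit 245) (nat_lit 221)) (XT.lf (nat_lit 0) (nat_lit 401287075) (nat_lit 836) (nat_lit 2228815328) (nat_lit 912) (nat_lit 5125232385) (nat_lit 215) (nat_lit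 5) (nat_lit 226) (nat_lit 5) (nat_lit 227) (nat_lit 5) (nat_lit 255) (nat_lit 245) (nat_lit 220))))))))
noncomputable def xc60 : XT := (XT.nd (nat_lit 1716) (nat_lit 3648) (nat_lit 0) (XT.nd (nat_lit 858) (nat_lit 3572) (nat_lit 0) (XT.nd (nat_lit 390) (nat_lit 2812) (nat_lit 0) (XT.nd (nat_lit 156) (nat_lit 3268) (nat_lit 0) (XT.nd (nat_lit 78) (nat_lit 988) (nat_lit 0) (XT.lf (nat_lit 0) (nat_lit 5589462833) (nat_lit 912) (nat_lit 785820031) (nat_lit 76) (nat_lit 1529246889) (nat_lit 215) (nat_lit 5) (nat_lit 227) (nat_lit 5) (nat_lit 216) (nat_lit 5) (nat_lit 256) (nat_lit 245) (nat_lit 219)) (XT.lf (nat_lit 0) (nat_lit 565870665) (nat_lit 988) (nat_lit 1973805828) (nat_lit 76) (nat_lit 5523316472) (nat_lit 202) (nat_lit 5) (nat_lit 215) (nat_lit 5) (nat_lit 203) (nat_lit 5) (nat_lit 257) (nat_lit 245) (nat_lit 218))) (XT.nd (nat_lit 78) (nat_lit 2280) (nat_lit 0) (XT.lf (nat_lit 0) (nat_lit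 3481867521) (nat_lit 1064) (nat_lit 3188107199) (nat_lit 76) (nat_lit 1560809086) (nat_lit 189) (nat_lit 5) (nat_lit 203) (nat_lit 5) (nat_lit 190) (nat_lit 5) (nat_lit 258) (nat_lit 245) (nat_lit 217)) (XT.nd (nat_lit 78) (nat_lit 1216) (nat_lit 0) (XT.lf (nat_lit 0) (nat_lit 3983650719) (nat_lit 1064) (nat_lit 2516315690) (nat_lit 1140) (nat_lit 1908555246) (nat_lit 175) (nat_lit 5) (nat_lit 189) (nat_lit 5) (nat_lit 190) (nat_lit 5) (nat_lit 259) (nat_lit 245) (nat_lit 216)) (XT.lf (nat_lit 0) (nat_lit 1008095326) (nat_lit 1216) (nat_lit 5695319324) (nat_lit 76) (nat_lit 1892993262) (nat_lit 159) (nat_lit 5) (nat_lit 175) (nat_lit 5) (nat_lit 160) (nat_lit 5) (nat_lit 260) (nat_lit 245) (nat_lit 215))))) (XT.nd (nat_lit 234) (nat_lit 1596) (nat_lit 0) (XT.nd (nat_lit 78) (nat_lit 684) (nat_lit 0) (XT.lf (nat_lit 0) (nat_lit 1769642694) (nat_lit 532) (nat_lit 2230671685) (nat_lit 608) (nat_lit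 4793948068) (nat_lit 152) (nat_lit 5) (nat_lit 159) (nat_lit 5) (nat_lit 160) (nat_lit 5) (nat_lit 261) (nat_lit 245) (nat_lit 214)) (XT.nd (nat_lit 78) (nat_lit 76) (nat_lit 0) (XT.lf (nat_lit 0) (nat_lit 600326353) (nat_lit 608) (nat_lit 6515613852) (nat_lit 684) (nat_lit 1887062390) (nat_lit 144) (nat_lit 5) (nat_lit 152) (nat_lit 5) (nat_lit 153) (nat_lit 5) (nat_lit 262) (nat_lit 245) (nat_lit 213)) (XT.lf (nat_lit 0) (nat_lit 1126210342) (nat_lit 684) (nat_lit 614006516) (nat_lit 76) (nat_lit 7482304680) (nat_lit 143) (nat_lit 5) (nat_lit 152) (nat_lit 5) (nat_lit 144) (nat_lit 5) (nat_lit 263) (nat_lit 245) (nat_lit 212)))) (XT.nd (nat_lit 78) (nat_lit 1064) (nat_lit 0) (XT.lf (nat_lit 0) (nat_lit 4250329338) (nat_lit 608) (nat_lit 1900436125) (nat_lit 76) (nat_lit 3301896227) (nat_lit 136) (nat_lit 5) (nat_lit 144) (nat_lit 5) (nat_lit 137) (nat_lit 5) (nat_lit 264) (nat_lit 245)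 (nat_lit 211)) (XT.nd (nat_lit 78) (nat_lit 532) (nat_lit 0) (XT.lf (nat_lit 0) (nat_lit 6445991344) (nat_lit 532) (nat_lit 1068177153) (nat_lit 608) (nat_lit 2180808330) (nat_lit 129) (nat_lit 5) (nat_lit 136) (nat_lit 5) (nat_lit 137) (nat_lit 5) (nat_lit 265) (nat_lit 245) (nat_lit 210)) (XT.lf (nat_lit 0) (nat_lit 985115535) (nat_lit 532) (nat_lit 4704535825) (nat_lit 76) (nat_lit 4259250375) (nat_lit 122) (nat_lit 5) (nat_lit 129) (nat_lit 5) (nat_lit 123) (nat_lit 5) (nat_lit 266) (nat_lit 245) (nat_lit 209)))))) (XT.nd (nat_lit 390) (nat_lit 1824) (nat_lit 0) (XT.nd (nat_lit 156) (nat_lit 912) (nat_lit 0) (XT.nd (nat_lit 78) (nat_lit 380) (nat_lit 0) (XT.lf (nat_lit 0) (nat_lit 3953173991) (nat_lit 456) (nat_lit 298049099) (nat_lit 532) (nat_lit 5964195038) (nat_lit 116) (nat_lit 5) (nat_lit 122) (nat_lit 5) (nat_lit 123) (nat_lit 5) (nat_lit 267) (nat_lit 245) (nat_lit 208)) (XT.lf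 (nat_lit 0) (nat_lit 2539435767) (nat_lit 380) (nat_lit 5173553991) (nat_lit 456) (nat_lit 2781445402) (nat_lit 111) (nat_lit 5) (nat_lit 116) (nat_lit 5) (nat_lit 117) (nat_lit 5) (nat_lit 268) (nat_lit 245) (nat_lit 207))) (XT.nd (nat_lit 78) (nat_lit 380) (nat_lit 0) (XT.lf (nat_lit 0) (nat_lit 542175210) (nat_lit 532) (nat_lit 9760027695) (nat_lit 76) (nat_lit 485392897) (nat_lit 104) (nat_lit 5) (nat_lit 111) (nat_lit 5) (nat_lit 105) (nat_lit 5) (nat_lit 269) (nat_lit 245) (nat_lit 206)) (XT.nd (nat_lit 78) (nat_lit 380) (nat_lit 0) (XT.lf (nat_lit 0) (nat_lit 4022941848) (nat_lit 532) (nat_lit 653364866) (nat_lit 76) (nat_lit 6416954970) (nat_lit 104) (nat_lit 5) (nat_lit 111) (nat_lit 5) (nat_lit 105) (nat_lit 5) (nat_lit 270) (nat_lit 245) (nat_lit 205)) (XT.lf (nat_lit 0) (nat_lit 7693809027) (nat_lit 456) (nat_lit 2442620512) (nat_lit 76) (nat_lit 1277421427) (nat_lit 99) (nat_lit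 5) (nat_lit 105) (nat_lit 5) (nat_lit 100) (nat_lit 5) (nat_lit 271) (nat_lit 245) (nat_lit 204))))) (XT.nd (nat_lit 234) (nat_lit 684) (nat_lit 0) (XT.nd (nat_lit 78) (nat_lit 760) (nat_lit 0) (XT.lf (nat_lit 0) (nat_lit 7337049093) (nat_lit 380) (nat_lit 4255714872) (nat_lit 456) (nat_lit 156485575) (nat_lit 94) (nat_lit 5) (nat_lit 99) (nat_lit 5) (nat_lit 100) (nat_lit 5) (nat_lit 272) (nat_lit 245) (nat_lit 203)) (XT.nd (nat_lit 78) (nat_lit 380) (nat_lit 0) (XT.lf (nat_lit 0) (nat_lit 3535256744) (nat_lit 380) (nat_lit 6588654221) (nat_lit 76) (nat_lit 1975981499) (nat_lit 89) (nat_lit 5) (nat_lit 94) (nat_lit 5) (nat_lit 90) (nat_lit 5) (nat_lit 273) (nat_lit 245) (nat_lit 202)) (XT.lf (nat_lit 0) (nat_lit 3481843406) (nat_lit 380) (nat_lit 3973466675) (nat_lit 456) (nat_lit 5011404458) (nat_lit 84) (nat_lit 5) (nat_lit 89) (nat_lit 5) (nat_lit 90) (nat_lit 5) (nat_lit 274) (nat_lit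 245) (nat_lit 201)))) (XT.nd (nat_lit 78) (nat_lit 380) (nat_lit 0) (XT.lf (nat_lit 0) (nat_lit 1246745260) (nat_lit 304) (nat_lit 10356088299) (nat_lit 380) (nat_lit 1248197555) (nat_lit 80) (nat_lit 5) (nat_lit 84) (nat_lit 5) (nat_lit 85) (nat_lit 5) (nat_lit 275) (nat_lit 245) (nat_lit 200)) (XT.nd (nat_lit 78) (nat_lit 304) (nat_lit 0) (XT.lf (nat_lit 0) (nat_lit 2712818609) (nat_lit 380) (nat_lit 1236562452) (nat_lit 76) (nat_lit 9302621078) (nat_lit 79) (nat_lit 5) (nat_lit 84) (nat_lit 5) (nat_lit 80) (nat_lit 5) (nat_lit 276) (nat_lit 245) (nat_lit 199)) (XT.lf (nat_lit 0) (nat_lit 6899700066) (nat_lit 380) (nat_lit 3963471316) (nat_lit 76) (nat_lit 2807956498) (nat_lit 75) (nat_lit 5) (nat_lit 80) (nat_lit 5) (nat_lit 76) (nat_lit 5) (nat_lit 277) (nat_lit 245) (nat_lit 198))))))) (XT.nd (nat_lit 858) (nat_lit 1368) (nat_lit 0) (XT.nd (nat_lit 390) (nat_lit 1064) (nat_lit 0) (XT.nd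 (nat_lit 156) (nat_lit 532) (nat_lit 0) (XT.nd (nat_lit 78) (nat_lit 380) (nat_lit 0) (XT.lf (nat_lit 0) (nat_lit 7122968442) (nat_lit 304) (nat_lit 4228572042) (nat_lit 380) (nat_lit 2758082684) (nat_lit 71) (nat_lit 5) (nat_lit 75) (nat_lit 5) (nat_lit 76) (nat_lit 5) (nat_lit 278) (nat_lit 245) (nat_lit 197)) (XT.lf (nat_lit 0) (nat_lit 1472683900) (nat_lit 380) (nat_lit 10338670777) (nat_lit 76) (nat_lit 2756989293) (nat_lit 66) (nat_lit 5) (nat_lit 71) (nat_lit 5) (nat_lit 67) (nat_lit 5) (nat_lit 279) (nat_lit 245) (nat_lit 196))) (XT.nd (nat_lit 78) (nat_lit 304) (nat_lit 0) (XT.lf (nat_lit 0) (nat_lit 964522777) (nat_lit 228) (nat_lit 4956526164) (nat_lit 304) (nat_lit 9126311546) (nat_lit 63) (nat_lit 5) (nat_lit 66) (nat_lit 5) (nat_lit 67) (nat_lit 5) (nat_lit 280) (nat_lit 245) (nat_lit 195)) (XT.nd (nat_lit 78) (nat_lit 304) (nat_lit 0) (XT.lf (nat_lit 0) (nat_lit 10660726423)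 (nat_lit 304) (nat_lit 2607945355) (nat_lit 76) (nat_lit 2279657748) (nat_lit 63) (nat_lit 5) (nat_lit 67) (nat_lit 5) (nat_lit 64) (nat_lit 5) (nat_lit 281) (nat_lit 245) (nat_lit 194)) (XT.lf (nat_lit 0) (nat_lit 9492916474) (nat_lit 304) (nat_lit 6228484421) (nat_lit 380) (nat_lit 350490991) (nat_lit 59) (nat_lit 5) (nat_lit 63) (nat_lit 5) (nat_lit 64) (nat_lit 5) (nat_lit 282) (nat_lit 245) (nat_lit 193))))) (XT.nd (nat_lit 234) (nat_lit 532) (nat_lit 0) (XT.nd (nat_lit 78) (nat_lit 228) (nat_lit 0) (XT.lf (nat_lit 0) (nat_lit 4364704711) (nat_lit 304) (nat_lit 11014185960) (nat_lit 76) (nat_lit 1240408762) (nat_lit 55) (nat_lit 5) (nat_lit 59) (nat_lit 5) (nat_lit 56) (nat_lit 5) (nat_lit 283) (nat_lit 245) (nat_lit 192)) (XT.nd (nat_lit 78) (nat_lit 0) (nat_lit 0) (XT.lf (nat_lit 0) (nat_lit 1219696637) (nat_lit 228) (nat_lit 8177500122) (nat_lit 304) (nat_lit 7794170403) (nat_lit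 52) (nat_lit 5) (nat_lit 55) (nat_lit 5) (nat_lit 56) (nat_lit 5) (nat_lit 284) (nat_lit 245) (nat_lit 191)) (XT.lf (nat_lit 0) (nat_lit 14216882928) (nat_lit 228) (nat_lit 525373366) (nat_lit 304) (nat_lit 3048008431) (nat_lit 52) (nat_lit 5) (nat_lit 55) (nat_lit 5) (nat_lit 56) (nat_lit 5) (nat_lit 285) (nat_lit 245) (nat_lit 190)))) (XT.nd (nat_lit 78) (nat_lit 228) (nat_lit 0) (XT.lf (nat_lit 0) (nat_lit 2011909332) (nat_lit 304) (nat_lit 8953958999) (nat_lit 76) (nat_lit 7449304832) (nat_lit 48) (nat_lit 5) (nat_lit 52) (nat_lit 5) (nat_lit 49) (nat_lit 5) (nat_lit 286) (nat_lit 245) (nat_lit 189)) (XT.nd (nat_lit 78) (nat_lit 0) (nat_lit 0) (XT.lf (nat_lit 0) (nat_lit 4121007084) (nat_lit 228) (nat_lit 3174399184) (nat_lit 304) (nat_lit 11774054982) (nat_lit 45) (nat_lit 5) (nat_lit 48) (nat_lit 5) (nat_lit 49) (nat_lit 5) (nat_lit 287) (nat_lit 245) (nat_lit 188)) (XT.lf (nat_lit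 0) (nat_lit 12936650534) (nat_lit 304) (nat_lit 1839946688) (nat_lit 76) (nat_lit 4977105249) (nat_lit 45) (nat_lit 5) (nat_lit 49) (nat_lit 5) (nat_lit 46) (nat_lit 5) (nat_lit 288) (nat_lit 245) (nat_lit 187)))))) (XT.nd (nat_lit 390) (nat_lit 608) (nat_lit 0) (XT.nd (nat_lit 156) (nat_lit 304) (nat_lit 0) (XT.nd (nat_lit 78) (nat_lit 304) (nat_lit 0) (XT.lf (nat_lit 0) (nat_lit 12056700119) (nat_lit 152) (nat_lit 6905821680) (nat_lit 228) (nat_lit 1506600727) (nat_lit 43) (nat_lit 5) (nat_lit 45) (nat_lit 5) (nat_lit 46) (nat_lit 5) (nat_lit 289) (nat_lit 245) (nat_lit 186)) (XT.lf (nat_lit 0) (nat_lit 4031193909) (nat_lit 304) (nat_lit 15767476400) (nat_lit 76) (nat_lit 1419273310) (nat_lit 39) (nat_lit 5) (nat_lit 43) (nat_lit 5) (nat_lit 40) (nat_lit 5) (nat_lit 290) (nat_lit 245) (nat_lit 185))) (XT.nd (nat_lit 78) (nat_lit 304) (nat_lit 0) (XT.lf (nat_lit 0) (nat_lit 9929050053) (nat_lit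 304) (nat_lit 1973594128) (nat_lit 76) (nat_lit 10097722661) (nat_lit 39) (nat_lit 5) (nat_lit 43) (nat_lit 5) (nat_lit 40) (nat_lit 5) (nat_lit 291) (nat_lit 245) (nat_lit 184)) (XT.nd (nat_lit 78) (nat_lit 152) (nat_lit 0) (XT.lf (nat_lit 0) (nat_lit 12692402945) (nat_lit 152) (nat_lit 3510339328) (nat_lit 228) (nat_lit 6616777319) (nat_lit 37) (nat_lit 5) (nat_lit 39) (nat_lit 5) (nat_lit 40) (nat_lit 5) (nat_lit 292) (nat_lit 245) (nat_lit 183)) (XT.lf (nat_lit 0) (nat_lit 4424718413) (nat_lit 152) (nat_lit 18439468175) (nat_lit 228) (nat_lit 813256287) (nat_lit 35) (nat_lit 5) (nat_lit 37) (nat_lit 5) (nat_lit 38) (nat_lit 5) (nat_lit 293) (nat_lit 245) (nat_lit 182))))) (XT.nd (nat_lit 234) (nat_lit 228) (nat_lit 0) (XT.nd (nat_lit 78) (nat_lit 304) (nat_lit 0) (XT.lf (nat_lit 0) (nat_lit 5279053559) (nat_lit 228) (nat_lit 4809930786) (nat_lit 76) (nat_lit 14484737904) (nat_lit 34)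 (nat_lit 5) (nat_lit 37) (nat_lit 5) (nat_lit 35) (nat_lit 5) (nat_lit 294) (nat_lit 245) (nat_lit 181)) (XT.nd (nat_lit 78) (nat_lit 152) (nat_lit 0) (XT.lf (nat_lit 0) (nat_lit 10491185058) (nat_lit 152) (nat_lit 1231779034) (nat_lit 228) (nat_lit 13789726551) (nat_lit 32) (nat_lit 5) (nat_lit 34) (nat_lit 5) (nat_lit 35) (nat_lit 5) (nat_lit 295) (nat_lit 245) (nat_lit 180)) (XT.lf (nat_lit 0) (nat_lit 23670131) (nat_lit 152) (nat_lit 18556980400) (nat_lit 228) (nat_lit 7915238801) (nat_lit 30) (nat_lit 5) (nat_lit 32) (nat_lit 5) (nat_lit 33) (nat_lit 5) (nat_lit 296) (nat_lit 245) (nat_lit 179)))) (XT.nd (nat_lit 78) (nat_lit 228) (nat_lit 0) (XT.lf (nat_lit 0) (nat_lit 16064542899) (nat_lit 152) (nat_lit 9848582342) (nat_lit 228) (nat_lit 1611193487) (nat_lit 30) (nat_lit 5) (nat_lit 32) (nat_lit 5) (nat_lit 33) (nat_lit 5) (nat_lit 297) (nat_lit 245) (nat_lit 178)) (XT.nd (nat_lit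 78) (nat_lit 0) (nat_lit 0) (XT.lf (nat_lit 0) (nat_lit 4282993639) (nat_lit 152) (nat_lit 634778196) (nat_lit 228) (nat_lit 23684756047) (nat_lit 27) (nat_lit 5) (nat_lit 29) (nat_lit 5) (nat_lit 30) (nat_lit 5) (nat_lit 298) (nat_lit 245) (nat_lit 177)) (XT.lf (nat_lit 0) (nat_lit 11913356068) (nat_lit 228) (nat_lit 8837988600) (nat_lit 76) (nat_lit 8977644036) (nat_lit 27) (nat_lit 5) (nat_lit 30) (nat_lit 5) (nat_lit 28) (nat_lit 5) (nat_lit 299) (nat_lit 245) (nat_lit 176))))))))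
noncomputable def xc61 : XT := (XT.nd (nat_lit 1716) (nat_lit 304) (nat_lit 0) (XT.nd (nat_lit 858) (nat_lit 532) (nat_lit 0) (XT.nd (nat_lit 390) (nat_lit 304) (nat_lit 0) (XT.nd (nat_lit 156) (nat_lit 304) (nat_lit 0) (XT.nd (nat_lit 78) (nat_lit 0) (nat_lit 0) (XT.lf (nat_lit 0) (nat_lit 7505368025) (nat_lit 152) (nat_lit 11800620146) (nat_lit 228) (nat_lit 11604389728) (nat_lit 25) (nat_lit 5) (nat_lit 27) (nat_lit 5) (nat_lit 28) (nat_lit 5) (nat_lit 300) (nat_lit 245) (nat_lit 175)) (XT.lf (nat_lit 0) (nat_lit 24799763989) (nat_lit 152) (nat_lit 2329183945) (nat_lit 228) (nat_lit 5020090016) (nat_lit 25) (nat_lit 5) (nat_lit 27) (nat_lit 5) (nat_lit 28) (nat_lit 5) (nat_lit 301) (nat_lit 245) (nat_lit 174))) (XT.nd (nat_lit 78) (nat_lit 152) (nat_lit 0) (XT.lf (nat_lit 0) (nat_lit 1994012611) (nat_lit 152) (nat_lit 23891350827) (nat_lit 76) (nat_lit 7559616078) (nat_lit 23) (nat_lit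 5) (nat_lit 25) (nat_lit 5) (nat_lit 24) (nat_lit 5) (nat_lit 302) (nat_lit 245) (nat_lit 173)) (XT.nd (nat_lit 78) (nat_lit 152) (nat_lit 0) (XT.lf (nat_lit 0) (nat_lit 9327471386) (nat_lit 152) (nat_lit 7471393606) (nat_lit 76) (nat_lit 18003207446) (nat_lit 23) (nat_lit 5) (nat_lit 25) (nat_lit 5) (nat_lit 24) (nat_lit 5) (nat_lit 303) (nat_lit 245) (nat_lit 172)) (XT.lf (nat_lit 0) (nat_lit 9917105930) (nat_lit 152) (nat_lit 7178775690) (nat_lit 228) (nat_lit 19129108712) (nat_lit 21) (nat_lit 5) (nat_lit 23) (nat_lit 5) (nat_lit 24) (nat_lit 5) (nat_lit 304) (nat_lit 245) (nat_lit 171))))) (XT.nd (nat_lit 234) (nat_lit 152) (nat_lit 0) (XT.nd (nat_lit 78) (nat_lit 152) (nat_lit 0) (XT.lf (nat_lit 0) (nat_lit 25332106994) (nat_lit 228) (nat_lit 9459721021) (nat_lit 76) (nat_lit 2924862064) (nat_lit 21) (nat_lit 5) (nat_lit 24) (nat_lit 5) (nat_lit 22) (nat_lit 4) (nat_lit 305) (nat_lit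 245) (nat_lit 170)) (XT.nd (nat_lit 78) (nat_lit 76) (nat_lit 0) (XT.lf (nat_lit 0) (nat_lit 8276777209) (nat_lit 76) (nat_lit 25830271291) (nat_lit 152) (nat_lit 5172136113) (nat_lit 20) (nat_lit 5) (nat_lit 21) (nat_lit 5) (nat_lit 22) (nat_lit 4) (nat_lit 306) (nat_lit 245) (nat_lit 169)) (XT.lf (nat_lit 0) (nat_lit 2427848883) (nat_lit 152) (nat_lit 13885539720) (nat_lit 76) (nat_lit 24603525567) (nat_lit 19) (nat_lit 5) (nat_lit 21) (nat_lit 5) (nat_lit 20) (nat_lit 5) (nat_lit 307) (nat_lit 245) (nat_lit 168)))) (XT.nd (nat_lit 78) (nat_lit 0) (nat_lit 0) (XT.lf (nat_lit 0) (nat_lit 4074092187) (nat_lit 152) (nat_lit 6243523489) (nat_lit 228) (nat_lit 32316890668) (nat_lit 17) (nat_lit 5) (nat_lit 19) (nat_lit 5) (nat_lit 20) (nat_lit 5) (nat_lit 308) (nat_lit 245) (nat_lit 167)) (XT.nd (nat_lit 78) (nat_lit 0) (nat_lit 0) (XT.lf (nat_lit 0) (nat_lit 18765018222) (nat_lit 228) (nat_lit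 21294607171) (nat_lit 76) (nat_lit 4373472524) (nat_lit 17) (nat_lit 5) (nat_lit 20) (nat_lit 5) (nat_lit 18) (nat_lit 4) (nat_lit 309) (nat_lit 245) (nat_lit 166)) (XT.lf (nat_lit 0) (nat_lit 27676067119) (nat_lit 228) (nat_lit 3266387795) (nat_lit 76) (nat_lit 15377939404) (nat_lit 17) (nat_lit 5) (nat_lit 20) (nat_lit 5) (nat_lit 18) (nat_lit 4) (nat_lit 310) (nat_lit 245) (nat_lit 165)))))) (XT.nd (nat_lit 390) (nat_lit 228) (nat_lit 0) (XT.nd (nat_lit 156) (nat_lit 228) (nat_lit 0) (XT.nd (nat_lit 78) (nat_lit 0) (nat_lit 0) (XT.lf (nat_lit 0) (nat_lit 15938196488) (nat_lit 76) (nat_lit 21226973789) (nat_lit 152) (nat_lit 11132923098) (nat_lit 16) (nat_lit 5) (nat_lit 17) (nat_lit 5) (nat_lit 18) (nat_lit 4) (nat_lit 311) (nat_lit 245) (nat_lit 164)) (XT.lf (nat_lit 0) (nat_lit 36136243790) (nat_lit 76) (nat_lit 11006052828) (nat_lit 152) (nat_lit 3231986005) (nat_lit 16) (nat_lit 5)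 (nat_lit 17) (nat_lit 5) (nat_lit 18) (nat_lit 4) (nat_lit 312) (nat_lit 245) (nat_lit 163))) (XT.nd (nat_lit 78) (nat_lit 0) (nat_lit 0) (XT.lf (nat_lit 0) (nat_lit 4801170218) (nat_lit 152) (nat_lit 190860598) (nat_lit 228) (nat_lit 47559996031) (nat_lit 13) (nat_lit 5) (nat_lit 15) (nat_lit 5) (nat_lit 16) (nat_lit 5) (nat_lit 313) (nat_lit 245) (nat_lit 162)) (XT.nd (nat_lit 78) (nat_lit 0) (nat_lit 0) (XT.lf (nat_lit 0) (nat_lit 13797538837) (nat_lit 228) (nat_lit 29919007100) (nat_lit 76) (nat_lit 11114049177) (nat_lit 13) (nat_lit 5) (nat_lit 16) (nat_lit 5) (nat_lit 14) (nat_lit 4) (nat_lit 314) (nat_lit 245) (nat_lit 161)) (XT.lf (nat_lit 0) (nat_lit 23027312021) (nat_lit 228) (nat_lit 11229130203) (nat_lit 76) (nat_lit 22967140175) (nat_lit 13) (nat_lit 5) (nat_lit 16) (nat_lit 5) (nat_lit 14) (nat_lit 4) (nat_lit 315) (nat_lit 245) (nat_lit 160))))) (XT.nd (nat_lit 234) (nat_lit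 152) (nat_lit 0) (XT.nd (nat_lit 78) (nat_lit 0) (nat_lit 0) (XT.lf (nat_lit 0) (nat_lit 8531590496) (nat_lit 76) (nat_lit 24251911720) (nat_lit 152) (nat_lit 26950778789) (nat_lit 12) (nat_lit 5) (nat_lit 13) (nat_lit 5) (nat_lit 14) (nat_lit 4) (nat_lit 316) (nat_lit 245) (nat_lit 159)) (XT.nd (nat_lit 78) (nat_lit 0) (nat_lit 0) (XT.lf (nat_lit 0) (nat_lit 29485734653) (nat_lit 76) (nat_lit 13640810847) (nat_lit 152) (nat_lit 19241007072) (nat_lit 12) (nat_lit 5) (nat_lit 13) (nat_lit 5) (nat_lit 14) (nat_lit 4) (nat_lit 317) (nat_lit 245) (nat_lit 158)) (XT.lf (nat_lit 0) (nat_lit 51459711379) (nat_lit 76) (nat_lit 2511267278) (nat_lit 152) (nat_lit 11161990826) (nat_lit 12) (nat_lit 5) (nat_lit 13) (nat_lit 5) (nat_lit 14) (nat_lit 4) (nat_lit 318) (nat_lit 245) (nat_lit 157)))) (XT.nd (nat_lit 78) (nat_lit 76) (nat_lit 0) (XT.lf (nat_lit 0) (nat_lit 6507628417) (nat_lit 76) (nat_lit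 58985631108) (nat_lit 76) (nat_lit 2539337403) (nat_lit 11) (nat_lit 4) (nat_lit 12) (nat_lit 5) (nat_lit 12) (nat_lit 4) (nat_lit 319) (nat_lit 245) (nat_lit 156)) (XT.nd (nat_lit 78) (nat_lit 0) (nat_lit 0) (XT.lf (nat_lit 0) (nat_lit 6540016306) (nat_lit 152) (nat_lit 43205481056) (nat_lit 76) (nat_lit 21325256951) (nat_lit 10) (nat_lit 5) (nat_lit 12) (nat_lit 5) (nat_lit 11) (nat_lit 4) (nat_lit 320) (nat_lit 245) (nat_lit 155)) (XT.lf (nat_lit 0) (nat_lit 16007206988) (nat_lit 152) (nat_lit 24020817738) (nat_lit 76) (nat_lit 34232456443) (nat_lit 10) (nat_lit 5) (nat_lit 12) (nat_lit 5) (nat_lit 11) (nat_lit 4) (nat_lit 321) (nat_lit 245) (nat_lit 154))))))) (XT.nd (nat_lit 31668) (nat_lit 0) (nat_lit 13908) (XT.nd (nat_lit 390) (nat_lit 228) (nat_lit 0) (XT.nd (nat_lit 156) (nat_lit 0) (nat_lit 0) (XT.nd (nat_lit 78) (nat_lit 76) (nat_lit 0) (XT.lf (nat_lit 0) (nat_lit 25934327191)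 (nat_lit 152) (nat_lit 3900891121) (nat_lit 76) (nat_lit 47774886060) (nat_lit 10) (nat_lit 5) (nat_lit 12) (nat_lit 5) (nat_lit 11) (nat_lit 4) (nat_lit 322) (nat_lit 245) (nat_lit 153)) (XT.lf (nat_lit 0) (nat_lit 17544560959) (nat_lit 76) (nat_lit 18969101010) (nat_lit 152) (nat_lit 44608877776) (nat_lit 9) (nat_lit 5) (nat_lit 10) (nat_lit 5) (nat_lit 11) (nat_lit 4) (nat_lit 323) (nat_lit 245) (nat_lit 152))) (XT.nd (nat_lit 78) (nat_lit 0) (nat_lit 0) (XT.lf (nat_lit 0) (nat_lit 40121628722) (nat_lit 76) (nat_lit 7528096428) (nat_lit 152) (nat_lit 37160045331) (nat_lit 9) (nat_lit 5) (nat_lit 10) (nat_lit 5) (nat_lit 11) (nat_lit 4) (nat_lit 324) (nat_lit 245) (nat_lit 151)) (XT.nd (nat_lit 78) (nat_lit 0) (nat_lit 0) (XT.lf (nat_lit 0) (nat_lit 59373809774) (nat_lit 152) (nat_lit 24918313947) (nat_lit 0) (nat_lit 4388308622) (nat_lit 9) (nat_lit 5) (nat_lit 11) (nat_lit 4) (nat_lit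 9) (nat_lit 4) (nat_lit 325) (nat_lit 245) (nat_lit 150)) (XT.lf (nat_lit 0) (nat_lit 71748754025) (nat_lit 152) (nat_lit 4256348028) (nat_lit 0) (nat_lit 16737591428) (nat_lit 9) (nat_lit 5) (nat_lit 11) (nat_lit 4) (nat_lit 9) (nat_lit 4) (nat_lit 326) (nat_lit 245) (nat_lit 149))))) (XT.nd (nat_lit 234) (nat_lit 76) (nat_lit 0) (XT.nd (nat_lit 78) (nat_lit 76) (nat_lit 0) (XT.lf (nat_lit 0) (nat_lit 17765994362) (nat_lit 76) (nat_lit 67136440632) (nat_lit 76) (nat_lit 12100838564) (nat_lit 8) (nat_lit 4) (nat_lit 9) (nat_lit 5) (nat_lit 9) (nat_lit 4) (nat_lit 327) (nat_lit 245) (nat_lit 148)) (XT.nd (nat_lit 78) (nat_lit 76) (nat_lit 0) (XT.lf (nat_lit 0) (nat_lit 40959554771) (nat_lit 76) (nat_lit 57787605065) (nat_lit 76) (nat_lit 2728727310) (nat_lit 8) (nat_lit 4) (nat_lit 9) (nat_lit 5) (nat_lit 9) (nat_lit 4) (nat_lit 328) (nat_lit 245) (nat_lit 147)) (XT.lf (nat_lit 0) (nat_lit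 6963147791) (nat_lit 152) (nat_lit 40945855057) (nat_lit 76) (nat_lit 58261384357) (nat_lit 7) (nat_lit 5) (nat_lit 9) (nat_lit 5) (nat_lit 8) (nat_lit 4) (nat_lit 329) (nat_lit 245) (nat_lit 146)))) (XT.nd (nat_lit 78) (nat_lit 76) (nat_lit 0) (XT.lf (nat_lit 0) (nat_lit 17074124907) (nat_lit 152) (nat_lit 20441683247) (nat_lit 76) (nat_lit 73583269996) (nat_lit 7) (nat_lit 5) (nat_lit 9) (nat_lit 5) (nat_lit 8) (nat_lit 4) (nat_lit 330) (nat_lit 245) (nat_lit 145)) (XT.nd (nat_lit 30888) (nat_lit 0) (nat_lit 18696) (XT.lf (nat_lit 0) (nat_lit 1092552339) (nat_lit 76) (nat_lit 26599475031) (nat_lit 152) (nat_lit 88582139423) (nat_lit 6) (nat_lit 5) (nat_lit 7) (nat_lit 5) (nat_lit 8) (nat_lit 4) (nat_lit 331) (nat_lit 245) (nat_lit 144)) (XT.lf (nat_lit 0) (nat_lit 157156793) (nat_lit 684) (nat_lit 1639829534) (nat_lit 684) (nat_lit 1639829534) (nat_lit 252) (nat_lit 3) (nat_lit 261) (nat_lit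 3) (nat_lit 261) (nat_lit 5) (nat_lit 246) (nat_lit 246) (nat_lit 228)))))) (XT.nd (nat_lit 468) (nat_lit 3496) (nat_lit 0) (XT.nd (nat_lit 234) (nat_lit 684) (nat_lit 0) (XT.nd (nat_lit 78) (nat_lit 608) (nat_lit 0) (XT.lf (nat_lit 76) (nat_lit 1846438005) (nat_lit 0) (nat_lit 1453914057) (nat_lit 684) (nat_lit 3648714328) (nat_lit 253) (nat_lit 5) (nat_lit 252) (nat_lit 3) (nat_lit 261) (nat_lit 5) (nat_lit 247) (nat_lit 246) (nat_lit 227)) (XT.nd (nat_lit 78) (nat_lit 684) (nat_lit 0) (XT.lf (nat_lit 76) (nat_lit 158443128) (nat_lit 0) (nat_lit 6130900273) (nat_lit 684) (nat_lit 743771835) (nat_lit 254) (nat_lit 5) (nat_lit 253) (nat_lit 5) (nat_lit 262) (nat_lit 5) (nat_lit 248) (nat_lit 246) (nat_lit 226)) (XT.lf (nat_lit 0) (nat_lit 2145352547) (nat_lit 684) (nat_lit 1475777382) (nat_lit 760) (nat_lit 3503471147) (nat_lit 244) (nat_lit 5) (nat_lit 253) (nat_lit 5) (nat_lit 254) (nat_lit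 5) (nat_lit 249) (nat_lit 246) (nat_lit 225)))) (XT.nd (nat_lit 78) (nat_lit 684) (nat_lit 0) (XT.lf (nat_lit 76) (nat_lit 4164127042) (nat_lit 0) (nat_lit 864565797) (nat_lit 760) (nat_lit 2196191200) (nat_lit 245) (nat_lit 5) (nat_lit 244) (nat_lit 5) (nat_lit 254) (nat_lit 5) (nat_lit 250) (nat_lit 246) (nat_lit 224)) (XT.nd (nat_lit 78) (nat_lit 0) (nat_lit 0) (XT.lf (nat_lit 0) (nat_lit 604378756) (nat_lit 760) (nat_lit 4625019224) (nat_lit 836) (nat_lit 2104166011) (nat_lit 235) (nat_lit 5) (nat_lit 245) (nat_lit 5) (nat_lit 246) (nat_lit 5) (nat_lit 251) (nat_lit 246) (nat_lit 223)) (XT.lf (nat_lit 76) (nat_lit 1270788089) (nat_lit 0) (nat_lit 2119978037) (nat_lit 836) (nat_lit 4059873689) (nat_lit 236) (nat_lit 5) (nat_lit 235) (nat_lit 5) (nat_lit 246) (nat_lit 5) (nat_lit 252) (nat_lit 246) (nat_lit 222))))) (XT.nd (nat_lit 234) (nat_lit 2736) (nat_lit 0) (XT.nd (nat_lit 78) (nat_lit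 836) (nat_lit 0) (XT.lf (nat_lit 0) (nat_lit 6220805605) (nat_lit 760) (nat_lit 134369963) (nat_lit 836) (nat_lit 1221597685) (nat_lit 236) (nat_lit 5) (nat_lit 246) (nat_lit 5) (nat_lit 247) (nat_lit 5) (nat_lit 253) (nat_lit 246) (nat_lit 221)) (XT.nd (nat_lit 78) (nat_lit 0) (nat_lit 76) (XT.lf (nat_lit 0) (nat_lit 1386926289) (nat_lit 836) (nat_lit 1515564945) (nat_lit 912) (nat_lit 4808621058) (nat_lit 225) (nat_lit 5) (nat_lit 236) (nat_lit 5) (nat_lit 237) (nat_lit 5) (nat_lit 254) (nat_lit 246) (nat_lit 220)) (XT.lf (nat_lit 0) (nat_lit 4153292202) (nat_lit 836) (nat_lit 2890625012) (nat_lit 76) (nat_lit 810711135) (nat_lit 226) (nat_lit 5) (nat_lit 237) (nat_lit 5) (nat_lit 227) (nat_lit 5) (nat_lit 255) (nat_lit 246) (nat_lit 219)))) (XT.nd (nat_lit 78) (nat_lit 1976) (nat_lit 0) (XT.lf (nat_lit 0) (nat_lit 3732199456) (nat_lit 836) (nat_lit 3269865625) (nat_lit 912) (nat_lit 1005212423)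 (nat_lit 215) (nat_lit 5) (nat_lit 226) (nat_lit 5) (nat_lit 227) (nat_lit 5) (nat_lit 256) (nat_lit 246) (nat_lit 218)) (XT.nd (nat_lit 78) (nat_lit 988) (nat_lit 0) (XT.lf (nat_lit 0) (nat_lit 1718991094) (nat_lit 988) (nat_lit 5671761562) (nat_lit 76) (nat_lit 778671821) (nat_lit 202) (nat_lit 5) (nat_lit 215) (nat_lit 5) (nat_lit 203) (nat_lit 5) (nat_lit 257) (nat_lit 246) (nat_lit 217)) (XT.lf (nat_lit 0) (nat_lit 1233792078) (nat_lit 988) (nat_lit 3287038483) (nat_lit 1064) (nat_lit 3819929739) (nat_lit 189) (nat_lit 5) (nat_lit 202) (nat_lit 5) (nat_lit 203) (nat_lit 5) (nat_lit 258) (nat_lit 246) (nat_lit 216))))))))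
noncomputable def xc62 : XT := (XT.nd (nat_lit 1716) (nat_lit 3116) (nat_lit 0) (XT.nd (nat_lit 858) (nat_lit 3420) (nat_lit 0) (XT.nd (nat_lit 390) (nat_lit 2432) (nat_lit 0) (XT.nd (nat_lit 156) (nat_lit 2356) (nat_lit 0) (XT.nd (nat_lit 78) (nat_lit 1140) (nat_lit 0) (XT.lf (nat_lit 0) (nat_lit 7409506300) (nat_lit 1064) (nat_lit 33903904) (nat_lit 76) (nat_lit 1079085171) (nat_lit 189) (nat_lit 5) (nat_lit 203) (nat_lit 5) (nat_lit 190) (nat_lit 5) (nat_lit 259) (nat_lit 246) (nat_lit 215)) (XT.lf (nat_lit 0) (nat_lit 1683310081) (nat_lit 1140) (nat_lit 1328943069) (nat_lit 76) (nat_lit 5701149771) (nat_lit 174) (nat_lit 5) (nat_lit 189) (nat_lit 5) (nat_lit 175) (nat_lit 5) (nat_lit 260) (nat_lit 246) (nat_lit 214))) (XT.nd (nat_lit 78) (nat_lit 1216) (nat_lit 0) (XT.lf (nat_lit 0) (nat_lit 4560855911) (nat_lit 1216) (nat_lit 2662292509) (nat_lit 76) (nat_lit 1691650091) (nat_lit 159)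 (nat_lit 5) (nat_lit 175) (nat_lit 5) (nat_lit 160) (nat_lit 5) (nat_lit 261) (nat_lit 246) (nat_lit 213)) (XT.nd (nat_lit 78) (nat_lit 684) (nat_lit 0) (XT.lf (nat_lit 0) (nat_lit 5080813746) (nat_lit 532) (nat_lit 2486071780) (nat_lit 608) (nat_lit 1560037074) (nat_lit 152) (nat_lit 5) (nat_lit 159) (nat_lit 5) (nat_lit 160) (nat_lit 5) (nat_lit 262) (nat_lit 246) (nat_lit 212)) (XT.lf (nat_lit 0) (nat_lit 1330973419) (nat_lit 684) (nat_lit 5497371233) (nat_lit 76) (nat_lit 2521567825) (nat_lit 143) (nat_lit 5) (nat_lit 152) (nat_lit 5) (nat_lit 144) (nat_lit 5) (nat_lit 263) (nat_lit 246) (nat_lit 211))))) (XT.nd (nat_lit 234) (nat_lit 1292) (nat_lit 0) (XT.nd (nat_lit 78) (nat_lit 608) (nat_lit 0) (XT.lf (nat_lit 0) (nat_lit 2554077401) (nat_lit 532) (nat_lit 1770827551) (nat_lit 608) (nat_lit 5259137888) (nat_lit 136) (nat_lit 5) (nat_lit 143) (nat_lit 5) (nat_lit 144) (nat_lit 5) (nat_lit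 264) (nat_lit 246) (nat_lit 210)) (XT.nd (nat_lit 78) (nat_lit 76) (nat_lit 0) (XT.lf (nat_lit 0) (nat_lit 1180729821) (nat_lit 532) (nat_lit 6292808245) (nat_lit 608) (nat_lit 2356356654) (nat_lit 129) (nat_lit 5) (nat_lit 136) (nat_lit 5) (nat_lit 137) (nat_lit 5) (nat_lit 265) (nat_lit 246) (nat_lit 209)) (XT.lf (nat_lit 0) (nat_lit 674108998) (nat_lit 608) (nat_lit 263864400) (nat_lit 76) (nat_lit 9150137856) (nat_lit 128) (nat_lit 5) (nat_lit 136) (nat_lit 5) (nat_lit 129) (nat_lit 5) (nat_lit 266) (nat_lit 246) (nat_lit 208)))) (XT.nd (nat_lit 78) (nat_lit 836) (nat_lit 0) (XT.lf (nat_lit 0) (nat_lit 3845993797) (nat_lit 532) (nat_lit 1817218429) (nat_lit 76) (nat_lit 4694313045) (nat_lit 122) (nat_lit 5) (nat_lit 129) (nat_lit 5) (nat_lit 123) (nat_lit 5) (nat_lit 267) (nat_lit 246) (nat_lit 207)) (XT.nd (nat_lit 78) (nat_lit 380) (nat_lit 0) (XT.lf (nat_lit 0) (nat_lit 7170802186)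 (nat_lit 532) (nat_lit 3456979477) (nat_lit 76) (nat_lit 12936951) (nat_lit 116) (nat_lit 5) (nat_lit 123) (nat_lit 5) (nat_lit 117) (nat_lit 5) (nat_lit 268) (nat_lit 246) (nat_lit 206)) (XT.lf (nat_lit 0) (nat_lit 5692474726) (nat_lit 380) (nat_lit 5016230283) (nat_lit 456) (nat_lit 228092904) (nat_lit 111) (nat_lit 5) (nat_lit 116) (nat_lit 5) (nat_lit 117) (nat_lit 5) (nat_lit 269) (nat_lit 246) (nat_lit 205)))))) (XT.nd (nat_lit 390) (nat_lit 1748) (nat_lit 0) (XT.nd (nat_lit 156) (nat_lit 760) (nat_lit 0) (XT.nd (nat_lit 78) (nat_lit 380) (nat_lit 0) (XT.lf (nat_lit 0) (nat_lit 3116580370) (nat_lit 532) (nat_lit 7178142057) (nat_lit 76) (nat_lit 952082972) (nat_lit 104) (nat_lit 5) (nat_lit 111) (nat_lit 5) (nat_lit 105) (nat_lit 5) (nat_lit 270) (nat_lit 246) (nat_lit 204)) (XT.lf (nat_lit 0) (nat_lit 2282202813) (nat_lit 380) (nat_lit 4389820627) (nat_lit 456) (nat_lit 4898890626)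 (nat_lit 99) (nat_lit 5) (nat_lit 104) (nat_lit 5) (nat_lit 105) (nat_lit 5) (nat_lit 271) (nat_lit 246) (nat_lit 203))) (XT.nd (nat_lit 78) (nat_lit 380) (nat_lit 0) (XT.lf (nat_lit 0) (nat_lit 350695368) (nat_lit 380) (nat_lit 10073773648) (nat_lit 456) (nat_lit 1486292870) (nat_lit 94) (nat_lit 5) (nat_lit 99) (nat_lit 5) (nat_lit 100) (nat_lit 5) (nat_lit 272) (nat_lit 246) (nat_lit 202)) (XT.nd (nat_lit 78) (nat_lit 304) (nat_lit 0) (XT.lf (nat_lit 0) (nat_lit 2122636122) (nat_lit 456) (nat_lit 1757404955) (nat_lit 76) (nat_lit 8385060001) (nat_lit 93) (nat_lit 5) (nat_lit 99) (nat_lit 5) (nat_lit 94) (nat_lit 5) (nat_lit 273) (nat_lit 246) (nat_lit 201)) (XT.lf (nat_lit 0) (nat_lit 5919510718) (nat_lit 380) (nat_lit 4063255335) (nat_lit 76) (nat_lit 2652899985) (nat_lit 89) (nat_lit 5) (nat_lit 94) (nat_lit 5) (nat_lit 90) (nat_lit 5) (nat_lit 274) (nat_lit 246) (nat_lit 200))))) (XT.nd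 (nat_lit 234) (nat_lit 684) (nat_lit 0) (XT.nd (nat_lit 78) (nat_lit 684) (nat_lit 0) (XT.lf (nat_lit 0) (nat_lit 6428933998) (nat_lit 380) (nat_lit 3528169855) (nat_lit 456) (nat_lit 3066221931) (nat_lit 84) (nat_lit 5) (nat_lit 89) (nat_lit 5) (nat_lit 90) (nat_lit 5) (nat_lit 275) (nat_lit 246) (nat_lit 199)) (XT.nd (nat_lit 78) (nat_lit 304) (nat_lit 0) (XT.lf (nat_lit 0) (nat_lit 798026293) (nat_lit 380) (nat_lit 9375496217) (nat_lit 76) (nat_lit 3255307752) (nat_lit 79) (nat_lit 5) (nat_lit 84) (nat_lit 5) (nat_lit 80) (nat_lit 5) (nat_lit 276) (nat_lit 246) (nat_lit 198)) (XT.lf (nat_lit 0) (nat_lit 1392016072) (nat_lit 304) (nat_lit 3453690145) (nat_lit 380) (nat_lit 9006465689) (nat_lit 75) (nat_lit 5) (nat_lit 79) (nat_lit 5) (nat_lit 80) (nat_lit 5) (nat_lit 277) (nat_lit 246) (nat_lit 197)))) (XT.nd (nat_lit 78) (nat_lit 684) (nat_lit 0) (XT.lf (nat_lit 0) (nat_lit 9165413743)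 (nat_lit 380) (nat_lit 1521387476) (nat_lit 76) (nat_lit 3607867919) (nat_lit 75) (nat_lit 5) (nat_lit 80) (nat_lit 5) (nat_lit 76) (nat_lit 5) (nat_lit 278) (nat_lit 246) (nat_lit 196)) (XT.nd (nat_lit 78) (nat_lit 380) (nat_lit 0) (XT.lf (nat_lit 0) (nat_lit 10043691821) (nat_lit 304) (nat_lit 3729343353) (nat_lit 380) (nat_lit 984172310) (nat_lit 71) (nat_lit 5) (nat_lit 75) (nat_lit 5) (nat_lit 76) (nat_lit 5) (nat_lit 279) (nat_lit 246) (nat_lit 195)) (XT.lf (nat_lit 0) (nat_lit 3362798534) (nat_lit 380) (nat_lit 8276681531) (nat_lit 76) (nat_lit 3600679144) (nat_lit 66) (nat_lit 5) (nat_lit 71) (nat_lit 5) (nat_lit 67) (nat_lit 5) (nat_lit 280) (nat_lit 246) (nat_lit 194))))))) (XT.nd (nat_lit 858) (nat_lit 1064) (nat_lit 0) (XT.nd (nat_lit 390) (nat_lit 988) (nat_lit 0) (XT.nd (nat_lit 156) (nat_lit 836) (nat_lit 0) (XT.nd (nat_lit 78) (nat_lit 0) (nat_lit 0) (XT.lf (nat_lit 0) (nat_lit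 3517747396) (nat_lit 228) (nat_lit 4453414939) (nat_lit 304) (nat_lit 7773937159) (nat_lit 63) (nat_lit 5) (nat_lit 66) (nat_lit 5) (nat_lit 67) (nat_lit 5) (nat_lit 281) (nat_lit 246) (nat_lit 193)) (XT.lf (nat_lit 0) (nat_lit 12871171715) (nat_lit 304) (nat_lit 307476884) (nat_lit 76) (nat_lit 3094863527) (nat_lit 63) (nat_lit 5) (nat_lit 67) (nat_lit 5) (nat_lit 64) (nat_lit 5) (nat_lit 282) (nat_lit 246) (nat_lit 192))) (XT.nd (nat_lit 78) (nat_lit 456) (nat_lit 0) (XT.lf (nat_lit 0) (nat_lit 1277222208) (nat_lit 380) (nat_lit 4508833046) (nat_lit 76) (nat_lit 11038628110) (nat_lit 58) (nat_lit 5) (nat_lit 63) (nat_lit 5) (nat_lit 59) (nat_lit 5) (nat_lit 283) (nat_lit 246) (nat_lit 191)) (XT.nd (nat_lit 78) (nat_lit 228) (nat_lit 0) (XT.lf (nat_lit 0) (nat_lit 6172517392) (nat_lit 304) (nat_lit 9196010000) (nat_lit 76) (nat_lit 2032366306) (nat_lit 55) (nat_lit 5) (nat_lit 59) (nat_lit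 5) (nat_lit 56) (nat_lit 5) (nat_lit 284) (nat_lit 246) (nat_lit 190)) (XT.lf (nat_lit 0) (nat_lit 3581663105) (nat_lit 228) (nat_lit 7821395216) (nat_lit 304) (nat_lit 6600193926) (nat_lit 52) (nat_lit 5) (nat_lit 55) (nat_lit 5) (nat_lit 56) (nat_lit 5) (nat_lit 285) (nat_lit 246) (nat_lit 189))))) (XT.nd (nat_lit 234) (nat_lit 456) (nat_lit 0) (XT.nd (nat_lit 78) (nat_lit 532) (nat_lit 0) (XT.lf (nat_lit 0) (nat_lit 16943928464) (nat_lit 304) (nat_lit 1516927733) (nat_lit 76) (nat_lit 173458106) (nat_lit 52) (nat_lit 5) (nat_lit 56) (nat_lit 5) (nat_lit 53) (nat_lit 5) (nat_lit 286) (nat_lit 246) (nat_lit 188)) (XT.nd (nat_lit 78) (nat_lit 228) (nat_lit 0) (XT.lf (nat_lit 0) (nat_lit 3548685444) (nat_lit 304) (nat_lit 7205759245) (nat_lit 76) (nat_lit 8536989897) (nat_lit 48) (nat_lit 5) (nat_lit 52) (nat_lit 5) (nat_lit 49) (nat_lit 5) (nat_lit 287) (nat_lit 246) (nat_lit 187)) (XT.lf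 (nat_lit 0) (nat_lit 6460010175) (nat_lit 228) (nat_lit 2588460744) (nat_lit 304) (nat_lit 10931469978) (nat_lit 45) (nat_lit 5) (nat_lit 48) (nat_lit 5) (nat_lit 49) (nat_lit 5) (nat_lit 288) (nat_lit 246) (nat_lit 186)))) (XT.nd (nat_lit 78) (nat_lit 304) (nat_lit 0) (XT.lf (nat_lit 0) (nat_lit 136226669) (nat_lit 152) (nat_lit 14777568219) (nat_lit 228) (nat_lit 5786402794) (nat_lit 43) (nat_lit 5) (nat_lit 45) (nat_lit 5) (nat_lit 46) (nat_lit 5) (nat_lit 289) (nat_lit 246) (nat_lit 185)) (XT.nd (nat_lit 78) (nat_lit 304) (nat_lit 0) (XT.lf (nat_lit 0) (nat_lit 14665840045) (nat_lit 152) (nat_lit 6529810182) (nat_lit 228) (nat_lit 257158776) (nat_lit 43) (nat_lit 5) (nat_lit 45) (nat_lit 5) (nat_lit 46) (nat_lit 5) (nat_lit 290) (nat_lit 246) (nat_lit 184)) (XT.lf (nat_lit 0) (nat_lit 5495718061) (nat_lit 304) (nat_lit 14548897677) (nat_lit 76) (nat_lit 2195208455) (nat_lit 39) (nat_lit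 5) (nat_lit 43) (nat_lit 5) (nat_lit 40) (nat_lit 5) (nat_lit 291) (nat_lit 246) (nat_lit 183)))))) (XT.nd (nat_lit 390) (nat_lit 532) (nat_lit 0) (XT.nd (nat_lit 156) (nat_lit 380) (nat_lit 0) (XT.nd (nat_lit 78) (nat_lit 152) (nat_lit 0) (XT.lf (nat_lit 0) (nat_lit 11628325847) (nat_lit 304) (nat_lit 160890460) (nat_lit 76) (nat_lit 11274010203) (nat_lit 39) (nat_lit 5) (nat_lit 43) (nat_lit 5) (nat_lit 40) (nat_lit 5) (nat_lit 292) (nat_lit 246) (nat_lit 182)) (XT.lf (nat_lit 0) (nat_lit 15183617045) (nat_lit 152) (nat_lit 2992655050) (nat_lit 228) (nat_lit 5748298862) (nat_lit 37) (nat_lit 5) (nat_lit 39) (nat_lit 5) (nat_lit 40) (nat_lit 5) (nat_lit 293) (nat_lit 246) (nat_lit 181))) (XT.nd (nat_lit 78) (nat_lit 152) (nat_lit 0) (XT.lf (nat_lit 0) (nat_lit 306854034) (nat_lit 228) (nat_lit 18351639070) (nat_lit 76) (nat_lit 6167799110) (nat_lit 34) (nat_lit 5) (nat_lit 37) (nat_lit 5)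 (nat_lit 35) (nat_lit 5) (nat_lit 294) (nat_lit 246) (nat_lit 180)) (XT.nd (nat_lit 78) (nat_lit 152) (nat_lit 0) (XT.lf (nat_lit 0) (nat_lit 6632634903) (nat_lit 228) (nat_lit 3283271875) (nat_lit 76) (nat_lit 15852912006) (nat_lit 34) (nat_lit 5) (nat_lit 37) (nat_lit 5) (nat_lit 35) (nat_lit 5) (nat_lit 295) (nat_lit 246) (nat_lit 179)) (XT.lf (nat_lit 0) (nat_lit 12732244606) (nat_lit 152) (nat_lit 631109329) (nat_lit 228) (nat_lit 13392486165) (nat_lit 32) (nat_lit 5) (nat_lit 34) (nat_lit 5) (nat_lit 35) (nat_lit 5) (nat_lit 296) (nat_lit 246) (nat_lit 178))))) (XT.nd (nat_lit 234) (nat_lit 152) (nat_lit 0) (XT.nd (nat_lit 78) (nat_lit 228) (nat_lit 0) (XT.lf (nat_lit 0) (nat_lit 1717521139) (nat_lit 152) (nat_lit 18818535420) (nat_lit 228) (nat_lit 7253019057) (nat_lit 30) (nat_lit 5) (nat_lit 32) (nat_lit 5) (nat_lit 33) (nat_lit 5) (nat_lit 297) (nat_lit 246) (nat_lit 177)) (XT.nd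 (nat_lit 78) (nat_lit 228) (nat_lit 0) (XT.lf (nat_lit 0) (nat_lit 18479834331) (nat_lit 152) (nat_lit 9706445744) (nat_lit 228) (nat_lit 684151558) (nat_lit 30) (nat_lit 5) (nat_lit 32) (nat_lit 5) (nat_lit 33) (nat_lit 5) (nat_lit 298) (nat_lit 246) (nat_lit 176)) (XT.lf (nat_lit 0) (nat_lit 6082830198) (nat_lit 152) (nat_lit 36967742) (nat_lit 228) (nat_lit 23883452770) (nat_lit 27) (nat_lit 5) (nat_lit 29) (nat_lit 5) (nat_lit 30) (nat_lit 5) (nat_lit 299) (nat_lit 246) (nat_lit 175)))) (XT.nd (nat_lit 78) (nat_lit 152) (nat_lit 0) (XT.lf (nat_lit 0) (nat_lit 13425394468) (nat_lit 228) (nat_lit 7747470098) (nat_lit 76) (nat_lit 10014397273) (nat_lit 27) (nat_lit 5) (nat_lit 30) (nat_lit 5) (nat_lit 28) (nat_lit 5) (nat_lit 300) (nat_lit 246) (nat_lit 174)) (XT.nd (nat_lit 78) (nat_lit 0) (nat_lit 0) (XT.lf (nat_lit 0) (nat_lit 9369127906) (nat_lit 152) (nat_lit 11789201866) (nat_lit 228)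 (nat_lit 11270303203) (nat_lit 25) (nat_lit 5) (nat_lit 27) (nat_lit 5) (nat_lit 28) (nat_lit 5) (nat_lit 301) (nat_lit 246) (nat_lit 173)) (XT.lf (nat_lit 0) (nat_lit 27457363121) (nat_lit 152) (nat_lit 1872834298) (nat_lit 228) (nat_lit 4400326887) (nat_lit 25) (nat_lit 5) (nat_lit 27) (nat_lit 5) (nat_lit 28) (nat_lit 5) (nat_lit 302) (nat_lit 246) (nat_lit 172))))))))
noncomputable def xc63 : XT := (XT.nd (nat_lit 1716) (nat_lit 152) (nat_lit 0) (XT.nd (nat_lit 858) (nat_lit 532) (nat_lit 0) (XT.nd (nat_lit 390) (nat_lit 304) (nat_lit 0) (XT.nd (nat_lit 156) (nat_lit 228) (nat_lit 0) (XT.nd (nat_lit 78) (nat_lit 0) (nat_lit 0) (XT.lf (nat_lit 0) (nat_lit 2925689282) (nat_lit 152) (nat_lit 23671937479) (nat_lit 76) (nat_lit 8494067804) (nat_lit 23) (nat_lit 5) (nat_lit 25) (nat_lit 5) (nat_lit 24) (nat_lit 5) (nat_lit 303) (nat_lit 246) (nat_lit 171)) (XT.lf (nat_lit 0) (nat_lit 10586203089)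 (nat_lit 152) (nat_lit 6498314820) (nat_lit 76) (nat_lit 19433340125) (nat_lit 23) (nat_lit 5) (nat_lit 25) (nat_lit 5) (nat_lit 24) (nat_lit 5) (nat_lit 304) (nat_lit 246) (nat_lit 170))) (XT.nd (nat_lit 78) (nat_lit 76) (nat_lit 0) (XT.lf (nat_lit 0) (nat_lit 11721008285) (nat_lit 152) (nat_lit 6996867960) (nat_lit 228) (nat_lit 19294826368) (nat_lit 21) (nat_lit 5) (nat_lit 23) (nat_lit 5) (nat_lit 24) (nat_lit 5) (nat_lit 305) (nat_lit 246) (nat_lit 169)) (XT.nd (nat_lit 78) (nat_lit 76) (nat_lit 0) (XT.lf (nat_lit 0) (nat_lit 27334330906) (nat_lit 228) (nat_lit 8669482933) (nat_lit 76) (nat_lit 3576145787) (nat_lit 21) (nat_lit 5) (nat_lit 24) (nat_lit 5) (nat_lit 22) (nat_lit 4) (nat_lit 306) (nat_lit 246) (nat_lit 168)) (XT.lf (nat_lit 0) (nat_lit 9917630143) (nat_lit 76) (nat_lit 26607154698) (nat_lit 152) (nat_lit 4696514722) (nat_lit 20) (nat_lit 5) (nat_lit 21) (nat_lit 5) (nat_lit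 22) (nat_lit 4) (nat_lit 307) (nat_lit 246) (nat_lit 167))))) (XT.nd (nat_lit 234) (nat_lit 76) (nat_lit 0) (XT.nd (nat_lit 78) (nat_lit 152) (nat_lit 0) (XT.lf (nat_lit 0) (nat_lit 3234861099) (nat_lit 152) (nat_lit 13397149561) (nat_lit 76) (nat_lit 26309743491) (nat_lit 19) (nat_lit 5) (nat_lit 21) (nat_lit 5) (nat_lit 20) (nat_lit 5) (nat_lit 308) (nat_lit 246) (nat_lit 166)) (XT.nd (nat_lit 78) (nat_lit 0) (nat_lit 0) (XT.lf (nat_lit 0) (nat_lit 5426563025) (nat_lit 152) (nat_lit 6070947289) (nat_lit 228) (nat_lit 33248384612) (nat_lit 17) (nat_lit 5) (nat_lit 19) (nat_lit 5) (nat_lit 20) (nat_lit 5) (nat_lit 309) (nat_lit 246) (nat_lit 165)) (XT.lf (nat_lit 0) (nat_lit 20340101124) (nat_lit 228) (nat_lit 21250343979) (nat_lit 76) (nat_lit 5044806255) (nat_lit 17) (nat_lit 5) (nat_lit 20) (nat_lit 5) (nat_lit 18) (nat_lit 4) (nat_lit 310) (nat_lit 246) (nat_lit 164)))) (XT.nd (nat_lit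 78) (nat_lit 76) (nat_lit 0) (XT.lf (nat_lit 0) (nat_lit 29666377133) (nat_lit 228) (nat_lit 2373522851) (nat_lit 76) (nat_lit 16577941236) (nat_lit 17) (nat_lit 5) (nat_lit 20) (nat_lit 5) (nat_lit 18) (nat_lit 4) (nat_lit 311) (nat_lit 246) (nat_lit 163)) (XT.nd (nat_lit 78) (nat_lit 0) (nat_lit 0) (XT.lf (nat_lit 0) (nat_lit 17761015335) (nat_lit 76) (nat_lit 21849900510) (nat_lit 152) (nat_lit 11084097955) (nat_lit 16) (nat_lit 5) (nat_lit 17) (nat_lit 5) (nat_lit 18) (nat_lit 4) (nat_lit 312) (nat_lit 246) (nat_lit 162)) (XT.lf (nat_lit 0) (nat_lit 38920112191) (nat_lit 76) (nat_lit 11138810738) (nat_lit 152) (nat_lit 2816945974) (nat_lit 16) (nat_lit 5) (nat_lit 17) (nat_lit 5) (nat_lit 18) (nat_lit 4) (nat_lit 313) (nat_lit 246) (nat_lit 161)))))) (XT.nd (nat_lit 390) (nat_lit 228) (nat_lit 0) (XT.nd (nat_lit 156) (nat_lit 76) (nat_lit 0) (XT.nd (nat_lit 78) (nat_lit 0) (nat_lit 0)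 (XT.lf (nat_lit 0) (nat_lit 5791367024) (nat_lit 228) (nat_lit 49163389893) (nat_lit 76) (nat_lit 208062536) (nat_lit 13) (nat_lit 5) (nat_lit 16) (nat_lit 5) (nat_lit 14) (nat_lit 4) (nat_lit 314) (nat_lit 246) (nat_lit 160)) (XT.lf (nat_lit 0) (nat_lit 15012807274) (nat_lit 228) (nat_lit 30488211582) (nat_lit 76) (nat_lit 12055042653) (nat_lit 13) (nat_lit 5) (nat_lit 16) (nat_lit 5) (nat_lit 14) (nat_lit 4) (nat_lit 315) (nat_lit 246) (nat_lit 159))) (XT.nd (nat_lit 78) (nat_lit 76) (nat_lit 0) (XT.lf (nat_lit 0) (nat_lit 24679050474) (nat_lit 228) (nat_lit 10907971596) (nat_lit 76) (nat_lit 24482441010) (nat_lit 13) (nat_lit 5) (nat_lit 16) (nat_lit 5) (nat_lit 14) (nat_lit 4) (nat_lit 316) (nat_lit 246) (nat_lit 158)) (XT.nd (nat_lit 78) (nat_lit 0) (nat_lit 0) (XT.lf (nat_lit 0) (nat_lit 9815485152) (nat_lit 76) (nat_lit 25091978785) (nat_lit 152) (nat_lit 27798713945) (nat_lit 12)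 (nat_lit 5) (nat_lit 13) (nat_lit 5) (nat_lit 14) (nat_lit 4) (nat_lit 317) (nat_lit 246) (nat_lit 157)) (XT.lf (nat_lit 0) (nat_lit 31776511987) (nat_lit 76) (nat_lit 13968062322) (nat_lit 152) (nat_lit 19727244298) (nat_lit 12) (nat_lit 5) (nat_lit 13) (nat_lit 5) (nat_lit 14) (nat_lit 4) (nat_lit 318) (nat_lit 246) (nat_lit 156))))) (XT.nd (nat_lit 234) (nat_lit 76) (nat_lit 0) (XT.nd (nat_lit 78) (nat_lit 152) (nat_lit 0) (XT.lf (nat_lit 0) (nat_lit 54810307044) (nat_lit 76) (nat_lit 2298936292) (nat_lit 152) (nat_lit 11266935008) (nat_lit 12) (nat_lit 5) (nat_lit 13) (nat_lit 5) (nat_lit 14) (nat_lit 4) (nat_lit 319) (nat_lit 246) (nat_lit 155)) (XT.nd (nat_lit 78) (nat_lit 76) (nat_lit 0) (XT.lf (nat_lit 0) (nat_lit 7598229323) (nat_lit 76) (nat_lit 61598919216) (nat_lit 76) (nat_lit 2223965130) (nat_lit 11) (nat_lit 4) (nat_lit 12) (nat_lit 5) (nat_lit 12) (nat_lit 4) (nat_lit 320)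 (nat_lit 246) (nat_lit 154)) (XT.lf (nat_lit 0) (nat_lit 7280071896) (nat_lit 152) (nat_lit 44628535532) (nat_lit 76) (nat_lit 22703074443) (nat_lit 10) (nat_lit 5) (nat_lit 12) (nat_lit 5) (nat_lit 11) (nat_lit 4) (nat_lit 321) (nat_lit 246) (nat_lit 153)))) (XT.nd (nat_lit 78) (nat_lit 76) (nat_lit 0) (XT.lf (nat_lit 0) (nat_lit 17200952836) (nat_lit 152) (nat_lit 24519744742) (nat_lit 76) (nat_lit 36240797974) (nat_lit 10) (nat_lit 5) (nat_lit 12) (nat_lit 5) (nat_lit 11) (nat_lit 4) (nat_lit 322) (nat_lit 246) (nat_lit 152)) (XT.nd (nat_lit 78) (nat_lit 76) (nat_lit 0) (XT.lf (nat_lit 0) (nat_lit 27605696407) (nat_lit 152) (nat_lit 3427255788) (nat_lit 76) (nat_lit 50446219610) (nat_lit 10) (nat_lit 5) (nat_lit 12) (nat_lit 5) (nat_lit 11) (nat_lit 4) (nat_lit 323) (nat_lit 246) (nat_lit 151)) (XT.lf (nat_lit 0) (nat_lit 19071301320) (nat_lit 76) (nat_lit 19631099501) (nat_lit 152) (nat_lit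 46465185477) (nat_lit 9) (nat_lit 5) (nat_lit 10) (nat_lit 5) (nat_lit 11) (nat_lit 4) (nat_lit 324) (nat_lit 246) (nat_lit 150))))))) (XT.nd (nat_lit 31824) (nat_lit 0) (nat_lit 10944) (XT.nd (nat_lit 390) (nat_lit 76) (nat_lit 0) (XT.nd (nat_lit 156) (nat_lit 76) (nat_lit 0) (XT.nd (nat_lit 78) (nat_lit 0) (nat_lit 0) (XT.lf (nat_lit 0) (nat_lit 42746293314) (nat_lit 76) (nat_lit 7631685479) (nat_lit 152) (nat_lit 38661727419) (nat_lit 9) (nat_lit 5) (nat_lit 10) (nat_lit 5) (nat_lit 11) (nat_lit 4) (nat_lit 325) (nat_lit 246) (nat_lit 149)) (XT.lf (nat_lit 0) (nat_lit 62674300127) (nat_lit 152) (nat_lit 25567550142) (nat_lit 0) (nat_lit 4862478484) (nat_lit 9) (nat_lit 5) (nat_lit 11) (nat_lit 4) (nat_lit 9) (nat_lit 4) (nat_lit 326) (nat_lit 246) (nat_lit 148))) (XT.nd (nat_lit 78) (nat_lit 76) (nat_lit 0) (XT.lf (nat_lit 0) (nat_lit 75652191597) (nat_lit 152) (nat_lit 3900899236) (nat_lit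 0) (nat_lit 17817094267) (nat_lit 9) (nat_lit 5) (nat_lit 11) (nat_lit 4) (nat_lit 9) (nat_lit 4) (nat_lit 327) (nat_lit 246) (nat_lit 147)) (XT.nd (nat_lit 78) (nat_lit 0) (nat_lit 0) (XT.lf (nat_lit 0) (nat_lit 19206271037) (nat_lit 76) (nat_lit 70247543904) (nat_lit 76) (nat_lit 12390279254) (nat_lit 8) (nat_lit 4) (nat_lit 9) (nat_lit 5) (nat_lit 9) (nat_lit 4) (nat_lit 328) (nat_lit 246) (nat_lit 146)) (XT.lf (nat_lit 0) (nat_lit 43533224849) (nat_lit 76) (nat_lit 60442967452) (nat_lit 76) (nat_lit 2564591068) (nat_lit 8) (nat_lit 4) (nat_lit 9) (nat_lit 5) (nat_lit 9) (nat_lit 4) (nat_lit 329) (nat_lit 246) (nat_lit 145))))) (XT.nd (nat_lit 31200) (nat_lit 0) (nat_lit 17252) (XT.nd (nat_lit 31044) (nat_lit 0) (nat_lit 17936) (XT.lf (nat_lit 0) (nat_lit 7591978851) (nat_lit 152) (nat_lit 42486765729) (nat_lit 76) (nat_lit 61391605023) (nat_lit 7) (nat_lit 5) (nat_lit 9) (nat_lit 5) (nat_lit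 8) (nat_lit 4) (nat_lit 330) (nat_lit 246) (nat_lit 144)) (XT.nd (nat_lit 78) (nat_lit 684) (nat_lit 0) (XT.lf (nat_lit 0) (nat_lit 3079225545) (nat_lit 684) (nat_lit 217527156) (nat_lit 684) (nat_lit 217527156) (nat_lit 252) (nat_lit 3) (nat_lit 261) (nat_lit 3) (nat_lit 261) (nat_lit 5) (nat_lit 247) (nat_lit 247) (nat_lit 226)) (XT.lf (nat_lit 0) (nat_lit 1890796778) (nat_lit 684) (nat_lit 2273341811) (nat_lit 760) (nat_lit 2951216934) (nat_lit 243) (nat_lit 5) (nat_lit 252) (nat_lit 3) (nat_lit 253) (nat_lit 5) (nat_lit 248) (nat_lit 247) (nat_lit 225)))) (XT.nd (nat_lit 78) (nat_lit 684) (nat_lit 0) (XT.lf (nat_lit 76) (nat_lit 3143819954) (nat_lit 0) (nat_lit 1487974228) (nat_lit 760) (nat_lit 2579035245) (nat_lit 244) (nat_lit 5) (nat_lit 243) (nat_lit 5) (nat_lit 253) (nat_lit 5) (nat_lit 249) (nat_lit 247) (nat_lit 224)) (XT.nd (nat_lit 78) (nat_lit 0) (nat_lit 0) (XT.lf (nat_lit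 0) (nat_lit 77308747) (nat_lit 760) (nat_lit 5828437832) (nat_lit 836) (nat_lit 1409168462) (nat_lit 234) (nat_lit 5) (nat_lit 244) (nat_lit 5) (nat_lit 245) (nat_lit 5) (nat_lit 250) (nat_lit 247) (nat_lit 223)) (XT.lf (nat_lit 0) (nat_lit 2709322112) (nat_lit 760) (nat_lit 160344789) (nat_lit 836) (nat_lit 4557236760) (nat_lit 234) (nat_lit 5) (nat_lit 244) (nat_lit 5) (nat_lit 245) (nat_lit 5) (nat_lit 251) (nat_lit 247) (nat_lit 222)))))) (XT.nd (nat_lit 468) (nat_lit 4712) (nat_lit 0) (XT.nd (nat_lit 234) (nat_lit 836) (nat_lit 0) (XT.nd (nat_lit 78) (nat_lit 836) (nat_lit 0) (XT.lf (nat_lit 0) (nat_lit 5379071931) (nat_lit 760) (nat_lit 1741281621) (nat_lit 836) (nat_lit 427287891) (nat_lit 235) (nat_lit 5) (nat_lit 245) (nat_lit 5) (nat_lit 246) (nat_lit 5) (nat_lit 252) (nat_lit 247) (nat_lit 221)) (XT.nd (nat_lit 78) (nat_lit 0) (nat_lit 0) (XT.lf (nat_lit 0) (nat_lit 422561174)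 (nat_lit 836) (nat_lit 3321082436) (nat_lit 912) (nat_lit 3933197323) (nat_lit 224) (nat_lit 5) (nat_lit 235) (nat_lit 5) (nat_lit 236) (nat_lit 5) (nat_lit 253) (nat_lit 247) (nat_lit 220)) (XT.lf (nat_lit 76) (nat_lit 2920170556) (nat_lit 0) (nat_lit 82307048) (nat_lit 912) (nat_lit 4812550258) (nat_lit 225) (nat_lit 5) (nat_lit 224) (nat_lit 5) (nat_lit 236) (nat_lit 5) (nat_lit 254) (nat_lit 247) (nat_lit 219)))) (XT.nd (nat_lit 78) (nat_lit 912) (nat_lit 0) (XT.lf (nat_lit 76) (nat_lit 1477277997) (nat_lit 0) (nat_lit 4182782308) (nat_lit 912) (nat_lit 2301883674) (nat_lit 226) (nat_lit 5) (nat_lit 225) (nat_lit 5) (nat_lit 237) (nat_lit 5) (nat_lit 255) (nat_lit 247) (nat_lit 218)) (XT.nd (nat_lit 78) (nat_lit 0) (nat_lit 76) (XT.lf (nat_lit 76) (nat_lit 53216578) (nat_lit 0) (nat_lit 194594422) (nat_lit 988) (nat_lit 7870956794) (nat_lit 214) (nat_lit 5) (nat_lit 213) (nat_lit 5) (nat_lit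 226) (nat_lit 5) (nat_lit 256) (nat_lit 247) (nat_lit 217)) (XT.lf (nat_lit 0) (nat_lit 2857081824) (nat_lit 912) (nat_lit 1390609405) (nat_lit 76) (nat_lit 4035913438) (nat_lit 214) (nat_lit 5) (nat_lit 226) (nat_lit 5) (nat_lit 215) (nat_lit 5) (nat_lit 257) (nat_lit 247) (nat_lit 216))))) (XT.nd (nat_lit 234) (nat_lit 1748) (nat_lit 0) (XT.nd (nat_lit 78) (nat_lit 2128) (nat_lit 0) (XT.lf (nat_lit 0) (nat_lit 5533327695) (nat_lit 988) (nat_lit 2829433001) (nat_lit 76) (nat_lit 96062133) (nat_lit 202) (nat_lit 5) (nat_lit 215) (nat_lit 5) (nat_lit 203) (nat_lit 5) (nat_lit 258) (nat_lit 247) (nat_lit 215)) (XT.nd (nat_lit 78) (nat_lit 1140) (nat_lit 0) (XT.lf (nat_lit 0) (nat_lit 4331794548) (nat_lit 988) (nat_lit 3995109243) (nat_lit 1064) (nat_lit 316616181) (nat_lit 189) (nat_lit 5) (nat_lit 202) (nat_lit 5) (nat_lit 203) (nat_lit 5) (nat_lit 259) (nat_lit 247) (nat_lit 214)) (XT.lf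 (nat_lit 0) (nat_lit 2328278268) (nat_lit 1140) (nat_lit 5832836412) (nat_lit 76) (nat_lit 677259978) (nat_lit 174) (nat_lit 5) (nat_lit 189) (nat_lit 5) (nat_lit 175) (nat_lit 5) (nat_lit 260) (nat_lit 247) (nat_lit 213)))) (XT.nd (nat_lit 78) (nat_lit 608) (nat_lit 0) (XT.lf (nat_lit 0) (nat_lit 1627671191) (nat_lit 1140) (nat_lit 3464464772) (nat_lit 1216) (nat_lit 3951140984) (nat_lit 159) (nat_lit 5) (nat_lit 174) (nat_lit 5) (nat_lit 175) (nat_lit 5) (nat_lit 261) (nat_lit 247) (nat_lit 212)) (XT.nd (nat_lit 78) (nat_lit 76) (nat_lit 0) (XT.lf (nat_lit 0) (nat_lit 218186321) (nat_lit 532) (nat_lit 7749549697) (nat_lit 608) (nat_lit 1291669387) (nat_lit 152) (nat_lit 5) (nat_lit 159) (nat_lit 5) (nat_lit 160) (nat_lit 5) (nat_lit 262) (nat_lit 247) (nat_lit 211)) (XT.lf (nat_lit 0) (nat_lit 1483109497) (nat_lit 608) (nat_lit 1242780540) (nat_lit 76) (nat_lit 6759842285) (nat_lit 151)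 (nat_lit 5) (nat_lit 159) (nat_lit 5) (nat_lit 152) (nat_lit 5) (nat_lit 263) (nat_lit 247) (nat_lit 210))))))))
noncomputable def xc64 : XT := (XT.nd (nat_lit 1716) (nat_lit 2584) (nat_lit 0) (XT.nd (nat_lit 858) (nat_lit 2584) (nat_lit 0) (XT.nd (nat_lit 390) (nat_lit 2052) (nat_lit 0) (XT.nd (nat_lit 156) (nat_lit 1520) (nat_lit 0) (XT.nd (nat_lit 78) (nat_lit 532) (nat_lit 0) (XT.lf (nat_lit 0) (nat_lit 4366886603) (nat_lit 684) (nat_lit 2773244562) (nat_lit 76) (nat_lit 2583116713) (nat_lit 143) (nat_lit 5) (nat_lit 152) (nat_lit 5) (nat_lit 144) (nat_lit 5) (nat_lit 264) (nat_lit 247) (nat_lit 209)) (XT.lf (nat_lit 0) (nat_lit 5594810907) (nat_lit 532) (nat_lit 1802307319) (nat_lit 608) (nat_lit 2575610300) (nat_lit 136) (nat_lit 5) (nat_lit 143) (nat_lit 5) (nat_lit 144) (nat_lit 5) (nat_lit 265) (nat_lit 247) (nat_lit 208))) (XT.nd (nat_lit 78) (nat_lit 912) (nat_lit 0) (XT.lf (nat_lit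 0) (nat_lit 354367044) (nat_lit 608) (nat_lit 6081117074) (nat_lit 76) (nat_lit 3798738115) (nat_lit 128) (nat_lit 5) (nat_lit 136) (nat_lit 5) (nat_lit 129) (nat_lit 5) (nat_lit 266) (nat_lit 247) (nat_lit 207)) (XT.nd (nat_lit 78) (nat_lit 456) (nat_lit 0) (XT.lf (nat_lit 0) (nat_lit 2608824019) (nat_lit 456) (nat_lit 771936114) (nat_lit 532) (nat_lit 7127308432) (nat_lit 122) (nat_lit 5) (nat_lit 128) (nat_lit 5) (nat_lit 129) (nat_lit 5) (nat_lit 267) (nat_lit 247) (nat_lit 206)) (XT.lf (nat_lit 0) (nat_lit 942552875) (nat_lit 456) (nat_lit 5655025483) (nat_lit 532) (nat_lit 4196987600) (nat_lit 116) (nat_lit 5) (nat_lit 122) (nat_lit 5) (nat_lit 123) (nat_lit 5) (nat_lit 268) (nat_lit 247) (nat_lit 205))))) (XT.nd (nat_lit 234) (nat_lit 1140) (nat_lit 0) (XT.nd (nat_lit 78) (nat_lit 912) (nat_lit 0) (XT.lf (nat_lit 0) (nat_lit 9987415966) (nat_lit 532) (nat_lit 804097307) (nat_lit 76)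 (nat_lit 303635222) (nat_lit 116) (nat_lit 5) (nat_lit 123) (nat_lit 5) (nat_lit 117) (nat_lit 5) (nat_lit 269) (nat_lit 247) (nat_lit 204)) (XT.nd (nat_lit 78) (nat_lit 456) (nat_lit 0) (XT.lf (nat_lit 0) (nat_lit 2159630207) (nat_lit 456) (nat_lit 2708278020) (nat_lit 76) (nat_lit 6540392352) (nat_lit 110) (nat_lit 5) (nat_lit 116) (nat_lit 5) (nat_lit 111) (nat_lit 5) (nat_lit 270) (nat_lit 247) (nat_lit 203)) (XT.lf (nat_lit 0) (nat_lit 5582882313) (nat_lit 532) (nat_lit 4752571135) (nat_lit 76) (nat_lit 1400975494) (nat_lit 104) (nat_lit 5) (nat_lit 111) (nat_lit 5) (nat_lit 105) (nat_lit 5) (nat_lit 271) (nat_lit 247) (nat_lit 202)))) (XT.nd (nat_lit 78) (nat_lit 760) (nat_lit 0) (XT.lf (nat_lit 0) (nat_lit 5100974475) (nat_lit 380) (nat_lit 4131099403) (nat_lit 456) (nat_lit 2847351900) (nat_lit 99) (nat_lit 5) (nat_lit 104) (nat_lit 5) (nat_lit 105) (nat_lit 5) (nat_lit 272) (nat_lit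 247) (nat_lit 201)) (XT.nd (nat_lit 78) (nat_lit 304) (nat_lit 0) (XT.lf (nat_lit 0) (nat_lit 644835749) (nat_lit 456) (nat_lit 9386091124) (nat_lit 76) (nat_lit 2407577134) (nat_lit 93) (nat_lit 5) (nat_lit 99) (nat_lit 5) (nat_lit 94) (nat_lit 5) (nat_lit 273) (nat_lit 247) (nat_lit 200)) (XT.lf (nat_lit 0) (nat_lit 776522507) (nat_lit 304) (nat_lit 3531129058) (nat_lit 380) (nat_lit 8505484424) (nat_lit 89) (nat_lit 5) (nat_lit 93) (nat_lit 5) (nat_lit 94) (nat_lit 5) (nat_lit 274) (nat_lit 247) (nat_lit 199)))))) (XT.nd (nat_lit 390) (nat_lit 1216) (nat_lit 0) (XT.nd (nat_lit 156) (nat_lit 988) (nat_lit 0) (XT.nd (nat_lit 78) (nat_lit 380) (nat_lit 0) (XT.lf (nat_lit 0) (nat_lit 8217745789) (nat_lit 380) (nat_lit 1677001688) (nat_lit 76) (nat_lit 3309916332) (nat_lit 89) (nat_lit 5) (nat_lit 94) (nat_lit 5) (nat_lit 90) (nat_lit 5) (nat_lit 275) (nat_lit 247) (nat_lit 198)) (XT.lf (nat_lit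 0) (nat_lit 9265572010) (nat_lit 380) (nat_lit 3120478436) (nat_lit 456) (nat_lit 1227920556) (nat_lit 84) (nat_lit 5) (nat_lit 89) (nat_lit 5) (nat_lit 90) (nat_lit 5) (nat_lit 276) (nat_lit 247) (nat_lit 197))) (XT.nd (nat_lit 78) (nat_lit 608) (nat_lit 0) (XT.lf (nat_lit 0) (nat_lit 2727323577) (nat_lit 380) (nat_lit 7307848741) (nat_lit 76) (nat_lit 4006024300) (nat_lit 79) (nat_lit 5) (nat_lit 84) (nat_lit 5) (nat_lit 80) (nat_lit 5) (nat_lit 277) (nat_lit 247) (nat_lit 196)) (XT.nd (nat_lit 78) (nat_lit 304) (nat_lit 0) (XT.lf (nat_lit 0) (nat_lit 3925333126) (nat_lit 304) (nat_lit 2985765881) (nat_lit 380) (nat_lit 7576708957) (nat_lit 75) (nat_lit 5) (nat_lit 79) (nat_lit 5) (nat_lit 80) (nat_lit 5) (nat_lit 278) (nat_lit 247) (nat_lit 195)) (XT.lf (nat_lit 0) (nat_lit 813202966) (nat_lit 304) (nat_lit 10560455995) (nat_lit 380) (nat_lit 3581073625) (nat_lit 71) (nat_lit 5) (nat_lit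 75) (nat_lit 5) (nat_lit 76) (nat_lit 5) (nat_lit 279) (nat_lit 247) (nat_lit 194))))) (XT.nd (nat_lit 234) (nat_lit 608) (nat_lit 0) (XT.nd (nat_lit 78) (nat_lit 532) (nat_lit 0) (XT.lf (nat_lit 0) (nat_lit 687018181) (nat_lit 380) (nat_lit 2577267691) (nat_lit 76) (nat_lit 12178065781) (nat_lit 70) (nat_lit 5) (nat_lit 75) (nat_lit 5) (nat_lit 71) (nat_lit 5) (nat_lit 280) (nat_lit 247) (nat_lit 193)) (XT.nd (nat_lit 78) (nat_lit 228) (nat_lit 0) (XT.lf (nat_lit 0) (nat_lit 5178539766) (nat_lit 380) (nat_lit 6351356619) (nat_lit 76) (nat_lit 4420931139) (nat_lit 66) (nat_lit 5) (nat_lit 71) (nat_lit 5) (nat_lit 67) (nat_lit 5) (nat_lit 281) (nat_lit 247) (nat_lit 192)) (XT.lf (nat_lit 0) (nat_lit 5965742232) (nat_lit 228) (nat_lit 3994963208) (nat_lit 304) (nat_lit 6522098902) (nat_lit 63) (nat_lit 5) (nat_lit 66) (nat_lit 5) (nat_lit 67) (nat_lit 5) (nat_lit 282) (nat_lit 247) (nat_lit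 191)))) (XT.nd (nat_lit 78) (nat_lit 304) (nat_lit 0) (XT.lf (nat_lit 0) (nat_lit 1919471966) (nat_lit 304) (nat_lit 13135168857) (nat_lit 380) (nat_lit 1984615711) (nat_lit 59) (nat_lit 5) (nat_lit 63) (nat_lit 5) (nat_lit 64) (nat_lit 5) (nat_lit 283) (nat_lit 247) (nat_lit 190)) (XT.nd (nat_lit 78) (nat_lit 228) (nat_lit 0) (XT.lf (nat_lit 0) (nat_lit 2826848797) (nat_lit 380) (nat_lit 2561437014) (nat_lit 76) (nat_lit 12231455535) (nat_lit 58) (nat_lit 5) (nat_lit 63) (nat_lit 5) (nat_lit 59) (nat_lit 5) (nat_lit 284) (nat_lit 247) (nat_lit 189)) (XT.lf (nat_lit 0) (nat_lit 7922936863) (nat_lit 304) (nat_lit 7507161741) (nat_lit 76) (nat_lit 2796059093) (nat_lit 55) (nat_lit 5) (nat_lit 59) (nat_lit 5) (nat_lit 56) (nat_lit 5) (nat_lit 285) (nat_lit 247) (nat_lit 188))))))) (XT.nd (nat_lit 858) (nat_lit 988) (nat_lit 0) (XT.nd (nat_lit 390) (nat_lit 684) (nat_lit 0) (XT.nd (nat_lit 156)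 (nat_lit 456) (nat_lit 0) (XT.nd (nat_lit 78) (nat_lit 228) (nat_lit 0) (XT.lf (nat_lit 0) (nat_lit 5847804435) (nat_lit 228) (nat_lit 7518605646) (nat_lit 304) (nat_lit 5493754645) (nat_lit 52) (nat_lit 5) (nat_lit 55) (nat_lit 5) (nat_lit 56) (nat_lit 5) (nat_lit 286) (nat_lit 247) (nat_lit 187)) (XT.lf (nat_lit 0) (nat_lit 438291388) (nat_lit 228) (nat_lit 18690254856) (nat_lit 304) (nat_lit 395976211) (nat_lit 49) (nat_lit 5) (nat_lit 52) (nat_lit 5) (nat_lit 53) (nat_lit 5) (nat_lit 287) (nat_lit 247) (nat_lit 186))) (XT.nd (nat_lit 78) (nat_lit 380) (nat_lit 0) (XT.lf (nat_lit 0) (nat_lit 5028777899) (nat_lit 304) (nat_lit 5574303259) (nat_lit 76) (nat_lit 9612564856) (nat_lit 48) (nat_lit 5) (nat_lit 52) (nat_lit 5) (nat_lit 49) (nat_lit 5) (nat_lit 288) (nat_lit 247) (nat_lit 185)) (XT.nd (nat_lit 78) (nat_lit 152) (nat_lit 0) (XT.lf (nat_lit 0) (nat_lit 8717661692) (nat_lit 228)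 (nat_lit 2042456662) (nat_lit 304) (nat_lit 10179823293) (nat_lit 45) (nat_lit 5) (nat_lit 48) (nat_lit 5) (nat_lit 49) (nat_lit 5) (nat_lit 289) (nat_lit 247) (nat_lit 184)) (XT.lf (nat_lit 0) (nat_lit 2053804593) (nat_lit 152) (nat_lit 14829491789) (nat_lit 228) (nat_lit 4814035328) (nat_lit 43) (nat_lit 5) (nat_lit 45) (nat_lit 5) (nat_lit 46) (nat_lit 5) (nat_lit 290) (nat_lit 247) (nat_lit 183))))) (XT.nd (nat_lit 234) (nat_lit 228) (nat_lit 0) (XT.nd (nat_lit 78) (nat_lit 380) (nat_lit 0) (XT.lf (nat_lit 0) (nat_lit 913411841) (nat_lit 228) (nat_lit 5279422476) (nat_lit 76) (nat_lit 16296274243) (nat_lit 42) (nat_lit 5) (nat_lit 45) (nat_lit 5) (nat_lit 43) (nat_lit 5) (nat_lit 291) (nat_lit 247) (nat_lit 182)) (XT.nd (nat_lit 78) (nat_lit 152) (nat_lit 0) (XT.lf (nat_lit 0) (nat_lit 6916049956) (nat_lit 304) (nat_lit 13455977443) (nat_lit 76) (nat_lit 2944398791) (nat_lit 39) (nat_lit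 5) (nat_lit 43) (nat_lit 5) (nat_lit 40) (nat_lit 5) (nat_lit 292) (nat_lit 247) (nat_lit 181)) (XT.lf (nat_lit 0) (nat_lit 1595887596) (nat_lit 152) (nat_lit 11720191374) (nat_lit 228) (nat_lit 10866144634) (nat_lit 37) (nat_lit 5) (nat_lit 39) (nat_lit 5) (nat_lit 40) (nat_lit 5) (nat_lit 293) (nat_lit 247) (nat_lit 180)))) (XT.nd (nat_lit 78) (nat_lit 228) (nat_lit 0) (XT.lf (nat_lit 0) (nat_lit 17626783342) (nat_lit 152) (nat_lit 2513533840) (nat_lit 228) (nat_lit 4947897639) (nat_lit 37) (nat_lit 5) (nat_lit 39) (nat_lit 5) (nat_lit 40) (nat_lit 5) (nat_lit 294) (nat_lit 247) (nat_lit 179)) (XT.nd (nat_lit 78) (nat_lit 0) (nat_lit 0) (XT.lf (nat_lit 0) (nat_lit 1359938323) (nat_lit 228) (nat_lit 17586215832) (nat_lit 76) (nat_lit 7089462595) (nat_lit 34) (nat_lit 5) (nat_lit 37) (nat_lit 5) (nat_lit 35) (nat_lit 5) (nat_lit 295) (nat_lit 247) (nat_lit 178)) (XT.lf (nat_lit 0) (nat_lit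 7952591969) (nat_lit 228) (nat_lit 1844573382) (nat_lit 76) (nat_lit 17229627635) (nat_lit 34) (nat_lit 5) (nat_lit 37) (nat_lit 5) (nat_lit 35) (nat_lit 5) (nat_lit 296) (nat_lit 247) (nat_lit 177)))))) (XT.nd (nat_lit 390) (nat_lit 456) (nat_lit 0) (XT.nd (nat_lit 156) (nat_lit 228) (nat_lit 0) (XT.nd (nat_lit 78) (nat_lit 152) (nat_lit 0) (XT.lf (nat_lit 0) (nat_lit 14925773203) (nat_lit 152) (nat_lit 61976672) (nat_lit 228) (nat_lit 13076417309) (nat_lit 32) (nat_lit 5) (nat_lit 34) (nat_lit 5) (nat_lit 35) (nat_lit 5) (nat_lit 297) (nat_lit 247) (nat_lit 176)) (XT.lf (nat_lit 0) (nat_lit 3338696517) (nat_lit 152) (nat_lit 19155113891) (nat_lit 228) (nat_lit 6656049435) (nat_lit 30) (nat_lit 5) (nat_lit 32) (nat_lit 5) (nat_lit 33) (nat_lit 5) (nat_lit 298) (nat_lit 247) (nat_lit 175))) (XT.nd (nat_lit 78) (nat_lit 152) (nat_lit 0) (XT.lf (nat_lit 0) (nat_lit 191749038) (nat_lit 228)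 (nat_lit 9422512894) (nat_lit 76) (nat_lit 20672330549) (nat_lit 29) (nat_lit 5) (nat_lit 32) (nat_lit 5) (nat_lit 30) (nat_lit 5) (nat_lit 299) (nat_lit 247) (nat_lit 174)) (XT.nd (nat_lit 78) (nat_lit 0) (nat_lit 0) (XT.lf (nat_lit 0) (nat_lit 7298148615) (nat_lit 228) (nat_lit 23656622765) (nat_lit 76) (nat_lit 521818489) (nat_lit 27) (nat_lit 5) (nat_lit 30) (nat_lit 5) (nat_lit 28) (nat_lit 5) (nat_lit 300) (nat_lit 247) (nat_lit 173)) (XT.lf (nat_lit 0) (nat_lit 14927839337) (nat_lit 228) (nat_lit 6744895366) (nat_lit 76) (nat_lit 11048333496) (nat_lit 27) (nat_lit 5) (nat_lit 30) (nat_lit 5) (nat_lit 28) (nat_lit 5) (nat_lit 301) (nat_lit 247) (nat_lit 172))))) (XT.nd (nat_lit 234) (nat_lit 152) (nat_lit 0) (XT.nd (nat_lit 78) (nat_lit 152) (nat_lit 0) (XT.lf (nat_lit 0) (nat_lit 11187689951) (nat_lit 152) (nat_lit 11833129727) (nat_lit 228) (nat_lit 11004515858) (nat_lit 25) (nat_lit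 5) (nat_lit 27) (nat_lit 5) (nat_lit 28) (nat_lit 5) (nat_lit 302) (nat_lit 247) (nat_lit 171)) (XT.nd (nat_lit 78) (nat_lit 152) (nat_lit 0) (XT.lf (nat_lit 0) (nat_lit 30116046182) (nat_lit 152) (nat_lit 1446921505) (nat_lit 228) (nat_lit 3830531322) (nat_lit 25) (nat_lit 5) (nat_lit 27) (nat_lit 5) (nat_lit 28) (nat_lit 5) (nat_lit 303) (nat_lit 247) (nat_lit 170)) (XT.lf (nat_lit 0) (nat_lit 3826600540) (nat_lit 152) (nat_lit 23573012005) (nat_lit 76) (nat_lit 9423506724) (nat_lit 23) (nat_lit 5) (nat_lit 25) (nat_lit 5) (nat_lit 24) (nat_lit 5) (nat_lit 304) (nat_lit 247) (nat_lit 169)))) (XT.nd (nat_lit 78) (nat_lit 152) (nat_lit 0) (XT.lf (nat_lit 0) (nat_lit 11834205428) (nat_lit 152) (nat_lit 5601780706) (nat_lit 76) (nat_lit 20885707636) (nat_lit 23) (nat_lit 5) (nat_lit 25) (nat_lit 5) (nat_lit 24) (nat_lit 5) (nat_lit 305) (nat_lit 247) (nat_lit 168)) (XT.nd (nat_lit 78) (nat_lit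 0) (nat_lit 0) (XT.lf (nat_lit 0) (nat_lit 13493495940) (nat_lit 152) (nat_lit 6856147625) (nat_lit 228) (nat_lit 19542345211) (nat_lit 21) (nat_lit 5) (nat_lit 23) (nat_lit 5) (nat_lit 24) (nat_lit 5) (nat_lit 306) (nat_lit 247) (nat_lit 167)) (XT.lf (nat_lit 0) (nat_lit 29368275172) (nat_lit 228) (nat_lit 7957175546) (nat_lit 76) (nat_lit 4213039808) (nat_lit 21) (nat_lit 5) (nat_lit 24) (nat_lit 5) (nat_lit 22) (nat_lit 4) (nat_lit 307) (nat_lit 247) (nat_lit 166))))))))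
noncomputable def xc65 : XT := (XT.nd (nat_lit 1716) (nat_lit 0) (nat_lit 0) (XT.nd (nat_lit 858) (nat_lit 304) (nat_lit 0) (XT.nd (nat_lit 390) (nat_lit 380) (nat_lit 0) (XT.nd (nat_lit 156) (nat_lit 152) (nat_lit 0) (XT.nd (nat_lit 78) (nat_lit 76) (nat_lit 0) (XT.lf (nat_lit 0) (nat_lit 11526449586) (nat_lit 76) (nat_lit 27470727711) (nat_lit 152) (nat_lit 4265373840) (nat_lit 20) (nat_lit 5) (nat_lit 21) (nat_lit 5) (nat_lit 22) (nat_lit 4) (nat_lit 308) (nat_lit 247) (nat_lit 165)) (XT.lf (nat_lit 0) (nat_lit 4018481497) (nat_lit 152) (nat_lit 12994293075) (nat_lit 76) (nat_lit 28057014471) (nat_lit 19) (nat_lit 5) (nat_lit 21) (nat_lit 5) (nat_lit 20) (nat_lit 5) (nat_lit 309) (nat_lit 247) (nat_lit 164))) (XT.nd (nat_lit 78) (nat_lit 0) (nat_lit 0) (XT.lf (nat_lit 0) (nat_lit 6739856010) (nat_lit 152) (nat_lit 5934809960) (nat_lit 228) (nat_lit 34290077684) (nat_lit 17) (nat_lit 5)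 (nat_lit 19) (nat_lit 5) (nat_lit 20) (nat_lit 5) (nat_lit 310) (nat_lit 247) (nat_lit 163)) (XT.nd (nat_lit 78) (nat_lit 0) (nat_lit 0) (XT.lf (nat_lit 0) (nat_lit 21934731569) (nat_lit 228) (nat_lit 21306971336) (nat_lit 76) (nat_lit 5707622626) (nat_lit 17) (nat_lit 5) (nat_lit 20) (nat_lit 5) (nat_lit 18) (nat_lit 4) (nat_lit 311) (nat_lit 247) (nat_lit 162)) (XT.lf (nat_lit 0) (nat_lit 31699815407) (nat_lit 228) (nat_lit 1534208668) (nat_lit 76) (nat_lit 17797863115) (nat_lit 17) (nat_lit 5) (nat_lit 20) (nat_lit 5) (nat_lit 18) (nat_lit 4) (nat_lit 312) (nat_lit 247) (nat_lit 161))))) (XT.nd (nat_lit 234) (nat_lit 76) (nat_lit 0) (XT.nd (nat_lit 78) (nat_lit 228) (nat_lit 0) (XT.lf (nat_lit 0) (nat_lit 19579595826) (nat_lit 76) (nat_lit 22544733887) (nat_lit 152) (nat_lit 11089122537) (nat_lit 16) (nat_lit 5) (nat_lit 17) (nat_lit 5) (nat_lit 18) (nat_lit 4) (nat_lit 313) (nat_lit 247)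 (nat_lit 160)) (XT.nd (nat_lit 78) (nat_lit 228) (nat_lit 0) (XT.lf (nat_lit 0) (nat_lit 41752336586) (nat_lit 76) (nat_lit 11317025895) (nat_lit 152) (nat_lit 2434764401) (nat_lit 16) (nat_lit 5) (nat_lit 17) (nat_lit 5) (nat_lit 18) (nat_lit 4) (nat_lit 314) (nat_lit 247) (nat_lit 159)) (XT.lf (nat_lit 0) (nat_lit 6581308228) (nat_lit 228) (nat_lit 50738944271) (nat_lit 76) (nat_lit 585409489) (nat_lit 13) (nat_lit 5) (nat_lit 16) (nat_lit 5) (nat_lit 14) (nat_lit 4) (nat_lit 315) (nat_lit 247) (nat_lit 158)))) (XT.nd (nat_lit 78) (nat_lit 76) (nat_lit 0) (XT.lf (nat_lit 0) (nat_lit 16239993211) (nat_lit 228) (nat_lit 31172036336) (nat_lit 76) (nat_lit 13007265096) (nat_lit 13) (nat_lit 5) (nat_lit 16) (nat_lit 5) (nat_lit 14) (nat_lit 4) (nat_lit 316) (nat_lit 247) (nat_lit 157)) (XT.nd (nat_lit 78) (nat_lit 76) (nat_lit 0) (XT.lf (nat_lit 0) (nat_lit 26366855925) (nat_lit 228) (nat_lit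 10652812247) (nat_lit 76) (nat_lit 26039391927) (nat_lit 13) (nat_lit 5) (nat_lit 16) (nat_lit 5) (nat_lit 14) (nat_lit 4) (nat_lit 317) (nat_lit 247) (nat_lit 156)) (XT.lf (nat_lit 0) (nat_lit 11083869506) (nat_lit 76) (nat_lit 26008683375) (nat_lit 152) (nat_lit 28735494283) (nat_lit 12) (nat_lit 5) (nat_lit 13) (nat_lit 5) (nat_lit 14) (nat_lit 4) (nat_lit 318) (nat_lit 247) (nat_lit 155)))))) (XT.nd (nat_lit 390) (nat_lit 152) (nat_lit 0) (XT.nd (nat_lit 156) (nat_lit 152) (nat_lit 0) (XT.nd (nat_lit 78) (nat_lit 0) (nat_lit 0) (XT.lf (nat_lit 0) (nat_lit 34105918631) (nat_lit 76) (nat_lit 14344661296) (nat_lit 152) (nat_lit 20282029980) (nat_lit 12) (nat_lit 5) (nat_lit 13) (nat_lit 5) (nat_lit 14) (nat_lit 4) (nat_lit 319) (nat_lit 247) (nat_lit 154)) (XT.lf (nat_lit 0) (nat_lit 58256137677) (nat_lit 76) (nat_lit 2107402971) (nat_lit 152) (nat_lit 11419256489) (nat_lit 12) (nat_lit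 5) (nat_lit 13) (nat_lit 5) (nat_lit 14) (nat_lit 4) (nat_lit 320) (nat_lit 247) (nat_lit 153))) (XT.nd (nat_lit 78) (nat_lit 76) (nat_lit 0) (XT.lf (nat_lit 0) (nat_lit 8672217420) (nat_lit 76) (nat_lit 64374109215) (nat_lit 76) (nat_lit 1933948744) (nat_lit 11) (nat_lit 4) (nat_lit 12) (nat_lit 5) (nat_lit 12) (nat_lit 4) (nat_lit 321) (nat_lit 247) (nat_lit 152)) (XT.nd (nat_lit 78) (nat_lit 0) (nat_lit 0) (XT.lf (nat_lit 0) (nat_lit 8018728347) (nat_lit 152) (nat_lit 46191282420) (nat_lit 76) (nat_lit 24120817412) (nat_lit 10) (nat_lit 5) (nat_lit 12) (nat_lit 5) (nat_lit 11) (nat_lit 4) (nat_lit 322) (nat_lit 247) (nat_lit 151)) (XT.lf (nat_lit 0) (nat_lit 18417812723) (nat_lit 152) (nat_lit 25108893990) (nat_lit 76) (nat_lit 38321970489) (nat_lit 10) (nat_lit 5) (nat_lit 12) (nat_lit 5) (nat_lit 11) (nat_lit 4) (nat_lit 323) (nat_lit 247) (nat_lit 150))))) (XT.nd (nat_lit 234) (nat_lit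 76) (nat_lit 0) (XT.nd (nat_lit 78) (nat_lit 76) (nat_lit 0) (XT.lf (nat_lit 0) (nat_lit 29325802413) (nat_lit 152) (nat_lit 2992106207) (nat_lit 76) (nat_lit 53224847368) (nat_lit 10) (nat_lit 5) (nat_lit 12) (nat_lit 5) (nat_lit 11) (nat_lit 4) (nat_lit 324) (nat_lit 247) (nat_lit 149)) (XT.nd (nat_lit 78) (nat_lit 0) (nat_lit 0) (XT.lf (nat_lit 0) (nat_lit 20613993201) (nat_lit 76) (nat_lit 20352829932) (nat_lit 152) (nat_lit 48449092200) (nat_lit 9) (nat_lit 5) (nat_lit 10) (nat_lit 5) (nat_lit 11) (nat_lit 4) (nat_lit 325) (nat_lit 247) (nat_lit 148)) (XT.lf (nat_lit 0) (nat_lit 45444681137) (nat_lit 76) (nat_lit 7765817806) (nat_lit 152) (nat_lit 40271620884) (nat_lit 9) (nat_lit 5) (nat_lit 10) (nat_lit 5) (nat_lit 11) (nat_lit 4) (nat_lit 326) (nat_lit 247) (nat_lit 147)))) (XT.nd (nat_lit 78) (nat_lit 76) (nat_lit 0) (XT.lf (nat_lit 0) (nat_lit 66108967390) (nat_lit 152) (nat_lit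 26304721751) (nat_lit 0) (nat_lit 5336672187) (nat_lit 9) (nat_lit 5) (nat_lit 11) (nat_lit 4) (nat_lit 9) (nat_lit 4) (nat_lit 327) (nat_lit 247) (nat_lit 146)) (XT.nd (nat_lit 78) (nat_lit 76) (nat_lit 0) (XT.lf (nat_lit 0) (nat_lit 79721422374) (nat_lit 152) (nat_lit 3580510009) (nat_lit 0) (nat_lit 18928015437) (nat_lit 9) (nat_lit 5) (nat_lit 11) (nat_lit 4) (nat_lit 9) (nat_lit 4) (nat_lit 328) (nat_lit 247) (nat_lit 145)) (XT.lf (nat_lit 0) (nat_lit 20667243960) (nat_lit 76) (nat_lit 73537046941) (nat_lit 76) (nat_lit 12723533591) (nat_lit 8) (nat_lit 4) (nat_lit 9) (nat_lit 5) (nat_lit 9) (nat_lit 4) (nat_lit 329) (nat_lit 247) (nat_lit 144))))))) (XT.nd (nat_lit 31902) (nat_lit 0) (nat_lit 8664) (XT.nd (nat_lit 31434) (nat_lit 0) (nat_lit 15580) (XT.nd (nat_lit 31200) (nat_lit 0) (nat_lit 17100) (XT.nd (nat_lit 31122) (nat_lit 0) (nat_lit 17860) (XT.lf (nat_lit 0) (nat_lit 46186704541)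 (nat_lit 76) (nat_lit 63252854722) (nat_lit 76) (nat_lit 2420192406) (nat_lit 8) (nat_lit 4) (nat_lit 9) (nat_lit 5) (nat_lit 9) (nat_lit 4) (nat_lit 330) (nat_lit 247) (nat_lit 143)) (XT.lf (nat_lit 0) (nat_lit 1124897754) (nat_lit 0) (nat_lit 1124897754) (nat_lit 684) (nat_lit 1353278755) (nat_lit 243) (nat_lit 5) (nat_lit 243) (nat_lit 3) (nat_lit 252) (nat_lit 3) (nat_lit 248) (nat_lit 248) (nat_lit 224))) (XT.nd (nat_lit 78) (nat_lit 760) (nat_lit 0) (XT.lf (nat_lit 76) (nat_lit 384753572) (nat_lit 0) (nat_lit 6726446871) (nat_lit 760) (nat_lit 194488538) (nat_lit 244) (nat_lit 5) (nat_lit 243) (nat_lit 5) (nat_lit 253) (nat_lit 5) (nat_lit 249) (nat_lit 248) (nat_lit 223)) (XT.nd (nat_lit 78) (nat_lit 0) (nat_lit 0) (XT.lf (nat_lit 0) (nat_lit 2308359963) (nat_lit 760) (nat_lit 1449748060) (nat_lit 836) (nat_lit 3654358823) (nat_lit 233) (nat_lit 5) (nat_lit 243) (nat_lit 5) (nat_lit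 244) (nat_lit 5) (nat_lit 250) (nat_lit 248) (nat_lit 222)) (XT.lf (nat_lit 76) (nat_lit 4290217355) (nat_lit 0) (nat_lit 529690916) (nat_lit 836) (nat_lit 2708323979) (nat_lit 234) (nat_lit 5) (nat_lit 233) (nat_lit 5) (nat_lit 244) (nat_lit 5) (nat_lit 251) (nat_lit 248) (nat_lit 221))))) (XT.nd (nat_lit 234) (nat_lit 760) (nat_lit 0) (XT.nd (nat_lit 78) (nat_lit 836) (nat_lit 0) (XT.lf (nat_lit 76) (nat_lit 2632470320) (nat_lit 0) (nat_lit 4745853644) (nat_lit 836) (nat_lit 274141169) (nat_lit 235) (nat_lit 5) (nat_lit 234) (nat_lit 5) (nat_lit 245) (nat_lit 5) (nat_lit 252) (nat_lit 248) (nat_lit 220)) (XT.nd (nat_lit 78) (nat_lit 0) (nat_lit 76) (XT.lf (nat_lit 76) (nat_lit 983868340) (nat_lit 0) (nat_lit 1159701576) (nat_lit 912) (nat_lit 5641785361) (nat_lit 224) (nat_lit 5) (nat_lit 223) (nat_lit 5) (nat_lit 235) (nat_lit 5) (nat_lit 253) (nat_lit 248) (nat_lit 219)) (XT.lf (nat_lit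 0) (nat_lit 4618060799) (nat_lit 836) (nat_lit 651050764) (nat_lit 912) (nat_lit 2657729972) (nat_lit 224) (nat_lit 5) (nat_lit 235) (nat_lit 5) (nat_lit 236) (nat_lit 5) (nat_lit 254) (nat_lit 248) (nat_lit 218)))) (XT.nd (nat_lit 78) (nat_lit 836) (nat_lit 0) (XT.lf (nat_lit 76) (nat_lit 5820969047) (nat_lit 0) (nat_lit 1333705131) (nat_lit 912) (nat_lit 922842613) (nat_lit 225) (nat_lit 5) (nat_lit 224) (nat_lit 5) (nat_lit 236) (nat_lit 5) (nat_lit 255) (nat_lit 248) (nat_lit 217)) (XT.nd (nat_lit 78) (nat_lit 0) (nat_lit 0) (XT.lf (nat_lit 0) (nat_lit 1502845962) (nat_lit 912) (nat_lit 3888953690) (nat_lit 988) (nat_lit 2845176409) (nat_lit 213) (nat_lit 5) (nat_lit 225) (nat_lit 5) (nat_lit 226) (nat_lit 5) (nat_lit 256) (nat_lit 248) (nat_lit 216)) (XT.lf (nat_lit 76) (nat_lit 2869555857) (nat_lit 0) (nat_lit 1105939994) (nat_lit 988) (nat_lit 4430530244) (nat_lit 214) (nat_lit 5)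 (nat_lit 213) (nat_lit 5) (nat_lit 226) (nat_lit 5) (nat_lit 257) (nat_lit 248) (nat_lit 215)))))) (XT.nd (nat_lit 390) (nat_lit 2812) (nat_lit 0) (XT.nd (nat_lit 156) (nat_lit 3192) (nat_lit 0) (XT.nd (nat_lit 78) (nat_lit 76) (nat_lit 0) (XT.lf (nat_lit 0) (nat_lit 1367521997) (nat_lit 912) (nat_lit 5175680726) (nat_lit 988) (nat_lit 2041406782) (nat_lit 202) (nat_lit 5) (nat_lit 214) (nat_lit 5) (nat_lit 215) (nat_lit 5) (nat_lit 258) (nat_lit 248) (nat_lit 214)) (XT.lf (nat_lit 0) (nat_lit 415314333) (nat_lit 988) (nat_lit 145105231) (nat_lit 76) (nat_lit 8213056828) (nat_lit 201) (nat_lit 5) (nat_lit 214) (nat_lit 5) (nat_lit 202) (nat_lit 5) (nat_lit 259) (nat_lit 248) (nat_lit 213))) (XT.nd (nat_lit 78) (nat_lit 2204) (nat_lit 0) (XT.lf (nat_lit 0) (nat_lit 2959501245) (nat_lit 1064) (nat_lit 1698647313) (nat_lit 76) (nat_lit 4313023146) (nat_lit 188) (nat_lit 5) (nat_lit 202) (nat_lit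 5) (nat_lit 189) (nat_lit 5) (nat_lit 260) (nat_lit 248) (nat_lit 212)) (XT.nd (nat_lit 78) (nat_lit 1140) (nat_lit 0) (XT.lf (nat_lit 0) (nat_lit 5596134284) (nat_lit 1140) (nat_lit 3275621388) (nat_lit 76) (nat_lit 308226544) (nat_lit 174) (nat_lit 5) (nat_lit 189) (nat_lit 5) (nat_lit 175) (nat_lit 5) (nat_lit 261) (nat_lit 248) (nat_lit 211)) (XT.lf (nat_lit 0) (nat_lit 4476249686) (nat_lit 1140) (nat_lit 3898466478) (nat_lit 1216) (nat_lit 1024392181) (nat_lit 159) (nat_lit 5) (nat_lit 174) (nat_lit 5) (nat_lit 175) (nat_lit 5) (nat_lit 262) (nat_lit 248) (nat_lit 210))))) (XT.nd (nat_lit 234) (nat_lit 1596) (nat_lit 0) (XT.nd (nat_lit 78) (nat_lit 608) (nat_lit 0) (XT.lf (nat_lit 0) (nat_lit 1612292888) (nat_lit 608) (nat_lit 6632730597) (nat_lit 76) (nat_lit 1384401606) (nat_lit 151) (nat_lit 5) (nat_lit 159) (nat_lit 5) (nat_lit 152) (nat_lit 5) (nat_lit 263) (nat_lit 248) (nat_lit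 209)) (XT.nd (nat_lit 78) (nat_lit 0) (nat_lit 0) (XT.lf (nat_lit 0) (nat_lit 1434998915) (nat_lit 608) (nat_lit 2938041446) (nat_lit 684) (nat_lit 5497667898) (nat_lit 143) (nat_lit 5) (nat_lit 151) (nat_lit 5) (nat_lit 152) (nat_lit 5) (nat_lit 264) (nat_lit 248) (nat_lit 208)) (XT.lf (nat_lit 0) (nat_lit 7278532079) (nat_lit 684) (nat_lit 191729709) (nat_lit 76) (nat_lit 2653742387) (nat_lit 143) (nat_lit 5) (nat_lit 152) (nat_lit 5) (nat_lit 144) (nat_lit 5) (nat_lit 265) (nat_lit 248) (nat_lit 207)))) (XT.nd (nat_lit 78) (nat_lit 1064) (nat_lit 0) (XT.lf (nat_lit 0) (nat_lit 8516755204) (nat_lit 532) (nat_lit 1840666122) (nat_lit 608) (nat_lit 31842531) (nat_lit 136) (nat_lit 5) (nat_lit 143) (nat_lit 5) (nat_lit 144) (nat_lit 5) (nat_lit 266) (nat_lit 248) (nat_lit 206)) (XT.nd (nat_lit 78) (nat_lit 456) (nat_lit 0) (XT.lf (nat_lit 0) (nat_lit 2893864512) (nat_lit 608) (nat_lit 3685197607)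 (nat_lit 76) (nat_lit 4087160820) (nat_lit 128) (nat_lit 5) (nat_lit 136) (nat_lit 5) (nat_lit 129) (nat_lit 5) (nat_lit 267) (nat_lit 248) (nat_lit 205)) (XT.lf (nat_lit 0) (nat_lit 5361846290) (nat_lit 456) (nat_lit 614856099) (nat_lit 532) (nat_lit 4980098637) (nat_lit 122) (nat_lit 5) (nat_lit 128) (nat_lit 5) (nat_lit 129) (nat_lit 5) (nat_lit 268) (nat_lit 248) (nat_lit 204))))))))
noncomputable def xc66 : XT := (XT.nd (nat_lit 1716) (nat_lit 2128) (nat_lit 0) (XT.nd (nat_lit 858) (nat_lit 2280) (nat_lit 0) (XT.nd (nat_lit 390) (nat_lit 1824) (nat_lit 0) (XT.nd (nat_lit 156) (nat_lit 836) (nat_lit 0) (XT.nd (nat_lit 78) (nat_lit 456) (nat_lit 0) (XT.lf (nat_lit 0) (nat_lit 3609731990) (nat_lit 456) (nat_lit 5656039599) (nat_lit 532) (nat_lit 1994693390) (nat_lit 116) (nat_lit 5) (nat_lit 122) (nat_lit 5) (nat_lit 123) (nat_lit 5) (nat_lit 269) (nat_lit 248) (nat_lit 203)) (XT.lf (nat_lit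 0) (nat_lit 1131650724) (nat_lit 456) (nat_lit 9837178899) (nat_lit 76) (nat_lit 609846978) (nat_lit 110) (nat_lit 5) (nat_lit 116) (nat_lit 5) (nat_lit 111) (nat_lit 5) (nat_lit 270) (nat_lit 248) (nat_lit 202))) (XT.nd (nat_lit 78) (nat_lit 836) (nat_lit 0) (XT.lf (nat_lit 0) (nat_lit 4439452349) (nat_lit 456) (nat_lit 307674569) (nat_lit 76) (nat_lit 7163192956) (nat_lit 110) (nat_lit 5) (nat_lit 116) (nat_lit 5) (nat_lit 111) (nat_lit 5) (nat_lit 271) (nat_lit 248) (nat_lit 201)) (XT.nd (nat_lit 78) (nat_lit 380) (nat_lit 0) (XT.lf (nat_lit 0) (nat_lit 7957693481) (nat_lit 532) (nat_lit 2464596040) (nat_lit 76) (nat_lit 1835004652) (nat_lit 104) (nat_lit 5) (nat_lit 111) (nat_lit 5) (nat_lit 105) (nat_lit 5) (nat_lit 272) (nat_lit 248) (nat_lit 200)) (XT.lf (nat_lit 0) (nat_lit 7809230928) (nat_lit 380) (nat_lit 3903901760) (nat_lit 456) (nat_lit 906741483) (nat_lit 99) (nat_lit 5) (nat_lit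 104) (nat_lit 5) (nat_lit 105) (nat_lit 5) (nat_lit 273) (nat_lit 248) (nat_lit 199))))) (XT.nd (nat_lit 234) (nat_lit 684) (nat_lit 0) (XT.nd (nat_lit 78) (nat_lit 684) (nat_lit 0) (XT.lf (nat_lit 0) (nat_lit 2649857754) (nat_lit 456) (nat_lit 7372876671) (nat_lit 76) (nat_lit 2975793630) (nat_lit 93) (nat_lit 5) (nat_lit 99) (nat_lit 5) (nat_lit 94) (nat_lit 5) (nat_lit 274) (nat_lit 248) (nat_lit 198)) (XT.nd (nat_lit 78) (nat_lit 380) (nat_lit 0) (XT.lf (nat_lit 0) (nat_lit 3226706732) (nat_lit 304) (nat_lit 3198345163) (nat_lit 380) (nat_lit 6969092032) (nat_lit 89) (nat_lit 5) (nat_lit 93) (nat_lit 5) (nat_lit 94) (nat_lit 5) (nat_lit 275) (nat_lit 248) (nat_lit 197)) (XT.lf (nat_lit 0) (nat_lit 599524121) (nat_lit 380) (nat_lit 9850980371) (nat_lit 456) (nat_lit 3357271289) (nat_lit 84) (nat_lit 5) (nat_lit 89) (nat_lit 5) (nat_lit 90) (nat_lit 5) (nat_lit 276) (nat_lit 248) (nat_lit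 196)))) (XT.nd (nat_lit 78) (nat_lit 608) (nat_lit 0) (XT.lf (nat_lit 0) (nat_lit 507043477) (nat_lit 456) (nat_lit 2234542897) (nat_lit 76) (nat_lit 11498039653) (nat_lit 83) (nat_lit 5) (nat_lit 89) (nat_lit 5) (nat_lit 84) (nat_lit 5) (nat_lit 277) (nat_lit 248) (nat_lit 195)) (XT.nd (nat_lit 78) (nat_lit 304) (nat_lit 0) (XT.lf (nat_lit 0) (nat_lit 4577427596) (nat_lit 380) (nat_lit 5372631395) (nat_lit 76) (nat_lit 4739614551) (nat_lit 79) (nat_lit 5) (nat_lit 84) (nat_lit 5) (nat_lit 80) (nat_lit 5) (nat_lit 278) (nat_lit 248) (nat_lit 194)) (XT.lf (nat_lit 0) (nat_lit 6356263048) (nat_lit 304) (nat_lit 2554003136) (nat_lit 380) (nat_lit 6250256409) (nat_lit 75) (nat_lit 5) (nat_lit 79) (nat_lit 5) (nat_lit 80) (nat_lit 5) (nat_lit 279) (nat_lit 248) (nat_lit 193)))))) (XT.nd (nat_lit 390) (nat_lit 1064) (nat_lit 0) (XT.nd (nat_lit 156) (nat_lit 836) (nat_lit 0) (XT.nd (nat_lit 78)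 (nat_lit 76) (nat_lit 0) (XT.lf (nat_lit 0) (nat_lit 3069239387) (nat_lit 304) (nat_lit 10474586307) (nat_lit 380) (nat_lit 2108630052) (nat_lit 71) (nat_lit 5) (nat_lit 75) (nat_lit 5) (nat_lit 76) (nat_lit 5) (nat_lit 280) (nat_lit 248) (nat_lit 192)) (XT.lf (nat_lit 0) (nat_lit 2263531560) (nat_lit 380) (nat_lit 563736277) (nat_lit 76) (nat_lit 13339115947) (nat_lit 70) (nat_lit 5) (nat_lit 75) (nat_lit 5) (nat_lit 71) (nat_lit 5) (nat_lit 281) (nat_lit 248) (nat_lit 191))) (XT.nd (nat_lit 78) (nat_lit 532) (nat_lit 0) (XT.lf (nat_lit 0) (nat_lit 6931889707) (nat_lit 380) (nat_lit 4547238293) (nat_lit 76) (nat_lit 5222674328) (nat_lit 66) (nat_lit 5) (nat_lit 71) (nat_lit 5) (nat_lit 67) (nat_lit 5) (nat_lit 282) (nat_lit 248) (nat_lit 190)) (XT.nd (nat_lit 78) (nat_lit 304) (nat_lit 0) (XT.lf (nat_lit 0) (nat_lit 8324897793) (nat_lit 228) (nat_lit 3576913202) (nat_lit 304) (nat_lit 5360190138)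 (nat_lit 63) (nat_lit 5) (nat_lit 66) (nat_lit 5) (nat_lit 67) (nat_lit 5) (nat_lit 283) (nat_lit 248) (nat_lit 189)) (XT.lf (nat_lit 0) (nat_lit 4055126342) (nat_lit 304) (nat_lit 13151861693) (nat_lit 380) (nat_lit 640670186) (nat_lit 59) (nat_lit 5) (nat_lit 63) (nat_lit 5) (nat_lit 64) (nat_lit 5) (nat_lit 284) (nat_lit 248) (nat_lit 188))))) (XT.nd (nat_lit 234) (nat_lit 532) (nat_lit 0) (XT.nd (nat_lit 78) (nat_lit 456) (nat_lit 0) (XT.lf (nat_lit 0) (nat_lit 4315824324) (nat_lit 380) (nat_lit 718681034) (nat_lit 76) (nat_lit 13424339894) (nat_lit 58) (nat_lit 5) (nat_lit 63) (nat_lit 5) (nat_lit 59) (nat_lit 5) (nat_lit 285) (nat_lit 248) (nat_lit 187)) (XT.nd (nat_lit 78) (nat_lit 228) (nat_lit 0) (XT.lf (nat_lit 0) (nat_lit 9626833005) (nat_lit 304) (nat_lit 5933632064) (nat_lit 76) (nat_lit 3536383112) (nat_lit 55) (nat_lit 5) (nat_lit 59) (nat_lit 5) (nat_lit 56) (nat_lit 5) (nat_lit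 286) (nat_lit 248) (nat_lit 186)) (XT.lf (nat_lit 0) (nat_lit 8033217943) (nat_lit 228) (nat_lit 7265185061) (nat_lit 304) (nat_lit 4465540810) (nat_lit 52) (nat_lit 5) (nat_lit 55) (nat_lit 5) (nat_lit 56) (nat_lit 5) (nat_lit 287) (nat_lit 248) (nat_lit 185)))) (XT.nd (nat_lit 78) (nat_lit 228) (nat_lit 0) (XT.lf (nat_lit 0) (nat_lit 832965086) (nat_lit 304) (nat_lit 18139646938) (nat_lit 76) (nat_lit 1489818070) (nat_lit 48) (nat_lit 5) (nat_lit 52) (nat_lit 5) (nat_lit 49) (nat_lit 5) (nat_lit 288) (nat_lit 248) (nat_lit 184)) (XT.nd (nat_lit 78) (nat_lit 228) (nat_lit 0) (XT.lf (nat_lit 0) (nat_lit 6461766165) (nat_lit 304) (nat_lit 4046447947) (nat_lit 76) (nat_lit 10681606218) (nat_lit 48) (nat_lit 5) (nat_lit 52) (nat_lit 5) (nat_lit 49) (nat_lit 5) (nat_lit 289) (nat_lit 248) (nat_lit 183)) (XT.lf (nat_lit 0) (nat_lit 10908330272) (nat_lit 228) (nat_lit 1531947188) (nat_lit 304)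 (nat_lit 9511290481) (nat_lit 45) (nat_lit 5) (nat_lit 48) (nat_lit 5) (nat_lit 49) (nat_lit 5) (nat_lit 290) (nat_lit 248) (nat_lit 182))))))) (XT.nd (nat_lit 858) (nat_lit 760) (nat_lit 0) (XT.nd (nat_lit 390) (nat_lit 760) (nat_lit 0) (XT.nd (nat_lit 156) (nat_lit 380) (nat_lit 0) (XT.nd (nat_lit 78) (nat_lit 76) (nat_lit 0) (XT.lf (nat_lit 0) (nat_lit 3889616446) (nat_lit 152) (nat_lit 14947878089) (nat_lit 228) (nat_lit 3910349243) (nat_lit 43) (nat_lit 5) (nat_lit 45) (nat_lit 5) (nat_lit 46) (nat_lit 5) (nat_lit 291) (nat_lit 248) (nat_lit 181)) (XT.lf (nat_lit 0) (nat_lit 2027707883) (nat_lit 228) (nat_lit 3870559708) (nat_lit 76) (nat_lit 17682263506) (nat_lit 42) (nat_lit 5) (nat_lit 45) (nat_lit 5) (nat_lit 43) (nat_lit 5) (nat_lit 292) (nat_lit 248) (nat_lit 180))) (XT.nd (nat_lit 78) (nat_lit 152) (nat_lit 0) (XT.lf (nat_lit 0) (nat_lit 8300896438) (nat_lit 304) (nat_lit 12477651491)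 (nat_lit 76) (nat_lit 3671600511) (nat_lit 39) (nat_lit 5) (nat_lit 43) (nat_lit 5) (nat_lit 40) (nat_lit 5) (nat_lit 293) (nat_lit 248) (nat_lit 179)) (XT.nd (nat_lit 78) (nat_lit 0) (nat_lit 0) (XT.lf (nat_lit 0) (nat_lit 3279477638) (nat_lit 152) (nat_lit 11707387645) (nat_lit 228) (nat_lit 10373436470) (nat_lit 37) (nat_lit 5) (nat_lit 39) (nat_lit 5) (nat_lit 40) (nat_lit 5) (nat_lit 294) (nat_lit 248) (nat_lit 178)) (XT.lf (nat_lit 0) (nat_lit 20035546950) (nat_lit 152) (nat_lit 2068912153) (nat_lit 228) (nat_lit 4208611191) (nat_lit 37) (nat_lit 5) (nat_lit 39) (nat_lit 5) (nat_lit 40) (nat_lit 5) (nat_lit 295) (nat_lit 248) (nat_lit 177))))) (XT.nd (nat_lit 234) (nat_lit 380) (nat_lit 0) (XT.nd (nat_lit 78) (nat_lit 152) (nat_lit 0) (XT.lf (nat_lit 0) (nat_lit 2369197449) (nat_lit 228) (nat_lit 16938991303) (nat_lit 76) (nat_lit 8000192895) (nat_lit 34) (nat_lit 5) (nat_lit 37) (nat_lit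 5) (nat_lit 35) (nat_lit 5) (nat_lit 296) (nat_lit 248) (nat_lit 176)) (XT.nd (nat_lit 78) (nat_lit 152) (nat_lit 0) (XT.lf (nat_lit 0) (nat_lit 9246661767) (nat_lit 228) (nat_lit 482958888) (nat_lit 76) (nat_lit 18620877751) (nat_lit 34) (nat_lit 5) (nat_lit 37) (nat_lit 5) (nat_lit 35) (nat_lit 5) (nat_lit 297) (nat_lit 248) (nat_lit 175)) (XT.lf (nat_lit 0) (nat_lit 16609076381) (nat_lit 228) (nat_lit 12361030896) (nat_lit 76) (nat_lit 470404360) (nat_lit 32) (nat_lit 5) (nat_lit 35) (nat_lit 5) (nat_lit 33) (nat_lit 5) (nat_lit 298) (nat_lit 248) (nat_lit 174)))) (XT.nd (nat_lit 78) (nat_lit 228) (nat_lit 0) (XT.lf (nat_lit 0) (nat_lit 4898193085) (nat_lit 152) (nat_lit 19564707863) (nat_lit 228) (nat_lit 6118447758) (nat_lit 30) (nat_lit 5) (nat_lit 32) (nat_lit 5) (nat_lit 33) (nat_lit 5) (nat_lit 299) (nat_lit 248) (nat_lit 173)) (XT.nd (nat_lit 78) (nat_lit 152) (nat_lit 0) (XT.lf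 (nat_lit 0) (nat_lit 1014116899) (nat_lit 228) (nat_lit 8550591858) (nat_lit 76) (nat_lit 22211208458) (nat_lit 29) (nat_lit 5) (nat_lit 32) (nat_lit 5) (nat_lit 30) (nat_lit 5) (nat_lit 300) (nat_lit 248) (nat_lit 172)) (XT.lf (nat_lit 0) (nat_lit 8454651422) (nat_lit 228) (nat_lit 23515693678) (nat_lit 76) (nat_lit 1055734518) (nat_lit 27) (nat_lit 5) (nat_lit 30) (nat_lit 5) (nat_lit 28) (nat_lit 5) (nat_lit 301) (nat_lit 248) (nat_lit 171)))))) (XT.nd (nat_lit 390) (nat_lit 456) (nat_lit 0) (XT.nd (nat_lit 156) (nat_lit 152) (nat_lit 0) (XT.nd (nat_lit 78) (nat_lit 152) (nat_lit 0) (XT.lf (nat_lit 0) (nat_lit 16428131662) (nat_lit 228) (nat_lit 5821416110) (nat_lit 76) (nat_lit 12084393127) (nat_lit 27) (nat_lit 5) (nat_lit 30) (nat_lit 5) (nat_lit 28) (nat_lit 5) (nat_lit 302) (nat_lit 248) (nat_lit 170)) (XT.lf (nat_lit 0) (nat_lit 12971660072) (nat_lit 152) (nat_lit 11929972397) (nat_lit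 228) (nat_lit 10802539833) (nat_lit 25) (nat_lit 5) (nat_lit 27) (nat_lit 5) (nat_lit 28) (nat_lit 5) (nat_lit 303) (nat_lit 248) (nat_lit 169))) (XT.nd (nat_lit 78) (nat_lit 152) (nat_lit 0) (XT.lf (nat_lit 0) (nat_lit 32788120513) (nat_lit 152) (nat_lit 1048016327) (nat_lit 228) (nat_lit 3305675204) (nat_lit 25) (nat_lit 5) (nat_lit 27) (nat_lit 5) (nat_lit 28) (nat_lit 5) (nat_lit 304) (nat_lit 248) (nat_lit 168)) (XT.nd (nat_lit 78) (nat_lit 0) (nat_lit 0) (XT.lf (nat_lit 0) (nat_lit 4702399315) (nat_lit 152) (nat_lit 23588377028) (nat_lit 76) (nat_lit 10352492065) (nat_lit 23) (nat_lit 5) (nat_lit 25) (nat_lit 5) (nat_lit 24) (nat_lit 5) (nat_lit 305) (nat_lit 248) (nat_lit 167)) (XT.lf (nat_lit 0) (nat_lit 13077790697) (nat_lit 152) (nat_lit 4773978715) (nat_lit 76) (nat_lit 22366002546) (nat_lit 23) (nat_lit 5) (nat_lit 25) (nat_lit 5) (nat_lit 24) (nat_lit 5) (nat_lit 306) (nat_lit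 248) (nat_lit 166))))) (XT.nd (nat_lit 234) (nat_lit 228) (nat_lit 0) (XT.nd (nat_lit 78) (nat_lit 76) (nat_lit 0) (XT.lf (nat_lit 0) (nat_lit 15244304289) (nat_lit 152) (nat_lit 6753999240) (nat_lit 228) (nat_lit 19868920544) (nat_lit 21) (nat_lit 5) (nat_lit 23) (nat_lit 5) (nat_lit 24) (nat_lit 5) (nat_lit 307) (nat_lit 248) (nat_lit 165)) (XT.nd (nat_lit 78) (nat_lit 76) (nat_lit 0) (XT.lf (nat_lit 0) (nat_lit 31441884142) (nat_lit 228) (nat_lit 7315776698) (nat_lit 76) (nat_lit 4839189967) (nat_lit 21) (nat_lit 5) (nat_lit 24) (nat_lit 5) (nat_lit 22) (nat_lit 4) (nat_lit 308) (nat_lit 248) (nat_lit 164)) (XT.lf (nat_lit 0) (nat_lit 13112239580) (nat_lit 76) (nat_lit 28420876592) (nat_lit 152) (nat_lit 3874591178) (nat_lit 20) (nat_lit 5) (nat_lit 21) (nat_lit 5) (nat_lit 22) (nat_lit 4) (nat_lit 309) (nat_lit 248) (nat_lit 163)))) (XT.nd (nat_lit 78) (nat_lit 152) (nat_lit 0) (XT.lf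 (nat_lit 0) (nat_lit 4783466654) (nat_lit 152) (nat_lit 12671024541) (nat_lit 76) (nat_lit 29851505834) (nat_lit 19) (nat_lit 5) (nat_lit 21) (nat_lit 5) (nat_lit 20) (nat_lit 5) (nat_lit 310) (nat_lit 248) (nat_lit 162)) (XT.nd (nat_lit 78) (nat_lit 0) (nat_lit 0) (XT.lf (nat_lit 0) (nat_lit 8021941630) (nat_lit 152) (nat_lit 5832743479) (nat_lit 228) (nat_lit 35441564644) (nat_lit 17) (nat_lit 5) (nat_lit 19) (nat_lit 5) (nat_lit 20) (nat_lit 5) (nat_lit 311) (nat_lit 248) (nat_lit 161)) (XT.lf (nat_lit 0) (nat_lit 23555391403) (nat_lit 228) (nat_lit 21459948164) (nat_lit 76) (nat_lit 6365408346) (nat_lit 17) (nat_lit 5) (nat_lit 20) (nat_lit 5) (nat_lit 18) (nat_lit 4) (nat_lit 312) (nat_lit 248) (nat_lit 160))))))))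
noncomputable def xc67 : XT := (XT.nd (nat_lit 32838) (nat_lit 0) (nat_lit 6460) (XT.nd (nat_lit 858) (nat_lit 152) (nat_lit 0) (XT.nd (nat_lit 390) (nat_lit 228) (nat_lit 0) (XT.nd (nat_lit 156) (nat_lit 228) (nat_lit 0) (XT.nd (nat_lit 78) (nat_lit 76) (nat_lit 0) (XT.lf (nat_lit 0) (nat_lit 33783780707) (nat_lit 228) (nat_lit 741993636) (nat_lit 76) (nat_lit 19042427307) (nat_lit 17) (nat_lit 5) (nat_lit 20) (nat_lit 5) (nat_lit 18) (nat_lit 4) (nat_lit 313) (nat_lit 248) (nat_lit 159)) (XT.lf (nat_lit 0) (nat_lit 21402593509) (nat_lit 76) (nat_lit 23311279743) (nat_lit 152) (nat_lit 11145455929) (nat_lit 16) (nat_lit 5) (nat_lit 17) (nat_lit 5) (nat_lit 18) (nat_lit 4) (nat_lit 314) (nat_lit 248) (nat_lit 158))) (XT.nd (nat_lit 78) (nat_lit 228) (nat_lit 0) (XT.lf (nat_lit 0) (nat_lit 44643779978) (nat_lit 76) (nat_lit 11539362106) (nat_lit 152) (nat_lit 2082100016) (nat_lit 16) (nat_lit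 5) (nat_lit 17) (nat_lit 5) (nat_lit 18) (nat_lit 4) (nat_lit 315) (nat_lit 248) (nat_lit 157)) (XT.nd (nat_lit 78) (nat_lit 0) (nat_lit 0) (XT.lf (nat_lit 0) (nat_lit 7364226566) (nat_lit 228) (nat_lit 52475333555) (nat_lit 76) (nat_lit 947508830) (nat_lit 13) (nat_lit 5) (nat_lit 16) (nat_lit 5) (nat_lit 14) (nat_lit 4) (nat_lit 316) (nat_lit 248) (nat_lit 156)) (XT.lf (nat_lit 0) (nat_lit 17484233755) (nat_lit 228) (nat_lit 31968202030) (nat_lit 76) (nat_lit 13974608224) (nat_lit 13) (nat_lit 5) (nat_lit 16) (nat_lit 5) (nat_lit 14) (nat_lit 4) (nat_lit 317) (nat_lit 248) (nat_lit 155))))) (XT.nd (nat_lit 234) (nat_lit 152) (nat_lit 0) (XT.nd (nat_lit 78) (nat_lit 76) (nat_lit 0) (XT.lf (nat_lit 0) (nat_lit 28096856705) (nat_lit 228) (nat_lit 10459323219) (nat_lit 76) (nat_lit 27643247117) (nat_lit 13) (nat_lit 5) (nat_lit 16) (nat_lit 5) (nat_lit 14) (nat_lit 4) (nat_lit 318) (nat_lit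 248) (nat_lit 154)) (XT.nd (nat_lit 78) (nat_lit 0) (nat_lit 0) (XT.lf (nat_lit 0) (nat_lit 12343378262) (nat_lit 76) (nat_lit 27002637408) (nat_lit 152) (nat_lit 29761243727) (nat_lit 12) (nat_lit 5) (nat_lit 13) (nat_lit 5) (nat_lit 14) (nat_lit 4) (nat_lit 319) (nat_lit 248) (nat_lit 153)) (XT.lf (nat_lit 0) (nat_lit 36482943401) (nat_lit 76) (nat_lit 14770008517) (nat_lit 152) (nat_lit 20904678842) (nat_lit 12) (nat_lit 5) (nat_lit 13) (nat_lit 5) (nat_lit 14) (nat_lit 4) (nat_lit 320) (nat_lit 248) (nat_lit 152)))) (XT.nd (nat_lit 78) (nat_lit 152) (nat_lit 0) (XT.lf (nat_lit 0) (nat_lit 61808686312) (nat_lit 76) (nat_lit 1934786602) (nat_lit 152) (nat_lit 11617407277) (nat_lit 12) (nat_lit 5) (nat_lit 13) (nat_lit 5) (nat_lit 14) (nat_lit 4) (nat_lit 321) (nat_lit 248) (nat_lit 151)) (XT.nd (nat_lit 78) (nat_lit 76) (nat_lit 0) (XT.lf (nat_lit 0) (nat_lit 9735376256) (nat_lit 76) (nat_lit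 67316392035) (nat_lit 76) (nat_lit 1666732674) (nat_lit 11) (nat_lit 4) (nat_lit 12) (nat_lit 5) (nat_lit 12) (nat_lit 4) (nat_lit 322) (nat_lit 248) (nat_lit 150)) (XT.lf (nat_lit 0) (nat_lit 8759485949) (nat_lit 152) (nat_lit 47894334171) (nat_lit 76) (nat_lit 25583175059) (nat_lit 10) (nat_lit 5) (nat_lit 12) (nat_lit 5) (nat_lit 11) (nat_lit 4) (nat_lit 323) (nat_lit 248) (nat_lit 149)))))) (XT.nd (nat_lit 390) (nat_lit 76) (nat_lit 0) (XT.nd (nat_lit 156) (nat_lit 76) (nat_lit 0) (XT.nd (nat_lit 78) (nat_lit 0) (nat_lit 0) (XT.lf (nat_lit 0) (nat_lit 19662342583) (nat_lit 152) (nat_lit 25786707861) (nat_lit 76) (nat_lit 40482180230) (nat_lit 10) (nat_lit 5) (nat_lit 12) (nat_lit 5) (nat_lit 11) (nat_lit 4) (nat_lit 324) (nat_lit 248) (nat_lit 148)) (XT.lf (nat_lit 0) (nat_lit 31100320366) (nat_lit 152) (nat_lit 2591586919) (nat_lit 76) (nat_lit 56118576609) (nat_lit 10) (nat_lit 5) (nat_lit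 12) (nat_lit 5) (nat_lit 11) (nat_lit 4) (nat_lit 325) (nat_lit 248) (nat_lit 147))) (XT.nd (nat_lit 78) (nat_lit 0) (nat_lit 0) (XT.lf (nat_lit 0) (nat_lit 22179048249) (nat_lit 76) (nat_lit 21134802908) (nat_lit 152) (nat_lit 50563744042) (nat_lit 9) (nat_lit 5) (nat_lit 10) (nat_lit 5) (nat_lit 11) (nat_lit 4) (nat_lit 326) (nat_lit 248) (nat_lit 146)) (XT.nd (nat_lit 78) (nat_lit 0) (nat_lit 0) (XT.lf (nat_lit 0) (nat_lit 48225825087) (nat_lit 76) (nat_lit 7929662487) (nat_lit 152) (nat_lit 41992056435) (nat_lit 9) (nat_lit 5) (nat_lit 10) (nat_lit 5) (nat_lit 11) (nat_lit 4) (nat_lit 327) (nat_lit 248) (nat_lit 145)) (XT.lf (nat_lit 0) (nat_lit 69687388329) (nat_lit 152) (nat_lit 27129068135) (nat_lit 0) (nat_lit 5813092898) (nat_lit 9) (nat_lit 5) (nat_lit 11) (nat_lit 4) (nat_lit 9) (nat_lit 4) (nat_lit 328) (nat_lit 248) (nat_lit 144))))) (XT.nd (nat_lit 31356) (nat_lit 0) (nat_lit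 16264) (XT.nd (nat_lit 78) (nat_lit 76) (nat_lit 0) (XT.lf (nat_lit 0) (nat_lit 83967467368) (nat_lit 152) (nat_lit 3292021506) (nat_lit 0) (nat_lit 20074022972) (nat_lit 9) (nat_lit 5) (nat_lit 11) (nat_lit 4) (nat_lit 9) (nat_lit 4) (nat_lit 329) (nat_lit 248) (nat_lit 143)) (XT.nd (nat_lit 31200) (nat_lit 0) (nat_lit 17024) (XT.lf (nat_lit 0) (nat_lit 22154718967) (nat_lit 76) (nat_lit 77011745857) (nat_lit 76) (nat_lit 13100064351) (nat_lit 8) (nat_lit 4) (nat_lit 9) (nat_lit 5) (nat_lit 9) (nat_lit 4) (nat_lit 330) (nat_lit 248) (nat_lit 142)) (XT.lf (nat_lit 0) (nat_lit 1087400859) (nat_lit 836) (nat_lit 1308214244) (nat_lit 836) (nat_lit 1308214244) (nat_lit 232) (nat_lit 3) (nat_lit 243) (nat_lit 3) (nat_lit 243) (nat_lit 5) (nat_lit 249) (nat_lit 249) (nat_lit 222)))) (XT.nd (nat_lit 78) (nat_lit 760) (nat_lit 0) (XT.lf (nat_lit 76) (nat_lit 2899165202) (nat_lit 0) (nat_lit 1643552634)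 (nat_lit 836) (nat_lit 2975759587) (nat_lit 233) (nat_lit 5) (nat_lit 232) (nat_lit 3) (nat_lit 243) (nat_lit 5) (nat_lit 250) (nat_lit 249) (nat_lit 221)) (XT.nd (nat_lit 78) (nat_lit 836) (nat_lit 0) (XT.lf (nat_lit 76) (nat_lit 1032683308) (nat_lit 0) (nat_lit 5903066236) (nat_lit 836) (nat_lit 702203860) (nat_lit 234) (nat_lit 5) (nat_lit 233) (nat_lit 5) (nat_lit 244) (nat_lit 5) (nat_lit 251) (nat_lit 249) (nat_lit 220)) (XT.lf (nat_lit 0) (nat_lit 1574897195) (nat_lit 836) (nat_lit 814595100) (nat_lit 912) (nat_lit 5376036456) (nat_lit 222) (nat_lit 5) (nat_lit 233) (nat_lit 5) (nat_lit 234) (nat_lit 5) (nat_lit 252) (nat_lit 249) (nat_lit 219))))))) (XT.nd (nat_lit 858) (nat_lit 4940) (nat_lit 0) (XT.nd (nat_lit 390) (nat_lit 4104) (nat_lit 0) (XT.nd (nat_lit 156) (nat_lit 836) (nat_lit 0) (XT.nd (nat_lit 78) (nat_lit 0) (nat_lit 0) (XT.lf (nat_lit 0) (nat_lit 3880740185) (nat_lit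 836) (nat_lit 2633289268) (nat_lit 912) (nat_lit 1387642505) (nat_lit 223) (nat_lit 5) (nat_lit 234) (nat_lit 5) (nat_lit 235) (nat_lit 5) (nat_lit 253) (nat_lit 249) (nat_lit 218)) (XT.lf (nat_lit 76) (nat_lit 3592470092) (nat_lit 0) (nat_lit 2647615640) (nat_lit 912) (nat_lit 1806656906) (nat_lit 224) (nat_lit 5) (nat_lit 223) (nat_lit 5) (nat_lit 235) (nat_lit 5) (nat_lit 254) (nat_lit 249) (nat_lit 217))) (XT.nd (nat_lit 78) (nat_lit 0) (nat_lit 0) (XT.lf (nat_lit 0) (nat_lit 443699220) (nat_lit 912) (nat_lit 6279178797) (nat_lit 988) (nat_lit 1478221428) (nat_lit 212) (nat_lit 5) (nat_lit 224) (nat_lit 5) (nat_lit 225) (nat_lit 5) (nat_lit 255) (nat_lit 249) (nat_lit 216)) (XT.nd (nat_lit 78) (nat_lit 0) (nat_lit 76) (XT.lf (nat_lit 76) (nat_lit 223298162) (nat_lit 0) (nat_lit 2502003194) (nat_lit 988) (nat_lit 5638888117) (nat_lit 213) (nat_lit 5) (nat_lit 212) (nat_lit 5) (nat_lit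 225) (nat_lit 5) (nat_lit 256) (nat_lit 249) (nat_lit 215)) (XT.lf (nat_lit 0) (nat_lit 5090604929) (nat_lit 912) (nat_lit 1455998090) (nat_lit 988) (nat_lit 1989965954) (nat_lit 213) (nat_lit 5) (nat_lit 225) (nat_lit 5) (nat_lit 226) (nat_lit 5) (nat_lit 257) (nat_lit 249) (nat_lit 214))))) (XT.nd (nat_lit 234) (nat_lit 2280) (nat_lit 0) (XT.nd (nat_lit 78) (nat_lit 1900) (nat_lit 0) (XT.lf (nat_lit 76) (nat_lit 5565122947) (nat_lit 0) (nat_lit 1979029149) (nat_lit 988) (nat_lit 1174528964) (nat_lit 214) (nat_lit 5) (nat_lit 213) (nat_lit 5) (nat_lit 226) (nat_lit 5) (nat_lit 258) (nat_lit 249) (nat_lit 213)) (XT.nd (nat_lit 78) (nat_lit 988) (nat_lit 0) (XT.lf (nat_lit 0) (nat_lit 1163246596) (nat_lit 988) (nat_lit 4895172687) (nat_lit 76) (nat_lit 2852035620) (nat_lit 201) (nat_lit 5) (nat_lit 214) (nat_lit 5) (nat_lit 202) (nat_lit 5) (nat_lit 259) (nat_lit 249) (nat_lit 212)) (XT.lf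 (nat_lit 0) (nat_lit 2430461599) (nat_lit 988) (nat_lit 1138407019) (nat_lit 1064) (nat_lit 5543530025) (nat_lit 188) (nat_lit 5) (nat_lit 201) (nat_lit 5) (nat_lit 202) (nat_lit 5) (nat_lit 260) (nat_lit 249) (nat_lit 211)))) (XT.nd (nat_lit 78) (nat_lit 1216) (nat_lit 0) (XT.lf (nat_lit 0) (nat_lit 794711403) (nat_lit 1064) (nat_lit 5300414132) (nat_lit 1140) (nat_lit 3229482030) (nat_lit 174) (nat_lit 5) (nat_lit 188) (nat_lit 5) (nat_lit 189) (nat_lit 5) (nat_lit 261) (nat_lit 249) (nat_lit 210)) (XT.nd (nat_lit 78) (nat_lit 1216) (nat_lit 0) (XT.lf (nat_lit 0) (nat_lit 8692168706) (nat_lit 1064) (nat_lit 42632993) (nat_lit 1140) (nat_lit 813182141) (nat_lit 174) (nat_lit 5) (nat_lit 188) (nat_lit 5) (nat_lit 189) (nat_lit 5) (nat_lit 262) (nat_lit 249) (nat_lit 209)) (XT.lf (nat_lit 0) (nat_lit 1723916401) (nat_lit 1216) (nat_lit 2588598982) (nat_lit 76) (nat_lit 5468664972) (nat_lit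 158) (nat_lit 5) (nat_lit 174) (nat_lit 5) (nat_lit 159) (nat_lit 5) (nat_lit 263) (nat_lit 249) (nat_lit 208)))))) (XT.nd (nat_lit 468) (nat_lit 2204) (nat_lit 0) (XT.nd (nat_lit 234) (nat_lit 1064) (nat_lit 0) (XT.nd (nat_lit 78) (nat_lit 1140) (nat_lit 0) (XT.lf (nat_lit 0) (nat_lit 4361461155) (nat_lit 608) (nat_lit 4381589521) (nat_lit 76) (nat_lit 1283181998) (nat_lit 151) (nat_lit 5) (nat_lit 159) (nat_lit 5) (nat_lit 152) (nat_lit 5) (nat_lit 264) (nat_lit 249) (nat_lit 207)) (XT.nd (nat_lit 78) (nat_lit 532) (nat_lit 0) (XT.lf (nat_lit 0) (nat_lit 4015491665) (nat_lit 608) (nat_lit 3141795925) (nat_lit 684) (nat_lit 3125600547) (nat_lit 143) (nat_lit 5) (nat_lit 151) (nat_lit 5) (nat_lit 152) (nat_lit 5) (nat_lit 265) (nat_lit 249) (nat_lit 206)) (XT.lf (nat_lit 0) (nat_lit 2311061743) (nat_lit 532) (nat_lit 7796515812) (nat_lit 608) (nat_lit 444494520) (nat_lit 136) (nat_lit 5)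 (nat_lit 143) (nat_lit 5) (nat_lit 144) (nat_lit 5) (nat_lit 266) (nat_lit 249) (nat_lit 205)))) (XT.nd (nat_lit 78) (nat_lit 456) (nat_lit 0) (XT.lf (nat_lit 0) (nat_lit 491501332) (nat_lit 532) (nat_lit 1857218594) (nat_lit 608) (nat_lit 8484707861) (nat_lit 128) (nat_lit 5) (nat_lit 135) (nat_lit 5) (nat_lit 136) (nat_lit 5) (nat_lit 267) (nat_lit 249) (nat_lit 204)) (XT.nd (nat_lit 78) (nat_lit 456) (nat_lit 0) (XT.lf (nat_lit 0) (nat_lit 5325885734) (nat_lit 608) (nat_lit 1420500280) (nat_lit 76) (nat_lit 4380848385) (nat_lit 128) (nat_lit 5) (nat_lit 136) (nat_lit 5) (nat_lit 129) (nat_lit 5) (nat_lit 268) (nat_lit 249) (nat_lit 203)) (XT.lf (nat_lit 0) (nat_lit 8008696945) (nat_lit 456) (nat_lit 468114260) (nat_lit 532) (nat_lit 2958287045) (nat_lit 122) (nat_lit 5) (nat_lit 128) (nat_lit 5) (nat_lit 129) (nat_lit 5) (nat_lit 269) (nat_lit 249) (nat_lit 202))))) (XT.nd (nat_lit 234)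 (nat_lit 836) (nat_lit 0) (XT.nd (nat_lit 78) (nat_lit 836) (nat_lit 0) (XT.lf (nat_lit 0) (nat_lit 91633594) (nat_lit 532) (nat_lit 5590738758) (nat_lit 76) (nat_lit 6074123595) (nat_lit 115) (nat_lit 5) (nat_lit 122) (nat_lit 5) (nat_lit 116) (nat_lit 5) (nat_lit 270) (nat_lit 249) (nat_lit 201)) (XT.nd (nat_lit 78) (nat_lit 456) (nat_lit 0) (XT.lf (nat_lit 0) (nat_lit 3256652910) (nat_lit 456) (nat_lit 7913783223) (nat_lit 76) (nat_lit 922035505) (nat_lit 110) (nat_lit 5) (nat_lit 116) (nat_lit 5) (nat_lit 111) (nat_lit 5) (nat_lit 271) (nat_lit 249) (nat_lit 200)) (XT.lf (nat_lit 0) (nat_lit 2016534040) (nat_lit 456) (nat_lit 4634198561) (nat_lit 532) (nat_lit 5792484796) (nat_lit 104) (nat_lit 5) (nat_lit 110) (nat_lit 5) (nat_lit 111) (nat_lit 5) (nat_lit 272) (nat_lit 249) (nat_lit 199)))) (XT.nd (nat_lit 78) (nat_lit 836) (nat_lit 0) (XT.lf (nat_lit 0) (nat_lit 10256409948) (nat_lit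 532) (nat_lit 297028880) (nat_lit 76) (nat_lit 2256895822) (nat_lit 104) (nat_lit 5) (nat_lit 111) (nat_lit 5) (nat_lit 105) (nat_lit 5) (nat_lit 273) (nat_lit 249) (nat_lit 198)) (XT.nd (nat_lit 78) (nat_lit 380) (nat_lit 0) (XT.lf (nat_lit 0) (nat_lit 918954897) (nat_lit 456) (nat_lit 2777435902) (nat_lit 76) (nat_lit 9496589662) (nat_lit 98) (nat_lit 5) (nat_lit 104) (nat_lit 5) (nat_lit 99) (nat_lit 5) (nat_lit 274) (nat_lit 249) (nat_lit 197)) (XT.lf (nat_lit 0) (nat_lit 4571720454) (nat_lit 456) (nat_lit 5489802583) (nat_lit 76) (nat_lit 3530785252) (nat_lit 93) (nat_lit 5) (nat_lit 99) (nat_lit 5) (nat_lit 94) (nat_lit 5) (nat_lit 275) (nat_lit 249) (nat_lit 196))))))))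
noncomputable def xc68 : XT := (XT.nd (nat_lit 1716) (nat_lit 1596) (nat_lit 0) (XT.nd (nat_lit 858) (nat_lit 1596) (nat_lit 0) (XT.nd (nat_lit 390) (nat_lit 1520) (nat_lit 0) (XT.nd (nat_lit 156) (nat_lit 684) (nat_lit 0) (XT.nd (nat_lit 78) (nat_lit 380) (nat_lit 0) (XT.lf (nat_lit 0) (nat_lit 5575214949) (nat_lit 304) (nat_lit 2896275711) (nat_lit 380) (nat_lit 5538257189) (nat_lit 89) (nat_lit 5) (nat_lit 93) (nat_lit 5) (nat_lit 94) (nat_lit 5) (nat_lit 276) (nat_lit 249) (nat_lit 195)) (XT.lf (nat_lit 0) (nat_lit 2802217151) (nat_lit 380) (nat_lit 9838961924) (nat_lit 456) (nat_lit 1804705119) (nat_lit 84) (nat_lit 5) (nat_lit 89) (nat_lit 5) (nat_lit 90) (nat_lit 5) (nat_lit 277) (nat_lit 249) (nat_lit 194))) (XT.nd (nat_lit 78) (nat_lit 608) (nat_lit 0) (XT.lf (nat_lit 0) (nat_lit 2138927035) (nat_lit 456) (nat_lit 242975397) (nat_lit 76) (nat_lit 12519441552) (nat_lit 83) (nat_lit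 5) (nat_lit 89) (nat_lit 5) (nat_lit 84) (nat_lit 5) (nat_lit 278) (nat_lit 249) (nat_lit 193)) (XT.nd (nat_lit 78) (nat_lit 304) (nat_lit 0) (XT.lf (nat_lit 0) (nat_lit 6360709715) (nat_lit 380) (nat_lit 3554542073) (nat_lit 76) (nat_lit 5460304154) (nat_lit 79) (nat_lit 5) (nat_lit 84) (nat_lit 5) (nat_lit 80) (nat_lit 5) (nat_lit 279) (nat_lit 249) (nat_lit 192)) (XT.lf (nat_lit 0) (nat_lit 8700981657) (nat_lit 304) (nat_lit 2154672872) (nat_lit 380) (nat_lit 5016022748) (nat_lit 75) (nat_lit 5) (nat_lit 79) (nat_lit 5) (nat_lit 80) (nat_lit 5) (nat_lit 280) (nat_lit 249) (nat_lit 191))))) (XT.nd (nat_lit 234) (nat_lit 836) (nat_lit 0) (XT.nd (nat_lit 78) (nat_lit 380) (nat_lit 0) (XT.lf (nat_lit 0) (nat_lit 5232112942) (nat_lit 304) (nat_lit 10441497039) (nat_lit 380) (nat_lit 716104862) (nat_lit 71) (nat_lit 5) (nat_lit 75) (nat_lit 5) (nat_lit 76) (nat_lit 5) (nat_lit 281) (nat_lit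 249) (nat_lit 190)) (XT.nd (nat_lit 78) (nat_lit 0) (nat_lit 0) (XT.lf (nat_lit 0) (nat_lit 1378185509) (nat_lit 304) (nat_lit 2410557411) (nat_lit 380) (nat_lit 13141947691) (nat_lit 66) (nat_lit 5) (nat_lit 70) (nat_lit 5) (nat_lit 71) (nat_lit 5) (nat_lit 282) (nat_lit 249) (nat_lit 189)) (XT.lf (nat_lit 0) (nat_lit 8633969864) (nat_lit 380) (nat_lit 2850168319) (nat_lit 76) (nat_lit 6010517008) (nat_lit 66) (nat_lit 5) (nat_lit 71) (nat_lit 5) (nat_lit 67) (nat_lit 5) (nat_lit 283) (nat_lit 249) (nat_lit 188)))) (XT.nd (nat_lit 78) (nat_lit 608) (nat_lit 0) (XT.lf (nat_lit 0) (nat_lit 10610411118) (nat_lit 228) (nat_lit 3195397713) (nat_lit 304) (nat_lit 4278527346) (nat_lit 63) (nat_lit 5) (nat_lit 66) (nat_lit 5) (nat_lit 67) (nat_lit 5) (nat_lit 284) (nat_lit 249) (nat_lit 187)) (XT.nd (nat_lit 78) (nat_lit 228) (nat_lit 0) (XT.lf (nat_lit 0) (nat_lit 623883259) (nat_lit 380) (nat_lit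 12598713148) (nat_lit 76) (nat_lit 5477749994) (nat_lit 58) (nat_lit 5) (nat_lit 63) (nat_lit 5) (nat_lit 59) (nat_lit 5) (nat_lit 285) (nat_lit 249) (nat_lit 186)) (XT.lf (nat_lit 0) (nat_lit 1053542258) (nat_lit 228) (nat_lit 4710543511) (nat_lit 304) (nat_lit 13579408665) (nat_lit 55) (nat_lit 5) (nat_lit 58) (nat_lit 5) (nat_lit 59) (nat_lit 5) (nat_lit 286) (nat_lit 249) (nat_lit 185)))))) (XT.nd (nat_lit 390) (nat_lit 836) (nat_lit 0) (XT.nd (nat_lit 156) (nat_lit 532) (nat_lit 0) (XT.nd (nat_lit 78) (nat_lit 228) (nat_lit 0) (XT.lf (nat_lit 0) (nat_lit 11294341819) (nat_lit 304) (nat_lit 4462615016) (nat_lit 76) (nat_lit 4257892574) (nat_lit 55) (nat_lit 5) (nat_lit 59) (nat_lit 5) (nat_lit 56) (nat_lit 5) (nat_lit 287) (nat_lit 249) (nat_lit 184)) (XT.lf (nat_lit 0) (nat_lit 10151906765) (nat_lit 228) (nat_lit 7057604525) (nat_lit 304) (nat_lit 3507047722) (nat_lit 52) (nat_lit 5)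 (nat_lit 55) (nat_lit 5) (nat_lit 56) (nat_lit 5) (nat_lit 288) (nat_lit 249) (nat_lit 183))) (XT.nd (nat_lit 78) (nat_lit 228) (nat_lit 0) (XT.lf (nat_lit 0) (nat_lit 1999898456) (nat_lit 304) (nat_lit 17326085975) (nat_lit 76) (nat_lit 2124702421) (nat_lit 48) (nat_lit 5) (nat_lit 52) (nat_lit 5) (nat_lit 49) (nat_lit 5) (nat_lit 289) (nat_lit 249) (nat_lit 182)) (XT.nd (nat_lit 78) (nat_lit 228) (nat_lit 0) (XT.lf (nat_lit 0) (nat_lit 7856554584) (nat_lit 304) (nat_lit 2610157668) (nat_lit 76) (nat_lit 11749394574) (nat_lit 48) (nat_lit 5) (nat_lit 52) (nat_lit 5) (nat_lit 49) (nat_lit 5) (nat_lit 290) (nat_lit 249) (nat_lit 181)) (XT.lf (nat_lit 0) (nat_lit 13045388958) (nat_lit 228) (nat_lit 1052868985) (nat_lit 304) (nat_lit 8918806046) (nat_lit 45) (nat_lit 5) (nat_lit 48) (nat_lit 5) (nat_lit 49) (nat_lit 5) (nat_lit 291) (nat_lit 249) (nat_lit 180))))) (XT.nd (nat_lit 234) (nat_lit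 380) (nat_lit 0) (XT.nd (nat_lit 78) (nat_lit 304) (nat_lit 0) (XT.lf (nat_lit 0) (nat_lit 5656089672) (nat_lit 152) (nat_lit 15130112546) (nat_lit 228) (nat_lit 3067873189) (nat_lit 43) (nat_lit 5) (nat_lit 45) (nat_lit 5) (nat_lit 46) (nat_lit 5) (nat_lit 292) (nat_lit 249) (nat_lit 179)) (XT.nd (nat_lit 78) (nat_lit 228) (nat_lit 0) (XT.lf (nat_lit 0) (nat_lit 3098368062) (nat_lit 228) (nat_lit 2546778042) (nat_lit 76) (nat_lit 19084449744) (nat_lit 42) (nat_lit 5) (nat_lit 45) (nat_lit 5) (nat_lit 43) (nat_lit 5) (nat_lit 293) (nat_lit 249) (nat_lit 178)) (XT.lf (nat_lit 0) (nat_lit 9658384782) (nat_lit 304) (nat_lit 11603915178) (nat_lit 76) (nat_lit 4381241109) (nat_lit 39) (nat_lit 5) (nat_lit 43) (nat_lit 5) (nat_lit 40) (nat_lit 5) (nat_lit 294) (nat_lit 249) (nat_lit 177)))) (XT.nd (nat_lit 78) (nat_lit 228) (nat_lit 0) (XT.lf (nat_lit 0) (nat_lit 4898141462) (nat_lit 152) (nat_lit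 11749615714) (nat_lit 228) (nat_lit 9952411789) (nat_lit 37) (nat_lit 5) (nat_lit 39) (nat_lit 5) (nat_lit 40) (nat_lit 5) (nat_lit 295) (nat_lit 249) (nat_lit 176)) (XT.nd (nat_lit 78) (nat_lit 228) (nat_lit 0) (XT.lf (nat_lit 0) (nat_lit 22422743290) (nat_lit 152) (nat_lit 1655080319) (nat_lit 228) (nat_lit 3524092699) (nat_lit 37) (nat_lit 5) (nat_lit 39) (nat_lit 5) (nat_lit 40) (nat_lit 5) (nat_lit 296) (nat_lit 249) (nat_lit 175)) (XT.lf (nat_lit 0) (nat_lit 3341409893) (nat_lit 228) (nat_lit 16401328332) (nat_lit 76) (nat_lit 8904744191) (nat_lit 34) (nat_lit 5) (nat_lit 37) (nat_lit 5) (nat_lit 35) (nat_lit 5) (nat_lit 297) (nat_lit 249) (nat_lit 174))))))) (XT.nd (nat_lit 858) (nat_lit 608) (nat_lit 0) (XT.nd (nat_lit 390) (nat_lit 456) (nat_lit 0) (XT.nd (nat_lit 156) (nat_lit 380) (nat_lit 0) (XT.nd (nat_lit 78) (nat_lit 0) (nat_lit 0) (XT.lf (nat_lit 0) (nat_lit 827723642) (nat_lit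 152) (nat_lit 9702325487) (nat_lit 228) (nat_lit 19212670441) (nat_lit 32) (nat_lit 5) (nat_lit 34) (nat_lit 5) (nat_lit 35) (nat_lit 5) (nat_lit 298) (nat_lit 249) (nat_lit 173)) (XT.lf (nat_lit 0) (nat_lit 18230971975) (nat_lit 228) (nat_lit 11678713063) (nat_lit 76) (nat_lit 978468804) (nat_lit 32) (nat_lit 5) (nat_lit 35) (nat_lit 5) (nat_lit 33) (nat_lit 5) (nat_lit 299) (nat_lit 249) (nat_lit 172))) (XT.nd (nat_lit 78) (nat_lit 228) (nat_lit 0) (XT.lf (nat_lit 0) (nat_lit 6406197291) (nat_lit 152) (nat_lit 20045744414) (nat_lit 228) (nat_lit 5634887924) (nat_lit 30) (nat_lit 5) (nat_lit 32) (nat_lit 5) (nat_lit 33) (nat_lit 5) (nat_lit 300) (nat_lit 249) (nat_lit 171)) (XT.nd (nat_lit 78) (nat_lit 152) (nat_lit 0) (XT.lf (nat_lit 0) (nat_lit 1802038535) (nat_lit 228) (nat_lit 7759938520) (nat_lit 76) (nat_lit 23780055847) (nat_lit 29) (nat_lit 5) (nat_lit 32) (nat_lit 5) (nat_lit 30)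 (nat_lit 5) (nat_lit 301) (nat_lit 249) (nat_lit 170)) (XT.lf (nat_lit 0) (nat_lit 9595384334) (nat_lit 228) (nat_lit 23490788814) (nat_lit 76) (nat_lit 1569133583) (nat_lit 27) (nat_lit 5) (nat_lit 30) (nat_lit 5) (nat_lit 28) (nat_lit 5) (nat_lit 302) (nat_lit 249) (nat_lit 169))))) (XT.nd (nat_lit 234) (nat_lit 304) (nat_lit 0) (XT.nd (nat_lit 78) (nat_lit 152) (nat_lit 0) (XT.lf (nat_lit 0) (nat_lit 17933348093) (nat_lit 228) (nat_lit 4968973060) (nat_lit 76) (nat_lit 13127291202) (nat_lit 27) (nat_lit 5) (nat_lit 30) (nat_lit 5) (nat_lit 28) (nat_lit 5) (nat_lit 303) (nat_lit 249) (nat_lit 168)) (XT.nd (nat_lit 78) (nat_lit 0) (nat_lit 0) (XT.lf (nat_lit 0) (nat_lit 14730978336) (nat_lit 152) (nat_lit 12077660299) (nat_lit 228) (nat_lit 10660397601) (nat_lit 25) (nat_lit 5) (nat_lit 27) (nat_lit 5) (nat_lit 28) (nat_lit 5) (nat_lit 304) (nat_lit 249) (nat_lit 167)) (XT.lf (nat_lit 0)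 (nat_lit 35485369643) (nat_lit 152) (nat_lit 672978364) (nat_lit 228) (nat_lit 2821178752) (nat_lit 25) (nat_lit 5) (nat_lit 27) (nat_lit 5) (nat_lit 28) (nat_lit 5) (nat_lit 305) (nat_lit 249) (nat_lit 166)))) (XT.nd (nat_lit 78) (nat_lit 152) (nat_lit 0) (XT.lf (nat_lit 0) (nat_lit 5558352611) (nat_lit 152) (nat_lit 23712661570) (nat_lit 76) (nat_lit 11285363838) (nat_lit 23) (nat_lit 5) (nat_lit 25) (nat_lit 5) (nat_lit 24) (nat_lit 5) (nat_lit 306) (nat_lit 249) (nat_lit 165)) (XT.nd (nat_lit 78) (nat_lit 152) (nat_lit 0) (XT.lf (nat_lit 0) (nat_lit 14322950071) (nat_lit 152) (nat_lit 4007787832) (nat_lit 76) (nat_lit 23879776168) (nat_lit 23) (nat_lit 5) (nat_lit 25) (nat_lit 5) (nat_lit 24) (nat_lit 5) (nat_lit 307) (nat_lit 249) (nat_lit 164)) (XT.lf (nat_lit 0) (nat_lit 16982604357) (nat_lit 152) (nat_lit 6688111205) (nat_lit 228) (nat_lit 20272305866) (nat_lit 21) (nat_lit 5) (nat_lit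 23) (nat_lit 5) (nat_lit 24) (nat_lit 5) (nat_lit 308) (nat_lit 249) (nat_lit 163)))))) (XT.nd (nat_lit 390) (nat_lit 304) (nat_lit 0) (XT.nd (nat_lit 156) (nat_lit 228) (nat_lit 0) (XT.nd (nat_lit 78) (nat_lit 76) (nat_lit 0) (XT.lf (nat_lit 0) (nat_lit 33562908246) (nat_lit 228) (nat_lit 6738928230) (nat_lit 76) (nat_lit 5458018552) (nat_lit 21) (nat_lit 5) (nat_lit 24) (nat_lit 5) (nat_lit 22) (nat_lit 4) (nat_lit 309) (nat_lit 249) (nat_lit 162)) (XT.lf (nat_lit 0) (nat_lit 14683468353) (nat_lit 76) (nat_lit 29457895475) (nat_lit 152) (nat_lit 3520428352) (nat_lit 20) (nat_lit 5) (nat_lit 21) (nat_lit 5) (nat_lit 22) (nat_lit 4) (nat_lit 310) (nat_lit 249) (nat_lit 161))) (XT.nd (nat_lit 78) (nat_lit 152) (nat_lit 0) (XT.lf (nat_lit 0) (nat_lit 5534260017) (nat_lit 152) (nat_lit 12422051335) (nat_lit 76) (nat_lit 31699310731) (nat_lit 19) (nat_lit 5) (nat_lit 21) (nat_lit 5) (nat_lit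 20) (nat_lit 5) (nat_lit 311) (nat_lit 249) (nat_lit 160)) (XT.nd (nat_lit 78) (nat_lit 0) (nat_lit 0) (XT.lf (nat_lit 0) (nat_lit 9280265759) (nat_lit 152) (nat_lit 5762650968) (nat_lit 228) (nat_lit 36702969930) (nat_lit 17) (nat_lit 5) (nat_lit 19) (nat_lit 5) (nat_lit 20) (nat_lit 5) (nat_lit 312) (nat_lit 249) (nat_lit 159)) (XT.lf (nat_lit 0) (nat_lit 25208374810) (nat_lit 228) (nat_lit 21705397510) (nat_lit 76) (nat_lit 7021460703) (nat_lit 17) (nat_lit 5) (nat_lit 20) (nat_lit 5) (nat_lit 18) (nat_lit 4) (nat_lit 313) (nat_lit 249) (nat_lit 158))))) (XT.nd (nat_lit 234) (nat_lit 228) (nat_lit 0) (XT.nd (nat_lit 78) (nat_lit 0) (nat_lit 0) (XT.lf (nat_lit 0) (nat_lit 9227759) (nat_lit 76) (nat_lit 35916415291) (nat_lit 152) (nat_lit 20307106701) (nat_lit 16) (nat_lit 5) (nat_lit 17) (nat_lit 5) (nat_lit 18) (nat_lit 4) (nat_lit 314) (nat_lit 249) (nat_lit 157)) (XT.nd (nat_lit 78)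 (nat_lit 0) (nat_lit 0) (XT.lf (nat_lit 0) (nat_lit 23238272292) (nat_lit 76) (nat_lit 24149686508) (nat_lit 152) (nat_lit 11250916720) (nat_lit 16) (nat_lit 5) (nat_lit 17) (nat_lit 5) (nat_lit 18) (nat_lit 4) (nat_lit 315) (nat_lit 249) (nat_lit 156)) (XT.lf (nat_lit 0) (nat_lit 47605063365) (nat_lit 76) (nat_lit 11804751903) (nat_lit 152) (nat_lit 1755907869) (nat_lit 16) (nat_lit 5) (nat_lit 17) (nat_lit 5) (nat_lit 18) (nat_lit 4) (nat_lit 316) (nat_lit 249) (nat_lit 155)))) (XT.nd (nat_lit 78) (nat_lit 0) (nat_lit 0) (XT.lf (nat_lit 0) (nat_lit 8144095878) (nat_lit 228) (nat_lit 54372970592) (nat_lit 76) (nat_lit 1296769865) (nat_lit 13) (nat_lit 5) (nat_lit 16) (nat_lit 5) (nat_lit 14) (nat_lit 4) (nat_lit 317) (nat_lit 249) (nat_lit 154)) (XT.nd (nat_lit 78) (nat_lit 0) (nat_lit 0) (XT.lf (nat_lit 0) (nat_lit 18750500665) (nat_lit 228) (nat_lit 32875060093) (nat_lit 76) (nat_lit 14960848725)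 (nat_lit 13) (nat_lit 5) (nat_lit 16) (nat_lit 5) (nat_lit 14) (nat_lit 4) (nat_lit 318) (nat_lit 249) (nat_lit 153)) (XT.lf (nat_lit 0) (nat_lit 29875085467) (nat_lit 228) (nat_lit 10323668391) (nat_lit 76) (nat_lit 29299228606) (nat_lit 13) (nat_lit 5) (nat_lit 16) (nat_lit 5) (nat_lit 14) (nat_lit 4) (nat_lit 319) (nat_lit 249) (nat_lit 152))))))))
noncomputable def xc69 : XT := (XT.nd (nat_lit 32916) (nat_lit 0) (nat_lit 4636) (XT.nd (nat_lit 32058) (nat_lit 0) (nat_lit 14516) (XT.nd (nat_lit 390) (nat_lit 76) (nat_lit 0) (XT.nd (nat_lit 156) (nat_lit 152) (nat_lit 0) (XT.nd (nat_lit 78) (nat_lit 0) (nat_lit 0) (XT.lf (nat_lit 0) (nat_lit 13600288926) (nat_lit 76) (nat_lit 28074782761) (nat_lit 152) (nat_lit 30876493878) (nat_lit 12) (nat_lit 5) (nat_lit 13) (nat_lit 5) (nat_lit 14) (nat_lit 4) (nat_lit 320) (nat_lit 249) (nat_lit 151)) (XT.lf (nat_lit 0) (nat_lit 38916368429) (nat_lit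 76) (nat_lit 15243759879) (nat_lit 152) (nat_lit 21594853703) (nat_lit 12) (nat_lit 5) (nat_lit 13) (nat_lit 5) (nat_lit 14) (nat_lit 4) (nat_lit 321) (nat_lit 249) (nat_lit 150))) (XT.nd (nat_lit 78) (nat_lit 152) (nat_lit 0) (XT.lf (nat_lit 0) (nat_lit 65479385254) (nat_lit 76) (nat_lit 1779383966) (nat_lit 152) (nat_lit 11860126135) (nat_lit 12) (nat_lit 5) (nat_lit 13) (nat_lit 5) (nat_lit 14) (nat_lit 4) (nat_lit 322) (nat_lit 249) (nat_lit 149)) (XT.nd (nat_lit 78) (nat_lit 76) (nat_lit 0) (XT.lf (nat_lit 0) (nat_lit 10793163630) (nat_lit 76) (nat_lit 70431488154) (nat_lit 76) (nat_lit 1419989028) (nat_lit 11) (nat_lit 4) (nat_lit 12) (nat_lit 5) (nat_lit 12) (nat_lit 4) (nat_lit 323) (nat_lit 249) (nat_lit 148)) (XT.lf (nat_lit 0) (nat_lit 9505688079) (nat_lit 152) (nat_lit 49738926281) (nat_lit 76) (nat_lit 27094820685) (nat_lit 10) (nat_lit 5) (nat_lit 12) (nat_lit 5) (nat_lit 11)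 (nat_lit 4) (nat_lit 324) (nat_lit 249) (nat_lit 147))))) (XT.nd (nat_lit 234) (nat_lit 0) (nat_lit 0) (XT.nd (nat_lit 78) (nat_lit 76) (nat_lit 0) (XT.lf (nat_lit 0) (nat_lit 20939010028) (nat_lit 152) (nat_lit 26552115064) (nat_lit 76) (nat_lit 42727705311) (nat_lit 10) (nat_lit 5) (nat_lit 12) (nat_lit 5) (nat_lit 11) (nat_lit 4) (nat_lit 325) (nat_lit 249) (nat_lit 146)) (XT.nd (nat_lit 78) (nat_lit 76) (nat_lit 0) (XT.lf (nat_lit 0) (nat_lit 32934908114) (nat_lit 152) (nat_lit 2222187036) (nat_lit 76) (nat_lit 59135377886) (nat_lit 10) (nat_lit 5) (nat_lit 12) (nat_lit 5) (nat_lit 11) (nat_lit 4) (nat_lit 326) (nat_lit 249) (nat_lit 145)) (XT.lf (nat_lit 0) (nat_lit 23772676750) (nat_lit 76) (nat_lit 21977784759) (nat_lit 152) (nat_lit 52812745060) (nat_lit 9) (nat_lit 5) (nat_lit 10) (nat_lit 5) (nat_lit 11) (nat_lit 4) (nat_lit 327) (nat_lit 249) (nat_lit 144)))) (XT.nd (nat_lit 78)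 (nat_lit 0) (nat_lit 0) (XT.lf (nat_lit 0) (nat_lit 51098712616) (nat_lit 76) (nat_lit 8122566282) (nat_lit 152) (nat_lit 43825767653) (nat_lit 9) (nat_lit 5) (nat_lit 10) (nat_lit 5) (nat_lit 11) (nat_lit 4) (nat_lit 328) (nat_lit 249) (nat_lit 143)) (XT.nd (nat_lit 78) (nat_lit 0) (nat_lit 0) (XT.lf (nat_lit 0) (nat_lit 73419351912) (nat_lit 152) (nat_lit 28040270109) (nat_lit 0) (nat_lit 6293849221) (nat_lit 9) (nat_lit 5) (nat_lit 11) (nat_lit 4) (nat_lit 9) (nat_lit 4) (nat_lit 329) (nat_lit 249) (nat_lit 142)) (XT.lf (nat_lit 0) (nat_lit 88401644705) (nat_lit 152) (nat_lit 3032573599) (nat_lit 0) (nat_lit 21258773338) (nat_lit 9) (nat_lit 5) (nat_lit 11) (nat_lit 4) (nat_lit 9) (nat_lit 4) (nat_lit 330) (nat_lit 249) (nat_lit 141)))))) (XT.nd (nat_lit 390) (nat_lit 1596) (nat_lit 0) (XT.nd (nat_lit 156) (nat_lit 0) (nat_lit 0) (XT.nd (nat_lit 78) (nat_lit 836) (nat_lit 0) (XT.lf (nat_lit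 0) (nat_lit 3391762596) (nat_lit 836) (nat_lit 212434824) (nat_lit 836) (nat_lit 212434824) (nat_lit 232) (nat_lit 3) (nat_lit 243) (nat_lit 3) (nat_lit 243) (nat_lit 5) (nat_lit 250) (nat_lit 250) (nat_lit 220)) (XT.lf (nat_lit 0) (nat_lit 1295583976) (nat_lit 836) (nat_lit 2468636420) (nat_lit 912) (nat_lit 3991266328) (nat_lit 221) (nat_lit 5) (nat_lit 232) (nat_lit 3) (nat_lit 233) (nat_lit 5) (nat_lit 251) (nat_lit 250) (nat_lit 219))) (XT.nd (nat_lit 78) (nat_lit 0) (nat_lit 76) (XT.lf (nat_lit 76) (nat_lit 3394138976) (nat_lit 0) (nat_lit 38683386) (nat_lit 912) (nat_lit 4453958577) (nat_lit 222) (nat_lit 5) (nat_lit 221) (nat_lit 5) (nat_lit 233) (nat_lit 5) (nat_lit 252) (nat_lit 250) (nat_lit 218)) (XT.nd (nat_lit 78) (nat_lit 0) (nat_lit 0) (XT.lf (nat_lit 76) (nat_lit 1493995979) (nat_lit 0) (nat_lit 4131509102) (nat_lit 912) (nat_lit 2400943934) (nat_lit 223) (nat_lit 5) (nat_lit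 222) (nat_lit 5) (nat_lit 234) (nat_lit 5) (nat_lit 253) (nat_lit 250) (nat_lit 217)) (XT.lf (nat_lit 76) (nat_lit 7800175371) (nat_lit 0) (nat_lit 51030186) (nat_lit 912) (nat_lit 324447355) (nat_lit 223) (nat_lit 5) (nat_lit 222) (nat_lit 5) (nat_lit 234) (nat_lit 5) (nat_lit 254) (nat_lit 250) (nat_lit 216))))) (XT.nd (nat_lit 234) (nat_lit 836) (nat_lit 0) (XT.nd (nat_lit 78) (nat_lit 0) (nat_lit 76) (XT.lf (nat_lit 0) (nat_lit 1801592861) (nat_lit 912) (nat_lit 2257198747) (nat_lit 988) (nat_lit 4273766987) (nat_lit 211) (nat_lit 5) (nat_lit 223) (nat_lit 5) (nat_lit 224) (nat_lit 5) (nat_lit 255) (nat_lit 250) (nat_lit 215)) (XT.nd (nat_lit 78) (nat_lit 0) (nat_lit 0) (XT.lf (nat_lit 0) (nat_lit 3964199648) (nat_lit 912) (nat_lit 4136945861) (nat_lit 988) (nat_lit 398182053) (nat_lit 212) (nat_lit 5) (nat_lit 224) (nat_lit 5) (nat_lit 225) (nat_lit 5) (nat_lit 256) (nat_lit 250) (nat_lit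 214)) (XT.lf (nat_lit 76) (nat_lit 2620248698) (nat_lit 0) (nat_lit 3595980373) (nat_lit 988) (nat_lit 2458980100) (nat_lit 213) (nat_lit 5) (nat_lit 212) (nat_lit 5) (nat_lit 225) (nat_lit 5) (nat_lit 257) (nat_lit 250) (nat_lit 213)))) (XT.nd (nat_lit 78) (nat_lit 988) (nat_lit 0) (XT.lf (nat_lit 76) (nat_lit 871337162) (nat_lit 0) (nat_lit 7668220705) (nat_lit 988) (nat_lit 321768879) (nat_lit 214) (nat_lit 5) (nat_lit 213) (nat_lit 5) (nat_lit 226) (nat_lit 5) (nat_lit 258) (nat_lit 250) (nat_lit 212)) (XT.nd (nat_lit 78) (nat_lit 0) (nat_lit 76) (XT.lf (nat_lit 0) (nat_lit 1883479864) (nat_lit 988) (nat_lit 917242881) (nat_lit 1064) (nat_lit 6255700000) (nat_lit 200) (nat_lit 5) (nat_lit 213) (nat_lit 5) (nat_lit 214) (nat_lit 5) (nat_lit 259) (nat_lit 250) (nat_lit 211)) (XT.lf (nat_lit 0) (nat_lit 4182766530) (nat_lit 988) (nat_lit 2725269386) (nat_lit 76) (nat_lit 2353607755) (nat_lit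 201) (nat_lit 5) (nat_lit 214) (nat_lit 5) (nat_lit 202) (nat_lit 5) (nat_lit 260) (nat_lit 250) (nat_lit 210))))))) (XT.nd (nat_lit 858) (nat_lit 3420) (nat_lit 0) (XT.nd (nat_lit 390) (nat_lit 2736) (nat_lit 0) (XT.nd (nat_lit 156) (nat_lit 1748) (nat_lit 0) (XT.nd (nat_lit 78) (nat_lit 1064) (nat_lit 0) (XT.lf (nat_lit 0) (nat_lit 4897430815) (nat_lit 988) (nat_lit 1692767673) (nat_lit 1064) (nat_lit 2887301829) (nat_lit 188) (nat_lit 5) (nat_lit 201) (nat_lit 5) (nat_lit 202) (nat_lit 5) (nat_lit 261) (nat_lit 250) (nat_lit 209)) (XT.lf (nat_lit 0) (nat_lit 3205229571) (nat_lit 1064) (nat_lit 5920398546) (nat_lit 1140) (nat_lit 578454897) (nat_lit 174) (nat_lit 5) (nat_lit 188) (nat_lit 5) (nat_lit 189) (nat_lit 5) (nat_lit 262) (nat_lit 250) (nat_lit 208))) (XT.nd (nat_lit 78) (nat_lit 532) (nat_lit 0) (XT.lf (nat_lit 0) (nat_lit 1452713273) (nat_lit 1140) (nat_lit 350375369) (nat_lit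 1216) (nat_lit 8138725504) (nat_lit 158) (nat_lit 5) (nat_lit 173) (nat_lit 5) (nat_lit 174) (nat_lit 5) (nat_lit 263) (nat_lit 250) (nat_lit 207)) (XT.nd (nat_lit 78) (nat_lit 532) (nat_lit 0) (XT.lf (nat_lit 0) (nat_lit 4330329120) (nat_lit 1216) (nat_lit 386905872) (nat_lit 76) (nat_lit 5473010193) (nat_lit 158) (nat_lit 5) (nat_lit 174) (nat_lit 5) (nat_lit 159) (nat_lit 5) (nat_lit 264) (nat_lit 250) (nat_lit 206)) (XT.lf (nat_lit 0) (nat_lit 6999991012) (nat_lit 608) (nat_lit 2258013573) (nat_lit 76) (nat_lit 1192747277) (nat_lit 151) (nat_lit 5) (nat_lit 159) (nat_lit 5) (nat_lit 152) (nat_lit 5) (nat_lit 265) (nat_lit 250) (nat_lit 205))))) (XT.nd (nat_lit 234) (nat_lit 988) (nat_lit 0) (XT.nd (nat_lit 78) (nat_lit 1140) (nat_lit 0) (XT.lf (nat_lit 0) (nat_lit 6491769925) (nat_lit 608) (nat_lit 3350452530) (nat_lit 684) (nat_lit 881018220) (nat_lit 143) (nat_lit 5) (nat_lit 151) (nat_lit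 5) (nat_lit 152) (nat_lit 5) (nat_lit 266) (nat_lit 250) (nat_lit 204)) (XT.nd (nat_lit 78) (nat_lit 532) (nat_lit 0) (XT.lf (nat_lit 0) (nat_lit 1805985787) (nat_lit 608) (nat_lit 6317409636) (nat_lit 76) (nat_lit 2884827071) (nat_lit 135) (nat_lit 5) (nat_lit 143) (nat_lit 5) (nat_lit 136) (nat_lit 5) (nat_lit 267) (nat_lit 250) (nat_lit 203)) (XT.lf (nat_lit 0) (nat_lit 2780418850) (nat_lit 532) (nat_lit 1863310613) (nat_lit 608) (nat_lit 6662537892) (nat_lit 128) (nat_lit 5) (nat_lit 135) (nat_lit 5) (nat_lit 136) (nat_lit 5) (nat_lit 268) (nat_lit 250) (nat_lit 202)))) (XT.nd (nat_lit 78) (nat_lit 532) (nat_lit 0) (XT.lf (nat_lit 0) (nat_lit 744274561) (nat_lit 456) (nat_lit 6929733802) (nat_lit 532) (nat_lit 3943795177) (nat_lit 122) (nat_lit 5) (nat_lit 128) (nat_lit 5) (nat_lit 129) (nat_lit 5) (nat_lit 269) (nat_lit 250) (nat_lit 201)) (XT.nd (nat_lit 78) (nat_lit 532) (nat_lit 0)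 (XT.lf (nat_lit 0) (nat_lit 10566735729) (nat_lit 456) (nat_lit 330536168) (nat_lit 532) (nat_lit 1046503871) (nat_lit 122) (nat_lit 5) (nat_lit 128) (nat_lit 5) (nat_lit 129) (nat_lit 5) (nat_lit 270) (nat_lit 250) (nat_lit 200)) (XT.lf (nat_lit 0) (nat_lit 2041967491) (nat_lit 532) (nat_lit 3673089340) (nat_lit 76) (nat_lit 6567952105) (nat_lit 115) (nat_lit 5) (nat_lit 122) (nat_lit 5) (nat_lit 116) (nat_lit 5) (nat_lit 271) (nat_lit 250) (nat_lit 199)))))) (XT.nd (nat_lit 390) (nat_lit 1748) (nat_lit 0) (XT.nd (nat_lit 156) (nat_lit 836) (nat_lit 0) (XT.nd (nat_lit 78) (nat_lit 456) (nat_lit 0) (XT.lf (nat_lit 0) (nat_lit 5295603152) (nat_lit 456) (nat_lit 6118765246) (nat_lit 76) (nat_lit 1223644017) (nat_lit 110) (nat_lit 5) (nat_lit 116) (nat_lit 5) (nat_lit 111) (nat_lit 5) (nat_lit 272) (nat_lit 250) (nat_lit 198)) (XT.lf (nat_lit 0) (nat_lit 4245271701) (nat_lit 456) (nat_lit 4545230976)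 (nat_lit 532) (nat_lit 4217992608) (nat_lit 104) (nat_lit 5) (nat_lit 110) (nat_lit 5) (nat_lit 111) (nat_lit 5) (nat_lit 273) (nat_lit 250) (nat_lit 197))) (XT.nd (nat_lit 78) (nat_lit 456) (nat_lit 0) (XT.lf (nat_lit 0) (nat_lit 1801085718) (nat_lit 380) (nat_lit 10709568334) (nat_lit 456) (nat_lit 885415594) (nat_lit 99) (nat_lit 5) (nat_lit 104) (nat_lit 5) (nat_lit 105) (nat_lit 5) (nat_lit 274) (nat_lit 250) (nat_lit 196)) (XT.nd (nat_lit 78) (nat_lit 380) (nat_lit 0) (XT.lf (nat_lit 0) (nat_lit 2645133910) (nat_lit 456) (nat_lit 862260039) (nat_lit 76) (nat_lit 10292480905) (nat_lit 98) (nat_lit 5) (nat_lit 104) (nat_lit 5) (nat_lit 99) (nat_lit 5) (nat_lit 275) (nat_lit 250) (nat_lit 195)) (XT.lf (nat_lit 0) (nat_lit 6423317644) (nat_lit 456) (nat_lit 3721918179) (nat_lit 76) (nat_lit 4075761648) (nat_lit 93) (nat_lit 5) (nat_lit 99) (nat_lit 5) (nat_lit 94) (nat_lit 5) (nat_lit 276)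 (nat_lit 250) (nat_lit 194))))) (XT.nd (nat_lit 234) (nat_lit 684) (nat_lit 0) (XT.nd (nat_lit 78) (nat_lit 760) (nat_lit 0) (XT.lf (nat_lit 0) (nat_lit 7837805972) (nat_lit 304) (nat_lit 2622053932) (nat_lit 380) (nat_lit 4201302070) (nat_lit 89) (nat_lit 5) (nat_lit 93) (nat_lit 5) (nat_lit 94) (nat_lit 5) (nat_lit 277) (nat_lit 250) (nat_lit 193)) (XT.nd (nat_lit 78) (nat_lit 380) (nat_lit 0) (XT.lf (nat_lit 0) (nat_lit 4913046215) (nat_lit 380) (nat_lit 9873252455) (nat_lit 456) (nat_lit 334459890) (nat_lit 84) (nat_lit 5) (nat_lit 89) (nat_lit 5) (nat_lit 90) (nat_lit 5) (nat_lit 278) (nat_lit 250) (nat_lit 192)) (XT.lf (nat_lit 0) (nat_lit 1685516576) (nat_lit 304) (nat_lit 2033730350) (nat_lit 380) (nat_lit 11881087855) (nat_lit 79) (nat_lit 5) (nat_lit 83) (nat_lit 5) (nat_lit 84) (nat_lit 5) (nat_lit 279) (nat_lit 250) (nat_lit 191)))) (XT.nd (nat_lit 78) (nat_lit 684) (nat_lit 0)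 (XT.lf (nat_lit 0) (nat_lit 8088641563) (nat_lit 380) (nat_lit 1839551814) (nat_lit 76) (nat_lit 6172057570) (nat_lit 79) (nat_lit 5) (nat_lit 84) (nat_lit 5) (nat_lit 80) (nat_lit 5) (nat_lit 280) (nat_lit 250) (nat_lit 190)) (XT.nd (nat_lit 78) (nat_lit 380) (nat_lit 0) (XT.lf (nat_lit 0) (nat_lit 10974493739) (nat_lit 304) (nat_lit 1784374388) (nat_lit 380) (nat_lit 3863879231) (nat_lit 75) (nat_lit 5) (nat_lit 79) (nat_lit 5) (nat_lit 80) (nat_lit 5) (nat_lit 281) (nat_lit 250) (nat_lit 189)) (XT.lf (nat_lit 0) (nat_lit 594940293) (nat_lit 380) (nat_lit 9857572999) (nat_lit 76) (nat_lit 6715366107) (nat_lit 70) (nat_lit 5) (nat_lit 75) (nat_lit 5) (nat_lit 71) (nat_lit 5) (nat_lit 282) (nat_lit 250) (nat_lit 188))))))))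
noncomputable def xc70 : XT := (XT.nd (nat_lit 1716) (nat_lit 1292) (nat_lit 0) (XT.nd (nat_lit 858) (nat_lit 1216) (nat_lit 0) (XT.nd (nat_lit 390) (nat_lit 912) (nat_lit 0) (XT.nd (nat_lit 156) (nat_lit 836) (nat_lit 0) (XT.nd (nat_lit 78) (nat_lit 0) (nat_lit 0) (XT.lf (nat_lit 0) (nat_lit 3244726559) (nat_lit 304) (nat_lit 2019474325) (nat_lit 380) (nat_lit 12472945840) (nat_lit 66) (nat_lit 5) (nat_lit 70) (nat_lit 5) (nat_lit 71) (nat_lit 5) (nat_lit 283) (nat_lit 250) (nat_lit 187)) (XT.lf (nat_lit 0) (nat_lit 10295133818) (nat_lit 380) (nat_lit 1247160282) (nat_lit 76) (nat_lit 6788783416) (nat_lit 66) (nat_lit 5) (nat_lit 71) (nat_lit 5) (nat_lit 67) (nat_lit 5) (nat_lit 284) (nat_lit 250) (nat_lit 186))) (XT.nd (nat_lit 78) (nat_lit 608) (nat_lit 0) (XT.lf (nat_lit 0) (nat_lit 12836413248) (nat_lit 228) (nat_lit 2846903518) (nat_lit 304) (nat_lit 3268261152) (nat_lit 63) (nat_lit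 5) (nat_lit 66) (nat_lit 5) (nat_lit 67) (nat_lit 5) (nat_lit 285) (nat_lit 250) (nat_lit 185)) (XT.nd (nat_lit 78) (nat_lit 228) (nat_lit 0) (XT.lf (nat_lit 0) (nat_lit 1819213551) (nat_lit 380) (nat_lit 11526173624) (nat_lit 76) (nat_lit 6253796295) (nat_lit 58) (nat_lit 5) (nat_lit 63) (nat_lit 5) (nat_lit 59) (nat_lit 5) (nat_lit 286) (nat_lit 250) (nat_lit 184)) (XT.lf (nat_lit 0) (nat_lit 2759893442) (nat_lit 228) (nat_lit 4416993818) (nat_lit 304) (nat_lit 13098847631) (nat_lit 55) (nat_lit 5) (nat_lit 58) (nat_lit 5) (nat_lit 59) (nat_lit 5) (nat_lit 287) (nat_lit 250) (nat_lit 183))))) (XT.nd (nat_lit 234) (nat_lit 380) (nat_lit 0) (XT.nd (nat_lit 78) (nat_lit 532) (nat_lit 0) (XT.lf (nat_lit 0) (nat_lit 12934947494) (nat_lit 304) (nat_lit 3082390980) (nat_lit 76) (nat_lit 4964837368) (nat_lit 55) (nat_lit 5) (nat_lit 59) (nat_lit 5) (nat_lit 56) (nat_lit 5) (nat_lit 288) (nat_lit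 250) (nat_lit 182)) (XT.nd (nat_lit 78) (nat_lit 304) (nat_lit 0) (XT.lf (nat_lit 0) (nat_lit 12216897047) (nat_lit 228) (nat_lit 6892716236) (nat_lit 304) (nat_lit 2610499765) (nat_lit 52) (nat_lit 5) (nat_lit 55) (nat_lit 5) (nat_lit 56) (nat_lit 5) (nat_lit 289) (nat_lit 250) (nat_lit 181)) (XT.lf (nat_lit 0) (nat_lit 3120560151) (nat_lit 304) (nat_lit 16631806773) (nat_lit 76) (nat_lit 2739230917) (nat_lit 48) (nat_lit 5) (nat_lit 52) (nat_lit 5) (nat_lit 49) (nat_lit 5) (nat_lit 290) (nat_lit 250) (nat_lit 180)))) (XT.nd (nat_lit 78) (nat_lit 380) (nat_lit 0) (XT.lf (nat_lit 0) (nat_lit 9221445905) (nat_lit 304) (nat_lit 1254395551) (nat_lit 76) (nat_lit 12820953231) (nat_lit 48) (nat_lit 5) (nat_lit 52) (nat_lit 5) (nat_lit 49) (nat_lit 5) (nat_lit 291) (nat_lit 250) (nat_lit 179)) (XT.nd (nat_lit 78) (nat_lit 152) (nat_lit 0) (XT.lf (nat_lit 0) (nat_lit 15141324775) (nat_lit 228) (nat_lit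 601498318) (nat_lit 304) (nat_lit 8395994459) (nat_lit 45) (nat_lit 5) (nat_lit 48) (nat_lit 5) (nat_lit 49) (nat_lit 5) (nat_lit 292) (nat_lit 250) (nat_lit 178)) (XT.lf (nat_lit 0) (nat_lit 7364737604) (nat_lit 152) (nat_lit 15374001895) (nat_lit 228) (nat_lit 2279776131) (nat_lit 43) (nat_lit 5) (nat_lit 45) (nat_lit 5) (nat_lit 46) (nat_lit 5) (nat_lit 293) (nat_lit 250) (nat_lit 177)))))) (XT.nd (nat_lit 390) (nat_lit 532) (nat_lit 0) (XT.nd (nat_lit 156) (nat_lit 380) (nat_lit 0) (XT.nd (nat_lit 78) (nat_lit 228) (nat_lit 0) (XT.lf (nat_lit 0) (nat_lit 4132447268) (nat_lit 228) (nat_lit 1297872362) (nat_lit 76) (nat_lit 20508579770) (nat_lit 42) (nat_lit 5) (nat_lit 45) (nat_lit 5) (nat_lit 43) (nat_lit 5) (nat_lit 294) (nat_lit 250) (nat_lit 176)) (XT.lf (nat_lit 0) (nat_lit 10996128078) (nat_lit 304) (nat_lit 10825726459) (nat_lit 76) (nat_lit 5077455611) (nat_lit 39) (nat_lit 5)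 (nat_lit 43) (nat_lit 5) (nat_lit 40) (nat_lit 5) (nat_lit 295) (nat_lit 250) (nat_lit 175))) (XT.nd (nat_lit 78) (nat_lit 228) (nat_lit 0) (XT.lf (nat_lit 0) (nat_lit 6462495196) (nat_lit 152) (nat_lit 11844451317) (nat_lit 228) (nat_lit 9597699948) (nat_lit 37) (nat_lit 5) (nat_lit 39) (nat_lit 5) (nat_lit 40) (nat_lit 5) (nat_lit 296) (nat_lit 250) (nat_lit 174)) (XT.nd (nat_lit 78) (nat_lit 228) (nat_lit 0) (XT.lf (nat_lit 0) (nat_lit 24800496322) (nat_lit 152) (nat_lit 1268648447) (nat_lit 228) (nat_lit 2888552162) (nat_lit 37) (nat_lit 5) (nat_lit 39) (nat_lit 5) (nat_lit 40) (nat_lit 5) (nat_lit 297) (nat_lit 250) (nat_lit 173)) (XT.lf (nat_lit 0) (nat_lit 4282859138) (nat_lit 228) (nat_lit 15965510363) (nat_lit 76) (nat_lit 9807615551) (nat_lit 34) (nat_lit 5) (nat_lit 37) (nat_lit 5) (nat_lit 35) (nat_lit 5) (nat_lit 298) (nat_lit 250) (nat_lit 172))))) (XT.nd (nat_lit 234) (nat_lit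 228) (nat_lit 0) (XT.nd (nat_lit 78) (nat_lit 152) (nat_lit 0) (XT.lf (nat_lit 0) (nat_lit 2088994536) (nat_lit 152) (nat_lit 9716786898) (nat_lit 228) (nat_lit 19400987576) (nat_lit 32) (nat_lit 5) (nat_lit 34) (nat_lit 5) (nat_lit 35) (nat_lit 5) (nat_lit 299) (nat_lit 250) (nat_lit 171)) (XT.nd (nat_lit 78) (nat_lit 152) (nat_lit 0) (XT.lf (nat_lit 0) (nat_lit 19860381595) (nat_lit 228) (nat_lit 11083175357) (nat_lit 76) (nat_lit 1466888141) (nat_lit 32) (nat_lit 5) (nat_lit 35) (nat_lit 5) (nat_lit 33) (nat_lit 5) (nat_lit 300) (nat_lit 250) (nat_lit 170)) (XT.lf (nat_lit 0) (nat_lit 7872171147) (nat_lit 152) (nat_lit 20597057629) (nat_lit 228) (nat_lit 5200548672) (nat_lit 30) (nat_lit 5) (nat_lit 32) (nat_lit 5) (nat_lit 33) (nat_lit 5) (nat_lit 301) (nat_lit 250) (nat_lit 169)))) (XT.nd (nat_lit 78) (nat_lit 152) (nat_lit 0) (XT.lf (nat_lit 0) (nat_lit 2560816916) (nat_lit 228) (nat_lit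 7043007618) (nat_lit 76) (nat_lit 25384738428) (nat_lit 29) (nat_lit 5) (nat_lit 32) (nat_lit 5) (nat_lit 30) (nat_lit 5) (nat_lit 302) (nat_lit 250) (nat_lit 168)) (XT.nd (nat_lit 78) (nat_lit 0) (nat_lit 0) (XT.lf (nat_lit 0) (nat_lit 10726401026) (nat_lit 228) (nat_lit 23576267441) (nat_lit 76) (nat_lit 2065379232) (nat_lit 27) (nat_lit 5) (nat_lit 30) (nat_lit 5) (nat_lit 28) (nat_lit 5) (nat_lit 303) (nat_lit 250) (nat_lit 167)) (XT.lf (nat_lit 0) (nat_lit 19450251189) (nat_lit 228) (nat_lit 4180220938) (nat_lit 76) (nat_lit 14181550019) (nat_lit 27) (nat_lit 5) (nat_lit 30) (nat_lit 5) (nat_lit 28) (nat_lit 5) (nat_lit 304) (nat_lit 250) (nat_lit 166))))))) (XT.nd (nat_lit 858) (nat_lit 456) (nat_lit 0) (XT.nd (nat_lit 390) (nat_lit 380) (nat_lit 0) (XT.nd (nat_lit 156) (nat_lit 304) (nat_lit 0) (XT.nd (nat_lit 78) (nat_lit 0) (nat_lit 0) (XT.lf (nat_lit 0) (nat_lit 16474996876) (nat_lit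 152) (nat_lit 12274458763) (nat_lit 228) (nat_lit 10574579184) (nat_lit 25) (nat_lit 5) (nat_lit 27) (nat_lit 5) (nat_lit 28) (nat_lit 5) (nat_lit 305) (nat_lit 250) (nat_lit 165)) (XT.lf (nat_lit 0) (nat_lit 38219133005) (nat_lit 152) (nat_lit 318927710) (nat_lit 228) (nat_lit 2372867883) (nat_lit 25) (nat_lit 5) (nat_lit 27) (nat_lit 5) (nat_lit 28) (nat_lit 5) (nat_lit 306) (nat_lit 250) (nat_lit 164))) (XT.nd (nat_lit 78) (nat_lit 152) (nat_lit 0) (XT.lf (nat_lit 0) (nat_lit 6399384374) (nat_lit 152) (nat_lit 23941256725) (nat_lit 76) (nat_lit 12226273454) (nat_lit 23) (nat_lit 5) (nat_lit 25) (nat_lit 5) (nat_lit 24) (nat_lit 5) (nat_lit 307) (nat_lit 250) (nat_lit 163)) (XT.nd (nat_lit 78) (nat_lit 152) (nat_lit 0) (XT.lf (nat_lit 0) (nat_lit 15575396749) (nat_lit 152) (nat_lit 3296712535) (nat_lit 76) (nat_lit 25432471094) (nat_lit 23) (nat_lit 5) (nat_lit 25) (nat_lit 5) (nat_lit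 24) (nat_lit 5) (nat_lit 308) (nat_lit 250) (nat_lit 162)) (XT.lf (nat_lit 0) (nat_lit 18717072311) (nat_lit 152) (nat_lit 6656450555) (nat_lit 228) (nat_lit 20750718705) (nat_lit 21) (nat_lit 5) (nat_lit 23) (nat_lit 5) (nat_lit 24) (nat_lit 5) (nat_lit 309) (nat_lit 250) (nat_lit 161))))) (XT.nd (nat_lit 234) (nat_lit 228) (nat_lit 0) (XT.nd (nat_lit 78) (nat_lit 152) (nat_lit 0) (XT.lf (nat_lit 0) (nat_lit 35738949257) (nat_lit 228) (nat_lit 6220874820) (nat_lit 76) (nat_lit 6072750851) (nat_lit 21) (nat_lit 5) (nat_lit 24) (nat_lit 5) (nat_lit 22) (nat_lit 4) (nat_lit 310) (nat_lit 250) (nat_lit 160)) (XT.nd (nat_lit 78) (nat_lit 76) (nat_lit 0) (XT.lf (nat_lit 0) (nat_lit 16248133193) (nat_lit 76) (nat_lit 30582468302) (nat_lit 152) (nat_lit 3199495226) (nat_lit 20) (nat_lit 5) (nat_lit 21) (nat_lit 5) (nat_lit 22) (nat_lit 4) (nat_lit 311) (nat_lit 250) (nat_lit 159)) (XT.lf (nat_lit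 0) (nat_lit 6275027466) (nat_lit 152) (nat_lit 12242678226) (nat_lit 76) (nat_lit 33606479992) (nat_lit 19) (nat_lit 5) (nat_lit 21) (nat_lit 5) (nat_lit 20) (nat_lit 5) (nat_lit 312) (nat_lit 250) (nat_lit 158)))) (XT.nd (nat_lit 78) (nat_lit 76) (nat_lit 0) (XT.lf (nat_lit 0) (nat_lit 10521809249) (nat_lit 152) (nat_lit 5722684028) (nat_lit 228) (nat_lit 38074923010) (nat_lit 17) (nat_lit 5) (nat_lit 19) (nat_lit 5) (nat_lit 20) (nat_lit 5) (nat_lit 313) (nat_lit 250) (nat_lit 157)) (XT.nd (nat_lit 78) (nat_lit 76) (nat_lit 0) (XT.lf (nat_lit 0) (nat_lit 26899826509) (nat_lit 228) (nat_lit 22040056899) (nat_lit 76) (nat_lit 7678911915) (nat_lit 17) (nat_lit 5) (nat_lit 20) (nat_lit 5) (nat_lit 18) (nat_lit 4) (nat_lit 314) (nat_lit 250) (nat_lit 156)) (XT.lf (nat_lit 0) (nat_lit 738783536) (nat_lit 76) (nat_lit 37400657749) (nat_lit 152) (nat_lit 20892164889) (nat_lit 16) (nat_lit 5) (nat_lit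 17) (nat_lit 5) (nat_lit 18) (nat_lit 4) (nat_lit 315) (nat_lit 250) (nat_lit 155)))))) (XT.nd (nat_lit 390) (nat_lit 228) (nat_lit 0) (XT.nd (nat_lit 156) (nat_lit 228) (nat_lit 0) (XT.nd (nat_lit 78) (nat_lit 0) (nat_lit 0) (XT.lf (nat_lit 0) (nat_lit 25094561515) (nat_lit 76) (nat_lit 25060429588) (nat_lit 152) (nat_lit 11403655749) (nat_lit 16) (nat_lit 5) (nat_lit 17) (nat_lit 5) (nat_lit 18) (nat_lit 4) (nat_lit 316) (nat_lit 250) (nat_lit 154)) (XT.lf (nat_lit 0) (nat_lit 50646626636) (nat_lit 76) (nat_lit 12112378789) (nat_lit 152) (nat_lit 1453411065) (nat_lit 16) (nat_lit 5) (nat_lit 17) (nat_lit 5) (nat_lit 18) (nat_lit 4) (nat_lit 317) (nat_lit 250) (nat_lit 153))) (XT.nd (nat_lit 78) (nat_lit 0) (nat_lit 0) (XT.lf (nat_lit 0) (nat_lit 8924686599) (nat_lit 228) (nat_lit 56432998132) (nat_lit 76) (nat_lit 1635427491) (nat_lit 13) (nat_lit 5) (nat_lit 16) (nat_lit 5) (nat_lit 14)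 (nat_lit 4) (nat_lit 318) (nat_lit 250) (nat_lit 152)) (XT.nd (nat_lit 78) (nat_lit 0) (nat_lit 0) (XT.lf (nat_lit 0) (nat_lit 20043631343) (nat_lit 228) (nat_lit 33891555012) (nat_lit 76) (nat_lit 15969671287) (nat_lit 13) (nat_lit 5) (nat_lit 16) (nat_lit 5) (nat_lit 14) (nat_lit 4) (nat_lit 319) (nat_lit 250) (nat_lit 151)) (XT.lf (nat_lit 0) (nat_lit 31707511782) (nat_lit 228) (nat_lit 10242463158) (nat_lit 76) (nat_lit 31012552061) (nat_lit 13) (nat_lit 5) (nat_lit 16) (nat_lit 5) (nat_lit 14) (nat_lit 4) (nat_lit 320) (nat_lit 250) (nat_lit 150))))) (XT.nd (nat_lit 234) (nat_lit 152) (nat_lit 0) (XT.nd (nat_lit 78) (nat_lit 0) (nat_lit 0) (XT.lf (nat_lit 0) (nat_lit 14860567999) (nat_lit 76) (nat_lit 29226379933) (nat_lit 152) (nat_lit 32082167066) (nat_lit 12) (nat_lit 5) (nat_lit 13) (nat_lit 5) (nat_lit 14) (nat_lit 4) (nat_lit 321) (nat_lit 250) (nat_lit 149)) (XT.nd (nat_lit 78)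 (nat_lit 0) (nat_lit 0) (XT.lf (nat_lit 0) (nat_lit 41414819828) (nat_lit 76) (nat_lit 15765812667) (nat_lit 152) (nat_lit 22352547334) (nat_lit 12) (nat_lit 5) (nat_lit 13) (nat_lit 5) (nat_lit 14) (nat_lit 4) (nat_lit 322) (nat_lit 250) (nat_lit 148)) (XT.lf (nat_lit 0) (nat_lit 69279671639) (nat_lit 76) (nat_lit 1639652968) (nat_lit 152) (nat_lit 12146419057) (nat_lit 12) (nat_lit 5) (nat_lit 13) (nat_lit 5) (nat_lit 14) (nat_lit 4) (nat_lit 323) (nat_lit 250) (nat_lit 147)))) (XT.nd (nat_lit 78) (nat_lit 76) (nat_lit 0) (XT.lf (nat_lit 0) (nat_lit 11850752480) (nat_lit 76) (nat_lit 73725648971) (nat_lit 76) (nat_lit 1191595937) (nat_lit 11) (nat_lit 4) (nat_lit 12) (nat_lit 5) (nat_lit 12) (nat_lit 4) (nat_lit 324) (nat_lit 250) (nat_lit 146)) (XT.nd (nat_lit 78) (nat_lit 0) (nat_lit 0) (XT.lf (nat_lit 0) (nat_lit 10260544213) (nat_lit 152) (nat_lit 51726893367) (nat_lit 76) (nat_lit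 28660434166) (nat_lit 10) (nat_lit 5) (nat_lit 12) (nat_lit 5) (nat_lit 11) (nat_lit 4) (nat_lit 325) (nat_lit 250) (nat_lit 145)) (XT.lf (nat_lit 0) (nat_lit 22252219320) (nat_lit 152) (nat_lit 27404502505) (nat_lit 76) (nat_lit 45064921478) (nat_lit 10) (nat_lit 5) (nat_lit 12) (nat_lit 5) (nat_lit 11) (nat_lit 4) (nat_lit 326) (nat_lit 250) (nat_lit 144))))))))
noncomputable def xc71 : XT := (XT.nd (nat_lit 32994) (nat_lit 0) (nat_lit 2964) (XT.nd (nat_lit 32136) (nat_lit 0) (nat_lit 9576) (XT.nd (nat_lit 31668) (nat_lit 0) (nat_lit 15276) (XT.nd (nat_lit 156) (nat_lit 0) (nat_lit 0) (XT.nd (nat_lit 78) (nat_lit 76) (nat_lit 0) (XT.lf (nat_lit 0) (nat_lit 34835233320) (nat_lit 152) (nat_lit 1880707519) (nat_lit 76) (nat_lit 62283414306) (nat_lit 10) (nat_lit 5) (nat_lit 12) (nat_lit 5) (nat_lit 11) (nat_lit 4) (nat_lit 327) (nat_lit 250) (nat_lit 143)) (XT.lf (nat_lit 0) (nat_lit 25400926088)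 (nat_lit 76) (nat_lit 22882788922) (nat_lit 152) (nat_lit 55200152215) (nat_lit 9) (nat_lit 5) (nat_lit 10) (nat_lit 5) (nat_lit 11) (nat_lit 4) (nat_lit 328) (nat_lit 250) (nat_lit 142))) (XT.nd (nat_lit 78) (nat_lit 0) (nat_lit 0) (XT.lf (nat_lit 0) (nat_lit 54072329675) (nat_lit 76) (nat_lit 8344042144) (nat_lit 152) (nat_lit 45775884513) (nat_lit 9) (nat_lit 5) (nat_lit 10) (nat_lit 5) (nat_lit 11) (nat_lit 4) (nat_lit 329) (nat_lit 250) (nat_lit 141)) (XT.nd (nat_lit 31356) (nat_lit 0) (nat_lit 16112) (XT.lf (nat_lit 0) (nat_lit 77314894716) (nat_lit 152) (nat_lit 29038427441) (nat_lit 0) (nat_lit 6780969509) (nat_lit 9) (nat_lit 5) (nat_lit 11) (nat_lit 4) (nat_lit 9) (nat_lit 4) (nat_lit 330) (nat_lit 250) (nat_lit 140)) (XT.lf (nat_lit 0) (nat_lit 822038122) (nat_lit 0) (nat_lit 822038122) (nat_lit 836) (nat_lit 2296766591) (nat_lit 221) (nat_lit 5) (nat_lit 221) (nat_lit 3) (nat_lit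 232) (nat_lit 3) (nat_lit 251) (nat_lit 251) (nat_lit 218))))) (XT.nd (nat_lit 234) (nat_lit 0) (nat_lit 0) (XT.nd (nat_lit 78) (nat_lit 836) (nat_lit 0) (XT.lf (nat_lit 0) (nat_lit 5314250128) (nat_lit 836) (nat_lit 459091959) (nat_lit 912) (nat_lit 2243102082) (nat_lit 221) (nat_lit 5) (nat_lit 232) (nat_lit 3) (nat_lit 233) (nat_lit 5) (nat_lit 252) (nat_lit 251) (nat_lit 217)) (XT.nd (nat_lit 78) (nat_lit 836) (nat_lit 0) (XT.lf (nat_lit 76) (nat_lit 5635680869) (nat_lit 0) (nat_lit 1754304978) (nat_lit 912) (nat_lit 769758674) (nat_lit 222) (nat_lit 5) (nat_lit 221) (nat_lit 5) (nat_lit 233) (nat_lit 5) (nat_lit 253) (nat_lit 251) (nat_lit 216)) (XT.lf (nat_lit 0) (nat_lit 1181442606) (nat_lit 912) (nat_lit 4608571187) (nat_lit 988) (nat_lit 2521666207) (nat_lit 210) (nat_lit 5) (nat_lit 222) (nat_lit 5) (nat_lit 223) (nat_lit 5) (nat_lit 254) (nat_lit 251) (nat_lit 215)))) (XT.nd (nat_lit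 78) (nat_lit 0) (nat_lit 76) (XT.lf (nat_lit 76) (nat_lit 1763697678) (nat_lit 0) (nat_lit 1398510337) (nat_lit 988) (nat_lit 5310561493) (nat_lit 211) (nat_lit 5) (nat_lit 210) (nat_lit 5) (nat_lit 223) (nat_lit 5) (nat_lit 255) (nat_lit 251) (nat_lit 214)) (XT.nd (nat_lit 78) (nat_lit 0) (nat_lit 0) (XT.lf (nat_lit 0) (nat_lit 5212820359) (nat_lit 912) (nat_lit 191779862) (nat_lit 988) (nat_lit 3238401970) (nat_lit 211) (nat_lit 5) (nat_lit 223) (nat_lit 5) (nat_lit 224) (nat_lit 5) (nat_lit 256) (nat_lit 251) (nat_lit 213)) (XT.lf (nat_lit 76) (nat_lit 6700561583) (nat_lit 0) (nat_lit 641085809) (nat_lit 988) (nat_lit 1481031419) (nat_lit 212) (nat_lit 5) (nat_lit 211) (nat_lit 5) (nat_lit 224) (nat_lit 5) (nat_lit 257) (nat_lit 251) (nat_lit 212)))))) (XT.nd (nat_lit 390) (nat_lit 4028) (nat_lit 0) (XT.nd (nat_lit 156) (nat_lit 836) (nat_lit 0) (XT.nd (nat_lit 78) (nat_lit 0) (nat_lit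 76) (XT.lf (nat_lit 0) (nat_lit 547183075) (nat_lit 988) (nat_lit 4101870857) (nat_lit 1064) (nat_lit 4362530476) (nat_lit 199) (nat_lit 5) (nat_lit 212) (nat_lit 5) (nat_lit 213) (nat_lit 5) (nat_lit 258) (nat_lit 251) (nat_lit 211)) (XT.lf (nat_lit 0) (nat_lit 2614135510) (nat_lit 988) (nat_lit 6117538198) (nat_lit 1064) (nat_lit 478961556) (nat_lit 200) (nat_lit 5) (nat_lit 213) (nat_lit 5) (nat_lit 214) (nat_lit 5) (nat_lit 259) (nat_lit 251) (nat_lit 210))) (XT.nd (nat_lit 78) (nat_lit 912) (nat_lit 0) (XT.lf (nat_lit 76) (nat_lit 1221398549) (nat_lit 0) (nat_lit 3573139014) (nat_lit 1064) (nat_lit 4624968142) (nat_lit 201) (nat_lit 5) (nat_lit 200) (nat_lit 5) (nat_lit 214) (nat_lit 5) (nat_lit 260) (nat_lit 251) (nat_lit 209)) (XT.nd (nat_lit 78) (nat_lit 988) (nat_lit 0) (XT.lf (nat_lit 0) (nat_lit 7077943500) (nat_lit 988) (nat_lit 671363299) (nat_lit 76) (nat_lit 1889855358) (nat_lit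 201) (nat_lit 5) (nat_lit 214) (nat_lit 5) (nat_lit 202) (nat_lit 5) (nat_lit 261) (nat_lit 251) (nat_lit 208)) (XT.lf (nat_lit 0) (nat_lit 7269691141) (nat_lit 988) (nat_lit 2228599075) (nat_lit 1064) (nat_lit 370982387) (nat_lit 188) (nat_lit 5) (nat_lit 201) (nat_lit 5) (nat_lit 202) (nat_lit 5) (nat_lit 262) (nat_lit 251) (nat_lit 207))))) (XT.nd (nat_lit 234) (nat_lit 1216) (nat_lit 0) (XT.nd (nat_lit 78) (nat_lit 1672) (nat_lit 0) (XT.lf (nat_lit 0) (nat_lit 1905716392) (nat_lit 1140) (nat_lit 4613420628) (nat_lit 76) (nat_lit 3590900363) (nat_lit 173) (nat_lit 5) (nat_lit 188) (nat_lit 5) (nat_lit 174) (nat_lit 5) (nat_lit 263) (nat_lit 251) (nat_lit 206)) (XT.nd (nat_lit 78) (nat_lit 532) (nat_lit 0) (XT.lf (nat_lit 0) (nat_lit 3666693328) (nat_lit 1140) (nat_lit 629268811) (nat_lit 1216) (nat_lit 6066682402) (nat_lit 158) (nat_lit 5) (nat_lit 173) (nat_lit 5) (nat_lit 174) (nat_lit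 5) (nat_lit 264) (nat_lit 251) (nat_lit 205)) (XT.lf (nat_lit 0) (nat_lit 1742141623) (nat_lit 532) (nat_lit 5107361503) (nat_lit 608) (nat_lit 3777194838) (nat_lit 151) (nat_lit 5) (nat_lit 158) (nat_lit 5) (nat_lit 159) (nat_lit 5) (nat_lit 265) (nat_lit 251) (nat_lit 204)))) (XT.nd (nat_lit 78) (nat_lit 1216) (nat_lit 0) (XT.lf (nat_lit 0) (nat_lit 9545416232) (nat_lit 608) (nat_lit 246056723) (nat_lit 76) (nat_lit 1112163487) (nat_lit 151) (nat_lit 5) (nat_lit 159) (nat_lit 5) (nat_lit 152) (nat_lit 5) (nat_lit 266) (nat_lit 251) (nat_lit 203)) (XT.nd (nat_lit 78) (nat_lit 532) (nat_lit 0) (XT.lf (nat_lit 0) (nat_lit 1228141376) (nat_lit 684) (nat_lit 2324204576) (nat_lit 76) (nat_lit 7639764139) (nat_lit 142) (nat_lit 5) (nat_lit 151) (nat_lit 5) (nat_lit 143) (nat_lit 5) (nat_lit 267) (nat_lit 251) (nat_lit 202)) (XT.lf (nat_lit 0) (nat_lit 3949434881) (nat_lit 608) (nat_lit 4518844904)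 (nat_lit 76) (nat_lit 3025421609) (nat_lit 135) (nat_lit 5) (nat_lit 143) (nat_lit 5) (nat_lit 136) (nat_lit 5) (nat_lit 268) (nat_lit 251) (nat_lit 201))))))) (XT.nd (nat_lit 858) (nat_lit 2660) (nat_lit 0) (XT.nd (nat_lit 390) (nat_lit 2052) (nat_lit 0) (XT.nd (nat_lit 156) (nat_lit 912) (nat_lit 0) (XT.nd (nat_lit 78) (nat_lit 456) (nat_lit 0) (XT.lf (nat_lit 0) (nat_lit 4973265145) (nat_lit 532) (nat_lit 1877774183) (nat_lit 608) (nat_lit 4958108902) (nat_lit 128) (nat_lit 5) (nat_lit 135) (nat_lit 5) (nat_lit 136) (nat_lit 5) (nat_lit 269) (nat_lit 251) (nat_lit 200)) (XT.lf (nat_lit 0) (nat_lit 2836349181) (nat_lit 456) (nat_lit 7122902583) (nat_lit 532) (nat_lit 2179368244) (nat_lit 122) (nat_lit 5) (nat_lit 128) (nat_lit 5) (nat_lit 129) (nat_lit 5) (nat_lit 270) (nat_lit 251) (nat_lit 199))) (XT.nd (nat_lit 78) (nat_lit 380) (nat_lit 0) (XT.lf (nat_lit 0) (nat_lit 572099381) (nat_lit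 456) (nat_lit 187763973) (nat_lit 532) (nat_lit 11723501294) (nat_lit 115) (nat_lit 5) (nat_lit 121) (nat_lit 5) (nat_lit 122) (nat_lit 5) (nat_lit 271) (nat_lit 251) (nat_lit 198)) (XT.nd (nat_lit 78) (nat_lit 380) (nat_lit 0) (XT.lf (nat_lit 0) (nat_lit 3908920484) (nat_lit 532) (nat_lit 1863831013) (nat_lit 76) (nat_lit 7068796269) (nat_lit 115) (nat_lit 5) (nat_lit 122) (nat_lit 5) (nat_lit 116) (nat_lit 5) (nat_lit 272) (nat_lit 251) (nat_lit 197)) (XT.lf (nat_lit 0) (nat_lit 7262077274) (nat_lit 456) (nat_lit 4437667554) (nat_lit 76) (nat_lit 1516578360) (nat_lit 110) (nat_lit 5) (nat_lit 116) (nat_lit 5) (nat_lit 111) (nat_lit 5) (nat_lit 273) (nat_lit 251) (nat_lit 196))))) (XT.nd (nat_lit 234) (nat_lit 760) (nat_lit 0) (XT.nd (nat_lit 78) (nat_lit 836) (nat_lit 0) (XT.lf (nat_lit 0) (nat_lit 6387613253) (nat_lit 456) (nat_lit 4481628567) (nat_lit 532) (nat_lit 2738083687) (nat_lit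 104) (nat_lit 5) (nat_lit 110) (nat_lit 5) (nat_lit 111) (nat_lit 5) (nat_lit 274) (nat_lit 251) (nat_lit 195)) (XT.nd (nat_lit 78) (nat_lit 380) (nat_lit 0) (XT.lf (nat_lit 0) (nat_lit 688675411) (nat_lit 456) (nat_lit 10209560546) (nat_lit 76) (nat_lit 3117662769) (nat_lit 98) (nat_lit 5) (nat_lit 104) (nat_lit 5) (nat_lit 99) (nat_lit 5) (nat_lit 275) (nat_lit 251) (nat_lit 194)) (XT.lf (nat_lit 0) (nat_lit 976769015) (nat_lit 380) (nat_lit 3334030183) (nat_lit 456) (nat_lit 10130937717) (nat_lit 93) (nat_lit 5) (nat_lit 98) (nat_lit 5) (nat_lit 99) (nat_lit 5) (nat_lit 276) (nat_lit 251) (nat_lit 193)))) (XT.nd (nat_lit 78) (nat_lit 760) (nat_lit 0) (XT.lf (nat_lit 0) (nat_lit 8216602498) (nat_lit 456) (nat_lit 2055520182) (nat_lit 76) (nat_lit 4613733072) (nat_lit 93) (nat_lit 5) (nat_lit 99) (nat_lit 5) (nat_lit 94) (nat_lit 5) (nat_lit 277) (nat_lit 251) (nat_lit 192)) (XT.nd (nat_lit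 78) (nat_lit 456) (nat_lit 0) (XT.lf (nat_lit 0) (nat_lit 10029088812) (nat_lit 304) (nat_lit 2373079018) (nat_lit 380) (nat_lit 2947541344) (nat_lit 89) (nat_lit 5) (nat_lit 93) (nat_lit 5) (nat_lit 94) (nat_lit 5) (nat_lit 278) (nat_lit 251) (nat_lit 191)) (XT.lf (nat_lit 0) (nat_lit 1043452171) (nat_lit 456) (nat_lit 8897817183) (nat_lit 76) (nat_lit 5892209041) (nat_lit 83) (nat_lit 5) (nat_lit 89) (nat_lit 5) (nat_lit 84) (nat_lit 5) (nat_lit 279) (nat_lit 251) (nat_lit 190)))))) (XT.nd (nat_lit 468) (nat_lit 1140) (nat_lit 0) (XT.nd (nat_lit 234) (nat_lit 912) (nat_lit 0) (XT.nd (nat_lit 78) (nat_lit 304) (nat_lit 0) (XT.lf (nat_lit 0) (nat_lit 3534616183) (nat_lit 304) (nat_lit 1709255002) (nat_lit 380) (nat_lit 11094619621) (nat_lit 79) (nat_lit 5) (nat_lit 83) (nat_lit 5) (nat_lit 84) (nat_lit 5) (nat_lit 280) (nat_lit 251) (nat_lit 189)) (XT.nd (nat_lit 78) (nat_lit 304) (nat_lit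 0) (XT.lf (nat_lit 0) (nat_lit 9771891203) (nat_lit 380) (nat_lit 214778963) (nat_lit 76) (nat_lit 6878608938) (nat_lit 79) (nat_lit 5) (nat_lit 84) (nat_lit 5) (nat_lit 80) (nat_lit 5) (nat_lit 281) (nat_lit 251) (nat_lit 188)) (XT.lf (nat_lit 0) (nat_lit 13190758561) (nat_lit 304) (nat_lit 1440003876) (nat_lit 380) (nat_lit 2784561034) (nat_lit 75) (nat_lit 5) (nat_lit 79) (nat_lit 5) (nat_lit 80) (nat_lit 5) (nat_lit 282) (nat_lit 251) (nat_lit 187)))) (XT.nd (nat_lit 78) (nat_lit 532) (nat_lit 0) (XT.lf (nat_lit 0) (nat_lit 1833011956) (nat_lit 380) (nat_lit 8671829265) (nat_lit 76) (nat_lit 7483755939) (nat_lit 70) (nat_lit 5) (nat_lit 75) (nat_lit 5) (nat_lit 71) (nat_lit 5) (nat_lit 283) (nat_lit 251) (nat_lit 186)) (XT.nd (nat_lit 78) (nat_lit 228) (nat_lit 0) (XT.lf (nat_lit 0) (nat_lit 5037467897) (nat_lit 304) (nat_lit 1656401822) (nat_lit 380) (nat_lit 11893782034) (nat_lit 66)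 (nat_lit 5) (nat_lit 70) (nat_lit 5) (nat_lit 71) (nat_lit 5) (nat_lit 284) (nat_lit 251) (nat_lit 185)) (XT.lf (nat_lit 0) (nat_lit 279164077) (nat_lit 228) (nat_lit 11648571344) (nat_lit 304) (nat_lit 7285066773) (nat_lit 63) (nat_lit 5) (nat_lit 66) (nat_lit 5) (nat_lit 67) (nat_lit 5) (nat_lit 285) (nat_lit 251) (nat_lit 184))))) (XT.nd (nat_lit 234) (nat_lit 532) (nat_lit 0) (XT.nd (nat_lit 78) (nat_lit 608) (nat_lit 0) (XT.lf (nat_lit 0) (nat_lit 15016085678) (nat_lit 228) (nat_lit 2528238190) (nat_lit 304) (nat_lit 2321295469) (nat_lit 63) (nat_lit 5) (nat_lit 66) (nat_lit 5) (nat_lit 67) (nat_lit 5) (nat_lit 286) (nat_lit 251) (nat_lit 183)) (XT.nd (nat_lit 78) (nat_lit 228) (nat_lit 0) (XT.lf (nat_lit 0) (nat_lit 2966080016) (nat_lit 380) (nat_lit 10558287130) (nat_lit 76) (nat_lit 7021958946) (nat_lit 58) (nat_lit 5) (nat_lit 63) (nat_lit 5) (nat_lit 59) (nat_lit 5) (nat_lit 287)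 (nat_lit 251) (nat_lit 182)) (XT.lf (nat_lit 0) (nat_lit 4397819245) (nat_lit 228) (nat_lit 4157955193) (nat_lit 304) (nat_lit 12702060790) (nat_lit 55) (nat_lit 5) (nat_lit 58) (nat_lit 5) (nat_lit 59) (nat_lit 5) (nat_lit 288) (nat_lit 251) (nat_lit 181)))) (XT.nd (nat_lit 78) (nat_lit 532) (nat_lit 0) (XT.lf (nat_lit 0) (nat_lit 14557557531) (nat_lit 304) (nat_lit 1782220474) (nat_lit 76) (nat_lit 5661197300) (nat_lit 55) (nat_lit 5) (nat_lit 59) (nat_lit 5) (nat_lit 56) (nat_lit 5) (nat_lit 289) (nat_lit 251) (nat_lit 180)) (XT.nd (nat_lit 78) (nat_lit 304) (nat_lit 0) (XT.lf (nat_lit 0) (nat_lit 14240345022) (nat_lit 228) (nat_lit 6767720741) (nat_lit 304) (nat_lit 1768779543) (nat_lit 52) (nat_lit 5) (nat_lit 55) (nat_lit 5) (nat_lit 56) (nat_lit 5) (nat_lit 290) (nat_lit 251) (nat_lit 179)) (XT.lf (nat_lit 0) (nat_lit 4202363008) (nat_lit 304) (nat_lit 16047901873) (nat_lit 76) (nat_lit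 3337229539) (nat_lit 48) (nat_lit 5) (nat_lit 52) (nat_lit 5) (nat_lit 49) (nat_lit 5) (nat_lit 291) (nat_lit 251) (nat_lit 178))))))))
noncomputable def xc72 : XT := (XT.nd (nat_lit 1716) (nat_lit 760) (nat_lit 0) (XT.nd (nat_lit 858) (nat_lit 836) (nat_lit 0) (XT.nd (nat_lit 390) (nat_lit 684) (nat_lit 0) (XT.nd (nat_lit 156) (nat_lit 456) (nat_lit 0) (XT.nd (nat_lit 78) (nat_lit 0) (nat_lit 0) (XT.lf (nat_lit 0) (nat_lit 31591845) (nat_lit 228) (nat_lit 10532920368) (nat_lit 304) (nat_lit 13869795657) (nat_lit 45) (nat_lit 5) (nat_lit 48) (nat_lit 5) (nat_lit 49) (nat_lit 5) (nat_lit 292) (nat_lit 251) (nat_lit 177)) (XT.lf (nat_lit 0) (nat_lit 17207838968) (nat_lit 228) (nat_lit 174417574) (nat_lit 304) (nat_lit 7937107661) (nat_lit 45) (nat_lit 5) (nat_lit 48) (nat_lit 5) (nat_lit 49) (nat_lit 5) (nat_lit 293) (nat_lit 251) (nat_lit 176))) (XT.nd (nat_lit 78) (nat_lit 304) (nat_lit 0)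 (XT.lf (nat_lit 0) (nat_lit 9026256525) (nat_lit 152) (nat_lit 15677743914) (nat_lit 228) (nat_lit 1539805103) (nat_lit 43) (nat_lit 5) (nat_lit 45) (nat_lit 5) (nat_lit 46) (nat_lit 5) (nat_lit 294) (nat_lit 251) (nat_lit 175)) (XT.nd (nat_lit 78) (nat_lit 228) (nat_lit 0) (XT.lf (nat_lit 0) (nat_lit 5136494395) (nat_lit 228) (nat_lit 114471574) (nat_lit 76) (nat_lit 21960228749) (nat_lit 42) (nat_lit 5) (nat_lit 45) (nat_lit 5) (nat_lit 43) (nat_lit 5) (nat_lit 295) (nat_lit 251) (nat_lit 174)) (XT.lf (nat_lit 0) (nat_lit 12321285101) (nat_lit 304) (nat_lit 10134918017) (nat_lit 76) (nat_lit 5764119726) (nat_lit 39) (nat_lit 5) (nat_lit 43) (nat_lit 5) (nat_lit 40) (nat_lit 5) (nat_lit 296) (nat_lit 251) (nat_lit 173))))) (XT.nd (nat_lit 234) (nat_lit 304) (nat_lit 0) (XT.nd (nat_lit 78) (nat_lit 228) (nat_lit 0) (XT.lf (nat_lit 0) (nat_lit 7982396971) (nat_lit 152) (nat_lit 11989830180)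 (nat_lit 228) (nat_lit 9304494306) (nat_lit 37) (nat_lit 5) (nat_lit 39) (nat_lit 5) (nat_lit 40) (nat_lit 5) (nat_lit 297) (nat_lit 251) (nat_lit 172)) (XT.nd (nat_lit 78) (nat_lit 228) (nat_lit 0) (XT.lf (nat_lit 0) (nat_lit 27180308772) (nat_lit 152) (nat_lit 906515439) (nat_lit 228) (nat_lit 2296702971) (nat_lit 37) (nat_lit 5) (nat_lit 39) (nat_lit 5) (nat_lit 40) (nat_lit 5) (nat_lit 298) (nat_lit 251) (nat_lit 171)) (XT.lf (nat_lit 0) (nat_lit 5199386448) (nat_lit 228) (nat_lit 15624661721) (nat_lit 76) (nat_lit 10713083994) (nat_lit 34) (nat_lit 5) (nat_lit 37) (nat_lit 5) (nat_lit 35) (nat_lit 5) (nat_lit 299) (nat_lit 251) (nat_lit 170)))) (XT.nd (nat_lit 78) (nat_lit 152) (nat_lit 0) (XT.lf (nat_lit 0) (nat_lit 3299915657) (nat_lit 152) (nat_lit 9775728408) (nat_lit 228) (nat_lit 19670523226) (nat_lit 32) (nat_lit 5) (nat_lit 34) (nat_lit 5) (nat_lit 35) (nat_lit 5) (nat_lit 300)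 (nat_lit 251) (nat_lit 169)) (XT.nd (nat_lit 78) (nat_lit 152) (nat_lit 0) (XT.lf (nat_lit 0) (nat_lit 21504521782) (nat_lit 228) (nat_lit 10567517019) (nat_lit 76) (nat_lit 1938868282) (nat_lit 32) (nat_lit 5) (nat_lit 35) (nat_lit 5) (nat_lit 33) (nat_lit 5) (nat_lit 301) (nat_lit 251) (nat_lit 168)) (XT.lf (nat_lit 0) (nat_lit 9304930717) (nat_lit 152) (nat_lit 21217863793) (nat_lit 228) (nat_lit 4811067128) (nat_lit 30) (nat_lit 5) (nat_lit 32) (nat_lit 5) (nat_lit 33) (nat_lit 5) (nat_lit 302) (nat_lit 251) (nat_lit 167)))))) (XT.nd (nat_lit 390) (nat_lit 456) (nat_lit 0) (XT.nd (nat_lit 156) (nat_lit 152) (nat_lit 0) (XT.nd (nat_lit 78) (nat_lit 152) (nat_lit 0) (XT.lf (nat_lit 0) (nat_lit 3295367017) (nat_lit 228) (nat_lit 6392955887) (nat_lit 76) (nat_lit 27031009171) (nat_lit 29) (nat_lit 5) (nat_lit 32) (nat_lit 5) (nat_lit 30) (nat_lit 5) (nat_lit 303) (nat_lit 251) (nat_lit 166))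 (XT.lf (nat_lit 0) (nat_lit 11853421735) (nat_lit 228) (nat_lit 23767270551) (nat_lit 76) (nat_lit 2547595105) (nat_lit 27) (nat_lit 5) (nat_lit 30) (nat_lit 5) (nat_lit 28) (nat_lit 5) (nat_lit 304) (nat_lit 251) (nat_lit 165))) (XT.nd (nat_lit 78) (nat_lit 152) (nat_lit 0) (XT.lf (nat_lit 0) (nat_lit 20985335803) (nat_lit 228) (nat_lit 3448460307) (nat_lit 76) (nat_lit 15251529340) (nat_lit 27) (nat_lit 5) (nat_lit 30) (nat_lit 5) (nat_lit 28) (nat_lit 5) (nat_lit 305) (nat_lit 251) (nat_lit 164)) (XT.nd (nat_lit 78) (nat_lit 0) (nat_lit 0) (XT.lf (nat_lit 0) (nat_lit 18212551366) (nat_lit 152) (nat_lit 12518944013) (nat_lit 228) (nat_lit 10542003565) (nat_lit 25) (nat_lit 5) (nat_lit 27) (nat_lit 5) (nat_lit 28) (nat_lit 5) (nat_lit 306) (nat_lit 251) (nat_lit 163)) (XT.lf (nat_lit 0) (nat_lit 40983760257) (nat_lit 228) (nat_lit 1940315950) (nat_lit 76) (nat_lit 16453390) (nat_lit 25)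 (nat_lit 5) (nat_lit 28) (nat_lit 5) (nat_lit 26) (nat_lit 4) (nat_lit 307) (nat_lit 251) (nat_lit 162))))) (XT.nd (nat_lit 234) (nat_lit 152) (nat_lit 0) (XT.nd (nat_lit 78) (nat_lit 152) (nat_lit 0) (XT.lf (nat_lit 0) (nat_lit 7230114711) (nat_lit 152) (nat_lit 24270257954) (nat_lit 76) (nat_lit 13179212001) (nat_lit 23) (nat_lit 5) (nat_lit 25) (nat_lit 5) (nat_lit 24) (nat_lit 5) (nat_lit 308) (nat_lit 251) (nat_lit 161)) (XT.nd (nat_lit 78) (nat_lit 152) (nat_lit 0) (XT.lf (nat_lit 0) (nat_lit 16840605746) (nat_lit 152) (nat_lit 2634822821) (nat_lit 76) (nat_lit 27029451672) (nat_lit 23) (nat_lit 5) (nat_lit 25) (nat_lit 5) (nat_lit 24) (nat_lit 5) (nat_lit 309) (nat_lit 251) (nat_lit 160)) (XT.lf (nat_lit 0) (nat_lit 20455953352) (nat_lit 152) (nat_lit 6657240239) (nat_lit 228) (nat_lit 21302810237) (nat_lit 21) (nat_lit 5) (nat_lit 23) (nat_lit 5) (nat_lit 24) (nat_lit 5) (nat_lit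 310) (nat_lit 251) (nat_lit 159)))) (XT.nd (nat_lit 78) (nat_lit 152) (nat_lit 0) (XT.lf (nat_lit 0) (nat_lit 37977502704) (nat_lit 228) (nat_lit 5756408520) (nat_lit 76) (nat_lit 6686439524) (nat_lit 21) (nat_lit 5) (nat_lit 24) (nat_lit 5) (nat_lit 22) (nat_lit 4) (nat_lit 311) (nat_lit 251) (nat_lit 158)) (XT.nd (nat_lit 78) (nat_lit 76) (nat_lit 0) (XT.lf (nat_lit 0) (nat_lit 17813820055) (nat_lit 76) (nat_lit 31795653443) (nat_lit 152) (nat_lit 2908717566) (nat_lit 20) (nat_lit 5) (nat_lit 21) (nat_lit 5) (nat_lit 22) (nat_lit 4) (nat_lit 312) (nat_lit 251) (nat_lit 157)) (XT.lf (nat_lit 0) (nat_lit 7009689904) (nat_lit 152) (nat_lit 12128757102) (nat_lit 76) (nat_lit 35579052267) (nat_lit 19) (nat_lit 5) (nat_lit 21) (nat_lit 5) (nat_lit 20) (nat_lit 5) (nat_lit 313) (nat_lit 251) (nat_lit 156))))))) (XT.nd (nat_lit 858) (nat_lit 228) (nat_lit 0) (XT.nd (nat_lit 390) (nat_lit 304) (nat_lit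 0) (XT.nd (nat_lit 156) (nat_lit 76) (nat_lit 0) (XT.nd (nat_lit 78) (nat_lit 0) (nat_lit 0) (XT.lf (nat_lit 0) (nat_lit 11753142525) (nat_lit 152) (nat_lit 5711222322) (nat_lit 228) (nat_lit 39558537263) (nat_lit 17) (nat_lit 5) (nat_lit 19) (nat_lit 5) (nat_lit 20) (nat_lit 5) (nat_lit 314) (nat_lit 251) (nat_lit 155)) (XT.lf (nat_lit 0) (nat_lit 28635777434) (nat_lit 228) (nat_lit 22461233905) (nat_lit 76) (nat_lit 8340751548) (nat_lit 17) (nat_lit 5) (nat_lit 20) (nat_lit 5) (nat_lit 18) (nat_lit 4) (nat_lit 315) (nat_lit 251) (nat_lit 154))) (XT.nd (nat_lit 78) (nat_lit 0) (nat_lit 0) (XT.lf (nat_lit 0) (nat_lit 1437032815) (nat_lit 76) (nat_lit 38988079926) (nat_lit 152) (nat_lit 21546480936) (nat_lit 16) (nat_lit 5) (nat_lit 17) (nat_lit 5) (nat_lit 18) (nat_lit 4) (nat_lit 316) (nat_lit 251) (nat_lit 153)) (XT.nd (nat_lit 78) (nat_lit 0) (nat_lit 0) (XT.lf (nat_lit 0) (nat_lit 26979108736)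 (nat_lit 76) (nat_lit 26044298010) (nat_lit 152) (nat_lit 11602131682) (nat_lit 16) (nat_lit 5) (nat_lit 17) (nat_lit 5) (nat_lit 18) (nat_lit 4) (nat_lit 317) (nat_lit 251) (nat_lit 152)) (XT.lf (nat_lit 0) (nat_lit 53778785726) (nat_lit 76) (nat_lit 12461661484) (nat_lit 152) (nat_lit 1172075090) (nat_lit 16) (nat_lit 5) (nat_lit 17) (nat_lit 5) (nat_lit 18) (nat_lit 4) (nat_lit 318) (nat_lit 251) (nat_lit 151))))) (XT.nd (nat_lit 234) (nat_lit 76) (nat_lit 0) (XT.nd (nat_lit 78) (nat_lit 0) (nat_lit 0) (XT.lf (nat_lit 0) (nat_lit 9709592971) (nat_lit 228) (nat_lit 58657259387) (nat_lit 76) (nat_lit 1965560890) (nat_lit 13) (nat_lit 5) (nat_lit 16) (nat_lit 5) (nat_lit 14) (nat_lit 4) (nat_lit 319) (nat_lit 251) (nat_lit 150)) (XT.nd (nat_lit 78) (nat_lit 0) (nat_lit 0) (XT.lf (nat_lit 0) (nat_lit 21368357712) (nat_lit 228) (nat_lit 35017191189) (nat_lit 76) (nat_lit 17004690114) (nat_lit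 13) (nat_lit 5) (nat_lit 16) (nat_lit 5) (nat_lit 14) (nat_lit 4) (nat_lit 320) (nat_lit 251) (nat_lit 149)) (XT.lf (nat_lit 0) (nat_lit 33600072897) (nat_lit 228) (nat_lit 10212737198) (nat_lit 76) (nat_lit 32788451342) (nat_lit 13) (nat_lit 5) (nat_lit 16) (nat_lit 5) (nat_lit 14) (nat_lit 4) (nat_lit 321) (nat_lit 251) (nat_lit 148)))) (XT.nd (nat_lit 78) (nat_lit 0) (nat_lit 0) (XT.lf (nat_lit 0) (nat_lit 16129913521) (nat_lit 76) (nat_lit 30458998733) (nat_lit 152) (nat_lit 33379562035) (nat_lit 12) (nat_lit 5) (nat_lit 13) (nat_lit 5) (nat_lit 14) (nat_lit 4) (nat_lit 322) (nat_lit 251) (nat_lit 147)) (XT.nd (nat_lit 78) (nat_lit 0) (nat_lit 0) (XT.lf (nat_lit 0) (nat_lit 43986815221) (nat_lit 76) (nat_lit 16336293590) (nat_lit 152) (nat_lit 23178066716) (nat_lit 12) (nat_lit 5) (nat_lit 13) (nat_lit 5) (nat_lit 14) (nat_lit 4) (nat_lit 323) (nat_lit 251) (nat_lit 146)) (XT.lf (nat_lit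 0) (nat_lit 73221040365) (nat_lit 76) (nat_lit 1514197797) (nat_lit 152) (nat_lit 12475541929) (nat_lit 12) (nat_lit 5) (nat_lit 13) (nat_lit 5) (nat_lit 14) (nat_lit 4) (nat_lit 324) (nat_lit 251) (nat_lit 145)))))) (XT.nd (nat_lit 390) (nat_lit 0) (nat_lit 0) (XT.nd (nat_lit 156) (nat_lit 76) (nat_lit 0) (XT.nd (nat_lit 78) (nat_lit 76) (nat_lit 0) (XT.lf (nat_lit 0) (nat_lit 12913068488) (nat_lit 76) (nat_lit 77205660589) (nat_lit 76) (nat_lit 979617871) (nat_lit 11) (nat_lit 4) (nat_lit 12) (nat_lit 5) (nat_lit 12) (nat_lit 4) (nat_lit 325) (nat_lit 251) (nat_lit 144)) (XT.lf (nat_lit 0) (nat_lit 11027151224) (nat_lit 152) (nat_lit 53860649166) (nat_lit 76) (nat_lit 30284723400) (nat_lit 10) (nat_lit 5) (nat_lit 12) (nat_lit 5) (nat_lit 11) (nat_lit 4) (nat_lit 326) (nat_lit 251) (nat_lit 143))) (XT.nd (nat_lit 78) (nat_lit 76) (nat_lit 0) (XT.lf (nat_lit 0) (nat_lit 23606334858) (nat_lit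 152) (nat_lit 28343690612) (nat_lit 76) (nat_lit 47500327100) (nat_lit 10) (nat_lit 5) (nat_lit 12) (nat_lit 5) (nat_lit 11) (nat_lit 4) (nat_lit 327) (nat_lit 251) (nat_lit 142)) (XT.nd (nat_lit 78) (nat_lit 76) (nat_lit 0) (XT.lf (nat_lit 0) (nat_lit 36806999340) (nat_lit 152) (nat_lit 1564231449) (nat_lit 76) (nat_lit 65571070305) (nat_lit 10) (nat_lit 5) (nat_lit 12) (nat_lit 5) (nat_lit 11) (nat_lit 4) (nat_lit 328) (nat_lit 251) (nat_lit 141)) (XT.lf (nat_lit 0) (nat_lit 27069716610) (nat_lit 76) (nat_lit 23851068889) (nat_lit 152) (nat_lit 57730472661) (nat_lit 9) (nat_lit 5) (nat_lit 10) (nat_lit 5) (nat_lit 11) (nat_lit 4) (nat_lit 329) (nat_lit 251) (nat_lit 140))))) (XT.nd (nat_lit 31590) (nat_lit 0) (nat_lit 15200) (XT.nd (nat_lit 31434) (nat_lit 0) (nat_lit 15200) (XT.lf (nat_lit 0) (nat_lit 57155702557) (nat_lit 76) (nat_lit 8593759033) (nat_lit 152) (nat_lit 47845929058) (nat_lit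 9) (nat_lit 5) (nat_lit 10) (nat_lit 5) (nat_lit 11) (nat_lit 4) (nat_lit 330) (nat_lit 251) (nat_lit 139)) (XT.nd (nat_lit 78) (nat_lit 912) (nat_lit 0) (XT.lf (nat_lit 0) (nat_lit 1809088200) (nat_lit 0) (nat_lit 1809088200) (nat_lit 836) (nat_lit 459046790) (nat_lit 221) (nat_lit 5) (nat_lit 221) (nat_lit 3) (nat_lit 232) (nat_lit 3) (nat_lit 252) (nat_lit 252) (nat_lit 216)) (XT.lf (nat_lit 0) (nat_lit 861537327) (nat_lit 912) (nat_lit 6828723011) (nat_lit 988) (nat_lit 611298743) (nat_lit 209) (nat_lit 5) (nat_lit 221) (nat_lit 5) (nat_lit 222) (nat_lit 5) (nat_lit 253) (nat_lit 252) (nat_lit 215)))) (XT.nd (nat_lit 78) (nat_lit 0) (nat_lit 76) (XT.lf (nat_lit 0) (nat_lit 2682046902) (nat_lit 912) (nat_lit 687254919) (nat_lit 988) (nat_lit 5087549965) (nat_lit 209) (nat_lit 5) (nat_lit 221) (nat_lit 5) (nat_lit 222) (nat_lit 5) (nat_lit 254) (nat_lit 252) (nat_lit 214)) (XT.nd (nat_lit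 78) (nat_lit 0) (nat_lit 0) (XT.lf (nat_lit 0) (nat_lit 4554111217) (nat_lit 912) (nat_lit 2819706149) (nat_lit 988) (nat_lit 1247488845) (nat_lit 210) (nat_lit 5) (nat_lit 222) (nat_lit 5) (nat_lit 223) (nat_lit 5) (nat_lit 255) (nat_lit 252) (nat_lit 213)) (XT.lf (nat_lit 76) (nat_lit 3813293514) (nat_lit 0) (nat_lit 2681685355) (nat_lit 988) (nat_lit 2299951304) (nat_lit 211) (nat_lit 5) (nat_lit 210) (nat_lit 5) (nat_lit 223) (nat_lit 5) (nat_lit 256) (nat_lit 252) (nat_lit 212))))))))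
noncomputable def xc73 : XT := (XT.nd (nat_lit 1716) (nat_lit 4484) (nat_lit 0) (XT.nd (nat_lit 858) (nat_lit 3724) (nat_lit 0) (XT.nd (nat_lit 390) (nat_lit 4256) (nat_lit 0) (XT.nd (nat_lit 156) (nat_lit 0) (nat_lit 76) (XT.nd (nat_lit 78) (nat_lit 988) (nat_lit 0) (XT.lf (nat_lit 76) (nat_lit 1809708172) (nat_lit 0) (nat_lit 6693528234) (nat_lit 988) (nat_lit 475081696) (nat_lit 212) (nat_lit 5) (nat_lit 211) (nat_lit 5) (nat_lit 224) (nat_lit 5) (nat_lit 257) (nat_lit 252) (nat_lit 211)) (XT.lf (nat_lit 0) (nat_lit 1396778063) (nat_lit 988) (nat_lit 230509288) (nat_lit 1064) (nat_lit 7543835130) (nat_lit 198) (nat_lit 5) (nat_lit 211) (nat_lit 5) (nat_lit 212) (nat_lit 5) (nat_lit 258) (nat_lit 252) (nat_lit 210))) (XT.nd (nat_lit 78) (nat_lit 0) (nat_lit 0) (XT.lf (nat_lit 0) (nat_lit 3367040591) (nat_lit 988) (nat_lit 2283364800) (nat_lit 1064) (nat_lit 3722751619) (nat_lit 199) (nat_lit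 5) (nat_lit 212) (nat_lit 5) (nat_lit 213) (nat_lit 5) (nat_lit 259) (nat_lit 252) (nat_lit 209)) (XT.nd (nat_lit 78) (nat_lit 0) (nat_lit 76) (XT.lf (nat_lit 76) (nat_lit 5218423844) (nat_lit 0) (nat_lit 199904692) (nat_lit 1064) (nat_lit 4167651365) (nat_lit 200) (nat_lit 5) (nat_lit 199) (nat_lit 5) (nat_lit 213) (nat_lit 5) (nat_lit 260) (nat_lit 252) (nat_lit 208)) (XT.lf (nat_lit 76) (nat_lit 3281263264) (nat_lit 0) (nat_lit 4316562096) (nat_lit 1064) (nat_lit 2211003527) (nat_lit 201) (nat_lit 5) (nat_lit 200) (nat_lit 5) (nat_lit 214) (nat_lit 5) (nat_lit 261) (nat_lit 252) (nat_lit 207))))) (XT.nd (nat_lit 234) (nat_lit 2356) (nat_lit 0) (XT.nd (nat_lit 78) (nat_lit 1140) (nat_lit 0) (XT.lf (nat_lit 0) (nat_lit 1307123574) (nat_lit 988) (nat_lit 8573598201) (nat_lit 1064) (nat_lit 162412746) (nat_lit 188) (nat_lit 5) (nat_lit 201) (nat_lit 5) (nat_lit 202) (nat_lit 5) (nat_lit 262)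 (nat_lit 252) (nat_lit 206)) (XT.nd (nat_lit 78) (nat_lit 1064) (nat_lit 0) (XT.lf (nat_lit 0) (nat_lit 1984296407) (nat_lit 1064) (nat_lit 744940486) (nat_lit 76) (nat_lit 7558446128) (nat_lit 187) (nat_lit 5) (nat_lit 201) (nat_lit 5) (nat_lit 188) (nat_lit 5) (nat_lit 263) (nat_lit 252) (nat_lit 205)) (XT.lf (nat_lit 0) (nat_lit 4269702356) (nat_lit 1140) (nat_lit 2844511613) (nat_lit 76) (nat_lit 3429284524) (nat_lit 173) (nat_lit 5) (nat_lit 188) (nat_lit 5) (nat_lit 174) (nat_lit 5) (nat_lit 264) (nat_lit 252) (nat_lit 204)))) (XT.nd (nat_lit 78) (nat_lit 1216) (nat_lit 0) (XT.lf (nat_lit 0) (nat_lit 5792290480) (nat_lit 1140) (nat_lit 897806785) (nat_lit 1216) (nat_lit 4121509149) (nat_lit 158) (nat_lit 5) (nat_lit 173) (nat_lit 5) (nat_lit 174) (nat_lit 5) (nat_lit 265) (nat_lit 252) (nat_lit 203)) (XT.nd (nat_lit 78) (nat_lit 684) (nat_lit 0) (XT.lf (nat_lit 0) (nat_lit 3785237806)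 (nat_lit 532) (nat_lit 5498931321) (nat_lit 608) (nat_lit 1807488256) (nat_lit 151) (nat_lit 5) (nat_lit 158) (nat_lit 5) (nat_lit 159) (nat_lit 5) (nat_lit 266) (nat_lit 252) (nat_lit 202)) (XT.lf (nat_lit 0) (nat_lit 632624554) (nat_lit 684) (nat_lit 9689188055) (nat_lit 76) (nat_lit 1063151387) (nat_lit 142) (nat_lit 5) (nat_lit 151) (nat_lit 5) (nat_lit 143) (nat_lit 5) (nat_lit 267) (nat_lit 252) (nat_lit 201)))))) (XT.nd (nat_lit 390) (nat_lit 1672) (nat_lit 0) (XT.nd (nat_lit 156) (nat_lit 1520) (nat_lit 0) (XT.nd (nat_lit 78) (nat_lit 532) (nat_lit 0) (XT.lf (nat_lit 0) (nat_lit 3226200669) (nat_lit 684) (nat_lit 526630331) (nat_lit 76) (nat_lit 7937606238) (nat_lit 142) (nat_lit 5) (nat_lit 151) (nat_lit 5) (nat_lit 143) (nat_lit 5) (nat_lit 268) (nat_lit 252) (nat_lit 200)) (XT.lf (nat_lit 0) (nat_lit 6009174022) (nat_lit 608) (nat_lit 2826932081) (nat_lit 76) (nat_lit 3173384920)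 (nat_lit 135) (nat_lit 5) (nat_lit 143) (nat_lit 5) (nat_lit 136) (nat_lit 5) (nat_lit 269) (nat_lit 252) (nat_lit 199))) (XT.nd (nat_lit 78) (nat_lit 988) (nat_lit 0) (XT.lf (nat_lit 0) (nat_lit 7084808540) (nat_lit 532) (nat_lit 1900277895) (nat_lit 608) (nat_lit 3357891097) (nat_lit 128) (nat_lit 5) (nat_lit 135) (nat_lit 5) (nat_lit 136) (nat_lit 5) (nat_lit 270) (nat_lit 252) (nat_lit 198)) (XT.nd (nat_lit 78) (nat_lit 532) (nat_lit 0) (XT.lf (nat_lit 0) (nat_lit 4841986043) (nat_lit 456) (nat_lit 7339983850) (nat_lit 532) (nat_lit 509092491) (nat_lit 122) (nat_lit 5) (nat_lit 128) (nat_lit 5) (nat_lit 129) (nat_lit 5) (nat_lit 271) (nat_lit 252) (nat_lit 197)) (XT.lf (nat_lit 0) (nat_lit 2447411539) (nat_lit 456) (nat_lit 29648760) (nat_lit 532) (nat_lit 10577557441) (nat_lit 115) (nat_lit 5) (nat_lit 121) (nat_lit 5) (nat_lit 122) (nat_lit 5) (nat_lit 272) (nat_lit 252) (nat_lit 196)))))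 (XT.nd (nat_lit 234) (nat_lit 836) (nat_lit 0) (XT.nd (nat_lit 78) (nat_lit 836) (nat_lit 0) (XT.lf (nat_lit 0) (nat_lit 5705141673) (nat_lit 532) (nat_lit 149391911) (nat_lit 76) (nat_lit 7578650194) (nat_lit 115) (nat_lit 5) (nat_lit 122) (nat_lit 5) (nat_lit 116) (nat_lit 5) (nat_lit 273) (nat_lit 252) (nat_lit 195)) (XT.nd (nat_lit 78) (nat_lit 456) (nat_lit 0) (XT.lf (nat_lit 0) (nat_lit 9168667728) (nat_lit 456) (nat_lit 2857250747) (nat_lit 76) (nat_lit 1802613302) (nat_lit 110) (nat_lit 5) (nat_lit 116) (nat_lit 5) (nat_lit 111) (nat_lit 5) (nat_lit 274) (nat_lit 252) (nat_lit 194)) (XT.lf (nat_lit 0) (nat_lit 8457631527) (nat_lit 456) (nat_lit 4441887811) (nat_lit 532) (nat_lit 1341374674) (nat_lit 104) (nat_lit 5) (nat_lit 110) (nat_lit 5) (nat_lit 111) (nat_lit 5) (nat_lit 275) (nat_lit 252) (nat_lit 193)))) (XT.nd (nat_lit 78) (nat_lit 380) (nat_lit 0) (XT.lf (nat_lit 0) (nat_lit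 2174556125) (nat_lit 456) (nat_lit 8945674978) (nat_lit 76) (nat_lit 3550891128) (nat_lit 98) (nat_lit 5) (nat_lit 104) (nat_lit 5) (nat_lit 99) (nat_lit 5) (nat_lit 276) (nat_lit 252) (nat_lit 192)) (XT.nd (nat_lit 78) (nat_lit 0) (nat_lit 0) (XT.lf (nat_lit 0) (nat_lit 2749109285) (nat_lit 380) (nat_lit 3176127649) (nat_lit 456) (nat_lit 9194688442) (nat_lit 93) (nat_lit 5) (nat_lit 98) (nat_lit 5) (nat_lit 99) (nat_lit 5) (nat_lit 277) (nat_lit 252) (nat_lit 191)) (XT.lf (nat_lit 0) (nat_lit 9962687927) (nat_lit 456) (nat_lit 478029608) (nat_lit 76) (nat_lit 5147533868) (nat_lit 93) (nat_lit 5) (nat_lit 99) (nat_lit 5) (nat_lit 94) (nat_lit 5) (nat_lit 278) (nat_lit 252) (nat_lit 190))))))) (XT.nd (nat_lit 858) (nat_lit 1596) (nat_lit 0) (XT.nd (nat_lit 390) (nat_lit 1520) (nat_lit 0) (XT.nd (nat_lit 156) (nat_lit 608) (nat_lit 0) (XT.nd (nat_lit 78) (nat_lit 456) (nat_lit 0) (XT.lf (nat_lit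 0) (nat_lit 12162645331) (nat_lit 304) (nat_lit 2146991373) (nat_lit 380) (nat_lit 1767185232) (nat_lit 89) (nat_lit 5) (nat_lit 93) (nat_lit 5) (nat_lit 94) (nat_lit 5) (nat_lit 279) (nat_lit 252) (nat_lit 189)) (XT.lf (nat_lit 0) (nat_lit 2354384156) (nat_lit 456) (nat_lit 7694721653) (nat_lit 76) (nat_lit 6536663861) (nat_lit 83) (nat_lit 5) (nat_lit 89) (nat_lit 5) (nat_lit 84) (nat_lit 5) (nat_lit 280) (nat_lit 252) (nat_lit 188))) (XT.nd (nat_lit 78) (nat_lit 304) (nat_lit 0) (XT.lf (nat_lit 0) (nat_lit 5312094183) (nat_lit 304) (nat_lit 1408176376) (nat_lit 380) (nat_lit 10397175885) (nat_lit 79) (nat_lit 5) (nat_lit 83) (nat_lit 5) (nat_lit 84) (nat_lit 5) (nat_lit 281) (nat_lit 252) (nat_lit 187)) (XT.nd (nat_lit 78) (nat_lit 0) (nat_lit 0) (XT.lf (nat_lit 0) (nat_lit 1358127301) (nat_lit 304) (nat_lit 10075338839) (nat_lit 380) (nat_lit 6238418244) (nat_lit 75) (nat_lit 5) (nat_lit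 79) (nat_lit 5) (nat_lit 80) (nat_lit 5) (nat_lit 282) (nat_lit 252) (nat_lit 186)) (XT.lf (nat_lit 0) (nat_lit 15362804548) (nat_lit 304) (nat_lit 1118725855) (nat_lit 380) (nat_lit 1769583046) (nat_lit 75) (nat_lit 5) (nat_lit 79) (nat_lit 5) (nat_lit 80) (nat_lit 5) (nat_lit 283) (nat_lit 252) (nat_lit 185))))) (XT.nd (nat_lit 234) (nat_lit 608) (nat_lit 0) (XT.nd (nat_lit 78) (nat_lit 532) (nat_lit 0) (XT.lf (nat_lit 0) (nat_lit 3020648629) (nat_lit 380) (nat_lit 7582860742) (nat_lit 76) (nat_lit 8250344213) (nat_lit 70) (nat_lit 5) (nat_lit 75) (nat_lit 5) (nat_lit 71) (nat_lit 5) (nat_lit 284) (nat_lit 252) (nat_lit 184)) (XT.nd (nat_lit 78) (nat_lit 228) (nat_lit 0) (XT.lf (nat_lit 0) (nat_lit 6768257402) (nat_lit 304) (nat_lit 1318318312) (nat_lit 380) (nat_lit 11397486013) (nat_lit 66) (nat_lit 5) (nat_lit 70) (nat_lit 5) (nat_lit 71) (nat_lit 5) (nat_lit 285) (nat_lit 252) (nat_lit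 183)) (XT.lf (nat_lit 0) (nat_lit 1757743012) (nat_lit 228) (nat_lit 11791942289) (nat_lit 304) (nat_lit 6591816549) (nat_lit 63) (nat_lit 5) (nat_lit 66) (nat_lit 5) (nat_lit 67) (nat_lit 5) (nat_lit 286) (nat_lit 252) (nat_lit 182)))) (XT.nd (nat_lit 78) (nat_lit 608) (nat_lit 0) (XT.lf (nat_lit 0) (nat_lit 17161766848) (nat_lit 228) (nat_lit 2236499983) (nat_lit 304) (nat_lit 1430213993) (nat_lit 63) (nat_lit 5) (nat_lit 66) (nat_lit 5) (nat_lit 67) (nat_lit 5) (nat_lit 287) (nat_lit 252) (nat_lit 181)) (XT.nd (nat_lit 78) (nat_lit 228) (nat_lit 0) (XT.lf (nat_lit 0) (nat_lit 4072121692) (nat_lit 380) (nat_lit 9685570942) (nat_lit 76) (nat_lit 7786184182) (nat_lit 58) (nat_lit 5) (nat_lit 63) (nat_lit 5) (nat_lit 59) (nat_lit 5) (nat_lit 288) (nat_lit 252) (nat_lit 180)) (XT.lf (nat_lit 0) (nat_lit 5978191959) (nat_lit 228) (nat_lit 3930580103) (nat_lit 304) (nat_lit 12383214422) (nat_lit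 55) (nat_lit 5) (nat_lit 58) (nat_lit 5) (nat_lit 59) (nat_lit 5) (nat_lit 289) (nat_lit 252) (nat_lit 179)))))) (XT.nd (nat_lit 390) (nat_lit 836) (nat_lit 0) (XT.nd (nat_lit 156) (nat_lit 532) (nat_lit 0) (XT.nd (nat_lit 78) (nat_lit 228) (nat_lit 0) (XT.lf (nat_lit 0) (nat_lit 16170571608) (nat_lit 304) (nat_lit 552247547) (nat_lit 76) (nat_lit 6350713459) (nat_lit 55) (nat_lit 5) (nat_lit 59) (nat_lit 5) (nat_lit 56) (nat_lit 5) (nat_lit 290) (nat_lit 252) (nat_lit 178)) (XT.lf (nat_lit 0) (nat_lit 16233634947) (nat_lit 228) (nat_lit 6680137339) (nat_lit 304) (nat_lit 975363455) (nat_lit 52) (nat_lit 5) (nat_lit 55) (nat_lit 5) (nat_lit 56) (nat_lit 5) (nat_lit 291) (nat_lit 252) (nat_lit 177))) (XT.nd (nat_lit 78) (nat_lit 228) (nat_lit 0) (XT.lf (nat_lit 0) (nat_lit 5252186237) (nat_lit 304) (nat_lit 15566401058) (nat_lit 76) (nat_lit 3922265234) (nat_lit 48) (nat_lit 5) (nat_lit 52)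 (nat_lit 5) (nat_lit 49) (nat_lit 5) (nat_lit 292) (nat_lit 252) (nat_lit 176)) (XT.nd (nat_lit 78) (nat_lit 0) (nat_lit 0) (XT.lf (nat_lit 0) (nat_lit 1280264727) (nat_lit 228) (nat_lit 10624180044) (nat_lit 304) (nat_lit 13726441134) (nat_lit 45) (nat_lit 5) (nat_lit 48) (nat_lit 5) (nat_lit 49) (nat_lit 5) (nat_lit 293) (nat_lit 252) (nat_lit 175)) (XT.lf (nat_lit 0) (nat_lit 19026649070) (nat_lit 304) (nat_lit 7307678725) (nat_lit 76) (nat_lit 226997511) (nat_lit 45) (nat_lit 5) (nat_lit 49) (nat_lit 5) (nat_lit 46) (nat_lit 5) (nat_lit 294) (nat_lit 252) (nat_lit 174))))) (XT.nd (nat_lit 234) (nat_lit 380) (nat_lit 0) (XT.nd (nat_lit 78) (nat_lit 304) (nat_lit 0) (XT.lf (nat_lit 0) (nat_lit 10650614285) (nat_lit 152) (nat_lit 16039900429) (nat_lit 228) (nat_lit 842228615) (nat_lit 43) (nat_lit 5) (nat_lit 45) (nat_lit 5) (nat_lit 46) (nat_lit 5) (nat_lit 295) (nat_lit 252) (nat_lit 173))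 (XT.nd (nat_lit 78) (nat_lit 0) (nat_lit 0) (XT.lf (nat_lit 0) (nat_lit 1032186343) (nat_lit 228) (nat_lit 5094342546) (nat_lit 304) (nat_lit 22422569946) (nat_lit 39) (nat_lit 5) (nat_lit 42) (nat_lit 5) (nat_lit 43) (nat_lit 5) (nat_lit 296) (nat_lit 252) (nat_lit 172)) (XT.lf (nat_lit 0) (nat_lit 13640615223) (nat_lit 304) (nat_lit 9524117645) (nat_lit 76) (nat_lit 6444880211) (nat_lit 39) (nat_lit 5) (nat_lit 43) (nat_lit 5) (nat_lit 40) (nat_lit 5) (nat_lit 297) (nat_lit 252) (nat_lit 171)))) (XT.nd (nat_lit 78) (nat_lit 228) (nat_lit 0) (XT.lf (nat_lit 0) (nat_lit 9467028853) (nat_lit 152) (nat_lit 12184021279) (nat_lit 228) (nat_lit 9068503021) (nat_lit 37) (nat_lit 5) (nat_lit 39) (nat_lit 5) (nat_lit 40) (nat_lit 5) (nat_lit 298) (nat_lit 252) (nat_lit 170)) (XT.nd (nat_lit 78) (nat_lit 228) (nat_lit 0) (XT.lf (nat_lit 0) (nat_lit 29573145194) (nat_lit 152) (nat_lit 565840819) (nat_lit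 228) (nat_lit 1743713358) (nat_lit 37) (nat_lit 5) (nat_lit 39) (nat_lit 5) (nat_lit 40) (nat_lit 5) (nat_lit 299) (nat_lit 252) (nat_lit 169)) (XT.lf (nat_lit 0) (nat_lit 6096439084) (nat_lit 228) (nat_lit 15372675615) (nat_lit 76) (nat_lit 11625234942) (nat_lit 34) (nat_lit 5) (nat_lit 37) (nat_lit 5) (nat_lit 35) (nat_lit 5) (nat_lit 300) (nat_lit 252) (nat_lit 168))))))))
noncomputable def xc74 : XT := (XT.nd (nat_lit 1716) (nat_lit 304) (nat_lit 0) (XT.nd (nat_lit 858) (nat_lit 608) (nat_lit 0) (XT.nd (nat_lit 390) (nat_lit 456) (nat_lit 0) (XT.nd (nat_lit 156) (nat_lit 380) (nat_lit 0) (XT.nd (nat_lit 78) (nat_lit 0) (nat_lit 0) (XT.lf (nat_lit 0) (nat_lit 4468513612) (nat_lit 152) (nat_lit 9877305908) (nat_lit 228) (nat_lit 20018662786) (nat_lit 32) (nat_lit 5) (nat_lit 34) (nat_lit 5) (nat_lit 35) (nat_lit 5) (nat_lit 301) (nat_lit 252) (nat_lit 167)) (XT.lf (nat_lit 0) (nat_lit 23170333909)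 (nat_lit 228) (nat_lit 10125537219) (nat_lit 76) (nat_lit 2397386058) (nat_lit 32) (nat_lit 5) (nat_lit 35) (nat_lit 5) (nat_lit 33) (nat_lit 5) (nat_lit 302) (nat_lit 252) (nat_lit 166))) (XT.nd (nat_lit 78) (nat_lit 228) (nat_lit 0) (XT.lf (nat_lit 0) (nat_lit 10712717854) (nat_lit 152) (nat_lit 21907739552) (nat_lit 228) (nat_lit 4462496695) (nat_lit 30) (nat_lit 5) (nat_lit 32) (nat_lit 5) (nat_lit 33) (nat_lit 5) (nat_lit 303) (nat_lit 252) (nat_lit 165)) (XT.nd (nat_lit 78) (nat_lit 152) (nat_lit 0) (XT.lf (nat_lit 0) (nat_lit 4010257141) (nat_lit 228) (nat_lit 5803576822) (nat_lit 76) (nat_lit 28724540420) (nat_lit 29) (nat_lit 5) (nat_lit 32) (nat_lit 5) (nat_lit 30) (nat_lit 5) (nat_lit 304) (nat_lit 252) (nat_lit 164)) (XT.lf (nat_lit 0) (nat_lit 12981875731) (nat_lit 228) (nat_lit 24059661052) (nat_lit 76) (nat_lit 3018690879) (nat_lit 27) (nat_lit 5) (nat_lit 30) (nat_lit 5) (nat_lit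 28) (nat_lit 5) (nat_lit 305) (nat_lit 252) (nat_lit 163))))) (XT.nd (nat_lit 234) (nat_lit 304) (nat_lit 0) (XT.nd (nat_lit 78) (nat_lit 152) (nat_lit 0) (XT.lf (nat_lit 0) (nat_lit 22544872030) (nat_lit 228) (nat_lit 2767575678) (nat_lit 76) (nat_lit 16341454397) (nat_lit 27) (nat_lit 5) (nat_lit 30) (nat_lit 5) (nat_lit 28) (nat_lit 5) (nat_lit 306) (nat_lit 252) (nat_lit 162)) (XT.nd (nat_lit 78) (nat_lit 0) (nat_lit 0) (XT.lf (nat_lit 0) (nat_lit 19952026687) (nat_lit 152) (nat_lit 12809981745) (nat_lit 228) (nat_lit 10559983944) (nat_lit 25) (nat_lit 5) (nat_lit 27) (nat_lit 5) (nat_lit 28) (nat_lit 5) (nat_lit 307) (nat_lit 252) (nat_lit 161)) (XT.lf (nat_lit 0) (nat_lit 43506431736) (nat_lit 228) (nat_lit 1236560403) (nat_lit 76) (nat_lit 330013372) (nat_lit 25) (nat_lit 5) (nat_lit 28) (nat_lit 5) (nat_lit 26) (nat_lit 4) (nat_lit 308) (nat_lit 252) (nat_lit 160)))) (XT.nd (nat_lit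 78) (nat_lit 152) (nat_lit 0) (XT.lf (nat_lit 0) (nat_lit 8054895837) (nat_lit 152) (nat_lit 24696413384) (nat_lit 76) (nat_lit 14148036433) (nat_lit 23) (nat_lit 5) (nat_lit 25) (nat_lit 5) (nat_lit 24) (nat_lit 5) (nat_lit 309) (nat_lit 252) (nat_lit 159)) (XT.nd (nat_lit 78) (nat_lit 152) (nat_lit 0) (XT.lf (nat_lit 0) (nat_lit 18123850691) (nat_lit 152) (nat_lit 2016699707) (nat_lit 76) (nat_lit 28676032667) (nat_lit 23) (nat_lit 5) (nat_lit 25) (nat_lit 5) (nat_lit 24) (nat_lit 5) (nat_lit 310) (nat_lit 252) (nat_lit 158)) (XT.lf (nat_lit 0) (nat_lit 22207120566) (nat_lit 152) (nat_lit 6688938673) (nat_lit 228) (nat_lit 21927638366) (nat_lit 21) (nat_lit 5) (nat_lit 23) (nat_lit 5) (nat_lit 24) (nat_lit 5) (nat_lit 311) (nat_lit 252) (nat_lit 157)))))) (XT.nd (nat_lit 390) (nat_lit 304) (nat_lit 0) (XT.nd (nat_lit 156) (nat_lit 228) (nat_lit 0) (XT.nd (nat_lit 78) (nat_lit 76) (nat_lit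 0) (XT.lf (nat_lit 0) (nat_lit 40285997780) (nat_lit 228) (nat_lit 5340818477) (nat_lit 76) (nat_lit 7301987016) (nat_lit 21) (nat_lit 5) (nat_lit 24) (nat_lit 5) (nat_lit 22) (nat_lit 4) (nat_lit 312) (nat_lit 252) (nat_lit 156)) (XT.lf (nat_lit 0) (nat_lit 19387758406) (nat_lit 76) (nat_lit 33098870788) (nat_lit 152) (nat_lit 2645307712) (nat_lit 20) (nat_lit 5) (nat_lit 21) (nat_lit 5) (nat_lit 22) (nat_lit 4) (nat_lit 313) (nat_lit 252) (nat_lit 155))) (XT.nd (nat_lit 78) (nat_lit 152) (nat_lit 0) (XT.lf (nat_lit 0) (nat_lit 7741953142) (nat_lit 152) (nat_lit 12076641637) (nat_lit 76) (nat_lit 37623082681) (nat_lit 19) (nat_lit 5) (nat_lit 21) (nat_lit 5) (nat_lit 20) (nat_lit 5) (nat_lit 314) (nat_lit 252) (nat_lit 154)) (XT.nd (nat_lit 78) (nat_lit 0) (nat_lit 0) (XT.lf (nat_lit 0) (nat_lit 12980475672) (nat_lit 152) (nat_lit 5726855177) (nat_lit 228) (nat_lit 41155392111) (nat_lit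 17) (nat_lit 5) (nat_lit 19) (nat_lit 5) (nat_lit 20) (nat_lit 5) (nat_lit 315) (nat_lit 252) (nat_lit 153)) (XT.lf (nat_lit 0) (nat_lit 30422178188) (nat_lit 228) (nat_lit 22966766495) (nat_lit 76) (nat_lit 9009847209) (nat_lit 17) (nat_lit 5) (nat_lit 20) (nat_lit 5) (nat_lit 18) (nat_lit 4) (nat_lit 316) (nat_lit 252) (nat_lit 152))))) (XT.nd (nat_lit 234) (nat_lit 228) (nat_lit 0) (XT.nd (nat_lit 78) (nat_lit 0) (nat_lit 0) (XT.lf (nat_lit 0) (nat_lit 2108712214) (nat_lit 76) (nat_lit 40681147678) (nat_lit 152) (nat_lit 22269798455) (nat_lit 16) (nat_lit 5) (nat_lit 17) (nat_lit 5) (nat_lit 18) (nat_lit 4) (nat_lit 317) (nat_lit 252) (nat_lit 151)) (XT.nd (nat_lit 78) (nat_lit 0) (nat_lit 0) (XT.lf (nat_lit 0) (nat_lit 28899328704) (nat_lit 76) (nat_lit 27102383154) (nat_lit 152) (nat_lit 11845089192) (nat_lit 16) (nat_lit 5) (nat_lit 17) (nat_lit 5) (nat_lit 18) (nat_lit 4) (nat_lit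 318) (nat_lit 252) (nat_lit 150)) (XT.lf (nat_lit 0) (nat_lit 57011786470) (nat_lit 76) (nat_lit 12852240028) (nat_lit 152) (nat_lit 909584488) (nat_lit 16) (nat_lit 5) (nat_lit 17) (nat_lit 5) (nat_lit 18) (nat_lit 4) (nat_lit 319) (nat_lit 252) (nat_lit 149)))) (XT.nd (nat_lit 78) (nat_lit 0) (nat_lit 0) (XT.lf (nat_lit 0) (nat_lit 10502258145) (nat_lit 228) (nat_lit 61048273238) (nat_lit 76) (nat_lit 2289110613) (nat_lit 13) (nat_lit 5) (nat_lit 16) (nat_lit 5) (nat_lit 14) (nat_lit 4) (nat_lit 320) (nat_lit 252) (nat_lit 148)) (XT.nd (nat_lit 78) (nat_lit 0) (nat_lit 0) (XT.lf (nat_lit 0) (nat_lit 22729333241) (nat_lit 228) (nat_lit 36252003969) (nat_lit 76) (nat_lit 18069469074) (nat_lit 13) (nat_lit 5) (nat_lit 16) (nat_lit 5) (nat_lit 14) (nat_lit 4) (nat_lit 321) (nat_lit 252) (nat_lit 147)) (XT.lf (nat_lit 0) (nat_lit 35558702869) (nat_lit 228) (nat_lit 10231900935) (nat_lit 76)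 (nat_lit 34632201962) (nat_lit 13) (nat_lit 5) (nat_lit 16) (nat_lit 5) (nat_lit 14) (nat_lit 4) (nat_lit 322) (nat_lit 252) (nat_lit 146))))))) (XT.nd (nat_lit 32292) (nat_lit 0) (nat_lit 11324) (XT.nd (nat_lit 390) (nat_lit 76) (nat_lit 0) (XT.nd (nat_lit 156) (nat_lit 152) (nat_lit 0) (XT.nd (nat_lit 78) (nat_lit 0) (nat_lit 0) (XT.lf (nat_lit 0) (nat_lit 17413794341) (nat_lit 76) (nat_lit 31774510851) (nat_lit 152) (nat_lit 34770342056) (nat_lit 12) (nat_lit 5) (nat_lit 13) (nat_lit 5) (nat_lit 14) (nat_lit 4) (nat_lit 323) (nat_lit 252) (nat_lit 145)) (XT.lf (nat_lit 0) (nat_lit 46640808501) (nat_lit 76) (nat_lit 16955548441) (nat_lit 152) (nat_lit 24072019498) (nat_lit 12) (nat_lit 5) (nat_lit 13) (nat_lit 5) (nat_lit 14) (nat_lit 4) (nat_lit 324) (nat_lit 252) (nat_lit 144))) (XT.nd (nat_lit 78) (nat_lit 152) (nat_lit 0) (XT.lf (nat_lit 0) (nat_lit 77315094782) (nat_lit 76) (nat_lit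 1401755470) (nat_lit 152) (nat_lit 12846985165) (nat_lit 12) (nat_lit 5) (nat_lit 13) (nat_lit 5) (nat_lit 14) (nat_lit 4) (nat_lit 325) (nat_lit 252) (nat_lit 143)) (XT.nd (nat_lit 78) (nat_lit 76) (nat_lit 0) (XT.lf (nat_lit 0) (nat_lit 13984824755) (nat_lit 76) (nat_lit 80878849895) (nat_lit 76) (nat_lit 782287778) (nat_lit 11) (nat_lit 4) (nat_lit 12) (nat_lit 5) (nat_lit 12) (nat_lit 4) (nat_lit 326) (nat_lit 252) (nat_lit 142)) (XT.lf (nat_lit 0) (nat_lit 11808513139) (nat_lit 152) (nat_lit 56143170178) (nat_lit 76) (nat_lit 31972444854) (nat_lit 10) (nat_lit 5) (nat_lit 12) (nat_lit 5) (nat_lit 11) (nat_lit 4) (nat_lit 327) (nat_lit 252) (nat_lit 141))))) (XT.nd (nat_lit 31668) (nat_lit 0) (nat_lit 15124) (XT.nd (nat_lit 78) (nat_lit 76) (nat_lit 0) (XT.lf (nat_lit 0) (nat_lit 25005703367) (nat_lit 152) (nat_lit 29369911861) (nat_lit 76) (nat_lit 50040567535) (nat_lit 10) (nat_lit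 5) (nat_lit 12) (nat_lit 5) (nat_lit 11) (nat_lit 4) (nat_lit 328) (nat_lit 252) (nat_lit 140)) (XT.nd (nat_lit 78) (nat_lit 76) (nat_lit 0) (XT.lf (nat_lit 0) (nat_lit 38855970036) (nat_lit 152) (nat_lit 1270097039) (nat_lit 76) (nat_lit 69006980087) (nat_lit 10) (nat_lit 5) (nat_lit 12) (nat_lit 5) (nat_lit 11) (nat_lit 4) (nat_lit 329) (nat_lit 252) (nat_lit 139)) (XT.lf (nat_lit 0) (nat_lit 28784875200) (nat_lit 76) (nat_lit 24884112603) (nat_lit 152) (nat_lit 60408663265) (nat_lit 9) (nat_lit 5) (nat_lit 10) (nat_lit 5) (nat_lit 11) (nat_lit 4) (nat_lit 330) (nat_lit 252) (nat_lit 138)))) (XT.nd (nat_lit 78) (nat_lit 0) (nat_lit 0) (XT.lf (nat_lit 0) (nat_lit 1263875061) (nat_lit 988) (nat_lit 1480907766) (nat_lit 988) (nat_lit 1480907766) (nat_lit 208) (nat_lit 3) (nat_lit 221) (nat_lit 3) (nat_lit 221) (nat_lit 5) (nat_lit 253) (nat_lit 253) (nat_lit 214)) (XT.nd (nat_lit 78) (nat_lit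 0) (nat_lit 76) (XT.lf (nat_lit 76) (nat_lit 3293593486) (nat_lit 0) (nat_lit 929019302) (nat_lit 988) (nat_lit 4387934394) (nat_lit 209) (nat_lit 5) (nat_lit 208) (nat_lit 3) (nat_lit 221) (nat_lit 5) (nat_lit 254) (nat_lit 253) (nat_lit 213)) (XT.lf (nat_lit 76) (nat_lit 1072778747) (nat_lit 0) (nat_lit 4905176318) (nat_lit 988) (nat_lit 2800647140) (nat_lit 210) (nat_lit 5) (nat_lit 209) (nat_lit 5) (nat_lit 222) (nat_lit 5) (nat_lit 255) (nat_lit 253) (nat_lit 212)))))) (XT.nd (nat_lit 390) (nat_lit 2964) (nat_lit 0) (XT.nd (nat_lit 156) (nat_lit 0) (nat_lit 76) (XT.nd (nat_lit 78) (nat_lit 988) (nat_lit 0) (XT.lf (nat_lit 0) (nat_lit 7787346465) (nat_lit 912) (nat_lit 1129132637) (nat_lit 988) (nat_lit 39785579) (nat_lit 210) (nat_lit 5) (nat_lit 222) (nat_lit 5) (nat_lit 223) (nat_lit 5) (nat_lit 256) (nat_lit 253) (nat_lit 211)) (XT.lf (nat_lit 0) (nat_lit 545743741) (nat_lit 988)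 (nat_lit 3364968003) (nat_lit 1064) (nat_lit 5231761060) (nat_lit 197) (nat_lit 5) (nat_lit 210) (nat_lit 5) (nat_lit 211) (nat_lit 5) (nat_lit 257) (nat_lit 253) (nat_lit 210))) (XT.nd (nat_lit 78) (nat_lit 0) (nat_lit 0) (XT.lf (nat_lit 0) (nat_lit 2293294285) (nat_lit 988) (nat_lit 5633897320) (nat_lit 1064) (nat_lit 1411482710) (nat_lit 198) (nat_lit 5) (nat_lit 211) (nat_lit 5) (nat_lit 212) (nat_lit 5) (nat_lit 258) (nat_lit 253) (nat_lit 209)) (XT.nd (nat_lit 78) (nat_lit 0) (nat_lit 76) (XT.lf (nat_lit 76) (nat_lit 1587367157) (nat_lit 0) (nat_lit 2544409490) (nat_lit 1064) (nat_lit 5412964629) (nat_lit 199) (nat_lit 5) (nat_lit 198) (nat_lit 5) (nat_lit 212) (nat_lit 5) (nat_lit 259) (nat_lit 253) (nat_lit 208)) (XT.lf (nat_lit 0) (nat_lit 6068270954) (nat_lit 988) (nat_lit 562068551) (nat_lit 1064) (nat_lit 3130743731) (nat_lit 199) (nat_lit 5) (nat_lit 212) (nat_lit 5) (nat_lit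 213) (nat_lit 5) (nat_lit 260) (nat_lit 253) (nat_lit 207))))) (XT.nd (nat_lit 234) (nat_lit 2128) (nat_lit 0) (XT.nd (nat_lit 78) (nat_lit 988) (nat_lit 0) (XT.lf (nat_lit 76) (nat_lit 7262196304) (nat_lit 0) (nat_lit 856451595) (nat_lit 1064) (nat_lit 1869229599) (nat_lit 200) (nat_lit 5) (nat_lit 199) (nat_lit 5) (nat_lit 213) (nat_lit 5) (nat_lit 261) (nat_lit 253) (nat_lit 206)) (XT.nd (nat_lit 78) (nat_lit 0) (nat_lit 76) (XT.lf (nat_lit 0) (nat_lit 76215642) (nat_lit 1064) (nat_lit 4967664460) (nat_lit 1140) (nat_lit 5181306950) (nat_lit 186) (nat_lit 5) (nat_lit 200) (nat_lit 5) (nat_lit 201) (nat_lit 5) (nat_lit 262) (nat_lit 253) (nat_lit 205)) (XT.lf (nat_lit 0) (nat_lit 2086343624) (nat_lit 1064) (nat_lit 7284624000) (nat_lit 76) (nat_lit 1102786568) (nat_lit 187) (nat_lit 5) (nat_lit 201) (nat_lit 5) (nat_lit 188) (nat_lit 5) (nat_lit 263) (nat_lit 253) (nat_lit 204)))) (XT.nd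 (nat_lit 78) (nat_lit 1140) (nat_lit 0) (XT.lf (nat_lit 0) (nat_lit 1034716121) (nat_lit 1064) (nat_lit 3204978847) (nat_lit 1140) (nat_lit 6493896449) (nat_lit 173) (nat_lit 5) (nat_lit 187) (nat_lit 5) (nat_lit 188) (nat_lit 5) (nat_lit 264) (nat_lit 253) (nat_lit 203)) (XT.nd (nat_lit 78) (nat_lit 1140) (nat_lit 0) (XT.lf (nat_lit 0) (nat_lit 6540965383) (nat_lit 1140) (nat_lit 1173059146) (nat_lit 76) (nat_lit 3291305797) (nat_lit 173) (nat_lit 5) (nat_lit 188) (nat_lit 5) (nat_lit 174) (nat_lit 5) (nat_lit 265) (nat_lit 253) (nat_lit 202)) (XT.lf (nat_lit 0) (nat_lit 7843594334) (nat_lit 1140) (nat_lit 1157730714) (nat_lit 1216) (nat_lit 2288122138) (nat_lit 158) (nat_lit 5) (nat_lit 173) (nat_lit 5) (nat_lit 174) (nat_lit 5) (nat_lit 266) (nat_lit 253) (nat_lit 201))))))))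
noncomputable def xc75 : XT := (XT.nd (nat_lit 1716) (nat_lit 3040) (nat_lit 0) (XT.nd (nat_lit 858) (nat_lit 2660) (nat_lit 0) (XT.nd (nat_lit 390) (nat_lit 2280) (nat_lit 0) (XT.nd (nat_lit 156) (nat_lit 1064) (nat_lit 0) (XT.nd (nat_lit 78) (nat_lit 608) (nat_lit 0) (XT.lf (nat_lit 0) (nat_lit 58849399) (nat_lit 608) (nat_lit 5837973219) (nat_lit 76) (nat_lit 5689195808) (nat_lit 150) (nat_lit 5) (nat_lit 158) (nat_lit 5) (nat_lit 151) (nat_lit 5) (nat_lit 267) (nat_lit 253) (nat_lit 200)) (XT.lf (nat_lit 0) (nat_lit 2508686471) (nat_lit 684) (nat_lit 8350995578) (nat_lit 76) (nat_lit 1036169806) (nat_lit 142) (nat_lit 5) (nat_lit 151) (nat_lit 5) (nat_lit 143) (nat_lit 5) (nat_lit 268) (nat_lit 253) (nat_lit 199))) (XT.nd (nat_lit 78) (nat_lit 532) (nat_lit 0) (XT.lf (nat_lit 0) (nat_lit 1206439055) (nat_lit 532) (nat_lit 3949269334) (nat_lit 608) (nat_lit 7063321525) (nat_lit 135) (nat_lit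 5) (nat_lit 142) (nat_lit 5) (nat_lit 143) (nat_lit 5) (nat_lit 269) (nat_lit 253) (nat_lit 198)) (XT.nd (nat_lit 78) (nat_lit 532) (nat_lit 0) (XT.lf (nat_lit 0) (nat_lit 7998764148) (nat_lit 608) (nat_lit 1228727602) (nat_lit 76) (nat_lit 3329053922) (nat_lit 135) (nat_lit 5) (nat_lit 143) (nat_lit 5) (nat_lit 136) (nat_lit 5) (nat_lit 270) (nat_lit 253) (nat_lit 197)) (XT.lf (nat_lit 0) (nat_lit 9128736167) (nat_lit 532) (nat_lit 1930543492) (nat_lit 608) (nat_lit 1849483383) (nat_lit 128) (nat_lit 5) (nat_lit 135) (nat_lit 5) (nat_lit 136) (nat_lit 5) (nat_lit 271) (nat_lit 253) (nat_lit 196))))) (XT.nd (nat_lit 234) (nat_lit 912) (nat_lit 0) (XT.nd (nat_lit 78) (nat_lit 836) (nat_lit 0) (XT.lf (nat_lit 0) (nat_lit 1058219155) (nat_lit 532) (nat_lit 6511942925) (nat_lit 76) (nat_lit 5705719393) (nat_lit 121) (nat_lit 5) (nat_lit 128) (nat_lit 5) (nat_lit 122) (nat_lit 5) (nat_lit 272)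 (nat_lit 253) (nat_lit 195)) (XT.nd (nat_lit 78) (nat_lit 380) (nat_lit 0) (XT.lf (nat_lit 0) (nat_lit 4125161838) (nat_lit 532) (nat_lit 9415714256) (nat_lit 76) (nat_lit 118442104) (nat_lit 115) (nat_lit 5) (nat_lit 122) (nat_lit 5) (nat_lit 116) (nat_lit 5) (nat_lit 273) (nat_lit 253) (nat_lit 194)) (XT.lf (nat_lit 0) (nat_lit 1512221673) (nat_lit 380) (nat_lit 5944663745) (nat_lit 456) (nat_lit 6601769641) (nat_lit 110) (nat_lit 5) (nat_lit 115) (nat_lit 5) (nat_lit 116) (nat_lit 5) (nat_lit 274) (nat_lit 253) (nat_lit 193)))) (XT.nd (nat_lit 78) (nat_lit 912) (nat_lit 0) (XT.lf (nat_lit 0) (nat_lit 11027088950) (nat_lit 456) (nat_lit 1365373888) (nat_lit 76) (nat_lit 2083407028) (nat_lit 110) (nat_lit 5) (nat_lit 116) (nat_lit 5) (nat_lit 111) (nat_lit 5) (nat_lit 275) (nat_lit 253) (nat_lit 192)) (XT.nd (nat_lit 78) (nat_lit 456) (nat_lit 0) (XT.lf (nat_lit 0) (nat_lit 10468393023)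 (nat_lit 456) (nat_lit 4424687704) (nat_lit 532) (nat_lit 17411028) (nat_lit 104) (nat_lit 5) (nat_lit 110) (nat_lit 5) (nat_lit 111) (nat_lit 5) (nat_lit 276) (nat_lit 253) (nat_lit 191)) (XT.lf (nat_lit 0) (nat_lit 3599789096) (nat_lit 456) (nat_lit 7783558640) (nat_lit 76) (nat_lit 3979995974) (nat_lit 98) (nat_lit 5) (nat_lit 104) (nat_lit 5) (nat_lit 99) (nat_lit 5) (nat_lit 277) (nat_lit 253) (nat_lit 190)))))) (XT.nd (nat_lit 390) (nat_lit 1216) (nat_lit 0) (XT.nd (nat_lit 156) (nat_lit 760) (nat_lit 0) (XT.nd (nat_lit 78) (nat_lit 304) (nat_lit 0) (XT.lf (nat_lit 0) (nat_lit 4449831706) (nat_lit 380) (nat_lit 3040508595) (nat_lit 456) (nat_lit 8345764215) (nat_lit 93) (nat_lit 5) (nat_lit 98) (nat_lit 5) (nat_lit 99) (nat_lit 5) (nat_lit 278) (nat_lit 253) (nat_lit 189)) (XT.lf (nat_lit 0) (nat_lit 1042462429) (nat_lit 304) (nat_lit 10639496603) (nat_lit 380) (nat_lit 4647402381)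 (nat_lit 89) (nat_lit 5) (nat_lit 93) (nat_lit 5) (nat_lit 94) (nat_lit 5) (nat_lit 279) (nat_lit 253) (nat_lit 188))) (XT.nd (nat_lit 78) (nat_lit 760) (nat_lit 0) (XT.lf (nat_lit 0) (nat_lit 14251142294) (nat_lit 304) (nat_lit 1941650151) (nat_lit 380) (nat_lit 651251361) (nat_lit 89) (nat_lit 5) (nat_lit 93) (nat_lit 5) (nat_lit 94) (nat_lit 5) (nat_lit 280) (nat_lit 253) (nat_lit 187)) (XT.nd (nat_lit 78) (nat_lit 304) (nat_lit 0) (XT.lf (nat_lit 0) (nat_lit 3613835225) (nat_lit 456) (nat_lit 6584685499) (nat_lit 76) (nat_lit 7180816208) (nat_lit 83) (nat_lit 5) (nat_lit 89) (nat_lit 5) (nat_lit 84) (nat_lit 5) (nat_lit 281) (nat_lit 253) (nat_lit 186)) (XT.lf (nat_lit 0) (nat_lit 7029623782) (nat_lit 304) (nat_lit 1127980773) (nat_lit 380) (nat_lit 9781275298) (nat_lit 79) (nat_lit 5) (nat_lit 83) (nat_lit 5) (nat_lit 84) (nat_lit 5) (nat_lit 282) (nat_lit 253) (nat_lit 185))))) (XT.nd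 (nat_lit 234) (nat_lit 532) (nat_lit 0) (XT.nd (nat_lit 78) (nat_lit 380) (nat_lit 0) (XT.lf (nat_lit 0) (nat_lit 2866517532) (nat_lit 304) (nat_lit 10204555100) (nat_lit 380) (nat_lit 5451095309) (nat_lit 75) (nat_lit 5) (nat_lit 79) (nat_lit 5) (nat_lit 80) (nat_lit 5) (nat_lit 283) (nat_lit 253) (nat_lit 184)) (XT.nd (nat_lit 78) (nat_lit 380) (nat_lit 0) (XT.lf (nat_lit 0) (nat_lit 17502834172) (nat_lit 304) (nat_lit 817947214) (nat_lit 380) (nat_lit 811163296) (nat_lit 75) (nat_lit 5) (nat_lit 79) (nat_lit 5) (nat_lit 80) (nat_lit 5) (nat_lit 284) (nat_lit 253) (nat_lit 183)) (XT.lf (nat_lit 0) (nat_lit 4165772739) (nat_lit 380) (nat_lit 6580996990) (nat_lit 76) (nat_lit 9018780224) (nat_lit 70) (nat_lit 5) (nat_lit 75) (nat_lit 5) (nat_lit 71) (nat_lit 5) (nat_lit 285) (nat_lit 253) (nat_lit 182)))) (XT.nd (nat_lit 78) (nat_lit 228) (nat_lit 0) (XT.lf (nat_lit 0) (nat_lit 8448090779)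 (nat_lit 304) (nat_lit 1002462255) (nat_lit 380) (nat_lit 10977804647) (nat_lit 66) (nat_lit 5) (nat_lit 70) (nat_lit 5) (nat_lit 71) (nat_lit 5) (nat_lit 286) (nat_lit 253) (nat_lit 181)) (XT.nd (nat_lit 78) (nat_lit 0) (nat_lit 0) (XT.lf (nat_lit 0) (nat_lit 3174084340) (nat_lit 228) (nat_lit 11983301196) (nat_lit 304) (nat_lit 5962220472) (nat_lit 63) (nat_lit 5) (nat_lit 66) (nat_lit 5) (nat_lit 67) (nat_lit 5) (nat_lit 287) (nat_lit 253) (nat_lit 180)) (XT.lf (nat_lit 0) (nat_lit 19285049646) (nat_lit 228) (nat_lit 1969050500) (nat_lit 304) (nat_lit 588213355) (nat_lit 63) (nat_lit 5) (nat_lit 66) (nat_lit 5) (nat_lit 67) (nat_lit 5) (nat_lit 288) (nat_lit 253) (nat_lit 179))))))) (XT.nd (nat_lit 858) (nat_lit 1064) (nat_lit 0) (XT.nd (nat_lit 390) (nat_lit 836) (nat_lit 0) (XT.nd (nat_lit 156) (nat_lit 532) (nat_lit 0) (XT.nd (nat_lit 78) (nat_lit 228) (nat_lit 0) (XT.lf (nat_lit 0)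 (nat_lit 5144424080) (nat_lit 380) (nat_lit 8899436297) (nat_lit 76) (nat_lit 8550212020) (nat_lit 58) (nat_lit 5) (nat_lit 63) (nat_lit 5) (nat_lit 59) (nat_lit 5) (nat_lit 289) (nat_lit 253) (nat_lit 178)) (XT.lf (nat_lit 0) (nat_lit 7511098610) (nat_lit 228) (nat_lit 3732303803) (nat_lit 304) (nat_lit 12137114909) (nat_lit 55) (nat_lit 5) (nat_lit 58) (nat_lit 5) (nat_lit 59) (nat_lit 5) (nat_lit 290) (nat_lit 253) (nat_lit 177))) (XT.nd (nat_lit 78) (nat_lit 304) (nat_lit 0) (XT.lf (nat_lit 0) (nat_lit 628859415) (nat_lit 228) (nat_lit 17159130381) (nat_lit 304) (nat_lit 6414102538) (nat_lit 52) (nat_lit 5) (nat_lit 55) (nat_lit 5) (nat_lit 56) (nat_lit 5) (nat_lit 291) (nat_lit 253) (nat_lit 176)) (XT.nd (nat_lit 78) (nat_lit 304) (nat_lit 0) (XT.lf (nat_lit 0) (nat_lit 18207468780) (nat_lit 228) (nat_lit 6627777368) (nat_lit 304) (nat_lit 224263088) (nat_lit 52) (nat_lit 5) (nat_lit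 55) (nat_lit 5) (nat_lit 56) (nat_lit 5) (nat_lit 292) (nat_lit 253) (nat_lit 175)) (XT.lf (nat_lit 0) (nat_lit 6276432809) (nat_lit 304) (nat_lit 15180189675) (nat_lit 76) (nat_lit 4497674839) (nat_lit 48) (nat_lit 5) (nat_lit 52) (nat_lit 5) (nat_lit 49) (nat_lit 5) (nat_lit 293) (nat_lit 253) (nat_lit 174))))) (XT.nd (nat_lit 234) (nat_lit 456) (nat_lit 0) (XT.nd (nat_lit 78) (nat_lit 152) (nat_lit 0) (XT.lf (nat_lit 0) (nat_lit 2475428339) (nat_lit 228) (nat_lit 10760480798) (nat_lit 304) (nat_lit 13653720736) (nat_lit 45) (nat_lit 5) (nat_lit 48) (nat_lit 5) (nat_lit 49) (nat_lit 5) (nat_lit 294) (nat_lit 253) (nat_lit 173)) (XT.nd (nat_lit 78) (nat_lit 152) (nat_lit 0) (XT.lf (nat_lit 0) (nat_lit 20682779836) (nat_lit 304) (nat_lit 6577677326) (nat_lit 76) (nat_lit 607111354) (nat_lit 45) (nat_lit 5) (nat_lit 49) (nat_lit 5) (nat_lit 46) (nat_lit 5) (nat_lit 295) (nat_lit 253) (nat_lit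 172)) (XT.lf (nat_lit 0) (nat_lit 12247131335) (nat_lit 152) (nat_lit 16459373291) (nat_lit 228) (nat_lit 181785176) (nat_lit 43) (nat_lit 5) (nat_lit 45) (nat_lit 5) (nat_lit 46) (nat_lit 5) (nat_lit 296) (nat_lit 253) (nat_lit 171)))) (XT.nd (nat_lit 78) (nat_lit 152) (nat_lit 0) (XT.lf (nat_lit 0) (nat_lit 2131209371) (nat_lit 228) (nat_lit 4967757671) (nat_lit 304) (nat_lit 22857005355) (nat_lit 39) (nat_lit 5) (nat_lit 42) (nat_lit 5) (nat_lit 43) (nat_lit 5) (nat_lit 297) (nat_lit 253) (nat_lit 170)) (XT.nd (nat_lit 78) (nat_lit 152) (nat_lit 0) (XT.lf (nat_lit 0) (nat_lit 14960528857) (nat_lit 304) (nat_lit 8986676115) (nat_lit 76) (nat_lit 7123182724) (nat_lit 39) (nat_lit 5) (nat_lit 43) (nat_lit 5) (nat_lit 40) (nat_lit 5) (nat_lit 298) (nat_lit 253) (nat_lit 169)) (XT.lf (nat_lit 0) (nat_lit 10924971708) (nat_lit 152) (nat_lit 12425602923) (nat_lit 228) (nat_lit 8885904590) (nat_lit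 37) (nat_lit 5) (nat_lit 39) (nat_lit 5) (nat_lit 40) (nat_lit 5) (nat_lit 299) (nat_lit 253) (nat_lit 168)))))) (XT.nd (nat_lit 468) (nat_lit 456) (nat_lit 0) (XT.nd (nat_lit 234) (nat_lit 228) (nat_lit 0) (XT.nd (nat_lit 78) (nat_lit 380) (nat_lit 0) (XT.lf (nat_lit 0) (nat_lit 31989508561) (nat_lit 152) (nat_lit 244019127) (nat_lit 228) (nat_lit 1225162280) (nat_lit 37) (nat_lit 5) (nat_lit 39) (nat_lit 5) (nat_lit 40) (nat_lit 5) (nat_lit 300) (nat_lit 253) (nat_lit 167)) (XT.nd (nat_lit 78) (nat_lit 152) (nat_lit 0) (XT.lf (nat_lit 0) (nat_lit 6979114384) (nat_lit 228) (nat_lit 15204149130) (nat_lit 76) (nat_lit 12547990338) (nat_lit 34) (nat_lit 5) (nat_lit 37) (nat_lit 5) (nat_lit 35) (nat_lit 5) (nat_lit 301) (nat_lit 253) (nat_lit 166)) (XT.lf (nat_lit 0) (nat_lit 5602236047) (nat_lit 152) (nat_lit 10019961298) (nat_lit 228) (nat_lit 20443281547) (nat_lit 32) (nat_lit 5) (nat_lit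 34) (nat_lit 5) (nat_lit 35) (nat_lit 5) (nat_lit 302) (nat_lit 253) (nat_lit 165)))) (XT.nd (nat_lit 78) (nat_lit 228) (nat_lit 0) (XT.lf (nat_lit 0) (nat_lit 24864529551) (nat_lit 228) (nat_lit 9751672900) (nat_lit 76) (nat_lit 2845213966) (nat_lit 32) (nat_lit 5) (nat_lit 35) (nat_lit 5) (nat_lit 33) (nat_lit 5) (nat_lit 303) (nat_lit 253) (nat_lit 164)) (XT.nd (nat_lit 78) (nat_lit 76) (nat_lit 0) (XT.lf (nat_lit 0) (nat_lit 12103265857) (nat_lit 152) (nat_lit 22666602783) (nat_lit 228) (nat_lit 4151268886) (nat_lit 30) (nat_lit 5) (nat_lit 32) (nat_lit 5) (nat_lit 33) (nat_lit 5) (nat_lit 304) (nat_lit 253) (nat_lit 163)) (XT.lf (nat_lit 0) (nat_lit 4709746664) (nat_lit 228) (nat_lit 5269241505) (nat_lit 76) (nat_lit 30470954100) (nat_lit 29) (nat_lit 5) (nat_lit 32) (nat_lit 5) (nat_lit 30) (nat_lit 5) (nat_lit 305) (nat_lit 253) (nat_lit 162))))) (XT.nd (nat_lit 234) (nat_lit 152)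 (nat_lit 0) (XT.nd (nat_lit 78) (nat_lit 152) (nat_lit 0) (XT.lf (nat_lit 0) (nat_lit 14116940410) (nat_lit 228) (nat_lit 24449970157) (nat_lit 76) (nat_lit 3481385985) (nat_lit 27) (nat_lit 5) (nat_lit 30) (nat_lit 5) (nat_lit 28) (nat_lit 5) (nat_lit 306) (nat_lit 253) (nat_lit 161)) (XT.nd (nat_lit 78) (nat_lit 152) (nat_lit 0) (XT.lf (nat_lit 0) (nat_lit 24134945054) (nat_lit 228) (nat_lit 2131979274) (nat_lit 76) (nat_lit 17455441937) (nat_lit 27) (nat_lit 5) (nat_lit 30) (nat_lit 5) (nat_lit 28) (nat_lit 5) (nat_lit 307) (nat_lit 253) (nat_lit 160)) (XT.lf (nat_lit 0) (nat_lit 21701417366) (nat_lit 152) (nat_lit 13146708073) (nat_lit 228) (nat_lit 10626196476) (nat_lit 25) (nat_lit 5) (nat_lit 27) (nat_lit 5) (nat_lit 28) (nat_lit 5) (nat_lit 308) (nat_lit 253) (nat_lit 159)))) (XT.nd (nat_lit 78) (nat_lit 152) (nat_lit 0) (XT.lf (nat_lit 0) (nat_lit 46111216784) (nat_lit 228) (nat_lit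 572065208) (nat_lit 76) (nat_lit 630176002) (nat_lit 25) (nat_lit 5) (nat_lit 28) (nat_lit 5) (nat_lit 26) (nat_lit 4) (nat_lit 309) (nat_lit 253) (nat_lit 158)) (XT.nd (nat_lit 78) (nat_lit 0) (nat_lit 0) (XT.lf (nat_lit 0) (nat_lit 8877845065) (nat_lit 152) (nat_lit 25217077620) (nat_lit 76) (nat_lit 15136493884) (nat_lit 23) (nat_lit 5) (nat_lit 25) (nat_lit 5) (nat_lit 24) (nat_lit 5) (nat_lit 310) (nat_lit 253) (nat_lit 157)) (XT.lf (nat_lit 0) (nat_lit 19430237926) (nat_lit 152) (nat_lit 1437385708) (nat_lit 76) (nat_lit 30377506328) (nat_lit 23) (nat_lit 5) (nat_lit 25) (nat_lit 5) (nat_lit 24) (nat_lit 5) (nat_lit 311) (nat_lit 253) (nat_lit 156))))))))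
noncomputable def xc76 : XT := (XT.nd (nat_lit 33306) (nat_lit 0) (nat_lit 6308) (XT.nd (nat_lit 858) (nat_lit 228) (nat_lit 0) (XT.nd (nat_lit 390) (nat_lit 304) (nat_lit 0) (XT.nd (nat_lit 156) (nat_lit 304) (nat_lit 0) (XT.nd (nat_lit 78) (nat_lit 0) (nat_lit 0) (XT.lf (nat_lit 0) (nat_lit 23978129244) (nat_lit 152) (nat_lit 6750221365) (nat_lit 228) (nat_lit 22624643973) (nat_lit 21) (nat_lit 5) (nat_lit 23) (nat_lit 5) (nat_lit 24) (nat_lit 5) (nat_lit 312) (nat_lit 253) (nat_lit 155)) (XT.lf (nat_lit 0) (nat_lit 42671835031) (nat_lit 228) (nat_lit 4969845370) (nat_lit 76) (nat_lit 7922166199) (nat_lit 21) (nat_lit 5) (nat_lit 24) (nat_lit 5) (nat_lit 22) (nat_lit 4) (nat_lit 313) (nat_lit 253) (nat_lit 154))) (XT.nd (nat_lit 78) (nat_lit 228) (nat_lit 0) (XT.lf (nat_lit 0) (nat_lit 20976871813) (nat_lit 76) (nat_lit 34493891127) (nat_lit 152) (nat_lit 2406737965) (nat_lit 20) (nat_lit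 5) (nat_lit 21) (nat_lit 5) (nat_lit 22) (nat_lit 4) (nat_lit 314) (nat_lit 253) (nat_lit 153)) (XT.nd (nat_lit 78) (nat_lit 152) (nat_lit 0) (XT.lf (nat_lit 0) (nat_lit 8475335374) (nat_lit 152) (nat_lit 12083146445) (nat_lit 76) (nat_lit 39744670194) (nat_lit 19) (nat_lit 5) (nat_lit 21) (nat_lit 5) (nat_lit 20) (nat_lit 5) (nat_lit 315) (nat_lit 253) (nat_lit 152)) (XT.lf (nat_lit 0) (nat_lit 14209704463) (nat_lit 152) (nat_lit 5768365047) (nat_lit 228) (nat_lit 42867518165) (nat_lit 17) (nat_lit 5) (nat_lit 19) (nat_lit 5) (nat_lit 20) (nat_lit 5) (nat_lit 316) (nat_lit 253) (nat_lit 151))))) (XT.nd (nat_lit 234) (nat_lit 228) (nat_lit 0) (XT.nd (nat_lit 78) (nat_lit 76) (nat_lit 0) (XT.lf (nat_lit 0) (nat_lit 32264930527) (nat_lit 228) (nat_lit 23554987717) (nat_lit 76) (nat_lit 9688963682) (nat_lit 17) (nat_lit 5) (nat_lit 20) (nat_lit 5) (nat_lit 18) (nat_lit 4) (nat_lit 317) (nat_lit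 253) (nat_lit 150)) (XT.nd (nat_lit 78) (nat_lit 0) (nat_lit 0) (XT.lf (nat_lit 0) (nat_lit 2758209282) (nat_lit 76) (nat_lit 42482700532) (nat_lit 152) (nat_lit 23062194021) (nat_lit 16) (nat_lit 5) (nat_lit 17) (nat_lit 5) (nat_lit 18) (nat_lit 4) (nat_lit 318) (nat_lit 253) (nat_lit 149)) (XT.lf (nat_lit 0) (nat_lit 30862448908) (nat_lit 76) (nat_lit 28236069426) (nat_lit 152) (nat_lit 12131539502) (nat_lit 16) (nat_lit 5) (nat_lit 17) (nat_lit 5) (nat_lit 18) (nat_lit 4) (nat_lit 319) (nat_lit 253) (nat_lit 148)))) (XT.nd (nat_lit 78) (nat_lit 228) (nat_lit 0) (XT.lf (nat_lit 0) (nat_lit 60355855575) (nat_lit 76) (nat_lit 13283963567) (nat_lit 152) (nat_lit 663821666) (nat_lit 16) (nat_lit 5) (nat_lit 17) (nat_lit 5) (nat_lit 18) (nat_lit 4) (nat_lit 320) (nat_lit 253) (nat_lit 147)) (XT.nd (nat_lit 78) (nat_lit 0) (nat_lit 0) (XT.lf (nat_lit 0) (nat_lit 11305997380) (nat_lit 228) (nat_lit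 63609213777) (nat_lit 76) (nat_lit 2607894196) (nat_lit 13) (nat_lit 5) (nat_lit 16) (nat_lit 5) (nat_lit 14) (nat_lit 4) (nat_lit 321) (nat_lit 253) (nat_lit 146)) (XT.lf (nat_lit 0) (nat_lit 24131158310) (nat_lit 228) (nat_lit 37596534527) (nat_lit 76) (nat_lit 19167540673) (nat_lit 13) (nat_lit 5) (nat_lit 16) (nat_lit 5) (nat_lit 14) (nat_lit 4) (nat_lit 322) (nat_lit 253) (nat_lit 145)))))) (XT.nd (nat_lit 390) (nat_lit 76) (nat_lit 0) (XT.nd (nat_lit 156) (nat_lit 76) (nat_lit 0) (XT.nd (nat_lit 78) (nat_lit 76) (nat_lit 0) (XT.lf (nat_lit 0) (nat_lit 37589360305) (nat_lit 228) (nat_lit 10297715371) (nat_lit 76) (nat_lit 36549143627) (nat_lit 13) (nat_lit 5) (nat_lit 16) (nat_lit 5) (nat_lit 14) (nat_lit 4) (nat_lit 323) (nat_lit 253) (nat_lit 144)) (XT.lf (nat_lit 0) (nat_lit 18717486457) (nat_lit 76) (nat_lit 33175084176) (nat_lit 152) (nat_lit 36256525298) (nat_lit 12) (nat_lit 5)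 (nat_lit 13) (nat_lit 5) (nat_lit 14) (nat_lit 4) (nat_lit 324) (nat_lit 253) (nat_lit 143))) (XT.nd (nat_lit 78) (nat_lit 76) (nat_lit 0) (XT.lf (nat_lit 0) (nat_lit 49385232163) (nat_lit 76) (nat_lit 17624133276) (nat_lit 152) (nat_lit 25035302511) (nat_lit 12) (nat_lit 5) (nat_lit 13) (nat_lit 5) (nat_lit 14) (nat_lit 4) (nat_lit 325) (nat_lit 253) (nat_lit 142)) (XT.nd (nat_lit 78) (nat_lit 76) (nat_lit 0) (XT.lf (nat_lit 0) (nat_lit 81573595461) (nat_lit 76) (nat_lit 1301183636) (nat_lit 152) (nat_lit 13260460174) (nat_lit 12) (nat_lit 5) (nat_lit 13) (nat_lit 5) (nat_lit 14) (nat_lit 4) (nat_lit 326) (nat_lit 253) (nat_lit 141)) (XT.lf (nat_lit 0) (nat_lit 15070553832) (nat_lit 76) (nat_lit 84753092867) (nat_lit 76) (nat_lit 597990842) (nat_lit 11) (nat_lit 4) (nat_lit 12) (nat_lit 5) (nat_lit 12) (nat_lit 4) (nat_lit 327) (nat_lit 253) (nat_lit 140))))) (XT.nd (nat_lit 31824) (nat_lit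 0) (nat_lit 14136) (XT.nd (nat_lit 78) (nat_lit 0) (nat_lit 0) (XT.lf (nat_lit 0) (nat_lit 12607559526) (nat_lit 152) (nat_lit 58577982705) (nat_lit 76) (nat_lit 33728423363) (nat_lit 10) (nat_lit 5) (nat_lit 12) (nat_lit 5) (nat_lit 11) (nat_lit 4) (nat_lit 328) (nat_lit 253) (nat_lit 139)) (XT.nd (nat_lit 31668) (nat_lit 0) (nat_lit 15048) (XT.lf (nat_lit 0) (nat_lit 26454674944) (nat_lit 152) (nat_lit 30483792232) (nat_lit 76) (nat_lit 52692459023) (nat_lit 10) (nat_lit 5) (nat_lit 12) (nat_lit 5) (nat_lit 11) (nat_lit 4) (nat_lit 329) (nat_lit 253) (nat_lit 138)) (XT.lf (nat_lit 0) (nat_lit 2902097069) (nat_lit 988) (nat_lit 742254103) (nat_lit 988) (nat_lit 742254103) (nat_lit 208) (nat_lit 3) (nat_lit 221) (nat_lit 3) (nat_lit 221) (nat_lit 5) (nat_lit 254) (nat_lit 254) (nat_lit 212)))) (XT.nd (nat_lit 78) (nat_lit 912) (nat_lit 0) (XT.lf (nat_lit 76) (nat_lit 5037079551) (nat_lit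 0) (nat_lit 2411894150) (nat_lit 988) (nat_lit 1495702983) (nat_lit 209) (nat_lit 5) (nat_lit 208) (nat_lit 3) (nat_lit 221) (nat_lit 5) (nat_lit 255) (nat_lit 254) (nat_lit 211)) (XT.nd (nat_lit 78) (nat_lit 0) (nat_lit 0) (XT.lf (nat_lit 0) (nat_lit 24977517) (nat_lit 988) (nat_lit 6358876578) (nat_lit 1064) (nat_lit 2741784786) (nat_lit 196) (nat_lit 5) (nat_lit 209) (nat_lit 5) (nat_lit 210) (nat_lit 5) (nat_lit 256) (nat_lit 254) (nat_lit 210)) (XT.lf (nat_lit 76) (nat_lit 458396476) (nat_lit 0) (nat_lit 1111967004) (nat_lit 1064) (nat_lit 7745623395) (nat_lit 197) (nat_lit 5) (nat_lit 196) (nat_lit 5) (nat_lit 210) (nat_lit 5) (nat_lit 257) (nat_lit 254) (nat_lit 209))))))) (XT.nd (nat_lit 858) (nat_lit 4332) (nat_lit 0) (XT.nd (nat_lit 390) (nat_lit 2660) (nat_lit 0) (XT.nd (nat_lit 156) (nat_lit 912) (nat_lit 0) (XT.nd (nat_lit 78) (nat_lit 0) (nat_lit 76) (XT.lf (nat_lit 0) (nat_lit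 3215723227) (nat_lit 988) (nat_lit 1861981461) (nat_lit 1064) (nat_lit 4437628448) (nat_lit 197) (nat_lit 5) (nat_lit 210) (nat_lit 5) (nat_lit 211) (nat_lit 5) (nat_lit 258) (nat_lit 254) (nat_lit 208)) (XT.lf (nat_lit 0) (nat_lit 4931674178) (nat_lit 988) (nat_lit 4202804891) (nat_lit 1064) (nat_lit 590672232) (nat_lit 198) (nat_lit 5) (nat_lit 211) (nat_lit 5) (nat_lit 212) (nat_lit 5) (nat_lit 259) (nat_lit 254) (nat_lit 207))) (XT.nd (nat_lit 78) (nat_lit 988) (nat_lit 0) (XT.lf (nat_lit 76) (nat_lit 3330426106) (nat_lit 0) (nat_lit 3427470050) (nat_lit 1064) (nat_lit 3186976954) (nat_lit 199) (nat_lit 5) (nat_lit 198) (nat_lit 5) (nat_lit 212) (nat_lit 5) (nat_lit 260) (nat_lit 254) (nat_lit 206)) (XT.nd (nat_lit 78) (nat_lit 1064) (nat_lit 0) (XT.lf (nat_lit 76) (nat_lit 1096036030) (nat_lit 0) (nat_lit 7583579555) (nat_lit 1064) (nat_lit 1495979777) (nat_lit 200) (nat_lit 5) (nat_lit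 199) (nat_lit 5) (nat_lit 213) (nat_lit 5) (nat_lit 261) (nat_lit 254) (nat_lit 205)) (XT.lf (nat_lit 0) (nat_lit 304984558) (nat_lit 1064) (nat_lit 1177651293) (nat_lit 1140) (nat_lit 8934340472) (nat_lit 185) (nat_lit 5) (nat_lit 199) (nat_lit 5) (nat_lit 200) (nat_lit 5) (nat_lit 262) (nat_lit 254) (nat_lit 204))))) (XT.nd (nat_lit 234) (nat_lit 1748) (nat_lit 0) (XT.nd (nat_lit 78) (nat_lit 988) (nat_lit 0) (XT.lf (nat_lit 0) (nat_lit 2213783768) (nat_lit 1064) (nat_lit 3525378067) (nat_lit 1140) (nat_lit 4929481606) (nat_lit 186) (nat_lit 5) (nat_lit 200) (nat_lit 5) (nat_lit 201) (nat_lit 5) (nat_lit 263) (nat_lit 254) (nat_lit 203)) (XT.nd (nat_lit 78) (nat_lit 1064) (nat_lit 0) (XT.lf (nat_lit 0) (nat_lit 4234696441) (nat_lit 1064) (nat_lit 5937700349) (nat_lit 76) (nat_lit 760114289) (nat_lit 187) (nat_lit 5) (nat_lit 201) (nat_lit 5) (nat_lit 188) (nat_lit 5) (nat_lit 264) (nat_lit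 254) (nat_lit 202)) (XT.lf (nat_lit 0) (nat_lit 2748556868) (nat_lit 1064) (nat_lit 3665800623) (nat_lit 1140) (nat_lit 4793595302) (nat_lit 173) (nat_lit 5) (nat_lit 187) (nat_lit 5) (nat_lit 188) (nat_lit 5) (nat_lit 265) (nat_lit 254) (nat_lit 201)))) (XT.nd (nat_lit 78) (nat_lit 608) (nat_lit 0) (XT.lf (nat_lit 0) (nat_lit 421573771) (nat_lit 1140) (nat_lit 8316957529) (nat_lit 1216) (nat_lit 2757675859) (nat_lit 158) (nat_lit 5) (nat_lit 173) (nat_lit 5) (nat_lit 174) (nat_lit 5) (nat_lit 266) (nat_lit 254) (nat_lit 200)) (XT.nd (nat_lit 78) (nat_lit 608) (nat_lit 0) (XT.lf (nat_lit 0) (nat_lit 9833678205) (nat_lit 1140) (nat_lit 1410659055) (nat_lit 1216) (nat_lit 552675665) (nat_lit 158) (nat_lit 5) (nat_lit 173) (nat_lit 5) (nat_lit 174) (nat_lit 5) (nat_lit 267) (nat_lit 254) (nat_lit 199)) (XT.lf (nat_lit 0) (nat_lit 1802996342) (nat_lit 608) (nat_lit 4483138166) (nat_lit 76) (nat_lit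 5824065449) (nat_lit 150) (nat_lit 5) (nat_lit 158) (nat_lit 5) (nat_lit 151) (nat_lit 5) (nat_lit 268) (nat_lit 254) (nat_lit 198)))))) (XT.nd (nat_lit 390) (nat_lit 2128) (nat_lit 0) (XT.nd (nat_lit 156) (nat_lit 1064) (nat_lit 0) (XT.nd (nat_lit 78) (nat_lit 532) (nat_lit 0) (XT.lf (nat_lit 0) (nat_lit 4307073802) (nat_lit 684) (nat_lit 7115346374) (nat_lit 76) (nat_lit 1015289725) (nat_lit 142) (nat_lit 5) (nat_lit 151) (nat_lit 5) (nat_lit 143) (nat_lit 5) (nat_lit 269) (nat_lit 254) (nat_lit 197)) (XT.lf (nat_lit 0) (nat_lit 2872571374) (nat_lit 532) (nat_lit 4149647043) (nat_lit 608) (nat_lit 5756886055) (nat_lit 135) (nat_lit 5) (nat_lit 142) (nat_lit 5) (nat_lit 143) (nat_lit 5) (nat_lit 270) (nat_lit 254) (nat_lit 196))) (XT.nd (nat_lit 78) (nat_lit 532) (nat_lit 0) (XT.lf (nat_lit 0) (nat_lit 293385128) (nat_lit 532) (nat_lit 9640229421) (nat_lit 608) (nat_lit 3202220377) (nat_lit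 128) (nat_lit 5) (nat_lit 135) (nat_lit 5) (nat_lit 136) (nat_lit 5) (nat_lit 271) (nat_lit 254) (nat_lit 195)) (XT.nd (nat_lit 78) (nat_lit 532) (nat_lit 0) (XT.lf (nat_lit 0) (nat_lit 11117769075) (nat_lit 532) (nat_lit 1968342053) (nat_lit 608) (nat_lit 421501980) (nat_lit 128) (nat_lit 5) (nat_lit 135) (nat_lit 5) (nat_lit 136) (nat_lit 5) (nat_lit 272) (nat_lit 254) (nat_lit 194)) (XT.lf (nat_lit 0) (nat_lit 2546354903) (nat_lit 532) (nat_lit 5273414141) (nat_lit 76) (nat_lit 6074656452) (nat_lit 121) (nat_lit 5) (nat_lit 128) (nat_lit 5) (nat_lit 122) (nat_lit 5) (nat_lit 273) (nat_lit 254) (nat_lit 193))))) (XT.nd (nat_lit 234) (nat_lit 836) (nat_lit 0) (XT.nd (nat_lit 78) (nat_lit 836) (nat_lit 0) (XT.lf (nat_lit 0) (nat_lit 5714229704) (nat_lit 532) (nat_lit 8325000647) (nat_lit 76) (nat_lit 259480600) (nat_lit 115) (nat_lit 5) (nat_lit 122) (nat_lit 5) (nat_lit 116) (nat_lit 5)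 (nat_lit 274) (nat_lit 254) (nat_lit 192)) (XT.nd (nat_lit 78) (nat_lit 456) (nat_lit 0) (XT.lf (nat_lit 0) (nat_lit 3104572014) (nat_lit 380) (nat_lit 6056699190) (nat_lit 456) (nat_lit 5558380968) (nat_lit 110) (nat_lit 5) (nat_lit 115) (nat_lit 5) (nat_lit 116) (nat_lit 5) (nat_lit 275) (nat_lit 254) (nat_lit 191)) (XT.lf (nat_lit 0) (nat_lit 50091709) (nat_lit 456) (nat_lit 12798663438) (nat_lit 532) (nat_lit 2310904199) (nat_lit 104) (nat_lit 5) (nat_lit 110) (nat_lit 5) (nat_lit 111) (nat_lit 5) (nat_lit 276) (nat_lit 254) (nat_lit 190)))) (XT.nd (nat_lit 78) (nat_lit 760) (nat_lit 0) (XT.lf (nat_lit 0) (nat_lit 1219162077) (nat_lit 532) (nat_lit 3197401701) (nat_lit 76) (nat_lit 11200593346) (nat_lit 103) (nat_lit 5) (nat_lit 110) (nat_lit 5) (nat_lit 104) (nat_lit 5) (nat_lit 277) (nat_lit 254) (nat_lit 189)) (XT.nd (nat_lit 78) (nat_lit 380) (nat_lit 0) (XT.lf (nat_lit 0) (nat_lit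 4973887543) (nat_lit 456) (nat_lit 6712963250) (nat_lit 76) (nat_lit 4407168372) (nat_lit 98) (nat_lit 5) (nat_lit 104) (nat_lit 5) (nat_lit 99) (nat_lit 5) (nat_lit 278) (nat_lit 254) (nat_lit 188)) (XT.lf (nat_lit 0) (nat_lit 6090252504) (nat_lit 380) (nat_lit 2925481476) (nat_lit 456) (nat_lit 7576060454) (nat_lit 93) (nat_lit 5) (nat_lit 98) (nat_lit 5) (nat_lit 99) (nat_lit 5) (nat_lit 279) (nat_lit 254) (nat_lit 187))))))))
noncomputable def xc77 : XT := (XT.nd (nat_lit 1716) (nat_lit 1824) (nat_lit 0) (XT.nd (nat_lit 858) (nat_lit 1596) (nat_lit 0) (XT.nd (nat_lit 390) (nat_lit 1292) (nat_lit 0) (XT.nd (nat_lit 156) (nat_lit 988) (nat_lit 0) (XT.nd (nat_lit 78) (nat_lit 76) (nat_lit 0) (XT.lf (nat_lit 0) (nat_lit 2504456690) (nat_lit 304) (nat_lit 10873670681) (nat_lit 380) (nat_lit 3732826659) (nat_lit 89) (nat_lit 5) (nat_lit 93) (nat_lit 5) (nat_lit 94) (nat_lit 5) (nat_lit 280)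 (nat_lit 254) (nat_lit 186)) (XT.lf (nat_lit 0) (nat_lit 400543835) (nat_lit 380) (nat_lit 1350524352) (nat_lit 76) (nat_lit 15901845284) (nat_lit 88) (nat_lit 5) (nat_lit 93) (nat_lit 5) (nat_lit 89) (nat_lit 5) (nat_lit 281) (nat_lit 254) (nat_lit 185))) (XT.nd (nat_lit 78) (nat_lit 608) (nat_lit 0) (XT.lf (nat_lit 0) (nat_lit 4830111441) (nat_lit 456) (nat_lit 5558117293) (nat_lit 76) (nat_lit 7827674845) (nat_lit 83) (nat_lit 5) (nat_lit 89) (nat_lit 5) (nat_lit 84) (nat_lit 5) (nat_lit 282) (nat_lit 254) (nat_lit 184)) (XT.nd (nat_lit 78) (nat_lit 304) (nat_lit 0) (XT.lf (nat_lit 0) (nat_lit 8698043647) (nat_lit 304) (nat_lit 866371266) (nat_lit 380) (nat_lit 9240171823) (nat_lit 79) (nat_lit 5) (nat_lit 83) (nat_lit 5) (nat_lit 84) (nat_lit 5) (nat_lit 283) (nat_lit 254) (nat_lit 183)) (XT.lf (nat_lit 0) (nat_lit 4316404738) (nat_lit 304) (nat_lit 10375054347) (nat_lit 380) (nat_lit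 4726603501) (nat_lit 75) (nat_lit 5) (nat_lit 79) (nat_lit 5) (nat_lit 80) (nat_lit 5) (nat_lit 284) (nat_lit 254) (nat_lit 182))))) (XT.nd (nat_lit 234) (nat_lit 608) (nat_lit 0) (XT.nd (nat_lit 78) (nat_lit 608) (nat_lit 0) (XT.lf (nat_lit 0) (nat_lit 95937361) (nat_lit 380) (nat_lit 438387473) (nat_lit 76) (nat_lit 19525413863) (nat_lit 74) (nat_lit 5) (nat_lit 79) (nat_lit 5) (nat_lit 75) (nat_lit 5) (nat_lit 285) (nat_lit 254) (nat_lit 181)) (XT.nd (nat_lit 78) (nat_lit 304) (nat_lit 0) (XT.lf (nat_lit 0) (nat_lit 5275731833) (nat_lit 380) (nat_lit 5657432971) (nat_lit 76) (nat_lit 9792548078) (nat_lit 70) (nat_lit 5) (nat_lit 75) (nat_lit 5) (nat_lit 71) (nat_lit 5) (nat_lit 286) (nat_lit 254) (nat_lit 180)) (XT.lf (nat_lit 0) (nat_lit 10087203261) (nat_lit 304) (nat_lit 706306934) (nat_lit 380) (nat_lit 10629138718) (nat_lit 66) (nat_lit 5) (nat_lit 70) (nat_lit 5) (nat_lit 71) (nat_lit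 5) (nat_lit 287) (nat_lit 254) (nat_lit 179)))) (XT.nd (nat_lit 78) (nat_lit 380) (nat_lit 0) (XT.lf (nat_lit 0) (nat_lit 4537735657) (nat_lit 228) (nat_lit 12221252463) (nat_lit 304) (nat_lit 5390320698) (nat_lit 63) (nat_lit 5) (nat_lit 66) (nat_lit 5) (nat_lit 67) (nat_lit 5) (nat_lit 288) (nat_lit 254) (nat_lit 178)) (XT.nd (nat_lit 78) (nat_lit 304) (nat_lit 0) (XT.lf (nat_lit 0) (nat_lit 206841144) (nat_lit 304) (nat_lit 1514560054) (nat_lit 76) (nat_lit 21187940960) (nat_lit 62) (nat_lit 5) (nat_lit 66) (nat_lit 5) (nat_lit 63) (nat_lit 5) (nat_lit 289) (nat_lit 254) (nat_lit 177)) (XT.lf (nat_lit 0) (nat_lit 6189578440) (nat_lit 380) (nat_lit 8192105896) (nat_lit 76) (nat_lit 9317603464) (nat_lit 58) (nat_lit 5) (nat_lit 63) (nat_lit 5) (nat_lit 59) (nat_lit 5) (nat_lit 290) (nat_lit 254) (nat_lit 176)))))) (XT.nd (nat_lit 390) (nat_lit 608) (nat_lit 0) (XT.nd (nat_lit 156) (nat_lit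 532) (nat_lit 0) (XT.nd (nat_lit 78) (nat_lit 228) (nat_lit 0) (XT.lf (nat_lit 0) (nat_lit 9005925244) (nat_lit 228) (nat_lit 3560818943) (nat_lit 304) (nat_lit 11959154116) (nat_lit 55) (nat_lit 5) (nat_lit 58) (nat_lit 5) (nat_lit 59) (nat_lit 5) (nat_lit 291) (nat_lit 254) (nat_lit 175)) (XT.lf (nat_lit 0) (nat_lit 1767113895) (nat_lit 228) (nat_lit 17649118483) (nat_lit 304) (nat_lit 5973028103) (nat_lit 52) (nat_lit 5) (nat_lit 55) (nat_lit 5) (nat_lit 56) (nat_lit 5) (nat_lit 292) (nat_lit 254) (nat_lit 174))) (XT.nd (nat_lit 78) (nat_lit 456) (nat_lit 0) (XT.lf (nat_lit 0) (nat_lit 480465888) (nat_lit 304) (nat_lit 6123402473) (nat_lit 76) (nat_lit 19686630767) (nat_lit 51) (nat_lit 5) (nat_lit 55) (nat_lit 5) (nat_lit 52) (nat_lit 5) (nat_lit 293) (nat_lit 254) (nat_lit 173)) (XT.nd (nat_lit 78) (nat_lit 228) (nat_lit 0) (XT.lf (nat_lit 0) (nat_lit 7281081896) (nat_lit 304) (nat_lit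 14882934818) (nat_lit 76) (nat_lit 5066591545) (nat_lit 48) (nat_lit 5) (nat_lit 52) (nat_lit 5) (nat_lit 49) (nat_lit 5) (nat_lit 294) (nat_lit 254) (nat_lit 172)) (XT.lf (nat_lit 0) (nat_lit 3625186492) (nat_lit 228) (nat_lit 10940311416) (nat_lit 304) (nat_lit 13647932892) (nat_lit 45) (nat_lit 5) (nat_lit 48) (nat_lit 5) (nat_lit 49) (nat_lit 5) (nat_lit 295) (nat_lit 254) (nat_lit 171))))) (XT.nd (nat_lit 234) (nat_lit 152) (nat_lit 0) (XT.nd (nat_lit 78) (nat_lit 456) (nat_lit 0) (XT.lf (nat_lit 0) (nat_lit 22356191673) (nat_lit 304) (nat_lit 5913014402) (nat_lit 76) (nat_lit 971946710) (nat_lit 45) (nat_lit 5) (nat_lit 49) (nat_lit 5) (nat_lit 46) (nat_lit 5) (nat_lit 296) (nat_lit 254) (nat_lit 170)) (XT.nd (nat_lit 78) (nat_lit 228) (nat_lit 0) (XT.lf (nat_lit 0) (nat_lit 437653380) (nat_lit 228) (nat_lit 16493310259) (nat_lit 76) (nat_lit 13382482050) (nat_lit 42) (nat_lit 5) (nat_lit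 45) (nat_lit 5) (nat_lit 43) (nat_lit 5) (nat_lit 297) (nat_lit 254) (nat_lit 169)) (XT.lf (nat_lit 0) (nat_lit 3187804951) (nat_lit 228) (nat_lit 4870293398) (nat_lit 304) (nat_lit 23377004748) (nat_lit 39) (nat_lit 5) (nat_lit 42) (nat_lit 5) (nat_lit 43) (nat_lit 5) (nat_lit 298) (nat_lit 254) (nat_lit 168)))) (XT.nd (nat_lit 78) (nat_lit 152) (nat_lit 0) (XT.lf (nat_lit 0) (nat_lit 16287133869) (nat_lit 304) (nat_lit 8516601837) (nat_lit 76) (nat_lit 7802297417) (nat_lit 39) (nat_lit 5) (nat_lit 43) (nat_lit 5) (nat_lit 40) (nat_lit 5) (nat_lit 299) (nat_lit 254) (nat_lit 167)) (XT.nd (nat_lit 78) (nat_lit 0) (nat_lit 0) (XT.lf (nat_lit 0) (nat_lit 12364273729) (nat_lit 152) (nat_lit 12713441418) (nat_lit 228) (nat_lit 8753307681) (nat_lit 37) (nat_lit 5) (nat_lit 39) (nat_lit 5) (nat_lit 40) (nat_lit 5) (nat_lit 300) (nat_lit 254) (nat_lit 166)) (XT.lf (nat_lit 0) (nat_lit 34378757348)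 (nat_lit 228) (nat_lit 676245587) (nat_lit 76) (nat_lit 60146362) (nat_lit 37) (nat_lit 5) (nat_lit 40) (nat_lit 5) (nat_lit 38) (nat_lit 5) (nat_lit 301) (nat_lit 254) (nat_lit 165))))))) (XT.nd (nat_lit 858) (nat_lit 760) (nat_lit 0) (XT.nd (nat_lit 390) (nat_lit 456) (nat_lit 0) (XT.nd (nat_lit 156) (nat_lit 228) (nat_lit 0) (XT.nd (nat_lit 78) (nat_lit 152) (nat_lit 0) (XT.lf (nat_lit 0) (nat_lit 7852200123) (nat_lit 228) (nat_lit 15114324600) (nat_lit 76) (nat_lit 13485134662) (nat_lit 34) (nat_lit 5) (nat_lit 37) (nat_lit 5) (nat_lit 35) (nat_lit 5) (nat_lit 302) (nat_lit 254) (nat_lit 164)) (XT.lf (nat_lit 0) (nat_lit 6708013840) (nat_lit 152) (nat_lit 10202401625) (nat_lit 228) (nat_lit 20942711494) (nat_lit 32) (nat_lit 5) (nat_lit 34) (nat_lit 5) (nat_lit 35) (nat_lit 5) (nat_lit 303) (nat_lit 254) (nat_lit 163))) (XT.nd (nat_lit 78) (nat_lit 228) (nat_lit 0) (XT.lf (nat_lit 0)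 (nat_lit 26593632624) (nat_lit 228) (nat_lit 9440942549) (nat_lit 76) (nat_lit 3284942787) (nat_lit 32) (nat_lit 5) (nat_lit 35) (nat_lit 5) (nat_lit 33) (nat_lit 5) (nat_lit 304) (nat_lit 254) (nat_lit 162)) (XT.nd (nat_lit 78) (nat_lit 76) (nat_lit 0) (XT.lf (nat_lit 0) (nat_lit 13483859635) (nat_lit 152) (nat_lit 23494695963) (nat_lit 228) (nat_lit 3874158731) (nat_lit 30) (nat_lit 5) (nat_lit 32) (nat_lit 5) (nat_lit 33) (nat_lit 5) (nat_lit 305) (nat_lit 254) (nat_lit 161)) (XT.lf (nat_lit 0) (nat_lit 5397820542) (nat_lit 228) (nat_lit 4784844934) (nat_lit 76) (nat_lit 32275850248) (nat_lit 29) (nat_lit 5) (nat_lit 32) (nat_lit 5) (nat_lit 30) (nat_lit 5) (nat_lit 306) (nat_lit 254) (nat_lit 160))))) (XT.nd (nat_lit 234) (nat_lit 152) (nat_lit 0) (XT.nd (nat_lit 78) (nat_lit 152) (nat_lit 0) (XT.lf (nat_lit 0) (nat_lit 15263577356) (nat_lit 228) (nat_lit 24935349438) (nat_lit 76) (nat_lit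 3938231304) (nat_lit 27) (nat_lit 5) (nat_lit 30) (nat_lit 5) (nat_lit 28) (nat_lit 5) (nat_lit 307) (nat_lit 254) (nat_lit 159)) (XT.nd (nat_lit 78) (nat_lit 152) (nat_lit 0) (XT.lf (nat_lit 0) (nat_lit 25761492235) (nat_lit 228) (nat_lit 1536559927) (nat_lit 76) (nat_lit 18597524529) (nat_lit 27) (nat_lit 5) (nat_lit 30) (nat_lit 5) (nat_lit 28) (nat_lit 5) (nat_lit 308) (nat_lit 254) (nat_lit 158)) (XT.lf (nat_lit 0) (nat_lit 23468383331) (nat_lit 152) (nat_lit 13528512628) (nat_lit 228) (nat_lit 10738652181) (nat_lit 25) (nat_lit 5) (nat_lit 27) (nat_lit 5) (nat_lit 28) (nat_lit 5) (nat_lit 309) (nat_lit 254) (nat_lit 157)))) (XT.nd (nat_lit 78) (nat_lit 76) (nat_lit 0) (XT.lf (nat_lit 0) (nat_lit 59284961) (nat_lit 76) (nat_lit 48747598564) (nat_lit 152) (nat_lit 860259485) (nat_lit 24) (nat_lit 5) (nat_lit 25) (nat_lit 5) (nat_lit 26) (nat_lit 4) (nat_lit 310) (nat_lit 254) (nat_lit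 156)) (XT.nd (nat_lit 78) (nat_lit 0) (nat_lit 0) (XT.lf (nat_lit 0) (nat_lit 9702875128) (nat_lit 152) (nat_lit 25830170563) (nat_lit 76) (nat_lit 16148244319) (nat_lit 23) (nat_lit 5) (nat_lit 25) (nat_lit 5) (nat_lit 24) (nat_lit 5) (nat_lit 311) (nat_lit 254) (nat_lit 155)) (XT.lf (nat_lit 0) (nat_lit 20764738213) (nat_lit 152) (nat_lit 892339816) (nat_lit 76) (nat_lit 32139168065) (nat_lit 23) (nat_lit 5) (nat_lit 25) (nat_lit 5) (nat_lit 24) (nat_lit 5) (nat_lit 312) (nat_lit 254) (nat_lit 154)))))) (XT.nd (nat_lit 468) (nat_lit 304) (nat_lit 0) (XT.nd (nat_lit 234) (nat_lit 228) (nat_lit 0) (XT.nd (nat_lit 78) (nat_lit 76) (nat_lit 0) (XT.lf (nat_lit 0) (nat_lit 25776267135) (nat_lit 152) (nat_lit 6839964413) (nat_lit 228) (nat_lit 23393630084) (nat_lit 21) (nat_lit 5) (nat_lit 23) (nat_lit 5) (nat_lit 24) (nat_lit 5) (nat_lit 313) (nat_lit 254) (nat_lit 153)) (XT.nd (nat_lit 78) (nat_lit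 76) (nat_lit 0) (XT.lf (nat_lit 0) (nat_lit 45142422121) (nat_lit 228) (nat_lit 4639640106) (nat_lit 76) (nat_lit 8549639436) (nat_lit 21) (nat_lit 5) (nat_lit 24) (nat_lit 5) (nat_lit 22) (nat_lit 4) (nat_lit 314) (nat_lit 254) (nat_lit 152)) (XT.lf (nat_lit 0) (nat_lit 22587824688) (nat_lit 76) (nat_lit 35982827679) (nat_lit 152) (nat_lit 2190716467) (nat_lit 20) (nat_lit 5) (nat_lit 21) (nat_lit 5) (nat_lit 22) (nat_lit 4) (nat_lit 315) (nat_lit 254) (nat_lit 151)))) (XT.nd (nat_lit 78) (nat_lit 152) (nat_lit 0) (XT.lf (nat_lit 0) (nat_lit 9213192459) (nat_lit 152) (nat_lit 12145510321) (nat_lit 76) (nat_lit 41949983867) (nat_lit 19) (nat_lit 5) (nat_lit 21) (nat_lit 5) (nat_lit 20) (nat_lit 5) (nat_lit 316) (nat_lit 254) (nat_lit 150)) (XT.nd (nat_lit 78) (nat_lit 0) (nat_lit 0) (XT.lf (nat_lit 0) (nat_lit 15446452732) (nat_lit 152) (nat_lit 5834712651) (nat_lit 228) (nat_lit 44697385183)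 (nat_lit 17) (nat_lit 5) (nat_lit 19) (nat_lit 5) (nat_lit 20) (nat_lit 5) (nat_lit 317) (nat_lit 254) (nat_lit 149)) (XT.lf (nat_lit 0) (nat_lit 34169917126) (nat_lit 228) (nat_lit 24224694380) (nat_lit 76) (nat_lit 10380780676) (nat_lit 17) (nat_lit 5) (nat_lit 20) (nat_lit 5) (nat_lit 18) (nat_lit 4) (nat_lit 318) (nat_lit 254) (nat_lit 148))))) (XT.nd (nat_lit 234) (nat_lit 228) (nat_lit 0) (XT.nd (nat_lit 78) (nat_lit 0) (nat_lit 0) (XT.lf (nat_lit 0) (nat_lit 3389599527) (nat_lit 76) (nat_lit 44395947096) (nat_lit 152) (nat_lit 23924061675) (nat_lit 16) (nat_lit 5) (nat_lit 17) (nat_lit 5) (nat_lit 18) (nat_lit 4) (nat_lit 319) (nat_lit 254) (nat_lit 147)) (XT.nd (nat_lit 78) (nat_lit 0) (nat_lit 0) (XT.lf (nat_lit 0) (nat_lit 32875552097) (nat_lit 76) (nat_lit 29447026742) (nat_lit 152) (nat_lit 12460743100) (nat_lit 16) (nat_lit 5) (nat_lit 17) (nat_lit 5) (nat_lit 18) (nat_lit 4)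 (nat_lit 320) (nat_lit 254) (nat_lit 146)) (XT.lf (nat_lit 0) (nat_lit 63821249061) (nat_lit 76) (nat_lit 13756879693) (nat_lit 152) (nat_lit 432847628) (nat_lit 16) (nat_lit 5) (nat_lit 17) (nat_lit 5) (nat_lit 18) (nat_lit 4) (nat_lit 321) (nat_lit 254) (nat_lit 145)))) (XT.nd (nat_lit 78) (nat_lit 0) (nat_lit 0) (XT.lf (nat_lit 0) (nat_lit 12124019541) (nat_lit 228) (nat_lit 66343893856) (nat_lit 76) (nat_lit 2923620473) (nat_lit 13) (nat_lit 5) (nat_lit 16) (nat_lit 5) (nat_lit 14) (nat_lit 4) (nat_lit 322) (nat_lit 254) (nat_lit 144)) (XT.nd (nat_lit 78) (nat_lit 0) (nat_lit 0) (XT.lf (nat_lit 0) (nat_lit 25578404123) (nat_lit 228) (nat_lit 39051808291) (nat_lit 76) (nat_lit 20302423961) (nat_lit 13) (nat_lit 5) (nat_lit 16) (nat_lit 5) (nat_lit 14) (nat_lit 4) (nat_lit 323) (nat_lit 254) (nat_lit 143)) (XT.lf (nat_lit 0) (nat_lit 39698054889) (nat_lit 228) (nat_lit 10408264985) (nat_lit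 76) (nat_lit 38544702003) (nat_lit 13) (nat_lit 5) (nat_lit 16) (nat_lit 5) (nat_lit 14) (nat_lit 4) (nat_lit 324) (nat_lit 254) (nat_lit 142))))))))
noncomputable def xc78 : XT := (XT.nd (nat_lit 33384) (nat_lit 0) (nat_lit 3192) (XT.nd (nat_lit 32526) (nat_lit 0) (nat_lit 9500) (XT.nd (nat_lit 32058) (nat_lit 0) (nat_lit 14060) (XT.nd (nat_lit 156) (nat_lit 152) (nat_lit 0) (XT.nd (nat_lit 78) (nat_lit 0) (nat_lit 0) (XT.lf (nat_lit 0) (nat_lit 20046106719) (nat_lit 76) (nat_lit 34663178777) (nat_lit 152) (nat_lit 37840477313) (nat_lit 12) (nat_lit 5) (nat_lit 13) (nat_lit 5) (nat_lit 14) (nat_lit 4) (nat_lit 325) (nat_lit 254) (nat_lit 141)) (XT.lf (nat_lit 0) (nat_lit 52228537523) (nat_lit 76) (nat_lit 18342806980) (nat_lit 152) (nat_lit 26069092161) (nat_lit 12) (nat_lit 5) (nat_lit 13) (nat_lit 5) (nat_lit 14) (nat_lit 4) (nat_lit 326) (nat_lit 254) (nat_lit 140))) (XT.nd (nat_lit 78)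 (nat_lit 152) (nat_lit 0) (XT.lf (nat_lit 0) (nat_lit 86008507379) (nat_lit 76) (nat_lit 1211449523) (nat_lit 152) (nat_lit 13715887491) (nat_lit 12) (nat_lit 5) (nat_lit 13) (nat_lit 5) (nat_lit 14) (nat_lit 4) (nat_lit 327) (nat_lit 254) (nat_lit 139)) (XT.nd (nat_lit 78) (nat_lit 76) (nat_lit 0) (XT.lf (nat_lit 0) (nat_lit 16174637387) (nat_lit 76) (nat_lit 88836825041) (nat_lit 76) (nat_lit 425249726) (nat_lit 11) (nat_lit 4) (nat_lit 12) (nat_lit 5) (nat_lit 12) (nat_lit 4) (nat_lit 328) (nat_lit 254) (nat_lit 138)) (XT.lf (nat_lit 0) (nat_lit 13427162653) (nat_lit 152) (nat_lit 61169153057) (nat_lit 76) (nat_lit 35557571304) (nat_lit 10) (nat_lit 5) (nat_lit 12) (nat_lit 5) (nat_lit 11) (nat_lit 4) (nat_lit 329) (nat_lit 254) (nat_lit 137))))) (XT.nd (nat_lit 234) (nat_lit 0) (nat_lit 76) (XT.nd (nat_lit 78) (nat_lit 988) (nat_lit 0) (XT.lf (nat_lit 0) (nat_lit 4475798980) (nat_lit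 988) (nat_lit 42224812) (nat_lit 988) (nat_lit 42224812) (nat_lit 208) (nat_lit 3) (nat_lit 221) (nat_lit 3) (nat_lit 221) (nat_lit 5) (nat_lit 255) (nat_lit 255) (nat_lit 210)) (XT.nd (nat_lit 78) (nat_lit 0) (nat_lit 76) (XT.lf (nat_lit 0) (nat_lit 1227422199) (nat_lit 988) (nat_lit 2595550905) (nat_lit 1064) (nat_lit 5481140710) (nat_lit 195) (nat_lit 5) (nat_lit 208) (nat_lit 3) (nat_lit 209) (nat_lit 5) (nat_lit 256) (nat_lit 255) (nat_lit 209)) (XT.lf (nat_lit 0) (nat_lit 2664116429) (nat_lit 988) (nat_lit 5131268986) (nat_lit 1064) (nat_lit 1702416170) (nat_lit 196) (nat_lit 5) (nat_lit 209) (nat_lit 5) (nat_lit 210) (nat_lit 5) (nat_lit 257) (nat_lit 255) (nat_lit 208)))) (XT.nd (nat_lit 78) (nat_lit 0) (nat_lit 76) (XT.lf (nat_lit 76) (nat_lit 1982564800) (nat_lit 0) (nat_lit 2193023998) (nat_lit 1064) (nat_lit 5525650931) (nat_lit 197) (nat_lit 5) (nat_lit 196) (nat_lit 5) (nat_lit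 210) (nat_lit 5) (nat_lit 258) (nat_lit 255) (nat_lit 207)) (XT.nd (nat_lit 78) (nat_lit 0) (nat_lit 0) (XT.lf (nat_lit 0) (nat_lit 5773509206) (nat_lit 988) (nat_lit 439221177) (nat_lit 1064) (nat_lit 3701940106) (nat_lit 197) (nat_lit 5) (nat_lit 210) (nat_lit 5) (nat_lit 211) (nat_lit 5) (nat_lit 259) (nat_lit 255) (nat_lit 206)) (XT.lf (nat_lit 76) (nat_lit 7277134147) (nat_lit 0) (nat_lit 192053941) (nat_lit 1064) (nat_lit 2669188767) (nat_lit 198) (nat_lit 5) (nat_lit 197) (nat_lit 5) (nat_lit 211) (nat_lit 5) (nat_lit 260) (nat_lit 255) (nat_lit 205)))))) (XT.nd (nat_lit 390) (nat_lit 3800) (nat_lit 0) (XT.nd (nat_lit 156) (nat_lit 0) (nat_lit 0) (XT.nd (nat_lit 78) (nat_lit 988) (nat_lit 0) (XT.lf (nat_lit 76) (nat_lit 5005963821) (nat_lit 0) (nat_lit 4284412791) (nat_lit 1064) (nat_lit 1081803437) (nat_lit 199) (nat_lit 5) (nat_lit 198) (nat_lit 5) (nat_lit 212) (nat_lit 5) (nat_lit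 261) (nat_lit 255) (nat_lit 204)) (XT.lf (nat_lit 0) (nat_lit 583088465) (nat_lit 1064) (nat_lit 7932297657) (nat_lit 1140) (nat_lit 2101955273) (nat_lit 185) (nat_lit 5) (nat_lit 199) (nat_lit 5) (nat_lit 200) (nat_lit 5) (nat_lit 262) (nat_lit 255) (nat_lit 203))) (XT.nd (nat_lit 78) (nat_lit 0) (nat_lit 76) (XT.lf (nat_lit 76) (nat_lit 279530654) (nat_lit 0) (nat_lit 2065500323) (nat_lit 1140) (nat_lit 8528440491) (nat_lit 186) (nat_lit 5) (nat_lit 185) (nat_lit 5) (nat_lit 200) (nat_lit 5) (nat_lit 263) (nat_lit 255) (nat_lit 202)) (XT.nd (nat_lit 78) (nat_lit 0) (nat_lit 76) (XT.lf (nat_lit 0) (nat_lit 4259853768) (nat_lit 1064) (nat_lit 2168159791) (nat_lit 1140) (nat_lit 4712562769) (nat_lit 186) (nat_lit 5) (nat_lit 200) (nat_lit 5) (nat_lit 201) (nat_lit 5) (nat_lit 264) (nat_lit 255) (nat_lit 201)) (XT.lf (nat_lit 0) (nat_lit 6300431839) (nat_lit 1064) (nat_lit 4682517474) (nat_lit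 76) (nat_lit 437293149) (nat_lit 187) (nat_lit 5) (nat_lit 201) (nat_lit 5) (nat_lit 188) (nat_lit 5) (nat_lit 265) (nat_lit 255) (nat_lit 200))))) (XT.nd (nat_lit 234) (nat_lit 1672) (nat_lit 0) (XT.nd (nat_lit 78) (nat_lit 1216) (nat_lit 0) (XT.lf (nat_lit 0) (nat_lit 4393562890) (nat_lit 1064) (nat_lit 4121719075) (nat_lit 1140) (nat_lit 3196544030) (nat_lit 173) (nat_lit 5) (nat_lit 187) (nat_lit 5) (nat_lit 188) (nat_lit 5) (nat_lit 266) (nat_lit 255) (nat_lit 199)) (XT.nd (nat_lit 78) (nat_lit 76) (nat_lit 0) (XT.lf (nat_lit 0) (nat_lit 1964465940) (nat_lit 1140) (nat_lit 8918559505) (nat_lit 1216) (nat_lit 1133795291) (nat_lit 158) (nat_lit 5) (nat_lit 173) (nat_lit 5) (nat_lit 174) (nat_lit 5) (nat_lit 267) (nat_lit 255) (nat_lit 198)) (XT.lf (nat_lit 0) (nat_lit 1076143996) (nat_lit 1216) (nat_lit 571089733) (nat_lit 76) (nat_lit 10687697346) (nat_lit 157) (nat_lit 5) (nat_lit 173)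 (nat_lit 5) (nat_lit 158) (nat_lit 5) (nat_lit 268) (nat_lit 255) (nat_lit 197)))) (XT.nd (nat_lit 78) (nat_lit 1140) (nat_lit 0) (XT.lf (nat_lit 0) (nat_lit 3472469944) (nat_lit 608) (nat_lit 3213659053) (nat_lit 76) (nat_lit 5979586046) (nat_lit 150) (nat_lit 5) (nat_lit 158) (nat_lit 5) (nat_lit 151) (nat_lit 5) (nat_lit 269) (nat_lit 255) (nat_lit 196)) (XT.nd (nat_lit 78) (nat_lit 532) (nat_lit 0) (XT.lf (nat_lit 0) (nat_lit 6039845185) (nat_lit 684) (nat_lit 5971613480) (nat_lit 76) (nat_lit 1000123534) (nat_lit 142) (nat_lit 5) (nat_lit 151) (nat_lit 5) (nat_lit 143) (nat_lit 5) (nat_lit 270) (nat_lit 255) (nat_lit 195)) (XT.lf (nat_lit 0) (nat_lit 4472717282) (nat_lit 532) (nat_lit 4359772700) (nat_lit 608) (nat_lit 4539422833) (nat_lit 135) (nat_lit 5) (nat_lit 142) (nat_lit 5) (nat_lit 143) (nat_lit 5) (nat_lit 271) (nat_lit 255) (nat_lit 194))))))) (XT.nd (nat_lit 858) (nat_lit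 2736) (nat_lit 0) (XT.nd (nat_lit 390) (nat_lit 1672) (nat_lit 0) (XT.nd (nat_lit 156) (nat_lit 1292) (nat_lit 0) (XT.nd (nat_lit 78) (nat_lit 76) (nat_lit 0) (XT.lf (nat_lit 0) (nat_lit 1767669718) (nat_lit 532) (nat_lit 10066308878) (nat_lit 608) (nat_lit 1914278470) (nat_lit 128) (nat_lit 5) (nat_lit 135) (nat_lit 5) (nat_lit 136) (nat_lit 5) (nat_lit 272) (nat_lit 255) (nat_lit 193)) (XT.lf (nat_lit 0) (nat_lit 918246048) (nat_lit 608) (nat_lit 1085972038) (nat_lit 76) (nat_lit 12136248837) (nat_lit 127) (nat_lit 5) (nat_lit 135) (nat_lit 5) (nat_lit 128) (nat_lit 5) (nat_lit 273) (nat_lit 255) (nat_lit 192))) (XT.nd (nat_lit 78) (nat_lit 836) (nat_lit 0) (XT.lf (nat_lit 0) (nat_lit 3975463841) (nat_lit 532) (nat_lit 4118376521) (nat_lit 76) (nat_lit 6454263278) (nat_lit 121) (nat_lit 5) (nat_lit 128) (nat_lit 5) (nat_lit 122) (nat_lit 5) (nat_lit 274) (nat_lit 255) (nat_lit 191)) (XT.nd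 (nat_lit 78) (nat_lit 380) (nat_lit 0) (XT.lf (nat_lit 0) (nat_lit 7254190417) (nat_lit 532) (nat_lit 7324924764) (nat_lit 76) (nat_lit 395009179) (nat_lit 115) (nat_lit 5) (nat_lit 122) (nat_lit 5) (nat_lit 116) (nat_lit 5) (nat_lit 275) (nat_lit 255) (nat_lit 190)) (XT.lf (nat_lit 0) (nat_lit 4635527832) (nat_lit 380) (nat_lit 6191554338) (nat_lit 456) (nat_lit 4590515749) (nat_lit 110) (nat_lit 5) (nat_lit 115) (nat_lit 5) (nat_lit 116) (nat_lit 5) (nat_lit 276) (nat_lit 255) (nat_lit 189))))) (XT.nd (nat_lit 234) (nat_lit 760) (nat_lit 0) (XT.nd (nat_lit 78) (nat_lit 456) (nat_lit 0) (XT.lf (nat_lit 0) (nat_lit 1424266671) (nat_lit 456) (nat_lit 13231885025) (nat_lit 532) (nat_lit 1224823339) (nat_lit 104) (nat_lit 5) (nat_lit 110) (nat_lit 5) (nat_lit 111) (nat_lit 5) (nat_lit 277) (nat_lit 255) (nat_lit 188)) (XT.nd (nat_lit 78) (nat_lit 380) (nat_lit 0) (XT.lf (nat_lit 0) (nat_lit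 2402194483) (nat_lit 532) (nat_lit 2026998558) (nat_lit 76) (nat_lit 11933570701) (nat_lit 103) (nat_lit 5) (nat_lit 110) (nat_lit 5) (nat_lit 104) (nat_lit 5) (nat_lit 278) (nat_lit 255) (nat_lit 187)) (XT.lf (nat_lit 0) (nat_lit 6305673977) (nat_lit 456) (nat_lit 5724553979) (nat_lit 76) (nat_lit 4834486064) (nat_lit 98) (nat_lit 5) (nat_lit 104) (nat_lit 5) (nat_lit 99) (nat_lit 5) (nat_lit 279) (nat_lit 255) (nat_lit 186)))) (XT.nd (nat_lit 78) (nat_lit 380) (nat_lit 0) (XT.lf (nat_lit 0) (nat_lit 7680868723) (nat_lit 380) (nat_lit 2829531015) (nat_lit 456) (nat_lit 6878226767) (nat_lit 93) (nat_lit 5) (nat_lit 98) (nat_lit 5) (nat_lit 99) (nat_lit 5) (nat_lit 280) (nat_lit 255) (nat_lit 185)) (XT.nd (nat_lit 78) (nat_lit 76) (nat_lit 0) (XT.lf (nat_lit 0) (nat_lit 3908474209) (nat_lit 304) (nat_lit 11147240153) (nat_lit 380) (nat_lit 2879154304) (nat_lit 89) (nat_lit 5) (nat_lit 93)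 (nat_lit 5) (nat_lit 94) (nat_lit 5) (nat_lit 281) (nat_lit 255) (nat_lit 184)) (XT.lf (nat_lit 0) (nat_lit 1392012380) (nat_lit 380) (nat_lit 179548076) (nat_lit 76) (nat_lit 16933586242) (nat_lit 88) (nat_lit 5) (nat_lit 93) (nat_lit 5) (nat_lit 89) (nat_lit 5) (nat_lit 282) (nat_lit 255) (nat_lit 183)))))) (XT.nd (nat_lit 390) (nat_lit 1368) (nat_lit 0) (XT.nd (nat_lit 156) (nat_lit 684) (nat_lit 0) (XT.nd (nat_lit 78) (nat_lit 304) (nat_lit 0) (XT.lf (nat_lit 0) (nat_lit 6010922641) (nat_lit 456) (nat_lit 4606270340) (nat_lit 76) (nat_lit 8480117841) (nat_lit 83) (nat_lit 5) (nat_lit 89) (nat_lit 5) (nat_lit 84) (nat_lit 5) (nat_lit 283) (nat_lit 255) (nat_lit 182)) (XT.lf (nat_lit 0) (nat_lit 10327448029) (nat_lit 304) (nat_lit 621246703) (nat_lit 380) (nat_lit 8767788361) (nat_lit 79) (nat_lit 5) (nat_lit 83) (nat_lit 5) (nat_lit 84) (nat_lit 5) (nat_lit 284) (nat_lit 255) (nat_lit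 181))) (XT.nd (nat_lit 78) (nat_lit 380) (nat_lit 0) (XT.lf (nat_lit 0) (nat_lit 5717314617) (nat_lit 304) (nat_lit 10585663292) (nat_lit 380) (nat_lit 4058583043) (nat_lit 75) (nat_lit 5) (nat_lit 79) (nat_lit 5) (nat_lit 80) (nat_lit 5) (nat_lit 285) (nat_lit 255) (nat_lit 180)) (XT.nd (nat_lit 78) (nat_lit 0) (nat_lit 0) (XT.lf (nat_lit 0) (nat_lit 699826656) (nat_lit 304) (nat_lit 252114254) (nat_lit 380) (nat_lit 20084234755) (nat_lit 70) (nat_lit 5) (nat_lit 74) (nat_lit 5) (nat_lit 75) (nat_lit 5) (nat_lit 286) (nat_lit 255) (nat_lit 179)) (XT.lf (nat_lit 0) (nat_lit 6357360109) (nat_lit 380) (nat_lit 4804146916) (nat_lit 76) (nat_lit 10574990760) (nat_lit 70) (nat_lit 5) (nat_lit 75) (nat_lit 5) (nat_lit 71) (nat_lit 5) (nat_lit 287) (nat_lit 255) (nat_lit 178))))) (XT.nd (nat_lit 234) (nat_lit 760) (nat_lit 0) (XT.nd (nat_lit 78) (nat_lit 304) (nat_lit 0) (XT.lf (nat_lit 0) (nat_lit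 11695153395) (nat_lit 304) (nat_lit 427537533) (nat_lit 380) (nat_lit 10346485758) (nat_lit 66) (nat_lit 5) (nat_lit 70) (nat_lit 5) (nat_lit 71) (nat_lit 5) (nat_lit 288) (nat_lit 255) (nat_lit 177)) (XT.nd (nat_lit 78) (nat_lit 76) (nat_lit 0) (XT.lf (nat_lit 0) (nat_lit 5857544980) (nat_lit 228) (nat_lit 12504683529) (nat_lit 304) (nat_lit 4870711293) (nat_lit 63) (nat_lit 5) (nat_lit 66) (nat_lit 5) (nat_lit 67) (nat_lit 5) (nat_lit 289) (nat_lit 255) (nat_lit 176)) (XT.lf (nat_lit 0) (nat_lit 954065830) (nat_lit 304) (nat_lit 533934303) (nat_lit 76) (nat_lit 22543892919) (nat_lit 62) (nat_lit 5) (nat_lit 66) (nat_lit 5) (nat_lit 63) (nat_lit 5) (nat_lit 290) (nat_lit 255) (nat_lit 175)))) (XT.nd (nat_lit 78) (nat_lit 456) (nat_lit 0) (XT.lf (nat_lit 0) (nat_lit 7213735961) (nat_lit 380) (nat_lit 7556539114) (nat_lit 76) (nat_lit 10091765580) (nat_lit 58) (nat_lit 5) (nat_lit 63) (nat_lit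 5) (nat_lit 59) (nat_lit 5) (nat_lit 291) (nat_lit 255) (nat_lit 174)) (XT.nd (nat_lit 78) (nat_lit 228) (nat_lit 0) (XT.lf (nat_lit 0) (nat_lit 10471433936) (nat_lit 228) (nat_lit 3414052588) (nat_lit 304) (nat_lit 11845260086) (nat_lit 55) (nat_lit 5) (nat_lit 58) (nat_lit 5) (nat_lit 59) (nat_lit 5) (nat_lit 292) (nat_lit 255) (nat_lit 173)) (XT.lf (nat_lit 0) (nat_lit 2859380256) (nat_lit 228) (nat_lit 18197816205) (nat_lit 304) (nat_lit 5580722989) (nat_lit 52) (nat_lit 5) (nat_lit 55) (nat_lit 5) (nat_lit 56) (nat_lit 5) (nat_lit 293) (nat_lit 255) (nat_lit 172))))))))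
noncomputable def xc79 : XT := (XT.nd (nat_lit 1716) (nat_lit 760) (nat_lit 0) (XT.nd (nat_lit 858) (nat_lit 836) (nat_lit 0) (XT.nd (nat_lit 390) (nat_lit 760) (nat_lit 0) (XT.nd (nat_lit 156) (nat_lit 456) (nat_lit 0) (XT.nd (nat_lit 78) (nat_lit 228) (nat_lit 0) (XT.lf (nat_lit 0) (nat_lit 1149702009) (nat_lit 304) (nat_lit 5459979431) (nat_lit 76) (nat_lit 20975339491) (nat_lit 51) (nat_lit 5) (nat_lit 55) (nat_lit 5) (nat_lit 52) (nat_lit 5) (nat_lit 294) (nat_lit 255) (nat_lit 171)) (XT.lf (nat_lit 0) (nat_lit 8271736849) (nat_lit 304) (nat_lit 14669018665) (nat_lit 76) (nat_lit 5631969162) (nat_lit 48) (nat_lit 5) (nat_lit 52) (nat_lit 5) (nat_lit 49) (nat_lit 5) (nat_lit 295) (nat_lit 255) (nat_lit 170))) (XT.nd (nat_lit 78) (nat_lit 228) (nat_lit 0) (XT.lf (nat_lit 0) (nat_lit 4737046030) (nat_lit 228) (nat_lit 11162434994) (nat_lit 304) (nat_lit 13705863430) (nat_lit 45) (nat_lit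 5) (nat_lit 48) (nat_lit 5) (nat_lit 49) (nat_lit 5) (nat_lit 296) (nat_lit 255) (nat_lit 169)) (XT.nd (nat_lit 78) (nat_lit 228) (nat_lit 0) (XT.lf (nat_lit 0) (nat_lit 24053840573) (nat_lit 304) (nat_lit 5307488896) (nat_lit 76) (nat_lit 1323927074) (nat_lit 45) (nat_lit 5) (nat_lit 49) (nat_lit 5) (nat_lit 46) (nat_lit 5) (nat_lit 297) (nat_lit 255) (nat_lit 168)) (XT.lf (nat_lit 0) (nat_lit 1026250941) (nat_lit 228) (nat_lit 16430836243) (nat_lit 76) (nat_lit 14354512743) (nat_lit 42) (nat_lit 5) (nat_lit 45) (nat_lit 5) (nat_lit 43) (nat_lit 5) (nat_lit 298) (nat_lit 255) (nat_lit 167))))) (XT.nd (nat_lit 234) (nat_lit 380) (nat_lit 0) (XT.nd (nat_lit 78) (nat_lit 152) (nat_lit 0) (XT.lf (nat_lit 0) (nat_lit 4208905051) (nat_lit 228) (nat_lit 4800109967) (nat_lit 304) (nat_lit 23980910882) (nat_lit 39) (nat_lit 5) (nat_lit 42) (nat_lit 5) (nat_lit 43) (nat_lit 5) (nat_lit 299) (nat_lit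 255) (nat_lit 166)) (XT.nd (nat_lit 78) (nat_lit 152) (nat_lit 0) (XT.lf (nat_lit 0) (nat_lit 17626278381) (nat_lit 304) (nat_lit 8108501694) (nat_lit 76) (nat_lit 8485342499) (nat_lit 39) (nat_lit 5) (nat_lit 43) (nat_lit 5) (nat_lit 40) (nat_lit 5) (nat_lit 300) (nat_lit 255) (nat_lit 165)) (XT.lf (nat_lit 0) (nat_lit 13792513208) (nat_lit 152) (nat_lit 13046672082) (nat_lit 228) (nat_lit 8667714889) (nat_lit 37) (nat_lit 5) (nat_lit 39) (nat_lit 5) (nat_lit 40) (nat_lit 5) (nat_lit 301) (nat_lit 255) (nat_lit 164)))) (XT.nd (nat_lit 78) (nat_lit 228) (nat_lit 0) (XT.lf (nat_lit 0) (nat_lit 75017742) (nat_lit 152) (nat_lit 36509581101) (nat_lit 228) (nat_lit 271275802) (nat_lit 35) (nat_lit 5) (nat_lit 37) (nat_lit 5) (nat_lit 38) (nat_lit 5) (nat_lit 302) (nat_lit 255) (nat_lit 163)) (XT.nd (nat_lit 78) (nat_lit 152) (nat_lit 0) (XT.lf (nat_lit 0) (nat_lit 8720211506) (nat_lit 228) (nat_lit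 15099036760) (nat_lit 76) (nat_lit 14440339065) (nat_lit 34) (nat_lit 5) (nat_lit 37) (nat_lit 5) (nat_lit 35) (nat_lit 5) (nat_lit 303) (nat_lit 255) (nat_lit 162)) (XT.lf (nat_lit 0) (nat_lit 7792317925) (nat_lit 152) (nat_lit 10423580448) (nat_lit 228) (nat_lit 21515711803) (nat_lit 32) (nat_lit 5) (nat_lit 34) (nat_lit 5) (nat_lit 35) (nat_lit 5) (nat_lit 304) (nat_lit 255) (nat_lit 161)))))) (XT.nd (nat_lit 390) (nat_lit 456) (nat_lit 0) (XT.nd (nat_lit 156) (nat_lit 228) (nat_lit 0) (XT.nd (nat_lit 78) (nat_lit 152) (nat_lit 0) (XT.lf (nat_lit 0) (nat_lit 28364018650) (nat_lit 228) (nat_lit 9188895349) (nat_lit 76) (nat_lit 3719002282) (nat_lit 32) (nat_lit 5) (nat_lit 35) (nat_lit 5) (nat_lit 33) (nat_lit 5) (nat_lit 305) (nat_lit 255) (nat_lit 160)) (XT.lf (nat_lit 0) (nat_lit 14861390926) (nat_lit 152) (nat_lit 24392571842) (nat_lit 228) (nat_lit 3628253426) (nat_lit 30) (nat_lit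 5) (nat_lit 32) (nat_lit 5) (nat_lit 33) (nat_lit 5) (nat_lit 306) (nat_lit 255) (nat_lit 159))) (XT.nd (nat_lit 78) (nat_lit 152) (nat_lit 0) (XT.lf (nat_lit 0) (nat_lit 6078220906) (nat_lit 228) (nat_lit 4345757343) (nat_lit 76) (nat_lit 34144834091) (nat_lit 29) (nat_lit 5) (nat_lit 32) (nat_lit 5) (nat_lit 30) (nat_lit 5) (nat_lit 307) (nat_lit 255) (nat_lit 158)) (XT.nd (nat_lit 78) (nat_lit 0) (nat_lit 0) (XT.lf (nat_lit 0) (nat_lit 16426565680) (nat_lit 228) (nat_lit 25513528043) (nat_lit 76) (nat_lit 4391629055) (nat_lit 27) (nat_lit 5) (nat_lit 30) (nat_lit 5) (nat_lit 28) (nat_lit 5) (nat_lit 308) (nat_lit 255) (nat_lit 157)) (XT.lf (nat_lit 0) (nat_lit 27430337758) (nat_lit 228) (nat_lit 976636621) (nat_lit 76) (nat_lit 19771673314) (nat_lit 27) (nat_lit 5) (nat_lit 30) (nat_lit 5) (nat_lit 28) (nat_lit 5) (nat_lit 309) (nat_lit 255) (nat_lit 156))))) (XT.nd (nat_lit 234) (nat_lit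 152) (nat_lit 0) (XT.nd (nat_lit 78) (nat_lit 152) (nat_lit 0) (XT.lf (nat_lit 0) (nat_lit 25260301452) (nat_lit 152) (nat_lit 13955023658) (nat_lit 228) (nat_lit 10895671758) (nat_lit 25) (nat_lit 5) (nat_lit 27) (nat_lit 5) (nat_lit 28) (nat_lit 5) (nat_lit 310) (nat_lit 255) (nat_lit 155)) (XT.nd (nat_lit 78) (nat_lit 76) (nat_lit 0) (XT.lf (nat_lit 0) (nat_lit 671689491) (nat_lit 76) (nat_lit 50934717176) (nat_lit 152) (nat_lit 533059888) (nat_lit 24) (nat_lit 5) (nat_lit 25) (nat_lit 5) (nat_lit 26) (nat_lit 4) (nat_lit 311) (nat_lit 255) (nat_lit 154)) (XT.lf (nat_lit 0) (nat_lit 10533722114) (nat_lit 152) (nat_lit 26534140827) (nat_lit 76) (nat_lit 17186881697) (nat_lit 23) (nat_lit 5) (nat_lit 25) (nat_lit 5) (nat_lit 24) (nat_lit 5) (nat_lit 312) (nat_lit 255) (nat_lit 153)))) (XT.nd (nat_lit 78) (nat_lit 152) (nat_lit 0) (XT.lf (nat_lit 0) (nat_lit 22132216295) (nat_lit 152) (nat_lit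 377396554) (nat_lit 76) (nat_lit 33966340908) (nat_lit 23) (nat_lit 5) (nat_lit 25) (nat_lit 5) (nat_lit 24) (nat_lit 5) (nat_lit 313) (nat_lit 255) (nat_lit 152)) (XT.nd (nat_lit 78) (nat_lit 0) (nat_lit 0) (XT.lf (nat_lit 0) (nat_lit 27608601062) (nat_lit 152) (nat_lit 6957229735) (nat_lit 228) (nat_lit 24234743708) (nat_lit 21) (nat_lit 5) (nat_lit 23) (nat_lit 5) (nat_lit 24) (nat_lit 5) (nat_lit 314) (nat_lit 255) (nat_lit 151)) (XT.lf (nat_lit 0) (nat_lit 47705207934) (nat_lit 228) (nat_lit 4346726389) (nat_lit 76) (nat_lit 9186976218) (nat_lit 21) (nat_lit 5) (nat_lit 24) (nat_lit 5) (nat_lit 22) (nat_lit 4) (nat_lit 315) (nat_lit 255) (nat_lit 150))))))) (XT.nd (nat_lit 858) (nat_lit 76) (nat_lit 0) (XT.nd (nat_lit 390) (nat_lit 304) (nat_lit 0) (XT.nd (nat_lit 156) (nat_lit 228) (nat_lit 0) (XT.nd (nat_lit 78) (nat_lit 76) (nat_lit 0) (XT.lf (nat_lit 0) (nat_lit 24227065614) (nat_lit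 76) (nat_lit 37568129603) (nat_lit 152) (nat_lit 1995165309) (nat_lit 20) (nat_lit 5) (nat_lit 21) (nat_lit 5) (nat_lit 22) (nat_lit 4) (nat_lit 316) (nat_lit 255) (nat_lit 149)) (XT.lf (nat_lit 0) (nat_lit 9958741258) (nat_lit 152) (nat_lit 12261363211) (nat_lit 76) (nat_lit 44245288196) (nat_lit 19) (nat_lit 5) (nat_lit 21) (nat_lit 5) (nat_lit 20) (nat_lit 5) (nat_lit 317) (nat_lit 255) (nat_lit 148))) (XT.nd (nat_lit 78) (nat_lit 76) (nat_lit 0) (XT.lf (nat_lit 0) (nat_lit 16696111465) (nat_lit 152) (nat_lit 5925023659) (nat_lit 228) (nat_lit 46647892637) (nat_lit 17) (nat_lit 5) (nat_lit 19) (nat_lit 5) (nat_lit 20) (nat_lit 5) (nat_lit 318) (nat_lit 255) (nat_lit 147)) (XT.nd (nat_lit 78) (nat_lit 76) (nat_lit 0) (XT.lf (nat_lit 0) (nat_lit 36143029829) (nat_lit 228) (nat_lit 24975119372) (nat_lit 76) (nat_lit 11087909333) (nat_lit 17) (nat_lit 5) (nat_lit 20) (nat_lit 5) (nat_lit 18)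 (nat_lit 4) (nat_lit 319) (nat_lit 255) (nat_lit 146)) (XT.lf (nat_lit 0) (nat_lit 4006680212) (nat_lit 76) (nat_lit 46424462398) (nat_lit 152) (nat_lit 24856099637) (nat_lit 16) (nat_lit 5) (nat_lit 17) (nat_lit 5) (nat_lit 18) (nat_lit 4) (nat_lit 320) (nat_lit 255) (nat_lit 145))))) (XT.nd (nat_lit 234) (nat_lit 76) (nat_lit 0) (XT.nd (nat_lit 78) (nat_lit 228) (nat_lit 0) (XT.lf (nat_lit 0) (nat_lit 34945616091) (nat_lit 76) (nat_lit 30737204696) (nat_lit 152) (nat_lit 12832194424) (nat_lit 16) (nat_lit 5) (nat_lit 17) (nat_lit 5) (nat_lit 18) (nat_lit 4) (nat_lit 321) (nat_lit 255) (nat_lit 144)) (XT.nd (nat_lit 78) (nat_lit 228) (nat_lit 0) (XT.lf (nat_lit 0) (nat_lit 67418298551) (nat_lit 76) (nat_lit 14271225217) (nat_lit 152) (nat_lit 214884456) (nat_lit 16) (nat_lit 5) (nat_lit 17) (nat_lit 5) (nat_lit 18) (nat_lit 4) (nat_lit 322) (nat_lit 255) (nat_lit 143)) (XT.lf (nat_lit 0)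 (nat_lit 12959447087) (nat_lit 228) (nat_lit 69256752394) (nat_lit 76) (nat_lit 3237902691) (nat_lit 13) (nat_lit 5) (nat_lit 16) (nat_lit 5) (nat_lit 14) (nat_lit 4) (nat_lit 323) (nat_lit 255) (nat_lit 142)))) (XT.nd (nat_lit 78) (nat_lit 76) (nat_lit 0) (XT.lf (nat_lit 0) (nat_lit 27075635347) (nat_lit 228) (nat_lit 40619316654) (nat_lit 76) (nat_lit 21477641535) (nat_lit 13) (nat_lit 5) (nat_lit 16) (nat_lit 5) (nat_lit 14) (nat_lit 4) (nat_lit 324) (nat_lit 255) (nat_lit 141)) (XT.nd (nat_lit 78) (nat_lit 76) (nat_lit 0) (XT.lf (nat_lit 0) (nat_lit 41890872889) (nat_lit 228) (nat_lit 10561933423) (nat_lit 76) (nat_lit 40624409842) (nat_lit 13) (nat_lit 5) (nat_lit 16) (nat_lit 5) (nat_lit 14) (nat_lit 4) (nat_lit 325) (nat_lit 255) (nat_lit 140)) (XT.lf (nat_lit 0) (nat_lit 21404644200) (nat_lit 76) (nat_lit 36241544421) (nat_lit 152) (nat_lit 39524905487) (nat_lit 12) (nat_lit 5) (nat_lit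 13) (nat_lit 5) (nat_lit 14) (nat_lit 4) (nat_lit 326) (nat_lit 255) (nat_lit 139)))))) (XT.nd (nat_lit 32214) (nat_lit 0) (nat_lit 13148) (XT.nd (nat_lit 31980) (nat_lit 0) (nat_lit 13984) (XT.nd (nat_lit 78) (nat_lit 76) (nat_lit 0) (XT.lf (nat_lit 0) (nat_lit 55179233109) (nat_lit 76) (nat_lit 19112525143) (nat_lit 152) (nat_lit 27174836586) (nat_lit 12) (nat_lit 5) (nat_lit 13) (nat_lit 5) (nat_lit 14) (nat_lit 4) (nat_lit 327) (nat_lit 255) (nat_lit 138)) (XT.nd (nat_lit 78) (nat_lit 76) (nat_lit 0) (XT.lf (nat_lit 0) (nat_lit 90632045804) (nat_lit 76) (nat_lit 1131619918) (nat_lit 152) (nat_lit 14213386454) (nat_lit 12) (nat_lit 5) (nat_lit 13) (nat_lit 5) (nat_lit 14) (nat_lit 4) (nat_lit 328) (nat_lit 255) (nat_lit 137)) (XT.lf (nat_lit 0) (nat_lit 17301333758) (nat_lit 76) (nat_lit 93139054076) (nat_lit 76) (nat_lit 262711162) (nat_lit 11) (nat_lit 4) (nat_lit 12) (nat_lit 5) (nat_lit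 12) (nat_lit 4) (nat_lit 329) (nat_lit 255) (nat_lit 136)))) (XT.nd (nat_lit 78) (nat_lit 0) (nat_lit 0) (XT.lf (nat_lit 0) (nat_lit 618153138) (nat_lit 0) (nat_lit 618153138) (nat_lit 988) (nat_lit 3509791619) (nat_lit 195) (nat_lit 5) (nat_lit 195) (nat_lit 3) (nat_lit 208) (nat_lit 3) (nat_lit 256) (nat_lit 256) (nat_lit 208)) (XT.nd (nat_lit 78) (nat_lit 0) (nat_lit 76) (XT.lf (nat_lit 0) (nat_lit 3798783741) (nat_lit 988) (nat_lit 1371741519) (nat_lit 1064) (nat_lit 4518749257) (nat_lit 195) (nat_lit 5) (nat_lit 208) (nat_lit 3) (nat_lit 209) (nat_lit 5) (nat_lit 257) (nat_lit 256) (nat_lit 207)) (XT.lf (nat_lit 0) (nat_lit 5189966275) (nat_lit 988) (nat_lit 3985971735) (nat_lit 1064) (nat_lit 720455024) (nat_lit 196) (nat_lit 5) (nat_lit 209) (nat_lit 5) (nat_lit 210) (nat_lit 5) (nat_lit 258) (nat_lit 256) (nat_lit 206))))) (XT.nd (nat_lit 234) (nat_lit 912) (nat_lit 0) (XT.nd (nat_lit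 78) (nat_lit 0) (nat_lit 76) (XT.lf (nat_lit 76) (nat_lit 3443369685) (nat_lit 0) (nat_lit 3232796417) (nat_lit 1064) (nat_lit 3437077574) (nat_lit 197) (nat_lit 5) (nat_lit 196) (nat_lit 5) (nat_lit 210) (nat_lit 5) (nat_lit 259) (nat_lit 256) (nat_lit 205)) (XT.nd (nat_lit 78) (nat_lit 0) (nat_lit 0) (XT.lf (nat_lit 76) (nat_lit 931932241) (nat_lit 0) (nat_lit 7313360222) (nat_lit 1064) (nat_lit 2095519169) (nat_lit 198) (nat_lit 5) (nat_lit 197) (nat_lit 5) (nat_lit 211) (nat_lit 5) (nat_lit 260) (nat_lit 256) (nat_lit 204)) (XT.lf (nat_lit 76) (nat_lit 8976507910) (nat_lit 0) (nat_lit 949595956) (nat_lit 1064) (nat_lit 652784192) (nat_lit 198) (nat_lit 5) (nat_lit 197) (nat_lit 5) (nat_lit 211) (nat_lit 5) (nat_lit 261) (nat_lit 256) (nat_lit 203)))) (XT.nd (nat_lit 78) (nat_lit 0) (nat_lit 76) (XT.lf (nat_lit 0) (nat_lit 900179590) (nat_lit 1064) (nat_lit 4211195300) (nat_lit 1140) (nat_lit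 5715714739) (nat_lit 184) (nat_lit 5) (nat_lit 198) (nat_lit 5) (nat_lit 199) (nat_lit 5) (nat_lit 262) (nat_lit 256) (nat_lit 202)) (XT.nd (nat_lit 78) (nat_lit 0) (nat_lit 0) (XT.lf (nat_lit 0) (nat_lit 2538062100) (nat_lit 1064) (nat_lit 6890236480) (nat_lit 1140) (nat_lit 1658697447) (nat_lit 185) (nat_lit 5) (nat_lit 199) (nat_lit 5) (nat_lit 200) (nat_lit 5) (nat_lit 263) (nat_lit 256) (nat_lit 201)) (XT.lf (nat_lit 76) (nat_lit 1690943885) (nat_lit 0) (nat_lit 2618885192) (nat_lit 1140) (nat_lit 7048615414) (nat_lit 186) (nat_lit 5) (nat_lit 185) (nat_lit 5) (nat_lit 200) (nat_lit 5) (nat_lit 264) (nat_lit 256) (nat_lit 200))))))))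
noncomputable def xc80 : XT := (XT.nd (nat_lit 1716) (nat_lit 3496) (nat_lit 0) (XT.nd (nat_lit 858) (nat_lit 3496) (nat_lit 0) (XT.nd (nat_lit 390) (nat_lit 2204) (nat_lit 0) (XT.nd (nat_lit 156) (nat_lit 2736) (nat_lit 0) (XT.nd (nat_lit 78) (nat_lit 0) (nat_lit 76) (XT.lf (nat_lit 0) (nat_lit 6228293904) (nat_lit 1064) (nat_lit 885649704) (nat_lit 1140) (nat_lit 4527879871) (nat_lit 186) (nat_lit 5) (nat_lit 200) (nat_lit 5) (nat_lit 201) (nat_lit 5) (nat_lit 265) (nat_lit 256) (nat_lit 199)) (XT.lf (nat_lit 0) (nat_lit 8297086607) (nat_lit 1064) (nat_lit 3508872017) (nat_lit 76) (nat_lit 131877212) (nat_lit 187) (nat_lit 5) (nat_lit 201) (nat_lit 5) (nat_lit 188) (nat_lit 5) (nat_lit 266) (nat_lit 256) (nat_lit 198))) (XT.nd (nat_lit 78) (nat_lit 1748) (nat_lit 0) (XT.lf (nat_lit 0) (nat_lit 5980658883) (nat_lit 1064) (nat_lit 4575087042) (nat_lit 1140) (nat_lit 1690402036) (nat_lit 173)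 (nat_lit 5) (nat_lit 187) (nat_lit 5) (nat_lit 188) (nat_lit 5) (nat_lit 267) (nat_lit 256) (nat_lit 197)) (XT.nd (nat_lit 78) (nat_lit 532) (nat_lit 0) (XT.lf (nat_lit 0) (nat_lit 399535612) (nat_lit 1216) (nat_lit 9129401786) (nat_lit 76) (nat_lit 3039448785) (nat_lit 157) (nat_lit 5) (nat_lit 173) (nat_lit 5) (nat_lit 158) (nat_lit 5) (nat_lit 268) (nat_lit 256) (nat_lit 196)) (XT.lf (nat_lit 0) (nat_lit 762013093) (nat_lit 532) (nat_lit 1867444007) (nat_lit 608) (nat_lit 10274744687) (nat_lit 150) (nat_lit 5) (nat_lit 157) (nat_lit 5) (nat_lit 158) (nat_lit 5) (nat_lit 269) (nat_lit 256) (nat_lit 195))))) (XT.nd (nat_lit 234) (nat_lit 1064) (nat_lit 0) (XT.nd (nat_lit 78) (nat_lit 1140) (nat_lit 0) (XT.lf (nat_lit 0) (nat_lit 5078586671) (nat_lit 608) (nat_lit 2019570103) (nat_lit 76) (nat_lit 6155497161) (nat_lit 150) (nat_lit 5) (nat_lit 158) (nat_lit 5) (nat_lit 151) (nat_lit 5) (nat_lit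 270) (nat_lit 256) (nat_lit 194)) (XT.nd (nat_lit 78) (nat_lit 532) (nat_lit 0) (XT.lf (nat_lit 0) (nat_lit 7718180023) (nat_lit 684) (nat_lit 4910103260) (nat_lit 76) (nat_lit 990328643) (nat_lit 142) (nat_lit 5) (nat_lit 151) (nat_lit 5) (nat_lit 143) (nat_lit 5) (nat_lit 271) (nat_lit 256) (nat_lit 193)) (XT.lf (nat_lit 0) (nat_lit 6017457309) (nat_lit 532) (nat_lit 4580158889) (nat_lit 608) (nat_lit 3401035675) (nat_lit 135) (nat_lit 5) (nat_lit 142) (nat_lit 5) (nat_lit 143) (nat_lit 5) (nat_lit 272) (nat_lit 256) (nat_lit 192)))) (XT.nd (nat_lit 78) (nat_lit 532) (nat_lit 0) (XT.lf (nat_lit 0) (nat_lit 3179967338) (nat_lit 532) (nat_lit 10518892337) (nat_lit 608) (nat_lit 696565704) (nat_lit 128) (nat_lit 5) (nat_lit 135) (nat_lit 5) (nat_lit 136) (nat_lit 5) (nat_lit 273) (nat_lit 256) (nat_lit 191)) (XT.nd (nat_lit 78) (nat_lit 0) (nat_lit 0) (XT.lf (nat_lit 0) (nat_lit 149827524)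 (nat_lit 456) (nat_lit 2042244398) (nat_lit 532) (nat_lit 12616686279) (nat_lit 121) (nat_lit 5) (nat_lit 127) (nat_lit 5) (nat_lit 128) (nat_lit 5) (nat_lit 274) (nat_lit 256) (nat_lit 190)) (XT.lf (nat_lit 0) (nat_lit 5355000020) (nat_lit 532) (nat_lit 3037485073) (nat_lit 76) (nat_lit 6845796400) (nat_lit 121) (nat_lit 5) (nat_lit 128) (nat_lit 5) (nat_lit 122) (nat_lit 5) (nat_lit 275) (nat_lit 256) (nat_lit 189)))))) (XT.nd (nat_lit 390) (nat_lit 1748) (nat_lit 0) (XT.nd (nat_lit 156) (nat_lit 912) (nat_lit 0) (XT.nd (nat_lit 78) (nat_lit 380) (nat_lit 0) (XT.lf (nat_lit 0) (nat_lit 8754540960) (nat_lit 532) (nat_lit 6406521646) (nat_lit 76) (nat_lit 525920227) (nat_lit 115) (nat_lit 5) (nat_lit 122) (nat_lit 5) (nat_lit 116) (nat_lit 5) (nat_lit 276) (nat_lit 256) (nat_lit 188)) (XT.lf (nat_lit 0) (nat_lit 6115129364) (nat_lit 380) (nat_lit 6348769414) (nat_lit 456) (nat_lit 3690078482)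 (nat_lit 110) (nat_lit 5) (nat_lit 115) (nat_lit 5) (nat_lit 116) (nat_lit 5) (nat_lit 277) (nat_lit 256) (nat_lit 187))) (XT.nd (nat_lit 78) (nat_lit 456) (nat_lit 0) (XT.lf (nat_lit 0) (nat_lit 2739625471) (nat_lit 456) (nat_lit 13705985776) (nat_lit 532) (nat_lit 196154239) (nat_lit 104) (nat_lit 5) (nat_lit 110) (nat_lit 5) (nat_lit 111) (nat_lit 5) (nat_lit 278) (nat_lit 256) (nat_lit 186)) (XT.nd (nat_lit 78) (nat_lit 380) (nat_lit 0) (XT.lf (nat_lit 0) (nat_lit 3540058676) (nat_lit 532) (nat_lit 921751454) (nat_lit 76) (nat_lit 12687117887) (nat_lit 103) (nat_lit 5) (nat_lit 110) (nat_lit 5) (nat_lit 104) (nat_lit 5) (nat_lit 279) (nat_lit 256) (nat_lit 185)) (XT.lf (nat_lit 0) (nat_lit 7603354100) (nat_lit 456) (nat_lit 4809822553) (nat_lit 76) (nat_lit 5263928529) (nat_lit 98) (nat_lit 5) (nat_lit 104) (nat_lit 5) (nat_lit 99) (nat_lit 5) (nat_lit 280) (nat_lit 256) (nat_lit 184)))))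 (XT.nd (nat_lit 234) (nat_lit 608) (nat_lit 0) (XT.nd (nat_lit 78) (nat_lit 760) (nat_lit 0) (XT.lf (nat_lit 0) (nat_lit 9231446031) (nat_lit 380) (nat_lit 2751302772) (nat_lit 456) (nat_lit 6245596872) (nat_lit 93) (nat_lit 5) (nat_lit 98) (nat_lit 5) (nat_lit 99) (nat_lit 5) (nat_lit 281) (nat_lit 256) (nat_lit 183)) (XT.nd (nat_lit 78) (nat_lit 456) (nat_lit 0) (XT.lf (nat_lit 0) (nat_lit 5263802395) (nat_lit 304) (nat_lit 11459600745) (nat_lit 380) (nat_lit 2079516837) (nat_lit 89) (nat_lit 5) (nat_lit 93) (nat_lit 5) (nat_lit 94) (nat_lit 5) (nat_lit 282) (nat_lit 256) (nat_lit 182)) (XT.lf (nat_lit 0) (nat_lit 953437795) (nat_lit 380) (nat_lit 1398466175) (nat_lit 456) (nat_lit 17050640127) (nat_lit 83) (nat_lit 5) (nat_lit 88) (nat_lit 5) (nat_lit 89) (nat_lit 5) (nat_lit 283) (nat_lit 256) (nat_lit 181)))) (XT.nd (nat_lit 78) (nat_lit 608) (nat_lit 0) (XT.lf (nat_lit 0) (nat_lit 7163446667)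 (nat_lit 456) (nat_lit 3721161800) (nat_lit 76) (nat_lit 9140912171) (nat_lit 83) (nat_lit 5) (nat_lit 89) (nat_lit 5) (nat_lit 84) (nat_lit 5) (nat_lit 284) (nat_lit 256) (nat_lit 180)) (XT.nd (nat_lit 78) (nat_lit 304) (nat_lit 0) (XT.lf (nat_lit 0) (nat_lit 11927269138) (nat_lit 304) (nat_lit 390682621) (nat_lit 380) (nat_lit 8358656642) (nat_lit 79) (nat_lit 5) (nat_lit 83) (nat_lit 5) (nat_lit 84) (nat_lit 5) (nat_lit 285) (nat_lit 256) (nat_lit 179)) (XT.lf (nat_lit 0) (nat_lit 7078091587) (nat_lit 304) (nat_lit 10835450972) (nat_lit 380) (nat_lit 3441239511) (nat_lit 75) (nat_lit 5) (nat_lit 79) (nat_lit 5) (nat_lit 80) (nat_lit 5) (nat_lit 286) (nat_lit 256) (nat_lit 178))))))) (XT.nd (nat_lit 858) (nat_lit 1216) (nat_lit 0) (XT.nd (nat_lit 390) (nat_lit 988) (nat_lit 0) (XT.nd (nat_lit 156) (nat_lit 912) (nat_lit 0) (XT.nd (nat_lit 78) (nat_lit 0) (nat_lit 0) (XT.lf (nat_lit 0) (nat_lit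 1775890148) (nat_lit 380) (nat_lit 20268566854) (nat_lit 76) (nat_lit 19317366) (nat_lit 70) (nat_lit 5) (nat_lit 75) (nat_lit 5) (nat_lit 71) (nat_lit 5) (nat_lit 287) (nat_lit 256) (nat_lit 177)) (XT.lf (nat_lit 0) (nat_lit 7417034630) (nat_lit 380) (nat_lit 4013825732) (nat_lit 76) (nat_lit 11369332386) (nat_lit 70) (nat_lit 5) (nat_lit 75) (nat_lit 5) (nat_lit 71) (nat_lit 5) (nat_lit 288) (nat_lit 256) (nat_lit 176))) (XT.nd (nat_lit 78) (nat_lit 608) (nat_lit 0) (XT.lf (nat_lit 0) (nat_lit 13280899701) (nat_lit 304) (nat_lit 164030286) (nat_lit 380) (nat_lit 10125388372) (nat_lit 66) (nat_lit 5) (nat_lit 70) (nat_lit 5) (nat_lit 71) (nat_lit 5) (nat_lit 289) (nat_lit 256) (nat_lit 175)) (XT.nd (nat_lit 78) (nat_lit 380) (nat_lit 0) (XT.lf (nat_lit 0) (nat_lit 7141735190) (nat_lit 228) (nat_lit 12832746224) (nat_lit 304) (nat_lit 4398486821) (nat_lit 63) (nat_lit 5) (nat_lit 66) (nat_lit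 5) (nat_lit 67) (nat_lit 5) (nat_lit 290) (nat_lit 256) (nat_lit 174)) (XT.lf (nat_lit 0) (nat_lit 405424263) (nat_lit 304) (nat_lit 1268616311) (nat_lit 380) (nat_lit 23538544533) (nat_lit 58) (nat_lit 5) (nat_lit 62) (nat_lit 5) (nat_lit 63) (nat_lit 5) (nat_lit 291) (nat_lit 256) (nat_lit 173))))) (XT.nd (nat_lit 234) (nat_lit 532) (nat_lit 0) (XT.nd (nat_lit 78) (nat_lit 456) (nat_lit 0) (XT.lf (nat_lit 0) (nat_lit 8222657316) (nat_lit 380) (nat_lit 6986364185) (nat_lit 76) (nat_lit 10875974670) (nat_lit 58) (nat_lit 5) (nat_lit 63) (nat_lit 5) (nat_lit 59) (nat_lit 5) (nat_lit 292) (nat_lit 256) (nat_lit 172)) (XT.nd (nat_lit 78) (nat_lit 228) (nat_lit 0) (XT.lf (nat_lit 0) (nat_lit 11915833234) (nat_lit 228) (nat_lit 3290145420) (nat_lit 304) (nat_lit 11791852582) (nat_lit 55) (nat_lit 5) (nat_lit 58) (nat_lit 5) (nat_lit 59) (nat_lit 5) (nat_lit 293) (nat_lit 256) (nat_lit 171)) (XT.lf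 (nat_lit 0) (nat_lit 3912925837) (nat_lit 228) (nat_lit 18804978488) (nat_lit 304) (nat_lit 5233041208) (nat_lit 52) (nat_lit 5) (nat_lit 55) (nat_lit 5) (nat_lit 56) (nat_lit 5) (nat_lit 294) (nat_lit 256) (nat_lit 170)))) (XT.nd (nat_lit 78) (nat_lit 456) (nat_lit 0) (XT.lf (nat_lit 0) (nat_lit 1792414163) (nat_lit 304) (nat_lit 4853528819) (nat_lit 76) (nat_lit 22300185545) (nat_lit 51) (nat_lit 5) (nat_lit 55) (nat_lit 5) (nat_lit 52) (nat_lit 5) (nat_lit 295) (nat_lit 256) (nat_lit 169)) (XT.nd (nat_lit 78) (nat_lit 228) (nat_lit 0) (XT.lf (nat_lit 0) (nat_lit 9253669142) (nat_lit 304) (nat_lit 14533478310) (nat_lit 76) (nat_lit 6196604391) (nat_lit 48) (nat_lit 5) (nat_lit 52) (nat_lit 5) (nat_lit 49) (nat_lit 5) (nat_lit 296) (nat_lit 256) (nat_lit 168)) (XT.lf (nat_lit 0) (nat_lit 5817980159) (nat_lit 228) (nat_lit 11425870129) (nat_lit 304) (nat_lit 13824747436) (nat_lit 45) (nat_lit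 5) (nat_lit 48) (nat_lit 5) (nat_lit 49) (nat_lit 5) (nat_lit 297) (nat_lit 256) (nat_lit 167)))))) (XT.nd (nat_lit 390) (nat_lit 608) (nat_lit 0) (XT.nd (nat_lit 156) (nat_lit 380) (nat_lit 0) (XT.nd (nat_lit 78) (nat_lit 228) (nat_lit 0) (XT.lf (nat_lit 0) (nat_lit 25782463954) (nat_lit 304) (nat_lit 4755469938) (nat_lit 76) (nat_lit 1665300778) (nat_lit 45) (nat_lit 5) (nat_lit 49) (nat_lit 5) (nat_lit 46) (nat_lit 5) (nat_lit 298) (nat_lit 256) (nat_lit 166)) (XT.lf (nat_lit 0) (nat_lit 1591590601) (nat_lit 228) (nat_lit 16447716352) (nat_lit 76) (nat_lit 15346983586) (nat_lit 42) (nat_lit 5) (nat_lit 45) (nat_lit 5) (nat_lit 43) (nat_lit 5) (nat_lit 299) (nat_lit 256) (nat_lit 165))) (XT.nd (nat_lit 78) (nat_lit 152) (nat_lit 0) (XT.lf (nat_lit 0) (nat_lit 5200946541) (nat_lit 228) (nat_lit 4755582040) (nat_lit 304) (nat_lit 24667535471) (nat_lit 39) (nat_lit 5) (nat_lit 42) (nat_lit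 5) (nat_lit 43) (nat_lit 5) (nat_lit 300) (nat_lit 256) (nat_lit 164)) (XT.nd (nat_lit 78) (nat_lit 152) (nat_lit 0) (XT.lf (nat_lit 0) (nat_lit 18983590321) (nat_lit 304) (nat_lit 7757527473) (nat_lit 76) (nat_lit 9175305960) (nat_lit 39) (nat_lit 5) (nat_lit 43) (nat_lit 5) (nat_lit 40) (nat_lit 5) (nat_lit 301) (nat_lit 256) (nat_lit 163)) (XT.lf (nat_lit 0) (nat_lit 15216856140) (nat_lit 152) (nat_lit 13424682415) (nat_lit 228) (nat_lit 8626490044) (nat_lit 37) (nat_lit 5) (nat_lit 39) (nat_lit 5) (nat_lit 40) (nat_lit 5) (nat_lit 302) (nat_lit 256) (nat_lit 162))))) (XT.nd (nat_lit 234) (nat_lit 228) (nat_lit 0) (XT.nd (nat_lit 78) (nat_lit 152) (nat_lit 0) (XT.lf (nat_lit 0) (nat_lit 173481870) (nat_lit 228) (nat_lit 37882872107) (nat_lit 76) (nat_lit 628439379) (nat_lit 34) (nat_lit 5) (nat_lit 37) (nat_lit 5) (nat_lit 35) (nat_lit 5) (nat_lit 303) (nat_lit 256) (nat_lit 161)) (XT.nd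 (nat_lit 78) (nat_lit 152) (nat_lit 0) (XT.lf (nat_lit 0) (nat_lit 9587425145) (nat_lit 228) (nat_lit 15154665179) (nat_lit 76) (nat_lit 15417183838) (nat_lit 34) (nat_lit 5) (nat_lit 37) (nat_lit 5) (nat_lit 35) (nat_lit 5) (nat_lit 304) (nat_lit 256) (nat_lit 160)) (XT.lf (nat_lit 0) (nat_lit 8861211275) (nat_lit 152) (nat_lit 10682681232) (nat_lit 228) (nat_lit 22161442731) (nat_lit 32) (nat_lit 5) (nat_lit 34) (nat_lit 5) (nat_lit 35) (nat_lit 5) (nat_lit 305) (nat_lit 256) (nat_lit 159)))) (XT.nd (nat_lit 78) (nat_lit 228) (nat_lit 0) (XT.lf (nat_lit 0) (nat_lit 30181951460) (nat_lit 228) (nat_lit 8991565217) (nat_lit 76) (nat_lit 4149680157) (nat_lit 32) (nat_lit 5) (nat_lit 35) (nat_lit 5) (nat_lit 33) (nat_lit 5) (nat_lit 306) (nat_lit 256) (nat_lit 158)) (XT.nd (nat_lit 78) (nat_lit 76) (nat_lit 0) (XT.lf (nat_lit 0) (nat_lit 16242409051) (nat_lit 152) (nat_lit 25361081233) (nat_lit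 228) (nat_lit 3410923927) (nat_lit 30) (nat_lit 5) (nat_lit 32) (nat_lit 5) (nat_lit 33) (nat_lit 5) (nat_lit 307) (nat_lit 256) (nat_lit 157)) (XT.lf (nat_lit 0) (nat_lit 6754476022) (nat_lit 228) (nat_lit 3947780051) (nat_lit 76) (nat_lit 36083541856) (nat_lit 29) (nat_lit 5) (nat_lit 32) (nat_lit 5) (nat_lit 30) (nat_lit 5) (nat_lit 308) (nat_lit 256) (nat_lit 156))))))))
noncomputable def xc81 : XT := (XT.nd (nat_lit 33540) (nat_lit 0) (nat_lit 6916) (XT.nd (nat_lit 858) (nat_lit 380) (nat_lit 0) (XT.nd (nat_lit 390) (nat_lit 456) (nat_lit 0) (XT.nd (nat_lit 156) (nat_lit 304) (nat_lit 0) (XT.nd (nat_lit 78) (nat_lit 0) (nat_lit 0) (XT.lf (nat_lit 0) (nat_lit 17610532926) (nat_lit 228) (nat_lit 26182774633) (nat_lit 76) (nat_lit 4843851039) (nat_lit 27) (nat_lit 5) (nat_lit 30) (nat_lit 5) (nat_lit 28) (nat_lit 5) (nat_lit 309) (nat_lit 256) (nat_lit 155)) (XT.lf (nat_lit 0) (nat_lit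 29147225086) (nat_lit 228) (nat_lit 447916250) (nat_lit 76) (nat_lit 20981819390) (nat_lit 27) (nat_lit 5) (nat_lit 30) (nat_lit 5) (nat_lit 28) (nat_lit 5) (nat_lit 310) (nat_lit 256) (nat_lit 154))) (XT.nd (nat_lit 78) (nat_lit 152) (nat_lit 0) (XT.lf (nat_lit 0) (nat_lit 27084313308) (nat_lit 152) (nat_lit 14426094931) (nat_lit 228) (nat_lit 11095863026) (nat_lit 25) (nat_lit 5) (nat_lit 27) (nat_lit 5) (nat_lit 28) (nat_lit 5) (nat_lit 311) (nat_lit 256) (nat_lit 153)) (XT.nd (nat_lit 78) (nat_lit 76) (nat_lit 0) (XT.lf (nat_lit 0) (nat_lit 1258054266) (nat_lit 76) (nat_lit 53254458643) (nat_lit 152) (nat_lit 223919167) (nat_lit 24) (nat_lit 5) (nat_lit 25) (nat_lit 5) (nat_lit 26) (nat_lit 4) (nat_lit 312) (nat_lit 256) (nat_lit 152)) (XT.lf (nat_lit 0) (nat_lit 11373971239) (nat_lit 152) (nat_lit 27327933342) (nat_lit 76) (nat_lit 18255953820) (nat_lit 23) (nat_lit 5) (nat_lit 25) (nat_lit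 5) (nat_lit 24) (nat_lit 5) (nat_lit 313) (nat_lit 256) (nat_lit 151))))) (XT.nd (nat_lit 234) (nat_lit 304) (nat_lit 0) (XT.nd (nat_lit 78) (nat_lit 0) (nat_lit 0) (XT.lf (nat_lit 0) (nat_lit 113485777) (nat_lit 152) (nat_lit 23425063674) (nat_lit 228) (nat_lit 35752004059) (nat_lit 21) (nat_lit 5) (nat_lit 23) (nat_lit 5) (nat_lit 24) (nat_lit 5) (nat_lit 314) (nat_lit 256) (nat_lit 150)) (XT.nd (nat_lit 78) (nat_lit 0) (nat_lit 0) (XT.lf (nat_lit 0) (nat_lit 29482020294) (nat_lit 152) (nat_lit 7101251859) (nat_lit 228) (nat_lit 25148460141) (nat_lit 21) (nat_lit 5) (nat_lit 23) (nat_lit 5) (nat_lit 24) (nat_lit 5) (nat_lit 315) (nat_lit 256) (nat_lit 149)) (XT.lf (nat_lit 0) (nat_lit 50367715230) (nat_lit 228) (nat_lit 4087966816) (nat_lit 76) (nat_lit 9836669527) (nat_lit 21) (nat_lit 5) (nat_lit 24) (nat_lit 5) (nat_lit 22) (nat_lit 4) (nat_lit 316) (nat_lit 256) (nat_lit 148)))) (XT.nd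 (nat_lit 78) (nat_lit 228) (nat_lit 0) (XT.lf (nat_lit 0) (nat_lit 25900867595) (nat_lit 76) (nat_lit 39252577390) (nat_lit 152) (nat_lit 1818200689) (nat_lit 20) (nat_lit 5) (nat_lit 21) (nat_lit 5) (nat_lit 22) (nat_lit 4) (nat_lit 317) (nat_lit 256) (nat_lit 147)) (XT.nd (nat_lit 78) (nat_lit 152) (nat_lit 0) (XT.lf (nat_lit 0) (nat_lit 10715081202) (nat_lit 152) (nat_lit 12428696562) (nat_lit 76) (nat_lit 46636967696) (nat_lit 19) (nat_lit 5) (nat_lit 21) (nat_lit 5) (nat_lit 20) (nat_lit 5) (nat_lit 318) (nat_lit 256) (nat_lit 146)) (XT.lf (nat_lit 0) (nat_lit 17963874948) (nat_lit 152) (nat_lit 6038576770) (nat_lit 228) (nat_lit 48722362729) (nat_lit 17) (nat_lit 5) (nat_lit 19) (nat_lit 5) (nat_lit 20) (nat_lit 5) (nat_lit 319) (nat_lit 256) (nat_lit 145)))))) (XT.nd (nat_lit 390) (nat_lit 76) (nat_lit 0) (XT.nd (nat_lit 156) (nat_lit 228) (nat_lit 0) (XT.nd (nat_lit 78) (nat_lit 76)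 (nat_lit 0) (XT.lf (nat_lit 0) (nat_lit 38190196600) (nat_lit 228) (nat_lit 25805907335) (nat_lit 76) (nat_lit 11812907632) (nat_lit 17) (nat_lit 5) (nat_lit 20) (nat_lit 5) (nat_lit 18) (nat_lit 4) (nat_lit 320) (nat_lit 256) (nat_lit 144)) (XT.lf (nat_lit 0) (nat_lit 4613001259) (nat_lit 76) (nat_lit 48572187058) (nat_lit 152) (nat_lit 25859299066) (nat_lit 16) (nat_lit 5) (nat_lit 17) (nat_lit 5) (nat_lit 18) (nat_lit 4) (nat_lit 321) (nat_lit 256) (nat_lit 143))) (XT.nd (nat_lit 78) (nat_lit 228) (nat_lit 0) (XT.lf (nat_lit 0) (nat_lit 37079551216) (nat_lit 76) (nat_lit 32108828302) (nat_lit 152) (nat_lit 13245608381) (nat_lit 16) (nat_lit 5) (nat_lit 17) (nat_lit 5) (nat_lit 18) (nat_lit 4) (nat_lit 322) (nat_lit 256) (nat_lit 142)) (XT.nd (nat_lit 78) (nat_lit 228) (nat_lit 0) (XT.lf (nat_lit 0) (nat_lit 71157455689) (nat_lit 76) (nat_lit 14827418260) (nat_lit 152) (nat_lit 8299380)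 (nat_lit 16) (nat_lit 5) (nat_lit 17) (nat_lit 5) (nat_lit 18) (nat_lit 4) (nat_lit 323) (nat_lit 256) (nat_lit 141)) (XT.lf (nat_lit 0) (nat_lit 13815334697) (nat_lit 228) (nat_lit 72352845202) (nat_lit 76) (nat_lit 3552270564) (nat_lit 13) (nat_lit 5) (nat_lit 16) (nat_lit 5) (nat_lit 14) (nat_lit 4) (nat_lit 324) (nat_lit 256) (nat_lit 140))))) (XT.nd (nat_lit 234) (nat_lit 0) (nat_lit 0) (XT.nd (nat_lit 78) (nat_lit 76) (nat_lit 0) (XT.lf (nat_lit 0) (nat_lit 28627431643) (nat_lit 228) (nat_lit 42301001714) (nat_lit 76) (nat_lit 22696735744) (nat_lit 13) (nat_lit 5) (nat_lit 16) (nat_lit 5) (nat_lit 14) (nat_lit 4) (nat_lit 325) (nat_lit 256) (nat_lit 139)) (XT.nd (nat_lit 78) (nat_lit 76) (nat_lit 0) (XT.lf (nat_lit 0) (nat_lit 44174001799) (nat_lit 228) (nat_lit 10757381740) (nat_lit 76) (nat_lit 42793927603) (nat_lit 13) (nat_lit 5) (nat_lit 16) (nat_lit 5) (nat_lit 14) (nat_lit 4)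 (nat_lit 326) (nat_lit 256) (nat_lit 138)) (XT.lf (nat_lit 0) (nat_lit 22797989467) (nat_lit 76) (nat_lit 37913219561) (nat_lit 152) (nat_lit 41312855350) (nat_lit 12) (nat_lit 5) (nat_lit 13) (nat_lit 5) (nat_lit 14) (nat_lit 4) (nat_lit 327) (nat_lit 256) (nat_lit 137)))) (XT.nd (nat_lit 78) (nat_lit 0) (nat_lit 0) (XT.lf (nat_lit 0) (nat_lit 58245921485) (nat_lit 76) (nat_lit 19934435133) (nat_lit 152) (nat_lit 28354249452) (nat_lit 12) (nat_lit 5) (nat_lit 13) (nat_lit 5) (nat_lit 14) (nat_lit 4) (nat_lit 328) (nat_lit 256) (nat_lit 136)) (XT.nd (nat_lit 31902) (nat_lit 0) (nat_lit 13908) (XT.lf (nat_lit 0) (nat_lit 95456721162) (nat_lit 76) (nat_lit 1060852087) (nat_lit 152) (nat_lit 14753266288) (nat_lit 12) (nat_lit 5) (nat_lit 13) (nat_lit 5) (nat_lit 14) (nat_lit 4) (nat_lit 329) (nat_lit 256) (nat_lit 135)) (XT.lf (nat_lit 0) (nat_lit 1249563766) (nat_lit 0) (nat_lit 1249563766)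 (nat_lit 988) (nat_lit 2445985425) (nat_lit 195) (nat_lit 5) (nat_lit 195) (nat_lit 3) (nat_lit 208) (nat_lit 3) (nat_lit 257) (nat_lit 257) (nat_lit 206))))))) (XT.nd (nat_lit 858) (nat_lit 5320) (nat_lit 0) (XT.nd (nat_lit 390) (nat_lit 760) (nat_lit 0) (XT.nd (nat_lit 156) (nat_lit 912) (nat_lit 0) (XT.nd (nat_lit 78) (nat_lit 0) (nat_lit 0) (XT.lf (nat_lit 0) (nat_lit 6265358241) (nat_lit 988) (nat_lit 212585346) (nat_lit 1064) (nat_lit 3623191491) (nat_lit 195) (nat_lit 5) (nat_lit 208) (nat_lit 3) (nat_lit 209) (nat_lit 5) (nat_lit 258) (nat_lit 257) (nat_lit 205)) (XT.lf (nat_lit 76) (nat_lit 7406131541) (nat_lit 0) (nat_lit 215604228) (nat_lit 1064) (nat_lit 2700209634) (nat_lit 196) (nat_lit 5) (nat_lit 195) (nat_lit 5) (nat_lit 209) (nat_lit 5) (nat_lit 259) (nat_lit 257) (nat_lit 204))) (XT.nd (nat_lit 78) (nat_lit 988) (nat_lit 0) (XT.lf (nat_lit 76) (nat_lit 4850619025) (nat_lit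 0) (nat_lit 4238083602) (nat_lit 1064) (nat_lit 1463937436) (nat_lit 197) (nat_lit 5) (nat_lit 196) (nat_lit 5) (nat_lit 210) (nat_lit 5) (nat_lit 260) (nat_lit 257) (nat_lit 203)) (XT.nd (nat_lit 78) (nat_lit 1064) (nat_lit 0) (XT.lf (nat_lit 76) (nat_lit 2250449858) (nat_lit 0) (nat_lit 8391351393) (nat_lit 1064) (nat_lit 152805591) (nat_lit 198) (nat_lit 5) (nat_lit 197) (nat_lit 5) (nat_lit 211) (nat_lit 5) (nat_lit 261) (nat_lit 257) (nat_lit 202)) (XT.lf (nat_lit 0) (nat_lit 1239890383) (nat_lit 1064) (nat_lit 423067917) (nat_lit 1140) (nat_lit 9384275798) (nat_lit 183) (nat_lit 5) (nat_lit 197) (nat_lit 5) (nat_lit 198) (nat_lit 5) (nat_lit 262) (nat_lit 257) (nat_lit 201))))) (XT.nd (nat_lit 234) (nat_lit 836) (nat_lit 0) (XT.nd (nat_lit 78) (nat_lit 0) (nat_lit 76) (XT.lf (nat_lit 0) (nat_lit 2771862334) (nat_lit 1064) (nat_lit 3140654987) (nat_lit 1140) (nat_lit 5397852423) (nat_lit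 184) (nat_lit 5) (nat_lit 198) (nat_lit 5) (nat_lit 199) (nat_lit 5) (nat_lit 263) (nat_lit 257) (nat_lit 200)) (XT.nd (nat_lit 78) (nat_lit 0) (nat_lit 0) (XT.lf (nat_lit 0) (nat_lit 4411740000) (nat_lit 1064) (nat_lit 5929826709) (nat_lit 1140) (nat_lit 1244257634) (nat_lit 185) (nat_lit 5) (nat_lit 199) (nat_lit 5) (nat_lit 200) (nat_lit 5) (nat_lit 264) (nat_lit 257) (nat_lit 199)) (XT.lf (nat_lit 76) (nat_lit 3043007360) (nat_lit 0) (nat_lit 3158092356) (nat_lit 1140) (nat_lit 5672023870) (nat_lit 186) (nat_lit 5) (nat_lit 185) (nat_lit 5) (nat_lit 200) (nat_lit 5) (nat_lit 265) (nat_lit 257) (nat_lit 198)))) (XT.nd (nat_lit 78) (nat_lit 988) (nat_lit 0) (XT.lf (nat_lit 76) (nat_lit 338272421) (nat_lit 0) (nat_lit 7796930442) (nat_lit 1140) (nat_lit 4038018625) (nat_lit 187) (nat_lit 5) (nat_lit 186) (nat_lit 5) (nat_lit 201) (nat_lit 5) (nat_lit 266) (nat_lit 257) (nat_lit 197)) (XT.nd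 (nat_lit 78) (nat_lit 988) (nat_lit 0) (XT.lf (nat_lit 76) (nat_lit 10077250378) (nat_lit 0) (nat_lit 161534187) (nat_lit 1140) (nat_lit 2247444100) (nat_lit 187) (nat_lit 5) (nat_lit 186) (nat_lit 5) (nat_lit 201) (nat_lit 5) (nat_lit 267) (nat_lit 257) (nat_lit 196)) (XT.lf (nat_lit 0) (nat_lit 7519980125) (nat_lit 1064) (nat_lit 5028133471) (nat_lit 1140) (nat_lit 263838967) (nat_lit 173) (nat_lit 5) (nat_lit 187) (nat_lit 5) (nat_lit 188) (nat_lit 5) (nat_lit 268) (nat_lit 257) (nat_lit 195)))))) (XT.nd (nat_lit 390) (nat_lit 2432) (nat_lit 0) (XT.nd (nat_lit 156) (nat_lit 1140) (nat_lit 0) (XT.nd (nat_lit 78) (nat_lit 532) (nat_lit 0) (XT.lf (nat_lit 0) (nat_lit 1840637124) (nat_lit 1216) (nat_lit 8303216928) (nat_lit 76) (nat_lit 3007945636) (nat_lit 157) (nat_lit 5) (nat_lit 173) (nat_lit 5) (nat_lit 158) (nat_lit 5) (nat_lit 269) (nat_lit 257) (nat_lit 194)) (XT.lf (nat_lit 0) (nat_lit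 2046001649) (nat_lit 532) (nat_lit 2080356668) (nat_lit 608) (nat_lit 9379831602) (nat_lit 150) (nat_lit 5) (nat_lit 157) (nat_lit 5) (nat_lit 158) (nat_lit 5) (nat_lit 270) (nat_lit 257) (nat_lit 193))) (XT.nd (nat_lit 78) (nat_lit 1140) (nat_lit 0) (XT.lf (nat_lit 0) (nat_lit 6631829591) (nat_lit 608) (nat_lit 891730557) (nat_lit 76) (nat_lit 6351645547) (nat_lit 150) (nat_lit 5) (nat_lit 158) (nat_lit 5) (nat_lit 151) (nat_lit 5) (nat_lit 271) (nat_lit 257) (nat_lit 192)) (XT.nd (nat_lit 78) (nat_lit 532) (nat_lit 0) (XT.lf (nat_lit 0) (nat_lit 9352472315) (nat_lit 684) (nat_lit 3921965887) (nat_lit 76) (nat_lit 985603744) (nat_lit 142) (nat_lit 5) (nat_lit 151) (nat_lit 5) (nat_lit 143) (nat_lit 5) (nat_lit 272) (nat_lit 257) (nat_lit 191)) (XT.lf (nat_lit 0) (nat_lit 7516610594) (nat_lit 532) (nat_lit 4811341487) (nat_lit 608) (nat_lit 2332667233) (nat_lit 135) (nat_lit 5) (nat_lit 142)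 (nat_lit 5) (nat_lit 143) (nat_lit 5) (nat_lit 273) (nat_lit 257) (nat_lit 190))))) (XT.nd (nat_lit 234) (nat_lit 1368) (nat_lit 0) (XT.nd (nat_lit 78) (nat_lit 456) (nat_lit 0) (XT.lf (nat_lit 0) (nat_lit 450947987) (nat_lit 608) (nat_lit 10543319870) (nat_lit 76) (nat_lit 4084293174) (nat_lit 127) (nat_lit 5) (nat_lit 135) (nat_lit 5) (nat_lit 128) (nat_lit 5) (nat_lit 274) (nat_lit 257) (nat_lit 189)) (XT.nd (nat_lit 78) (nat_lit 0) (nat_lit 0) (XT.lf (nat_lit 0) (nat_lit 1348059749) (nat_lit 456) (nat_lit 2077509370) (nat_lit 532) (nat_lit 12088191670) (nat_lit 121) (nat_lit 5) (nat_lit 127) (nat_lit 5) (nat_lit 128) (nat_lit 5) (nat_lit 275) (nat_lit 257) (nat_lit 188)) (XT.lf (nat_lit 0) (nat_lit 6693736858) (nat_lit 532) (nat_lit 2022184474) (nat_lit 76) (nat_lit 7250507951) (nat_lit 121) (nat_lit 5) (nat_lit 128) (nat_lit 5) (nat_lit 122) (nat_lit 5) (nat_lit 276) (nat_lit 257) (nat_lit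 187)))) (XT.nd (nat_lit 78) (nat_lit 912) (nat_lit 0) (XT.lf (nat_lit 0) (nat_lit 10224141952) (nat_lit 532) (nat_lit 5561632892) (nat_lit 76) (nat_lit 653042169) (nat_lit 115) (nat_lit 5) (nat_lit 122) (nat_lit 5) (nat_lit 116) (nat_lit 5) (nat_lit 277) (nat_lit 257) (nat_lit 186)) (XT.nd (nat_lit 78) (nat_lit 532) (nat_lit 0) (XT.lf (nat_lit 0) (nat_lit 7552700019) (nat_lit 380) (nat_lit 6528010478) (nat_lit 456) (nat_lit 2849672606) (nat_lit 110) (nat_lit 5) (nat_lit 115) (nat_lit 5) (nat_lit 116) (nat_lit 5) (nat_lit 278) (nat_lit 257) (nat_lit 185)) (XT.lf (nat_lit 0) (nat_lit 767347078) (nat_lit 532) (nat_lit 13446127153) (nat_lit 76) (nat_lit 3229987578) (nat_lit 103) (nat_lit 5) (nat_lit 110) (nat_lit 5) (nat_lit 104) (nat_lit 5) (nat_lit 279) (nat_lit 257) (nat_lit 184))))))))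
noncomputable def xc82 : XT := (XT.nd (nat_lit 1716) (nat_lit 1748) (nat_lit 0) (XT.nd (nat_lit 858) (nat_lit 2052) (nat_lit 0) (XT.nd (nat_lit 390) (nat_lit 1292) (nat_lit 0) (XT.nd (nat_lit 156) (nat_lit 1140) (nat_lit 0) (XT.nd (nat_lit 78) (nat_lit 0) (nat_lit 0) (XT.lf (nat_lit 0) (nat_lit 129099241) (nat_lit 380) (nat_lit 4512336655) (nat_lit 456) (nat_lit 13335900011) (nat_lit 98) (nat_lit 5) (nat_lit 103) (nat_lit 5) (nat_lit 104) (nat_lit 5) (nat_lit 280) (nat_lit 257) (nat_lit 183)) (XT.lf (nat_lit 0) (nat_lit 8874584320) (nat_lit 456) (nat_lit 3961008353) (nat_lit 76) (nat_lit 5697390862) (nat_lit 98) (nat_lit 5) (nat_lit 104) (nat_lit 5) (nat_lit 99) (nat_lit 5) (nat_lit 281) (nat_lit 257) (nat_lit 182))) (XT.nd (nat_lit 78) (nat_lit 760) (nat_lit 0) (XT.lf (nat_lit 0) (nat_lit 10751098942) (nat_lit 380) (nat_lit 2689589186) (nat_lit 456) (nat_lit 5672125031) (nat_lit 93) (nat_lit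 5) (nat_lit 98) (nat_lit 5) (nat_lit 99) (nat_lit 5) (nat_lit 282) (nat_lit 257) (nat_lit 181)) (XT.nd (nat_lit 78) (nat_lit 456) (nat_lit 0) (XT.lf (nat_lit 0) (nat_lit 6579060066) (nat_lit 304) (nat_lit 11810357275) (nat_lit 380) (nat_lit 1327624034) (nat_lit 89) (nat_lit 5) (nat_lit 93) (nat_lit 5) (nat_lit 94) (nat_lit 5) (nat_lit 283) (nat_lit 257) (nat_lit 180)) (XT.lf (nat_lit 0) (nat_lit 2040307238) (nat_lit 380) (nat_lit 1238388538) (nat_lit 456) (nat_lit 17068655448) (nat_lit 83) (nat_lit 5) (nat_lit 88) (nat_lit 5) (nat_lit 89) (nat_lit 5) (nat_lit 284) (nat_lit 257) (nat_lit 179))))) (XT.nd (nat_lit 234) (nat_lit 684) (nat_lit 0) (XT.nd (nat_lit 78) (nat_lit 608) (nat_lit 0) (XT.lf (nat_lit 0) (nat_lit 8294388065) (nat_lit 456) (nat_lit 2895499204) (nat_lit 76) (nat_lit 9812731874) (nat_lit 83) (nat_lit 5) (nat_lit 89) (nat_lit 5) (nat_lit 84) (nat_lit 5) (nat_lit 285) (nat_lit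 257) (nat_lit 178)) (XT.nd (nat_lit 78) (nat_lit 304) (nat_lit 0) (XT.lf (nat_lit 0) (nat_lit 13506352511) (nat_lit 304) (nat_lit 172913879) (nat_lit 380) (nat_lit 8007862819) (nat_lit 79) (nat_lit 5) (nat_lit 83) (nat_lit 5) (nat_lit 84) (nat_lit 5) (nat_lit 286) (nat_lit 257) (nat_lit 177)) (XT.lf (nat_lit 0) (nat_lit 8406972347) (nat_lit 304) (nat_lit 11123712877) (nat_lit 380) (nat_lit 2869289983) (nat_lit 75) (nat_lit 5) (nat_lit 79) (nat_lit 5) (nat_lit 80) (nat_lit 5) (nat_lit 287) (nat_lit 257) (nat_lit 176)))) (XT.nd (nat_lit 78) (nat_lit 304) (nat_lit 0) (XT.lf (nat_lit 0) (nat_lit 2571167052) (nat_lit 380) (nat_lit 20300539455) (nat_lit 76) (nat_lit 273228080) (nat_lit 70) (nat_lit 5) (nat_lit 75) (nat_lit 5) (nat_lit 71) (nat_lit 5) (nat_lit 288) (nat_lit 257) (nat_lit 175)) (XT.nd (nat_lit 78) (nat_lit 304) (nat_lit 0) (XT.lf (nat_lit 0) (nat_lit 8460726740) (nat_lit 380) (nat_lit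 3279797265) (nat_lit 76) (nat_lit 12178698859) (nat_lit 70) (nat_lit 5) (nat_lit 75) (nat_lit 5) (nat_lit 71) (nat_lit 5) (nat_lit 289) (nat_lit 257) (nat_lit 174)) (XT.lf (nat_lit 0) (nat_lit 14767532673) (nat_lit 380) (nat_lit 9876549351) (nat_lit 76) (nat_lit 84485079) (nat_lit 66) (nat_lit 5) (nat_lit 71) (nat_lit 5) (nat_lit 67) (nat_lit 5) (nat_lit 290) (nat_lit 257) (nat_lit 173)))))) (XT.nd (nat_lit 390) (nat_lit 988) (nat_lit 0) (XT.nd (nat_lit 156) (nat_lit 456) (nat_lit 0) (XT.nd (nat_lit 78) (nat_lit 380) (nat_lit 0) (XT.lf (nat_lit 0) (nat_lit 8397972028) (nat_lit 228) (nat_lit 13204840241) (nat_lit 304) (nat_lit 3969195709) (nat_lit 63) (nat_lit 5) (nat_lit 66) (nat_lit 5) (nat_lit 67) (nat_lit 5) (nat_lit 291) (nat_lit 257) (nat_lit 172)) (XT.lf (nat_lit 0) (nat_lit 1312056419) (nat_lit 304) (nat_lit 1060441590) (nat_lit 380) (nat_lit 24081607519) (nat_lit 58) (nat_lit 5) (nat_lit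 62) (nat_lit 5) (nat_lit 63) (nat_lit 5) (nat_lit 292) (nat_lit 257) (nat_lit 171))) (XT.nd (nat_lit 78) (nat_lit 456) (nat_lit 0) (XT.lf (nat_lit 0) (nat_lit 9221758034) (nat_lit 380) (nat_lit 6475816740) (nat_lit 76) (nat_lit 11673397721) (nat_lit 58) (nat_lit 5) (nat_lit 63) (nat_lit 5) (nat_lit 59) (nat_lit 5) (nat_lit 293) (nat_lit 257) (nat_lit 170)) (XT.nd (nat_lit 78) (nat_lit 228) (nat_lit 0) (XT.lf (nat_lit 0) (nat_lit 13346842674) (nat_lit 228) (nat_lit 3187432920) (nat_lit 304) (nat_lit 11795803027) (nat_lit 55) (nat_lit 5) (nat_lit 58) (nat_lit 5) (nat_lit 59) (nat_lit 5) (nat_lit 294) (nat_lit 257) (nat_lit 169)) (XT.lf (nat_lit 0) (nat_lit 4934491919) (nat_lit 228) (nat_lit 19470643714) (nat_lit 304) (nat_lit 4926241631) (nat_lit 52) (nat_lit 5) (nat_lit 55) (nat_lit 5) (nat_lit 56) (nat_lit 5) (nat_lit 295) (nat_lit 257) (nat_lit 168))))) (XT.nd (nat_lit 234) (nat_lit 456)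 (nat_lit 0) (XT.nd (nat_lit 78) (nat_lit 456) (nat_lit 0) (XT.lf (nat_lit 0) (nat_lit 2412853061) (nat_lit 304) (nat_lit 4298518563) (nat_lit 76) (nat_lit 23665606686) (nat_lit 51) (nat_lit 5) (nat_lit 55) (nat_lit 5) (nat_lit 52) (nat_lit 5) (nat_lit 296) (nat_lit 257) (nat_lit 167)) (XT.nd (nat_lit 78) (nat_lit 228) (nat_lit 0) (XT.lf (nat_lit 0) (nat_lit 10231858676) (nat_lit 304) (nat_lit 14471951512) (nat_lit 76) (nat_lit 6763157305) (nat_lit 48) (nat_lit 5) (nat_lit 52) (nat_lit 5) (nat_lit 49) (nat_lit 5) (nat_lit 297) (nat_lit 257) (nat_lit 166)) (XT.lf (nat_lit 0) (nat_lit 6874486266) (nat_lit 228) (nat_lit 11729874189) (nat_lit 304) (nat_lit 14002234997) (nat_lit 45) (nat_lit 5) (nat_lit 48) (nat_lit 5) (nat_lit 49) (nat_lit 5) (nat_lit 298) (nat_lit 257) (nat_lit 165)))) (XT.nd (nat_lit 78) (nat_lit 456) (nat_lit 0) (XT.lf (nat_lit 0) (nat_lit 27548622391) (nat_lit 304) (nat_lit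 4251843523) (nat_lit 76) (nat_lit 1998159785) (nat_lit 45) (nat_lit 5) (nat_lit 49) (nat_lit 5) (nat_lit 46) (nat_lit 5) (nat_lit 299) (nat_lit 257) (nat_lit 164)) (XT.nd (nat_lit 78) (nat_lit 228) (nat_lit 0) (XT.lf (nat_lit 0) (nat_lit 2137407876) (nat_lit 228) (nat_lit 16540250284) (nat_lit 76) (nat_lit 16363534766) (nat_lit 42) (nat_lit 5) (nat_lit 45) (nat_lit 5) (nat_lit 43) (nat_lit 5) (nat_lit 300) (nat_lit 257) (nat_lit 163)) (XT.lf (nat_lit 0) (nat_lit 6169924696) (nat_lit 228) (nat_lit 4735280938) (nat_lit 304) (nat_lit 25436131333) (nat_lit 39) (nat_lit 5) (nat_lit 42) (nat_lit 5) (nat_lit 43) (nat_lit 5) (nat_lit 301) (nat_lit 257) (nat_lit 162))))))) (XT.nd (nat_lit 858) (nat_lit 684) (nat_lit 0) (XT.nd (nat_lit 390) (nat_lit 532) (nat_lit 0) (XT.nd (nat_lit 156) (nat_lit 380) (nat_lit 0) (XT.nd (nat_lit 78) (nat_lit 152) (nat_lit 0) (XT.lf (nat_lit 0) (nat_lit 20364514073)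 (nat_lit 304) (nat_lit 7459327378) (nat_lit 76) (nat_lit 9875065668) (nat_lit 39) (nat_lit 5) (nat_lit 43) (nat_lit 5) (nat_lit 40) (nat_lit 5) (nat_lit 302) (nat_lit 257) (nat_lit 161)) (XT.lf (nat_lit 0) (nat_lit 16644109171) (nat_lit 152) (nat_lit 13847097242) (nat_lit 228) (nat_lit 8627328750) (nat_lit 37) (nat_lit 5) (nat_lit 39) (nat_lit 5) (nat_lit 40) (nat_lit 5) (nat_lit 303) (nat_lit 257) (nat_lit 160))) (XT.nd (nat_lit 78) (nat_lit 152) (nat_lit 0) (XT.lf (nat_lit 0) (nat_lit 592825548) (nat_lit 228) (nat_lit 39110993408) (nat_lit 76) (nat_lit 902554509) (nat_lit 34) (nat_lit 5) (nat_lit 37) (nat_lit 5) (nat_lit 35) (nat_lit 5) (nat_lit 304) (nat_lit 257) (nat_lit 159)) (XT.nd (nat_lit 78) (nat_lit 152) (nat_lit 0) (XT.lf (nat_lit 0) (nat_lit 10457910293) (nat_lit 228) (nat_lit 15278091482) (nat_lit 76) (nat_lit 16419179373) (nat_lit 34) (nat_lit 5) (nat_lit 37) (nat_lit 5) (nat_lit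 35) (nat_lit 5) (nat_lit 305) (nat_lit 257) (nat_lit 158)) (XT.lf (nat_lit 0) (nat_lit 9920396513) (nat_lit 152) (nat_lit 10979102605) (nat_lit 228) (nat_lit 22879442611) (nat_lit 32) (nat_lit 5) (nat_lit 34) (nat_lit 5) (nat_lit 35) (nat_lit 5) (nat_lit 306) (nat_lit 257) (nat_lit 157))))) (XT.nd (nat_lit 234) (nat_lit 304) (nat_lit 0) (XT.nd (nat_lit 78) (nat_lit 228) (nat_lit 0) (XT.lf (nat_lit 0) (nat_lit 32053617629) (nat_lit 228) (nat_lit 8845429283) (nat_lit 76) (nat_lit 4579139457) (nat_lit 32) (nat_lit 5) (nat_lit 35) (nat_lit 5) (nat_lit 33) (nat_lit 5) (nat_lit 307) (nat_lit 257) (nat_lit 156)) (XT.nd (nat_lit 78) (nat_lit 76) (nat_lit 0) (XT.lf (nat_lit 0) (nat_lit 17633167671) (nat_lit 152) (nat_lit 26401362777) (nat_lit 228) (nat_lit 3219799221) (nat_lit 30) (nat_lit 5) (nat_lit 32) (nat_lit 5) (nat_lit 33) (nat_lit 5) (nat_lit 308) (nat_lit 257) (nat_lit 155)) (XT.lf (nat_lit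 0) (nat_lit 7429926871) (nat_lit 228) (nat_lit 3587105417) (nat_lit 76) (nat_lit 38097665489) (nat_lit 29) (nat_lit 5) (nat_lit 32) (nat_lit 5) (nat_lit 30) (nat_lit 5) (nat_lit 309) (nat_lit 257) (nat_lit 154)))) (XT.nd (nat_lit 78) (nat_lit 152) (nat_lit 0) (XT.lf (nat_lit 0) (nat_lit 18819983802) (nat_lit 228) (nat_lit 26941863649) (nat_lit 76) (nat_lit 5297055411) (nat_lit 27) (nat_lit 5) (nat_lit 30) (nat_lit 5) (nat_lit 28) (nat_lit 5) (nat_lit 310) (nat_lit 257) (nat_lit 153)) (XT.nd (nat_lit 78) (nat_lit 0) (nat_lit 0) (XT.lf (nat_lit 0) (nat_lit 54610456) (nat_lit 152) (nat_lit 30863762004) (nat_lit 228) (nat_lit 22177788490) (nat_lit 25) (nat_lit 5) (nat_lit 27) (nat_lit 5) (nat_lit 28) (nat_lit 5) (nat_lit 311) (nat_lit 257) (nat_lit 152)) (XT.lf (nat_lit 0) (nat_lit 28947369594) (nat_lit 152) (nat_lit 14941794316) (nat_lit 228) (nat_lit 11338100785) (nat_lit 25) (nat_lit 5) (nat_lit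 27) (nat_lit 5) (nat_lit 28) (nat_lit 5) (nat_lit 312) (nat_lit 257) (nat_lit 151)))))) (XT.nd (nat_lit 390) (nat_lit 380) (nat_lit 0) (XT.nd (nat_lit 156) (nat_lit 152) (nat_lit 0) (XT.nd (nat_lit 78) (nat_lit 0) (nat_lit 0) (XT.lf (nat_lit 0) (nat_lit 68104264) (nat_lit 152) (nat_lit 55642498986) (nat_lit 76) (nat_lit 1753553023) (nat_lit 23) (nat_lit 5) (nat_lit 25) (nat_lit 5) (nat_lit 24) (nat_lit 5) (nat_lit 313) (nat_lit 257) (nat_lit 150)) (XT.lf (nat_lit 0) (nat_lit 12227080703) (nat_lit 152) (nat_lit 28210960824) (nat_lit 76) (nat_lit 19358981024) (nat_lit 23) (nat_lit 5) (nat_lit 25) (nat_lit 5) (nat_lit 24) (nat_lit 5) (nat_lit 314) (nat_lit 257) (nat_lit 149))) (XT.nd (nat_lit 78) (nat_lit 0) (nat_lit 0) (XT.lf (nat_lit 0) (nat_lit 588673570) (nat_lit 152) (nat_lit 24402184130) (nat_lit 228) (nat_lit 37255774973) (nat_lit 21) (nat_lit 5) (nat_lit 23) (nat_lit 5) (nat_lit 24)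 (nat_lit 5) (nat_lit 315) (nat_lit 257) (nat_lit 148)) (XT.nd (nat_lit 78) (nat_lit 0) (nat_lit 0) (XT.lf (nat_lit 0) (nat_lit 31403277027) (nat_lit 152) (nat_lit 7271426140) (nat_lit 228) (nat_lit 26135569540) (nat_lit 21) (nat_lit 5) (nat_lit 23) (nat_lit 5) (nat_lit 24) (nat_lit 5) (nat_lit 316) (nat_lit 257) (nat_lit 147)) (XT.lf (nat_lit 0) (nat_lit 53137572102) (nat_lit 228) (nat_lit 3860532147) (nat_lit 76) (nat_lit 10501151074) (nat_lit 21) (nat_lit 5) (nat_lit 24) (nat_lit 5) (nat_lit 22) (nat_lit 4) (nat_lit 317) (nat_lit 257) (nat_lit 146))))) (XT.nd (nat_lit 234) (nat_lit 76) (nat_lit 0) (XT.nd (nat_lit 78) (nat_lit 228) (nat_lit 0) (XT.lf (nat_lit 0) (nat_lit 27615365577) (nat_lit 76) (nat_lit 41039280006) (nat_lit 152) (nat_lit 1658114910) (nat_lit 20) (nat_lit 5) (nat_lit 21) (nat_lit 5) (nat_lit 22) (nat_lit 4) (nat_lit 318) (nat_lit 257) (nat_lit 145)) (XT.nd (nat_lit 78)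 (nat_lit 152) (nat_lit 0) (XT.lf (nat_lit 0) (nat_lit 11485214293) (nat_lit 152) (nat_lit 12645836779) (nat_lit 76) (nat_lit 49131550856) (nat_lit 19) (nat_lit 5) (nat_lit 21) (nat_lit 5) (nat_lit 20) (nat_lit 5) (nat_lit 319) (nat_lit 257) (nat_lit 144)) (XT.lf (nat_lit 0) (nat_lit 19254774283) (nat_lit 152) (nat_lit 6174793072) (nat_lit 228) (nat_lit 50924535705) (nat_lit 17) (nat_lit 5) (nat_lit 19) (nat_lit 5) (nat_lit 20) (nat_lit 5) (nat_lit 320) (nat_lit 257) (nat_lit 143)))) (XT.nd (nat_lit 78) (nat_lit 76) (nat_lit 0) (XT.lf (nat_lit 0) (nat_lit 40317407364) (nat_lit 228) (nat_lit 26717093400) (nat_lit 76) (nat_lit 12558294812) (nat_lit 17) (nat_lit 5) (nat_lit 20) (nat_lit 5) (nat_lit 18) (nat_lit 4) (nat_lit 321) (nat_lit 257) (nat_lit 142)) (XT.nd (nat_lit 78) (nat_lit 0) (nat_lit 0) (XT.lf (nat_lit 0) (nat_lit 5211893532) (nat_lit 76) (nat_lit 50843428193) (nat_lit 152) (nat_lit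 26934934720) (nat_lit 16) (nat_lit 5) (nat_lit 17) (nat_lit 5) (nat_lit 18) (nat_lit 4) (nat_lit 322) (nat_lit 257) (nat_lit 141)) (XT.lf (nat_lit 0) (nat_lit 39284235644) (nat_lit 76) (nat_lit 33564395224) (nat_lit 152) (nat_lit 13700908515) (nat_lit 16) (nat_lit 5) (nat_lit 17) (nat_lit 5) (nat_lit 18) (nat_lit 4) (nat_lit 323) (nat_lit 257) (nat_lit 140))))))))
noncomputable def xc83 : XT := (XT.nd (nat_lit 33618) (nat_lit 0) (nat_lit 3040) (XT.nd (nat_lit 32760) (nat_lit 0) (nat_lit 9880) (XT.nd (nat_lit 390) (nat_lit 0) (nat_lit 0) (XT.nd (nat_lit 156) (nat_lit 76) (nat_lit 0) (XT.nd (nat_lit 78) (nat_lit 152) (nat_lit 0) (XT.lf (nat_lit 0) (nat_lit 184733179) (nat_lit 152) (nat_lit 15239452938) (nat_lit 76) (nat_lit 74862736391) (nat_lit 15) (nat_lit 5) (nat_lit 17) (nat_lit 5) (nat_lit 16) (nat_lit 5) (nat_lit 324) (nat_lit 257) (nat_lit 139)) (XT.lf (nat_lit 0) (nat_lit 14694686697)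 (nat_lit 228) (nat_lit 75637839108) (nat_lit 76) (nat_lit 3868181361) (nat_lit 13) (nat_lit 5) (nat_lit 16) (nat_lit 5) (nat_lit 14) (nat_lit 4) (nat_lit 325) (nat_lit 257) (nat_lit 138))) (XT.nd (nat_lit 78) (nat_lit 76) (nat_lit 0) (XT.lf (nat_lit 0) (nat_lit 30238408240) (nat_lit 228) (nat_lit 44099243843) (nat_lit 76) (nat_lit 23963284216) (nat_lit 13) (nat_lit 5) (nat_lit 16) (nat_lit 5) (nat_lit 14) (nat_lit 4) (nat_lit 326) (nat_lit 257) (nat_lit 137)) (XT.nd (nat_lit 78) (nat_lit 76) (nat_lit 0) (XT.lf (nat_lit 0) (nat_lit 46553754284) (nat_lit 228) (nat_lit 10993528963) (nat_lit 76) (nat_lit 45059063682) (nat_lit 13) (nat_lit 5) (nat_lit 16) (nat_lit 5) (nat_lit 14) (nat_lit 4) (nat_lit 327) (nat_lit 257) (nat_lit 136)) (XT.lf (nat_lit 0) (nat_lit 24230962007) (nat_lit 76) (nat_lit 39681531712) (nat_lit 152) (nat_lit 43207708629) (nat_lit 12) (nat_lit 5) (nat_lit 13) (nat_lit 5)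 (nat_lit 14) (nat_lit 4) (nat_lit 328) (nat_lit 257) (nat_lit 135))))) (XT.nd (nat_lit 32136) (nat_lit 0) (nat_lit 12920) (XT.nd (nat_lit 31980) (nat_lit 0) (nat_lit 13908) (XT.lf (nat_lit 0) (nat_lit 61437334766) (nat_lit 76) (nat_lit 20809872292) (nat_lit 152) (nat_lit 29609305268) (nat_lit 12) (nat_lit 5) (nat_lit 13) (nat_lit 5) (nat_lit 14) (nat_lit 4) (nat_lit 329) (nat_lit 257) (nat_lit 134)) (XT.nd (nat_lit 78) (nat_lit 0) (nat_lit 0) (XT.lf (nat_lit 0) (nat_lit 1856715850) (nat_lit 0) (nat_lit 1856715850) (nat_lit 988) (nat_lit 1444206897) (nat_lit 195) (nat_lit 5) (nat_lit 195) (nat_lit 3) (nat_lit 208) (nat_lit 3) (nat_lit 258) (nat_lit 258) (nat_lit 204)) (XT.lf (nat_lit 76) (nat_lit 908105106) (nat_lit 0) (nat_lit 7744225649) (nat_lit 1064) (nat_lit 1887745990) (nat_lit 196) (nat_lit 5) (nat_lit 195) (nat_lit 5) (nat_lit 209) (nat_lit 5) (nat_lit 259) (nat_lit 258) (nat_lit 203))))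 (XT.nd (nat_lit 78) (nat_lit 988) (nat_lit 0) (XT.lf (nat_lit 76) (nat_lit 8858116336) (nat_lit 0) (nat_lit 1121747156) (nat_lit 1064) (nat_lit 795149906) (nat_lit 196) (nat_lit 5) (nat_lit 195) (nat_lit 5) (nat_lit 209) (nat_lit 5) (nat_lit 260) (nat_lit 258) (nat_lit 202)) (XT.nd (nat_lit 78) (nat_lit 0) (nat_lit 76) (XT.lf (nat_lit 0) (nat_lit 400468390) (nat_lit 1064) (nat_lit 4810688475) (nat_lit 1140) (nat_lit 5808892386) (nat_lit 182) (nat_lit 5) (nat_lit 196) (nat_lit 5) (nat_lit 197) (nat_lit 5) (nat_lit 261) (nat_lit 258) (nat_lit 201)) (XT.lf (nat_lit 0) (nat_lit 1663579011) (nat_lit 1064) (nat_lit 7776639169) (nat_lit 1140) (nat_lit 1836264299) (nat_lit 183) (nat_lit 5) (nat_lit 197) (nat_lit 5) (nat_lit 198) (nat_lit 5) (nat_lit 262) (nat_lit 258) (nat_lit 200)))))) (XT.nd (nat_lit 390) (nat_lit 3116) (nat_lit 0) (XT.nd (nat_lit 156) (nat_lit 0) (nat_lit 152) (XT.nd (nat_lit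 78) (nat_lit 0) (nat_lit 76) (XT.lf (nat_lit 76) (nat_lit 705918810) (nat_lit 0) (nat_lit 2336936583) (nat_lit 1140) (nat_lit 8501393055) (nat_lit 184) (nat_lit 5) (nat_lit 183) (nat_lit 5) (nat_lit 198) (nat_lit 5) (nat_lit 263) (nat_lit 258) (nat_lit 199)) (XT.lf (nat_lit 0) (nat_lit 4567302402) (nat_lit 1064) (nat_lit 2135692201) (nat_lit 1140) (nat_lit 5120218466) (nat_lit 184) (nat_lit 5) (nat_lit 198) (nat_lit 5) (nat_lit 199) (nat_lit 5) (nat_lit 264) (nat_lit 258) (nat_lit 198))) (XT.nd (nat_lit 78) (nat_lit 0) (nat_lit 0) (XT.lf (nat_lit 0) (nat_lit 6216703232) (nat_lit 1064) (nat_lit 5042715689) (nat_lit 1140) (nat_lit 855337015) (nat_lit 185) (nat_lit 5) (nat_lit 199) (nat_lit 5) (nat_lit 200) (nat_lit 5) (nat_lit 265) (nat_lit 258) (nat_lit 197)) (XT.nd (nat_lit 78) (nat_lit 0) (nat_lit 76) (XT.lf (nat_lit 76) (nat_lit 4344832359) (nat_lit 0) (nat_lit 3686303463) (nat_lit 1140)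 (nat_lit 4387350856) (nat_lit 186) (nat_lit 5) (nat_lit 185) (nat_lit 5) (nat_lit 200) (nat_lit 5) (nat_lit 266) (nat_lit 258) (nat_lit 196)) (XT.lf (nat_lit 76) (nat_lit 1522271834) (nat_lit 0) (nat_lit 8475120875) (nat_lit 1140) (nat_lit 2738261577) (nat_lit 187) (nat_lit 5) (nat_lit 186) (nat_lit 5) (nat_lit 201) (nat_lit 5) (nat_lit 267) (nat_lit 258) (nat_lit 195))))) (XT.nd (nat_lit 234) (nat_lit 1140) (nat_lit 0) (XT.nd (nat_lit 78) (nat_lit 2204) (nat_lit 0) (XT.lf (nat_lit 76) (nat_lit 11692623174) (nat_lit 0) (nat_lit 444224144) (nat_lit 1140) (nat_lit 929665849) (nat_lit 187) (nat_lit 5) (nat_lit 186) (nat_lit 5) (nat_lit 201) (nat_lit 5) (nat_lit 268) (nat_lit 258) (nat_lit 194)) (XT.nd (nat_lit 78) (nat_lit 1140) (nat_lit 0) (XT.lf (nat_lit 0) (nat_lit 1072226651) (nat_lit 1140) (nat_lit 4399925631) (nat_lit 76) (nat_lit 7937903141) (nat_lit 172) (nat_lit 5) (nat_lit 187) (nat_lit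 5) (nat_lit 173) (nat_lit 5) (nat_lit 269) (nat_lit 258) (nat_lit 193)) (XT.lf (nat_lit 0) (nat_lit 3221671005) (nat_lit 1216) (nat_lit 7554971927) (nat_lit 76) (nat_lit 2991925150) (nat_lit 157) (nat_lit 5) (nat_lit 173) (nat_lit 5) (nat_lit 158) (nat_lit 5) (nat_lit 270) (nat_lit 258) (nat_lit 192)))) (XT.nd (nat_lit 78) (nat_lit 608) (nat_lit 0) (XT.lf (nat_lit 0) (nat_lit 3278358784) (nat_lit 532) (nat_lit 2292801224) (nat_lit 608) (nat_lit 8571135817) (nat_lit 150) (nat_lit 5) (nat_lit 157) (nat_lit 5) (nat_lit 158) (nat_lit 5) (nat_lit 271) (nat_lit 258) (nat_lit 191)) (XT.nd (nat_lit 78) (nat_lit 0) (nat_lit 0) (XT.lf (nat_lit 0) (nat_lit 181804777) (nat_lit 608) (nat_lit 7961879637) (nat_lit 684) (nat_lit 6387922164) (nat_lit 142) (nat_lit 5) (nat_lit 150) (nat_lit 5) (nat_lit 151) (nat_lit 5) (nat_lit 272) (nat_lit 258) (nat_lit 190)) (XT.lf (nat_lit 0) (nat_lit 10952416377) (nat_lit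 684) (nat_lit 2999114036) (nat_lit 76) (nat_lit 985685445) (nat_lit 142) (nat_lit 5) (nat_lit 151) (nat_lit 5) (nat_lit 143) (nat_lit 5) (nat_lit 273) (nat_lit 258) (nat_lit 189))))))) (XT.nd (nat_lit 858) (nat_lit 2812) (nat_lit 0) (XT.nd (nat_lit 390) (nat_lit 1976) (nat_lit 0) (XT.nd (nat_lit 156) (nat_lit 912) (nat_lit 0) (XT.nd (nat_lit 78) (nat_lit 608) (nat_lit 0) (XT.lf (nat_lit 0) (nat_lit 8979316788) (nat_lit 532) (nat_lit 5053881035) (nat_lit 608) (nat_lit 1326016943) (nat_lit 135) (nat_lit 5) (nat_lit 142) (nat_lit 5) (nat_lit 143) (nat_lit 5) (nat_lit 274) (nat_lit 258) (nat_lit 188)) (XT.lf (nat_lit 0) (nat_lit 1532969169) (nat_lit 608) (nat_lit 9958576143) (nat_lit 76) (nat_lit 4307522877) (nat_lit 127) (nat_lit 5) (nat_lit 135) (nat_lit 5) (nat_lit 128) (nat_lit 5) (nat_lit 275) (nat_lit 258) (nat_lit 187))) (XT.nd (nat_lit 78) (nat_lit 456) (nat_lit 0) (XT.lf (nat_lit 0)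 (nat_lit 2495499788) (nat_lit 456) (nat_lit 2120752414) (nat_lit 532) (nat_lit 11641055745) (nat_lit 121) (nat_lit 5) (nat_lit 127) (nat_lit 5) (nat_lit 128) (nat_lit 5) (nat_lit 276) (nat_lit 258) (nat_lit 186)) (XT.nd (nat_lit 78) (nat_lit 456) (nat_lit 0) (XT.lf (nat_lit 0) (nat_lit 7999840332) (nat_lit 532) (nat_lit 1064631701) (nat_lit 76) (nat_lit 7669651699) (nat_lit 121) (nat_lit 5) (nat_lit 128) (nat_lit 5) (nat_lit 122) (nat_lit 5) (nat_lit 277) (nat_lit 258) (nat_lit 185)) (XT.lf (nat_lit 0) (nat_lit 11671289135) (nat_lit 532) (nat_lit 4782830332) (nat_lit 76) (nat_lit 777146370) (nat_lit 115) (nat_lit 5) (nat_lit 122) (nat_lit 5) (nat_lit 116) (nat_lit 5) (nat_lit 278) (nat_lit 258) (nat_lit 184))))) (XT.nd (nat_lit 234) (nat_lit 684) (nat_lit 0) (XT.nd (nat_lit 78) (nat_lit 912) (nat_lit 0) (XT.lf (nat_lit 0) (nat_lit 8956923851) (nat_lit 380) (nat_lit 6729061880) (nat_lit 456)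 (nat_lit 2062532835) (nat_lit 110) (nat_lit 5) (nat_lit 115) (nat_lit 5) (nat_lit 116) (nat_lit 5) (nat_lit 279) (nat_lit 258) (nat_lit 183)) (XT.nd (nat_lit 78) (nat_lit 380) (nat_lit 0) (XT.lf (nat_lit 0) (nat_lit 1684889009) (nat_lit 532) (nat_lit 13076129628) (nat_lit 76) (nat_lit 3526995996) (nat_lit 103) (nat_lit 5) (nat_lit 110) (nat_lit 5) (nat_lit 104) (nat_lit 5) (nat_lit 280) (nat_lit 258) (nat_lit 182)) (XT.lf (nat_lit 0) (nat_lit 1147980654) (nat_lit 380) (nat_lit 4572568220) (nat_lit 456) (nat_lit 13129056850) (nat_lit 98) (nat_lit 5) (nat_lit 103) (nat_lit 5) (nat_lit 104) (nat_lit 5) (nat_lit 281) (nat_lit 258) (nat_lit 181)))) (XT.nd (nat_lit 78) (nat_lit 684) (nat_lit 0) (XT.lf (nat_lit 0) (nat_lit 10126533505) (nat_lit 456) (nat_lit 3171026727) (nat_lit 76) (nat_lit 6136696602) (nat_lit 98) (nat_lit 5) (nat_lit 104) (nat_lit 5) (nat_lit 99) (nat_lit 5) (nat_lit 282) (nat_lit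 258) (nat_lit 180)) (XT.nd (nat_lit 78) (nat_lit 304) (nat_lit 0) (XT.lf (nat_lit 0) (nat_lit 12248364193) (nat_lit 380) (nat_lit 2643316968) (nat_lit 456) (nat_lit 5152328393) (nat_lit 93) (nat_lit 5) (nat_lit 98) (nat_lit 5) (nat_lit 99) (nat_lit 5) (nat_lit 283) (nat_lit 258) (nat_lit 179)) (XT.lf (nat_lit 0) (nat_lit 7862269352) (nat_lit 304) (nat_lit 12199311868) (nat_lit 380) (nat_lit 617707144) (nat_lit 89) (nat_lit 5) (nat_lit 93) (nat_lit 5) (nat_lit 94) (nat_lit 5) (nat_lit 284) (nat_lit 258) (nat_lit 178)))))) (XT.nd (nat_lit 468) (nat_lit 1368) (nat_lit 0) (XT.nd (nat_lit 234) (nat_lit 684) (nat_lit 0) (XT.nd (nat_lit 78) (nat_lit 304) (nat_lit 0) (XT.lf (nat_lit 0) (nat_lit 3084905415) (nat_lit 380) (nat_lit 1091690328) (nat_lit 456) (nat_lit 17165156987) (nat_lit 83) (nat_lit 5) (nat_lit 88) (nat_lit 5) (nat_lit 89) (nat_lit 5) (nat_lit 285) (nat_lit 258) (nat_lit 177)) (XT.nd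 (nat_lit 78) (nat_lit 304) (nat_lit 0) (XT.lf (nat_lit 0) (nat_lit 9410031790) (nat_lit 456) (nat_lit 2122613678) (nat_lit 76) (nat_lit 10498174902) (nat_lit 83) (nat_lit 5) (nat_lit 89) (nat_lit 5) (nat_lit 84) (nat_lit 5) (nat_lit 286) (nat_lit 258) (nat_lit 176)) (XT.lf (nat_lit 0) (nat_lit 15039668704) (nat_lit 380) (nat_lit 7677640858) (nat_lit 76) (nat_lit 33023888) (nat_lit 79) (nat_lit 5) (nat_lit 84) (nat_lit 5) (nat_lit 80) (nat_lit 5) (nat_lit 287) (nat_lit 258) (nat_lit 175)))) (XT.nd (nat_lit 78) (nat_lit 380) (nat_lit 0) (XT.lf (nat_lit 0) (nat_lit 9711653101) (nat_lit 304) (nat_lit 11449956894) (nat_lit 380) (nat_lit 2337914115) (nat_lit 75) (nat_lit 5) (nat_lit 79) (nat_lit 5) (nat_lit 80) (nat_lit 5) (nat_lit 288) (nat_lit 258) (nat_lit 174)) (XT.nd (nat_lit 78) (nat_lit 0) (nat_lit 0) (XT.lf (nat_lit 0) (nat_lit 3340525764) (nat_lit 380) (nat_lit 20425357137) (nat_lit 76)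 (nat_lit 516317916) (nat_lit 70) (nat_lit 5) (nat_lit 75) (nat_lit 5) (nat_lit 71) (nat_lit 5) (nat_lit 289) (nat_lit 258) (nat_lit 173)) (XT.lf (nat_lit 0) (nat_lit 9494049133) (nat_lit 380) (nat_lit 2595968756) (nat_lit 76) (nat_lit 13006137071) (nat_lit 70) (nat_lit 5) (nat_lit 75) (nat_lit 5) (nat_lit 71) (nat_lit 5) (nat_lit 290) (nat_lit 258) (nat_lit 172))))) (XT.nd (nat_lit 234) (nat_lit 456) (nat_lit 0) (XT.nd (nat_lit 78) (nat_lit 608) (nat_lit 0) (XT.lf (nat_lit 0) (nat_lit 16097303215) (nat_lit 380) (nat_lit 9530753560) (nat_lit 76) (nat_lit 318510709) (nat_lit 66) (nat_lit 5) (nat_lit 71) (nat_lit 5) (nat_lit 67) (nat_lit 5) (nat_lit 291) (nat_lit 258) (nat_lit 171)) (XT.nd (nat_lit 78) (nat_lit 380) (nat_lit 0) (XT.lf (nat_lit 0) (nat_lit 9633426256) (nat_lit 228) (nat_lit 13620598540) (nat_lit 304) (nat_lit 3578797941) (nat_lit 63) (nat_lit 5) (nat_lit 66) (nat_lit 5) (nat_lit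 67) (nat_lit 5) (nat_lit 292) (nat_lit 258) (nat_lit 170)) (XT.lf (nat_lit 0) (nat_lit 2181614743) (nat_lit 304) (nat_lit 867109442) (nat_lit 380) (nat_lit 24710754344) (nat_lit 58) (nat_lit 5) (nat_lit 62) (nat_lit 5) (nat_lit 63) (nat_lit 5) (nat_lit 293) (nat_lit 258) (nat_lit 169)))) (XT.nd (nat_lit 78) (nat_lit 456) (nat_lit 0) (XT.lf (nat_lit 0) (nat_lit 10216150110) (nat_lit 380) (nat_lit 6019684081) (nat_lit 76) (nat_lit 12487112340) (nat_lit 58) (nat_lit 5) (nat_lit 63) (nat_lit 5) (nat_lit 59) (nat_lit 5) (nat_lit 294) (nat_lit 258) (nat_lit 168)) (XT.nd (nat_lit 78) (nat_lit 228) (nat_lit 0) (XT.lf (nat_lit 0) (nat_lit 14771751953) (nat_lit 228) (nat_lit 3104428356) (nat_lit 304) (nat_lit 11854398453) (nat_lit 55) (nat_lit 5) (nat_lit 58) (nat_lit 5) (nat_lit 59) (nat_lit 5) (nat_lit 295) (nat_lit 258) (nat_lit 167)) (XT.lf (nat_lit 0) (nat_lit 5930350111) (nat_lit 228) (nat_lit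 20195120391) (nat_lit 304) (nat_lit 4656951320) (nat_lit 52) (nat_lit 5) (nat_lit 55) (nat_lit 5) (nat_lit 56) (nat_lit 5) (nat_lit 296) (nat_lit 258) (nat_lit 166))))))))
noncomputable def xc84 : XT := (XT.nd (nat_lit 1716) (nat_lit 684) (nat_lit 0) (XT.nd (nat_lit 858) (nat_lit 836) (nat_lit 0) (XT.nd (nat_lit 390) (nat_lit 760) (nat_lit 0) (XT.nd (nat_lit 156) (nat_lit 456) (nat_lit 0) (XT.nd (nat_lit 78) (nat_lit 228) (nat_lit 0) (XT.lf (nat_lit 0) (nat_lit 3014963460) (nat_lit 304) (nat_lit 3789919143) (nat_lit 76) (nat_lit 25076017962) (nat_lit 51) (nat_lit 5) (nat_lit 55) (nat_lit 5) (nat_lit 52) (nat_lit 5) (nat_lit 297) (nat_lit 258) (nat_lit 165)) (XT.lf (nat_lit 0) (nat_lit 11211030818) (nat_lit 304) (nat_lit 14480627805) (nat_lit 76) (nat_lit 7334170223) (nat_lit 48) (nat_lit 5) (nat_lit 52) (nat_lit 5) (nat_lit 49) (nat_lit 5) (nat_lit 298) (nat_lit 258) (nat_lit 164))) (XT.nd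 (nat_lit 78) (nat_lit 228) (nat_lit 0) (XT.lf (nat_lit 0) (nat_lit 7912638787) (nat_lit 228) (nat_lit 12073928491) (nat_lit 304) (nat_lit 14236360524) (nat_lit 45) (nat_lit 5) (nat_lit 48) (nat_lit 5) (nat_lit 49) (nat_lit 5) (nat_lit 299) (nat_lit 258) (nat_lit 163)) (XT.nd (nat_lit 78) (nat_lit 228) (nat_lit 0) (XT.lf (nat_lit 0) (nat_lit 29358738536) (nat_lit 304) (nat_lit 3791964124) (nat_lit 76) (nat_lit 2324456862) (nat_lit 45) (nat_lit 5) (nat_lit 49) (nat_lit 5) (nat_lit 46) (nat_lit 5) (nat_lit 300) (nat_lit 258) (nat_lit 162)) (XT.lf (nat_lit 0) (nat_lit 2667169647) (nat_lit 228) (nat_lit 16705265623) (nat_lit 76) (nat_lit 17407745065) (nat_lit 42) (nat_lit 5) (nat_lit 45) (nat_lit 5) (nat_lit 43) (nat_lit 5) (nat_lit 301) (nat_lit 258) (nat_lit 161))))) (XT.nd (nat_lit 234) (nat_lit 380) (nat_lit 0) (XT.nd (nat_lit 78) (nat_lit 152) (nat_lit 0) (XT.lf (nat_lit 0) (nat_lit 7121442090)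 (nat_lit 228) (nat_lit 4737958632) (nat_lit 304) (nat_lit 26286367911) (nat_lit 39) (nat_lit 5) (nat_lit 42) (nat_lit 5) (nat_lit 43) (nat_lit 5) (nat_lit 302) (nat_lit 258) (nat_lit 160)) (XT.nd (nat_lit 78) (nat_lit 152) (nat_lit 0) (XT.lf (nat_lit 0) (nat_lit 21774344527) (nat_lit 304) (nat_lit 7210002167) (nat_lit 76) (nat_lit 10587407985) (nat_lit 39) (nat_lit 5) (nat_lit 43) (nat_lit 5) (nat_lit 40) (nat_lit 5) (nat_lit 303) (nat_lit 258) (nat_lit 159)) (XT.lf (nat_lit 0) (nat_lit 18080768347) (nat_lit 152) (nat_lit 14313765670) (nat_lit 228) (nat_lit 8668231881) (nat_lit 37) (nat_lit 5) (nat_lit 39) (nat_lit 5) (nat_lit 40) (nat_lit 5) (nat_lit 304) (nat_lit 258) (nat_lit 158)))) (XT.nd (nat_lit 78) (nat_lit 152) (nat_lit 0) (XT.lf (nat_lit 0) (nat_lit 994956244) (nat_lit 228) (nat_lit 40462441215) (nat_lit 76) (nat_lit 1167812086) (nat_lit 34) (nat_lit 5) (nat_lit 37) (nat_lit 5)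 (nat_lit 35) (nat_lit 5) (nat_lit 305) (nat_lit 258) (nat_lit 157)) (XT.nd (nat_lit 78) (nat_lit 152) (nat_lit 0) (XT.lf (nat_lit 0) (nat_lit 11335557635) (nat_lit 228) (nat_lit 15466660948) (nat_lit 76) (nat_lit 17449785819) (nat_lit 34) (nat_lit 5) (nat_lit 37) (nat_lit 5) (nat_lit 35) (nat_lit 5) (nat_lit 306) (nat_lit 258) (nat_lit 156)) (XT.lf (nat_lit 0) (nat_lit 10975259581) (nat_lit 152) (nat_lit 11312445320) (nat_lit 228) (nat_lit 23669607707) (nat_lit 32) (nat_lit 5) (nat_lit 34) (nat_lit 5) (nat_lit 35) (nat_lit 5) (nat_lit 307) (nat_lit 258) (nat_lit 155)))))) (XT.nd (nat_lit 390) (nat_lit 304) (nat_lit 0) (XT.nd (nat_lit 156) (nat_lit 380) (nat_lit 0) (XT.nd (nat_lit 78) (nat_lit 152) (nat_lit 0) (XT.lf (nat_lit 0) (nat_lit 33985158915) (nat_lit 228) (nat_lit 8747370412) (nat_lit 76) (nat_lit 5009434564) (nat_lit 32) (nat_lit 5) (nat_lit 35) (nat_lit 5) (nat_lit 33) (nat_lit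 5) (nat_lit 308) (nat_lit 258) (nat_lit 154)) (XT.lf (nat_lit 0) (nat_lit 19039667930) (nat_lit 152) (nat_lit 27514834528) (nat_lit 228) (nat_lit 3052743013) (nat_lit 30) (nat_lit 5) (nat_lit 32) (nat_lit 5) (nat_lit 33) (nat_lit 5) (nat_lit 309) (nat_lit 258) (nat_lit 153))) (XT.nd (nat_lit 78) (nat_lit 304) (nat_lit 0) (XT.lf (nat_lit 0) (nat_lit 8107751602) (nat_lit 228) (nat_lit 3260280518) (nat_lit 76) (nat_lit 40192976464) (nat_lit 29) (nat_lit 5) (nat_lit 32) (nat_lit 5) (nat_lit 30) (nat_lit 5) (nat_lit 310) (nat_lit 258) (nat_lit 152)) (XT.nd (nat_lit 78) (nat_lit 152) (nat_lit 0) (XT.lf (nat_lit 0) (nat_lit 20059326964) (nat_lit 228) (nat_lit 27790045524) (nat_lit 76) (nat_lit 5753302122) (nat_lit 27) (nat_lit 5) (nat_lit 30) (nat_lit 5) (nat_lit 28) (nat_lit 5) (nat_lit 311) (nat_lit 258) (nat_lit 151)) (XT.lf (nat_lit 0) (nat_lit 541951093) (nat_lit 152) (nat_lit 32211135474)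 (nat_lit 228) (nat_lit 22989006113) (nat_lit 25) (nat_lit 5) (nat_lit 27) (nat_lit 5) (nat_lit 28) (nat_lit 5) (nat_lit 312) (nat_lit 258) (nat_lit 150))))) (XT.nd (nat_lit 234) (nat_lit 152) (nat_lit 0) (XT.nd (nat_lit 78) (nat_lit 152) (nat_lit 0) (XT.lf (nat_lit 0) (nat_lit 30856271516) (nat_lit 152) (nat_lit 15502393909) (nat_lit 228) (nat_lit 11621508870) (nat_lit 25) (nat_lit 5) (nat_lit 27) (nat_lit 5) (nat_lit 28) (nat_lit 5) (nat_lit 313) (nat_lit 258) (nat_lit 149)) (XT.nd (nat_lit 78) (nat_lit 0) (nat_lit 0) (XT.lf (nat_lit 0) (nat_lit 342377003) (nat_lit 152) (nat_lit 57964272331) (nat_lit 76) (nat_lit 2022401639) (nat_lit 23) (nat_lit 5) (nat_lit 25) (nat_lit 5) (nat_lit 24) (nat_lit 5) (nat_lit 314) (nat_lit 258) (nat_lit 148)) (XT.lf (nat_lit 0) (nat_lit 13096403811) (nat_lit 152) (nat_lit 29183078766) (nat_lit 76) (nat_lit 20499473851) (nat_lit 23) (nat_lit 5) (nat_lit 25)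 (nat_lit 5) (nat_lit 24) (nat_lit 5) (nat_lit 315) (nat_lit 258) (nat_lit 147)))) (XT.nd (nat_lit 78) (nat_lit 0) (nat_lit 0) (XT.lf (nat_lit 0) (nat_lit 1043969838) (nat_lit 152) (nat_lit 25446209230) (nat_lit 228) (nat_lit 38861122191) (nat_lit 21) (nat_lit 5) (nat_lit 23) (nat_lit 5) (nat_lit 24) (nat_lit 5) (nat_lit 316) (nat_lit 258) (nat_lit 146)) (XT.nd (nat_lit 78) (nat_lit 0) (nat_lit 0) (XT.lf (nat_lit 0) (nat_lit 33379024296) (nat_lit 152) (nat_lit 7467298298) (nat_lit 228) (nat_lit 27197165606) (nat_lit 21) (nat_lit 5) (nat_lit 23) (nat_lit 5) (nat_lit 24) (nat_lit 5) (nat_lit 317) (nat_lit 258) (nat_lit 145)) (XT.lf (nat_lit 0) (nat_lit 56022542418) (nat_lit 228) (nat_lit 3661873485) (nat_lit 76) (nat_lit 11182805518) (nat_lit 21) (nat_lit 5) (nat_lit 24) (nat_lit 5) (nat_lit 22) (nat_lit 4) (nat_lit 318) (nat_lit 258) (nat_lit 144))))))) (XT.nd (nat_lit 32838) (nat_lit 0) (nat_lit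 12084) (XT.nd (nat_lit 390) (nat_lit 304) (nat_lit 0) (XT.nd (nat_lit 156) (nat_lit 228) (nat_lit 0) (XT.nd (nat_lit 78) (nat_lit 76) (nat_lit 0) (XT.lf (nat_lit 0) (nat_lit 29376591546) (nat_lit 76) (nat_lit 42931673710) (nat_lit 152) (nat_lit 1513360053) (nat_lit 20) (nat_lit 5) (nat_lit 21) (nat_lit 5) (nat_lit 22) (nat_lit 4) (nat_lit 319) (nat_lit 258) (nat_lit 143)) (XT.lf (nat_lit 0) (nat_lit 12272063697) (nat_lit 152) (nat_lit 12911421488) (nat_lit 76) (nat_lit 51735733637) (nat_lit 19) (nat_lit 5) (nat_lit 21) (nat_lit 5) (nat_lit 20) (nat_lit 5) (nat_lit 320) (nat_lit 258) (nat_lit 142))) (XT.nd (nat_lit 78) (nat_lit 76) (nat_lit 0) (XT.lf (nat_lit 0) (nat_lit 20573708541) (nat_lit 152) (nat_lit 6333226570) (nat_lit 228) (nat_lit 53258567333) (nat_lit 17) (nat_lit 5) (nat_lit 19) (nat_lit 5) (nat_lit 20) (nat_lit 5) (nat_lit 321) (nat_lit 258) (nat_lit 141)) (XT.nd (nat_lit 78)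 (nat_lit 76) (nat_lit 0) (XT.lf (nat_lit 0) (nat_lit 42530738897) (nat_lit 228) (nat_lit 27709084757) (nat_lit 76) (nat_lit 13326564926) (nat_lit 17) (nat_lit 5) (nat_lit 20) (nat_lit 5) (nat_lit 18) (nat_lit 4) (nat_lit 322) (nat_lit 258) (nat_lit 140)) (XT.lf (nat_lit 0) (nat_lit 5806494749) (nat_lit 76) (nat_lit 53242861990) (nat_lit 152) (nat_lit 28084557375) (nat_lit 16) (nat_lit 5) (nat_lit 17) (nat_lit 5) (nat_lit 18) (nat_lit 4) (nat_lit 323) (nat_lit 258) (nat_lit 139))))) (XT.nd (nat_lit 234) (nat_lit 76) (nat_lit 0) (XT.nd (nat_lit 78) (nat_lit 228) (nat_lit 0) (XT.lf (nat_lit 0) (nat_lit 41566548893) (nat_lit 76) (nat_lit 35106674402) (nat_lit 152) (nat_lit 14198216721) (nat_lit 16) (nat_lit 5) (nat_lit 17) (nat_lit 5) (nat_lit 18) (nat_lit 4) (nat_lit 324) (nat_lit 258) (nat_lit 138)) (XT.nd (nat_lit 78) (nat_lit 152) (nat_lit 0) (XT.lf (nat_lit 0) (nat_lit 369278210) (nat_lit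 152) (nat_lit 15694879720) (nat_lit 76) (nat_lit 78731748345) (nat_lit 15) (nat_lit 5) (nat_lit 17) (nat_lit 5) (nat_lit 16) (nat_lit 5) (nat_lit 325) (nat_lit 258) (nat_lit 137)) (XT.lf (nat_lit 0) (nat_lit 15600473427) (nat_lit 228) (nat_lit 79118009199) (nat_lit 76) (nat_lit 4187030129) (nat_lit 13) (nat_lit 5) (nat_lit 16) (nat_lit 5) (nat_lit 14) (nat_lit 4) (nat_lit 326) (nat_lit 258) (nat_lit 136)))) (XT.nd (nat_lit 78) (nat_lit 76) (nat_lit 0) (XT.lf (nat_lit 0) (nat_lit 31913235695) (nat_lit 228) (nat_lit 46016851879) (nat_lit 76) (nat_lit 25280914807) (nat_lit 13) (nat_lit 5) (nat_lit 16) (nat_lit 5) (nat_lit 14) (nat_lit 4) (nat_lit 327) (nat_lit 258) (nat_lit 135)) (XT.nd (nat_lit 78) (nat_lit 76) (nat_lit 0) (XT.lf (nat_lit 0) (nat_lit 49036591563) (nat_lit 228) (nat_lit 11269534786) (nat_lit 76) (nat_lit 47425794372) (nat_lit 13) (nat_lit 5) (nat_lit 16) (nat_lit 5) (nat_lit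 14) (nat_lit 4) (nat_lit 328) (nat_lit 258) (nat_lit 134)) (XT.lf (nat_lit 0) (nat_lit 25708336019) (nat_lit 76) (nat_lit 41550099158) (nat_lit 152) (nat_lit 45213182959) (nat_lit 12) (nat_lit 5) (nat_lit 13) (nat_lit 5) (nat_lit 14) (nat_lit 4) (nat_lit 329) (nat_lit 258) (nat_lit 133)))))) (XT.nd (nat_lit 390) (nat_lit 760) (nat_lit 0) (XT.nd (nat_lit 156) (nat_lit 1064) (nat_lit 0) (XT.nd (nat_lit 78) (nat_lit 0) (nat_lit 0) (XT.lf (nat_lit 0) (nat_lit 2443586923) (nat_lit 0) (nat_lit 2443586923) (nat_lit 988) (nat_lit 496845541) (nat_lit 195) (nat_lit 5) (nat_lit 195) (nat_lit 3) (nat_lit 208) (nat_lit 3) (nat_lit 259) (nat_lit 259) (nat_lit 202)) (XT.lf (nat_lit 76) (nat_lit 1983680092) (nat_lit 0) (nat_lit 8984163328) (nat_lit 1064) (nat_lit 39209280) (nat_lit 196) (nat_lit 5) (nat_lit 195) (nat_lit 5) (nat_lit 209) (nat_lit 5) (nat_lit 260) (nat_lit 259) (nat_lit 201))) (XT.nd (nat_lit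 78) (nat_lit 0) (nat_lit 76) (XT.lf (nat_lit 0) (nat_lit 995680423) (nat_lit 1064) (nat_lit 984220048) (nat_lit 1140) (nat_lit 9276401339) (nat_lit 181) (nat_lit 5) (nat_lit 195) (nat_lit 5) (nat_lit 196) (nat_lit 5) (nat_lit 261) (nat_lit 259) (nat_lit 200)) (XT.nd (nat_lit 78) (nat_lit 0) (nat_lit 76) (XT.lf (nat_lit 0) (nat_lit 2150748200) (nat_lit 1064) (nat_lit 3997565085) (nat_lit 1140) (nat_lit 5367712495) (nat_lit 182) (nat_lit 5) (nat_lit 196) (nat_lit 5) (nat_lit 197) (nat_lit 5) (nat_lit 262) (nat_lit 259) (nat_lit 199)) (XT.lf (nat_lit 0) (nat_lit 3398362503) (nat_lit 1064) (nat_lit 7083218645) (nat_lit 1140) (nat_lit 1306207565) (nat_lit 183) (nat_lit 5) (nat_lit 197) (nat_lit 5) (nat_lit 198) (nat_lit 5) (nat_lit 263) (nat_lit 259) (nat_lit 198))))) (XT.nd (nat_lit 234) (nat_lit 912) (nat_lit 0) (XT.nd (nat_lit 78) (nat_lit 0) (nat_lit 76) (XT.lf (nat_lit 76) (nat_lit 1792444682)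 (nat_lit 0) (nat_lit 2985615251) (nat_lit 1140) (nat_lit 7293080747) (nat_lit 184) (nat_lit 5) (nat_lit 183) (nat_lit 5) (nat_lit 198) (nat_lit 5) (nat_lit 264) (nat_lit 259) (nat_lit 197)) (XT.nd (nat_lit 78) (nat_lit 0) (nat_lit 76) (XT.lf (nat_lit 0) (nat_lit 6298476548) (nat_lit 1064) (nat_lit 1188512607) (nat_lit 1140) (nat_lit 4879606642) (nat_lit 184) (nat_lit 5) (nat_lit 198) (nat_lit 5) (nat_lit 199) (nat_lit 5) (nat_lit 265) (nat_lit 259) (nat_lit 196)) (XT.lf (nat_lit 0) (nat_lit 7964614340) (nat_lit 1064) (nat_lit 4221289248) (nat_lit 1140) (nat_lit 488912482) (nat_lit 185) (nat_lit 5) (nat_lit 199) (nat_lit 5) (nat_lit 200) (nat_lit 5) (nat_lit 266) (nat_lit 259) (nat_lit 195)))) (XT.nd (nat_lit 78) (nat_lit 1064) (nat_lit 0) (XT.lf (nat_lit 76) (nat_lit 5604862757) (nat_lit 0) (nat_lit 4206497538) (nat_lit 1140) (nat_lit 3184247461) (nat_lit 186) (nat_lit 5) (nat_lit 185) (nat_lit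 5) (nat_lit 200) (nat_lit 5) (nat_lit 267) (nat_lit 259) (nat_lit 194)) (XT.nd (nat_lit 78) (nat_lit 1140) (nat_lit 0) (XT.lf (nat_lit 76) (nat_lit 2656966642) (nat_lit 0) (nat_lit 9160413346) (nat_lit 1140) (nat_lit 1513126603) (nat_lit 187) (nat_lit 5) (nat_lit 186) (nat_lit 5) (nat_lit 201) (nat_lit 5) (nat_lit 268) (nat_lit 259) (nat_lit 193)) (XT.lf (nat_lit 0) (nat_lit 314774843) (nat_lit 1140) (nat_lit 397564211) (nat_lit 1216) (nat_lit 12967473468) (nat_lit 171) (nat_lit 5) (nat_lit 186) (nat_lit 5) (nat_lit 187) (nat_lit 5) (nat_lit 269) (nat_lit 259) (nat_lit 192))))))))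
noncomputable def xc85 : XT := (XT.nd (nat_lit 1716) (nat_lit 3420) (nat_lit 0) (XT.nd (nat_lit 858) (nat_lit 3040) (nat_lit 0) (XT.nd (nat_lit 390) (nat_lit 2432) (nat_lit 0) (XT.nd (nat_lit 156) (nat_lit 1140) (nat_lit 0) (XT.nd (nat_lit 78) (nat_lit 1140) (nat_lit 0) (XT.lf (nat_lit 0) (nat_lit 2344751086) (nat_lit 1140) (nat_lit 3573225823) (nat_lit 76) (nat_lit 8123964815) (nat_lit 172) (nat_lit 5) (nat_lit 187) (nat_lit 5) (nat_lit 173) (nat_lit 5) (nat_lit 270) (nat_lit 259) (nat_lit 191)) (XT.lf (nat_lit 0) (nat_lit 4551917389) (nat_lit 1216) (nat_lit 6877477124) (nat_lit 76) (nat_lit 2990575587) (nat_lit 157) (nat_lit 5) (nat_lit 173) (nat_lit 5) (nat_lit 158) (nat_lit 5) (nat_lit 271) (nat_lit 259) (nat_lit 190))) (XT.nd (nat_lit 78) (nat_lit 608) (nat_lit 0) (XT.lf (nat_lit 0) (nat_lit 4467271782) (nat_lit 532) (nat_lit 2505787519) (nat_lit 608) (nat_lit 7840792504) (nat_lit 150)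 (nat_lit 5) (nat_lit 157) (nat_lit 5) (nat_lit 158) (nat_lit 5) (nat_lit 272) (nat_lit 259) (nat_lit 189)) (XT.nd (nat_lit 78) (nat_lit 0) (nat_lit 0) (XT.lf (nat_lit 0) (nat_lit 1221966588) (nat_lit 608) (nat_lit 8407761841) (nat_lit 684) (nat_lit 5594322615) (nat_lit 142) (nat_lit 5) (nat_lit 150) (nat_lit 5) (nat_lit 151) (nat_lit 5) (nat_lit 273) (nat_lit 259) (nat_lit 188)) (XT.lf (nat_lit 0) (nat_lit 12527085219) (nat_lit 684) (nat_lit 2134148972) (nat_lit 76) (nat_lit 990345239) (nat_lit 142) (nat_lit 5) (nat_lit 151) (nat_lit 5) (nat_lit 143) (nat_lit 5) (nat_lit 274) (nat_lit 259) (nat_lit 187))))) (XT.nd (nat_lit 234) (nat_lit 836) (nat_lit 0) (XT.nd (nat_lit 78) (nat_lit 1064) (nat_lit 0) (XT.lf (nat_lit 0) (nat_lit 10414110894) (nat_lit 532) (nat_lit 5308364179) (nat_lit 608) (nat_lit 373466406) (nat_lit 135) (nat_lit 5) (nat_lit 142) (nat_lit 5) (nat_lit 143) (nat_lit 5) (nat_lit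 275) (nat_lit 259) (nat_lit 186)) (XT.nd (nat_lit 78) (nat_lit 456) (nat_lit 0) (XT.lf (nat_lit 0) (nat_lit 2570591580) (nat_lit 608) (nat_lit 9447970056) (nat_lit 76) (nat_lit 4540146226) (nat_lit 127) (nat_lit 5) (nat_lit 135) (nat_lit 5) (nat_lit 128) (nat_lit 5) (nat_lit 276) (nat_lit 259) (nat_lit 185)) (XT.lf (nat_lit 0) (nat_lit 3599900221) (nat_lit 456) (nat_lit 2171794639) (nat_lit 532) (nat_lit 11269325758) (nat_lit 121) (nat_lit 5) (nat_lit 127) (nat_lit 5) (nat_lit 128) (nat_lit 5) (nat_lit 277) (nat_lit 259) (nat_lit 184)))) (XT.nd (nat_lit 78) (nat_lit 836) (nat_lit 0) (XT.lf (nat_lit 0) (nat_lit 9280935869) (nat_lit 532) (nat_lit 157625647) (nat_lit 76) (nat_lit 8104488796) (nat_lit 121) (nat_lit 5) (nat_lit 128) (nat_lit 5) (nat_lit 122) (nat_lit 5) (nat_lit 278) (nat_lit 259) (nat_lit 183)) (XT.nd (nat_lit 78) (nat_lit 380) (nat_lit 0) (XT.lf (nat_lit 0) (nat_lit 13103778839)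 (nat_lit 532) (nat_lit 4063346719) (nat_lit 76) (nat_lit 898953431) (nat_lit 115) (nat_lit 5) (nat_lit 122) (nat_lit 5) (nat_lit 116) (nat_lit 5) (nat_lit 279) (nat_lit 259) (nat_lit 182)) (XT.lf (nat_lit 0) (nat_lit 10335916376) (nat_lit 380) (nat_lit 6951819625) (nat_lit 456) (nat_lit 1322463648) (nat_lit 110) (nat_lit 5) (nat_lit 115) (nat_lit 5) (nat_lit 116) (nat_lit 5) (nat_lit 280) (nat_lit 259) (nat_lit 181)))))) (XT.nd (nat_lit 390) (nat_lit 1368) (nat_lit 0) (XT.nd (nat_lit 156) (nat_lit 760) (nat_lit 0) (XT.nd (nat_lit 78) (nat_lit 380) (nat_lit 0) (XT.lf (nat_lit 0) (nat_lit 2566570717) (nat_lit 532) (nat_lit 12784535762) (nat_lit 76) (nat_lit 3826256488) (nat_lit 103) (nat_lit 5) (nat_lit 110) (nat_lit 5) (nat_lit 104) (nat_lit 5) (nat_lit 281) (nat_lit 259) (nat_lit 180)) (XT.lf (nat_lit 0) (nat_lit 2123680323) (nat_lit 380) (nat_lit 4651187317) (nat_lit 456) (nat_lit 12993094126)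 (nat_lit 98) (nat_lit 5) (nat_lit 103) (nat_lit 5) (nat_lit 104) (nat_lit 5) (nat_lit 282) (nat_lit 259) (nat_lit 179))) (XT.nd (nat_lit 78) (nat_lit 760) (nat_lit 0) (XT.lf (nat_lit 0) (nat_lit 11365939517) (nat_lit 456) (nat_lit 2433403874) (nat_lit 76) (nat_lit 6583609614) (nat_lit 98) (nat_lit 5) (nat_lit 104) (nat_lit 5) (nat_lit 99) (nat_lit 5) (nat_lit 283) (nat_lit 259) (nat_lit 178)) (XT.nd (nat_lit 78) (nat_lit 380) (nat_lit 0) (XT.lf (nat_lit 0) (nat_lit 13731267938) (nat_lit 380) (nat_lit 2611535717) (nat_lit 456) (nat_lit 4681234709) (nat_lit 93) (nat_lit 5) (nat_lit 98) (nat_lit 5) (nat_lit 99) (nat_lit 5) (nat_lit 284) (nat_lit 259) (nat_lit 177)) (XT.lf (nat_lit 0) (nat_lit 54449107) (nat_lit 380) (nat_lit 12571454696) (nat_lit 76) (nat_lit 9065922462) (nat_lit 88) (nat_lit 5) (nat_lit 93) (nat_lit 5) (nat_lit 89) (nat_lit 5) (nat_lit 285) (nat_lit 259) (nat_lit 176))))) (XT.nd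 (nat_lit 234) (nat_lit 684) (nat_lit 0) (XT.nd (nat_lit 78) (nat_lit 304) (nat_lit 0) (XT.lf (nat_lit 0) (nat_lit 4094101085) (nat_lit 380) (nat_lit 957052497) (nat_lit 456) (nat_lit 17336855894) (nat_lit 83) (nat_lit 5) (nat_lit 88) (nat_lit 5) (nat_lit 89) (nat_lit 5) (nat_lit 286) (nat_lit 259) (nat_lit 175)) (XT.nd (nat_lit 78) (nat_lit 304) (nat_lit 0) (XT.lf (nat_lit 0) (nat_lit 10516292401) (nat_lit 456) (nat_lit 1396399249) (nat_lit 76) (nat_lit 11199778825) (nat_lit 83) (nat_lit 5) (nat_lit 89) (nat_lit 5) (nat_lit 84) (nat_lit 5) (nat_lit 287) (nat_lit 259) (nat_lit 174)) (XT.lf (nat_lit 0) (nat_lit 16406785252) (nat_lit 380) (nat_lit 7235736585) (nat_lit 76) (nat_lit 226095110) (nat_lit 79) (nat_lit 5) (nat_lit 84) (nat_lit 5) (nat_lit 80) (nat_lit 5) (nat_lit 288) (nat_lit 259) (nat_lit 173)))) (XT.nd (nat_lit 78) (nat_lit 380) (nat_lit 0) (XT.lf (nat_lit 0) (nat_lit 10999351073)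 (nat_lit 304) (nat_lit 11813890905) (nat_lit 380) (nat_lit 1842709715) (nat_lit 75) (nat_lit 5) (nat_lit 79) (nat_lit 5) (nat_lit 80) (nat_lit 5) (nat_lit 289) (nat_lit 259) (nat_lit 172)) (XT.nd (nat_lit 78) (nat_lit 0) (nat_lit 0) (XT.lf (nat_lit 0) (nat_lit 4088776868) (nat_lit 380) (nat_lit 20639178926) (nat_lit 76) (nat_lit 750232163) (nat_lit 70) (nat_lit 5) (nat_lit 75) (nat_lit 5) (nat_lit 71) (nat_lit 5) (nat_lit 290) (nat_lit 259) (nat_lit 171)) (XT.lf (nat_lit 0) (nat_lit 10522299034) (nat_lit 380) (nat_lit 1956770939) (nat_lit 76) (nat_lit 13854632830) (nat_lit 70) (nat_lit 5) (nat_lit 75) (nat_lit 5) (nat_lit 71) (nat_lit 5) (nat_lit 291) (nat_lit 259) (nat_lit 170))))))) (XT.nd (nat_lit 858) (nat_lit 1292) (nat_lit 0) (XT.nd (nat_lit 390) (nat_lit 988) (nat_lit 0) (XT.nd (nat_lit 156) (nat_lit 608) (nat_lit 0) (XT.nd (nat_lit 78) (nat_lit 228) (nat_lit 0) (XT.lf (nat_lit 0)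 (nat_lit 17438580085) (nat_lit 380) (nat_lit 9245728191) (nat_lit 76) (nat_lit 542872867) (nat_lit 66) (nat_lit 5) (nat_lit 71) (nat_lit 5) (nat_lit 67) (nat_lit 5) (nat_lit 292) (nat_lit 259) (nat_lit 169)) (XT.lf (nat_lit 0) (nat_lit 10854830563) (nat_lit 228) (nat_lit 14079874533) (nat_lit 304) (nat_lit 3223626679) (nat_lit 63) (nat_lit 5) (nat_lit 66) (nat_lit 5) (nat_lit 67) (nat_lit 5) (nat_lit 293) (nat_lit 259) (nat_lit 168))) (XT.nd (nat_lit 78) (nat_lit 228) (nat_lit 0) (XT.lf (nat_lit 0) (nat_lit 3019906821) (nat_lit 304) (nat_lit 687014368) (nat_lit 380) (nat_lit 25424810383) (nat_lit 58) (nat_lit 5) (nat_lit 62) (nat_lit 5) (nat_lit 63) (nat_lit 5) (nat_lit 294) (nat_lit 259) (nat_lit 167)) (XT.nd (nat_lit 78) (nat_lit 228) (nat_lit 0) (XT.lf (nat_lit 0) (nat_lit 11210680222) (nat_lit 380) (nat_lit 5613254683) (nat_lit 76) (nat_lit 13320125311) (nat_lit 58) (nat_lit 5) (nat_lit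 63) (nat_lit 5) (nat_lit 59) (nat_lit 5) (nat_lit 295) (nat_lit 259) (nat_lit 166)) (XT.lf (nat_lit 0) (nat_lit 16197475284) (nat_lit 228) (nat_lit 3039807407) (nat_lit 304) (nat_lit 11965309101) (nat_lit 55) (nat_lit 5) (nat_lit 58) (nat_lit 5) (nat_lit 59) (nat_lit 5) (nat_lit 296) (nat_lit 259) (nat_lit 165))))) (XT.nd (nat_lit 234) (nat_lit 456) (nat_lit 0) (XT.nd (nat_lit 78) (nat_lit 304) (nat_lit 0) (XT.lf (nat_lit 0) (nat_lit 6906353872) (nat_lit 228) (nat_lit 20978975722) (nat_lit 304) (nat_lit 4422132316) (nat_lit 52) (nat_lit 5) (nat_lit 55) (nat_lit 5) (nat_lit 56) (nat_lit 5) (nat_lit 297) (nat_lit 259) (nat_lit 164)) (XT.nd (nat_lit 78) (nat_lit 228) (nat_lit 0) (XT.lf (nat_lit 0) (nat_lit 3602417071) (nat_lit 304) (nat_lit 3323156281) (nat_lit 76) (nat_lit 26535833320) (nat_lit 51) (nat_lit 5) (nat_lit 55) (nat_lit 5) (nat_lit 52) (nat_lit 5) (nat_lit 298) (nat_lit 259) (nat_lit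 163)) (XT.lf (nat_lit 0) (nat_lit 12195690484) (nat_lit 304) (nat_lit 14556204517) (nat_lit 76) (nat_lit 7912085130) (nat_lit 48) (nat_lit 5) (nat_lit 52) (nat_lit 5) (nat_lit 49) (nat_lit 5) (nat_lit 299) (nat_lit 259) (nat_lit 162)))) (XT.nd (nat_lit 78) (nat_lit 228) (nat_lit 0) (XT.lf (nat_lit 0) (nat_lit 8938137581) (nat_lit 228) (nat_lit 12457725226) (nat_lit 304) (nat_lit 14525515310) (nat_lit 45) (nat_lit 5) (nat_lit 48) (nat_lit 5) (nat_lit 49) (nat_lit 5) (nat_lit 300) (nat_lit 259) (nat_lit 161)) (XT.nd (nat_lit 78) (nat_lit 228) (nat_lit 0) (XT.lf (nat_lit 0) (nat_lit 31219133535) (nat_lit 304) (nat_lit 3371610788) (nat_lit 76) (nat_lit 2646021280) (nat_lit 45) (nat_lit 5) (nat_lit 49) (nat_lit 5) (nat_lit 46) (nat_lit 5) (nat_lit 301) (nat_lit 259) (nat_lit 160)) (XT.lf (nat_lit 0) (nat_lit 3184103076) (nat_lit 228) (nat_lit 16940077951) (nat_lit 76) (nat_lit 18483151422) (nat_lit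 42) (nat_lit 5) (nat_lit 45) (nat_lit 5) (nat_lit 43) (nat_lit 5) (nat_lit 302) (nat_lit 259) (nat_lit 159)))))) (XT.nd (nat_lit 390) (nat_lit 684) (nat_lit 0) (XT.nd (nat_lit 156) (nat_lit 380) (nat_lit 0) (XT.nd (nat_lit 78) (nat_lit 0) (nat_lit 0) (XT.lf (nat_lit 0) (nat_lit 8060753341) (nat_lit 228) (nat_lit 4762533341) (nat_lit 304) (nat_lit 27218309900) (nat_lit 39) (nat_lit 5) (nat_lit 42) (nat_lit 5) (nat_lit 43) (nat_lit 5) (nat_lit 303) (nat_lit 259) (nat_lit 158)) (XT.lf (nat_lit 0) (nat_lit 23218258805) (nat_lit 304) (nat_lit 7006065467) (nat_lit 76) (nat_lit 11315045081) (nat_lit 39) (nat_lit 5) (nat_lit 43) (nat_lit 5) (nat_lit 40) (nat_lit 5) (nat_lit 304) (nat_lit 259) (nat_lit 157))) (XT.nd (nat_lit 78) (nat_lit 228) (nat_lit 0) (XT.lf (nat_lit 0) (nat_lit 19533064105) (nat_lit 152) (nat_lit 14824749705) (nat_lit 228) (nat_lit 8747481745) (nat_lit 37) (nat_lit 5) (nat_lit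 39) (nat_lit 5) (nat_lit 40) (nat_lit 5) (nat_lit 305) (nat_lit 259) (nat_lit 156)) (XT.nd (nat_lit 78) (nat_lit 0) (nat_lit 0) (XT.lf (nat_lit 0) (nat_lit 1382562940) (nat_lit 228) (nat_lit 41937625079) (nat_lit 76) (nat_lit 1425866954) (nat_lit 34) (nat_lit 5) (nat_lit 37) (nat_lit 5) (nat_lit 35) (nat_lit 5) (nat_lit 306) (nat_lit 259) (nat_lit 155)) (XT.lf (nat_lit 0) (nat_lit 12224105882) (nat_lit 228) (nat_lit 15718148093) (nat_lit 76) (nat_lit 18512431552) (nat_lit 34) (nat_lit 5) (nat_lit 37) (nat_lit 5) (nat_lit 35) (nat_lit 5) (nat_lit 307) (nat_lit 259) (nat_lit 154))))) (XT.nd (nat_lit 234) (nat_lit 380) (nat_lit 0) (XT.nd (nat_lit 78) (nat_lit 152) (nat_lit 0) (XT.lf (nat_lit 0) (nat_lit 12030909855) (nat_lit 152) (nat_lit 11682500769) (nat_lit 228) (nat_lit 24532174682) (nat_lit 32) (nat_lit 5) (nat_lit 34) (nat_lit 5) (nat_lit 35) (nat_lit 5) (nat_lit 308) (nat_lit 259) (nat_lit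 153)) (XT.nd (nat_lit 78) (nat_lit 152) (nat_lit 0) (XT.lf (nat_lit 0) (nat_lit 35982702942) (nat_lit 228) (nat_lit 8694643390) (nat_lit 76) (nat_lit 5442525916) (nat_lit 32) (nat_lit 5) (nat_lit 35) (nat_lit 5) (nat_lit 33) (nat_lit 5) (nat_lit 309) (nat_lit 259) (nat_lit 152)) (XT.lf (nat_lit 0) (nat_lit 20467698378) (nat_lit 152) (nat_lit 28703187240) (nat_lit 228) (nat_lit 2907832617) (nat_lit 30) (nat_lit 5) (nat_lit 32) (nat_lit 5) (nat_lit 33) (nat_lit 5) (nat_lit 310) (nat_lit 259) (nat_lit 151)))) (XT.nd (nat_lit 78) (nat_lit 304) (nat_lit 0) (XT.lf (nat_lit 0) (nat_lit 8790988061) (nat_lit 228) (nat_lit 2964174209) (nat_lit 76) (nat_lit 42375348825) (nat_lit 29) (nat_lit 5) (nat_lit 32) (nat_lit 5) (nat_lit 30) (nat_lit 5) (nat_lit 311) (nat_lit 259) (nat_lit 150)) (XT.nd (nat_lit 78) (nat_lit 152) (nat_lit 0) (XT.lf (nat_lit 0) (nat_lit 21332900089) (nat_lit 228) (nat_lit 28727020538)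 (nat_lit 76) (nat_lit 6214567175) (nat_lit 27) (nat_lit 5) (nat_lit 30) (nat_lit 5) (nat_lit 28) (nat_lit 5) (nat_lit 312) (nat_lit 259) (nat_lit 149)) (XT.lf (nat_lit 0) (nat_lit 1008604307) (nat_lit 152) (nat_lit 33644082607) (nat_lit 228) (nat_lit 23868459319) (nat_lit 25) (nat_lit 5) (nat_lit 27) (nat_lit 5) (nat_lit 28) (nat_lit 5) (nat_lit 313) (nat_lit 259) (nat_lit 148))))))))
noncomputable def xc86 : XT := (XT.nd (nat_lit 33852) (nat_lit 0) (nat_lit 5320) (XT.nd (nat_lit 858) (nat_lit 228) (nat_lit 0) (XT.nd (nat_lit 390) (nat_lit 380) (nat_lit 0) (XT.nd (nat_lit 156) (nat_lit 152) (nat_lit 0) (XT.nd (nat_lit 78) (nat_lit 152) (nat_lit 0) (XT.lf (nat_lit 0) (nat_lit 32817709530) (nat_lit 152) (nat_lit 16108361565) (nat_lit 228) (nat_lit 11945444219) (nat_lit 25) (nat_lit 5) (nat_lit 27) (nat_lit 5) (nat_lit 28) (nat_lit 5) (nat_lit 314) (nat_lit 259) (nat_lit 147)) (XT.lf (nat_lit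 0) (nat_lit 605180684) (nat_lit 152) (nat_lit 60444933472) (nat_lit 76) (nat_lit 2287849126) (nat_lit 23) (nat_lit 5) (nat_lit 25) (nat_lit 5) (nat_lit 24) (nat_lit 5) (nat_lit 315) (nat_lit 259) (nat_lit 146))) (XT.nd (nat_lit 78) (nat_lit 152) (nat_lit 0) (XT.lf (nat_lit 0) (nat_lit 13985209554) (nat_lit 152) (nat_lit 30244563680) (nat_lit 76) (nat_lit 21680949834) (nat_lit 23) (nat_lit 5) (nat_lit 25) (nat_lit 5) (nat_lit 24) (nat_lit 5) (nat_lit 316) (nat_lit 259) (nat_lit 145)) (XT.nd (nat_lit 78) (nat_lit 0) (nat_lit 0) (XT.lf (nat_lit 0) (nat_lit 1482438251) (nat_lit 152) (nat_lit 26558806217) (nat_lit 228) (nat_lit 40570671242) (nat_lit 21) (nat_lit 5) (nat_lit 23) (nat_lit 5) (nat_lit 24) (nat_lit 5) (nat_lit 317) (nat_lit 259) (nat_lit 144)) (XT.lf (nat_lit 0) (nat_lit 35415851627) (nat_lit 152) (nat_lit 7688555142) (nat_lit 228) (nat_lit 28334636212) (nat_lit 21) (nat_lit 5) (nat_lit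 23) (nat_lit 5) (nat_lit 24) (nat_lit 5) (nat_lit 318) (nat_lit 259) (nat_lit 143))))) (XT.nd (nat_lit 234) (nat_lit 228) (nat_lit 0) (XT.nd (nat_lit 78) (nat_lit 152) (nat_lit 0) (XT.lf (nat_lit 0) (nat_lit 59030555444) (nat_lit 228) (nat_lit 3489697074) (nat_lit 76) (nat_lit 11883983789) (nat_lit 21) (nat_lit 5) (nat_lit 24) (nat_lit 5) (nat_lit 22) (nat_lit 4) (nat_lit 319) (nat_lit 259) (nat_lit 142)) (XT.nd (nat_lit 78) (nat_lit 76) (nat_lit 0) (XT.lf (nat_lit 0) (nat_lit 31190507463) (nat_lit 76) (nat_lit 44933522431) (nat_lit 152) (nat_lit 1382533178) (nat_lit 20) (nat_lit 5) (nat_lit 21) (nat_lit 5) (nat_lit 22) (nat_lit 4) (nat_lit 320) (nat_lit 259) (nat_lit 141)) (XT.lf (nat_lit 0) (nat_lit 13078491090) (nat_lit 152) (nat_lit 13224378385) (nat_lit 76) (nat_lit 54456402621) (nat_lit 19) (nat_lit 5) (nat_lit 21) (nat_lit 5) (nat_lit 20) (nat_lit 5) (nat_lit 321) (nat_lit 259) (nat_lit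 140)))) (XT.nd (nat_lit 78) (nat_lit 76) (nat_lit 0) (XT.lf (nat_lit 0) (nat_lit 21925473826) (nat_lit 152) (nat_lit 6513555784) (nat_lit 228) (nat_lit 55729028437) (nat_lit 17) (nat_lit 5) (nat_lit 19) (nat_lit 5) (nat_lit 20) (nat_lit 5) (nat_lit 322) (nat_lit 259) (nat_lit 139)) (XT.nd (nat_lit 78) (nat_lit 76) (nat_lit 0) (XT.lf (nat_lit 0) (nat_lit 44836378939) (nat_lit 228) (nat_lit 28782644834) (nat_lit 76) (nat_lit 14120199633) (nat_lit 17) (nat_lit 5) (nat_lit 20) (nat_lit 5) (nat_lit 18) (nat_lit 4) (nat_lit 323) (nat_lit 259) (nat_lit 138)) (XT.lf (nat_lit 0) (nat_lit 6399773264) (nat_lit 76) (nat_lit 55775537867) (nat_lit 152) (nat_lit 29309987891) (nat_lit 16) (nat_lit 5) (nat_lit 17) (nat_lit 5) (nat_lit 18) (nat_lit 4) (nat_lit 324) (nat_lit 259) (nat_lit 137)))))) (XT.nd (nat_lit 32526) (nat_lit 0) (nat_lit 12768) (XT.nd (nat_lit 156) (nat_lit 152) (nat_lit 0) (XT.nd (nat_lit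 78) (nat_lit 76) (nat_lit 0) (XT.lf (nat_lit 0) (nat_lit 43933403745) (nat_lit 76) (nat_lit 36738706006) (nat_lit 152) (nat_lit 14737844364) (nat_lit 16) (nat_lit 5) (nat_lit 17) (nat_lit 5) (nat_lit 18) (nat_lit 4) (nat_lit 325) (nat_lit 259) (nat_lit 136)) (XT.lf (nat_lit 0) (nat_lit 546751982) (nat_lit 152) (nat_lit 16201577569) (nat_lit 76) (nat_lit 82782508220) (nat_lit 15) (nat_lit 5) (nat_lit 17) (nat_lit 5) (nat_lit 16) (nat_lit 5) (nat_lit 326) (nat_lit 259) (nat_lit 135))) (XT.nd (nat_lit 78) (nat_lit 0) (nat_lit 0) (XT.lf (nat_lit 0) (nat_lit 16535646663) (nat_lit 228) (nat_lit 82800239034) (nat_lit 76) (nat_lit 4510159141) (nat_lit 13) (nat_lit 5) (nat_lit 16) (nat_lit 5) (nat_lit 14) (nat_lit 4) (nat_lit 327) (nat_lit 259) (nat_lit 134)) (XT.nd (nat_lit 32214) (nat_lit 0) (nat_lit 12692) (XT.lf (nat_lit 0) (nat_lit 33656658970) (nat_lit 228) (nat_lit 48057055783) (nat_lit 76)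 (nat_lit 26653320077) (nat_lit 13) (nat_lit 5) (nat_lit 16) (nat_lit 5) (nat_lit 14) (nat_lit 4) (nat_lit 328) (nat_lit 259) (nat_lit 133)) (XT.lf (nat_lit 0) (nat_lit 395227957) (nat_lit 1140) (nat_lit 2614651846) (nat_lit 1140) (nat_lit 2614651846) (nat_lit 180) (nat_lit 3) (nat_lit 195) (nat_lit 3) (nat_lit 195) (nat_lit 5) (nat_lit 260) (nat_lit 260) (nat_lit 200))))) (XT.nd (nat_lit 234) (nat_lit 0) (nat_lit 152) (XT.nd (nat_lit 78) (nat_lit 0) (nat_lit 0) (XT.lf (nat_lit 0) (nat_lit 1687534363) (nat_lit 1064) (nat_lit 8502244322) (nat_lit 1140) (nat_lit 1312683260) (nat_lit 181) (nat_lit 5) (nat_lit 195) (nat_lit 5) (nat_lit 196) (nat_lit 5) (nat_lit 261) (nat_lit 260) (nat_lit 199)) (XT.nd (nat_lit 78) (nat_lit 0) (nat_lit 76) (XT.lf (nat_lit 0) (nat_lit 2691084194) (nat_lit 1064) (nat_lit 107810890) (nat_lit 1140) (nat_lit 8967883470) (nat_lit 181) (nat_lit 5) (nat_lit 195) (nat_lit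 5) (nat_lit 196) (nat_lit 5) (nat_lit 262) (nat_lit 260) (nat_lit 198)) (XT.lf (nat_lit 0) (nat_lit 3827679163) (nat_lit 1064) (nat_lit 3241744642) (nat_lit 1140) (nat_lit 4972493121) (nat_lit 182) (nat_lit 5) (nat_lit 196) (nat_lit 5) (nat_lit 197) (nat_lit 5) (nat_lit 263) (nat_lit 260) (nat_lit 197)))) (XT.nd (nat_lit 78) (nat_lit 0) (nat_lit 0) (XT.lf (nat_lit 0) (nat_lit 5066334633) (nat_lit 1064) (nat_lit 6455744674) (nat_lit 1140) (nat_lit 807463567) (nat_lit 183) (nat_lit 5) (nat_lit 197) (nat_lit 5) (nat_lit 198) (nat_lit 5) (nat_lit 264) (nat_lit 260) (nat_lit 196)) (XT.nd (nat_lit 78) (nat_lit 0) (nat_lit 76) (XT.lf (nat_lit 76) (nat_lit 2835563452) (nat_lit 0) (nat_lit 3617283169) (nat_lit 1140) (nat_lit 6176209196) (nat_lit 184) (nat_lit 5) (nat_lit 183) (nat_lit 5) (nat_lit 198) (nat_lit 5) (nat_lit 265) (nat_lit 260) (nat_lit 195)) (XT.lf (nat_lit 0) (nat_lit 7976492463) (nat_lit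 1064) (nat_lit 291961634) (nat_lit 1140) (nat_lit 4673135503) (nat_lit 184) (nat_lit 5) (nat_lit 198) (nat_lit 5) (nat_lit 199) (nat_lit 5) (nat_lit 266) (nat_lit 260) (nat_lit 194))))))) (XT.nd (nat_lit 858) (nat_lit 3344) (nat_lit 0) (XT.nd (nat_lit 390) (nat_lit 3344) (nat_lit 0) (XT.nd (nat_lit 156) (nat_lit 1064) (nat_lit 0) (XT.nd (nat_lit 78) (nat_lit 0) (nat_lit 0) (XT.lf (nat_lit 0) (nat_lit 9666315304) (nat_lit 1064) (nat_lit 3458601124) (nat_lit 1140) (nat_lit 142209458) (nat_lit 185) (nat_lit 5) (nat_lit 199) (nat_lit 5) (nat_lit 200) (nat_lit 5) (nat_lit 267) (nat_lit 260) (nat_lit 193)) (XT.lf (nat_lit 76) (nat_lit 6830946059) (nat_lit 0) (nat_lit 4721474481) (nat_lit 1140) (nat_lit 2053236762) (nat_lit 186) (nat_lit 5) (nat_lit 185) (nat_lit 5) (nat_lit 200) (nat_lit 5) (nat_lit 268) (nat_lit 260) (nat_lit 192))) (XT.nd (nat_lit 78) (nat_lit 1140) (nat_lit 0) (XT.lf (nat_lit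 76) (nat_lit 3749979344) (nat_lit 0) (nat_lit 9855655262) (nat_lit 1140) (nat_lit 353365198) (nat_lit 187) (nat_lit 5) (nat_lit 186) (nat_lit 5) (nat_lit 201) (nat_lit 5) (nat_lit 269) (nat_lit 260) (nat_lit 191)) (XT.nd (nat_lit 78) (nat_lit 0) (nat_lit 76) (XT.lf (nat_lit 76) (nat_lit 532297860) (nat_lit 0) (nat_lit 956961341) (nat_lit 1216) (nat_lit 12837830078) (nat_lit 172) (nat_lit 5) (nat_lit 171) (nat_lit 5) (nat_lit 187) (nat_lit 5) (nat_lit 270) (nat_lit 260) (nat_lit 190)) (XT.lf (nat_lit 0) (nat_lit 3567578757) (nat_lit 1140) (nat_lit 2802502907) (nat_lit 76) (nat_lit 8338930871) (nat_lit 172) (nat_lit 5) (nat_lit 187) (nat_lit 5) (nat_lit 173) (nat_lit 5) (nat_lit 271) (nat_lit 260) (nat_lit 189))))) (XT.nd (nat_lit 234) (nat_lit 1140) (nat_lit 0) (XT.nd (nat_lit 78) (nat_lit 1140) (nat_lit 0) (XT.lf (nat_lit 0) (nat_lit 5839978414) (nat_lit 1216) (nat_lit 6264214110) (nat_lit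 76) (nat_lit 3003192057) (nat_lit 157) (nat_lit 5) (nat_lit 173) (nat_lit 5) (nat_lit 158) (nat_lit 5) (nat_lit 272) (nat_lit 260) (nat_lit 188)) (XT.nd (nat_lit 78) (nat_lit 608) (nat_lit 0) (XT.lf (nat_lit 0) (nat_lit 5620336105) (nat_lit 532) (nat_lit 2720279828) (nat_lit 608) (nat_lit 7181675572) (nat_lit 150) (nat_lit 5) (nat_lit 157) (nat_lit 5) (nat_lit 158) (nat_lit 5) (nat_lit 273) (nat_lit 260) (nat_lit 187)) (XT.lf (nat_lit 0) (nat_lit 2218277228) (nat_lit 608) (nat_lit 8871495259) (nat_lit 684) (nat_lit 4864518875) (nat_lit 142) (nat_lit 5) (nat_lit 150) (nat_lit 5) (nat_lit 151) (nat_lit 5) (nat_lit 274) (nat_lit 260) (nat_lit 186)))) (XT.nd (nat_lit 78) (nat_lit 1140) (nat_lit 0) (XT.lf (nat_lit 0) (nat_lit 14085002313) (nat_lit 684) (nat_lit 1320293366) (nat_lit 76) (nat_lit 999386785) (nat_lit 142) (nat_lit 5) (nat_lit 151) (nat_lit 5) (nat_lit 143) (nat_lit 5) (nat_lit 275)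 (nat_lit 260) (nat_lit 185)) (XT.nd (nat_lit 78) (nat_lit 532) (nat_lit 0) (XT.lf (nat_lit 0) (nat_lit 521607501) (nat_lit 608) (nat_lit 5048530433) (nat_lit 76) (nat_lit 11302117023) (nat_lit 134) (nat_lit 5) (nat_lit 142) (nat_lit 5) (nat_lit 135) (nat_lit 5) (nat_lit 276) (nat_lit 260) (nat_lit 184)) (XT.lf (nat_lit 0) (nat_lit 3570752862) (nat_lit 608) (nat_lit 9005597681) (nat_lit 76) (nat_lit 4782797262) (nat_lit 127) (nat_lit 5) (nat_lit 135) (nat_lit 5) (nat_lit 128) (nat_lit 5) (nat_lit 277) (nat_lit 260) (nat_lit 183)))))) (XT.nd (nat_lit 390) (nat_lit 1520) (nat_lit 0) (XT.nd (nat_lit 156) (nat_lit 912) (nat_lit 0) (XT.nd (nat_lit 78) (nat_lit 456) (nat_lit 0) (XT.lf (nat_lit 0) (nat_lit 4668444387) (nat_lit 456) (nat_lit 2230501925) (nat_lit 532) (nat_lit 10967682953) (nat_lit 121) (nat_lit 5) (nat_lit 127) (nat_lit 5) (nat_lit 128) (nat_lit 5) (nat_lit 278) (nat_lit 260) (nat_lit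 182)) (XT.lf (nat_lit 0) (nat_lit 719496891) (nat_lit 456) (nat_lit 9831588883) (nat_lit 532) (nat_lit 7843712645) (nat_lit 115) (nat_lit 5) (nat_lit 121) (nat_lit 5) (nat_lit 122) (nat_lit 5) (nat_lit 279) (nat_lit 260) (nat_lit 181))) (XT.nd (nat_lit 78) (nat_lit 912) (nat_lit 0) (XT.lf (nat_lit 0) (nat_lit 14528968005) (nat_lit 532) (nat_lit 3397012804) (nat_lit 76) (nat_lit 1019138965) (nat_lit 115) (nat_lit 5) (nat_lit 122) (nat_lit 5) (nat_lit 116) (nat_lit 5) (nat_lit 280) (nat_lit 260) (nat_lit 180)) (XT.nd (nat_lit 78) (nat_lit 532) (nat_lit 0) (XT.lf (nat_lit 0) (nat_lit 11697289367) (nat_lit 380) (nat_lit 7196285573) (nat_lit 456) (nat_lit 623783358) (nat_lit 110) (nat_lit 5) (nat_lit 115) (nat_lit 5) (nat_lit 116) (nat_lit 5) (nat_lit 281) (nat_lit 260) (nat_lit 179)) (XT.lf (nat_lit 0) (nat_lit 3418198353) (nat_lit 532) (nat_lit 12566256566) (nat_lit 76) (nat_lit 4129052934)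 (nat_lit 103) (nat_lit 5) (nat_lit 110) (nat_lit 5) (nat_lit 104) (nat_lit 5) (nat_lit 282) (nat_lit 260) (nat_lit 178))))) (XT.nd (nat_lit 234) (nat_lit 760) (nat_lit 0) (XT.nd (nat_lit 78) (nat_lit 380) (nat_lit 0) (XT.lf (nat_lit 0) (nat_lit 3062790086) (nat_lit 380) (nat_lit 4747683813) (nat_lit 456) (nat_lit 12924004555) (nat_lit 98) (nat_lit 5) (nat_lit 103) (nat_lit 5) (nat_lit 104) (nat_lit 5) (nat_lit 283) (nat_lit 260) (nat_lit 177)) (XT.nd (nat_lit 78) (nat_lit 380) (nat_lit 0) (XT.lf (nat_lit 0) (nat_lit 12599161062) (nat_lit 456) (nat_lit 1742217660) (nat_lit 76) (nat_lit 7039845136) (nat_lit 98) (nat_lit 5) (nat_lit 104) (nat_lit 5) (nat_lit 99) (nat_lit 5) (nat_lit 284) (nat_lit 260) (nat_lit 176)) (XT.lf (nat_lit 0) (nat_lit 15207387377) (nat_lit 380) (nat_lit 2593407651) (nat_lit 456) (nat_lit 4254334899) (nat_lit 93) (nat_lit 5) (nat_lit 98) (nat_lit 5) (nat_lit 99) (nat_lit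 5) (nat_lit 285) (nat_lit 260) (nat_lit 175)))) (XT.nd (nat_lit 78) (nat_lit 380) (nat_lit 0) (XT.lf (nat_lit 0) (nat_lit 683371320) (nat_lit 380) (nat_lit 12401677681) (nat_lit 76) (nat_lit 9671764442) (nat_lit 88) (nat_lit 5) (nat_lit 93) (nat_lit 5) (nat_lit 89) (nat_lit 5) (nat_lit 286) (nat_lit 260) (nat_lit 174)) (XT.nd (nat_lit 78) (nat_lit 0) (nat_lit 0) (XT.lf (nat_lit 0) (nat_lit 5074271353) (nat_lit 380) (nat_lit 833274875) (nat_lit 456) (nat_lit 17580969490) (nat_lit 83) (nat_lit 5) (nat_lit 88) (nat_lit 5) (nat_lit 89) (nat_lit 5) (nat_lit 287) (nat_lit 260) (nat_lit 173)) (XT.lf (nat_lit 0) (nat_lit 11618759195) (nat_lit 456) (nat_lit 711257658) (nat_lit 76) (nat_lit 11920035502) (nat_lit 83) (nat_lit 5) (nat_lit 89) (nat_lit 5) (nat_lit 84) (nat_lit 5) (nat_lit 288) (nat_lit 260) (nat_lit 172))))))))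
noncomputable def xc87 : XT := (XT.nd (nat_lit 1716) (nat_lit 1444) (nat_lit 0) (XT.nd (nat_lit 858) (nat_lit 1444) (nat_lit 0) (XT.nd (nat_lit 390) (nat_lit 1140) (nat_lit 0) (XT.nd (nat_lit 156) (nat_lit 684) (nat_lit 0) (XT.nd (nat_lit 78) (nat_lit 304) (nat_lit 0) (XT.lf (nat_lit 0) (nat_lit 17785068381) (nat_lit 380) (nat_lit 6848510883) (nat_lit 76) (nat_lit 411023473) (nat_lit 79) (nat_lit 5) (nat_lit 84) (nat_lit 5) (nat_lit 80) (nat_lit 5) (nat_lit 289) (nat_lit 260) (nat_lit 171)) (XT.lf (nat_lit 0) (nat_lit 12276860864) (nat_lit 304) (nat_lit 12215411904) (nat_lit 380) (nat_lit 1379652362) (nat_lit 75) (nat_lit 5) (nat_lit 79) (nat_lit 5) (nat_lit 80) (nat_lit 5) (nat_lit 290) (nat_lit 260) (nat_lit 170))) (XT.nd (nat_lit 78) (nat_lit 304) (nat_lit 0) (XT.lf (nat_lit 0) (nat_lit 4820403753) (nat_lit 380) (nat_lit 20938760487) (nat_lit 76) (nat_lit 976495110) (nat_lit 70) (nat_lit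 5) (nat_lit 75) (nat_lit 5) (nat_lit 71) (nat_lit 5) (nat_lit 291) (nat_lit 260) (nat_lit 169)) (XT.nd (nat_lit 78) (nat_lit 304) (nat_lit 0) (XT.lf (nat_lit 0) (nat_lit 11550497835) (nat_lit 380) (nat_lit 1357107214) (nat_lit 76) (nat_lit 14727127651) (nat_lit 70) (nat_lit 5) (nat_lit 75) (nat_lit 5) (nat_lit 71) (nat_lit 5) (nat_lit 292) (nat_lit 260) (nat_lit 168)) (XT.lf (nat_lit 0) (nat_lit 18797050321) (nat_lit 380) (nat_lit 9017254468) (nat_lit 76) (nat_lit 759074671) (nat_lit 66) (nat_lit 5) (nat_lit 71) (nat_lit 5) (nat_lit 67) (nat_lit 5) (nat_lit 293) (nat_lit 260) (nat_lit 167))))) (XT.nd (nat_lit 234) (nat_lit 532) (nat_lit 0) (XT.nd (nat_lit 78) (nat_lit 380) (nat_lit 0) (XT.lf (nat_lit 0) (nat_lit 12068531723) (nat_lit 228) (nat_lit 14582730904) (nat_lit 304) (nat_lit 2900353447) (nat_lit 63) (nat_lit 5) (nat_lit 66) (nat_lit 5) (nat_lit 67) (nat_lit 5) (nat_lit 294) (nat_lit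 260) (nat_lit 166)) (XT.nd (nat_lit 78) (nat_lit 0) (nat_lit 0) (XT.lf (nat_lit 0) (nat_lit 3832318344) (nat_lit 304) (nat_lit 518688853) (nat_lit 380) (nat_lit 26223051647) (nat_lit 58) (nat_lit 5) (nat_lit 62) (nat_lit 5) (nat_lit 63) (nat_lit 5) (nat_lit 295) (nat_lit 260) (nat_lit 165)) (XT.lf (nat_lit 0) (nat_lit 12209964897) (nat_lit 380) (nat_lit 5252272426) (nat_lit 76) (nat_lit 14175389948) (nat_lit 58) (nat_lit 5) (nat_lit 63) (nat_lit 5) (nat_lit 59) (nat_lit 5) (nat_lit 296) (nat_lit 260) (nat_lit 164)))) (XT.nd (nat_lit 78) (nat_lit 304) (nat_lit 0) (XT.lf (nat_lit 0) (nat_lit 17630601414) (nat_lit 228) (nat_lit 2992394270) (nat_lit 304) (nat_lit 12126559341) (nat_lit 55) (nat_lit 5) (nat_lit 58) (nat_lit 5) (nat_lit 59) (nat_lit 5) (nat_lit 297) (nat_lit 260) (nat_lit 163)) (XT.nd (nat_lit 78) (nat_lit 76) (nat_lit 0) (XT.lf (nat_lit 0) (nat_lit 7867985629) (nat_lit 228) (nat_lit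 21823025925) (nat_lit 304) (nat_lit 4219051568) (nat_lit 52) (nat_lit 5) (nat_lit 55) (nat_lit 5) (nat_lit 56) (nat_lit 5) (nat_lit 298) (nat_lit 260) (nat_lit 162)) (XT.lf (nat_lit 0) (nat_lit 4178642630) (nat_lit 304) (nat_lit 2894068000) (nat_lit 76) (nat_lit 28049486174) (nat_lit 51) (nat_lit 5) (nat_lit 55) (nat_lit 5) (nat_lit 52) (nat_lit 5) (nat_lit 299) (nat_lit 260) (nat_lit 161)))))) (XT.nd (nat_lit 390) (nat_lit 532) (nat_lit 0) (XT.nd (nat_lit 156) (nat_lit 456) (nat_lit 0) (XT.nd (nat_lit 78) (nat_lit 228) (nat_lit 0) (XT.lf (nat_lit 0) (nat_lit 13190153580) (nat_lit 304) (nat_lit 14695847234) (nat_lit 76) (nat_lit 8499259814) (nat_lit 48) (nat_lit 5) (nat_lit 52) (nat_lit 5) (nat_lit 49) (nat_lit 5) (nat_lit 300) (nat_lit 260) (nat_lit 160)) (XT.lf (nat_lit 0) (nat_lit 9956352265) (nat_lit 228) (nat_lit 12881155987) (nat_lit 304) (nat_lit 14868423057) (nat_lit 45) (nat_lit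 5) (nat_lit 48) (nat_lit 5) (nat_lit 49) (nat_lit 5) (nat_lit 301) (nat_lit 260) (nat_lit 159))) (XT.nd (nat_lit 78) (nat_lit 456) (nat_lit 0) (XT.lf (nat_lit 0) (nat_lit 33136061253) (nat_lit 304) (nat_lit 2986947298) (nat_lit 76) (nat_lit 2964573206) (nat_lit 45) (nat_lit 5) (nat_lit 49) (nat_lit 5) (nat_lit 46) (nat_lit 5) (nat_lit 302) (nat_lit 260) (nat_lit 158)) (XT.nd (nat_lit 78) (nat_lit 228) (nat_lit 0) (XT.lf (nat_lit 0) (nat_lit 3691222013) (nat_lit 228) (nat_lit 17242455135) (nat_lit 76) (nat_lit 19593267363) (nat_lit 42) (nat_lit 5) (nat_lit 45) (nat_lit 5) (nat_lit 43) (nat_lit 5) (nat_lit 303) (nat_lit 260) (nat_lit 157)) (XT.lf (nat_lit 0) (nat_lit 8992806107) (nat_lit 228) (nat_lit 4808076586) (nat_lit 304) (nat_lit 28232398723) (nat_lit 39) (nat_lit 5) (nat_lit 42) (nat_lit 5) (nat_lit 43) (nat_lit 5) (nat_lit 304) (nat_lit 260) (nat_lit 156))))) (XT.nd (nat_lit 234) (nat_lit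 152) (nat_lit 0) (XT.nd (nat_lit 78) (nat_lit 380) (nat_lit 0) (XT.lf (nat_lit 0) (nat_lit 24701345942) (nat_lit 304) (nat_lit 6844407916) (nat_lit 76) (nat_lit 12060631074) (nat_lit 39) (nat_lit 5) (nat_lit 43) (nat_lit 5) (nat_lit 40) (nat_lit 5) (nat_lit 305) (nat_lit 260) (nat_lit 155)) (XT.nd (nat_lit 78) (nat_lit 228) (nat_lit 0) (XT.lf (nat_lit 0) (nat_lit 21007002880) (nat_lit 152) (nat_lit 15380314402) (nat_lit 228) (nat_lit 8863620704) (nat_lit 37) (nat_lit 5) (nat_lit 39) (nat_lit 5) (nat_lit 40) (nat_lit 5) (nat_lit 306) (nat_lit 260) (nat_lit 154)) (XT.lf (nat_lit 0) (nat_lit 1758139054) (nat_lit 228) (nat_lit 43537510235) (nat_lit 76) (nat_lit 1678261675) (nat_lit 34) (nat_lit 5) (nat_lit 37) (nat_lit 5) (nat_lit 35) (nat_lit 5) (nat_lit 307) (nat_lit 260) (nat_lit 153)))) (XT.nd (nat_lit 78) (nat_lit 152) (nat_lit 0) (XT.lf (nat_lit 0) (nat_lit 13127166383) (nat_lit 228) (nat_lit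 16030725881) (nat_lit 76) (nat_lit 19610530628) (nat_lit 34) (nat_lit 5) (nat_lit 37) (nat_lit 5) (nat_lit 35) (nat_lit 5) (nat_lit 308) (nat_lit 260) (nat_lit 152)) (XT.nd (nat_lit 78) (nat_lit 0) (nat_lit 0) (XT.lf (nat_lit 0) (nat_lit 13092217066) (nat_lit 152) (nat_lit 12089240940) (nat_lit 228) (nat_lit 25467705493) (nat_lit 32) (nat_lit 5) (nat_lit 34) (nat_lit 5) (nat_lit 35) (nat_lit 5) (nat_lit 309) (nat_lit 260) (nat_lit 151)) (XT.lf (nat_lit 0) (nat_lit 38052392358) (nat_lit 228) (nat_lit 8684844455) (nat_lit 76) (nat_lit 5880293593) (nat_lit 32) (nat_lit 5) (nat_lit 35) (nat_lit 5) (nat_lit 33) (nat_lit 5) (nat_lit 310) (nat_lit 260) (nat_lit 150))))))) (XT.nd (nat_lit 858) (nat_lit 532) (nat_lit 0) (XT.nd (nat_lit 390) (nat_lit 380) (nat_lit 0) (XT.nd (nat_lit 156) (nat_lit 304) (nat_lit 0) (XT.nd (nat_lit 78) (nat_lit 76) (nat_lit 0) (XT.lf (nat_lit 0) (nat_lit 21922872006)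 (nat_lit 152) (nat_lit 29968379242) (nat_lit 228) (nat_lit 2783339852) (nat_lit 30) (nat_lit 5) (nat_lit 32) (nat_lit 5) (nat_lit 33) (nat_lit 5) (nat_lit 311) (nat_lit 260) (nat_lit 149)) (XT.lf (nat_lit 0) (nat_lit 9482554587) (nat_lit 228) (nat_lit 2695947242) (nat_lit 76) (nat_lit 44650781607) (nat_lit 29) (nat_lit 5) (nat_lit 32) (nat_lit 5) (nat_lit 30) (nat_lit 5) (nat_lit 312) (nat_lit 260) (nat_lit 148))) (XT.nd (nat_lit 78) (nat_lit 152) (nat_lit 0) (XT.lf (nat_lit 0) (nat_lit 22644993418) (nat_lit 228) (nat_lit 29752915998) (nat_lit 76) (nat_lit 6682755802) (nat_lit 27) (nat_lit 5) (nat_lit 30) (nat_lit 5) (nat_lit 28) (nat_lit 5) (nat_lit 313) (nat_lit 260) (nat_lit 147)) (XT.nd (nat_lit 78) (nat_lit 0) (nat_lit 0) (XT.lf (nat_lit 0) (nat_lit 1457724463) (nat_lit 152) (nat_lit 35165189557) (nat_lit 228) (nat_lit 24816986957) (nat_lit 25) (nat_lit 5) (nat_lit 27) (nat_lit 5) (nat_lit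 28) (nat_lit 5) (nat_lit 314) (nat_lit 260) (nat_lit 146)) (XT.lf (nat_lit 0) (nat_lit 34838299711) (nat_lit 152) (nat_lit 16760353757) (nat_lit 228) (nat_lit 12309482784) (nat_lit 25) (nat_lit 5) (nat_lit 27) (nat_lit 5) (nat_lit 28) (nat_lit 5) (nat_lit 315) (nat_lit 260) (nat_lit 145))))) (XT.nd (nat_lit 234) (nat_lit 76) (nat_lit 0) (XT.nd (nat_lit 78) (nat_lit 152) (nat_lit 0) (XT.lf (nat_lit 0) (nat_lit 858283103) (nat_lit 152) (nat_lit 63088447741) (nat_lit 76) (nat_lit 2551291384) (nat_lit 23) (nat_lit 5) (nat_lit 25) (nat_lit 5) (nat_lit 24) (nat_lit 5) (nat_lit 316) (nat_lit 260) (nat_lit 144)) (XT.nd (nat_lit 78) (nat_lit 152) (nat_lit 0) (XT.lf (nat_lit 0) (nat_lit 14896701826) (nat_lit 152) (nat_lit 31396094336) (nat_lit 76) (nat_lit 22906949518) (nat_lit 23) (nat_lit 5) (nat_lit 25) (nat_lit 5) (nat_lit 24) (nat_lit 5) (nat_lit 317) (nat_lit 260) (nat_lit 143)) (XT.lf (nat_lit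 0) (nat_lit 1906918369) (nat_lit 152) (nat_lit 27741881698) (nat_lit 228) (nat_lit 42387407020) (nat_lit 21) (nat_lit 5) (nat_lit 23) (nat_lit 5) (nat_lit 24) (nat_lit 5) (nat_lit 318) (nat_lit 260) (nat_lit 142)))) (XT.nd (nat_lit 78) (nat_lit 76) (nat_lit 0) (XT.lf (nat_lit 0) (nat_lit 37520318690) (nat_lit 152) (nat_lit 7935016394) (nat_lit 228) (nat_lit 29549655847) (nat_lit 21) (nat_lit 5) (nat_lit 23) (nat_lit 5) (nat_lit 24) (nat_lit 5) (nat_lit 319) (nat_lit 260) (nat_lit 141)) (XT.nd (nat_lit 78) (nat_lit 76) (nat_lit 0) (XT.lf (nat_lit 0) (nat_lit 62169734831) (nat_lit 228) (nat_lit 3341941487) (nat_lit 76) (nat_lit 12607015628) (nat_lit 21) (nat_lit 5) (nat_lit 24) (nat_lit 5) (nat_lit 22) (nat_lit 4) (nat_lit 320) (nat_lit 260) (nat_lit 140)) (XT.lf (nat_lit 0) (nat_lit 33063036319) (nat_lit 76) (nat_lit 47048919675) (nat_lit 152) (nat_lit 1264362896) (nat_lit 20) (nat_lit 5)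 (nat_lit 21) (nat_lit 5) (nat_lit 22) (nat_lit 4) (nat_lit 321) (nat_lit 260) (nat_lit 139)))))) (XT.nd (nat_lit 468) (nat_lit 152) (nat_lit 0) (XT.nd (nat_lit 234) (nat_lit 152) (nat_lit 0) (XT.nd (nat_lit 78) (nat_lit 152) (nat_lit 0) (XT.lf (nat_lit 0) (nat_lit 13907312886) (nat_lit 152) (nat_lit 13583906441) (nat_lit 76) (nat_lit 57300657947) (nat_lit 19) (nat_lit 5) (nat_lit 21) (nat_lit 5) (nat_lit 20) (nat_lit 5) (nat_lit 322) (nat_lit 260) (nat_lit 138)) (XT.nd (nat_lit 78) (nat_lit 0) (nat_lit 0) (XT.lf (nat_lit 0) (nat_lit 23314790473) (nat_lit 152) (nat_lit 6715576327) (nat_lit 228) (nat_lit 58340906378) (nat_lit 17) (nat_lit 5) (nat_lit 19) (nat_lit 5) (nat_lit 20) (nat_lit 5) (nat_lit 323) (nat_lit 260) (nat_lit 137)) (XT.lf (nat_lit 0) (nat_lit 47240649675) (nat_lit 228) (nat_lit 29938879877) (nat_lit 76) (nat_lit 14941680327) (nat_lit 17) (nat_lit 5) (nat_lit 20) (nat_lit 5)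 (nat_lit 18) (nat_lit 4) (nat_lit 324) (nat_lit 260) (nat_lit 136)))) (XT.nd (nat_lit 78) (nat_lit 76) (nat_lit 0) (XT.lf (nat_lit 0) (nat_lit 6994549934) (nat_lit 76) (nat_lit 58446884174) (nat_lit 152) (nat_lit 30613312817) (nat_lit 16) (nat_lit 5) (nat_lit 17) (nat_lit 5) (nat_lit 18) (nat_lit 4) (nat_lit 325) (nat_lit 260) (nat_lit 135)) (XT.nd (nat_lit 78) (nat_lit 76) (nat_lit 0) (XT.lf (nat_lit 0) (nat_lit 46391776796) (nat_lit 76) (nat_lit 38463802652) (nat_lit 152) (nat_lit 15320284706) (nat_lit 16) (nat_lit 5) (nat_lit 17) (nat_lit 5) (nat_lit 18) (nat_lit 4) (nat_lit 326) (nat_lit 260) (nat_lit 134)) (XT.lf (nat_lit 0) (nat_lit 718316213) (nat_lit 152) (nat_lit 16759460406) (nat_lit 76) (nat_lit 87025191416) (nat_lit 15) (nat_lit 5) (nat_lit 17) (nat_lit 5) (nat_lit 16) (nat_lit 5) (nat_lit 327) (nat_lit 260) (nat_lit 133))))) (XT.nd (nat_lit 32448) (nat_lit 0) (nat_lit 12768)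 (XT.nd (nat_lit 32292) (nat_lit 0) (nat_lit 12692) (XT.lf (nat_lit 0) (nat_lit 17503154225) (nat_lit 228) (nat_lit 86692023662) (nat_lit 76) (nat_lit 4838866649) (nat_lit 13) (nat_lit 5) (nat_lit 16) (nat_lit 5) (nat_lit 14) (nat_lit 4) (nat_lit 328) (nat_lit 260) (nat_lit 132)) (XT.nd (nat_lit 78) (nat_lit 0) (nat_lit 76) (XT.lf (nat_lit 0) (nat_lit 1237425426) (nat_lit 1140) (nat_lit 2321087424) (nat_lit 1140) (nat_lit 2321087424) (nat_lit 180) (nat_lit 3) (nat_lit 195) (nat_lit 3) (nat_lit 195) (nat_lit 5) (nat_lit 261) (nat_lit 261) (nat_lit 198)) (XT.lf (nat_lit 0) (nat_lit 3339167986) (nat_lit 1064) (nat_lit 8045813529) (nat_lit 1140) (nat_lit 642757483) (nat_lit 181) (nat_lit 5) (nat_lit 195) (nat_lit 5) (nat_lit 196) (nat_lit 5) (nat_lit 262) (nat_lit 261) (nat_lit 197)))) (XT.nd (nat_lit 78) (nat_lit 0) (nat_lit 76) (XT.lf (nat_lit 76) (nat_lit 740819390) (nat_lit 0) (nat_lit 3584565846)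 (nat_lit 1140) (nat_lit 7982046186) (nat_lit 182) (nat_lit 5) (nat_lit 181) (nat_lit 5) (nat_lit 196) (nat_lit 5) (nat_lit 263) (nat_lit 261) (nat_lit 196)) (XT.nd (nat_lit 78) (nat_lit 0) (nat_lit 76) (XT.lf (nat_lit 0) (nat_lit 5442549336) (nat_lit 1064) (nat_lit 2536984983) (nat_lit 1140) (nat_lit 4619208481) (nat_lit 182) (nat_lit 5) (nat_lit 196) (nat_lit 5) (nat_lit 197) (nat_lit 5) (nat_lit 264) (nat_lit 261) (nat_lit 195)) (XT.lf (nat_lit 0) (nat_lit 6678430507) (nat_lit 1064) (nat_lit 5888160113) (nat_lit 1140) (nat_lit 336222799) (nat_lit 183) (nat_lit 5) (nat_lit 197) (nat_lit 5) (nat_lit 198) (nat_lit 5) (nat_lit 265) (nat_lit 261) (nat_lit 194))))))))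
noncomputable def xc88 : XT := (XT.nd (nat_lit 1716) (nat_lit 4104) (nat_lit 0) (XT.nd (nat_lit 858) (nat_lit 4104) (nat_lit 0) (XT.nd (nat_lit 390) (nat_lit 2204) (nat_lit 0) (XT.nd (nat_lit 156) (nat_lit 912) (nat_lit 0) (XT.nd (nat_lit 78) (nat_lit 0) (nat_lit 76) (XT.lf (nat_lit 76) (nat_lit 3842191091) (nat_lit 0) (nat_lit 4235686698) (nat_lit 1140) (nat_lit 5141232275) (nat_lit 184) (nat_lit 5) (nat_lit 183) (nat_lit 5) (nat_lit 198) (nat_lit 5) (nat_lit 266) (nat_lit 261) (nat_lit 193)) (XT.lf (nat_lit 76) (nat_lit 571695072) (nat_lit 0) (nat_lit 9045482201) (nat_lit 1140) (nat_lit 3932019925) (nat_lit 185) (nat_lit 5) (nat_lit 184) (nat_lit 5) (nat_lit 199) (nat_lit 5) (nat_lit 267) (nat_lit 261) (nat_lit 192))) (XT.nd (nat_lit 78) (nat_lit 988) (nat_lit 0) (XT.lf (nat_lit 76) (nat_lit 11142702581) (nat_lit 0) (nat_lit 191050924) (nat_lit 1140) (nat_lit 2559094453) (nat_lit 185) (nat_lit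 5) (nat_lit 184) (nat_lit 5) (nat_lit 199) (nat_lit 5) (nat_lit 268) (nat_lit 261) (nat_lit 191)) (XT.nd (nat_lit 78) (nat_lit 1064) (nat_lit 0) (XT.lf (nat_lit 76) (nat_lit 8030398272) (nat_lit 0) (nat_lit 5233876609) (nat_lit 1140) (nat_lit 985628240) (nat_lit 186) (nat_lit 5) (nat_lit 185) (nat_lit 5) (nat_lit 200) (nat_lit 5) (nat_lit 269) (nat_lit 261) (nat_lit 190)) (XT.lf (nat_lit 0) (nat_lit 734900876) (nat_lit 1140) (nat_lit 9821282756) (nat_lit 1216) (nat_lit 4066053763) (nat_lit 171) (nat_lit 5) (nat_lit 186) (nat_lit 5) (nat_lit 187) (nat_lit 5) (nat_lit 270) (nat_lit 261) (nat_lit 189))))) (XT.nd (nat_lit 234) (nat_lit 1140) (nat_lit 0) (XT.nd (nat_lit 78) (nat_lit 1064) (nat_lit 0) (XT.lf (nat_lit 76) (nat_lit 1427890716) (nat_lit 0) (nat_lit 1190559960) (nat_lit 1216) (nat_lit 12391581142) (nat_lit 172) (nat_lit 5) (nat_lit 171) (nat_lit 5) (nat_lit 187) (nat_lit 5) (nat_lit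 271) (nat_lit 261) (nat_lit 188)) (XT.nd (nat_lit 78) (nat_lit 1140) (nat_lit 0) (XT.lf (nat_lit 0) (nat_lit 4748760521) (nat_lit 1140) (nat_lit 2081508589) (nat_lit 76) (nat_lit 8582424186) (nat_lit 172) (nat_lit 5) (nat_lit 187) (nat_lit 5) (nat_lit 173) (nat_lit 5) (nat_lit 272) (nat_lit 261) (nat_lit 187)) (XT.lf (nat_lit 0) (nat_lit 7093850491) (nat_lit 1216) (nat_lit 5709273460) (nat_lit 76) (nat_lit 3029168159) (nat_lit 157) (nat_lit 5) (nat_lit 173) (nat_lit 5) (nat_lit 158) (nat_lit 5) (nat_lit 273) (nat_lit 261) (nat_lit 186)))) (XT.nd (nat_lit 78) (nat_lit 608) (nat_lit 0) (XT.lf (nat_lit 0) (nat_lit 6744618882) (nat_lit 532) (nat_lit 2937203509) (nat_lit 608) (nat_lit 6587329367) (nat_lit 150) (nat_lit 5) (nat_lit 157) (nat_lit 5) (nat_lit 158) (nat_lit 5) (nat_lit 274) (nat_lit 261) (nat_lit 185)) (XT.nd (nat_lit 78) (nat_lit 0) (nat_lit 0) (XT.lf (nat_lit 0) (nat_lit 3177456224)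 (nat_lit 608) (nat_lit 9354385510) (nat_lit 684) (nat_lit 4192080537) (nat_lit 142) (nat_lit 5) (nat_lit 150) (nat_lit 5) (nat_lit 151) (nat_lit 5) (nat_lit 275) (nat_lit 261) (nat_lit 184)) (XT.lf (nat_lit 0) (nat_lit 15634207379) (nat_lit 684) (nat_lit 551330208) (nat_lit 76) (nat_lit 1012643456) (nat_lit 142) (nat_lit 5) (nat_lit 151) (nat_lit 5) (nat_lit 143) (nat_lit 5) (nat_lit 276) (nat_lit 261) (nat_lit 183)))))) (XT.nd (nat_lit 390) (nat_lit 2052) (nat_lit 0) (XT.nd (nat_lit 156) (nat_lit 912) (nat_lit 0) (XT.nd (nat_lit 78) (nat_lit 532) (nat_lit 0) (XT.lf (nat_lit 0) (nat_lit 1369542905) (nat_lit 608) (nat_lit 4472274692) (nat_lit 76) (nat_lit 11848112075) (nat_lit 134) (nat_lit 5) (nat_lit 142) (nat_lit 5) (nat_lit 135) (nat_lit 5) (nat_lit 277) (nat_lit 261) (nat_lit 182)) (XT.lf (nat_lit 0) (nat_lit 4539886154) (nat_lit 608) (nat_lit 8626153412) (nat_lit 76) (nat_lit 5036126443)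 (nat_lit 127) (nat_lit 5) (nat_lit 135) (nat_lit 5) (nat_lit 128) (nat_lit 5) (nat_lit 278) (nat_lit 261) (nat_lit 181))) (XT.nd (nat_lit 78) (nat_lit 456) (nat_lit 0) (XT.lf (nat_lit 0) (nat_lit 5707806883) (nat_lit 456) (nat_lit 2296782173) (nat_lit 532) (nat_lit 10731387652) (nat_lit 121) (nat_lit 5) (nat_lit 127) (nat_lit 5) (nat_lit 128) (nat_lit 5) (nat_lit 279) (nat_lit 261) (nat_lit 180)) (XT.nd (nat_lit 78) (nat_lit 0) (nat_lit 0) (XT.lf (nat_lit 0) (nat_lit 1561183965) (nat_lit 456) (nat_lit 10250087143) (nat_lit 532) (nat_lit 7480180531) (nat_lit 115) (nat_lit 5) (nat_lit 121) (nat_lit 5) (nat_lit 122) (nat_lit 5) (nat_lit 280) (nat_lit 261) (nat_lit 179)) (XT.lf (nat_lit 0) (nat_lit 15953829307) (nat_lit 532) (nat_lit 2778200179) (nat_lit 76) (nat_lit 1138338872) (nat_lit 115) (nat_lit 5) (nat_lit 122) (nat_lit 5) (nat_lit 116) (nat_lit 5) (nat_lit 281) (nat_lit 261) (nat_lit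 178))))) (XT.nd (nat_lit 234) (nat_lit 760) (nat_lit 0) (XT.nd (nat_lit 78) (nat_lit 836) (nat_lit 0) (XT.lf (nat_lit 0) (nat_lit 37971070) (nat_lit 456) (nat_lit 7424207904) (nat_lit 76) (nat_lit 13009855724) (nat_lit 109) (nat_lit 5) (nat_lit 115) (nat_lit 5) (nat_lit 110) (nat_lit 5) (nat_lit 282) (nat_lit 261) (nat_lit 177)) (XT.nd (nat_lit 78) (nat_lit 380) (nat_lit 0) (XT.lf (nat_lit 0) (nat_lit 4245161876) (nat_lit 532) (nat_lit 12416786189) (nat_lit 76) (nat_lit 4436624511) (nat_lit 103) (nat_lit 5) (nat_lit 110) (nat_lit 5) (nat_lit 104) (nat_lit 5) (nat_lit 283) (nat_lit 261) (nat_lit 176)) (XT.lf (nat_lit 0) (nat_lit 3971417796) (nat_lit 380) (nat_lit 4861654970) (nat_lit 456) (nat_lit 12918282535) (nat_lit 98) (nat_lit 5) (nat_lit 103) (nat_lit 5) (nat_lit 104) (nat_lit 5) (nat_lit 284) (nat_lit 261) (nat_lit 175)))) (XT.nd (nat_lit 78) (nat_lit 760) (nat_lit 0) (XT.lf (nat_lit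 0) (nat_lit 13832225299) (nat_lit 456) (nat_lit 1092043820) (nat_lit 76) (nat_lit 7507080060) (nat_lit 98) (nat_lit 5) (nat_lit 104) (nat_lit 5) (nat_lit 99) (nat_lit 5) (nat_lit 285) (nat_lit 261) (nat_lit 174)) (XT.nd (nat_lit 78) (nat_lit 380) (nat_lit 0) (XT.lf (nat_lit 0) (nat_lit 16683907351) (nat_lit 380) (nat_lit 2588198349) (nat_lit 456) (nat_lit 3867540039) (nat_lit 93) (nat_lit 5) (nat_lit 98) (nat_lit 5) (nat_lit 99) (nat_lit 5) (nat_lit 286) (nat_lit 261) (nat_lit 173)) (XT.lf (nat_lit 0) (nat_lit 1285521526) (nat_lit 380) (nat_lit 12297634807) (nat_lit 76) (nat_lit 10293716254) (nat_lit 88) (nat_lit 5) (nat_lit 93) (nat_lit 5) (nat_lit 89) (nat_lit 5) (nat_lit 287) (nat_lit 261) (nat_lit 172))))))) (XT.nd (nat_lit 858) (nat_lit 1596) (nat_lit 0) (XT.nd (nat_lit 390) (nat_lit 1140) (nat_lit 0) (XT.nd (nat_lit 156) (nat_lit 988) (nat_lit 0) (XT.nd (nat_lit 78) (nat_lit 0) (nat_lit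 0) (XT.lf (nat_lit 0) (nat_lit 6031354730) (nat_lit 380) (nat_lit 719264926) (nat_lit 456) (nat_lit 17895184223) (nat_lit 83) (nat_lit 5) (nat_lit 88) (nat_lit 5) (nat_lit 89) (nat_lit 5) (nat_lit 288) (nat_lit 261) (nat_lit 171)) (XT.lf (nat_lit 0) (nat_lit 12722737676) (nat_lit 456) (nat_lit 62048157) (nat_lit 76) (nat_lit 12661404838) (nat_lit 83) (nat_lit 5) (nat_lit 89) (nat_lit 5) (nat_lit 84) (nat_lit 5) (nat_lit 289) (nat_lit 261) (nat_lit 170))) (XT.nd (nat_lit 78) (nat_lit 684) (nat_lit 0) (XT.lf (nat_lit 0) (nat_lit 19180393334) (nat_lit 380) (nat_lit 6511559982) (nat_lit 76) (nat_lit 589056376) (nat_lit 79) (nat_lit 5) (nat_lit 84) (nat_lit 5) (nat_lit 80) (nat_lit 5) (nat_lit 290) (nat_lit 261) (nat_lit 169)) (XT.nd (nat_lit 78) (nat_lit 380) (nat_lit 0) (XT.lf (nat_lit 0) (nat_lit 13550606163) (nat_lit 304) (nat_lit 12654596517) (nat_lit 380) (nat_lit 945058708) (nat_lit 75)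 (nat_lit 5) (nat_lit 79) (nat_lit 5) (nat_lit 80) (nat_lit 5) (nat_lit 291) (nat_lit 261) (nat_lit 168)) (XT.lf (nat_lit 0) (nat_lit 5539599035) (nat_lit 380) (nat_lit 21321410632) (nat_lit 76) (nat_lit 1196522894) (nat_lit 70) (nat_lit 5) (nat_lit 75) (nat_lit 5) (nat_lit 71) (nat_lit 5) (nat_lit 292) (nat_lit 261) (nat_lit 167))))) (XT.nd (nat_lit 234) (nat_lit 608) (nat_lit 0) (XT.nd (nat_lit 78) (nat_lit 532) (nat_lit 0) (XT.lf (nat_lit 0) (nat_lit 12583427578) (nat_lit 380) (nat_lit 792307452) (nat_lit 76) (nat_lit 15626534537) (nat_lit 70) (nat_lit 5) (nat_lit 75) (nat_lit 5) (nat_lit 71) (nat_lit 5) (nat_lit 293) (nat_lit 261) (nat_lit 166)) (XT.nd (nat_lit 78) (nat_lit 228) (nat_lit 0) (XT.lf (nat_lit 0) (nat_lit 20178210077) (nat_lit 380) (nat_lit 8841577389) (nat_lit 76) (nat_lit 968509730) (nat_lit 66) (nat_lit 5) (nat_lit 71) (nat_lit 5) (nat_lit 67) (nat_lit 5) (nat_lit 294)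 (nat_lit 261) (nat_lit 165)) (XT.lf (nat_lit 0) (nat_lit 13280538475) (nat_lit 228) (nat_lit 15129429938) (nat_lit 304) (nat_lit 2605956546) (nat_lit 63) (nat_lit 5) (nat_lit 66) (nat_lit 5) (nat_lit 67) (nat_lit 5) (nat_lit 295) (nat_lit 261) (nat_lit 164)))) (XT.nd (nat_lit 78) (nat_lit 228) (nat_lit 0) (XT.lf (nat_lit 0) (nat_lit 4623858236) (nat_lit 304) (nat_lit 360789978) (nat_lit 380) (nat_lit 27105179961) (nat_lit 58) (nat_lit 5) (nat_lit 62) (nat_lit 5) (nat_lit 63) (nat_lit 5) (nat_lit 296) (nat_lit 261) (nat_lit 163)) (XT.nd (nat_lit 78) (nat_lit 228) (nat_lit 0) (XT.lf (nat_lit 0) (nat_lit 13218422928) (nat_lit 380) (nat_lit 4932895126) (nat_lit 76) (nat_lit 15055822367) (nat_lit 58) (nat_lit 5) (nat_lit 63) (nat_lit 5) (nat_lit 59) (nat_lit 5) (nat_lit 297) (nat_lit 261) (nat_lit 162)) (XT.lf (nat_lit 0) (nat_lit 19077439753) (nat_lit 228) (nat_lit 2961149124) (nat_lit 304) (nat_lit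 12336501625) (nat_lit 55) (nat_lit 5) (nat_lit 58) (nat_lit 5) (nat_lit 59) (nat_lit 5) (nat_lit 298) (nat_lit 261) (nat_lit 161)))))) (XT.nd (nat_lit 390) (nat_lit 836) (nat_lit 0) (XT.nd (nat_lit 156) (nat_lit 456) (nat_lit 0) (XT.nd (nat_lit 78) (nat_lit 76) (nat_lit 0) (XT.lf (nat_lit 0) (nat_lit 8820399934) (nat_lit 228) (nat_lit 22728328165) (nat_lit 304) (nat_lit 4045253702) (nat_lit 52) (nat_lit 5) (nat_lit 55) (nat_lit 5) (nat_lit 56) (nat_lit 5) (nat_lit 299) (nat_lit 261) (nat_lit 160)) (XT.lf (nat_lit 0) (nat_lit 4746853407) (nat_lit 304) (nat_lit 2498865645) (nat_lit 76) (nat_lit 29621449089) (nat_lit 51) (nat_lit 5) (nat_lit 55) (nat_lit 5) (nat_lit 52) (nat_lit 5) (nat_lit 300) (nat_lit 261) (nat_lit 159))) (XT.nd (nat_lit 78) (nat_lit 228) (nat_lit 0) (XT.lf (nat_lit 0) (nat_lit 14198576064) (nat_lit 304) (nat_lit 14897154327) (nat_lit 76) (nat_lit 9097982830) (nat_lit 48)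 (nat_lit 5) (nat_lit 52) (nat_lit 5) (nat_lit 49) (nat_lit 5) (nat_lit 301) (nat_lit 261) (nat_lit 158)) (XT.nd (nat_lit 78) (nat_lit 0) (nat_lit 0) (XT.lf (nat_lit 0) (nat_lit 10972362899) (nat_lit 228) (nat_lit 13344301768) (nat_lit 304) (nat_lit 15264118115) (nat_lit 45) (nat_lit 5) (nat_lit 48) (nat_lit 5) (nat_lit 49) (nat_lit 5) (nat_lit 302) (nat_lit 261) (nat_lit 157)) (XT.lf (nat_lit 0) (nat_lit 35115740543) (nat_lit 304) (nat_lit 2634486019) (nat_lit 76) (nat_lit 3281736889) (nat_lit 45) (nat_lit 5) (nat_lit 49) (nat_lit 5) (nat_lit 46) (nat_lit 5) (nat_lit 303) (nat_lit 261) (nat_lit 156))))) (XT.nd (nat_lit 234) (nat_lit 380) (nat_lit 0) (XT.nd (nat_lit 78) (nat_lit 228) (nat_lit 0) (XT.lf (nat_lit 0) (nat_lit 4191351171) (nat_lit 228) (nat_lit 17610585407) (nat_lit 76) (nat_lit 20741600454) (nat_lit 42) (nat_lit 5) (nat_lit 45) (nat_lit 5) (nat_lit 43) (nat_lit 5) (nat_lit 304)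 (nat_lit 261) (nat_lit 155)) (XT.nd (nat_lit 78) (nat_lit 0) (nat_lit 0) (XT.lf (nat_lit 0) (nat_lit 9922278702) (nat_lit 228) (nat_lit 4873801574) (nat_lit 304) (nat_lit 29329436643) (nat_lit 39) (nat_lit 5) (nat_lit 42) (nat_lit 5) (nat_lit 43) (nat_lit 5) (nat_lit 305) (nat_lit 261) (nat_lit 154)) (XT.lf (nat_lit 0) (nat_lit 26228634733) (nat_lit 304) (nat_lit 6722264753) (nat_lit 76) (nat_lit 12826777130) (nat_lit 39) (nat_lit 5) (nat_lit 43) (nat_lit 5) (nat_lit 40) (nat_lit 5) (nat_lit 306) (nat_lit 261) (nat_lit 153)))) (XT.nd (nat_lit 78) (nat_lit 228) (nat_lit 0) (XT.lf (nat_lit 0) (nat_lit 22508405694) (nat_lit 152) (nat_lit 15980919430) (nat_lit 228) (nat_lit 9015432008) (nat_lit 37) (nat_lit 5) (nat_lit 39) (nat_lit 5) (nat_lit 40) (nat_lit 5) (nat_lit 307) (nat_lit 261) (nat_lit 152)) (XT.nd (nat_lit 78) (nat_lit 0) (nat_lit 0) (XT.lf (nat_lit 0) (nat_lit 2124003346) (nat_lit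 228) (nat_lit 45263595635) (nat_lit 76) (nat_lit 1926439043) (nat_lit 34) (nat_lit 5) (nat_lit 37) (nat_lit 5) (nat_lit 35) (nat_lit 5) (nat_lit 308) (nat_lit 261) (nat_lit 151)) (XT.lf (nat_lit 0) (nat_lit 14048245978) (nat_lit 228) (nat_lit 16402938259) (nat_lit 76) (nat_lit 20747499335) (nat_lit 34) (nat_lit 5) (nat_lit 37) (nat_lit 5) (nat_lit 35) (nat_lit 5) (nat_lit 309) (nat_lit 261) (nat_lit 150))))))))
noncomputable def xc89 : XT := (XT.nd (nat_lit 34008) (nat_lit 0) (nat_lit 6308) (XT.nd (nat_lit 858) (nat_lit 456) (nat_lit 0) (XT.nd (nat_lit 390) (nat_lit 456) (nat_lit 0) (XT.nd (nat_lit 156) (nat_lit 380) (nat_lit 0) (XT.nd (nat_lit 78) (nat_lit 0) (nat_lit 0) (XT.lf (nat_lit 0) (nat_lit 14163845351) (nat_lit 152) (nat_lit 12532809682) (nat_lit 228) (nat_lit 26477074510) (nat_lit 32) (nat_lit 5) (nat_lit 34) (nat_lit 5) (nat_lit 35) (nat_lit 5) (nat_lit 310) (nat_lit 261) (nat_lit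 149)) (XT.lf (nat_lit 0) (nat_lit 40200412674) (nat_lit 228) (nat_lit 8715883862) (nat_lit 76) (nat_lit 6324549888) (nat_lit 32) (nat_lit 5) (nat_lit 35) (nat_lit 5) (nat_lit 33) (nat_lit 5) (nat_lit 311) (nat_lit 261) (nat_lit 148))) (XT.nd (nat_lit 78) (nat_lit 228) (nat_lit 0) (XT.lf (nat_lit 0) (nat_lit 23410660695) (nat_lit 152) (nat_lit 31312632798) (nat_lit 228) (nat_lit 2677713742) (nat_lit 30) (nat_lit 5) (nat_lit 32) (nat_lit 5) (nat_lit 33) (nat_lit 5) (nat_lit 312) (nat_lit 261) (nat_lit 147)) (XT.nd (nat_lit 78) (nat_lit 152) (nat_lit 0) (XT.lf (nat_lit 0) (nat_lit 10185269276) (nat_lit 228) (nat_lit 2453025169) (nat_lit 76) (nat_lit 47025420769) (nat_lit 29) (nat_lit 5) (nat_lit 32) (nat_lit 5) (nat_lit 30) (nat_lit 5) (nat_lit 313) (nat_lit 261) (nat_lit 146)) (XT.lf (nat_lit 0) (nat_lit 23999871954) (nat_lit 228) (nat_lit 30868266499) (nat_lit 76) (nat_lit 7159714698) (nat_lit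 27) (nat_lit 5) (nat_lit 30) (nat_lit 5) (nat_lit 28) (nat_lit 5) (nat_lit 314) (nat_lit 261) (nat_lit 145))))) (XT.nd (nat_lit 234) (nat_lit 152) (nat_lit 0) (XT.nd (nat_lit 78) (nat_lit 152) (nat_lit 0) (XT.lf (nat_lit 0) (nat_lit 1892234215) (nat_lit 152) (nat_lit 36777329143) (nat_lit 228) (nat_lit 25835709023) (nat_lit 25) (nat_lit 5) (nat_lit 27) (nat_lit 5) (nat_lit 28) (nat_lit 5) (nat_lit 315) (nat_lit 261) (nat_lit 144)) (XT.nd (nat_lit 78) (nat_lit 152) (nat_lit 0) (XT.lf (nat_lit 0) (nat_lit 36924618058) (nat_lit 152) (nat_lit 17459209643) (nat_lit 228) (nat_lit 12713407131) (nat_lit 25) (nat_lit 5) (nat_lit 27) (nat_lit 5) (nat_lit 28) (nat_lit 5) (nat_lit 316) (nat_lit 261) (nat_lit 143)) (XT.lf (nat_lit 0) (nat_lit 1103322776) (nat_lit 152) (nat_lit 65899348673) (nat_lit 76) (nat_lit 2814048516) (nat_lit 23) (nat_lit 5) (nat_lit 25) (nat_lit 5) (nat_lit 24) (nat_lit 5) (nat_lit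 317) (nat_lit 261) (nat_lit 142)))) (XT.nd (nat_lit 78) (nat_lit 152) (nat_lit 0) (XT.lf (nat_lit 0) (nat_lit 15834037411) (nat_lit 152) (nat_lit 32638735762) (nat_lit 76) (nat_lit 24181051816) (nat_lit 23) (nat_lit 5) (nat_lit 25) (nat_lit 5) (nat_lit 24) (nat_lit 5) (nat_lit 318) (nat_lit 261) (nat_lit 141)) (XT.nd (nat_lit 78) (nat_lit 0) (nat_lit 0) (XT.lf (nat_lit 0) (nat_lit 2320049508) (nat_lit 152) (nat_lit 28997579112) (nat_lit 228) (nat_lit 44314670536) (nat_lit 21) (nat_lit 5) (nat_lit 23) (nat_lit 5) (nat_lit 24) (nat_lit 5) (nat_lit 319) (nat_lit 261) (nat_lit 140)) (XT.lf (nat_lit 0) (nat_lit 39698987216) (nat_lit 152) (nat_lit 8206627527) (nat_lit 228) (nat_lit 30844179749) (nat_lit 21) (nat_lit 5) (nat_lit 23) (nat_lit 5) (nat_lit 24) (nat_lit 5) (nat_lit 320) (nat_lit 261) (nat_lit 139)))))) (XT.nd (nat_lit 390) (nat_lit 152) (nat_lit 0) (XT.nd (nat_lit 156) (nat_lit 228)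 (nat_lit 0) (XT.nd (nat_lit 78) (nat_lit 76) (nat_lit 0) (XT.lf (nat_lit 0) (nat_lit 65448427118) (nat_lit 228) (nat_lit 3216756983) (nat_lit 76) (nat_lit 13354221419) (nat_lit 21) (nat_lit 5) (nat_lit 24) (nat_lit 5) (nat_lit 22) (nat_lit 4) (nat_lit 321) (nat_lit 261) (nat_lit 138)) (XT.lf (nat_lit 0) (nat_lit 35000091521) (nat_lit 76) (nat_lit 49282291846) (nat_lit 152) (nat_lit 1157697194) (nat_lit 20) (nat_lit 5) (nat_lit 21) (nat_lit 5) (nat_lit 22) (nat_lit 4) (nat_lit 322) (nat_lit 261) (nat_lit 137))) (XT.nd (nat_lit 78) (nat_lit 152) (nat_lit 0) (XT.lf (nat_lit 0) (nat_lit 14761315484) (nat_lit 152) (nat_lit 13989459256) (nat_lit 76) (nat_lit 60275836146) (nat_lit 19) (nat_lit 5) (nat_lit 21) (nat_lit 5) (nat_lit 20) (nat_lit 5) (nat_lit 323) (nat_lit 261) (nat_lit 136)) (XT.nd (nat_lit 78) (nat_lit 0) (nat_lit 0) (XT.lf (nat_lit 0) (nat_lit 24746328596) (nat_lit 152) (nat_lit 6939194376)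 (nat_lit 228) (nat_lit 61099608404) (nat_lit 17) (nat_lit 5) (nat_lit 19) (nat_lit 5) (nat_lit 20) (nat_lit 5) (nat_lit 324) (nat_lit 261) (nat_lit 135)) (XT.lf (nat_lit 0) (nat_lit 49750030720) (nat_lit 228) (nat_lit 31179227773) (nat_lit 76) (nat_lit 15793499683) (nat_lit 17) (nat_lit 5) (nat_lit 20) (nat_lit 5) (nat_lit 18) (nat_lit 4) (nat_lit 325) (nat_lit 261) (nat_lit 134))))) (XT.nd (nat_lit 32526) (nat_lit 0) (nat_lit 12540) (XT.nd (nat_lit 78) (nat_lit 76) (nat_lit 0) (XT.lf (nat_lit 0) (nat_lit 7593518253) (nat_lit 76) (nat_lit 61262715378) (nat_lit 152) (nat_lit 31996881433) (nat_lit 16) (nat_lit 5) (nat_lit 17) (nat_lit 5) (nat_lit 18) (nat_lit 4) (nat_lit 326) (nat_lit 261) (nat_lit 133)) (XT.nd (nat_lit 78) (nat_lit 76) (nat_lit 0) (XT.lf (nat_lit 0) (nat_lit 48948737847) (nat_lit 76) (nat_lit 40285551828) (nat_lit 152) (nat_lit 15946206537) (nat_lit 16) (nat_lit 5) (nat_lit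 17) (nat_lit 5) (nat_lit 18) (nat_lit 4) (nat_lit 327) (nat_lit 261) (nat_lit 132)) (XT.lf (nat_lit 0) (nat_lit 885049830) (nat_lit 152) (nat_lit 17368684182) (nat_lit 76) (nat_lit 91470380951) (nat_lit 15) (nat_lit 5) (nat_lit 17) (nat_lit 5) (nat_lit 16) (nat_lit 5) (nat_lit 328) (nat_lit 261) (nat_lit 131)))) (XT.nd (nat_lit 78) (nat_lit 0) (nat_lit 76) (XT.lf (nat_lit 0) (nat_lit 2045270457) (nat_lit 1140) (nat_lit 2052291895) (nat_lit 1140) (nat_lit 2052291895) (nat_lit 180) (nat_lit 3) (nat_lit 195) (nat_lit 3) (nat_lit 195) (nat_lit 5) (nat_lit 262) (nat_lit 262) (nat_lit 196)) (XT.nd (nat_lit 78) (nat_lit 0) (nat_lit 0) (XT.lf (nat_lit 0) (nat_lit 4927674598) (nat_lit 1064) (nat_lit 7648518708) (nat_lit 1140) (nat_lit 7720809) (nat_lit 181) (nat_lit 5) (nat_lit 195) (nat_lit 5) (nat_lit 196) (nat_lit 5) (nat_lit 263) (nat_lit 262) (nat_lit 195)) (XT.lf (nat_lit 76) (nat_lit 1554525899)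 (nat_lit 0) (nat_lit 4348449825) (nat_lit 1140) (nat_lit 6976544409) (nat_lit 182) (nat_lit 5) (nat_lit 181) (nat_lit 5) (nat_lit 196) (nat_lit 5) (nat_lit 264) (nat_lit 262) (nat_lit 194))))))) (XT.nd (nat_lit 858) (nat_lit 3952) (nat_lit 0) (XT.nd (nat_lit 390) (nat_lit 2432) (nat_lit 0) (XT.nd (nat_lit 156) (nat_lit 0) (nat_lit 76) (XT.nd (nat_lit 78) (nat_lit 0) (nat_lit 0) (XT.lf (nat_lit 0) (nat_lit 7005820762) (nat_lit 1064) (nat_lit 1877578549) (nat_lit 1140) (nat_lit 4304219430) (nat_lit 182) (nat_lit 5) (nat_lit 196) (nat_lit 5) (nat_lit 197) (nat_lit 5) (nat_lit 265) (nat_lit 262) (nat_lit 193)) (XT.lf (nat_lit 76) (nat_lit 8132668745) (nat_lit 0) (nat_lit 113224407) (nat_lit 1140) (nat_lit 5262838629) (nat_lit 183) (nat_lit 5) (nat_lit 182) (nat_lit 5) (nat_lit 197) (nat_lit 5) (nat_lit 266) (nat_lit 262) (nat_lit 192))) (XT.nd (nat_lit 78) (nat_lit 0) (nat_lit 76) (XT.lf (nat_lit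 76) (nat_lit 4818744606) (nat_lit 0) (nat_lit 4844332139) (nat_lit 1140) (nat_lit 4179439121) (nat_lit 184) (nat_lit 5) (nat_lit 183) (nat_lit 5) (nat_lit 198) (nat_lit 5) (nat_lit 267) (nat_lit 262) (nat_lit 191)) (XT.nd (nat_lit 78) (nat_lit 0) (nat_lit 0) (XT.lf (nat_lit 76) (nat_lit 1402416723) (nat_lit 0) (nat_lit 9824749278) (nat_lit 1140) (nat_lit 2963607115) (nat_lit 185) (nat_lit 5) (nat_lit 184) (nat_lit 5) (nat_lit 199) (nat_lit 5) (nat_lit 268) (nat_lit 262) (nat_lit 190)) (XT.lf (nat_lit 76) (nat_lit 12463777612) (nat_lit 0) (nat_lit 512025344) (nat_lit 1140) (nat_lit 1577512217) (nat_lit 185) (nat_lit 5) (nat_lit 184) (nat_lit 5) (nat_lit 199) (nat_lit 5) (nat_lit 269) (nat_lit 262) (nat_lit 189))))) (XT.nd (nat_lit 234) (nat_lit 1520) (nat_lit 0) (XT.nd (nat_lit 78) (nat_lit 0) (nat_lit 76) (XT.lf (nat_lit 0) (nat_lit 26041779) (nat_lit 1140) (nat_lit 5719903697) (nat_lit 1216)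 (nat_lit 9183758479) (nat_lit 170) (nat_lit 5) (nat_lit 185) (nat_lit 5) (nat_lit 186) (nat_lit 5) (nat_lit 270) (nat_lit 262) (nat_lit 188)) (XT.nd (nat_lit 78) (nat_lit 0) (nat_lit 0) (XT.lf (nat_lit 0) (nat_lit 1768193890) (nat_lit 1140) (nat_lit 9500898252) (nat_lit 1216) (nat_lit 4052674903) (nat_lit 171) (nat_lit 5) (nat_lit 186) (nat_lit 5) (nat_lit 187) (nat_lit 5) (nat_lit 271) (nat_lit 262) (nat_lit 187)) (XT.lf (nat_lit 76) (nat_lit 2287473881) (nat_lit 0) (nat_lit 1418569185) (nat_lit 1216) (nat_lit 12024184742) (nat_lit 172) (nat_lit 5) (nat_lit 171) (nat_lit 5) (nat_lit 187) (nat_lit 5) (nat_lit 272) (nat_lit 262) (nat_lit 186)))) (XT.nd (nat_lit 78) (nat_lit 1672) (nat_lit 0) (XT.lf (nat_lit 0) (nat_lit 5895770272) (nat_lit 1140) (nat_lit 1404523281) (nat_lit 76) (nat_lit 8854218204) (nat_lit 172) (nat_lit 5) (nat_lit 187) (nat_lit 5) (nat_lit 173) (nat_lit 5) (nat_lit 273)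 (nat_lit 262) (nat_lit 185)) (XT.nd (nat_lit 78) (nat_lit 532) (nat_lit 0) (XT.lf (nat_lit 0) (nat_lit 8320990324) (nat_lit 1216) (nat_lit 5207298261) (nat_lit 76) (nat_lit 3067988472) (nat_lit 157) (nat_lit 5) (nat_lit 173) (nat_lit 5) (nat_lit 158) (nat_lit 5) (nat_lit 274) (nat_lit 262) (nat_lit 184)) (XT.lf (nat_lit 0) (nat_lit 7846716921) (nat_lit 532) (nat_lit 3157451159) (nat_lit 608) (nat_lit 6051906734) (nat_lit 150) (nat_lit 5) (nat_lit 157) (nat_lit 5) (nat_lit 158) (nat_lit 5) (nat_lit 275) (nat_lit 262) (nat_lit 183)))))) (XT.nd (nat_lit 390) (nat_lit 1748) (nat_lit 0) (XT.nd (nat_lit 156) (nat_lit 1064) (nat_lit 0) (XT.nd (nat_lit 78) (nat_lit 532) (nat_lit 0) (XT.lf (nat_lit 0) (nat_lit 4105730517) (nat_lit 608) (nat_lit 9857765093) (nat_lit 684) (nat_lit 3571150068) (nat_lit 142) (nat_lit 5) (nat_lit 150) (nat_lit 5) (nat_lit 151) (nat_lit 5) (nat_lit 276) (nat_lit 262) (nat_lit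 182)) (XT.lf (nat_lit 0) (nat_lit 182004343) (nat_lit 532) (nat_lit 17002061989) (nat_lit 608) (nat_lit 849721350) (nat_lit 135) (nat_lit 5) (nat_lit 142) (nat_lit 5) (nat_lit 143) (nat_lit 5) (nat_lit 277) (nat_lit 262) (nat_lit 181))) (XT.nd (nat_lit 78) (nat_lit 988) (nat_lit 0) (XT.lf (nat_lit 0) (nat_lit 2183466789) (nat_lit 608) (nat_lit 3944249186) (nat_lit 76) (nat_lit 12423183621) (nat_lit 134) (nat_lit 5) (nat_lit 142) (nat_lit 5) (nat_lit 135) (nat_lit 5) (nat_lit 278) (nat_lit 262) (nat_lit 180)) (XT.nd (nat_lit 78) (nat_lit 456) (nat_lit 0) (XT.lf (nat_lit 0) (nat_lit 5483974021) (nat_lit 608) (nat_lit 8304876817) (nat_lit 76) (nat_lit 5300802896) (nat_lit 127) (nat_lit 5) (nat_lit 135) (nat_lit 5) (nat_lit 128) (nat_lit 5) (nat_lit 279) (nat_lit 262) (nat_lit 179)) (XT.lf (nat_lit 0) (nat_lit 6724208816) (nat_lit 456) (nat_lit 2370582870) (nat_lit 532) (nat_lit 10556229643)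 (nat_lit 121) (nat_lit 5) (nat_lit 127) (nat_lit 5) (nat_lit 128) (nat_lit 5) (nat_lit 280) (nat_lit 262) (nat_lit 178))))) (XT.nd (nat_lit 234) (nat_lit 836) (nat_lit 0) (XT.nd (nat_lit 78) (nat_lit 456) (nat_lit 0) (XT.lf (nat_lit 0) (nat_lit 2370047907) (nat_lit 456) (nat_lit 10696304712) (nat_lit 532) (nat_lit 7168731284) (nat_lit 115) (nat_lit 5) (nat_lit 121) (nat_lit 5) (nat_lit 122) (nat_lit 5) (nat_lit 281) (nat_lit 262) (nat_lit 177)) (XT.nd (nat_lit 78) (nat_lit 456) (nat_lit 0) (XT.lf (nat_lit 0) (nat_lit 17385001863) (nat_lit 532) (nat_lit 2201769356) (nat_lit 76) (nat_lit 1257154191) (nat_lit 115) (nat_lit 5) (nat_lit 122) (nat_lit 5) (nat_lit 116) (nat_lit 5) (nat_lit 282) (nat_lit 262) (nat_lit 176)) (XT.lf (nat_lit 0) (nat_lit 656797263) (nat_lit 456) (nat_lit 7087419680) (nat_lit 76) (nat_lit 13732026840) (nat_lit 109) (nat_lit 5) (nat_lit 115) (nat_lit 5) (nat_lit 110)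 (nat_lit 5) (nat_lit 283) (nat_lit 262) (nat_lit 175)))) (XT.nd (nat_lit 78) (nat_lit 380) (nat_lit 0) (XT.lf (nat_lit 0) (nat_lit 5052479929) (nat_lit 532) (nat_lit 12332153204) (nat_lit 76) (nat_lit 4750173588) (nat_lit 103) (nat_lit 5) (nat_lit 110) (nat_lit 5) (nat_lit 104) (nat_lit 5) (nat_lit 284) (nat_lit 262) (nat_lit 174)) (XT.nd (nat_lit 78) (nat_lit 0) (nat_lit 0) (XT.lf (nat_lit 0) (nat_lit 4855238759) (nat_lit 380) (nat_lit 4992798459) (nat_lit 456) (nat_lit 12972883966) (nat_lit 98) (nat_lit 5) (nat_lit 103) (nat_lit 5) (nat_lit 104) (nat_lit 5) (nat_lit 285) (nat_lit 262) (nat_lit 173)) (XT.lf (nat_lit 0) (nat_lit 15070871652) (nat_lit 456) (nat_lit 477907033) (nat_lit 76) (nat_lit 7986962560) (nat_lit 98) (nat_lit 5) (nat_lit 104) (nat_lit 5) (nat_lit 99) (nat_lit 5) (nat_lit 286) (nat_lit 262) (nat_lit 172))))))))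
noncomputable def xc90 : XT := (XT.nd (nat_lit 1716) (nat_lit 1596) (nat_lit 0) (XT.nd (nat_lit 858) (nat_lit 1596) (nat_lit 0) (XT.nd (nat_lit 390) (nat_lit 1596) (nat_lit 0) (XT.nd (nat_lit 156) (nat_lit 684) (nat_lit 0) (XT.nd (nat_lit 78) (nat_lit 380) (nat_lit 0) (XT.lf (nat_lit 0) (nat_lit 18167672428) (nat_lit 380) (nat_lit 2595268416) (nat_lit 456) (nat_lit 3517142342) (nat_lit 93) (nat_lit 5) (nat_lit 98) (nat_lit 5) (nat_lit 99) (nat_lit 5) (nat_lit 287) (nat_lit 262) (nat_lit 171)) (XT.lf (nat_lit 0) (nat_lit 1864973693) (nat_lit 380) (nat_lit 12255712233) (nat_lit 76) (nat_lit 10933901922) (nat_lit 88) (nat_lit 5) (nat_lit 93) (nat_lit 5) (nat_lit 89) (nat_lit 5) (nat_lit 288) (nat_lit 262) (nat_lit 170))) (XT.nd (nat_lit 78) (nat_lit 304) (nat_lit 0) (XT.lf (nat_lit 0) (nat_lit 6970899618) (nat_lit 380) (nat_lit 614027543) (nat_lit 456) (nat_lit 18277622581) (nat_lit 83) (nat_lit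 5) (nat_lit 88) (nat_lit 5) (nat_lit 89) (nat_lit 5) (nat_lit 289) (nat_lit 262) (nat_lit 169)) (XT.nd (nat_lit 78) (nat_lit 0) (nat_lit 0) (XT.lf (nat_lit 0) (nat_lit 567022830) (nat_lit 304) (nat_lit 13271715470) (nat_lit 380) (nat_lit 12864755483) (nat_lit 79) (nat_lit 5) (nat_lit 83) (nat_lit 5) (nat_lit 84) (nat_lit 5) (nat_lit 290) (nat_lit 262) (nat_lit 168)) (XT.lf (nat_lit 0) (nat_lit 20598434801) (nat_lit 380) (nat_lit 6220923518) (nat_lit 76) (nat_lit 761349767) (nat_lit 79) (nat_lit 5) (nat_lit 84) (nat_lit 5) (nat_lit 80) (nat_lit 5) (nat_lit 291) (nat_lit 262) (nat_lit 167))))) (XT.nd (nat_lit 234) (nat_lit 912) (nat_lit 0) (XT.nd (nat_lit 78) (nat_lit 380) (nat_lit 0) (XT.lf (nat_lit 0) (nat_lit 14826687271) (nat_lit 304) (nat_lit 13131692799) (nat_lit 380) (nat_lit 535553120) (nat_lit 75) (nat_lit 5) (nat_lit 79) (nat_lit 5) (nat_lit 80) (nat_lit 5) (nat_lit 292) (nat_lit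 262) (nat_lit 166)) (XT.nd (nat_lit 78) (nat_lit 0) (nat_lit 0) (XT.lf (nat_lit 0) (nat_lit 6250297894) (nat_lit 380) (nat_lit 21784952476) (nat_lit 76) (nat_lit 1411635232) (nat_lit 70) (nat_lit 5) (nat_lit 75) (nat_lit 5) (nat_lit 71) (nat_lit 5) (nat_lit 293) (nat_lit 262) (nat_lit 165)) (XT.lf (nat_lit 0) (nat_lit 13625664582) (nat_lit 380) (nat_lit 258085979) (nat_lit 76) (nat_lit 16555752877) (nat_lit 70) (nat_lit 5) (nat_lit 75) (nat_lit 5) (nat_lit 71) (nat_lit 5) (nat_lit 294) (nat_lit 262) (nat_lit 164)))) (XT.nd (nat_lit 78) (nat_lit 608) (nat_lit 0) (XT.lf (nat_lit 0) (nat_lit 21587399257) (nat_lit 380) (nat_lit 8715366187) (nat_lit 76) (nat_lit 1172473833) (nat_lit 66) (nat_lit 5) (nat_lit 71) (nat_lit 5) (nat_lit 67) (nat_lit 5) (nat_lit 295) (nat_lit 262) (nat_lit 163)) (XT.nd (nat_lit 78) (nat_lit 380) (nat_lit 0) (XT.lf (nat_lit 0) (nat_lit 14496565549) (nat_lit 228) (nat_lit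 15720425234) (nat_lit 304) (nat_lit 2337692403) (nat_lit 63) (nat_lit 5) (nat_lit 66) (nat_lit 5) (nat_lit 67) (nat_lit 5) (nat_lit 296) (nat_lit 262) (nat_lit 162)) (XT.lf (nat_lit 0) (nat_lit 5399199878) (nat_lit 304) (nat_lit 212087239) (nat_lit 380) (nat_lit 28071301302) (nat_lit 58) (nat_lit 5) (nat_lit 62) (nat_lit 5) (nat_lit 63) (nat_lit 5) (nat_lit 297) (nat_lit 262) (nat_lit 161)))))) (XT.nd (nat_lit 390) (nat_lit 836) (nat_lit 0) (XT.nd (nat_lit 156) (nat_lit 532) (nat_lit 0) (XT.nd (nat_lit 78) (nat_lit 228) (nat_lit 0) (XT.lf (nat_lit 0) (nat_lit 14240305332) (nat_lit 380) (nat_lit 4651656961) (nat_lit 76) (nat_lit 15964316815) (nat_lit 58) (nat_lit 5) (nat_lit 63) (nat_lit 5) (nat_lit 59) (nat_lit 5) (nat_lit 298) (nat_lit 262) (nat_lit 160)) (XT.lf (nat_lit 0) (nat_lit 20544063004) (nat_lit 228) (nat_lit 2945156821) (nat_lit 304) (nat_lit 12593793208) (nat_lit 55) (nat_lit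 5) (nat_lit 58) (nat_lit 5) (nat_lit 59) (nat_lit 5) (nat_lit 299) (nat_lit 262) (nat_lit 159))) (XT.nd (nat_lit 78) (nat_lit 304) (nat_lit 0) (XT.lf (nat_lit 0) (nat_lit 9768463036) (nat_lit 228) (nat_lit 23696174002) (nat_lit 304) (nat_lit 3898536393) (nat_lit 52) (nat_lit 5) (nat_lit 55) (nat_lit 5) (nat_lit 56) (nat_lit 5) (nat_lit 300) (nat_lit 262) (nat_lit 158)) (XT.nd (nat_lit 78) (nat_lit 228) (nat_lit 0) (XT.lf (nat_lit 0) (nat_lit 5310072399) (nat_lit 304) (nat_lit 2134098492) (nat_lit 76) (nat_lit 31256252705) (nat_lit 51) (nat_lit 5) (nat_lit 55) (nat_lit 5) (nat_lit 52) (nat_lit 5) (nat_lit 301) (nat_lit 262) (nat_lit 157)) (XT.lf (nat_lit 0) (nat_lit 15224980880) (nat_lit 304) (nat_lit 15158125179) (nat_lit 76) (nat_lit 9710487436) (nat_lit 48) (nat_lit 5) (nat_lit 52) (nat_lit 5) (nat_lit 49) (nat_lit 5) (nat_lit 302) (nat_lit 262) (nat_lit 156))))) (XT.nd (nat_lit 234) (nat_lit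 380) (nat_lit 0) (XT.nd (nat_lit 78) (nat_lit 228) (nat_lit 0) (XT.lf (nat_lit 0) (nat_lit 11990997389) (nat_lit 228) (nat_lit 13847424323) (nat_lit 304) (nat_lit 15711926203) (nat_lit 45) (nat_lit 5) (nat_lit 48) (nat_lit 5) (nat_lit 49) (nat_lit 5) (nat_lit 303) (nat_lit 262) (nat_lit 155)) (XT.nd (nat_lit 78) (nat_lit 228) (nat_lit 0) (XT.lf (nat_lit 0) (nat_lit 37164385827) (nat_lit 304) (nat_lit 2311055088) (nat_lit 76) (nat_lit 3599052778) (nat_lit 45) (nat_lit 5) (nat_lit 49) (nat_lit 5) (nat_lit 46) (nat_lit 5) (nat_lit 304) (nat_lit 262) (nat_lit 154)) (XT.lf (nat_lit 0) (nat_lit 4687148260) (nat_lit 228) (nat_lit 18043048931) (nat_lit 76) (nat_lit 21931668888) (nat_lit 42) (nat_lit 5) (nat_lit 45) (nat_lit 5) (nat_lit 43) (nat_lit 5) (nat_lit 305) (nat_lit 262) (nat_lit 153)))) (XT.nd (nat_lit 78) (nat_lit 152) (nat_lit 0) (XT.lf (nat_lit 0) (nat_lit 10853614668) (nat_lit 228) (nat_lit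 4959052795) (nat_lit 304) (nat_lit 30510573313) (nat_lit 39) (nat_lit 5) (nat_lit 42) (nat_lit 5) (nat_lit 43) (nat_lit 5) (nat_lit 306) (nat_lit 262) (nat_lit 152)) (XT.nd (nat_lit 78) (nat_lit 152) (nat_lit 0) (XT.lf (nat_lit 0) (nat_lit 27805119979) (nat_lit 304) (nat_lit 6637186554) (nat_lit 76) (nat_lit 13616065648) (nat_lit 39) (nat_lit 5) (nat_lit 43) (nat_lit 5) (nat_lit 40) (nat_lit 5) (nat_lit 307) (nat_lit 262) (nat_lit 151)) (XT.lf (nat_lit 0) (nat_lit 24042944048) (nat_lit 152) (nat_lit 16627211939) (nat_lit 228) (nat_lit 9201922672) (nat_lit 37) (nat_lit 5) (nat_lit 39) (nat_lit 5) (nat_lit 40) (nat_lit 5) (nat_lit 308) (nat_lit 262) (nat_lit 150))))))) (XT.nd (nat_lit 858) (nat_lit 532) (nat_lit 0) (XT.nd (nat_lit 390) (nat_lit 532) (nat_lit 0) (XT.nd (nat_lit 156) (nat_lit 304) (nat_lit 0) (XT.nd (nat_lit 78) (nat_lit 0) (nat_lit 0) (XT.lf (nat_lit 0) (nat_lit 2482319014)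 (nat_lit 228) (nat_lit 47117895497) (nat_lit 76) (nat_lit 2171753543) (nat_lit 34) (nat_lit 5) (nat_lit 37) (nat_lit 5) (nat_lit 35) (nat_lit 5) (nat_lit 309) (nat_lit 262) (nat_lit 149)) (XT.lf (nat_lit 0) (nat_lit 14990768277) (nat_lit 228) (nat_lit 16833675725) (nat_lit 76) (nat_lit 21926771966) (nat_lit 34) (nat_lit 5) (nat_lit 37) (nat_lit 5) (nat_lit 35) (nat_lit 5) (nat_lit 310) (nat_lit 262) (nat_lit 148))) (XT.nd (nat_lit 78) (nat_lit 152) (nat_lit 0) (XT.lf (nat_lit 0) (nat_lit 15250284722) (nat_lit 152) (nat_lit 13013515197) (nat_lit 228) (nat_lit 27561457708) (nat_lit 32) (nat_lit 5) (nat_lit 34) (nat_lit 5) (nat_lit 35) (nat_lit 5) (nat_lit 311) (nat_lit 262) (nat_lit 147)) (XT.nd (nat_lit 78) (nat_lit 152) (nat_lit 0) (XT.lf (nat_lit 0) (nat_lit 42433018974) (nat_lit 228) (nat_lit 8785961216) (nat_lit 76) (nat_lit 6777050956) (nat_lit 32) (nat_lit 5) (nat_lit 35) (nat_lit 5)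 (nat_lit 33) (nat_lit 5) (nat_lit 312) (nat_lit 262) (nat_lit 146)) (XT.lf (nat_lit 0) (nat_lit 24936427369) (nat_lit 152) (nat_lit 32738431870) (nat_lit 228) (nat_lit 2589564869) (nat_lit 30) (nat_lit 5) (nat_lit 32) (nat_lit 5) (nat_lit 33) (nat_lit 5) (nat_lit 313) (nat_lit 262) (nat_lit 145))))) (XT.nd (nat_lit 234) (nat_lit 152) (nat_lit 0) (XT.nd (nat_lit 78) (nat_lit 304) (nat_lit 0) (XT.lf (nat_lit 0) (nat_lit 10901867850) (nat_lit 228) (nat_lit 2233073764) (nat_lit 76) (nat_lit 49505580771) (nat_lit 29) (nat_lit 5) (nat_lit 32) (nat_lit 5) (nat_lit 30) (nat_lit 5) (nat_lit 314) (nat_lit 262) (nat_lit 144)) (XT.nd (nat_lit 78) (nat_lit 152) (nat_lit 0) (XT.lf (nat_lit 0) (nat_lit 25401796495) (nat_lit 228) (nat_lit 32073997013) (nat_lit 76) (nat_lit 7647243385) (nat_lit 27) (nat_lit 5) (nat_lit 30) (nat_lit 5) (nat_lit 28) (nat_lit 5) (nat_lit 315) (nat_lit 262) (nat_lit 143)) (XT.lf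 (nat_lit 0) (nat_lit 2314849127) (nat_lit 152) (nat_lit 38483660551) (nat_lit 228) (nat_lit 26926018482) (nat_lit 25) (nat_lit 5) (nat_lit 27) (nat_lit 5) (nat_lit 28) (nat_lit 5) (nat_lit 316) (nat_lit 262) (nat_lit 142)))) (XT.nd (nat_lit 78) (nat_lit 152) (nat_lit 0) (XT.lf (nat_lit 0) (nat_lit 39083232962) (nat_lit 152) (nat_lit 18205946269) (nat_lit 228) (nat_lit 13157195590) (nat_lit 25) (nat_lit 5) (nat_lit 27) (nat_lit 5) (nat_lit 28) (nat_lit 5) (nat_lit 317) (nat_lit 262) (nat_lit 141)) (XT.nd (nat_lit 78) (nat_lit 0) (nat_lit 0) (XT.lf (nat_lit 0) (nat_lit 1341822718) (nat_lit 152) (nat_lit 68882732021) (nat_lit 76) (nat_lit 3077374582) (nat_lit 23) (nat_lit 5) (nat_lit 25) (nat_lit 5) (nat_lit 24) (nat_lit 5) (nat_lit 318) (nat_lit 262) (nat_lit 140)) (XT.lf (nat_lit 0) (nat_lit 16800342904) (nat_lit 152) (nat_lit 33973925802) (nat_lit 76) (nat_lit 25506888826) (nat_lit 23) (nat_lit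 5) (nat_lit 25) (nat_lit 5) (nat_lit 24) (nat_lit 5) (nat_lit 319) (nat_lit 262) (nat_lit 139)))))) (XT.nd (nat_lit 390) (nat_lit 228) (nat_lit 0) (XT.nd (nat_lit 156) (nat_lit 152) (nat_lit 0) (XT.nd (nat_lit 78) (nat_lit 0) (nat_lit 0) (XT.lf (nat_lit 0) (nat_lit 2724292547) (nat_lit 152) (nat_lit 30328277413) (nat_lit 228) (nat_lit 46356157501) (nat_lit 21) (nat_lit 5) (nat_lit 23) (nat_lit 5) (nat_lit 24) (nat_lit 5) (nat_lit 320) (nat_lit 262) (nat_lit 138)) (XT.lf (nat_lit 0) (nat_lit 41958451398) (nat_lit 152) (nat_lit 8503453519) (nat_lit 228) (nat_lit 32220439630) (nat_lit 21) (nat_lit 5) (nat_lit 23) (nat_lit 5) (nat_lit 24) (nat_lit 5) (nat_lit 321) (nat_lit 262) (nat_lit 137))) (XT.nd (nat_lit 78) (nat_lit 152) (nat_lit 0) (XT.lf (nat_lit 0) (nat_lit 68875229922) (nat_lit 228) (nat_lit 3112486825) (nat_lit 76) (nat_lit 14127923429) (nat_lit 21) (nat_lit 5) (nat_lit 24) (nat_lit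 5) (nat_lit 22) (nat_lit 4) (nat_lit 322) (nat_lit 262) (nat_lit 136)) (XT.nd (nat_lit 78) (nat_lit 76) (nat_lit 0) (XT.lf (nat_lit 0) (nat_lit 37007604837) (nat_lit 76) (nat_lit 51638402980) (nat_lit 152) (nat_lit 1061492396) (nat_lit 20) (nat_lit 5) (nat_lit 21) (nat_lit 5) (nat_lit 22) (nat_lit 4) (nat_lit 323) (nat_lit 262) (nat_lit 135)) (XT.lf (nat_lit 0) (nat_lit 15643269651) (nat_lit 152) (nat_lit 14440730399) (nat_lit 76) (nat_lit 63389532988) (nat_lit 19) (nat_lit 5) (nat_lit 21) (nat_lit 5) (nat_lit 20) (nat_lit 5) (nat_lit 324) (nat_lit 262) (nat_lit 134))))) (XT.nd (nat_lit 234) (nat_lit 0) (nat_lit 0) (XT.nd (nat_lit 78) (nat_lit 76) (nat_lit 0) (XT.lf (nat_lit 0) (nat_lit 26224732191) (nat_lit 152) (nat_lit 7184420972) (nat_lit 228) (nat_lit 64010966789) (nat_lit 17) (nat_lit 5) (nat_lit 19) (nat_lit 5) (nat_lit 20) (nat_lit 5) (nat_lit 325) (nat_lit 262) (nat_lit 133)) (XT.nd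 (nat_lit 78) (nat_lit 76) (nat_lit 0) (XT.lf (nat_lit 0) (nat_lit 52371181745) (nat_lit 228) (nat_lit 32505448936) (nat_lit 76) (nat_lit 16678172708) (nat_lit 17) (nat_lit 5) (nat_lit 20) (nat_lit 5) (nat_lit 18) (nat_lit 4) (nat_lit 326) (nat_lit 262) (nat_lit 132)) (XT.lf (nat_lit 0) (nat_lit 8199262939) (nat_lit 76) (nat_lit 64229240712) (nat_lit 152) (nat_lit 33463304167) (nat_lit 16) (nat_lit 5) (nat_lit 17) (nat_lit 5) (nat_lit 18) (nat_lit 4) (nat_lit 327) (nat_lit 262) (nat_lit 131)))) (XT.nd (nat_lit 32448) (nat_lit 0) (nat_lit 12464) (XT.lf (nat_lit 0) (nat_lit 51611478334) (nat_lit 76) (nat_lit 42207819481) (nat_lit 152) (nat_lit 16616448924) (nat_lit 16) (nat_lit 5) (nat_lit 17) (nat_lit 5) (nat_lit 18) (nat_lit 4) (nat_lit 328) (nat_lit 262) (nat_lit 130)) (XT.nd (nat_lit 78) (nat_lit 0) (nat_lit 0) (XT.lf (nat_lit 0) (nat_lit 2824154171) (nat_lit 1140) (nat_lit 1805836285) (nat_lit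 1140) (nat_lit 1805836285) (nat_lit 180) (nat_lit 3) (nat_lit 195) (nat_lit 3) (nat_lit 195) (nat_lit 5) (nat_lit 263) (nat_lit 263) (nat_lit 194)) (XT.lf (nat_lit 76) (nat_lit 5860375395) (nat_lit 0) (nat_lit 608922402) (nat_lit 1140) (nat_lit 6702627961) (nat_lit 181) (nat_lit 5) (nat_lit 180) (nat_lit 3) (nat_lit 195) (nat_lit 5) (nat_lit 264) (nat_lit 263) (nat_lit 193))))))))
noncomputable def xc91 : XT := (XT.nd (nat_lit 1716) (nat_lit 4636) (nat_lit 0) (XT.nd (nat_lit 858) (nat_lit 4484) (nat_lit 0) (XT.nd (nat_lit 390) (nat_lit 1824) (nat_lit 0) (XT.nd (nat_lit 156) (nat_lit 0) (nat_lit 76) (XT.nd (nat_lit 78) (nat_lit 0) (nat_lit 76) (XT.lf (nat_lit 76) (nat_lit 2336710732) (nat_lit 0) (nat_lit 5096172259) (nat_lit 1140) (nat_lit 6051354318) (nat_lit 182) (nat_lit 5) (nat_lit 181) (nat_lit 5) (nat_lit 196) (nat_lit 5) (nat_lit 265) (nat_lit 263) (nat_lit 192)) (XT.lf (nat_lit 0)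 (nat_lit 8527217432) (nat_lit 1064) (nat_lit 1258300394) (nat_lit 1140) (nat_lit 4024238134) (nat_lit 182) (nat_lit 5) (nat_lit 196) (nat_lit 5) (nat_lit 197) (nat_lit 5) (nat_lit 266) (nat_lit 263) (nat_lit 191))) (XT.nd (nat_lit 78) (nat_lit 0) (nat_lit 76) (XT.lf (nat_lit 76) (nat_lit 9232016760) (nat_lit 0) (nat_lit 548168543) (nat_lit 1140) (nat_lit 4368313096) (nat_lit 183) (nat_lit 5) (nat_lit 182) (nat_lit 5) (nat_lit 197) (nat_lit 5) (nat_lit 267) (nat_lit 263) (nat_lit 190)) (XT.nd (nat_lit 78) (nat_lit 0) (nat_lit 76) (XT.lf (nat_lit 76) (nat_lit 5771195632) (nat_lit 0) (nat_lit 5446513469) (nat_lit 1140) (nat_lit 3282873873) (nat_lit 184) (nat_lit 5) (nat_lit 183) (nat_lit 5) (nat_lit 198) (nat_lit 5) (nat_lit 268) (nat_lit 263) (nat_lit 189)) (XT.lf (nat_lit 76) (nat_lit 2200099370) (nat_lit 0) (nat_lit 10612579002) (nat_lit 1140) (nat_lit 2055085606) (nat_lit 185) (nat_lit 5)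 (nat_lit 184) (nat_lit 5) (nat_lit 199) (nat_lit 5) (nat_lit 269) (nat_lit 263) (nat_lit 188))))) (XT.nd (nat_lit 234) (nat_lit 988) (nat_lit 0) (XT.nd (nat_lit 78) (nat_lit 1064) (nat_lit 0) (XT.lf (nat_lit 76) (nat_lit 13779882503) (nat_lit 0) (nat_lit 820095431) (nat_lit 1140) (nat_lit 650005099) (nat_lit 185) (nat_lit 5) (nat_lit 184) (nat_lit 5) (nat_lit 199) (nat_lit 5) (nat_lit 270) (nat_lit 263) (nat_lit 187)) (XT.nd (nat_lit 78) (nat_lit 0) (nat_lit 76) (XT.lf (nat_lit 0) (nat_lit 971340800) (nat_lit 1140) (nat_lit 5279705494) (nat_lit 1216) (nat_lit 9395217446) (nat_lit 170) (nat_lit 5) (nat_lit 185) (nat_lit 5) (nat_lit 186) (nat_lit 5) (nat_lit 271) (nat_lit 263) (nat_lit 186)) (XT.lf (nat_lit 0) (nat_lit 2760501969) (nat_lit 1140) (nat_lit 9239935327) (nat_lit 1216) (nat_lit 4058772098) (nat_lit 171) (nat_lit 5) (nat_lit 186) (nat_lit 5) (nat_lit 187) (nat_lit 5) (nat_lit 272)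 (nat_lit 263) (nat_lit 185)))) (XT.nd (nat_lit 78) (nat_lit 1064) (nat_lit 0) (XT.lf (nat_lit 76) (nat_lit 3116757896) (nat_lit 0) (nat_lit 1642315083) (nat_lit 1216) (nat_lit 11730178146) (nat_lit 172) (nat_lit 5) (nat_lit 171) (nat_lit 5) (nat_lit 187) (nat_lit 5) (nat_lit 273) (nat_lit 263) (nat_lit 184)) (XT.nd (nat_lit 78) (nat_lit 1140) (nat_lit 0) (XT.lf (nat_lit 0) (nat_lit 7015567153) (nat_lit 1140) (nat_lit 766304332) (nat_lit 76) (nat_lit 9154228714) (nat_lit 172) (nat_lit 5) (nat_lit 187) (nat_lit 5) (nat_lit 173) (nat_lit 5) (nat_lit 274) (nat_lit 263) (nat_lit 183)) (XT.lf (nat_lit 0) (nat_lit 9528375266) (nat_lit 1216) (nat_lit 4753432905) (nat_lit 76) (nat_lit 3119221822) (nat_lit 157) (nat_lit 5) (nat_lit 173) (nat_lit 5) (nat_lit 158) (nat_lit 5) (nat_lit 275) (nat_lit 263) (nat_lit 182)))))) (XT.nd (nat_lit 390) (nat_lit 2204) (nat_lit 0) (XT.nd (nat_lit 156) (nat_lit 1140)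 (nat_lit 0) (XT.nd (nat_lit 78) (nat_lit 608) (nat_lit 0) (XT.lf (nat_lit 0) (nat_lit 8932809769) (nat_lit 532) (nat_lit 3381888319) (nat_lit 608) (nat_lit 5570112864) (nat_lit 150) (nat_lit 5) (nat_lit 157) (nat_lit 5) (nat_lit 158) (nat_lit 5) (nat_lit 276) (nat_lit 263) (nat_lit 181)) (XT.lf (nat_lit 0) (nat_lit 5008886868) (nat_lit 608) (nat_lit 10382998297) (nat_lit 684) (nat_lit 2996388301) (nat_lit 142) (nat_lit 5) (nat_lit 150) (nat_lit 5) (nat_lit 151) (nat_lit 5) (nat_lit 277) (nat_lit 263) (nat_lit 180))) (XT.nd (nat_lit 78) (nat_lit 608) (nat_lit 0) (XT.lf (nat_lit 0) (nat_lit 891714304) (nat_lit 532) (nat_lit 17853436563) (nat_lit 608) (nat_lit 168128760) (nat_lit 135) (nat_lit 5) (nat_lit 142) (nat_lit 5) (nat_lit 143) (nat_lit 5) (nat_lit 278) (nat_lit 263) (nat_lit 179)) (XT.nd (nat_lit 78) (nat_lit 532) (nat_lit 0) (XT.lf (nat_lit 0) (nat_lit 2968782295) (nat_lit 608) (nat_lit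 3459702697) (nat_lit 76) (nat_lit 13028620301) (nat_lit 134) (nat_lit 5) (nat_lit 142) (nat_lit 5) (nat_lit 135) (nat_lit 5) (nat_lit 279) (nat_lit 263) (nat_lit 178)) (XT.lf (nat_lit 0) (nat_lit 6408597720) (nat_lit 608) (nat_lit 8037504543) (nat_lit 76) (nat_lit 5577516628) (nat_lit 127) (nat_lit 5) (nat_lit 135) (nat_lit 5) (nat_lit 128) (nat_lit 5) (nat_lit 280) (nat_lit 263) (nat_lit 177))))) (XT.nd (nat_lit 234) (nat_lit 1292) (nat_lit 0) (XT.nd (nat_lit 78) (nat_lit 456) (nat_lit 0) (XT.lf (nat_lit 0) (nat_lit 7723468317) (nat_lit 456) (nat_lit 2451888965) (nat_lit 532) (nat_lit 10438483401) (nat_lit 121) (nat_lit 5) (nat_lit 127) (nat_lit 5) (nat_lit 128) (nat_lit 5) (nat_lit 281) (nat_lit 263) (nat_lit 176)) (XT.nd (nat_lit 78) (nat_lit 0) (nat_lit 0) (XT.lf (nat_lit 0) (nat_lit 3151411747) (nat_lit 456) (nat_lit 11170995877) (nat_lit 532) (nat_lit 6905436988) (nat_lit 115) (nat_lit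 5) (nat_lit 121) (nat_lit 5) (nat_lit 122) (nat_lit 5) (nat_lit 282) (nat_lit 263) (nat_lit 175)) (XT.lf (nat_lit 0) (nat_lit 18828837978) (nat_lit 532) (nat_lit 1663022604) (nat_lit 76) (nat_lit 1376155552) (nat_lit 115) (nat_lit 5) (nat_lit 122) (nat_lit 5) (nat_lit 116) (nat_lit 5) (nat_lit 283) (nat_lit 263) (nat_lit 174)))) (XT.nd (nat_lit 78) (nat_lit 836) (nat_lit 0) (XT.lf (nat_lit 0) (nat_lit 1249208682) (nat_lit 456) (nat_lit 6799615045) (nat_lit 76) (nat_lit 14483642540) (nat_lit 109) (nat_lit 5) (nat_lit 115) (nat_lit 5) (nat_lit 110) (nat_lit 5) (nat_lit 284) (nat_lit 263) (nat_lit 173)) (XT.nd (nat_lit 78) (nat_lit 380) (nat_lit 0) (XT.lf (nat_lit 0) (nat_lit 5844840850) (nat_lit 532) (nat_lit 12308876696) (nat_lit 76) (nat_lit 5070873062) (nat_lit 103) (nat_lit 5) (nat_lit 110) (nat_lit 5) (nat_lit 104) (nat_lit 5) (nat_lit 285) (nat_lit 263) (nat_lit 172)) (XT.lf (nat_lit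 0) (nat_lit 5719542714) (nat_lit 380) (nat_lit 5140906174) (nat_lit 456) (nat_lit 13085190118) (nat_lit 98) (nat_lit 5) (nat_lit 103) (nat_lit 5) (nat_lit 104) (nat_lit 5) (nat_lit 286) (nat_lit 263) (nat_lit 171))))))) (XT.nd (nat_lit 858) (nat_lit 1976) (nat_lit 0) (XT.nd (nat_lit 390) (nat_lit 1216) (nat_lit 0) (XT.nd (nat_lit 156) (nat_lit 1064) (nat_lit 0) (XT.nd (nat_lit 78) (nat_lit 0) (nat_lit 0) (XT.lf (nat_lit 0) (nat_lit 106848582) (nat_lit 380) (nat_lit 16214770697) (nat_lit 456) (nat_lit 8375299628) (nat_lit 93) (nat_lit 5) (nat_lit 98) (nat_lit 5) (nat_lit 99) (nat_lit 5) (nat_lit 287) (nat_lit 263) (nat_lit 170)) (XT.lf (nat_lit 0) (nat_lit 19665234924) (nat_lit 380) (nat_lit 2614065987) (nat_lit 456) (nat_lit 3199779777) (nat_lit 93) (nat_lit 5) (nat_lit 98) (nat_lit 5) (nat_lit 99) (nat_lit 5) (nat_lit 288) (nat_lit 263) (nat_lit 169))) (XT.nd (nat_lit 78) (nat_lit 684) (nat_lit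 0) (XT.lf (nat_lit 0) (nat_lit 2425502278) (nat_lit 380) (nat_lit 12272756969) (nat_lit 76) (nat_lit 11594429086) (nat_lit 88) (nat_lit 5) (nat_lit 93) (nat_lit 5) (nat_lit 89) (nat_lit 5) (nat_lit 289) (nat_lit 263) (nat_lit 168)) (XT.nd (nat_lit 78) (nat_lit 304) (nat_lit 0) (XT.lf (nat_lit 0) (nat_lit 7898108681) (nat_lit 380) (nat_lit 516655788) (nat_lit 456) (nat_lit 18726813594) (nat_lit 83) (nat_lit 5) (nat_lit 88) (nat_lit 5) (nat_lit 89) (nat_lit 5) (nat_lit 290) (nat_lit 263) (nat_lit 167)) (XT.lf (nat_lit 0) (nat_lit 1169949953) (nat_lit 304) (nat_lit 13796555168) (nat_lit 380) (nat_lit 13058534703) (nat_lit 79) (nat_lit 5) (nat_lit 83) (nat_lit 5) (nat_lit 84) (nat_lit 5) (nat_lit 291) (nat_lit 263) (nat_lit 166))))) (XT.nd (nat_lit 234) (nat_lit 532) (nat_lit 0) (XT.nd (nat_lit 78) (nat_lit 684) (nat_lit 0) (XT.lf (nat_lit 0) (nat_lit 22044702845) (nat_lit 380) (nat_lit 5973045011)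 (nat_lit 76) (nat_lit 928977864) (nat_lit 79) (nat_lit 5) (nat_lit 84) (nat_lit 5) (nat_lit 80) (nat_lit 5) (nat_lit 292) (nat_lit 263) (nat_lit 165)) (XT.nd (nat_lit 78) (nat_lit 380) (nat_lit 0) (XT.lf (nat_lit 0) (nat_lit 16110924854) (nat_lit 304) (nat_lit 13647113227) (nat_lit 380) (nat_lit 148037331) (nat_lit 75) (nat_lit 5) (nat_lit 79) (nat_lit 5) (nat_lit 80) (nat_lit 5) (nat_lit 293) (nat_lit 263) (nat_lit 164)) (XT.lf (nat_lit 0) (nat_lit 6956208622) (nat_lit 380) (nat_lit 22327688818) (nat_lit 76) (nat_lit 1623066149) (nat_lit 70) (nat_lit 5) (nat_lit 75) (nat_lit 5) (nat_lit 71) (nat_lit 5) (nat_lit 294) (nat_lit 263) (nat_lit 163)))) (XT.nd (nat_lit 78) (nat_lit 228) (nat_lit 0) (XT.lf (nat_lit 0) (nat_lit 254462128) (nat_lit 304) (nat_lit 14429594427) (nat_lit 380) (nat_lit 17265666490) (nat_lit 66) (nat_lit 5) (nat_lit 70) (nat_lit 5) (nat_lit 71) (nat_lit 5) (nat_lit 295)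 (nat_lit 263) (nat_lit 162)) (XT.nd (nat_lit 78) (nat_lit 228) (nat_lit 0) (XT.lf (nat_lit 0) (nat_lit 23029833778) (nat_lit 380) (nat_lit 8635678650) (nat_lit 76) (nat_lit 1372175636) (nat_lit 66) (nat_lit 5) (nat_lit 71) (nat_lit 5) (nat_lit 67) (nat_lit 5) (nat_lit 296) (nat_lit 263) (nat_lit 161)) (XT.lf (nat_lit 0) (nat_lit 15722074234) (nat_lit 228) (nat_lit 16356354704) (nat_lit 304) (nat_lit 2093069567) (nat_lit 63) (nat_lit 5) (nat_lit 66) (nat_lit 5) (nat_lit 67) (nat_lit 5) (nat_lit 297) (nat_lit 263) (nat_lit 160)))))) (XT.nd (nat_lit 468) (nat_lit 836) (nat_lit 0) (XT.nd (nat_lit 234) (nat_lit 532) (nat_lit 0) (XT.nd (nat_lit 78) (nat_lit 228) (nat_lit 0) (XT.lf (nat_lit 0) (nat_lit 6162718810) (nat_lit 304) (nat_lit 71451475) (nat_lit 380) (nat_lit 29121907040) (nat_lit 58) (nat_lit 5) (nat_lit 62) (nat_lit 5) (nat_lit 63) (nat_lit 5) (nat_lit 298) (nat_lit 263) (nat_lit 159))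 (XT.nd (nat_lit 78) (nat_lit 228) (nat_lit 0) (XT.lf (nat_lit 0) (nat_lit 15279723099) (nat_lit 380) (nat_lit 4405434438) (nat_lit 76) (nat_lit 16903760166) (nat_lit 58) (nat_lit 5) (nat_lit 63) (nat_lit 5) (nat_lit 59) (nat_lit 5) (nat_lit 299) (nat_lit 263) (nat_lit 158)) (XT.lf (nat_lit 0) (nat_lit 22036346666) (nat_lit 228) (nat_lit 2943616695) (nat_lit 304) (nat_lit 12897375386) (nat_lit 55) (nat_lit 5) (nat_lit 58) (nat_lit 5) (nat_lit 59) (nat_lit 5) (nat_lit 300) (nat_lit 263) (nat_lit 157)))) (XT.nd (nat_lit 78) (nat_lit 304) (nat_lit 0) (XT.lf (nat_lit 0) (nat_lit 10716789231) (nat_lit 228) (nat_lit 24728084224) (nat_lit 304) (nat_lit 3776928070) (nat_lit 52) (nat_lit 5) (nat_lit 55) (nat_lit 5) (nat_lit 56) (nat_lit 5) (nat_lit 301) (nat_lit 263) (nat_lit 156)) (XT.nd (nat_lit 78) (nat_lit 228) (nat_lit 0) (XT.lf (nat_lit 0) (nat_lit 5871155449) (nat_lit 304) (nat_lit 1796621616)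 (nat_lit 76) (nat_lit 32958504036) (nat_lit 51) (nat_lit 5) (nat_lit 55) (nat_lit 5) (nat_lit 52) (nat_lit 5) (nat_lit 302) (nat_lit 263) (nat_lit 155)) (XT.lf (nat_lit 0) (nat_lit 16273282997) (nat_lit 304) (nat_lit 15477131787) (nat_lit 76) (nat_lit 10338964611) (nat_lit 48) (nat_lit 5) (nat_lit 52) (nat_lit 5) (nat_lit 49) (nat_lit 5) (nat_lit 303) (nat_lit 263) (nat_lit 154))))) (XT.nd (nat_lit 234) (nat_lit 380) (nat_lit 0) (XT.nd (nat_lit 78) (nat_lit 228) (nat_lit 0) (XT.lf (nat_lit 0) (nat_lit 13016865938) (nat_lit 228) (nat_lit 14390958774) (nat_lit 304) (nat_lit 16211447396) (nat_lit 45) (nat_lit 5) (nat_lit 48) (nat_lit 5) (nat_lit 49) (nat_lit 5) (nat_lit 304) (nat_lit 263) (nat_lit 153)) (XT.nd (nat_lit 78) (nat_lit 228) (nat_lit 0) (XT.lf (nat_lit 0) (nat_lit 39288236190) (nat_lit 304) (nat_lit 2013768630) (nat_lit 76) (nat_lit 3917988678) (nat_lit 45) (nat_lit 5) (nat_lit 49)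 (nat_lit 5) (nat_lit 46) (nat_lit 5) (nat_lit 305) (nat_lit 263) (nat_lit 152)) (XT.lf (nat_lit 0) (nat_lit 5181124295) (nat_lit 228) (nat_lit 18538792538) (nat_lit 76) (nat_lit 23167017332) (nat_lit 42) (nat_lit 5) (nat_lit 45) (nat_lit 5) (nat_lit 43) (nat_lit 5) (nat_lit 306) (nat_lit 263) (nat_lit 151)))) (XT.nd (nat_lit 78) (nat_lit 152) (nat_lit 0) (XT.lf (nat_lit 0) (nat_lit 11791054613) (nat_lit 228) (nat_lit 5063296720) (nat_lit 304) (nat_lit 31777294576) (nat_lit 39) (nat_lit 5) (nat_lit 42) (nat_lit 5) (nat_lit 43) (nat_lit 5) (nat_lit 307) (nat_lit 263) (nat_lit 150)) (XT.nd (nat_lit 78) (nat_lit 152) (nat_lit 0) (XT.lf (nat_lit 0) (nat_lit 29435787324) (nat_lit 304) (nat_lit 6587012833) (nat_lit 76) (nat_lit 14431063635) (nat_lit 39) (nat_lit 5) (nat_lit 43) (nat_lit 5) (nat_lit 40) (nat_lit 5) (nat_lit 308) (nat_lit 263) (nat_lit 149)) (XT.lf (nat_lit 0) (nat_lit 25616173398)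 (nat_lit 152) (nat_lit 17320020643) (nat_lit 228) (nat_lit 9422308207) (nat_lit 37) (nat_lit 5) (nat_lit 39) (nat_lit 5) (nat_lit 40) (nat_lit 5) (nat_lit 309) (nat_lit 263) (nat_lit 148))))))))
noncomputable def xc92 : XT := (XT.nd (nat_lit 34164) (nat_lit 0) (nat_lit 5852) (XT.nd (nat_lit 858) (nat_lit 532) (nat_lit 0) (XT.nd (nat_lit 390) (nat_lit 532) (nat_lit 0) (XT.nd (nat_lit 156) (nat_lit 304) (nat_lit 0) (XT.nd (nat_lit 78) (nat_lit 0) (nat_lit 0) (XT.lf (nat_lit 0) (nat_lit 2835111156) (nat_lit 228) (nat_lit 49102924132) (nat_lit 76) (nat_lit 2415481854) (nat_lit 34) (nat_lit 5) (nat_lit 37) (nat_lit 5) (nat_lit 35) (nat_lit 5) (nat_lit 310) (nat_lit 263) (nat_lit 147)) (XT.lf (nat_lit 0) (nat_lit 15958093540) (nat_lit 228) (nat_lit 17322153664) (nat_lit 76) (nat_lit 23151815930) (nat_lit 34) (nat_lit 5) (nat_lit 37) (nat_lit 5) (nat_lit 35) (nat_lit 5) (nat_lit 311) (nat_lit 263)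 (nat_lit 146))) (XT.nd (nat_lit 78) (nat_lit 152) (nat_lit 0) (XT.lf (nat_lit 0) (nat_lit 16355880231) (nat_lit 152) (nat_lit 13531823637) (nat_lit 228) (nat_lit 28722323765) (nat_lit 32) (nat_lit 5) (nat_lit 34) (nat_lit 5) (nat_lit 35) (nat_lit 5) (nat_lit 312) (nat_lit 263) (nat_lit 145)) (XT.nd (nat_lit 78) (nat_lit 152) (nat_lit 0) (XT.lf (nat_lit 0) (nat_lit 44756561684) (nat_lit 228) (nat_lit 8893543322) (nat_lit 76) (nat_lit 7239507653) (nat_lit 32) (nat_lit 5) (nat_lit 35) (nat_lit 5) (nat_lit 33) (nat_lit 5) (nat_lit 313) (nat_lit 263) (nat_lit 144)) (XT.lf (nat_lit 0) (nat_lit 26505456121) (nat_lit 152) (nat_lit 34248521203) (nat_lit 228) (nat_lit 2517651221) (nat_lit 30) (nat_lit 5) (nat_lit 32) (nat_lit 5) (nat_lit 33) (nat_lit 5) (nat_lit 314) (nat_lit 263) (nat_lit 143))))) (XT.nd (nat_lit 234) (nat_lit 152) (nat_lit 0) (XT.nd (nat_lit 78) (nat_lit 304) (nat_lit 0) (XT.lf (nat_lit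 0) (nat_lit 11635020300) (nat_lit 228) (nat_lit 2033976738) (nat_lit 76) (nat_lit 52097765899) (nat_lit 29) (nat_lit 5) (nat_lit 32) (nat_lit 5) (nat_lit 30) (nat_lit 5) (nat_lit 315) (nat_lit 263) (nat_lit 142)) (XT.nd (nat_lit 78) (nat_lit 152) (nat_lit 0) (XT.lf (nat_lit 0) (nat_lit 26855043639) (nat_lit 228) (nat_lit 33371408600) (nat_lit 76) (nat_lit 8147104832) (nat_lit 27) (nat_lit 5) (nat_lit 30) (nat_lit 5) (nat_lit 28) (nat_lit 5) (nat_lit 316) (nat_lit 263) (nat_lit 141)) (XT.lf (nat_lit 0) (nat_lit 2728100155) (nat_lit 152) (nat_lit 40287630383) (nat_lit 228) (nat_lit 28089574741) (nat_lit 25) (nat_lit 5) (nat_lit 27) (nat_lit 5) (nat_lit 28) (nat_lit 5) (nat_lit 317) (nat_lit 263) (nat_lit 140)))) (XT.nd (nat_lit 78) (nat_lit 152) (nat_lit 0) (XT.lf (nat_lit 0) (nat_lit 41320736107) (nat_lit 152) (nat_lit 19001754825) (nat_lit 228) (nat_lit 13641012831) (nat_lit 25) (nat_lit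 5) (nat_lit 27) (nat_lit 5) (nat_lit 28) (nat_lit 5) (nat_lit 318) (nat_lit 263) (nat_lit 139)) (XT.nd (nat_lit 78) (nat_lit 0) (nat_lit 0) (XT.lf (nat_lit 0) (nat_lit 1575203018) (nat_lit 152) (nat_lit 72044252670) (nat_lit 76) (nat_lit 3342466568) (nat_lit 23) (nat_lit 5) (nat_lit 25) (nat_lit 5) (nat_lit 24) (nat_lit 5) (nat_lit 319) (nat_lit 263) (nat_lit 138)) (XT.lf (nat_lit 0) (nat_lit 17798730682) (nat_lit 152) (nat_lit 35403464043) (nat_lit 76) (nat_lit 26888160178) (nat_lit 23) (nat_lit 5) (nat_lit 25) (nat_lit 5) (nat_lit 24) (nat_lit 5) (nat_lit 320) (nat_lit 263) (nat_lit 137)))))) (XT.nd (nat_lit 390) (nat_lit 228) (nat_lit 0) (XT.nd (nat_lit 156) (nat_lit 152) (nat_lit 0) (XT.nd (nat_lit 78) (nat_lit 0) (nat_lit 0) (XT.lf (nat_lit 0) (nat_lit 3121949861) (nat_lit 152) (nat_lit 31736590917) (nat_lit 228) (nat_lit 48515918608) (nat_lit 21) (nat_lit 5) (nat_lit 23) (nat_lit 5)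 (nat_lit 24) (nat_lit 5) (nat_lit 321) (nat_lit 263) (nat_lit 136)) (XT.lf (nat_lit 0) (nat_lit 44305367004) (nat_lit 152) (nat_lit 8825673465) (nat_lit 228) (nat_lit 33680940880) (nat_lit 21) (nat_lit 5) (nat_lit 23) (nat_lit 5) (nat_lit 24) (nat_lit 5) (nat_lit 322) (nat_lit 263) (nat_lit 135))) (XT.nd (nat_lit 78) (nat_lit 152) (nat_lit 0) (XT.lf (nat_lit 0) (nat_lit 72459019942) (nat_lit 228) (nat_lit 3027650388) (nat_lit 76) (nat_lit 14930456507) (nat_lit 21) (nat_lit 5) (nat_lit 24) (nat_lit 5) (nat_lit 22) (nat_lit 4) (nat_lit 323) (nat_lit 263) (nat_lit 134)) (XT.nd (nat_lit 78) (nat_lit 76) (nat_lit 0) (XT.lf (nat_lit 0) (nat_lit 39091553097) (nat_lit 76) (nat_lit 54122360808) (nat_lit 152) (nat_lit 974803155) (nat_lit 20) (nat_lit 5) (nat_lit 21) (nat_lit 5) (nat_lit 22) (nat_lit 4) (nat_lit 324) (nat_lit 263) (nat_lit 133)) (XT.lf (nat_lit 0) (nat_lit 16555944148) (nat_lit 152)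 (nat_lit 14937640552) (nat_lit 76) (nat_lit 66649626450) (nat_lit 19) (nat_lit 5) (nat_lit 21) (nat_lit 5) (nat_lit 20) (nat_lit 5) (nat_lit 325) (nat_lit 263) (nat_lit 132))))) (XT.nd (nat_lit 32682) (nat_lit 0) (nat_lit 12464) (XT.nd (nat_lit 78) (nat_lit 76) (nat_lit 0) (XT.lf (nat_lit 0) (nat_lit 27754641966) (nat_lit 152) (nat_lit 7451367079) (nat_lit 228) (nat_lit 67081245709) (nat_lit 17) (nat_lit 5) (nat_lit 19) (nat_lit 5) (nat_lit 20) (nat_lit 5) (nat_lit 326) (nat_lit 263) (nat_lit 131)) (XT.nd (nat_lit 78) (nat_lit 76) (nat_lit 0) (XT.lf (nat_lit 0) (nat_lit 55110964858) (nat_lit 228) (nat_lit 33919619138) (nat_lit 76) (nat_lit 17598247367) (nat_lit 17) (nat_lit 5) (nat_lit 20) (nat_lit 5) (nat_lit 18) (nat_lit 4) (nat_lit 327) (nat_lit 263) (nat_lit 130)) (XT.lf (nat_lit 0) (nat_lit 8814277128) (nat_lit 76) (nat_lit 67353074236) (nat_lit 152) (nat_lit 35015452290) (nat_lit 16)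 (nat_lit 5) (nat_lit 17) (nat_lit 5) (nat_lit 18) (nat_lit 4) (nat_lit 328) (nat_lit 263) (nat_lit 129)))) (XT.nd (nat_lit 78) (nat_lit 0) (nat_lit 0) (XT.lf (nat_lit 0) (nat_lit 3579076338) (nat_lit 1140) (nat_lit 1579511134) (nat_lit 1140) (nat_lit 1579511134) (nat_lit 180) (nat_lit 3) (nat_lit 195) (nat_lit 3) (nat_lit 195) (nat_lit 5) (nat_lit 264) (nat_lit 264) (nat_lit 192)) (XT.nd (nat_lit 78) (nat_lit 0) (nat_lit 76) (XT.lf (nat_lit 76) (nat_lit 6768476572) (nat_lit 0) (nat_lit 1199178584) (nat_lit 1140) (nat_lit 5825509566) (nat_lit 181) (nat_lit 5) (nat_lit 180) (nat_lit 3) (nat_lit 195) (nat_lit 5) (nat_lit 265) (nat_lit 264) (nat_lit 191)) (XT.lf (nat_lit 76) (nat_lit 3092510929) (nat_lit 0) (nat_lit 5831978553) (nat_lit 1140) (nat_lit 5198350776) (nat_lit 182) (nat_lit 5) (nat_lit 181) (nat_lit 5) (nat_lit 196) (nat_lit 5) (nat_lit 266) (nat_lit 264) (nat_lit 190))))))) (XT.nd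 (nat_lit 858) (nat_lit 4332) (nat_lit 0) (XT.nd (nat_lit 390) (nat_lit 1444) (nat_lit 0) (XT.nd (nat_lit 156) (nat_lit 988) (nat_lit 0) (XT.nd (nat_lit 78) (nat_lit 0) (nat_lit 0) (XT.lf (nat_lit 0) (nat_lit 10015805635) (nat_lit 1064) (nat_lit 674360917) (nat_lit 1140) (nat_lit 3776296057) (nat_lit 182) (nat_lit 5) (nat_lit 196) (nat_lit 5) (nat_lit 197) (nat_lit 5) (nat_lit 267) (nat_lit 264) (nat_lit 189)) (XT.lf (nat_lit 76) (nat_lit 10321930140) (nat_lit 0) (nat_lit 964949229) (nat_lit 1140) (nat_lit 3536690234) (nat_lit 183) (nat_lit 5) (nat_lit 182) (nat_lit 5) (nat_lit 197) (nat_lit 5) (nat_lit 268) (nat_lit 264) (nat_lit 188))) (XT.nd (nat_lit 78) (nat_lit 1064) (nat_lit 0) (XT.lf (nat_lit 76) (nat_lit 6705119401) (nat_lit 0) (nat_lit 6045337757) (nat_lit 1140) (nat_lit 2444262733) (nat_lit 184) (nat_lit 5) (nat_lit 183) (nat_lit 5) (nat_lit 198) (nat_lit 5) (nat_lit 269) (nat_lit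 264) (nat_lit 187)) (XT.nd (nat_lit 78) (nat_lit 1140) (nat_lit 0) (XT.lf (nat_lit 76) (nat_lit 2970024349) (nat_lit 0) (nat_lit 11412225876) (nat_lit 1140) (nat_lit 1199380144) (nat_lit 185) (nat_lit 5) (nat_lit 184) (nat_lit 5) (nat_lit 199) (nat_lit 5) (nat_lit 270) (nat_lit 264) (nat_lit 186)) (XT.lf (nat_lit 0) (nat_lit 225819201) (nat_lit 1140) (nat_lit 889208215) (nat_lit 1216) (nat_lit 14869272343) (nat_lit 169) (nat_lit 5) (nat_lit 184) (nat_lit 5) (nat_lit 185) (nat_lit 5) (nat_lit 271) (nat_lit 264) (nat_lit 185))))) (XT.nd (nat_lit 234) (nat_lit 1520) (nat_lit 0) (XT.nd (nat_lit 78) (nat_lit 0) (nat_lit 76) (XT.lf (nat_lit 0) (nat_lit 1876140884) (nat_lit 1140) (nat_lit 4885011958) (nat_lit 1216) (nat_lit 9640280852) (nat_lit 170) (nat_lit 5) (nat_lit 185) (nat_lit 5) (nat_lit 186) (nat_lit 5) (nat_lit 272) (nat_lit 264) (nat_lit 184)) (XT.nd (nat_lit 78) (nat_lit 0) (nat_lit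 0) (XT.lf (nat_lit 0) (nat_lit 3718389549) (nat_lit 1140) (nat_lit 9034351288) (nat_lit 1216) (nat_lit 4083446257) (nat_lit 171) (nat_lit 5) (nat_lit 186) (nat_lit 5) (nat_lit 187) (nat_lit 5) (nat_lit 273) (nat_lit 264) (nat_lit 183)) (XT.lf (nat_lit 76) (nat_lit 3921040527) (nat_lit 0) (nat_lit 1863040759) (nat_lit 1216) (nat_lit 11504699903) (nat_lit 172) (nat_lit 5) (nat_lit 171) (nat_lit 5) (nat_lit 187) (nat_lit 5) (nat_lit 274) (nat_lit 264) (nat_lit 182)))) (XT.nd (nat_lit 78) (nat_lit 1672) (nat_lit 0) (XT.lf (nat_lit 0) (nat_lit 8114652419) (nat_lit 1140) (nat_lit 162038947) (nat_lit 76) (nat_lit 9482506680) (nat_lit 172) (nat_lit 5) (nat_lit 187) (nat_lit 5) (nat_lit 173) (nat_lit 5) (nat_lit 275) (nat_lit 264) (nat_lit 181)) (XT.nd (nat_lit 78) (nat_lit 532) (nat_lit 0) (XT.lf (nat_lit 0) (nat_lit 10722558589) (nat_lit 1216) (nat_lit 4343276642) (nat_lit 76) (nat_lit 3182515273)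 (nat_lit 157) (nat_lit 5) (nat_lit 173) (nat_lit 5) (nat_lit 158) (nat_lit 5) (nat_lit 276) (nat_lit 264) (nat_lit 180)) (XT.lf (nat_lit 0) (nat_lit 10008708309) (nat_lit 532) (nat_lit 3611358791) (nat_lit 608) (nat_lit 5137154374) (nat_lit 150) (nat_lit 5) (nat_lit 157) (nat_lit 5) (nat_lit 158) (nat_lit 5) (nat_lit 277) (nat_lit 264) (nat_lit 179)))))) (XT.nd (nat_lit 390) (nat_lit 2128) (nat_lit 0) (XT.nd (nat_lit 156) (nat_lit 988) (nat_lit 0) (XT.nd (nat_lit 78) (nat_lit 608) (nat_lit 0) (XT.lf (nat_lit 0) (nat_lit 5892319715) (nat_lit 608) (nat_lit 10931486034) (nat_lit 684) (nat_lit 2462924931) (nat_lit 142) (nat_lit 5) (nat_lit 150) (nat_lit 5) (nat_lit 151) (nat_lit 5) (nat_lit 278) (nat_lit 264) (nat_lit 178)) (XT.lf (nat_lit 0) (nat_lit 470854559) (nat_lit 608) (nat_lit 18271652389) (nat_lit 76) (nat_lit 1096164443) (nat_lit 134) (nat_lit 5) (nat_lit 142) (nat_lit 5) (nat_lit 135)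 (nat_lit 5) (nat_lit 279) (nat_lit 264) (nat_lit 177))) (XT.nd (nat_lit 78) (nat_lit 988) (nat_lit 0) (XT.lf (nat_lit 0) (nat_lit 3730502286) (nat_lit 608) (nat_lit 3014312369) (nat_lit 76) (nat_lit 13665790544) (nat_lit 134) (nat_lit 5) (nat_lit 142) (nat_lit 5) (nat_lit 135) (nat_lit 5) (nat_lit 280) (nat_lit 264) (nat_lit 176)) (XT.nd (nat_lit 78) (nat_lit 456) (nat_lit 0) (XT.lf (nat_lit 0) (nat_lit 7318982251) (nat_lit 608) (nat_lit 7820226833) (nat_lit 76) (nat_lit 5866980748) (nat_lit 127) (nat_lit 5) (nat_lit 135) (nat_lit 5) (nat_lit 128) (nat_lit 5) (nat_lit 281) (nat_lit 264) (nat_lit 175)) (XT.lf (nat_lit 0) (nat_lit 8711046776) (nat_lit 456) (nat_lit 2540721011) (nat_lit 532) (nat_lit 10374867685) (nat_lit 121) (nat_lit 5) (nat_lit 127) (nat_lit 5) (nat_lit 128) (nat_lit 5) (nat_lit 282) (nat_lit 264) (nat_lit 174))))) (XT.nd (nat_lit 234) (nat_lit 1216) (nat_lit 0) (XT.nd (nat_lit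 78) (nat_lit 456) (nat_lit 0) (XT.lf (nat_lit 0) (nat_lit 3910217206) (nat_lit 456) (nat_lit 11675011366) (nat_lit 532) (nat_lit 6686780619) (nat_lit 115) (nat_lit 5) (nat_lit 121) (nat_lit 5) (nat_lit 122) (nat_lit 5) (nat_lit 283) (nat_lit 264) (nat_lit 173)) (XT.nd (nat_lit 78) (nat_lit 456) (nat_lit 0) (XT.lf (nat_lit 0) (nat_lit 20291446338) (nat_lit 532) (nat_lit 1157661062) (nat_lit 76) (nat_lit 1495887276) (nat_lit 115) (nat_lit 5) (nat_lit 122) (nat_lit 5) (nat_lit 116) (nat_lit 5) (nat_lit 284) (nat_lit 264) (nat_lit 172)) (XT.lf (nat_lit 0) (nat_lit 1819217013) (nat_lit 456) (nat_lit 6557123581) (nat_lit 76) (nat_lit 15266794607) (nat_lit 109) (nat_lit 5) (nat_lit 115) (nat_lit 5) (nat_lit 110) (nat_lit 5) (nat_lit 285) (nat_lit 264) (nat_lit 171)))) (XT.nd (nat_lit 78) (nat_lit 760) (nat_lit 0) (XT.lf (nat_lit 0) (nat_lit 6626640194) (nat_lit 532) (nat_lit 12343926728) (nat_lit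 76) (nat_lit 5399873218) (nat_lit 103) (nat_lit 5) (nat_lit 110) (nat_lit 5) (nat_lit 104) (nat_lit 5) (nat_lit 286) (nat_lit 264) (nat_lit 170)) (XT.nd (nat_lit 78) (nat_lit 380) (nat_lit 0) (XT.lf (nat_lit 0) (nat_lit 6569276781) (nat_lit 380) (nat_lit 5305858777) (nat_lit 456) (nat_lit 13252975205) (nat_lit 98) (nat_lit 5) (nat_lit 103) (nat_lit 5) (nat_lit 104) (nat_lit 5) (nat_lit 287) (nat_lit 264) (nat_lit 169)) (XT.lf (nat_lit 0) (nat_lit 673313749) (nat_lit 380) (nat_lit 16919827470) (nat_lit 456) (nat_lit 8324331579) (nat_lit 93) (nat_lit 5) (nat_lit 98) (nat_lit 5) (nat_lit 99) (nat_lit 5) (nat_lit 288) (nat_lit 264) (nat_lit 168))))))))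
noncomputable def xc93 : XT := (XT.nd (nat_lit 1716) (nat_lit 1520) (nat_lit 0) (XT.nd (nat_lit 858) (nat_lit 1596) (nat_lit 0) (XT.nd (nat_lit 390) (nat_lit 1596) (nat_lit 0) (XT.nd (nat_lit 156) (nat_lit 684) (nat_lit 0) (XT.nd (nat_lit 78) (nat_lit 380) (nat_lit 0) (XT.lf (nat_lit 0) (nat_lit 21182899278) (nat_lit 380) (nat_lit 2644119989) (nat_lit 456) (nat_lit 2912403976) (nat_lit 93) (nat_lit 5) (nat_lit 98) (nat_lit 5) (nat_lit 99) (nat_lit 5) (nat_lit 289) (nat_lit 264) (nat_lit 167)) (XT.lf (nat_lit 0) (nat_lit 2970614036) (nat_lit 380) (nat_lit 12346040283) (nat_lit 76) (nat_lit 12277399581) (nat_lit 88) (nat_lit 5) (nat_lit 93) (nat_lit 5) (nat_lit 89) (nat_lit 5) (nat_lit 290) (nat_lit 264) (nat_lit 166))) (XT.nd (nat_lit 78) (nat_lit 304) (nat_lit 0) (XT.lf (nat_lit 0) (nat_lit 8817879497) (nat_lit 380) (nat_lit 426322471) (nat_lit 456) (nat_lit 19241666640) (nat_lit 83) (nat_lit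 5) (nat_lit 88) (nat_lit 5) (nat_lit 89) (nat_lit 5) (nat_lit 291) (nat_lit 264) (nat_lit 165)) (XT.nd (nat_lit 78) (nat_lit 0) (nat_lit 0) (XT.lf (nat_lit 0) (nat_lit 1749604804) (nat_lit 304) (nat_lit 14360536147) (nat_lit 380) (nat_lit 13303789280) (nat_lit 79) (nat_lit 5) (nat_lit 83) (nat_lit 5) (nat_lit 84) (nat_lit 5) (nat_lit 292) (nat_lit 264) (nat_lit 164)) (XT.lf (nat_lit 0) (nat_lit 23524576357) (nat_lit 380) (nat_lit 5764736097) (nat_lit 76) (nat_lit 1092942049) (nat_lit 79) (nat_lit 5) (nat_lit 84) (nat_lit 5) (nat_lit 80) (nat_lit 5) (nat_lit 293) (nat_lit 264) (nat_lit 163))))) (XT.nd (nat_lit 234) (nat_lit 608) (nat_lit 0) (XT.nd (nat_lit 78) (nat_lit 608) (nat_lit 0) (XT.lf (nat_lit 0) (nat_lit 216037597) (nat_lit 380) (nat_lit 13983209633) (nat_lit 76) (nat_lit 17190681166) (nat_lit 74) (nat_lit 5) (nat_lit 79) (nat_lit 5) (nat_lit 75) (nat_lit 5) (nat_lit 294) (nat_lit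 264) (nat_lit 162)) (XT.nd (nat_lit 78) (nat_lit 304) (nat_lit 0) (XT.lf (nat_lit 0) (nat_lit 7660840671) (nat_lit 380) (nat_lit 22948371417) (nat_lit 76) (nat_lit 1831973792) (nat_lit 70) (nat_lit 5) (nat_lit 75) (nat_lit 5) (nat_lit 71) (nat_lit 5) (nat_lit 295) (nat_lit 264) (nat_lit 161)) (XT.lf (nat_lit 0) (nat_lit 748677884) (nat_lit 304) (nat_lit 15014040013) (nat_lit 380) (nat_lit 17773756364) (nat_lit 66) (nat_lit 5) (nat_lit 70) (nat_lit 5) (nat_lit 71) (nat_lit 5) (nat_lit 296) (nat_lit 264) (nat_lit 160)))) (XT.nd (nat_lit 78) (nat_lit 608) (nat_lit 0) (XT.lf (nat_lit 0) (nat_lit 24510635724) (nat_lit 380) (nat_lit 8599928935) (nat_lit 76) (nat_lit 1568746422) (nat_lit 66) (nat_lit 5) (nat_lit 71) (nat_lit 5) (nat_lit 67) (nat_lit 5) (nat_lit 297) (nat_lit 264) (nat_lit 159)) (XT.nd (nat_lit 78) (nat_lit 380) (nat_lit 0) (XT.lf (nat_lit 0) (nat_lit 16962309835) (nat_lit 228) (nat_lit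 17038034760) (nat_lit 304) (nat_lit 1869825125) (nat_lit 63) (nat_lit 5) (nat_lit 66) (nat_lit 5) (nat_lit 67) (nat_lit 5) (nat_lit 298) (nat_lit 264) (nat_lit 158)) (XT.lf (nat_lit 0) (nat_lit 6856969528) (nat_lit 380) (nat_lit 30196300149) (nat_lit 76) (nat_lit 60942330) (nat_lit 58) (nat_lit 5) (nat_lit 63) (nat_lit 5) (nat_lit 59) (nat_lit 5) (nat_lit 299) (nat_lit 264) (nat_lit 157)))))) (XT.nd (nat_lit 390) (nat_lit 836) (nat_lit 0) (XT.nd (nat_lit 156) (nat_lit 532) (nat_lit 0) (XT.nd (nat_lit 78) (nat_lit 228) (nat_lit 0) (XT.lf (nat_lit 0) (nat_lit 16340672974) (nat_lit 380) (nat_lit 4191415574) (nat_lit 76) (nat_lit 17877045690) (nat_lit 58) (nat_lit 5) (nat_lit 63) (nat_lit 5) (nat_lit 59) (nat_lit 5) (nat_lit 300) (nat_lit 264) (nat_lit 156)) (XT.lf (nat_lit 0) (nat_lit 23560005733) (nat_lit 228) (nat_lit 2955833387) (nat_lit 304) (nat_lit 13246455056) (nat_lit 55) (nat_lit 5)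 (nat_lit 58) (nat_lit 5) (nat_lit 59) (nat_lit 5) (nat_lit 301) (nat_lit 264) (nat_lit 155))) (XT.nd (nat_lit 78) (nat_lit 304) (nat_lit 0) (XT.lf (nat_lit 0) (nat_lit 11669774310) (nat_lit 228) (nat_lit 25825805009) (nat_lit 304) (nat_lit 3678667769) (nat_lit 52) (nat_lit 5) (nat_lit 55) (nat_lit 5) (nat_lit 56) (nat_lit 5) (nat_lit 302) (nat_lit 264) (nat_lit 154)) (XT.nd (nat_lit 78) (nat_lit 228) (nat_lit 0) (XT.lf (nat_lit 0) (nat_lit 6432812478) (nat_lit 304) (nat_lit 1483566710) (nat_lit 76) (nat_lit 34732904245) (nat_lit 51) (nat_lit 5) (nat_lit 55) (nat_lit 5) (nat_lit 52) (nat_lit 5) (nat_lit 303) (nat_lit 264) (nat_lit 153)) (XT.lf (nat_lit 0) (nat_lit 17347312746) (nat_lit 304) (nat_lit 15852893455) (nat_lit 76) (nat_lit 10985575247) (nat_lit 48) (nat_lit 5) (nat_lit 52) (nat_lit 5) (nat_lit 49) (nat_lit 5) (nat_lit 304) (nat_lit 264) (nat_lit 152))))) (XT.nd (nat_lit 234) (nat_lit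 380) (nat_lit 0) (XT.nd (nat_lit 78) (nat_lit 228) (nat_lit 0) (XT.lf (nat_lit 0) (nat_lit 14054392846) (nat_lit 228) (nat_lit 14975507379) (nat_lit 304) (nat_lit 16762541200) (nat_lit 45) (nat_lit 5) (nat_lit 48) (nat_lit 5) (nat_lit 49) (nat_lit 5) (nat_lit 305) (nat_lit 264) (nat_lit 151)) (XT.nd (nat_lit 78) (nat_lit 228) (nat_lit 0) (XT.lf (nat_lit 0) (nat_lit 41493583212) (nat_lit 304) (nat_lit 1739999726) (nat_lit 76) (nat_lit 4239950027) (nat_lit 45) (nat_lit 5) (nat_lit 49) (nat_lit 5) (nat_lit 46) (nat_lit 5) (nat_lit 306) (nat_lit 264) (nat_lit 150)) (XT.lf (nat_lit 0) (nat_lit 5675662252) (nat_lit 228) (nat_lit 19097107367) (nat_lit 76) (nat_lit 24451232143) (nat_lit 42) (nat_lit 5) (nat_lit 45) (nat_lit 5) (nat_lit 43) (nat_lit 5) (nat_lit 307) (nat_lit 264) (nat_lit 149)))) (XT.nd (nat_lit 78) (nat_lit 152) (nat_lit 0) (XT.lf (nat_lit 0) (nat_lit 12738665586) (nat_lit 228) (nat_lit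 5186113516) (nat_lit 304) (nat_lit 33131413361) (nat_lit 39) (nat_lit 5) (nat_lit 42) (nat_lit 5) (nat_lit 43) (nat_lit 5) (nat_lit 308) (nat_lit 264) (nat_lit 148)) (XT.nd (nat_lit 78) (nat_lit 152) (nat_lit 0) (XT.lf (nat_lit 0) (nat_lit 31125636868) (nat_lit 304) (nat_lit 6569848238) (nat_lit 76) (nat_lit 15274335370) (nat_lit 39) (nat_lit 5) (nat_lit 43) (nat_lit 5) (nat_lit 40) (nat_lit 5) (nat_lit 309) (nat_lit 264) (nat_lit 147)) (XT.lf (nat_lit 0) (nat_lit 27233564516) (nat_lit 152) (nat_lit 18060351024) (nat_lit 228) (nat_lit 9675999038) (nat_lit 37) (nat_lit 5) (nat_lit 39) (nat_lit 5) (nat_lit 40) (nat_lit 5) (nat_lit 310) (nat_lit 264) (nat_lit 146))))))) (XT.nd (nat_lit 858) (nat_lit 456) (nat_lit 0) (XT.nd (nat_lit 390) (nat_lit 532) (nat_lit 0) (XT.nd (nat_lit 156) (nat_lit 304) (nat_lit 0) (XT.nd (nat_lit 78) (nat_lit 0) (nat_lit 0) (XT.lf (nat_lit 0) (nat_lit 3184282761)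 (nat_lit 228) (nat_lit 51221683817) (nat_lit 76) (nat_lit 2658832484) (nat_lit 34) (nat_lit 5) (nat_lit 37) (nat_lit 5) (nat_lit 35) (nat_lit 5) (nat_lit 311) (nat_lit 264) (nat_lit 145)) (XT.lf (nat_lit 0) (nat_lit 16953537309) (nat_lit 228) (nat_lit 17867893231) (nat_lit 76) (nat_lit 24426146286) (nat_lit 34) (nat_lit 5) (nat_lit 37) (nat_lit 5) (nat_lit 35) (nat_lit 5) (nat_lit 312) (nat_lit 264) (nat_lit 144))) (XT.nd (nat_lit 78) (nat_lit 152) (nat_lit 0) (XT.lf (nat_lit 0) (nat_lit 17484859071) (nat_lit 152) (nat_lit 14088353758) (nat_lit 228) (nat_lit 29961426958) (nat_lit 32) (nat_lit 5) (nat_lit 34) (nat_lit 5) (nat_lit 35) (nat_lit 5) (nat_lit 313) (nat_lit 264) (nat_lit 143)) (XT.nd (nat_lit 78) (nat_lit 152) (nat_lit 0) (XT.lf (nat_lit 0) (nat_lit 47177511547) (nat_lit 228) (nat_lit 9037344339) (nat_lit 76) (nat_lit 7713595643) (nat_lit 32) (nat_lit 5) (nat_lit 35) (nat_lit 5)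 (nat_lit 33) (nat_lit 5) (nat_lit 314) (nat_lit 264) (nat_lit 142)) (XT.lf (nat_lit 0) (nat_lit 28122980521) (nat_lit 152) (nat_lit 35845906664) (nat_lit 228) (nat_lit 2460865399) (nat_lit 30) (nat_lit 5) (nat_lit 32) (nat_lit 5) (nat_lit 33) (nat_lit 5) (nat_lit 315) (nat_lit 264) (nat_lit 141))))) (XT.nd (nat_lit 234) (nat_lit 152) (nat_lit 0) (XT.nd (nat_lit 78) (nat_lit 304) (nat_lit 0) (XT.lf (nat_lit 0) (nat_lit 12387346424) (nat_lit 228) (nat_lit 1853815516) (nat_lit 76) (nat_lit 54808691463) (nat_lit 29) (nat_lit 5) (nat_lit 32) (nat_lit 5) (nat_lit 30) (nat_lit 5) (nat_lit 316) (nat_lit 264) (nat_lit 140)) (XT.nd (nat_lit 78) (nat_lit 152) (nat_lit 0) (XT.lf (nat_lit 0) (nat_lit 28363924908) (nat_lit 228) (nat_lit 34762166546) (nat_lit 76) (nat_lit 8661035381) (nat_lit 27) (nat_lit 5) (nat_lit 30) (nat_lit 5) (nat_lit 28) (nat_lit 5) (nat_lit 317) (nat_lit 264) (nat_lit 139)) (XT.lf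 (nat_lit 0) (nat_lit 3134354208) (nat_lit 152) (nat_lit 42192974989) (nat_lit 228) (nat_lit 29328298681) (nat_lit 25) (nat_lit 5) (nat_lit 27) (nat_lit 5) (nat_lit 28) (nat_lit 5) (nat_lit 318) (nat_lit 264) (nat_lit 138)))) (XT.nd (nat_lit 78) (nat_lit 152) (nat_lit 0) (XT.lf (nat_lit 0) (nat_lit 43643772003) (nat_lit 152) (nat_lit 19847997887) (nat_lit 228) (nat_lit 14165201761) (nat_lit 25) (nat_lit 5) (nat_lit 27) (nat_lit 5) (nat_lit 28) (nat_lit 5) (nat_lit 319) (nat_lit 264) (nat_lit 137)) (XT.nd (nat_lit 78) (nat_lit 0) (nat_lit 0) (XT.lf (nat_lit 0) (nat_lit 1804792343) (nat_lit 152) (nat_lit 75390124305) (nat_lit 76) (nat_lit 3610472669) (nat_lit 23) (nat_lit 5) (nat_lit 25) (nat_lit 5) (nat_lit 24) (nat_lit 5) (nat_lit 320) (nat_lit 264) (nat_lit 136)) (XT.lf (nat_lit 0) (nat_lit 18832314048) (nat_lit 152) (nat_lit 36929502961) (nat_lit 76) (nat_lit 28328647017) (nat_lit 23) (nat_lit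 5) (nat_lit 25) (nat_lit 5) (nat_lit 24) (nat_lit 5) (nat_lit 321) (nat_lit 264) (nat_lit 135)))))) (XT.nd (nat_lit 33072) (nat_lit 0) (nat_lit 12388) (XT.nd (nat_lit 234) (nat_lit 304) (nat_lit 0) (XT.nd (nat_lit 78) (nat_lit 0) (nat_lit 0) (XT.lf (nat_lit 0) (nat_lit 3515183579) (nat_lit 152) (nat_lit 33225370244) (nat_lit 228) (nat_lit 50798361461) (nat_lit 21) (nat_lit 5) (nat_lit 23) (nat_lit 5) (nat_lit 24) (nat_lit 5) (nat_lit 322) (nat_lit 264) (nat_lit 134)) (XT.nd (nat_lit 78) (nat_lit 0) (nat_lit 0) (XT.lf (nat_lit 0) (nat_lit 46746479377) (nat_lit 152) (nat_lit 9173575977) (nat_lit 228) (nat_lit 35228461184) (nat_lit 21) (nat_lit 5) (nat_lit 23) (nat_lit 5) (nat_lit 24) (nat_lit 5) (nat_lit 323) (nat_lit 264) (nat_lit 133)) (XT.lf (nat_lit 0) (nat_lit 76208980938) (nat_lit 228) (nat_lit 2960927893) (nat_lit 76) (nat_lit 15764178340) (nat_lit 21) (nat_lit 5) (nat_lit 24) (nat_lit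 5) (nat_lit 22) (nat_lit 4) (nat_lit 324) (nat_lit 264) (nat_lit 132)))) (XT.nd (nat_lit 78) (nat_lit 228) (nat_lit 0) (XT.lf (nat_lit 0) (nat_lit 41257983829) (nat_lit 76) (nat_lit 56739624136) (nat_lit 152) (nat_lit 896773371) (nat_lit 20) (nat_lit 5) (nat_lit 21) (nat_lit 5) (nat_lit 22) (nat_lit 4) (nat_lit 325) (nat_lit 264) (nat_lit 131)) (XT.nd (nat_lit 78) (nat_lit 152) (nat_lit 0) (XT.lf (nat_lit 0) (nat_lit 17502118692) (nat_lit 152) (nat_lit 15480326327) (nat_lit 76) (nat_lit 70064299892) (nat_lit 19) (nat_lit 5) (nat_lit 21) (nat_lit 5) (nat_lit 20) (nat_lit 5) (nat_lit 326) (nat_lit 264) (nat_lit 130)) (XT.lf (nat_lit 0) (nat_lit 29340717071) (nat_lit 152) (nat_lit 7740239342) (nat_lit 228) (nat_lit 70317149791) (nat_lit 17) (nat_lit 5) (nat_lit 19) (nat_lit 5) (nat_lit 20) (nat_lit 5) (nat_lit 327) (nat_lit 264) (nat_lit 129))))) (XT.nd (nat_lit 234) (nat_lit 0) (nat_lit 152)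 (XT.nd (nat_lit 78) (nat_lit 0) (nat_lit 0) (XT.lf (nat_lit 0) (nat_lit 4314687261) (nat_lit 1140) (nat_lit 1371305770) (nat_lit 1140) (nat_lit 1371305770) (nat_lit 180) (nat_lit 3) (nat_lit 195) (nat_lit 3) (nat_lit 195) (nat_lit 5) (nat_lit 265) (nat_lit 265) (nat_lit 190)) (XT.nd (nat_lit 78) (nat_lit 0) (nat_lit 76) (XT.lf (nat_lit 76) (nat_lit 7664798276) (nat_lit 0) (nat_lit 1766901743) (nat_lit 1140) (nat_lit 5017238747) (nat_lit 181) (nat_lit 5) (nat_lit 180) (nat_lit 3) (nat_lit 195) (nat_lit 5) (nat_lit 266) (nat_lit 265) (nat_lit 189)) (XT.lf (nat_lit 76) (nat_lit 3826696259) (nat_lit 0) (nat_lit 6559856555) (nat_lit 1140) (nat_lit 4410131119) (nat_lit 182) (nat_lit 5) (nat_lit 181) (nat_lit 5) (nat_lit 196) (nat_lit 5) (nat_lit 267) (nat_lit 265) (nat_lit 188)))) (XT.nd (nat_lit 78) (nat_lit 0) (nat_lit 0) (XT.lf (nat_lit 0) (nat_lit 11480067418) (nat_lit 1064) (nat_lit 121362866)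 (nat_lit 1140) (nat_lit 3557714956) (nat_lit 182) (nat_lit 5) (nat_lit 196) (nat_lit 5) (nat_lit 197) (nat_lit 5) (nat_lit 268) (nat_lit 265) (nat_lit 187)) (XT.nd (nat_lit 78) (nat_lit 0) (nat_lit 76) (XT.lf (nat_lit 76) (nat_lit 11407924645) (nat_lit 0) (nat_lit 1366368807) (nat_lit 1140) (nat_lit 2761108857) (nat_lit 183) (nat_lit 5) (nat_lit 182) (nat_lit 5) (nat_lit 197) (nat_lit 5) (nat_lit 269) (nat_lit 265) (nat_lit 186)) (XT.lf (nat_lit 76) (nat_lit 7625739532) (nat_lit 0) (nat_lit 6643748513) (nat_lit 1140) (nat_lit 1656947675) (nat_lit 184) (nat_lit 5) (nat_lit 183) (nat_lit 5) (nat_lit 198) (nat_lit 5) (nat_lit 270) (nat_lit 265) (nat_lit 185))))))))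
noncomputable def xc94 : XT := (XT.nd (nat_lit 1716) (nat_lit 3876) (nat_lit 0) (XT.nd (nat_lit 858) (nat_lit 3876) (nat_lit 0) (XT.nd (nat_lit 390) (nat_lit 2660) (nat_lit 0) (XT.nd (nat_lit 156) (nat_lit 0) (nat_lit 76) (XT.nd (nat_lit 78) (nat_lit 1140) (nat_lit 0) (XT.lf (nat_lit 76) (nat_lit 3717092469) (nat_lit 0) (nat_lit 12226844356) (nat_lit 1140) (nat_lit 389997912) (nat_lit 185) (nat_lit 5) (nat_lit 184) (nat_lit 5) (nat_lit 199) (nat_lit 5) (nat_lit 271) (nat_lit 265) (nat_lit 184)) (XT.lf (nat_lit 0) (nat_lit 1048907367) (nat_lit 1140) (nat_lit 346061658) (nat_lit 1216) (nat_lit 15362804912) (nat_lit 169) (nat_lit 5) (nat_lit 184) (nat_lit 5) (nat_lit 185) (nat_lit 5) (nat_lit 272) (nat_lit 265) (nat_lit 183))) (XT.nd (nat_lit 78) (nat_lit 0) (nat_lit 76) (XT.lf (nat_lit 0) (nat_lit 2746576540) (nat_lit 1140) (nat_lit 4531821459) (nat_lit 1216) (nat_lit 9918487669) (nat_lit 170)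 (nat_lit 5) (nat_lit 185) (nat_lit 5) (nat_lit 186) (nat_lit 5) (nat_lit 273) (nat_lit 265) (nat_lit 182)) (XT.nd (nat_lit 78) (nat_lit 0) (nat_lit 0) (XT.lf (nat_lit 0) (nat_lit 4647948464) (nat_lit 1140) (nat_lit 8880553382) (nat_lit 1216) (nat_lit 4125927463) (nat_lit 171) (nat_lit 5) (nat_lit 186) (nat_lit 5) (nat_lit 187) (nat_lit 5) (nat_lit 274) (nat_lit 265) (nat_lit 181)) (XT.lf (nat_lit 76) (nat_lit 4705251043) (nat_lit 0) (nat_lit 2081916082) (nat_lit 1216) (nat_lit 11343438617) (nat_lit 172) (nat_lit 5) (nat_lit 171) (nat_lit 5) (nat_lit 187) (nat_lit 5) (nat_lit 275) (nat_lit 265) (nat_lit 180))))) (XT.nd (nat_lit 234) (nat_lit 1216) (nat_lit 0) (XT.nd (nat_lit 78) (nat_lit 532) (nat_lit 0) (XT.lf (nat_lit 0) (nat_lit 420912165) (nat_lit 1140) (nat_lit 8782255365) (nat_lit 1216) (nat_lit 9422365940) (nat_lit 157) (nat_lit 5) (nat_lit 172) (nat_lit 5) (nat_lit 173) (nat_lit 5)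 (nat_lit 276) (nat_lit 265) (nat_lit 179)) (XT.nd (nat_lit 78) (nat_lit 532) (nat_lit 0) (XT.lf (nat_lit 0) (nat_lit 11909720132) (nat_lit 1216) (nat_lit 3972841464) (nat_lit 76) (nat_lit 3257588756) (nat_lit 157) (nat_lit 5) (nat_lit 173) (nat_lit 5) (nat_lit 158) (nat_lit 5) (nat_lit 277) (nat_lit 265) (nat_lit 178)) (XT.lf (nat_lit 0) (nat_lit 11079899326) (nat_lit 532) (nat_lit 3846689593) (nat_lit 608) (nat_lit 4748693150) (nat_lit 150) (nat_lit 5) (nat_lit 157) (nat_lit 5) (nat_lit 158) (nat_lit 5) (nat_lit 278) (nat_lit 265) (nat_lit 177)))) (XT.nd (nat_lit 78) (nat_lit 608) (nat_lit 0) (XT.lf (nat_lit 0) (nat_lit 6761074933) (nat_lit 608) (nat_lit 11504670606) (nat_lit 684) (nat_lit 1966313550) (nat_lit 142) (nat_lit 5) (nat_lit 150) (nat_lit 5) (nat_lit 151) (nat_lit 5) (nat_lit 279) (nat_lit 265) (nat_lit 176)) (XT.nd (nat_lit 78) (nat_lit 0) (nat_lit 0) (XT.lf (nat_lit 0) (nat_lit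 1078474312) (nat_lit 608) (nat_lit 18596305996) (nat_lit 76) (nat_lit 1137390977) (nat_lit 134) (nat_lit 5) (nat_lit 142) (nat_lit 5) (nat_lit 135) (nat_lit 5) (nat_lit 280) (nat_lit 265) (nat_lit 175)) (XT.lf (nat_lit 0) (nat_lit 4473291234) (nat_lit 608) (nat_lit 2604143213) (nat_lit 76) (nat_lit 14336145130) (nat_lit 134) (nat_lit 5) (nat_lit 142) (nat_lit 5) (nat_lit 135) (nat_lit 5) (nat_lit 281) (nat_lit 265) (nat_lit 174)))))) (XT.nd (nat_lit 390) (nat_lit 1976) (nat_lit 0) (XT.nd (nat_lit 156) (nat_lit 912) (nat_lit 0) (XT.nd (nat_lit 78) (nat_lit 456) (nat_lit 0) (XT.lf (nat_lit 0) (nat_lit 8220037619) (nat_lit 608) (nat_lit 7649648208) (nat_lit 76) (nat_lit 6169933675) (nat_lit 127) (nat_lit 5) (nat_lit 135) (nat_lit 5) (nat_lit 128) (nat_lit 5) (nat_lit 282) (nat_lit 265) (nat_lit 173)) (XT.lf (nat_lit 0) (nat_lit 9692091217) (nat_lit 456) (nat_lit 2637133567) (nat_lit 532) (nat_lit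 10362509132) (nat_lit 121) (nat_lit 5) (nat_lit 127) (nat_lit 5) (nat_lit 128) (nat_lit 5) (nat_lit 283) (nat_lit 265) (nat_lit 172))) (XT.nd (nat_lit 78) (nat_lit 456) (nat_lit 0) (XT.lf (nat_lit 0) (nat_lit 4651065818) (nat_lit 456) (nat_lit 12209297712) (nat_lit 532) (nat_lit 6509620133) (nat_lit 115) (nat_lit 5) (nat_lit 121) (nat_lit 5) (nat_lit 122) (nat_lit 5) (nat_lit 284) (nat_lit 265) (nat_lit 171)) (XT.nd (nat_lit 78) (nat_lit 456) (nat_lit 0) (XT.lf (nat_lit 0) (nat_lit 21778731998) (nat_lit 532) (nat_lit 681745773) (nat_lit 76) (nat_lit 1616871161) (nat_lit 115) (nat_lit 5) (nat_lit 122) (nat_lit 5) (nat_lit 116) (nat_lit 5) (nat_lit 285) (nat_lit 265) (nat_lit 170)) (XT.lf (nat_lit 0) (nat_lit 2370538767) (nat_lit 456) (nat_lit 6356660290) (nat_lit 76) (nat_lit 16083621810) (nat_lit 109) (nat_lit 5) (nat_lit 115) (nat_lit 5) (nat_lit 110) (nat_lit 5) (nat_lit 286) (nat_lit 265)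 (nat_lit 169))))) (XT.nd (nat_lit 234) (nat_lit 760) (nat_lit 0) (XT.nd (nat_lit 78) (nat_lit 760) (nat_lit 0) (XT.lf (nat_lit 0) (nat_lit 7402015107) (nat_lit 532) (nat_lit 12434688776) (nat_lit 76) (nat_lit 5738308152) (nat_lit 103) (nat_lit 5) (nat_lit 110) (nat_lit 5) (nat_lit 104) (nat_lit 5) (nat_lit 287) (nat_lit 265) (nat_lit 168)) (XT.nd (nat_lit 78) (nat_lit 380) (nat_lit 0) (XT.lf (nat_lit 0) (nat_lit 7409084775) (nat_lit 380) (nat_lit 5487620917) (nat_lit 456) (nat_lit 13474377328) (nat_lit 98) (nat_lit 5) (nat_lit 103) (nat_lit 5) (nat_lit 104) (nat_lit 5) (nat_lit 288) (nat_lit 265) (nat_lit 167)) (XT.lf (nat_lit 0) (nat_lit 1215934300) (nat_lit 380) (nat_lit 17669962370) (nat_lit 456) (nat_lit 8314486453) (nat_lit 93) (nat_lit 5) (nat_lit 98) (nat_lit 5) (nat_lit 99) (nat_lit 5) (nat_lit 289) (nat_lit 265) (nat_lit 166)))) (XT.nd (nat_lit 78) (nat_lit 760) (nat_lit 0) (XT.lf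 (nat_lit 0) (nat_lit 22726763160) (nat_lit 380) (nat_lit 2685034109) (nat_lit 456) (nat_lit 2652251122) (nat_lit 93) (nat_lit 5) (nat_lit 98) (nat_lit 5) (nat_lit 99) (nat_lit 5) (nat_lit 290) (nat_lit 265) (nat_lit 165)) (XT.nd (nat_lit 78) (nat_lit 380) (nat_lit 0) (XT.lf (nat_lit 0) (nat_lit 3503577069) (nat_lit 380) (nat_lit 12473224804) (nat_lit 76) (nat_lit 12984919484) (nat_lit 88) (nat_lit 5) (nat_lit 93) (nat_lit 5) (nat_lit 89) (nat_lit 5) (nat_lit 291) (nat_lit 265) (nat_lit 164)) (XT.lf (nat_lit 0) (nat_lit 9734841844) (nat_lit 380) (nat_lit 342272511) (nat_lit 456) (nat_lit 19821448263) (nat_lit 83) (nat_lit 5) (nat_lit 88) (nat_lit 5) (nat_lit 89) (nat_lit 5) (nat_lit 292) (nat_lit 265) (nat_lit 163))))))) (XT.nd (nat_lit 858) (nat_lit 1520) (nat_lit 0) (XT.nd (nat_lit 390) (nat_lit 1064) (nat_lit 0) (XT.nd (nat_lit 156) (nat_lit 988) (nat_lit 0) (XT.nd (nat_lit 78) (nat_lit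 0) (nat_lit 0) (XT.lf (nat_lit 0) (nat_lit 2309790127) (nat_lit 304) (nat_lit 14964416214) (nat_lit 380) (nat_lit 13599208079) (nat_lit 79) (nat_lit 5) (nat_lit 83) (nat_lit 5) (nat_lit 84) (nat_lit 5) (nat_lit 293) (nat_lit 265) (nat_lit 162)) (XT.lf (nat_lit 0) (nat_lit 25043334310) (nat_lit 380) (nat_lit 5593144182) (nat_lit 76) (nat_lit 1254178986) (nat_lit 79) (nat_lit 5) (nat_lit 84) (nat_lit 5) (nat_lit 80) (nat_lit 5) (nat_lit 294) (nat_lit 265) (nat_lit 161))) (XT.nd (nat_lit 78) (nat_lit 608) (nat_lit 0) (XT.lf (nat_lit 0) (nat_lit 561028699) (nat_lit 380) (nat_lit 14228670090) (nat_lit 76) (nat_lit 18159299169) (nat_lit 74) (nat_lit 5) (nat_lit 79) (nat_lit 5) (nat_lit 75) (nat_lit 5) (nat_lit 295) (nat_lit 265) (nat_lit 160)) (XT.nd (nat_lit 78) (nat_lit 304) (nat_lit 0) (XT.lf (nat_lit 0) (nat_lit 8367530430) (nat_lit 380) (nat_lit 23646173804) (nat_lit 76) (nat_lit 2039449430)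 (nat_lit 70) (nat_lit 5) (nat_lit 75) (nat_lit 5) (nat_lit 71) (nat_lit 5) (nat_lit 296) (nat_lit 265) (nat_lit 159)) (XT.lf (nat_lit 0) (nat_lit 1222839804) (nat_lit 304) (nat_lit 15640448014) (nat_lit 380) (nat_lit 18340273251) (nat_lit 66) (nat_lit 5) (nat_lit 70) (nat_lit 5) (nat_lit 71) (nat_lit 5) (nat_lit 297) (nat_lit 265) (nat_lit 158))))) (XT.nd (nat_lit 234) (nat_lit 456) (nat_lit 0) (XT.nd (nat_lit 78) (nat_lit 608) (nat_lit 0) (XT.lf (nat_lit 0) (nat_lit 26034861621) (nat_lit 380) (nat_lit 8605858582) (nat_lit 76) (nat_lit 1763249054) (nat_lit 66) (nat_lit 5) (nat_lit 71) (nat_lit 5) (nat_lit 67) (nat_lit 5) (nat_lit 298) (nat_lit 265) (nat_lit 157)) (XT.nd (nat_lit 78) (nat_lit 380) (nat_lit 0) (XT.lf (nat_lit 0) (nat_lit 18222336338) (nat_lit 228) (nat_lit 17766455610) (nat_lit 304) (nat_lit 1665903302) (nat_lit 63) (nat_lit 5) (nat_lit 66) (nat_lit 5) (nat_lit 67) (nat_lit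 5) (nat_lit 299) (nat_lit 265) (nat_lit 156)) (XT.lf (nat_lit 0) (nat_lit 7482640595) (nat_lit 380) (nat_lit 31292505075) (nat_lit 76) (nat_lit 185987080) (nat_lit 58) (nat_lit 5) (nat_lit 63) (nat_lit 5) (nat_lit 59) (nat_lit 5) (nat_lit 300) (nat_lit 265) (nat_lit 155)))) (XT.nd (nat_lit 78) (nat_lit 456) (nat_lit 0) (XT.lf (nat_lit 0) (nat_lit 17427061470) (nat_lit 380) (nat_lit 4007071989) (nat_lit 76) (nat_lit 18887086197) (nat_lit 58) (nat_lit 5) (nat_lit 63) (nat_lit 5) (nat_lit 59) (nat_lit 5) (nat_lit 301) (nat_lit 265) (nat_lit 154)) (XT.nd (nat_lit 78) (nat_lit 228) (nat_lit 0) (XT.lf (nat_lit 0) (nat_lit 25120628907) (nat_lit 228) (nat_lit 2981208600) (nat_lit 304) (nat_lit 13640488376) (nat_lit 55) (nat_lit 5) (nat_lit 58) (nat_lit 5) (nat_lit 59) (nat_lit 5) (nat_lit 302) (nat_lit 265) (nat_lit 153)) (XT.lf (nat_lit 0) (nat_lit 12631626397) (nat_lit 228) (nat_lit 26991305303)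 (nat_lit 304) (nat_lit 3602186912) (nat_lit 52) (nat_lit 5) (nat_lit 55) (nat_lit 5) (nat_lit 56) (nat_lit 5) (nat_lit 303) (nat_lit 265) (nat_lit 152)))))) (XT.nd (nat_lit 390) (nat_lit 760) (nat_lit 0) (XT.nd (nat_lit 156) (nat_lit 456) (nat_lit 0) (XT.nd (nat_lit 78) (nat_lit 228) (nat_lit 0) (XT.lf (nat_lit 0) (nat_lit 6997627030) (nat_lit 304) (nat_lit 1192315578) (nat_lit 76) (nat_lit 36584266018) (nat_lit 51) (nat_lit 5) (nat_lit 55) (nat_lit 5) (nat_lit 52) (nat_lit 5) (nat_lit 304) (nat_lit 265) (nat_lit 151)) (XT.lf (nat_lit 0) (nat_lit 18450837657) (nat_lit 304) (nat_lit 16284454299) (nat_lit 76) (nat_lit 11652461634) (nat_lit 48) (nat_lit 5) (nat_lit 52) (nat_lit 5) (nat_lit 49) (nat_lit 5) (nat_lit 305) (nat_lit 265) (nat_lit 150))) (XT.nd (nat_lit 78) (nat_lit 228) (nat_lit 0) (XT.lf (nat_lit 0) (nat_lit 15107845921) (nat_lit 228) (nat_lit 15601834373) (nat_lit 304) (nat_lit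 17365313553) (nat_lit 45) (nat_lit 5) (nat_lit 48) (nat_lit 5) (nat_lit 49) (nat_lit 5) (nat_lit 306) (nat_lit 265) (nat_lit 149)) (XT.nd (nat_lit 78) (nat_lit 228) (nat_lit 0) (XT.lf (nat_lit 0) (nat_lit 43786797712) (nat_lit 304) (nat_lit 1487355870) (nat_lit 76) (nat_lit 4566289401) (nat_lit 45) (nat_lit 5) (nat_lit 49) (nat_lit 5) (nat_lit 46) (nat_lit 5) (nat_lit 307) (nat_lit 265) (nat_lit 148)) (XT.lf (nat_lit 0) (nat_lit 6173034248) (nat_lit 228) (nat_lit 19717609178) (nat_lit 76) (nat_lit 25787956058) (nat_lit 42) (nat_lit 5) (nat_lit 45) (nat_lit 5) (nat_lit 43) (nat_lit 5) (nat_lit 308) (nat_lit 265) (nat_lit 147))))) (XT.nd (nat_lit 234) (nat_lit 380) (nat_lit 0) (XT.nd (nat_lit 78) (nat_lit 152) (nat_lit 0) (XT.lf (nat_lit 0) (nat_lit 13700368246) (nat_lit 228) (nat_lit 5327189677) (nat_lit 304) (nat_lit 34575062538) (nat_lit 39) (nat_lit 5) (nat_lit 42) (nat_lit 5) (nat_lit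 43) (nat_lit 5) (nat_lit 309) (nat_lit 265) (nat_lit 146)) (XT.nd (nat_lit 78) (nat_lit 152) (nat_lit 0) (XT.lf (nat_lit 0) (nat_lit 32879705721) (nat_lit 304) (nat_lit 6584041114) (nat_lit 76) (nat_lit 16148454454) (nat_lit 39) (nat_lit 5) (nat_lit 43) (nat_lit 5) (nat_lit 40) (nat_lit 5) (nat_lit 310) (nat_lit 265) (nat_lit 145)) (XT.lf (nat_lit 0) (nat_lit 28900532944) (nat_lit 152) (nat_lit 18849381590) (nat_lit 228) (nat_lit 9962588486) (nat_lit 37) (nat_lit 5) (nat_lit 39) (nat_lit 5) (nat_lit 40) (nat_lit 5) (nat_lit 311) (nat_lit 265) (nat_lit 144)))) (XT.nd (nat_lit 78) (nat_lit 152) (nat_lit 0) (XT.lf (nat_lit 0) (nat_lit 3531629367) (nat_lit 228) (nat_lit 53477655517) (nat_lit 76) (nat_lit 2902954642) (nat_lit 34) (nat_lit 5) (nat_lit 37) (nat_lit 5) (nat_lit 35) (nat_lit 5) (nat_lit 312) (nat_lit 265) (nat_lit 143)) (XT.nd (nat_lit 78) (nat_lit 152) (nat_lit 0) (XT.lf (nat_lit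 0) (nat_lit 17980387953) (nat_lit 228) (nat_lit 18470704568) (nat_lit 76) (nat_lit 25753339823) (nat_lit 34) (nat_lit 5) (nat_lit 37) (nat_lit 5) (nat_lit 35) (nat_lit 5) (nat_lit 313) (nat_lit 265) (nat_lit 142)) (XT.lf (nat_lit 0) (nat_lit 18641355837) (nat_lit 152) (nat_lit 14683872524) (nat_lit 228) (nat_lit 31280801710) (nat_lit 32) (nat_lit 5) (nat_lit 34) (nat_lit 5) (nat_lit 35) (nat_lit 5) (nat_lit 314) (nat_lit 265) (nat_lit 141))))))))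
noncomputable def xc95 : XT := (XT.nd (nat_lit 34398) (nat_lit 0) (nat_lit 3876) (XT.nd (nat_lit 858) (nat_lit 152) (nat_lit 0) (XT.nd (nat_lit 390) (nat_lit 304) (nat_lit 0) (XT.nd (nat_lit 156) (nat_lit 380) (nat_lit 0) (XT.nd (nat_lit 78) (nat_lit 152) (nat_lit 0) (XT.lf (nat_lit 0) (nat_lit 49702483976) (nat_lit 228) (nat_lit 9216308020) (nat_lit 76) (nat_lit 8200964864) (nat_lit 32) (nat_lit 5) (nat_lit 35) (nat_lit 5) (nat_lit 33) (nat_lit 5) (nat_lit 315) (nat_lit 265) (nat_lit 140)) (XT.lf (nat_lit 0) (nat_lit 29794210359) (nat_lit 152) (nat_lit 37533856782) (nat_lit 228) (nat_lit 2418223062) (nat_lit 30) (nat_lit 5) (nat_lit 32) (nat_lit 5) (nat_lit 33) (nat_lit 5) (nat_lit 316) (nat_lit 265) (nat_lit 139))) (XT.nd (nat_lit 78) (nat_lit 304) (nat_lit 0) (XT.lf (nat_lit 0) (nat_lit 13161430397) (nat_lit 228) (nat_lit 1690850910) (nat_lit 76) (nat_lit 57645304965) (nat_lit 29) (nat_lit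 5) (nat_lit 32) (nat_lit 5) (nat_lit 30) (nat_lit 5) (nat_lit 317) (nat_lit 265) (nat_lit 138)) (XT.nd (nat_lit 78) (nat_lit 152) (nat_lit 0) (XT.lf (nat_lit 0) (nat_lit 29932805132) (nat_lit 228) (nat_lit 36248290760) (nat_lit 76) (nat_lit 9190754096) (nat_lit 27) (nat_lit 5) (nat_lit 30) (nat_lit 5) (nat_lit 28) (nat_lit 5) (nat_lit 318) (nat_lit 265) (nat_lit 137)) (XT.lf (nat_lit 0) (nat_lit 3535832957) (nat_lit 152) (nat_lit 44203724044) (nat_lit 228) (nat_lit 30644369127) (nat_lit 25) (nat_lit 5) (nat_lit 27) (nat_lit 5) (nat_lit 28) (nat_lit 5) (nat_lit 319) (nat_lit 265) (nat_lit 136))))) (XT.nd (nat_lit 234) (nat_lit 152) (nat_lit 0) (XT.nd (nat_lit 78) (nat_lit 152) (nat_lit 0) (XT.lf (nat_lit 0) (nat_lit 46059066354) (nat_lit 152) (nat_lit 20746207596) (nat_lit 228) (nat_lit 14730276623) (nat_lit 25) (nat_lit 5) (nat_lit 27) (nat_lit 5) (nat_lit 28) (nat_lit 5) (nat_lit 320) (nat_lit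 265) (nat_lit 135)) (XT.nd (nat_lit 78) (nat_lit 0) (nat_lit 0) (XT.lf (nat_lit 0) (nat_lit 2031838467) (nat_lit 152) (nat_lit 78927121678) (nat_lit 76) (nat_lit 3882499950) (nat_lit 23) (nat_lit 5) (nat_lit 25) (nat_lit 5) (nat_lit 24) (nat_lit 5) (nat_lit 321) (nat_lit 265) (nat_lit 134)) (XT.lf (nat_lit 0) (nat_lit 19904221662) (nat_lit 152) (nat_lit 38554541116) (nat_lit 76) (nat_lit 29832225700) (nat_lit 23) (nat_lit 5) (nat_lit 25) (nat_lit 5) (nat_lit 24) (nat_lit 5) (nat_lit 322) (nat_lit 265) (nat_lit 133)))) (XT.nd (nat_lit 78) (nat_lit 0) (nat_lit 0) (XT.lf (nat_lit 0) (nat_lit 3906032304) (nat_lit 152) (nat_lit 34797704317) (nat_lit 228) (nat_lit 53208254067) (nat_lit 21) (nat_lit 5) (nat_lit 23) (nat_lit 5) (nat_lit 24) (nat_lit 5) (nat_lit 323) (nat_lit 265) (nat_lit 132)) (XT.nd (nat_lit 78) (nat_lit 0) (nat_lit 0) (XT.lf (nat_lit 0) (nat_lit 49288650533) (nat_lit 152) (nat_lit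 9547555310) (nat_lit 228) (nat_lit 36866050465) (nat_lit 21) (nat_lit 5) (nat_lit 23) (nat_lit 5) (nat_lit 24) (nat_lit 5) (nat_lit 324) (nat_lit 265) (nat_lit 131)) (XT.lf (nat_lit 0) (nat_lit 80134631798) (nat_lit 228) (nat_lit 2911146611) (nat_lit 76) (nat_lit 16631479328) (nat_lit 21) (nat_lit 5) (nat_lit 24) (nat_lit 5) (nat_lit 22) (nat_lit 4) (nat_lit 325) (nat_lit 265) (nat_lit 130)))))) (XT.nd (nat_lit 33072) (nat_lit 0) (nat_lit 11400) (XT.nd (nat_lit 32838) (nat_lit 0) (nat_lit 12236) (XT.nd (nat_lit 78) (nat_lit 76) (nat_lit 0) (XT.lf (nat_lit 0) (nat_lit 43513040007) (nat_lit 76) (nat_lit 59496011500) (nat_lit 152) (nat_lit 826627965) (nat_lit 20) (nat_lit 5) (nat_lit 21) (nat_lit 5) (nat_lit 22) (nat_lit 4) (nat_lit 326) (nat_lit 265) (nat_lit 129)) (XT.lf (nat_lit 0) (nat_lit 18484596361) (nat_lit 152) (nat_lit 16069130624) (nat_lit 76) (nat_lit 73642065562) (nat_lit 19) (nat_lit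 5) (nat_lit 21) (nat_lit 5) (nat_lit 20) (nat_lit 5) (nat_lit 327) (nat_lit 265) (nat_lit 128))) (XT.nd (nat_lit 78) (nat_lit 0) (nat_lit 0) (XT.lf (nat_lit 0) (nat_lit 5035326028) (nat_lit 1140) (nat_lit 1179389498) (nat_lit 1140) (nat_lit 1179389498) (nat_lit 180) (nat_lit 3) (nat_lit 195) (nat_lit 3) (nat_lit 195) (nat_lit 5) (nat_lit 266) (nat_lit 266) (nat_lit 188)) (XT.nd (nat_lit 78) (nat_lit 0) (nat_lit 76) (XT.lf (nat_lit 76) (nat_lit 8554068008) (nat_lit 0) (nat_lit 2315803954) (nat_lit 1140) (nat_lit 4270779780) (nat_lit 181) (nat_lit 5) (nat_lit 180) (nat_lit 3) (nat_lit 195) (nat_lit 5) (nat_lit 267) (nat_lit 266) (nat_lit 187)) (XT.lf (nat_lit 76) (nat_lit 4543708880) (nat_lit 0) (nat_lit 7283567365) (nat_lit 1140) (nat_lit 3679946342) (nat_lit 182) (nat_lit 5) (nat_lit 181) (nat_lit 5) (nat_lit 196) (nat_lit 5) (nat_lit 268) (nat_lit 266) (nat_lit 186))))) (XT.nd (nat_lit 234)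 (nat_lit 988) (nat_lit 0) (XT.nd (nat_lit 78) (nat_lit 0) (nat_lit 0) (XT.lf (nat_lit 76) (nat_lit 412792860) (nat_lit 0) (nat_lit 12519143000) (nat_lit 1140) (nat_lit 2957255767) (nat_lit 183) (nat_lit 5) (nat_lit 182) (nat_lit 5) (nat_lit 197) (nat_lit 5) (nat_lit 269) (nat_lit 266) (nat_lit 185)) (XT.nd (nat_lit 78) (nat_lit 0) (nat_lit 76) (XT.lf (nat_lit 76) (nat_lit 12495235161) (nat_lit 0) (nat_lit 1755024769) (nat_lit 1140) (nat_lit 2035295014) (nat_lit 183) (nat_lit 5) (nat_lit 182) (nat_lit 5) (nat_lit 197) (nat_lit 5) (nat_lit 270) (nat_lit 266) (nat_lit 184)) (XT.lf (nat_lit 76) (nat_lit 8537969058) (nat_lit 0) (nat_lit 7244547157) (nat_lit 1140) (nat_lit 914826176) (nat_lit 184) (nat_lit 5) (nat_lit 183) (nat_lit 5) (nat_lit 198) (nat_lit 5) (nat_lit 271) (nat_lit 266) (nat_lit 183)))) (XT.nd (nat_lit 78) (nat_lit 0) (nat_lit 0) (XT.lf (nat_lit 0) (nat_lit 371633164) (nat_lit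 1140) (nat_lit 12684122354) (nat_lit 1216) (nat_lit 4070478987) (nat_lit 169) (nat_lit 5) (nat_lit 184) (nat_lit 5) (nat_lit 185) (nat_lit 5) (nat_lit 272) (nat_lit 266) (nat_lit 182)) (XT.nd (nat_lit 78) (nat_lit 0) (nat_lit 76) (XT.lf (nat_lit 76) (nat_lit 172987714) (nat_lit 0) (nat_lit 1666351880) (nat_lit 1216) (nat_lit 15732925478) (nat_lit 170) (nat_lit 5) (nat_lit 169) (nat_lit 5) (nat_lit 185) (nat_lit 5) (nat_lit 273) (nat_lit 266) (nat_lit 181)) (XT.lf (nat_lit 0) (nat_lit 3588330412) (nat_lit 1140) (nat_lit 4216515845) (nat_lit 1216) (nat_lit 10229552891) (nat_lit 170) (nat_lit 5) (nat_lit 185) (nat_lit 5) (nat_lit 186) (nat_lit 5) (nat_lit 274) (nat_lit 266) (nat_lit 180))))))) (XT.nd (nat_lit 858) (nat_lit 3420) (nat_lit 0) (XT.nd (nat_lit 390) (nat_lit 2660) (nat_lit 0) (XT.nd (nat_lit 156) (nat_lit 1596) (nat_lit 0) (XT.nd (nat_lit 78) (nat_lit 0) (nat_lit 0) (XT.lf (nat_lit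 0) (nat_lit 5554848780) (nat_lit 1140) (nat_lit 8775360671) (nat_lit 1216) (nat_lit 4185565236) (nat_lit 171) (nat_lit 5) (nat_lit 186) (nat_lit 5) (nat_lit 187) (nat_lit 5) (nat_lit 275) (nat_lit 266) (nat_lit 179)) (XT.lf (nat_lit 76) (nat_lit 5473990684) (nat_lit 0) (nat_lit 2300046613) (nat_lit 1216) (nat_lit 11242586709) (nat_lit 172) (nat_lit 5) (nat_lit 171) (nat_lit 5) (nat_lit 187) (nat_lit 5) (nat_lit 276) (nat_lit 266) (nat_lit 178))) (XT.nd (nat_lit 78) (nat_lit 532) (nat_lit 0) (XT.lf (nat_lit 0) (nat_lit 981131649) (nat_lit 1140) (nat_lit 9303011073) (nat_lit 1216) (nat_lit 9253007995) (nat_lit 157) (nat_lit 5) (nat_lit 172) (nat_lit 5) (nat_lit 173) (nat_lit 5) (nat_lit 277) (nat_lit 266) (nat_lit 177)) (XT.nd (nat_lit 78) (nat_lit 532) (nat_lit 0) (XT.lf (nat_lit 0) (nat_lit 13095712818) (nat_lit 1216) (nat_lit 3638513914) (nat_lit 76) (nat_lit 3344230297) (nat_lit 157) (nat_lit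 5) (nat_lit 173) (nat_lit 5) (nat_lit 158) (nat_lit 5) (nat_lit 278) (nat_lit 266) (nat_lit 176)) (XT.lf (nat_lit 0) (nat_lit 12151586449) (nat_lit 532) (nat_lit 4088695604) (nat_lit 608) (nat_lit 4400804505) (nat_lit 150) (nat_lit 5) (nat_lit 157) (nat_lit 5) (nat_lit 158) (nat_lit 5) (nat_lit 279) (nat_lit 266) (nat_lit 175))))) (XT.nd (nat_lit 234) (nat_lit 1444) (nat_lit 0) (XT.nd (nat_lit 78) (nat_lit 608) (nat_lit 0) (XT.lf (nat_lit 0) (nat_lit 7619889888) (nat_lit 608) (nat_lit 12104040436) (nat_lit 684) (nat_lit 1502490789) (nat_lit 142) (nat_lit 5) (nat_lit 150) (nat_lit 5) (nat_lit 151) (nat_lit 5) (nat_lit 280) (nat_lit 266) (nat_lit 174)) (XT.nd (nat_lit 78) (nat_lit 0) (nat_lit 0) (XT.lf (nat_lit 0) (nat_lit 1662173107) (nat_lit 608) (nat_lit 18991945321) (nat_lit 76) (nat_lit 1181941535) (nat_lit 134) (nat_lit 5) (nat_lit 142) (nat_lit 5) (nat_lit 135) (nat_lit 5) (nat_lit 281)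 (nat_lit 266) (nat_lit 173)) (XT.lf (nat_lit 0) (nat_lit 5201503490) (nat_lit 608) (nat_lit 2225611350) (nat_lit 76) (nat_lit 15041220014) (nat_lit 134) (nat_lit 5) (nat_lit 142) (nat_lit 5) (nat_lit 135) (nat_lit 5) (nat_lit 282) (nat_lit 266) (nat_lit 172)))) (XT.nd (nat_lit 78) (nat_lit 912) (nat_lit 0) (XT.lf (nat_lit 0) (nat_lit 9116396647) (nat_lit 608) (nat_lit 7522751964) (nat_lit 76) (nat_lit 6487141369) (nat_lit 127) (nat_lit 5) (nat_lit 135) (nat_lit 5) (nat_lit 128) (nat_lit 5) (nat_lit 283) (nat_lit 266) (nat_lit 171)) (XT.nd (nat_lit 78) (nat_lit 456) (nat_lit 0) (XT.lf (nat_lit 0) (nat_lit 10671473196) (nat_lit 456) (nat_lit 2741213833) (nat_lit 532) (nat_lit 10398909475) (nat_lit 121) (nat_lit 5) (nat_lit 127) (nat_lit 5) (nat_lit 128) (nat_lit 5) (nat_lit 284) (nat_lit 266) (nat_lit 170)) (XT.lf (nat_lit 0) (nat_lit 5378256525) (nat_lit 456) (nat_lit 12774897091) (nat_lit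 532) (nat_lit 6371155999) (nat_lit 115) (nat_lit 5) (nat_lit 121) (nat_lit 5) (nat_lit 122) (nat_lit 5) (nat_lit 285) (nat_lit 266) (nat_lit 169)))))) (XT.nd (nat_lit 468) (nat_lit 1748) (nat_lit 0) (XT.nd (nat_lit 234) (nat_lit 760) (nat_lit 0) (XT.nd (nat_lit 78) (nat_lit 912) (nat_lit 0) (XT.lf (nat_lit 0) (nat_lit 23296433534) (nat_lit 532) (nat_lit 231662230) (nat_lit 76) (nat_lit 1739609975) (nat_lit 115) (nat_lit 5) (nat_lit 122) (nat_lit 5) (nat_lit 116) (nat_lit 5) (nat_lit 286) (nat_lit 266) (nat_lit 168)) (XT.nd (nat_lit 78) (nat_lit 456) (nat_lit 0) (XT.lf (nat_lit 0) (nat_lit 2906626616) (nat_lit 456) (nat_lit 6195291970) (nat_lit 76) (nat_lit 16936317616) (nat_lit 109) (nat_lit 5) (nat_lit 115) (nat_lit 5) (nat_lit 110) (nat_lit 5) (nat_lit 287) (nat_lit 266) (nat_lit 167)) (XT.lf (nat_lit 0) (nat_lit 8174875866) (nat_lit 532) (nat_lit 12578931796) (nat_lit 76) (nat_lit 6087301811)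 (nat_lit 103) (nat_lit 5) (nat_lit 110) (nat_lit 5) (nat_lit 104) (nat_lit 5) (nat_lit 288) (nat_lit 266) (nat_lit 166)))) (XT.nd (nat_lit 78) (nat_lit 380) (nat_lit 0) (XT.lf (nat_lit 0) (nat_lit 8243343237) (nat_lit 380) (nat_lit 5686237066) (nat_lit 456) (nat_lit 13747872486) (nat_lit 98) (nat_lit 5) (nat_lit 103) (nat_lit 5) (nat_lit 104) (nat_lit 5) (nat_lit 289) (nat_lit 266) (nat_lit 165)) (XT.nd (nat_lit 78) (nat_lit 0) (nat_lit 0) (XT.lf (nat_lit 0) (nat_lit 1738368081) (nat_lit 380) (nat_lit 18466515841) (nat_lit 456) (nat_lit 8343760249) (nat_lit 93) (nat_lit 5) (nat_lit 98) (nat_lit 5) (nat_lit 99) (nat_lit 5) (nat_lit 290) (nat_lit 266) (nat_lit 164)) (XT.lf (nat_lit 0) (nat_lit 24302755666) (nat_lit 380) (nat_lit 2736481388) (nat_lit 456) (nat_lit 2416815558) (nat_lit 93) (nat_lit 5) (nat_lit 98) (nat_lit 5) (nat_lit 99) (nat_lit 5) (nat_lit 291) (nat_lit 266) (nat_lit 163)))))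 (XT.nd (nat_lit 234) (nat_lit 684) (nat_lit 0) (XT.nd (nat_lit 78) (nat_lit 684) (nat_lit 0) (XT.lf (nat_lit 0) (nat_lit 4027447379) (nat_lit 380) (nat_lit 12652335031) (nat_lit 76) (nat_lit 13719108700) (nat_lit 88) (nat_lit 5) (nat_lit 93) (nat_lit 5) (nat_lit 89) (nat_lit 5) (nat_lit 292) (nat_lit 266) (nat_lit 162)) (XT.nd (nat_lit 78) (nat_lit 304) (nat_lit 0) (XT.lf (nat_lit 0) (nat_lit 10653391984) (nat_lit 380) (nat_lit 263815993) (nat_lit 456) (nat_lit 20465761757) (nat_lit 83) (nat_lit 5) (nat_lit 88) (nat_lit 5) (nat_lit 89) (nat_lit 5) (nat_lit 293) (nat_lit 266) (nat_lit 161)) (XT.lf (nat_lit 0) (nat_lit 2854037077) (nat_lit 304) (nat_lit 15609102568) (nat_lit 380) (nat_lit 13943775590) (nat_lit 79) (nat_lit 5) (nat_lit 83) (nat_lit 5) (nat_lit 84) (nat_lit 5) (nat_lit 294) (nat_lit 266) (nat_lit 160)))) (XT.nd (nat_lit 78) (nat_lit 684) (nat_lit 0) (XT.lf (nat_lit 0) (nat_lit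 26606185047) (nat_lit 380) (nat_lit 5455723187) (nat_lit 76) (nat_lit 1413568056) (nat_lit 79) (nat_lit 5) (nat_lit 84) (nat_lit 5) (nat_lit 80) (nat_lit 5) (nat_lit 295) (nat_lit 266) (nat_lit 159)) (XT.nd (nat_lit 78) (nat_lit 304) (nat_lit 0) (XT.lf (nat_lit 0) (nat_lit 892199609) (nat_lit 380) (nat_lit 14528584298) (nat_lit 76) (nat_lit 19166206481) (nat_lit 74) (nat_lit 5) (nat_lit 79) (nat_lit 5) (nat_lit 75) (nat_lit 5) (nat_lit 296) (nat_lit 266) (nat_lit 158)) (XT.lf (nat_lit 0) (nat_lit 9079464980) (nat_lit 380) (nat_lit 24420667361) (nat_lit 76) (nat_lit 2246525710) (nat_lit 70) (nat_lit 5) (nat_lit 75) (nat_lit 5) (nat_lit 71) (nat_lit 5) (nat_lit 297) (nat_lit 266) (nat_lit 157))))))))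
noncomputable def xc96 : XT := (XT.nd (nat_lit 1716) (nat_lit 532) (nat_lit 0) (XT.nd (nat_lit 858) (nat_lit 1368) (nat_lit 0) (XT.nd (nat_lit 390) (nat_lit 988) (nat_lit 0) (XT.nd (nat_lit 156) (nat_lit 608) (nat_lit 0) (XT.nd (nat_lit 78) (nat_lit 0) (nat_lit 0) (XT.lf (nat_lit 0) (nat_lit 1680106988) (nat_lit 304) (nat_lit 16309732093) (nat_lit 380) (nat_lit 18965068382) (nat_lit 66) (nat_lit 5) (nat_lit 70) (nat_lit 5) (nat_lit 71) (nat_lit 5) (nat_lit 298) (nat_lit 266) (nat_lit 156)) (XT.lf (nat_lit 0) (nat_lit 27607529066) (nat_lit 380) (nat_lit 8651510422) (nat_lit 76) (nat_lit 1956686165) (nat_lit 66) (nat_lit 5) (nat_lit 71) (nat_lit 5) (nat_lit 67) (nat_lit 5) (nat_lit 299) (nat_lit 266) (nat_lit 155))) (XT.nd (nat_lit 78) (nat_lit 380) (nat_lit 0) (XT.lf (nat_lit 0) (nat_lit 19507068584) (nat_lit 228) (nat_lit 18542777584) (nat_lit 304) (nat_lit 1479436038) (nat_lit 63) (nat_lit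 5) (nat_lit 66) (nat_lit 5) (nat_lit 67) (nat_lit 5) (nat_lit 300) (nat_lit 266) (nat_lit 154)) (XT.nd (nat_lit 78) (nat_lit 0) (nat_lit 0) (XT.lf (nat_lit 0) (nat_lit 8113301051) (nat_lit 380) (nat_lit 32481973792) (nat_lit 76) (nat_lit 305941884) (nat_lit 58) (nat_lit 5) (nat_lit 63) (nat_lit 5) (nat_lit 59) (nat_lit 5) (nat_lit 301) (nat_lit 266) (nat_lit 153)) (XT.lf (nat_lit 0) (nat_lit 18542727330) (nat_lit 380) (nat_lit 3850133649) (nat_lit 76) (nat_lit 19936826649) (nat_lit 58) (nat_lit 5) (nat_lit 63) (nat_lit 5) (nat_lit 59) (nat_lit 5) (nat_lit 302) (nat_lit 266) (nat_lit 152))))) (XT.nd (nat_lit 234) (nat_lit 456) (nat_lit 0) (XT.nd (nat_lit 78) (nat_lit 304) (nat_lit 0) (XT.lf (nat_lit 0) (nat_lit 26723710590) (nat_lit 228) (nat_lit 3019233696) (nat_lit 304) (nat_lit 14079166371) (nat_lit 55) (nat_lit 5) (nat_lit 58) (nat_lit 5) (nat_lit 59) (nat_lit 5) (nat_lit 303) (nat_lit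 266) (nat_lit 151)) (XT.nd (nat_lit 78) (nat_lit 76) (nat_lit 0) (XT.lf (nat_lit 0) (nat_lit 13606394449) (nat_lit 228) (nat_lit 28226775370) (nat_lit 304) (nat_lit 3546092861) (nat_lit 52) (nat_lit 5) (nat_lit 55) (nat_lit 5) (nat_lit 56) (nat_lit 5) (nat_lit 304) (nat_lit 266) (nat_lit 150)) (XT.lf (nat_lit 0) (nat_lit 7568074304) (nat_lit 304) (nat_lit 920476059) (nat_lit 76) (nat_lit 38517530620) (nat_lit 51) (nat_lit 5) (nat_lit 55) (nat_lit 5) (nat_lit 52) (nat_lit 5) (nat_lit 305) (nat_lit 266) (nat_lit 149)))) (XT.nd (nat_lit 78) (nat_lit 228) (nat_lit 0) (XT.lf (nat_lit 0) (nat_lit 19587582963) (nat_lit 304) (nat_lit 16771163337) (nat_lit 76) (nat_lit 12341758298) (nat_lit 48) (nat_lit 5) (nat_lit 52) (nat_lit 5) (nat_lit 49) (nat_lit 5) (nat_lit 306) (nat_lit 266) (nat_lit 148)) (XT.nd (nat_lit 78) (nat_lit 0) (nat_lit 0) (XT.lf (nat_lit 0) (nat_lit 16181363781) (nat_lit 228) (nat_lit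 16270861805) (nat_lit 304) (nat_lit 18020105572) (nat_lit 45) (nat_lit 5) (nat_lit 48) (nat_lit 5) (nat_lit 49) (nat_lit 5) (nat_lit 307) (nat_lit 266) (nat_lit 147)) (XT.lf (nat_lit 0) (nat_lit 46174355593) (nat_lit 304) (nat_lit 1253656687) (nat_lit 76) (nat_lit 4898315320) (nat_lit 45) (nat_lit 5) (nat_lit 49) (nat_lit 5) (nat_lit 46) (nat_lit 5) (nat_lit 308) (nat_lit 266) (nat_lit 146)))))) (XT.nd (nat_lit 390) (nat_lit 532) (nat_lit 0) (XT.nd (nat_lit 156) (nat_lit 380) (nat_lit 0) (XT.nd (nat_lit 78) (nat_lit 228) (nat_lit 0) (XT.lf (nat_lit 0) (nat_lit 6675417373) (nat_lit 228) (nat_lit 20400221103) (nat_lit 76) (nat_lit 27180902440) (nat_lit 42) (nat_lit 5) (nat_lit 45) (nat_lit 5) (nat_lit 43) (nat_lit 5) (nat_lit 309) (nat_lit 266) (nat_lit 145)) (XT.lf (nat_lit 0) (nat_lit 14679962060) (nat_lit 228) (nat_lit 5486311505) (nat_lit 304) (nat_lit 36110689596) (nat_lit 39) (nat_lit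 5) (nat_lit 42) (nat_lit 5) (nat_lit 43) (nat_lit 5) (nat_lit 310) (nat_lit 266) (nat_lit 144))) (XT.nd (nat_lit 78) (nat_lit 380) (nat_lit 0) (XT.lf (nat_lit 0) (nat_lit 34703089655) (nat_lit 304) (nat_lit 6628164227) (nat_lit 76) (nat_lit 17056015332) (nat_lit 39) (nat_lit 5) (nat_lit 43) (nat_lit 5) (nat_lit 40) (nat_lit 5) (nat_lit 311) (nat_lit 266) (nat_lit 143)) (XT.nd (nat_lit 78) (nat_lit 228) (nat_lit 0) (XT.lf (nat_lit 0) (nat_lit 30622466803) (nat_lit 152) (nat_lit 19688461114) (nat_lit 228) (nat_lit 10281842171) (nat_lit 37) (nat_lit 5) (nat_lit 39) (nat_lit 5) (nat_lit 40) (nat_lit 5) (nat_lit 312) (nat_lit 266) (nat_lit 142)) (XT.lf (nat_lit 0) (nat_lit 3878852530) (nat_lit 228) (nat_lit 55874792269) (nat_lit 76) (nat_lit 3148946395) (nat_lit 34) (nat_lit 5) (nat_lit 37) (nat_lit 5) (nat_lit 35) (nat_lit 5) (nat_lit 313) (nat_lit 266) (nat_lit 141))))) (XT.nd (nat_lit 234)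 (nat_lit 380) (nat_lit 0) (XT.nd (nat_lit 78) (nat_lit 152) (nat_lit 0) (XT.lf (nat_lit 0) (nat_lit 19041923251) (nat_lit 228) (nat_lit 19130672154) (nat_lit 76) (nat_lit 27137048739) (nat_lit 34) (nat_lit 5) (nat_lit 37) (nat_lit 5) (nat_lit 35) (nat_lit 5) (nat_lit 314) (nat_lit 266) (nat_lit 140)) (XT.nd (nat_lit 78) (nat_lit 0) (nat_lit 0) (XT.lf (nat_lit 0) (nat_lit 19829436157) (nat_lit 152) (nat_lit 15319291619) (nat_lit 228) (nat_lit 32682758717) (nat_lit 32) (nat_lit 5) (nat_lit 34) (nat_lit 5) (nat_lit 35) (nat_lit 5) (nat_lit 315) (nat_lit 266) (nat_lit 139)) (XT.lf (nat_lit 0) (nat_lit 52338262915) (nat_lit 228) (nat_lit 9429591868) (nat_lit 76) (nat_lit 8703248427) (nat_lit 32) (nat_lit 5) (nat_lit 35) (nat_lit 5) (nat_lit 33) (nat_lit 5) (nat_lit 316) (nat_lit 266) (nat_lit 138)))) (XT.nd (nat_lit 78) (nat_lit 228) (nat_lit 0) (XT.lf (nat_lit 0) (nat_lit 31524356987) (nat_lit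 152) (nat_lit 39315905435) (nat_lit 228) (nat_lit 2388852485) (nat_lit 30) (nat_lit 5) (nat_lit 32) (nat_lit 5) (nat_lit 33) (nat_lit 5) (nat_lit 317) (nat_lit 266) (nat_lit 137)) (XT.nd (nat_lit 78) (nat_lit 152) (nat_lit 0) (XT.lf (nat_lit 0) (nat_lit 13959834481) (nat_lit 228) (nat_lit 1543506488) (nat_lit 76) (nat_lit 60614807337) (nat_lit 29) (nat_lit 5) (nat_lit 32) (nat_lit 5) (nat_lit 30) (nat_lit 5) (nat_lit 318) (nat_lit 266) (nat_lit 136)) (XT.lf (nat_lit 0) (nat_lit 31566120200) (nat_lit 228) (nat_lit 37832148280) (nat_lit 76) (nat_lit 9737971570) (nat_lit 27) (nat_lit 5) (nat_lit 30) (nat_lit 5) (nat_lit 28) (nat_lit 5) (nat_lit 319) (nat_lit 266) (nat_lit 135))))))) (XT.nd (nat_lit 33618) (nat_lit 0) (nat_lit 9880) (XT.nd (nat_lit 390) (nat_lit 76) (nat_lit 0) (XT.nd (nat_lit 156) (nat_lit 304) (nat_lit 0) (XT.nd (nat_lit 78) (nat_lit 0) (nat_lit 0) (XT.lf (nat_lit 0) (nat_lit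 3934630082) (nat_lit 152) (nat_lit 46324205309) (nat_lit 228) (nat_lit 32040220701) (nat_lit 25) (nat_lit 5) (nat_lit 27) (nat_lit 5) (nat_lit 28) (nat_lit 5) (nat_lit 320) (nat_lit 266) (nat_lit 134)) (XT.lf (nat_lit 0) (nat_lit 48573453459) (nat_lit 152) (nat_lit 21698084702) (nat_lit 228) (nat_lit 15336917233) (nat_lit 25) (nat_lit 5) (nat_lit 27) (nat_lit 5) (nat_lit 28) (nat_lit 5) (nat_lit 321) (nat_lit 266) (nat_lit 133))) (XT.nd (nat_lit 78) (nat_lit 152) (nat_lit 0) (XT.lf (nat_lit 0) (nat_lit 2257517925) (nat_lit 152) (nat_lit 82662585388) (nat_lit 76) (nat_lit 4159621454) (nat_lit 23) (nat_lit 5) (nat_lit 25) (nat_lit 5) (nat_lit 24) (nat_lit 5) (nat_lit 322) (nat_lit 266) (nat_lit 132)) (XT.nd (nat_lit 78) (nat_lit 152) (nat_lit 0) (XT.lf (nat_lit 0) (nat_lit 21017611349) (nat_lit 152) (nat_lit 40281418291) (nat_lit 76) (nat_lit 31402881277) (nat_lit 23) (nat_lit 5) (nat_lit 25)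 (nat_lit 5) (nat_lit 24) (nat_lit 5) (nat_lit 323) (nat_lit 266) (nat_lit 131)) (XT.lf (nat_lit 0) (nat_lit 4296426478) (nat_lit 152) (nat_lit 36456923375) (nat_lit 228) (nat_lit 55750729838) (nat_lit 21) (nat_lit 5) (nat_lit 23) (nat_lit 5) (nat_lit 24) (nat_lit 5) (nat_lit 324) (nat_lit 266) (nat_lit 130))))) (XT.nd (nat_lit 32994) (nat_lit 0) (nat_lit 12160) (XT.nd (nat_lit 78) (nat_lit 76) (nat_lit 0) (XT.lf (nat_lit 0) (nat_lit 51938885496) (nat_lit 152) (nat_lit 9948108163) (nat_lit 228) (nat_lit 38597032101) (nat_lit 21) (nat_lit 5) (nat_lit 23) (nat_lit 5) (nat_lit 24) (nat_lit 5) (nat_lit 325) (nat_lit 266) (nat_lit 129)) (XT.nd (nat_lit 78) (nat_lit 76) (nat_lit 0) (XT.lf (nat_lit 0) (nat_lit 84245854829) (nat_lit 228) (nat_lit 2877268406) (nat_lit 76) (nat_lit 17534792134) (nat_lit 21) (nat_lit 5) (nat_lit 24) (nat_lit 5) (nat_lit 22) (nat_lit 4) (nat_lit 326) (nat_lit 266) (nat_lit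 128)) (XT.lf (nat_lit 0) (nat_lit 45862984059) (nat_lit 76) (nat_lit 62397711083) (nat_lit 152) (nat_lit 763665418) (nat_lit 20) (nat_lit 5) (nat_lit 21) (nat_lit 5) (nat_lit 22) (nat_lit 4) (nat_lit 327) (nat_lit 266) (nat_lit 127)))) (XT.nd (nat_lit 78) (nat_lit 0) (nat_lit 0) (XT.lf (nat_lit 0) (nat_lit 5745055508) (nat_lit 1140) (nat_lit 1002094518) (nat_lit 1140) (nat_lit 1002094518) (nat_lit 180) (nat_lit 3) (nat_lit 195) (nat_lit 3) (nat_lit 195) (nat_lit 5) (nat_lit 267) (nat_lit 267) (nat_lit 186)) (XT.nd (nat_lit 78) (nat_lit 0) (nat_lit 76) (XT.lf (nat_lit 76) (nat_lit 9440755371) (nat_lit 0) (nat_lit 2849333040) (nat_lit 1140) (nat_lit 3579719309) (nat_lit 181) (nat_lit 5) (nat_lit 180) (nat_lit 3) (nat_lit 195) (nat_lit 5) (nat_lit 268) (nat_lit 267) (nat_lit 185)) (XT.lf (nat_lit 76) (nat_lit 5247699592) (nat_lit 0) (nat_lit 8006673608) (nat_lit 1140) (nat_lit 3001638594) (nat_lit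 182) (nat_lit 5) (nat_lit 181) (nat_lit 5) (nat_lit 196) (nat_lit 5) (nat_lit 269) (nat_lit 267) (nat_lit 184)))))) (XT.nd (nat_lit 390) (nat_lit 1444) (nat_lit 0) (XT.nd (nat_lit 156) (nat_lit 988) (nat_lit 0) (XT.nd (nat_lit 78) (nat_lit 0) (nat_lit 0) (XT.lf (nat_lit 76) (nat_lit 925731821) (nat_lit 0) (nat_lit 13450183503) (nat_lit 1140) (nat_lit 2282385902) (nat_lit 183) (nat_lit 5) (nat_lit 182) (nat_lit 5) (nat_lit 197) (nat_lit 5) (nat_lit 270) (nat_lit 267) (nat_lit 183)) (XT.lf (nat_lit 76) (nat_lit 13588853412) (nat_lit 0) (nat_lit 2133331582) (nat_lit 1140) (nat_lit 1353504856) (nat_lit 183) (nat_lit 5) (nat_lit 182) (nat_lit 5) (nat_lit 197) (nat_lit 5) (nat_lit 271) (nat_lit 267) (nat_lit 182))) (XT.nd (nat_lit 78) (nat_lit 1064) (nat_lit 0) (XT.lf (nat_lit 76) (nat_lit 9446448055) (nat_lit 0) (nat_lit 7850412808) (nat_lit 1140) (nat_lit 212296389) (nat_lit 184) (nat_lit 5)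 (nat_lit 183) (nat_lit 5) (nat_lit 198) (nat_lit 5) (nat_lit 272) (nat_lit 267) (nat_lit 181)) (XT.nd (nat_lit 78) (nat_lit 0) (nat_lit 0) (XT.lf (nat_lit 0) (nat_lit 1091475771) (nat_lit 1140) (nat_lit 12810731479) (nat_lit 1216) (nat_lit 4058103100) (nat_lit 169) (nat_lit 5) (nat_lit 184) (nat_lit 5) (nat_lit 185) (nat_lit 5) (nat_lit 273) (nat_lit 267) (nat_lit 180)) (XT.lf (nat_lit 76) (nat_lit 674683927) (nat_lit 0) (nat_lit 1929229685) (nat_lit 1216) (nat_lit 15825645500) (nat_lit 170) (nat_lit 5) (nat_lit 169) (nat_lit 5) (nat_lit 185) (nat_lit 5) (nat_lit 274) (nat_lit 267) (nat_lit 179))))) (XT.nd (nat_lit 234) (nat_lit 1520) (nat_lit 0) (XT.nd (nat_lit 78) (nat_lit 0) (nat_lit 76) (XT.lf (nat_lit 0) (nat_lit 4406681214) (nat_lit 1140) (nat_lit 3935825368) (nat_lit 1216) (nat_lit 10573357827) (nat_lit 170) (nat_lit 5) (nat_lit 185) (nat_lit 5) (nat_lit 186) (nat_lit 5) (nat_lit 275)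 (nat_lit 267) (nat_lit 178)) (XT.nd (nat_lit 78) (nat_lit 0) (nat_lit 0) (XT.lf (nat_lit 0) (nat_lit 6444385225) (nat_lit 1140) (nat_lit 8715969629) (nat_lit 1216) (nat_lit 4261819824) (nat_lit 171) (nat_lit 5) (nat_lit 186) (nat_lit 5) (nat_lit 187) (nat_lit 5) (nat_lit 276) (nat_lit 267) (nat_lit 177)) (XT.lf (nat_lit 76) (nat_lit 6231569664) (nat_lit 0) (nat_lit 2518481801) (nat_lit 1216) (nat_lit 11198798731) (nat_lit 172) (nat_lit 5) (nat_lit 171) (nat_lit 5) (nat_lit 187) (nat_lit 5) (nat_lit 277) (nat_lit 267) (nat_lit 176)))) (XT.nd (nat_lit 78) (nat_lit 532) (nat_lit 0) (XT.lf (nat_lit 0) (nat_lit 1519234831) (nat_lit 1140) (nat_lit 9842214179) (nat_lit 1216) (nat_lit 9134727563) (nat_lit 157) (nat_lit 5) (nat_lit 172) (nat_lit 5) (nat_lit 173) (nat_lit 5) (nat_lit 278) (nat_lit 267) (nat_lit 175)) (XT.nd (nat_lit 78) (nat_lit 532) (nat_lit 0) (XT.lf (nat_lit 0) (nat_lit 14286105424)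 (nat_lit 1216) (nat_lit 3337020450) (nat_lit 76) (nat_lit 3442291792) (nat_lit 157) (nat_lit 5) (nat_lit 173) (nat_lit 5) (nat_lit 158) (nat_lit 5) (nat_lit 279) (nat_lit 267) (nat_lit 174)) (XT.lf (nat_lit 0) (nat_lit 13228727818) (nat_lit 532) (nat_lit 4338183927) (nat_lit 608) (nat_lit 4089939239) (nat_lit 150) (nat_lit 5) (nat_lit 157) (nat_lit 5) (nat_lit 158) (nat_lit 5) (nat_lit 280) (nat_lit 267) (nat_lit 173))))))))
noncomputable def xc97 : XT := (XT.nd (nat_lit 1716) (nat_lit 2660) (nat_lit 0) (XT.nd (nat_lit 858) (nat_lit 2660) (nat_lit 0) (XT.nd (nat_lit 390) (nat_lit 2128) (nat_lit 0) (XT.nd (nat_lit 156) (nat_lit 988) (nat_lit 0) (XT.nd (nat_lit 78) (nat_lit 608) (nat_lit 0) (XT.lf (nat_lit 0) (nat_lit 8473230150) (nat_lit 608) (nat_lit 12731134793) (nat_lit 684) (nat_lit 1067739194) (nat_lit 142) (nat_lit 5) (nat_lit 150) (nat_lit 5) (nat_lit 151) (nat_lit 5) (nat_lit 281)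 (nat_lit 267) (nat_lit 172)) (XT.lf (nat_lit 0) (nat_lit 2225803377) (nat_lit 608) (nat_lit 19457029230) (nat_lit 76) (nat_lit 1229864923) (nat_lit 134) (nat_lit 5) (nat_lit 142) (nat_lit 5) (nat_lit 135) (nat_lit 5) (nat_lit 282) (nat_lit 267) (nat_lit 171))) (XT.nd (nat_lit 78) (nat_lit 988) (nat_lit 0) (XT.lf (nat_lit 0) (nat_lit 5919218297) (nat_lit 608) (nat_lit 1875450625) (nat_lit 76) (nat_lit 15782639407) (nat_lit 134) (nat_lit 5) (nat_lit 142) (nat_lit 5) (nat_lit 135) (nat_lit 5) (nat_lit 283) (nat_lit 267) (nat_lit 170)) (XT.nd (nat_lit 78) (nat_lit 456) (nat_lit 0) (XT.lf (nat_lit 0) (nat_lit 10012449719) (nat_lit 608) (nat_lit 7436868107) (nat_lit 76) (nat_lit 6819399581) (nat_lit 127) (nat_lit 5) (nat_lit 135) (nat_lit 5) (nat_lit 128) (nat_lit 5) (nat_lit 284) (nat_lit 267) (nat_lit 169)) (XT.lf (nat_lit 0) (nat_lit 11653824558) (nat_lit 456) (nat_lit 2853080500) (nat_lit 532)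 (nat_lit 10481916070) (nat_lit 121) (nat_lit 5) (nat_lit 127) (nat_lit 5) (nat_lit 128) (nat_lit 5) (nat_lit 285) (nat_lit 267) (nat_lit 168))))) (XT.nd (nat_lit 234) (nat_lit 1216) (nat_lit 0) (XT.nd (nat_lit 78) (nat_lit 456) (nat_lit 0) (XT.lf (nat_lit 0) (nat_lit 6095820069) (nat_lit 456) (nat_lit 13372947607) (nat_lit 532) (nat_lit 6268901880) (nat_lit 115) (nat_lit 5) (nat_lit 121) (nat_lit 5) (nat_lit 122) (nat_lit 5) (nat_lit 286) (nat_lit 267) (nat_lit 167)) (XT.nd (nat_lit 78) (nat_lit 76) (nat_lit 0) (XT.lf (nat_lit 0) (nat_lit 199810905) (nat_lit 380) (nat_lit 24652267447) (nat_lit 456) (nat_lit 1666700507) (nat_lit 110) (nat_lit 5) (nat_lit 115) (nat_lit 5) (nat_lit 116) (nat_lit 5) (nat_lit 287) (nat_lit 267) (nat_lit 166)) (XT.lf (nat_lit 0) (nat_lit 3430698001) (nat_lit 456) (nat_lit 6070406833) (nat_lit 76) (nat_lit 17827137774) (nat_lit 109) (nat_lit 5) (nat_lit 115) (nat_lit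 5) (nat_lit 110) (nat_lit 5) (nat_lit 288) (nat_lit 267) (nat_lit 165)))) (XT.nd (nat_lit 78) (nat_lit 760) (nat_lit 0) (XT.lf (nat_lit 0) (nat_lit 8948934855) (nat_lit 532) (nat_lit 12774779594) (nat_lit 76) (nat_lit 6447973706) (nat_lit 103) (nat_lit 5) (nat_lit 110) (nat_lit 5) (nat_lit 104) (nat_lit 5) (nat_lit 289) (nat_lit 267) (nat_lit 164)) (XT.nd (nat_lit 78) (nat_lit 380) (nat_lit 0) (XT.lf (nat_lit 0) (nat_lit 9076194500) (nat_lit 380) (nat_lit 5901827924) (nat_lit 456) (nat_lit 14072251409) (nat_lit 98) (nat_lit 5) (nat_lit 103) (nat_lit 5) (nat_lit 104) (nat_lit 5) (nat_lit 290) (nat_lit 267) (nat_lit 163)) (XT.lf (nat_lit 0) (nat_lit 2244004911) (nat_lit 380) (nat_lit 19310980275) (nat_lit 456) (nat_lit 8410426242) (nat_lit 93) (nat_lit 5) (nat_lit 98) (nat_lit 5) (nat_lit 99) (nat_lit 5) (nat_lit 291) (nat_lit 267) (nat_lit 162)))))) (XT.nd (nat_lit 390) (nat_lit 1596) (nat_lit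 0) (XT.nd (nat_lit 156) (nat_lit 684) (nat_lit 0) (XT.nd (nat_lit 78) (nat_lit 380) (nat_lit 0) (XT.lf (nat_lit 0) (nat_lit 25916672903) (nat_lit 380) (nat_lit 2798199402) (nat_lit 456) (nat_lit 2203825841) (nat_lit 93) (nat_lit 5) (nat_lit 98) (nat_lit 5) (nat_lit 99) (nat_lit 5) (nat_lit 292) (nat_lit 267) (nat_lit 161)) (XT.lf (nat_lit 0) (nat_lit 4545093178) (nat_lit 380) (nat_lit 12881730909) (nat_lit 76) (nat_lit 14482110159) (nat_lit 88) (nat_lit 5) (nat_lit 93) (nat_lit 5) (nat_lit 89) (nat_lit 5) (nat_lit 293) (nat_lit 267) (nat_lit 160))) (XT.nd (nat_lit 78) (nat_lit 304) (nat_lit 0) (XT.lf (nat_lit 0) (nat_lit 11577724212) (nat_lit 380) (nat_lit 190321856) (nat_lit 456) (nat_lit 21174529283) (nat_lit 83) (nat_lit 5) (nat_lit 88) (nat_lit 5) (nat_lit 89) (nat_lit 5) (nat_lit 294) (nat_lit 267) (nat_lit 159)) (XT.nd (nat_lit 78) (nat_lit 0) (nat_lit 0) (XT.lf (nat_lit 0) (nat_lit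 3385634572) (nat_lit 304) (nat_lit 16295648891) (nat_lit 380) (nat_lit 14336753128) (nat_lit 79) (nat_lit 5) (nat_lit 83) (nat_lit 5) (nat_lit 84) (nat_lit 5) (nat_lit 295) (nat_lit 267) (nat_lit 158)) (XT.lf (nat_lit 0) (nat_lit 28218293866) (nat_lit 380) (nat_lit 5350207121) (nat_lit 76) (nat_lit 1571938179) (nat_lit 79) (nat_lit 5) (nat_lit 84) (nat_lit 5) (nat_lit 80) (nat_lit 5) (nat_lit 296) (nat_lit 267) (nat_lit 157))))) (XT.nd (nat_lit 234) (nat_lit 608) (nat_lit 0) (XT.nd (nat_lit 78) (nat_lit 608) (nat_lit 0) (XT.lf (nat_lit 0) (nat_lit 1211747890) (nat_lit 380) (nat_lit 14881753380) (nat_lit 76) (nat_lit 20214260436) (nat_lit 74) (nat_lit 5) (nat_lit 79) (nat_lit 5) (nat_lit 75) (nat_lit 5) (nat_lit 297) (nat_lit 267) (nat_lit 156)) (XT.nd (nat_lit 78) (nat_lit 304) (nat_lit 0) (XT.lf (nat_lit 0) (nat_lit 9799704014) (nat_lit 380) (nat_lit 25271800382) (nat_lit 76) (nat_lit 2454184247)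 (nat_lit 70) (nat_lit 5) (nat_lit 75) (nat_lit 5) (nat_lit 71) (nat_lit 5) (nat_lit 298) (nat_lit 267) (nat_lit 155)) (XT.lf (nat_lit 0) (nat_lit 2123409566) (nat_lit 304) (nat_lit 17022961717) (nat_lit 380) (nat_lit 19648270980) (nat_lit 66) (nat_lit 5) (nat_lit 70) (nat_lit 5) (nat_lit 71) (nat_lit 5) (nat_lit 299) (nat_lit 267) (nat_lit 154)))) (XT.nd (nat_lit 78) (nat_lit 608) (nat_lit 0) (XT.lf (nat_lit 0) (nat_lit 29233641903) (nat_lit 380) (nat_lit 8735205137) (nat_lit 76) (nat_lit 2150007692) (nat_lit 66) (nat_lit 5) (nat_lit 71) (nat_lit 5) (nat_lit 67) (nat_lit 5) (nat_lit 300) (nat_lit 267) (nat_lit 153)) (XT.nd (nat_lit 78) (nat_lit 380) (nat_lit 0) (XT.lf (nat_lit 0) (nat_lit 20821302221) (nat_lit 228) (nat_lit 19368328431) (nat_lit 304) (nat_lit 1308725363) (nat_lit 63) (nat_lit 5) (nat_lit 66) (nat_lit 5) (nat_lit 67) (nat_lit 5) (nat_lit 301) (nat_lit 267) (nat_lit 152)) (XT.lf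 (nat_lit 0) (nat_lit 8751644948) (nat_lit 380) (nat_lit 33765794443) (nat_lit 76) (nat_lit 421606733) (nat_lit 58) (nat_lit 5) (nat_lit 63) (nat_lit 5) (nat_lit 59) (nat_lit 5) (nat_lit 302) (nat_lit 267) (nat_lit 151))))))) (XT.nd (nat_lit 858) (nat_lit 1064) (nat_lit 0) (XT.nd (nat_lit 390) (nat_lit 836) (nat_lit 0) (XT.nd (nat_lit 156) (nat_lit 532) (nat_lit 0) (XT.nd (nat_lit 78) (nat_lit 228) (nat_lit 0) (XT.lf (nat_lit 0) (nat_lit 19691462597) (nat_lit 380) (nat_lit 3718566009) (nat_lit 76) (nat_lit 21029256320) (nat_lit 58) (nat_lit 5) (nat_lit 63) (nat_lit 5) (nat_lit 59) (nat_lit 5) (nat_lit 303) (nat_lit 267) (nat_lit 150)) (XT.lf (nat_lit 0) (nat_lit 28374680916) (nat_lit 228) (nat_lit 3069483059) (nat_lit 304) (nat_lit 14562402309) (nat_lit 55) (nat_lit 5) (nat_lit 58) (nat_lit 5) (nat_lit 59) (nat_lit 5) (nat_lit 304) (nat_lit 267) (nat_lit 149))) (XT.nd (nat_lit 78) (nat_lit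 304) (nat_lit 0) (XT.lf (nat_lit 0) (nat_lit 14597994654) (nat_lit 228) (nat_lit 29534626431) (nat_lit 304) (nat_lit 3509154060) (nat_lit 52) (nat_lit 5) (nat_lit 55) (nat_lit 5) (nat_lit 56) (nat_lit 5) (nat_lit 305) (nat_lit 267) (nat_lit 148)) (XT.nd (nat_lit 78) (nat_lit 228) (nat_lit 0) (XT.lf (nat_lit 0) (nat_lit 8146537812) (nat_lit 304) (nat_lit 665860135) (nat_lit 76) (nat_lit 40537784749) (nat_lit 51) (nat_lit 5) (nat_lit 55) (nat_lit 5) (nat_lit 52) (nat_lit 5) (nat_lit 306) (nat_lit 267) (nat_lit 147)) (XT.lf (nat_lit 0) (nat_lit 20761250929) (nat_lit 304) (nat_lit 17312656944) (nat_lit 76) (nat_lit 13055602297) (nat_lit 48) (nat_lit 5) (nat_lit 52) (nat_lit 5) (nat_lit 49) (nat_lit 5) (nat_lit 307) (nat_lit 267) (nat_lit 146))))) (XT.nd (nat_lit 234) (nat_lit 380) (nat_lit 0) (XT.nd (nat_lit 78) (nat_lit 228) (nat_lit 0) (XT.lf (nat_lit 0) (nat_lit 17278981233) (nat_lit 228)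 (nat_lit 16983666314) (nat_lit 304) (nat_lit 18727483951) (nat_lit 45) (nat_lit 5) (nat_lit 48) (nat_lit 5) (nat_lit 49) (nat_lit 5) (nat_lit 308) (nat_lit 267) (nat_lit 145)) (XT.nd (nat_lit 78) (nat_lit 228) (nat_lit 0) (XT.lf (nat_lit 0) (nat_lit 48662862938) (nat_lit 304) (nat_lit 1036913692) (nat_lit 76) (nat_lit 5237300428) (nat_lit 45) (nat_lit 5) (nat_lit 49) (nat_lit 5) (nat_lit 46) (nat_lit 5) (nat_lit 309) (nat_lit 267) (nat_lit 144)) (XT.lf (nat_lit 0) (nat_lit 7184908344) (nat_lit 228) (nat_lit 21145158659) (nat_lit 76) (nat_lit 28633869175) (nat_lit 42) (nat_lit 5) (nat_lit 45) (nat_lit 5) (nat_lit 43) (nat_lit 5) (nat_lit 310) (nat_lit 267) (nat_lit 143)))) (XT.nd (nat_lit 78) (nat_lit 152) (nat_lit 0) (XT.lf (nat_lit 0) (nat_lit 15681148736) (nat_lit 228) (nat_lit 5663359366) (nat_lit 304) (nat_lit 37741053038) (nat_lit 39) (nat_lit 5) (nat_lit 42) (nat_lit 5) (nat_lit 43)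 (nat_lit 5) (nat_lit 311) (nat_lit 267) (nat_lit 142)) (XT.nd (nat_lit 78) (nat_lit 152) (nat_lit 0) (XT.lf (nat_lit 0) (nat_lit 36600963999) (nat_lit 304) (nat_lit 6700997433) (nat_lit 76) (nat_lit 17999644357) (nat_lit 39) (nat_lit 5) (nat_lit 43) (nat_lit 5) (nat_lit 40) (nat_lit 5) (nat_lit 312) (nat_lit 267) (nat_lit 141)) (XT.lf (nat_lit 0) (nat_lit 32404753148) (nat_lit 152) (nat_lit 20579106794) (nat_lit 228) (nat_lit 10633688710) (nat_lit 37) (nat_lit 5) (nat_lit 39) (nat_lit 5) (nat_lit 40) (nat_lit 5) (nat_lit 313) (nat_lit 267) (nat_lit 140)))))) (XT.nd (nat_lit 390) (nat_lit 532) (nat_lit 0) (XT.nd (nat_lit 156) (nat_lit 304) (nat_lit 0) (XT.nd (nat_lit 78) (nat_lit 0) (nat_lit 0) (XT.lf (nat_lit 0) (nat_lit 4227572204) (nat_lit 228) (nat_lit 58417515080) (nat_lit 76) (nat_lit 3397862215) (nat_lit 34) (nat_lit 5) (nat_lit 37) (nat_lit 5) (nat_lit 35) (nat_lit 5) (nat_lit 314)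 (nat_lit 267) (nat_lit 139)) (XT.lf (nat_lit 0) (nat_lit 20141426125) (nat_lit 228) (nat_lit 19848142141) (nat_lit 76) (nat_lit 28581014033) (nat_lit 34) (nat_lit 5) (nat_lit 37) (nat_lit 5) (nat_lit 35) (nat_lit 5) (nat_lit 315) (nat_lit 267) (nat_lit 138))) (XT.nd (nat_lit 78) (nat_lit 152) (nat_lit 0) (XT.lf (nat_lit 0) (nat_lit 21053118875) (nat_lit 152) (nat_lit 15995664788) (nat_lit 228) (nat_lit 34169882522) (nat_lit 32) (nat_lit 5) (nat_lit 34) (nat_lit 5) (nat_lit 35) (nat_lit 5) (nat_lit 316) (nat_lit 267) (nat_lit 137)) (XT.nd (nat_lit 78) (nat_lit 152) (nat_lit 0) (XT.lf (nat_lit 0) (nat_lit 55091824351) (nat_lit 228) (nat_lit 9676553047) (nat_lit 76) (nat_lit 9222071001) (nat_lit 32) (nat_lit 5) (nat_lit 35) (nat_lit 5) (nat_lit 33) (nat_lit 5) (nat_lit 317) (nat_lit 267) (nat_lit 136)) (XT.lf (nat_lit 0) (nat_lit 33318657476) (nat_lit 152) (nat_lit 41195855641) (nat_lit 228)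 (nat_lit 2371985150) (nat_lit 30) (nat_lit 5) (nat_lit 32) (nat_lit 5) (nat_lit 33) (nat_lit 5) (nat_lit 318) (nat_lit 267) (nat_lit 135))))) (XT.nd (nat_lit 234) (nat_lit 152) (nat_lit 0) (XT.nd (nat_lit 78) (nat_lit 304) (nat_lit 0) (XT.lf (nat_lit 0) (nat_lit 14785111977) (nat_lit 228) (nat_lit 1410353497) (nat_lit 76) (nat_lit 63724674347) (nat_lit 29) (nat_lit 5) (nat_lit 32) (nat_lit 5) (nat_lit 30) (nat_lit 5) (nat_lit 319) (nat_lit 267) (nat_lit 134)) (XT.nd (nat_lit 78) (nat_lit 152) (nat_lit 0) (XT.lf (nat_lit 0) (nat_lit 33268394293) (nat_lit 228) (nat_lit 39516447741) (nat_lit 76) (nat_lit 10304398285) (nat_lit 27) (nat_lit 5) (nat_lit 30) (nat_lit 5) (nat_lit 28) (nat_lit 5) (nat_lit 320) (nat_lit 267) (nat_lit 133)) (XT.lf (nat_lit 0) (nat_lit 4332727098) (nat_lit 152) (nat_lit 48559050551) (nat_lit 228) (nat_lit 33518542954) (nat_lit 25) (nat_lit 5) (nat_lit 27) (nat_lit 5)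 (nat_lit 28) (nat_lit 5) (nat_lit 321) (nat_lit 267) (nat_lit 132)))) (XT.nd (nat_lit 78) (nat_lit 152) (nat_lit 0) (XT.lf (nat_lit 0) (nat_lit 51193902811) (nat_lit 152) (nat_lit 22705498439) (nat_lit 228) (nat_lit 15985964254) (nat_lit 25) (nat_lit 5) (nat_lit 27) (nat_lit 5) (nat_lit 28) (nat_lit 5) (nat_lit 322) (nat_lit 267) (nat_lit 131)) (XT.nd (nat_lit 78) (nat_lit 0) (nat_lit 0) (XT.lf (nat_lit 0) (nat_lit 2482944873) (nat_lit 152) (nat_lit 86604429057) (nat_lit 76) (nat_lit 4442882805) (nat_lit 23) (nat_lit 5) (nat_lit 25) (nat_lit 5) (nat_lit 24) (nat_lit 5) (nat_lit 323) (nat_lit 267) (nat_lit 130)) (XT.lf (nat_lit 0) (nat_lit 22175683395) (nat_lit 152) (nat_lit 42113312444) (nat_lit 76) (nat_lit 33044720844) (nat_lit 23) (nat_lit 5) (nat_lit 25) (nat_lit 5) (nat_lit 24) (nat_lit 5) (nat_lit 324) (nat_lit 267) (nat_lit 129))))))))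
noncomputable def xc98 : XT := (XT.nd (nat_lit 34554) (nat_lit 0) (nat_lit 2052) (XT.nd (nat_lit 33696) (nat_lit 0) (nat_lit 7600) (XT.nd (nat_lit 33228) (nat_lit 0) (nat_lit 11172) (XT.nd (nat_lit 156) (nat_lit 0) (nat_lit 0) (XT.nd (nat_lit 78) (nat_lit 0) (nat_lit 0) (XT.lf (nat_lit 0) (nat_lit 4688202503) (nat_lit 152) (nat_lit 38206602961) (nat_lit 228) (nat_lit 58431294057) (nat_lit 21) (nat_lit 5) (nat_lit 23) (nat_lit 5) (nat_lit 24) (nat_lit 5) (nat_lit 325) (nat_lit 267) (nat_lit 128)) (XT.lf (nat_lit 0) (nat_lit 54704358058) (nat_lit 152) (nat_lit 10375831111) (nat_lit 228) (nat_lit 40425005350) (nat_lit 21) (nat_lit 5) (nat_lit 23) (nat_lit 5) (nat_lit 24) (nat_lit 5) (nat_lit 326) (nat_lit 267) (nat_lit 127))) (XT.nd (nat_lit 32916) (nat_lit 0) (nat_lit 12084) (XT.lf (nat_lit 0) (nat_lit 88552924387) (nat_lit 228) (nat_lit 2858378507) (nat_lit 76) (nat_lit 18476600983) (nat_lit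 21) (nat_lit 5) (nat_lit 24) (nat_lit 5) (nat_lit 22) (nat_lit 4) (nat_lit 327) (nat_lit 267) (nat_lit 126)) (XT.nd (nat_lit 78) (nat_lit 0) (nat_lit 0) (XT.lf (nat_lit 0) (nat_lit 6447694386) (nat_lit 1140) (nat_lit 837900419) (nat_lit 1140) (nat_lit 837900419) (nat_lit 180) (nat_lit 3) (nat_lit 195) (nat_lit 3) (nat_lit 195) (nat_lit 5) (nat_lit 268) (nat_lit 268) (nat_lit 184)) (XT.lf (nat_lit 76) (nat_lit 10329105124) (nat_lit 0) (nat_lit 3370701177) (nat_lit 1140) (nat_lit 2938206898) (nat_lit 181) (nat_lit 5) (nat_lit 180) (nat_lit 3) (nat_lit 195) (nat_lit 5) (nat_lit 269) (nat_lit 268) (nat_lit 183))))) (XT.nd (nat_lit 234) (nat_lit 988) (nat_lit 0) (XT.nd (nat_lit 78) (nat_lit 0) (nat_lit 76) (XT.lf (nat_lit 76) (nat_lit 5942561004) (nat_lit 0) (nat_lit 8732565452) (nat_lit 1140) (nat_lit 2369584411) (nat_lit 182) (nat_lit 5) (nat_lit 181) (nat_lit 5) (nat_lit 196) (nat_lit 5) (nat_lit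 270) (nat_lit 268) (nat_lit 182)) (XT.nd (nat_lit 78) (nat_lit 0) (nat_lit 0) (XT.lf (nat_lit 76) (nat_lit 1418548405) (nat_lit 0) (nat_lit 14399412273) (nat_lit 1140) (nat_lit 1650262427) (nat_lit 183) (nat_lit 5) (nat_lit 182) (nat_lit 5) (nat_lit 197) (nat_lit 5) (nat_lit 271) (nat_lit 268) (nat_lit 181)) (XT.lf (nat_lit 76) (nat_lit 14693562743) (nat_lit 0) (nat_lit 2503540632) (nat_lit 1140) (nat_lit 710472699) (nat_lit 183) (nat_lit 5) (nat_lit 182) (nat_lit 5) (nat_lit 197) (nat_lit 5) (nat_lit 272) (nat_lit 268) (nat_lit 180)))) (XT.nd (nat_lit 78) (nat_lit 0) (nat_lit 76) (XT.lf (nat_lit 0) (nat_lit 446898575) (nat_lit 1140) (nat_lit 8012509188) (nat_lit 1216) (nat_lit 9904166833) (nat_lit 168) (nat_lit 5) (nat_lit 183) (nat_lit 5) (nat_lit 184) (nat_lit 5) (nat_lit 273) (nat_lit 268) (nat_lit 179)) (XT.nd (nat_lit 78) (nat_lit 0) (nat_lit 0) (XT.lf (nat_lit 0) (nat_lit 1782113912)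 (nat_lit 1140) (nat_lit 12990862618) (nat_lit 1216) (nat_lit 4065180738) (nat_lit 169) (nat_lit 5) (nat_lit 184) (nat_lit 5) (nat_lit 185) (nat_lit 5) (nat_lit 274) (nat_lit 268) (nat_lit 178)) (XT.lf (nat_lit 76) (nat_lit 1155626129) (nat_lit 0) (nat_lit 2188557574) (nat_lit 1216) (nat_lit 15987516210) (nat_lit 170) (nat_lit 5) (nat_lit 169) (nat_lit 5) (nat_lit 185) (nat_lit 5) (nat_lit 275) (nat_lit 268) (nat_lit 177)))))) (XT.nd (nat_lit 390) (nat_lit 2736) (nat_lit 0) (XT.nd (nat_lit 156) (nat_lit 988) (nat_lit 0) (XT.nd (nat_lit 78) (nat_lit 0) (nat_lit 76) (XT.lf (nat_lit 0) (nat_lit 5206547502) (nat_lit 1140) (nat_lit 3686796890) (nat_lit 1216) (nat_lit 10949941628) (nat_lit 170) (nat_lit 5) (nat_lit 185) (nat_lit 5) (nat_lit 186) (nat_lit 5) (nat_lit 276) (nat_lit 268) (nat_lit 176)) (XT.lf (nat_lit 0) (nat_lit 7321519685) (nat_lit 1140) (nat_lit 8699923144) (nat_lit 1216) (nat_lit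 4354254422) (nat_lit 171) (nat_lit 5) (nat_lit 186) (nat_lit 5) (nat_lit 187) (nat_lit 5) (nat_lit 277) (nat_lit 268) (nat_lit 175))) (XT.nd (nat_lit 78) (nat_lit 1064) (nat_lit 0) (XT.lf (nat_lit 76) (nat_lit 6982041069) (nat_lit 0) (nat_lit 2738222542) (nat_lit 1216) (nat_lit 11209153803) (nat_lit 172) (nat_lit 5) (nat_lit 171) (nat_lit 5) (nat_lit 187) (nat_lit 5) (nat_lit 278) (nat_lit 268) (nat_lit 174)) (XT.nd (nat_lit 78) (nat_lit 0) (nat_lit 0) (XT.lf (nat_lit 0) (nat_lit 2038776254) (nat_lit 1140) (nat_lit 10401492736) (nat_lit 1216) (nat_lit 9064542551) (nat_lit 157) (nat_lit 5) (nat_lit 172) (nat_lit 5) (nat_lit 173) (nat_lit 5) (nat_lit 279) (nat_lit 268) (nat_lit 173)) (XT.lf (nat_lit 0) (nat_lit 15486222002) (nat_lit 1216) (nat_lit 3065396044) (nat_lit 76) (nat_lit 3551685275) (nat_lit 157) (nat_lit 5) (nat_lit 173) (nat_lit 5) (nat_lit 158) (nat_lit 5) (nat_lit 280) (nat_lit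 268) (nat_lit 172))))) (XT.nd (nat_lit 234) (nat_lit 988) (nat_lit 0) (XT.nd (nat_lit 78) (nat_lit 1216) (nat_lit 0) (XT.lf (nat_lit 0) (nat_lit 14316070827) (nat_lit 532) (nat_lit 4595958015) (nat_lit 608) (nat_lit 3812889271) (nat_lit 150) (nat_lit 5) (nat_lit 157) (nat_lit 5) (nat_lit 158) (nat_lit 5) (nat_lit 281) (nat_lit 268) (nat_lit 171)) (XT.nd (nat_lit 78) (nat_lit 608) (nat_lit 0) (XT.lf (nat_lit 0) (nat_lit 9325323192) (nat_lit 608) (nat_lit 13387548525) (nat_lit 684) (nat_lit 658653469) (nat_lit 142) (nat_lit 5) (nat_lit 150) (nat_lit 5) (nat_lit 151) (nat_lit 5) (nat_lit 282) (nat_lit 268) (nat_lit 170)) (XT.lf (nat_lit 0) (nat_lit 2772940814) (nat_lit 608) (nat_lit 19990412795) (nat_lit 76) (nat_lit 1281223305) (nat_lit 134) (nat_lit 5) (nat_lit 142) (nat_lit 5) (nat_lit 135) (nat_lit 5) (nat_lit 283) (nat_lit 268) (nat_lit 169)))) (XT.nd (nat_lit 78) (nat_lit 988) (nat_lit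 0) (XT.lf (nat_lit 0) (nat_lit 6630271849) (nat_lit 608) (nat_lit 1550682302) (nat_lit 76) (nat_lit 16562119125) (nat_lit 134) (nat_lit 5) (nat_lit 142) (nat_lit 5) (nat_lit 135) (nat_lit 5) (nat_lit 284) (nat_lit 268) (nat_lit 168)) (XT.nd (nat_lit 78) (nat_lit 456) (nat_lit 0) (XT.lf (nat_lit 0) (nat_lit 10912376731) (nat_lit 608) (nat_lit 7389644433) (nat_lit 76) (nat_lit 7167536131) (nat_lit 127) (nat_lit 5) (nat_lit 135) (nat_lit 5) (nat_lit 128) (nat_lit 5) (nat_lit 285) (nat_lit 268) (nat_lit 167)) (XT.lf (nat_lit 0) (nat_lit 12643570392) (nat_lit 456) (nat_lit 2972882802) (nat_lit 532) (nat_lit 10609695431) (nat_lit 121) (nat_lit 5) (nat_lit 127) (nat_lit 5) (nat_lit 128) (nat_lit 5) (nat_lit 286) (nat_lit 268) (nat_lit 166))))))) (XT.nd (nat_lit 858) (nat_lit 2356) (nat_lit 0) (XT.nd (nat_lit 390) (nat_lit 1444) (nat_lit 0) (XT.nd (nat_lit 156) (nat_lit 912) (nat_lit 0) (XT.nd (nat_lit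 78) (nat_lit 380) (nat_lit 0) (XT.lf (nat_lit 0) (nat_lit 6807550499) (nat_lit 456) (nat_lit 14004684024) (nat_lit 532) (nat_lit 6200658159) (nat_lit 115) (nat_lit 5) (nat_lit 121) (nat_lit 5) (nat_lit 122) (nat_lit 5) (nat_lit 287) (nat_lit 268) (nat_lit 165)) (XT.lf (nat_lit 0) (nat_lit 616057511) (nat_lit 380) (nat_lit 25835275916) (nat_lit 456) (nat_lit 1382151985) (nat_lit 110) (nat_lit 5) (nat_lit 115) (nat_lit 5) (nat_lit 116) (nat_lit 5) (nat_lit 288) (nat_lit 268) (nat_lit 164))) (XT.nd (nat_lit 78) (nat_lit 836) (nat_lit 0) (XT.lf (nat_lit 0) (nat_lit 3945761296) (nat_lit 456) (nat_lit 5979687051) (nat_lit 76) (nat_lit 18758407839) (nat_lit 109) (nat_lit 5) (nat_lit 115) (nat_lit 5) (nat_lit 110) (nat_lit 5) (nat_lit 289) (nat_lit 268) (nat_lit 163)) (XT.nd (nat_lit 78) (nat_lit 380) (nat_lit 0) (XT.lf (nat_lit 0) (nat_lit 9727733249) (nat_lit 532) (nat_lit 13020685202) (nat_lit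 76) (nat_lit 6821444323) (nat_lit 103) (nat_lit 5) (nat_lit 110) (nat_lit 5) (nat_lit 104) (nat_lit 5) (nat_lit 290) (nat_lit 268) (nat_lit 162)) (XT.lf (nat_lit 0) (nat_lit 9911577107) (nat_lit 380) (nat_lit 6134587352) (nat_lit 456) (nat_lit 14446598945) (nat_lit 98) (nat_lit 5) (nat_lit 103) (nat_lit 5) (nat_lit 104) (nat_lit 5) (nat_lit 291) (nat_lit 268) (nat_lit 161))))) (XT.nd (nat_lit 234) (nat_lit 684) (nat_lit 0) (XT.nd (nat_lit 78) (nat_lit 380) (nat_lit 0) (XT.lf (nat_lit 0) (nat_lit 2735995113) (nat_lit 380) (nat_lit 20204999713) (nat_lit 456) (nat_lit 8513013750) (nat_lit 93) (nat_lit 5) (nat_lit 98) (nat_lit 5) (nat_lit 99) (nat_lit 5) (nat_lit 292) (nat_lit 268) (nat_lit 160)) (XT.nd (nat_lit 78) (nat_lit 380) (nat_lit 0) (XT.lf (nat_lit 0) (nat_lit 27574211268) (nat_lit 380) (nat_lit 2869985966) (nat_lit 456) (nat_lit 2011223033) (nat_lit 93) (nat_lit 5) (nat_lit 98) (nat_lit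 5) (nat_lit 99) (nat_lit 5) (nat_lit 293) (nat_lit 268) (nat_lit 159)) (XT.lf (nat_lit 0) (nat_lit 5059217161) (nat_lit 380) (nat_lit 13160084235) (nat_lit 76) (nat_lit 15276098682) (nat_lit 88) (nat_lit 5) (nat_lit 93) (nat_lit 5) (nat_lit 89) (nat_lit 5) (nat_lit 294) (nat_lit 268) (nat_lit 158)))) (XT.nd (nat_lit 78) (nat_lit 304) (nat_lit 0) (XT.lf (nat_lit 0) (nat_lit 12511859972) (nat_lit 380) (nat_lit 121212155) (nat_lit 456) (nat_lit 21947976326) (nat_lit 83) (nat_lit 5) (nat_lit 88) (nat_lit 5) (nat_lit 89) (nat_lit 5) (nat_lit 295) (nat_lit 268) (nat_lit 157)) (XT.nd (nat_lit 78) (nat_lit 0) (nat_lit 0) (XT.lf (nat_lit 0) (nat_lit 3907656111) (nat_lit 304) (nat_lit 17025253281) (nat_lit 380) (nat_lit 14777662222) (nat_lit 79) (nat_lit 5) (nat_lit 83) (nat_lit 5) (nat_lit 84) (nat_lit 5) (nat_lit 296) (nat_lit 268) (nat_lit 156)) (XT.lf (nat_lit 0) (nat_lit 29884809073) (nat_lit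 380) (nat_lit 5274586206) (nat_lit 76) (nat_lit 1730074063) (nat_lit 79) (nat_lit 5) (nat_lit 84) (nat_lit 5) (nat_lit 80) (nat_lit 5) (nat_lit 297) (nat_lit 268) (nat_lit 155)))))) (XT.nd (nat_lit 390) (nat_lit 1140) (nat_lit 0) (XT.nd (nat_lit 156) (nat_lit 532) (nat_lit 0) (XT.nd (nat_lit 78) (nat_lit 304) (nat_lit 0) (XT.lf (nat_lit 0) (nat_lit 1521712427) (nat_lit 380) (nat_lit 15287283105) (nat_lit 76) (nat_lit 21306373577) (nat_lit 74) (nat_lit 5) (nat_lit 79) (nat_lit 5) (nat_lit 75) (nat_lit 5) (nat_lit 298) (nat_lit 268) (nat_lit 154)) (XT.lf (nat_lit 0) (nat_lit 10531200131) (nat_lit 380) (nat_lit 26199879882) (nat_lit 76) (nat_lit 2663362623) (nat_lit 70) (nat_lit 5) (nat_lit 75) (nat_lit 5) (nat_lit 71) (nat_lit 5) (nat_lit 299) (nat_lit 268) (nat_lit 153))) (XT.nd (nat_lit 78) (nat_lit 228) (nat_lit 0) (XT.lf (nat_lit 0) (nat_lit 2555473221) (nat_lit 304) (nat_lit 17781359706)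 (nat_lit 380) (nat_lit 20390275620) (nat_lit 66) (nat_lit 5) (nat_lit 70) (nat_lit 5) (nat_lit 71) (nat_lit 5) (nat_lit 300) (nat_lit 268) (nat_lit 152)) (XT.nd (nat_lit 78) (nat_lit 228) (nat_lit 0) (XT.lf (nat_lit 0) (nat_lit 30918214143) (nat_lit 380) (nat_lit 8855520218) (nat_lit 76) (nat_lit 2344117798) (nat_lit 66) (nat_lit 5) (nat_lit 71) (nat_lit 5) (nat_lit 67) (nat_lit 5) (nat_lit 301) (nat_lit 268) (nat_lit 151)) (XT.lf (nat_lit 0) (nat_lit 22169741671) (nat_lit 228) (nat_lit 20244601512) (nat_lit 304) (nat_lit 1152227413) (nat_lit 63) (nat_lit 5) (nat_lit 66) (nat_lit 5) (nat_lit 67) (nat_lit 5) (nat_lit 302) (nat_lit 268) (nat_lit 150))))) (XT.nd (nat_lit 234) (nat_lit 532) (nat_lit 0) (XT.nd (nat_lit 78) (nat_lit 228) (nat_lit 0) (XT.lf (nat_lit 0) (nat_lit 9400273767) (nat_lit 380) (nat_lit 35145441954) (nat_lit 76) (nat_lit 533723582) (nat_lit 58) (nat_lit 5) (nat_lit 63)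 (nat_lit 5) (nat_lit 59) (nat_lit 5) (nat_lit 303) (nat_lit 268) (nat_lit 149)) (XT.nd (nat_lit 78) (nat_lit 228) (nat_lit 0) (XT.lf (nat_lit 0) (nat_lit 20877032461) (nat_lit 380) (nat_lit 3610549346) (nat_lit 76) (nat_lit 22167420576) (nat_lit 58) (nat_lit 5) (nat_lit 63) (nat_lit 5) (nat_lit 59) (nat_lit 5) (nat_lit 304) (nat_lit 268) (nat_lit 148)) (XT.lf (nat_lit 0) (nat_lit 30078934052) (nat_lit 228) (nat_lit 3131608168) (nat_lit 304) (nat_lit 15090320720) (nat_lit 55) (nat_lit 5) (nat_lit 58) (nat_lit 5) (nat_lit 59) (nat_lit 5) (nat_lit 305) (nat_lit 268) (nat_lit 147)))) (XT.nd (nat_lit 78) (nat_lit 304) (nat_lit 0) (XT.lf (nat_lit 0) (nat_lit 15610234960) (nat_lit 228) (nat_lit 30917491350) (nat_lit 304) (nat_lit 3490286644) (nat_lit 52) (nat_lit 5) (nat_lit 55) (nat_lit 5) (nat_lit 56) (nat_lit 5) (nat_lit 306) (nat_lit 268) (nat_lit 146)) (XT.nd (nat_lit 78) (nat_lit 228) (nat_lit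 0) (XT.lf (nat_lit 0) (nat_lit 8735324832) (nat_lit 304) (nat_lit 426464048) (nat_lit 76) (nat_lit 42650277249) (nat_lit 51) (nat_lit 5) (nat_lit 55) (nat_lit 5) (nat_lit 52) (nat_lit 5) (nat_lit 307) (nat_lit 268) (nat_lit 145)) (XT.lf (nat_lit 0) (nat_lit 21975539162) (nat_lit 304) (nat_lit 17908843479) (nat_lit 76) (nat_lit 13796143032) (nat_lit 48) (nat_lit 5) (nat_lit 52) (nat_lit 5) (nat_lit 49) (nat_lit 5) (nat_lit 308) (nat_lit 268) (nat_lit 144))))))))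
noncomputable def xc99 : XT := (XT.nd (nat_lit 34632) (nat_lit 0) (nat_lit 5472) (XT.nd (nat_lit 858) (nat_lit 684) (nat_lit 0) (XT.nd (nat_lit 390) (nat_lit 684) (nat_lit 0) (XT.nd (nat_lit 156) (nat_lit 456) (nat_lit 0) (XT.nd (nat_lit 78) (nat_lit 0) (nat_lit 0) (XT.lf (nat_lit 0) (nat_lit 18404652983) (nat_lit 228) (nat_lit 17741476767) (nat_lit 304) (nat_lit 19488232842) (nat_lit 45) (nat_lit 5) (nat_lit 48) (nat_lit 5) (nat_lit 49) (nat_lit 5) (nat_lit 309) (nat_lit 268) (nat_lit 143)) (XT.lf (nat_lit 0) (nat_lit 51259080520) (nat_lit 304) (nat_lit 835311912) (nat_lit 76) (nat_lit 5584489115) (nat_lit 45) (nat_lit 5) (nat_lit 49) (nat_lit 5) (nat_lit 46) (nat_lit 5) (nat_lit 310) (nat_lit 268) (nat_lit 142))) (XT.nd (nat_lit 78) (nat_lit 228) (nat_lit 0) (XT.lf (nat_lit 0) (nat_lit 7703537074) (nat_lit 228) (nat_lit 21952916818) (nat_lit 76) (nat_lit 30150752305) (nat_lit 42) (nat_lit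 5) (nat_lit 45) (nat_lit 5) (nat_lit 43) (nat_lit 5) (nat_lit 311) (nat_lit 268) (nat_lit 141)) (XT.nd (nat_lit 78) (nat_lit 0) (nat_lit 0) (XT.lf (nat_lit 0) (nat_lit 16707554085) (nat_lit 228) (nat_lit 5858302649) (nat_lit 304) (nat_lit 39469220395) (nat_lit 39) (nat_lit 5) (nat_lit 42) (nat_lit 5) (nat_lit 43) (nat_lit 5) (nat_lit 312) (nat_lit 268) (nat_lit 140)) (XT.lf (nat_lit 0) (nat_lit 38578603911) (nat_lit 304) (nat_lit 6801512153) (nat_lit 76) (nat_lit 18982010482) (nat_lit 39) (nat_lit 5) (nat_lit 43) (nat_lit 5) (nat_lit 40) (nat_lit 5) (nat_lit 313) (nat_lit 268) (nat_lit 139))))) (XT.nd (nat_lit 234) (nat_lit 304) (nat_lit 0) (XT.nd (nat_lit 78) (nat_lit 228) (nat_lit 0) (XT.lf (nat_lit 0) (nat_lit 34252803055) (nat_lit 152) (nat_lit 21523003291) (nat_lit 228) (nat_lit 11018211632) (nat_lit 37) (nat_lit 5) (nat_lit 39) (nat_lit 5) (nat_lit 40) (nat_lit 5) (nat_lit 314) (nat_lit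 268) (nat_lit 138)) (XT.nd (nat_lit 78) (nat_lit 0) (nat_lit 0) (XT.lf (nat_lit 0) (nat_lit 4579338159) (nat_lit 228) (nat_lit 61110711196) (nat_lit 76) (nat_lit 3650719951) (nat_lit 34) (nat_lit 5) (nat_lit 37) (nat_lit 5) (nat_lit 35) (nat_lit 5) (nat_lit 315) (nat_lit 268) (nat_lit 137)) (XT.lf (nat_lit 0) (nat_lit 21282199664) (nat_lit 228) (nat_lit 20623711497) (nat_lit 76) (nat_lit 30089078664) (nat_lit 34) (nat_lit 5) (nat_lit 37) (nat_lit 5) (nat_lit 35) (nat_lit 5) (nat_lit 316) (nat_lit 268) (nat_lit 136)))) (XT.nd (nat_lit 78) (nat_lit 152) (nat_lit 0) (XT.lf (nat_lit 0) (nat_lit 22316396960) (nat_lit 152) (nat_lit 16714185975) (nat_lit 228) (nat_lit 35745030497) (nat_lit 32) (nat_lit 5) (nat_lit 34) (nat_lit 5) (nat_lit 35) (nat_lit 5) (nat_lit 317) (nat_lit 268) (nat_lit 135)) (XT.nd (nat_lit 78) (nat_lit 152) (nat_lit 0) (XT.lf (nat_lit 0) (nat_lit 57970359597) (nat_lit 228)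 (nat_lit 9956735879) (nat_lit 76) (nat_lit 9759056777) (nat_lit 32) (nat_lit 5) (nat_lit 35) (nat_lit 5) (nat_lit 33) (nat_lit 5) (nat_lit 318) (nat_lit 268) (nat_lit 134)) (XT.lf (nat_lit 0) (nat_lit 35182397733) (nat_lit 152) (nat_lit 43177784417) (nat_lit 228) (nat_lit 2366947256) (nat_lit 30) (nat_lit 5) (nat_lit 32) (nat_lit 5) (nat_lit 33) (nat_lit 5) (nat_lit 319) (nat_lit 268) (nat_lit 133)))))) (XT.nd (nat_lit 390) (nat_lit 152) (nat_lit 0) (XT.nd (nat_lit 156) (nat_lit 304) (nat_lit 0) (XT.nd (nat_lit 78) (nat_lit 152) (nat_lit 0) (XT.lf (nat_lit 0) (nat_lit 15639819524) (nat_lit 228) (nat_lit 1290097190) (nat_lit 76) (nat_lit 66982678262) (nat_lit 29) (nat_lit 5) (nat_lit 32) (nat_lit 5) (nat_lit 30) (nat_lit 5) (nat_lit 320) (nat_lit 268) (nat_lit 132)) (XT.lf (nat_lit 0) (nat_lit 35044256713) (nat_lit 228) (nat_lit 41304235704) (nat_lit 76) (nat_lit 10891752562) (nat_lit 27)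 (nat_lit 5) (nat_lit 30) (nat_lit 5) (nat_lit 28) (nat_lit 5) (nat_lit 321) (nat_lit 268) (nat_lit 131))) (XT.nd (nat_lit 78) (nat_lit 152) (nat_lit 0) (XT.lf (nat_lit 0) (nat_lit 4732007909) (nat_lit 152) (nat_lit 50913202604) (nat_lit 228) (nat_lit 35082280730) (nat_lit 25) (nat_lit 5) (nat_lit 27) (nat_lit 5) (nat_lit 28) (nat_lit 5) (nat_lit 322) (nat_lit 268) (nat_lit 130)) (XT.nd (nat_lit 78) (nat_lit 152) (nat_lit 0) (XT.lf (nat_lit 0) (nat_lit 53927545052) (nat_lit 152) (nat_lit 23770487195) (nat_lit 228) (nat_lit 16678415446) (nat_lit 25) (nat_lit 5) (nat_lit 27) (nat_lit 5) (nat_lit 28) (nat_lit 5) (nat_lit 323) (nat_lit 268) (nat_lit 129)) (XT.lf (nat_lit 0) (nat_lit 2709179238) (nat_lit 152) (nat_lit 90761148832) (nat_lit 76) (nat_lit 4733308376) (nat_lit 23) (nat_lit 5) (nat_lit 25) (nat_lit 5) (nat_lit 24) (nat_lit 5) (nat_lit 324) (nat_lit 268) (nat_lit 128))))) (XT.nd (nat_lit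 33150) (nat_lit 0) (nat_lit 12084) (XT.nd (nat_lit 78) (nat_lit 152) (nat_lit 0) (XT.lf (nat_lit 0) (nat_lit 23381693395) (nat_lit 152) (nat_lit 44053738373) (nat_lit 76) (nat_lit 34761986820) (nat_lit 23) (nat_lit 5) (nat_lit 25) (nat_lit 5) (nat_lit 24) (nat_lit 5) (nat_lit 325) (nat_lit 268) (nat_lit 127)) (XT.nd (nat_lit 78) (nat_lit 0) (nat_lit 0) (XT.lf (nat_lit 0) (nat_lit 5083115759) (nat_lit 152) (nat_lit 40050568861) (nat_lit 228) (nat_lit 61255831754) (nat_lit 21) (nat_lit 5) (nat_lit 23) (nat_lit 5) (nat_lit 24) (nat_lit 5) (nat_lit 326) (nat_lit 268) (nat_lit 126)) (XT.lf (nat_lit 0) (nat_lit 57592436086) (nat_lit 152) (nat_lit 10831418621) (nat_lit 228) (nat_lit 42353848945) (nat_lit 21) (nat_lit 5) (nat_lit 23) (nat_lit 5) (nat_lit 24) (nat_lit 5) (nat_lit 327) (nat_lit 268) (nat_lit 125)))) (XT.nd (nat_lit 78) (nat_lit 0) (nat_lit 0) (XT.lf (nat_lit 0) (nat_lit 7146846545)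 (nat_lit 1140) (nat_lit 685420089) (nat_lit 1140) (nat_lit 685420089) (nat_lit 180) (nat_lit 3) (nat_lit 195) (nat_lit 3) (nat_lit 195) (nat_lit 5) (nat_lit 269) (nat_lit 269) (nat_lit 182)) (XT.nd (nat_lit 78) (nat_lit 0) (nat_lit 76) (XT.lf (nat_lit 76) (nat_lit 11223167622) (nat_lit 0) (nat_lit 3882911053) (nat_lit 1140) (nat_lit 2340901029) (nat_lit 181) (nat_lit 5) (nat_lit 180) (nat_lit 3) (nat_lit 195) (nat_lit 5) (nat_lit 270) (nat_lit 269) (nat_lit 181)) (XT.lf (nat_lit 76) (nat_lit 6631957929) (nat_lit 0) (nat_lit 9464484575) (nat_lit 1140) (nat_lit 1778643121) (nat_lit 182) (nat_lit 5) (nat_lit 181) (nat_lit 5) (nat_lit 196) (nat_lit 5) (nat_lit 271) (nat_lit 269) (nat_lit 180))))))) (XT.nd (nat_lit 858) (nat_lit 4332) (nat_lit 0) (XT.nd (nat_lit 390) (nat_lit 1368) (nat_lit 0) (XT.nd (nat_lit 156) (nat_lit 1064) (nat_lit 0) (XT.nd (nat_lit 78) (nat_lit 0) (nat_lit 0) (XT.lf (nat_lit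 76) (nat_lit 1894491692) (nat_lit 0) (nat_lit 15370375717) (nat_lit 1140) (nat_lit 1055911358) (nat_lit 183) (nat_lit 5) (nat_lit 182) (nat_lit 5) (nat_lit 197) (nat_lit 5) (nat_lit 272) (nat_lit 269) (nat_lit 179)) (XT.lf (nat_lit 76) (nat_lit 15813970277) (nat_lit 0) (nat_lit 2867758454) (nat_lit 1140) (nat_lit 101363772) (nat_lit 183) (nat_lit 5) (nat_lit 182) (nat_lit 5) (nat_lit 197) (nat_lit 5) (nat_lit 273) (nat_lit 269) (nat_lit 178))) (XT.nd (nat_lit 78) (nat_lit 0) (nat_lit 76) (XT.lf (nat_lit 0) (nat_lit 1072835325) (nat_lit 1140) (nat_lit 8003889558) (nat_lit 1216) (nat_lit 10185885764) (nat_lit 168) (nat_lit 5) (nat_lit 183) (nat_lit 5) (nat_lit 184) (nat_lit 5) (nat_lit 274) (nat_lit 269) (nat_lit 177)) (XT.nd (nat_lit 78) (nat_lit 0) (nat_lit 0) (XT.lf (nat_lit 0) (nat_lit 2448148725) (nat_lit 1140) (nat_lit 13222804447) (nat_lit 1216) (nat_lit 4090818445) (nat_lit 169) (nat_lit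 5) (nat_lit 184) (nat_lit 5) (nat_lit 185) (nat_lit 5) (nat_lit 275) (nat_lit 269) (nat_lit 176)) (XT.lf (nat_lit 76) (nat_lit 1619038280) (nat_lit 0) (nat_lit 2445710082) (nat_lit 1216) (nat_lit 16215997176) (nat_lit 170) (nat_lit 5) (nat_lit 169) (nat_lit 5) (nat_lit 185) (nat_lit 5) (nat_lit 276) (nat_lit 269) (nat_lit 175))))) (XT.nd (nat_lit 234) (nat_lit 1520) (nat_lit 0) (XT.nd (nat_lit 78) (nat_lit 0) (nat_lit 76) (XT.lf (nat_lit 0) (nat_lit 5992527692) (nat_lit 1140) (nat_lit 3466765084) (nat_lit 1216) (nat_lit 11359493957) (nat_lit 170) (nat_lit 5) (nat_lit 185) (nat_lit 5) (nat_lit 186) (nat_lit 5) (nat_lit 277) (nat_lit 269) (nat_lit 174)) (XT.nd (nat_lit 78) (nat_lit 0) (nat_lit 0) (XT.lf (nat_lit 0) (nat_lit 8190920112) (nat_lit 1140) (nat_lit 8725082596) (nat_lit 1216) (nat_lit 4462528237) (nat_lit 171) (nat_lit 5) (nat_lit 186) (nat_lit 5) (nat_lit 187) (nat_lit 5) (nat_lit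 278) (nat_lit 269) (nat_lit 173)) (XT.lf (nat_lit 76) (nat_lit 7729231940) (nat_lit 0) (nat_lit 2960228138) (nat_lit 1216) (nat_lit 11271121820) (nat_lit 172) (nat_lit 5) (nat_lit 171) (nat_lit 5) (nat_lit 187) (nat_lit 5) (nat_lit 279) (nat_lit 269) (nat_lit 172)))) (XT.nd (nat_lit 78) (nat_lit 532) (nat_lit 0) (XT.lf (nat_lit 0) (nat_lit 2543054915) (nat_lit 1140) (nat_lit 10982490592) (nat_lit 1216) (nat_lit 9039836446) (nat_lit 157) (nat_lit 5) (nat_lit 172) (nat_lit 5) (nat_lit 173) (nat_lit 5) (nat_lit 280) (nat_lit 269) (nat_lit 171)) (XT.nd (nat_lit 78) (nat_lit 532) (nat_lit 0) (XT.lf (nat_lit 0) (nat_lit 16701178278) (nat_lit 1216) (nat_lit 2820955707) (nat_lit 76) (nat_lit 3672379647) (nat_lit 157) (nat_lit 5) (nat_lit 173) (nat_lit 5) (nat_lit 158) (nat_lit 5) (nat_lit 281) (nat_lit 269) (nat_lit 170)) (XT.lf (nat_lit 0) (nat_lit 15418184226) (nat_lit 532) (nat_lit 4862821576)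 (nat_lit 608) (nat_lit 3566756474) (nat_lit 150) (nat_lit 5) (nat_lit 157) (nat_lit 5) (nat_lit 158) (nat_lit 5) (nat_lit 282) (nat_lit 269) (nat_lit 169)))))) (XT.nd (nat_lit 468) (nat_lit 1672) (nat_lit 0) (XT.nd (nat_lit 234) (nat_lit 1444) (nat_lit 0) (XT.nd (nat_lit 78) (nat_lit 608) (nat_lit 0) (XT.lf (nat_lit 0) (nat_lit 10180189384) (nat_lit 608) (nat_lit 14074936830) (nat_lit 684) (nat_lit 272109785) (nat_lit 142) (nat_lit 5) (nat_lit 150) (nat_lit 5) (nat_lit 151) (nat_lit 5) (nat_lit 283) (nat_lit 269) (nat_lit 168)) (XT.nd (nat_lit 78) (nat_lit 0) (nat_lit 0) (XT.lf (nat_lit 0) (nat_lit 3306914176) (nat_lit 608) (nat_lit 20591323098) (nat_lit 76) (nat_lit 1336091849) (nat_lit 134) (nat_lit 5) (nat_lit 142) (nat_lit 5) (nat_lit 135) (nat_lit 5) (nat_lit 284) (nat_lit 269) (nat_lit 167)) (XT.lf (nat_lit 0) (nat_lit 7338286700) (nat_lit 608) (nat_lit 1248587525) (nat_lit 76) (nat_lit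 17381470204) (nat_lit 134) (nat_lit 5) (nat_lit 142) (nat_lit 5) (nat_lit 135) (nat_lit 5) (nat_lit 285) (nat_lit 269) (nat_lit 166)))) (XT.nd (nat_lit 78) (nat_lit 912) (nat_lit 0) (XT.lf (nat_lit 0) (nat_lit 11820176544) (nat_lit 608) (nat_lit 7379020460) (nat_lit 76) (nat_lit 7532413228) (nat_lit 127) (nat_lit 5) (nat_lit 135) (nat_lit 5) (nat_lit 128) (nat_lit 5) (nat_lit 286) (nat_lit 269) (nat_lit 165)) (XT.nd (nat_lit 78) (nat_lit 456) (nat_lit 0) (XT.lf (nat_lit 0) (nat_lit 13644959439) (nat_lit 456) (nat_lit 3100799756) (nat_lit 532) (nat_lit 10780709506) (nat_lit 121) (nat_lit 5) (nat_lit 127) (nat_lit 5) (nat_lit 128) (nat_lit 5) (nat_lit 287) (nat_lit 269) (nat_lit 164)) (XT.lf (nat_lit 0) (nat_lit 7517034080) (nat_lit 456) (nat_lit 14671438893) (nat_lit 532) (nat_lit 6164488060) (nat_lit 115) (nat_lit 5) (nat_lit 121) (nat_lit 5) (nat_lit 122) (nat_lit 5) (nat_lit 288) (nat_lit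 269) (nat_lit 163))))) (XT.nd (nat_lit 234) (nat_lit 760) (nat_lit 0) (XT.nd (nat_lit 78) (nat_lit 532) (nat_lit 0) (XT.lf (nat_lit 0) (nat_lit 1015346609) (nat_lit 380) (nat_lit 27082046601) (nat_lit 456) (nat_lit 1117578362) (nat_lit 110) (nat_lit 5) (nat_lit 115) (nat_lit 5) (nat_lit 116) (nat_lit 5) (nat_lit 289) (nat_lit 269) (nat_lit 162)) (XT.nd (nat_lit 78) (nat_lit 456) (nat_lit 0) (XT.lf (nat_lit 0) (nat_lit 4454639741) (nat_lit 456) (nat_lit 5921083991) (nat_lit 76) (nat_lit 19732530658) (nat_lit 109) (nat_lit 5) (nat_lit 115) (nat_lit 5) (nat_lit 110) (nat_lit 5) (nat_lit 290) (nat_lit 269) (nat_lit 161)) (XT.lf (nat_lit 0) (nat_lit 10514665627) (nat_lit 532) (nat_lit 13315408015) (nat_lit 76) (nat_lit 7208840287) (nat_lit 103) (nat_lit 5) (nat_lit 110) (nat_lit 5) (nat_lit 104) (nat_lit 5) (nat_lit 291) (nat_lit 269) (nat_lit 160)))) (XT.nd (nat_lit 78) (nat_lit 380) (nat_lit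 0) (XT.lf (nat_lit 0) (nat_lit 10753253814) (nat_lit 380) (nat_lit 6384779787) (nat_lit 456) (nat_lit 14870275799) (nat_lit 98) (nat_lit 5) (nat_lit 103) (nat_lit 5) (nat_lit 104) (nat_lit 5) (nat_lit 292) (nat_lit 269) (nat_lit 159)) (XT.nd (nat_lit 78) (nat_lit 0) (nat_lit 0) (XT.lf (nat_lit 0) (nat_lit 3217275554) (nat_lit 380) (nat_lit 21150370264) (nat_lit 456) (nat_lit 8650289104) (nat_lit 93) (nat_lit 5) (nat_lit 98) (nat_lit 5) (nat_lit 99) (nat_lit 5) (nat_lit 293) (nat_lit 269) (nat_lit 158)) (XT.lf (nat_lit 0) (nat_lit 29280998675) (nat_lit 380) (nat_lit 2951695327) (nat_lit 456) (nat_lit 1837141011) (nat_lit 93) (nat_lit 5) (nat_lit 98) (nat_lit 5) (nat_lit 99) (nat_lit 5) (nat_lit 294) (nat_lit 269) (nat_lit 157))))))))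
noncomputable def xc100 : XT := (XT.nd (nat_lit 1716) (nat_lit 836) (nat_lit 0) (XT.nd (nat_lit 858) (nat_lit 1824) (nat_lit 0) (XT.nd (nat_lit 390) (nat_lit 1216) (nat_lit 0) (XT.nd (nat_lit 156) (nat_lit 684) (nat_lit 0) (XT.nd (nat_lit 78) (nat_lit 380) (nat_lit 0) (XT.lf (nat_lit 0) (nat_lit 5572376952) (nat_lit 380) (nat_lit 13486357636) (nat_lit 76) (nat_lit 16103289571) (nat_lit 88) (nat_lit 5) (nat_lit 93) (nat_lit 5) (nat_lit 89) (nat_lit 5) (nat_lit 295) (nat_lit 269) (nat_lit 156)) (XT.lf (nat_lit 0) (nat_lit 13459674785) (nat_lit 380) (nat_lit 55956850) (nat_lit 456) (nat_lit 22786618297) (nat_lit 83) (nat_lit 5) (nat_lit 88) (nat_lit 5) (nat_lit 89) (nat_lit 5) (nat_lit 296) (nat_lit 269) (nat_lit 155))) (XT.nd (nat_lit 78) (nat_lit 380) (nat_lit 0) (XT.lf (nat_lit 0) (nat_lit 4422984323) (nat_lit 304) (nat_lit 17799256939) (nat_lit 380) (nat_lit 15266269992) (nat_lit 79) (nat_lit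 5) (nat_lit 83) (nat_lit 5) (nat_lit 84) (nat_lit 5) (nat_lit 297) (nat_lit 269) (nat_lit 154)) (XT.nd (nat_lit 78) (nat_lit 380) (nat_lit 0) (XT.lf (nat_lit 0) (nat_lit 31610886728) (nat_lit 380) (nat_lit 5227085339) (nat_lit 76) (nat_lit 1888721962) (nat_lit 79) (nat_lit 5) (nat_lit 84) (nat_lit 5) (nat_lit 80) (nat_lit 5) (nat_lit 298) (nat_lit 269) (nat_lit 153)) (XT.lf (nat_lit 0) (nat_lit 1823990468) (nat_lit 380) (nat_lit 15744565225) (nat_lit 76) (nat_lit 22445524563) (nat_lit 74) (nat_lit 5) (nat_lit 79) (nat_lit 5) (nat_lit 75) (nat_lit 5) (nat_lit 299) (nat_lit 269) (nat_lit 152))))) (XT.nd (nat_lit 234) (nat_lit 608) (nat_lit 0) (XT.nd (nat_lit 78) (nat_lit 304) (nat_lit 0) (XT.lf (nat_lit 0) (nat_lit 11276817658) (nat_lit 380) (nat_lit 27205555945) (nat_lit 76) (nat_lit 2874960834) (nat_lit 70) (nat_lit 5) (nat_lit 75) (nat_lit 5) (nat_lit 71) (nat_lit 5) (nat_lit 300) (nat_lit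 269) (nat_lit 151)) (XT.nd (nat_lit 78) (nat_lit 0) (nat_lit 0) (XT.lf (nat_lit 0) (nat_lit 2978841601) (nat_lit 304) (nat_lit 18586300620) (nat_lit 380) (nat_lit 21191731434) (nat_lit 66) (nat_lit 5) (nat_lit 70) (nat_lit 5) (nat_lit 71) (nat_lit 5) (nat_lit 301) (nat_lit 269) (nat_lit 150)) (XT.lf (nat_lit 0) (nat_lit 32666292781) (nat_lit 380) (nat_lit 9011271126) (nat_lit 76) (nat_lit 2539881259) (nat_lit 66) (nat_lit 5) (nat_lit 71) (nat_lit 5) (nat_lit 67) (nat_lit 5) (nat_lit 302) (nat_lit 269) (nat_lit 149)))) (XT.nd (nat_lit 78) (nat_lit 380) (nat_lit 0) (XT.lf (nat_lit 0) (nat_lit 23557026340) (nat_lit 228) (nat_lit 21173254862) (nat_lit 304) (nat_lit 1008537905) (nat_lit 63) (nat_lit 5) (nat_lit 66) (nat_lit 5) (nat_lit 67) (nat_lit 5) (nat_lit 303) (nat_lit 269) (nat_lit 148)) (XT.nd (nat_lit 78) (nat_lit 0) (nat_lit 0) (XT.lf (nat_lit 0) (nat_lit 10061712917) (nat_lit 380) (nat_lit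 36622766468) (nat_lit 76) (nat_lit 642982562) (nat_lit 58) (nat_lit 5) (nat_lit 63) (nat_lit 5) (nat_lit 59) (nat_lit 5) (nat_lit 304) (nat_lit 269) (nat_lit 147)) (XT.lf (nat_lit 0) (nat_lit 22103194047) (nat_lit 380) (nat_lit 3524460067) (nat_lit 76) (nat_lit 23354432367) (nat_lit 58) (nat_lit 5) (nat_lit 63) (nat_lit 5) (nat_lit 59) (nat_lit 5) (nat_lit 305) (nat_lit 269) (nat_lit 146)))))) (XT.nd (nat_lit 390) (nat_lit 836) (nat_lit 0) (XT.nd (nat_lit 156) (nat_lit 532) (nat_lit 0) (XT.nd (nat_lit 78) (nat_lit 228) (nat_lit 0) (XT.lf (nat_lit 0) (nat_lit 31841854986) (nat_lit 228) (nat_lit 3205332300) (nat_lit 304) (nat_lit 15663247907) (nat_lit 55) (nat_lit 5) (nat_lit 58) (nat_lit 5) (nat_lit 59) (nat_lit 5) (nat_lit 306) (nat_lit 269) (nat_lit 145)) (XT.lf (nat_lit 0) (nat_lit 16646837932) (nat_lit 228) (nat_lit 32378226324) (nat_lit 304) (nat_lit 3488542365) (nat_lit 52) (nat_lit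 5) (nat_lit 55) (nat_lit 5) (nat_lit 56) (nat_lit 5) (nat_lit 307) (nat_lit 269) (nat_lit 144))) (XT.nd (nat_lit 78) (nat_lit 456) (nat_lit 0) (XT.lf (nat_lit 0) (nat_lit 9336680760) (nat_lit 304) (nat_lit 200450203) (nat_lit 76) (nat_lit 44860435795) (nat_lit 51) (nat_lit 5) (nat_lit 55) (nat_lit 5) (nat_lit 52) (nat_lit 5) (nat_lit 308) (nat_lit 269) (nat_lit 143)) (XT.nd (nat_lit 78) (nat_lit 228) (nat_lit 0) (XT.lf (nat_lit 0) (nat_lit 23234158012) (nat_lit 304) (nat_lit 18559889905) (nat_lit 76) (nat_lit 14565551653) (nat_lit 48) (nat_lit 5) (nat_lit 52) (nat_lit 5) (nat_lit 49) (nat_lit 5) (nat_lit 309) (nat_lit 269) (nat_lit 142)) (XT.lf (nat_lit 0) (nat_lit 19562275825) (nat_lit 228) (nat_lit 18545672726) (nat_lit 304) (nat_lit 20303347154) (nat_lit 45) (nat_lit 5) (nat_lit 48) (nat_lit 5) (nat_lit 49) (nat_lit 5) (nat_lit 310) (nat_lit 269) (nat_lit 141))))) (XT.nd (nat_lit 234)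 (nat_lit 380) (nat_lit 0) (XT.nd (nat_lit 78) (nat_lit 456) (nat_lit 0) (XT.lf (nat_lit 0) (nat_lit 53969947866) (nat_lit 304) (nat_lit 647193186) (nat_lit 76) (nat_lit 5941104651) (nat_lit 45) (nat_lit 5) (nat_lit 49) (nat_lit 5) (nat_lit 46) (nat_lit 5) (nat_lit 311) (nat_lit 269) (nat_lit 140)) (XT.nd (nat_lit 78) (nat_lit 228) (nat_lit 0) (XT.lf (nat_lit 0) (nat_lit 8233279291) (nat_lit 228) (nat_lit 22824259010) (nat_lit 76) (nat_lit 31735559464) (nat_lit 42) (nat_lit 5) (nat_lit 45) (nat_lit 5) (nat_lit 43) (nat_lit 5) (nat_lit 312) (nat_lit 269) (nat_lit 139)) (XT.lf (nat_lit 0) (nat_lit 17762748489) (nat_lit 228) (nat_lit 6071195392) (nat_lit 304) (nat_lit 41298567769) (nat_lit 39) (nat_lit 5) (nat_lit 42) (nat_lit 5) (nat_lit 43) (nat_lit 5) (nat_lit 313) (nat_lit 269) (nat_lit 138)))) (XT.nd (nat_lit 78) (nat_lit 380) (nat_lit 0) (XT.lf (nat_lit 0) (nat_lit 40641404140) (nat_lit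 304) (nat_lit 6928857464) (nat_lit 76) (nat_lit 20005835639) (nat_lit 39) (nat_lit 5) (nat_lit 43) (nat_lit 5) (nat_lit 40) (nat_lit 5) (nat_lit 314) (nat_lit 269) (nat_lit 137)) (XT.nd (nat_lit 78) (nat_lit 228) (nat_lit 0) (XT.lf (nat_lit 0) (nat_lit 36172075633) (nat_lit 152) (nat_lit 22522002577) (nat_lit 228) (nat_lit 11435642383) (nat_lit 37) (nat_lit 5) (nat_lit 39) (nat_lit 5) (nat_lit 40) (nat_lit 5) (nat_lit 315) (nat_lit 269) (nat_lit 136)) (XT.lf (nat_lit 0) (nat_lit 4935640526) (nat_lit 228) (nat_lit 63959734611) (nat_lit 76) (nat_lit 3908507310) (nat_lit 34) (nat_lit 5) (nat_lit 37) (nat_lit 5) (nat_lit 35) (nat_lit 5) (nat_lit 316) (nat_lit 269) (nat_lit 135))))))) (XT.nd (nat_lit 33930) (nat_lit 0) (nat_lit 10184) (XT.nd (nat_lit 390) (nat_lit 456) (nat_lit 0) (XT.nd (nat_lit 156) (nat_lit 228) (nat_lit 0) (XT.nd (nat_lit 78) (nat_lit 152) (nat_lit 0) (XT.lf (nat_lit 0) (nat_lit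 22467581514) (nat_lit 228) (nat_lit 21458218840) (nat_lit 76) (nat_lit 31665200560) (nat_lit 34) (nat_lit 5) (nat_lit 37) (nat_lit 5) (nat_lit 35) (nat_lit 5) (nat_lit 317) (nat_lit 269) (nat_lit 134)) (XT.lf (nat_lit 0) (nat_lit 23623257298) (nat_lit 152) (nat_lit 17476188197) (nat_lit 228) (nat_lit 37411333133) (nat_lit 32) (nat_lit 5) (nat_lit 34) (nat_lit 5) (nat_lit 35) (nat_lit 5) (nat_lit 318) (nat_lit 269) (nat_lit 133))) (XT.nd (nat_lit 78) (nat_lit 228) (nat_lit 0) (XT.lf (nat_lit 0) (nat_lit 60981298464) (nat_lit 228) (nat_lit 10269860817) (nat_lit 76) (nat_lit 10315837031) (nat_lit 32) (nat_lit 5) (nat_lit 35) (nat_lit 5) (nat_lit 33) (nat_lit 5) (nat_lit 319) (nat_lit 269) (nat_lit 132)) (XT.nd (nat_lit 78) (nat_lit 76) (nat_lit 0) (XT.lf (nat_lit 0) (nat_lit 37120934747) (nat_lit 152) (nat_lit 45266048689) (nat_lit 228) (nat_lit 2373152078) (nat_lit 30) (nat_lit 5) (nat_lit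 32) (nat_lit 5) (nat_lit 33) (nat_lit 5) (nat_lit 320) (nat_lit 269) (nat_lit 131)) (XT.lf (nat_lit 0) (nat_lit 16526528820) (nat_lit 228) (nat_lit 1181564424) (nat_lit 76) (nat_lit 70396909860) (nat_lit 29) (nat_lit 5) (nat_lit 32) (nat_lit 5) (nat_lit 30) (nat_lit 5) (nat_lit 321) (nat_lit 269) (nat_lit 130))))) (XT.nd (nat_lit 234) (nat_lit 152) (nat_lit 0) (XT.nd (nat_lit 78) (nat_lit 152) (nat_lit 0) (XT.lf (nat_lit 0) (nat_lit 36898458397) (nat_lit 228) (nat_lit 43198894723) (nat_lit 76) (nat_lit 11501768184) (nat_lit 27) (nat_lit 5) (nat_lit 30) (nat_lit 5) (nat_lit 28) (nat_lit 5) (nat_lit 322) (nat_lit 269) (nat_lit 129)) (XT.nd (nat_lit 78) (nat_lit 0) (nat_lit 0) (XT.lf (nat_lit 0) (nat_lit 5134272209) (nat_lit 152) (nat_lit 53391923528) (nat_lit 228) (nat_lit 36734635699) (nat_lit 25) (nat_lit 5) (nat_lit 27) (nat_lit 5) (nat_lit 28) (nat_lit 5) (nat_lit 323) (nat_lit 269) (nat_lit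 128)) (XT.lf (nat_lit 0) (nat_lit 56781697452) (nat_lit 152) (nat_lit 24895259930) (nat_lit 228) (nat_lit 17415422821) (nat_lit 25) (nat_lit 5) (nat_lit 27) (nat_lit 5) (nat_lit 28) (nat_lit 5) (nat_lit 324) (nat_lit 269) (nat_lit 127)))) (XT.nd (nat_lit 78) (nat_lit 0) (nat_lit 0) (XT.lf (nat_lit 0) (nat_lit 2937234229) (nat_lit 152) (nat_lit 95141835137) (nat_lit 76) (nat_lit 5031907066) (nat_lit 23) (nat_lit 5) (nat_lit 25) (nat_lit 5) (nat_lit 24) (nat_lit 5) (nat_lit 325) (nat_lit 269) (nat_lit 126)) (XT.nd (nat_lit 33150) (nat_lit 0) (nat_lit 11932) (XT.lf (nat_lit 0) (nat_lit 24638964759) (nat_lit 152) (nat_lit 46106548018) (nat_lit 76) (nat_lit 36559070229) (nat_lit 23) (nat_lit 5) (nat_lit 25) (nat_lit 5) (nat_lit 24) (nat_lit 5) (nat_lit 326) (nat_lit 269) (nat_lit 125)) (XT.lf (nat_lit 0) (nat_lit 7845928047) (nat_lit 1140) (nat_lit 543386920) (nat_lit 1140) (nat_lit 543386920)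 (nat_lit 180) (nat_lit 3) (nat_lit 195) (nat_lit 3) (nat_lit 195) (nat_lit 5) (nat_lit 270) (nat_lit 270) (nat_lit 180)))))) (XT.nd (nat_lit 390) (nat_lit 760) (nat_lit 0) (XT.nd (nat_lit 156) (nat_lit 988) (nat_lit 0) (XT.nd (nat_lit 78) (nat_lit 0) (nat_lit 76) (XT.lf (nat_lit 76) (nat_lit 12126826902) (nat_lit 0) (nat_lit 4388779796) (nat_lit 1140) (nat_lit 1782920036) (nat_lit 181) (nat_lit 5) (nat_lit 180) (nat_lit 3) (nat_lit 195) (nat_lit 5) (nat_lit 271) (nat_lit 270) (nat_lit 179)) (XT.lf (nat_lit 76) (nat_lit 7319355257) (nat_lit 0) (nat_lit 10205546311) (nat_lit 1140) (nat_lit 1224109962) (nat_lit 182) (nat_lit 5) (nat_lit 181) (nat_lit 5) (nat_lit 196) (nat_lit 5) (nat_lit 272) (nat_lit 270) (nat_lit 178))) (XT.nd (nat_lit 78) (nat_lit 1140) (nat_lit 0) (XT.lf (nat_lit 76) (nat_lit 2356577608) (nat_lit 0) (nat_lit 16366552398) (nat_lit 1140) (nat_lit 494771153) (nat_lit 183) (nat_lit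 5) (nat_lit 182) (nat_lit 5) (nat_lit 197) (nat_lit 5) (nat_lit 273) (nat_lit 270) (nat_lit 177)) (XT.nd (nat_lit 78) (nat_lit 0) (nat_lit 76) (XT.lf (nat_lit 0) (nat_lit 468936029) (nat_lit 1140) (nat_lit 2754292057) (nat_lit 1216) (nat_lit 16480865361) (nat_lit 167) (nat_lit 5) (nat_lit 182) (nat_lit 5) (nat_lit 183) (nat_lit 5) (nat_lit 274) (nat_lit 270) (nat_lit 176)) (XT.lf (nat_lit 0) (nat_lit 1673952667) (nat_lit 1140) (nat_lit 8032886677) (nat_lit 1216) (nat_lit 10501538863) (nat_lit 168) (nat_lit 5) (nat_lit 183) (nat_lit 5) (nat_lit 184) (nat_lit 5) (nat_lit 275) (nat_lit 270) (nat_lit 175))))) (XT.nd (nat_lit 234) (nat_lit 912) (nat_lit 0) (XT.nd (nat_lit 78) (nat_lit 0) (nat_lit 0) (XT.lf (nat_lit 0) (nat_lit 3093847878) (nat_lit 1140) (nat_lit 13505167978) (nat_lit 1216) (nat_lit 4134251585) (nat_lit 169) (nat_lit 5) (nat_lit 184) (nat_lit 5) (nat_lit 185) (nat_lit 5) (nat_lit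 276) (nat_lit 270) (nat_lit 174)) (XT.nd (nat_lit 78) (nat_lit 0) (nat_lit 76) (XT.lf (nat_lit 76) (nat_lit 2067909327) (nat_lit 0) (nat_lit 2701986180) (nat_lit 1216) (nat_lit 16508978582) (nat_lit 170) (nat_lit 5) (nat_lit 169) (nat_lit 5) (nat_lit 185) (nat_lit 5) (nat_lit 277) (nat_lit 270) (nat_lit 173)) (XT.lf (nat_lit 0) (nat_lit 6768936674) (nat_lit 1140) (nat_lit 3273326330) (nat_lit 1216) (nat_lit 11802348698) (nat_lit 170) (nat_lit 5) (nat_lit 185) (nat_lit 5) (nat_lit 186) (nat_lit 5) (nat_lit 278) (nat_lit 270) (nat_lit 172)))) (XT.nd (nat_lit 78) (nat_lit 1064) (nat_lit 0) (XT.lf (nat_lit 0) (nat_lit 9056996225) (nat_lit 1140) (nat_lit 8789602754) (nat_lit 1216) (nat_lit 4586390336) (nat_lit 171) (nat_lit 5) (nat_lit 186) (nat_lit 5) (nat_lit 187) (nat_lit 5) (nat_lit 279) (nat_lit 270) (nat_lit 171)) (XT.nd (nat_lit 78) (nat_lit 1064) (nat_lit 0) (XT.lf (nat_lit 76) (nat_lit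 8476771829) (nat_lit 0) (nat_lit 3185422736) (nat_lit 1216) (nat_lit 11382533082) (nat_lit 172) (nat_lit 5) (nat_lit 171) (nat_lit 5) (nat_lit 187) (nat_lit 5) (nat_lit 280) (nat_lit 270) (nat_lit 170)) (XT.lf (nat_lit 0) (nat_lit 3035141762) (nat_lit 1140) (nat_lit 11586874276) (nat_lit 1216) (nat_lit 9058328737) (nat_lit 157) (nat_lit 5) (nat_lit 172) (nat_lit 5) (nat_lit 173) (nat_lit 5) (nat_lit 281) (nat_lit 270) (nat_lit 169))))))))
noncomputable def xc101 : XT := (XT.nd (nat_lit 1716) (nat_lit 3116) (nat_lit 0) (XT.nd (nat_lit 858) (nat_lit 2812) (nat_lit 0) (XT.nd (nat_lit 390) (nat_lit 2356) (nat_lit 0) (XT.nd (nat_lit 156) (nat_lit 1216) (nat_lit 0) (XT.nd (nat_lit 78) (nat_lit 532) (nat_lit 0) (XT.lf (nat_lit 0) (nat_lit 17935915355) (nat_lit 1216) (nat_lit 2601268672) (nat_lit 76) (nat_lit 3804397820) (nat_lit 157) (nat_lit 5) (nat_lit 173) (nat_lit 5) (nat_lit 158) (nat_lit 5)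 (nat_lit 282) (nat_lit 270) (nat_lit 168)) (XT.lf (nat_lit 0) (nat_lit 16539487867) (nat_lit 532) (nat_lit 5139582303) (nat_lit 608) (nat_lit 3348924446) (nat_lit 150) (nat_lit 5) (nat_lit 157) (nat_lit 5) (nat_lit 158) (nat_lit 5) (nat_lit 283) (nat_lit 270) (nat_lit 167))) (XT.nd (nat_lit 78) (nat_lit 532) (nat_lit 0) (XT.lf (nat_lit 0) (nat_lit 92912996) (nat_lit 684) (nat_lit 14701168834) (nat_lit 76) (nat_lit 10947819302) (nat_lit 141) (nat_lit 5) (nat_lit 150) (nat_lit 5) (nat_lit 142) (nat_lit 5) (nat_lit 284) (nat_lit 270) (nat_lit 166)) (XT.nd (nat_lit 78) (nat_lit 0) (nat_lit 0) (XT.lf (nat_lit 0) (nat_lit 3830832512) (nat_lit 608) (nat_lit 21259337926) (nat_lit 76) (nat_lit 1394558464) (nat_lit 134) (nat_lit 5) (nat_lit 142) (nat_lit 5) (nat_lit 135) (nat_lit 5) (nat_lit 285) (nat_lit 270) (nat_lit 165)) (XT.lf (nat_lit 0) (nat_lit 8046698775) (nat_lit 608) (nat_lit 966682305)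 (nat_lit 76) (nat_lit 18242602783) (nat_lit 134) (nat_lit 5) (nat_lit 142) (nat_lit 5) (nat_lit 135) (nat_lit 5) (nat_lit 286) (nat_lit 270) (nat_lit 164))))) (XT.nd (nat_lit 234) (nat_lit 912) (nat_lit 0) (XT.nd (nat_lit 78) (nat_lit 912) (nat_lit 0) (XT.lf (nat_lit 0) (nat_lit 12739694193) (nat_lit 608) (nat_lit 7403203960) (nat_lit 76) (nat_lit 7914929844) (nat_lit 127) (nat_lit 5) (nat_lit 135) (nat_lit 5) (nat_lit 128) (nat_lit 5) (nat_lit 287) (nat_lit 270) (nat_lit 163)) (XT.nd (nat_lit 78) (nat_lit 456) (nat_lit 0) (XT.lf (nat_lit 0) (nat_lit 14662092242) (nat_lit 456) (nat_lit 3237039575) (nat_lit 532) (nat_lit 10993694463) (nat_lit 121) (nat_lit 5) (nat_lit 127) (nat_lit 5) (nat_lit 128) (nat_lit 5) (nat_lit 288) (nat_lit 270) (nat_lit 162)) (XT.lf (nat_lit 0) (nat_lit 8227675858) (nat_lit 456) (nat_lit 15374644096) (nat_lit 532) (nat_lit 6158696130) (nat_lit 115) (nat_lit 5) (nat_lit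 121) (nat_lit 5) (nat_lit 122) (nat_lit 5) (nat_lit 289) (nat_lit 270) (nat_lit 161)))) (XT.nd (nat_lit 78) (nat_lit 532) (nat_lit 0) (XT.lf (nat_lit 0) (nat_lit 1400341806) (nat_lit 380) (nat_lit 28395338854) (nat_lit 456) (nat_lit 870798576) (nat_lit 110) (nat_lit 5) (nat_lit 115) (nat_lit 5) (nat_lit 116) (nat_lit 5) (nat_lit 290) (nat_lit 270) (nat_lit 160)) (XT.nd (nat_lit 78) (nat_lit 456) (nat_lit 0) (XT.lf (nat_lit 0) (nat_lit 4959993388) (nat_lit 456) (nat_lit 5892795865) (nat_lit 76) (nat_lit 20751993860) (nat_lit 109) (nat_lit 5) (nat_lit 115) (nat_lit 5) (nat_lit 110) (nat_lit 5) (nat_lit 291) (nat_lit 270) (nat_lit 159)) (XT.lf (nat_lit 0) (nat_lit 11313002733) (nat_lit 532) (nat_lit 13657993429) (nat_lit 76) (nat_lit 7611299306) (nat_lit 103) (nat_lit 5) (nat_lit 110) (nat_lit 5) (nat_lit 104) (nat_lit 5) (nat_lit 292) (nat_lit 270) (nat_lit 158)))))) (XT.nd (nat_lit 390) (nat_lit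 1292) (nat_lit 0) (XT.nd (nat_lit 156) (nat_lit 760) (nat_lit 0) (XT.nd (nat_lit 78) (nat_lit 380) (nat_lit 0) (XT.lf (nat_lit 0) (nat_lit 11604837459) (nat_lit 380) (nat_lit 6652738112) (nat_lit 456) (nat_lit 15342902430) (nat_lit 98) (nat_lit 5) (nat_lit 103) (nat_lit 5) (nat_lit 104) (nat_lit 5) (nat_lit 293) (nat_lit 270) (nat_lit 157)) (XT.lf (nat_lit 0) (nat_lit 3690593469) (nat_lit 380) (nat_lit 22149041217) (nat_lit 456) (nat_lit 8821238632) (nat_lit 93) (nat_lit 5) (nat_lit 98) (nat_lit 5) (nat_lit 99) (nat_lit 5) (nat_lit 294) (nat_lit 270) (nat_lit 156))) (XT.nd (nat_lit 78) (nat_lit 760) (nat_lit 0) (XT.lf (nat_lit 0) (nat_lit 31042623977) (nat_lit 380) (nat_lit 3043234799) (nat_lit 456) (nat_lit 1679888607) (nat_lit 93) (nat_lit 5) (nat_lit 98) (nat_lit 5) (nat_lit 99) (nat_lit 5) (nat_lit 295) (nat_lit 270) (nat_lit 155)) (XT.nd (nat_lit 78) (nat_lit 380) (nat_lit 0) (XT.lf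 (nat_lit 0) (nat_lit 6087003903) (nat_lit 380) (nat_lit 13859785894) (nat_lit 76) (nat_lit 16965946979) (nat_lit 88) (nat_lit 5) (nat_lit 93) (nat_lit 5) (nat_lit 89) (nat_lit 5) (nat_lit 296) (nat_lit 270) (nat_lit 154)) (XT.lf (nat_lit 0) (nat_lit 14419049278) (nat_lit 456) (nat_lit 23685375197) (nat_lit 76) (nat_lit 5815207) (nat_lit 83) (nat_lit 5) (nat_lit 89) (nat_lit 5) (nat_lit 84) (nat_lit 5) (nat_lit 297) (nat_lit 270) (nat_lit 153))))) (XT.nd (nat_lit 234) (nat_lit 608) (nat_lit 0) (XT.nd (nat_lit 78) (nat_lit 380) (nat_lit 0) (XT.lf (nat_lit 0) (nat_lit 4934333454) (nat_lit 304) (nat_lit 18619143589) (nat_lit 380) (nat_lit 15802576380) (nat_lit 79) (nat_lit 5) (nat_lit 83) (nat_lit 5) (nat_lit 84) (nat_lit 5) (nat_lit 298) (nat_lit 270) (nat_lit 152)) (XT.nd (nat_lit 78) (nat_lit 380) (nat_lit 0) (XT.lf (nat_lit 0) (nat_lit 33401714239) (nat_lit 380) (nat_lit 5206144660) (nat_lit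 76) (nat_lit 2048594971) (nat_lit 79) (nat_lit 5) (nat_lit 84) (nat_lit 5) (nat_lit 80) (nat_lit 5) (nat_lit 299) (nat_lit 270) (nat_lit 151)) (XT.lf (nat_lit 0) (nat_lit 2120353184) (nat_lit 380) (nat_lit 16253261028) (nat_lit 76) (nat_lit 23634768870) (nat_lit 74) (nat_lit 5) (nat_lit 79) (nat_lit 5) (nat_lit 75) (nat_lit 5) (nat_lit 300) (nat_lit 270) (nat_lit 150)))) (XT.nd (nat_lit 78) (nat_lit 304) (nat_lit 0) (XT.lf (nat_lit 0) (nat_lit 12039350169) (nat_lit 380) (nat_lit 28289808408) (nat_lit 76) (nat_lit 3089847270) (nat_lit 70) (nat_lit 5) (nat_lit 75) (nat_lit 5) (nat_lit 71) (nat_lit 5) (nat_lit 301) (nat_lit 270) (nat_lit 149)) (XT.nd (nat_lit 78) (nat_lit 0) (nat_lit 0) (XT.lf (nat_lit 0) (nat_lit 3395896805) (nat_lit 304) (nat_lit 19439309917) (nat_lit 380) (nat_lit 22053533001) (nat_lit 66) (nat_lit 5) (nat_lit 70) (nat_lit 5) (nat_lit 71) (nat_lit 5) (nat_lit 302) (nat_lit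 270) (nat_lit 148)) (XT.lf (nat_lit 0) (nat_lit 34482979694) (nat_lit 380) (nat_lit 9201494453) (nat_lit 76) (nat_lit 2738129355) (nat_lit 66) (nat_lit 5) (nat_lit 71) (nat_lit 5) (nat_lit 67) (nat_lit 5) (nat_lit 303) (nat_lit 270) (nat_lit 147))))))) (XT.nd (nat_lit 858) (nat_lit 1064) (nat_lit 0) (XT.nd (nat_lit 390) (nat_lit 988) (nat_lit 0) (XT.nd (nat_lit 156) (nat_lit 456) (nat_lit 0) (XT.nd (nat_lit 78) (nat_lit 380) (nat_lit 0) (XT.lf (nat_lit 0) (nat_lit 24987755286) (nat_lit 228) (nat_lit 22156111051) (nat_lit 304) (nat_lit 876378969) (nat_lit 63) (nat_lit 5) (nat_lit 66) (nat_lit 5) (nat_lit 67) (nat_lit 5) (nat_lit 304) (nat_lit 270) (nat_lit 146)) (XT.lf (nat_lit 0) (nat_lit 10738427099) (nat_lit 380) (nat_lit 38199984080) (nat_lit 76) (nat_lit 750027654) (nat_lit 58) (nat_lit 5) (nat_lit 63) (nat_lit 5) (nat_lit 59) (nat_lit 5) (nat_lit 305) (nat_lit 270) (nat_lit 145))) (XT.nd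 (nat_lit 78) (nat_lit 456) (nat_lit 0) (XT.lf (nat_lit 0) (nat_lit 23373714261) (nat_lit 380) (nat_lit 3458853822) (nat_lit 76) (nat_lit 24593483475) (nat_lit 58) (nat_lit 5) (nat_lit 63) (nat_lit 5) (nat_lit 59) (nat_lit 5) (nat_lit 306) (nat_lit 270) (nat_lit 144)) (XT.nd (nat_lit 78) (nat_lit 228) (nat_lit 0) (XT.lf (nat_lit 0) (nat_lit 33668844997) (nat_lit 228) (nat_lit 3290445831) (nat_lit 304) (nat_lit 16281703864) (nat_lit 55) (nat_lit 5) (nat_lit 58) (nat_lit 5) (nat_lit 59) (nat_lit 5) (nat_lit 307) (nat_lit 270) (nat_lit 143)) (XT.lf (nat_lit 0) (nat_lit 17711462117) (nat_lit 228) (nat_lit 33919913519) (nat_lit 304) (nat_lit 3503097726) (nat_lit 52) (nat_lit 5) (nat_lit 55) (nat_lit 5) (nat_lit 56) (nat_lit 5) (nat_lit 308) (nat_lit 270) (nat_lit 142))))) (XT.nd (nat_lit 234) (nat_lit 456) (nat_lit 0) (XT.nd (nat_lit 78) (nat_lit 228) (nat_lit 0) (XT.lf (nat_lit 0) (nat_lit 14145305)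 (nat_lit 228) (nat_lit 9938793164) (nat_lit 304) (nat_lit 47159874270) (nat_lit 48) (nat_lit 5) (nat_lit 51) (nat_lit 5) (nat_lit 52) (nat_lit 5) (nat_lit 309) (nat_lit 270) (nat_lit 141)) (XT.nd (nat_lit 78) (nat_lit 228) (nat_lit 0) (XT.lf (nat_lit 0) (nat_lit 24540847221) (nat_lit 304) (nat_lit 19266210252) (nat_lit 76) (nat_lit 15366030115) (nat_lit 48) (nat_lit 5) (nat_lit 52) (nat_lit 5) (nat_lit 49) (nat_lit 5) (nat_lit 310) (nat_lit 270) (nat_lit 140)) (XT.lf (nat_lit 0) (nat_lit 20755709520) (nat_lit 228) (nat_lit 19397783681) (nat_lit 304) (nat_lit 21174027137) (nat_lit 45) (nat_lit 5) (nat_lit 48) (nat_lit 5) (nat_lit 49) (nat_lit 5) (nat_lit 311) (nat_lit 270) (nat_lit 139)))) (XT.nd (nat_lit 78) (nat_lit 456) (nat_lit 0) (XT.lf (nat_lit 0) (nat_lit 56802607001) (nat_lit 304) (nat_lit 471040989) (nat_lit 76) (nat_lit 6308355874) (nat_lit 45) (nat_lit 5) (nat_lit 49) (nat_lit 5)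 (nat_lit 46) (nat_lit 5) (nat_lit 312) (nat_lit 270) (nat_lit 138)) (XT.nd (nat_lit 78) (nat_lit 228) (nat_lit 0) (XT.lf (nat_lit 0) (nat_lit 8776068301) (nat_lit 228) (nat_lit 23760207880) (nat_lit 76) (nat_lit 33392423192) (nat_lit 42) (nat_lit 5) (nat_lit 45) (nat_lit 5) (nat_lit 43) (nat_lit 5) (nat_lit 313) (nat_lit 270) (nat_lit 137)) (XT.lf (nat_lit 0) (nat_lit 18850266141) (nat_lit 228) (nat_lit 6302172496) (nat_lit 304) (nat_lit 43232780832) (nat_lit 39) (nat_lit 5) (nat_lit 42) (nat_lit 5) (nat_lit 43) (nat_lit 5) (nat_lit 314) (nat_lit 270) (nat_lit 136)))))) (XT.nd (nat_lit 390) (nat_lit 532) (nat_lit 0) (XT.nd (nat_lit 156) (nat_lit 380) (nat_lit 0) (XT.nd (nat_lit 78) (nat_lit 152) (nat_lit 0) (XT.lf (nat_lit 0) (nat_lit 42794898413) (nat_lit 304) (nat_lit 7082347687) (nat_lit 76) (nat_lit 21073904866) (nat_lit 39) (nat_lit 5) (nat_lit 43) (nat_lit 5) (nat_lit 40) (nat_lit 5)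 (nat_lit 315) (nat_lit 270) (nat_lit 135)) (XT.lf (nat_lit 0) (nat_lit 38168101116) (nat_lit 152) (nat_lit 23578124584) (nat_lit 228) (nat_lit 11886354360) (nat_lit 37) (nat_lit 5) (nat_lit 39) (nat_lit 5) (nat_lit 40) (nat_lit 5) (nat_lit 316) (nat_lit 270) (nat_lit 134))) (XT.nd (nat_lit 78) (nat_lit 152) (nat_lit 0) (XT.lf (nat_lit 0) (nat_lit 5297919569) (nat_lit 228) (nat_lit 66970408740) (nat_lit 76) (nat_lit 4172187878) (nat_lit 34) (nat_lit 5) (nat_lit 37) (nat_lit 5) (nat_lit 35) (nat_lit 5) (nat_lit 317) (nat_lit 270) (nat_lit 133)) (XT.nd (nat_lit 78) (nat_lit 152) (nat_lit 0) (XT.lf (nat_lit 0) (nat_lit 23700957748) (nat_lit 228) (nat_lit 22352736827) (nat_lit 76) (nat_lit 33313465543) (nat_lit 34) (nat_lit 5) (nat_lit 37) (nat_lit 5) (nat_lit 35) (nat_lit 5) (nat_lit 318) (nat_lit 270) (nat_lit 132)) (XT.lf (nat_lit 0) (nat_lit 24977699519) (nat_lit 152) (nat_lit 18283143116)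 (nat_lit 228) (nat_lit 39172195581) (nat_lit 32) (nat_lit 5) (nat_lit 34) (nat_lit 5) (nat_lit 35) (nat_lit 5) (nat_lit 319) (nat_lit 270) (nat_lit 131))))) (XT.nd (nat_lit 234) (nat_lit 304) (nat_lit 0) (XT.nd (nat_lit 78) (nat_lit 228) (nat_lit 0) (XT.lf (nat_lit 0) (nat_lit 64132332445) (nat_lit 228) (nat_lit 10615814760) (nat_lit 76) (nat_lit 10894057377) (nat_lit 32) (nat_lit 5) (nat_lit 35) (nat_lit 5) (nat_lit 33) (nat_lit 5) (nat_lit 320) (nat_lit 270) (nat_lit 130)) (XT.nd (nat_lit 78) (nat_lit 76) (nat_lit 0) (XT.lf (nat_lit 0) (nat_lit 39139718107) (nat_lit 152) (nat_lit 47465292213) (nat_lit 228) (nat_lit 2390093092) (nat_lit 30) (nat_lit 5) (nat_lit 32) (nat_lit 5) (nat_lit 33) (nat_lit 5) (nat_lit 321) (nat_lit 270) (nat_lit 129)) (XT.lf (nat_lit 0) (nat_lit 17447837864) (nat_lit 228) (nat_lit 1083692418) (nat_lit 76) (nat_lit 73975800872) (nat_lit 29) (nat_lit 5) (nat_lit 32)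 (nat_lit 5) (nat_lit 30) (nat_lit 5) (nat_lit 322) (nat_lit 270) (nat_lit 128)))) (XT.nd (nat_lit 78) (nat_lit 152) (nat_lit 0) (XT.lf (nat_lit 0) (nat_lit 38835888208) (nat_lit 228) (nat_lit 45204143073) (nat_lit 76) (nat_lit 12136201713) (nat_lit 27) (nat_lit 5) (nat_lit 30) (nat_lit 5) (nat_lit 28) (nat_lit 5) (nat_lit 323) (nat_lit 270) (nat_lit 127)) (XT.nd (nat_lit 78) (nat_lit 0) (nat_lit 0) (XT.lf (nat_lit 0) (nat_lit 5541247866) (nat_lit 152) (nat_lit 56000803872) (nat_lit 228) (nat_lit 38479069011) (nat_lit 25) (nat_lit 5) (nat_lit 27) (nat_lit 5) (nat_lit 28) (nat_lit 5) (nat_lit 324) (nat_lit 270) (nat_lit 126)) (XT.lf (nat_lit 0) (nat_lit 59763889035) (nat_lit 152) (nat_lit 26082198324) (nat_lit 228) (nat_lit 18198290654) (nat_lit 25) (nat_lit 5) (nat_lit 27) (nat_lit 5) (nat_lit 28) (nat_lit 5) (nat_lit 325) (nat_lit 270) (nat_lit 125))))))))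
noncomputable def xc102 : XT := (XT.nd (nat_lit 34866) (nat_lit 0) (nat_lit 1672) (XT.nd (nat_lit 34008) (nat_lit 0) (nat_lit 6612) (XT.nd (nat_lit 33540) (nat_lit 0) (nat_lit 10944) (XT.nd (nat_lit 33306) (nat_lit 0) (nat_lit 10944) (XT.nd (nat_lit 33228) (nat_lit 0) (nat_lit 11932) (XT.lf (nat_lit 0) (nat_lit 3168083268) (nat_lit 152) (nat_lit 99756186633) (nat_lit 76) (nat_lit 5339677722) (nat_lit 23) (nat_lit 5) (nat_lit 25) (nat_lit 5) (nat_lit 24) (nat_lit 5) (nat_lit 326) (nat_lit 270) (nat_lit 124)) (XT.lf (nat_lit 0) (nat_lit 8548191955) (nat_lit 1140) (nat_lit 410643184) (nat_lit 1140) (nat_lit 410643184) (nat_lit 180) (nat_lit 3) (nat_lit 195) (nat_lit 3) (nat_lit 195) (nat_lit 5) (nat_lit 271) (nat_lit 271) (nat_lit 178))) (XT.nd (nat_lit 78) (nat_lit 988) (nat_lit 0) (XT.lf (nat_lit 76) (nat_lit 13043826660) (nat_lit 0) (nat_lit 4890960908) (nat_lit 1140) (nat_lit 1259797516)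 (nat_lit 181) (nat_lit 5) (nat_lit 180) (nat_lit 3) (nat_lit 195) (nat_lit 5) (nat_lit 272) (nat_lit 271) (nat_lit 177)) (XT.nd (nat_lit 78) (nat_lit 1064) (nat_lit 0) (XT.lf (nat_lit 76) (nat_lit 8008043593) (nat_lit 0) (nat_lit 10958760140) (nat_lit 1140) (nat_lit 701673450) (nat_lit 182) (nat_lit 5) (nat_lit 181) (nat_lit 5) (nat_lit 196) (nat_lit 5) (nat_lit 273) (nat_lit 271) (nat_lit 176)) (XT.lf (nat_lit 0) (nat_lit 36619337) (nat_lit 1140) (nat_lit 17354383320) (nat_lit 1216) (nat_lit 2770624923) (nat_lit 167) (nat_lit 5) (nat_lit 182) (nat_lit 5) (nat_lit 183) (nat_lit 5) (nat_lit 274) (nat_lit 271) (nat_lit 175))))) (XT.nd (nat_lit 234) (nat_lit 0) (nat_lit 152) (XT.nd (nat_lit 78) (nat_lit 0) (nat_lit 76) (XT.lf (nat_lit 0) (nat_lit 1012374775) (nat_lit 1140) (nat_lit 2563423266) (nat_lit 1216) (nat_lit 17097006315) (nat_lit 167) (nat_lit 5) (nat_lit 182) (nat_lit 5) (nat_lit 183)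 (nat_lit 5) (nat_lit 275) (nat_lit 271) (nat_lit 174)) (XT.nd (nat_lit 78) (nat_lit 0) (nat_lit 76) (XT.lf (nat_lit 0) (nat_lit 2254226786) (nat_lit 1140) (nat_lit 8097844063) (nat_lit 1216) (nat_lit 10850977540) (nat_lit 168) (nat_lit 5) (nat_lit 183) (nat_lit 5) (nat_lit 184) (nat_lit 5) (nat_lit 276) (nat_lit 271) (nat_lit 173)) (XT.lf (nat_lit 0) (nat_lit 3723181285) (nat_lit 1140) (nat_lit 13836864752) (nat_lit 1216) (nat_lit 4194834656) (nat_lit 169) (nat_lit 5) (nat_lit 184) (nat_lit 5) (nat_lit 185) (nat_lit 5) (nat_lit 277) (nat_lit 271) (nat_lit 172)))) (XT.nd (nat_lit 78) (nat_lit 0) (nat_lit 76) (XT.lf (nat_lit 76) (nat_lit 2505018293) (nat_lit 0) (nat_lit 2958618908) (nat_lit 1216) (nat_lit 16864750910) (nat_lit 170) (nat_lit 5) (nat_lit 169) (nat_lit 5) (nat_lit 185) (nat_lit 5) (nat_lit 278) (nat_lit 271) (nat_lit 171)) (XT.nd (nat_lit 78) (nat_lit 0) (nat_lit 76) (XT.lf (nat_lit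 0) (nat_lit 7539839379) (nat_lit 1140) (nat_lit 3104315088) (nat_lit 1216) (nat_lit 12278978643) (nat_lit 170) (nat_lit 5) (nat_lit 185) (nat_lit 5) (nat_lit 186) (nat_lit 5) (nat_lit 279) (nat_lit 271) (nat_lit 170)) (XT.lf (nat_lit 0) (nat_lit 9923932301) (nat_lit 1140) (nat_lit 8891909221) (nat_lit 1216) (nat_lit 4725674194) (nat_lit 171) (nat_lit 5) (nat_lit 186) (nat_lit 5) (nat_lit 187) (nat_lit 5) (nat_lit 280) (nat_lit 271) (nat_lit 169)))))) (XT.nd (nat_lit 390) (nat_lit 2356) (nat_lit 0) (XT.nd (nat_lit 156) (nat_lit 1216) (nat_lit 0) (XT.nd (nat_lit 78) (nat_lit 1064) (nat_lit 0) (XT.lf (nat_lit 76) (nat_lit 9228119076) (nat_lit 0) (nat_lit 3414701302) (nat_lit 1216) (nat_lit 11541551049) (nat_lit 172) (nat_lit 5) (nat_lit 171) (nat_lit 5) (nat_lit 187) (nat_lit 5) (nat_lit 281) (nat_lit 271) (nat_lit 168)) (XT.lf (nat_lit 0) (nat_lit 3517904839) (nat_lit 1140) (nat_lit 12216339673)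 (nat_lit 1216) (nat_lit 9118048320) (nat_lit 157) (nat_lit 5) (nat_lit 172) (nat_lit 5) (nat_lit 173) (nat_lit 5) (nat_lit 282) (nat_lit 271) (nat_lit 167))) (XT.nd (nat_lit 78) (nat_lit 1216) (nat_lit 0) (XT.lf (nat_lit 0) (nat_lit 19195231000) (nat_lit 1216) (nat_lit 2404134990) (nat_lit 76) (nat_lit 3947814255) (nat_lit 157) (nat_lit 5) (nat_lit 173) (nat_lit 5) (nat_lit 158) (nat_lit 5) (nat_lit 283) (nat_lit 271) (nat_lit 166)) (XT.nd (nat_lit 78) (nat_lit 684) (nat_lit 0) (XT.lf (nat_lit 0) (nat_lit 17684280336) (nat_lit 532) (nat_lit 5427055429) (nat_lit 608) (nat_lit 3157032935) (nat_lit 150) (nat_lit 5) (nat_lit 157) (nat_lit 5) (nat_lit 158) (nat_lit 5) (nat_lit 284) (nat_lit 271) (nat_lit 165)) (XT.lf (nat_lit 0) (nat_lit 435928656) (nat_lit 684) (nat_lit 15109257985) (nat_lit 76) (nat_lit 11473125590) (nat_lit 141) (nat_lit 5) (nat_lit 150) (nat_lit 5) (nat_lit 142) (nat_lit 5)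 (nat_lit 285) (nat_lit 271) (nat_lit 164))))) (XT.nd (nat_lit 234) (nat_lit 1292) (nat_lit 0) (XT.nd (nat_lit 78) (nat_lit 532) (nat_lit 0) (XT.lf (nat_lit 0) (nat_lit 4347610080) (nat_lit 608) (nat_lit 21994367111) (nat_lit 76) (nat_lit 1456723595) (nat_lit 134) (nat_lit 5) (nat_lit 142) (nat_lit 5) (nat_lit 135) (nat_lit 5) (nat_lit 286) (nat_lit 271) (nat_lit 163)) (XT.nd (nat_lit 78) (nat_lit 532) (nat_lit 0) (XT.lf (nat_lit 0) (nat_lit 8758782231) (nat_lit 608) (nat_lit 702694791) (nat_lit 76) (nat_lit 19147530263) (nat_lit 134) (nat_lit 5) (nat_lit 142) (nat_lit 5) (nat_lit 135) (nat_lit 5) (nat_lit 287) (nat_lit 271) (nat_lit 162)) (XT.lf (nat_lit 0) (nat_lit 13674646088) (nat_lit 608) (nat_lit 7460649851) (nat_lit 76) (nat_lit 8316024141) (nat_lit 127) (nat_lit 5) (nat_lit 135) (nat_lit 5) (nat_lit 128) (nat_lit 5) (nat_lit 288) (nat_lit 271) (nat_lit 161)))) (XT.nd (nat_lit 78) (nat_lit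 836) (nat_lit 0) (XT.lf (nat_lit 0) (nat_lit 15698947268) (nat_lit 456) (nat_lit 3381839246) (nat_lit 532) (nat_lit 11247641754) (nat_lit 121) (nat_lit 5) (nat_lit 127) (nat_lit 5) (nat_lit 128) (nat_lit 5) (nat_lit 289) (nat_lit 271) (nat_lit 160)) (XT.nd (nat_lit 78) (nat_lit 380) (nat_lit 0) (XT.lf (nat_lit 0) (nat_lit 8942724116) (nat_lit 456) (nat_lit 16115832771) (nat_lit 532) (nat_lit 6181808866) (nat_lit 115) (nat_lit 5) (nat_lit 121) (nat_lit 5) (nat_lit 122) (nat_lit 5) (nat_lit 290) (nat_lit 271) (nat_lit 159)) (XT.lf (nat_lit 0) (nat_lit 1773513423) (nat_lit 380) (nat_lit 29778089854) (nat_lit 456) (nat_lit 639818137) (nat_lit 110) (nat_lit 5) (nat_lit 115) (nat_lit 5) (nat_lit 116) (nat_lit 5) (nat_lit 291) (nat_lit 271) (nat_lit 158))))))) (XT.nd (nat_lit 858) (nat_lit 1900) (nat_lit 0) (XT.nd (nat_lit 390) (nat_lit 1748) (nat_lit 0) (XT.nd (nat_lit 156) (nat_lit 760) (nat_lit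 0) (XT.nd (nat_lit 78) (nat_lit 456) (nat_lit 0) (XT.lf (nat_lit 0) (nat_lit 5464339235) (nat_lit 456) (nat_lit 5893247608) (nat_lit 76) (nat_lit 21819377379) (nat_lit 109) (nat_lit 5) (nat_lit 115) (nat_lit 5) (nat_lit 110) (nat_lit 5) (nat_lit 292) (nat_lit 271) (nat_lit 157)) (XT.lf (nat_lit 0) (nat_lit 12125912573) (nat_lit 532) (nat_lit 14047754790) (nat_lit 76) (nat_lit 8029974932) (nat_lit 103) (nat_lit 5) (nat_lit 110) (nat_lit 5) (nat_lit 104) (nat_lit 5) (nat_lit 293) (nat_lit 271) (nat_lit 156))) (XT.nd (nat_lit 78) (nat_lit 380) (nat_lit 0) (XT.lf (nat_lit 0) (nat_lit 12469814891) (nat_lit 380) (nat_lit 6938861943) (nat_lit 456) (nat_lit 15864344913) (nat_lit 98) (nat_lit 5) (nat_lit 103) (nat_lit 5) (nat_lit 104) (nat_lit 5) (nat_lit 294) (nat_lit 271) (nat_lit 155)) (XT.nd (nat_lit 78) (nat_lit 0) (nat_lit 0) (XT.lf (nat_lit 0) (nat_lit 4158528255) (nat_lit 380) (nat_lit 23203116807)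 (nat_lit 456) (nat_lit 9025053464) (nat_lit 93) (nat_lit 5) (nat_lit 98) (nat_lit 5) (nat_lit 99) (nat_lit 5) (nat_lit 295) (nat_lit 271) (nat_lit 154)) (XT.lf (nat_lit 0) (nat_lit 32864664807) (nat_lit 380) (nat_lit 3144561804) (nat_lit 456) (nat_lit 1537933418) (nat_lit 93) (nat_lit 5) (nat_lit 98) (nat_lit 5) (nat_lit 99) (nat_lit 5) (nat_lit 296) (nat_lit 271) (nat_lit 153))))) (XT.nd (nat_lit 234) (nat_lit 684) (nat_lit 0) (XT.nd (nat_lit 78) (nat_lit 684) (nat_lit 0) (XT.lf (nat_lit 0) (nat_lit 6605420405) (nat_lit 380) (nat_lit 14279859429) (nat_lit 76) (nat_lit 17866392110) (nat_lit 88) (nat_lit 5) (nat_lit 93) (nat_lit 5) (nat_lit 89) (nat_lit 5) (nat_lit 297) (nat_lit 271) (nat_lit 152)) (XT.nd (nat_lit 78) (nat_lit 304) (nat_lit 0) (XT.lf (nat_lit 0) (nat_lit 15346986637) (nat_lit 456) (nat_lit 24598656271) (nat_lit 76) (nat_lit 63632848) (nat_lit 83) (nat_lit 5) (nat_lit 89) (nat_lit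 5) (nat_lit 84) (nat_lit 5) (nat_lit 298) (nat_lit 271) (nat_lit 151)) (XT.lf (nat_lit 0) (nat_lit 5444270005) (nat_lit 304) (nat_lit 19486539593) (nat_lit 380) (nat_lit 16386803056) (nat_lit 79) (nat_lit 5) (nat_lit 83) (nat_lit 5) (nat_lit 84) (nat_lit 5) (nat_lit 299) (nat_lit 271) (nat_lit 150)))) (XT.nd (nat_lit 78) (nat_lit 684) (nat_lit 0) (XT.lf (nat_lit 0) (nat_lit 35262532990) (nat_lit 380) (nat_lit 5210402056) (nat_lit 76) (nat_lit 2210377928) (nat_lit 79) (nat_lit 5) (nat_lit 84) (nat_lit 5) (nat_lit 80) (nat_lit 5) (nat_lit 300) (nat_lit 271) (nat_lit 149)) (XT.nd (nat_lit 78) (nat_lit 304) (nat_lit 0) (XT.lf (nat_lit 0) (nat_lit 2412459906) (nat_lit 380) (nat_lit 16813286930) (nat_lit 76) (nat_lit 24877249336) (nat_lit 74) (nat_lit 5) (nat_lit 79) (nat_lit 5) (nat_lit 75) (nat_lit 5) (nat_lit 301) (nat_lit 271) (nat_lit 148)) (XT.lf (nat_lit 0) (nat_lit 12821536841) (nat_lit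 380) (nat_lit 29453935714) (nat_lit 76) (nat_lit 3308864255) (nat_lit 70) (nat_lit 5) (nat_lit 75) (nat_lit 5) (nat_lit 71) (nat_lit 5) (nat_lit 302) (nat_lit 271) (nat_lit 147)))))) (XT.nd (nat_lit 390) (nat_lit 988) (nat_lit 0) (XT.nd (nat_lit 156) (nat_lit 608) (nat_lit 0) (XT.nd (nat_lit 78) (nat_lit 0) (nat_lit 0) (XT.lf (nat_lit 0) (nat_lit 3808878151) (nat_lit 304) (nat_lit 20342063863) (nat_lit 380) (nat_lit 22976812822) (nat_lit 66) (nat_lit 5) (nat_lit 70) (nat_lit 5) (nat_lit 71) (nat_lit 5) (nat_lit 303) (nat_lit 271) (nat_lit 146)) (XT.lf (nat_lit 0) (nat_lit 36373452736) (nat_lit 380) (nat_lit 9425432913) (nat_lit 76) (nat_lit 2939665330) (nat_lit 66) (nat_lit 5) (nat_lit 71) (nat_lit 5) (nat_lit 67) (nat_lit 5) (nat_lit 304) (nat_lit 271) (nat_lit 145))) (XT.nd (nat_lit 78) (nat_lit 380) (nat_lit 0) (XT.lf (nat_lit 0) (nat_lit 26466510514) (nat_lit 228) (nat_lit 23195157825)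 (nat_lit 304) (nat_lit 754587186) (nat_lit 63) (nat_lit 5) (nat_lit 66) (nat_lit 5) (nat_lit 67) (nat_lit 5) (nat_lit 305) (nat_lit 271) (nat_lit 144)) (XT.nd (nat_lit 78) (nat_lit 0) (nat_lit 0) (XT.lf (nat_lit 0) (nat_lit 11432834655) (nat_lit 380) (nat_lit 39879669714) (nat_lit 76) (nat_lit 855461884) (nat_lit 58) (nat_lit 5) (nat_lit 63) (nat_lit 5) (nat_lit 59) (nat_lit 5) (nat_lit 306) (nat_lit 271) (nat_lit 143)) (XT.lf (nat_lit 0) (nat_lit 24692386832) (nat_lit 380) (nat_lit 3412450256) (nat_lit 76) (nat_lit 25887855598) (nat_lit 58) (nat_lit 5) (nat_lit 63) (nat_lit 5) (nat_lit 59) (nat_lit 5) (nat_lit 307) (nat_lit 271) (nat_lit 142))))) (XT.nd (nat_lit 234) (nat_lit 228) (nat_lit 0) (XT.nd (nat_lit 78) (nat_lit 532) (nat_lit 0) (XT.lf (nat_lit 0) (nat_lit 35565345988) (nat_lit 228) (nat_lit 3386802059) (nat_lit 304) (nat_lit 16946395462) (nat_lit 55) (nat_lit 5) (nat_lit 58) (nat_lit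 5) (nat_lit 59) (nat_lit 5) (nat_lit 308) (nat_lit 271) (nat_lit 141)) (XT.nd (nat_lit 78) (nat_lit 304) (nat_lit 0) (XT.lf (nat_lit 0) (nat_lit 18807722106) (nat_lit 228) (nat_lit 35545864641) (nat_lit 304) (nat_lit 3533244217) (nat_lit 52) (nat_lit 5) (nat_lit 55) (nat_lit 5) (nat_lit 56) (nat_lit 5) (nat_lit 309) (nat_lit 271) (nat_lit 140)) (XT.lf (nat_lit 0) (nat_lit 222387117) (nat_lit 228) (nat_lit 10365601567) (nat_lit 304) (nat_lit 49376206858) (nat_lit 48) (nat_lit 5) (nat_lit 51) (nat_lit 5) (nat_lit 52) (nat_lit 5) (nat_lit 310) (nat_lit 271) (nat_lit 139)))) (XT.nd (nat_lit 78) (nat_lit 228) (nat_lit 0) (XT.lf (nat_lit 0) (nat_lit 25899391902) (nat_lit 304) (nat_lit 20028455777) (nat_lit 76) (nat_lit 16199819947) (nat_lit 48) (nat_lit 5) (nat_lit 52) (nat_lit 5) (nat_lit 49) (nat_lit 5) (nat_lit 311) (nat_lit 271) (nat_lit 138)) (XT.nd (nat_lit 78) (nat_lit 0) (nat_lit 0) (XT.lf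 (nat_lit 0) (nat_lit 21988796495) (nat_lit 228) (nat_lit 20299489028) (nat_lit 304) (nat_lit 22101674186) (nat_lit 45) (nat_lit 5) (nat_lit 48) (nat_lit 5) (nat_lit 49) (nat_lit 5) (nat_lit 312) (nat_lit 271) (nat_lit 137)) (XT.lf (nat_lit 0) (nat_lit 59764426005) (nat_lit 304) (nat_lit 305466639) (nat_lit 76) (nat_lit 6687443501) (nat_lit 45) (nat_lit 5) (nat_lit 49) (nat_lit 5) (nat_lit 46) (nat_lit 5) (nat_lit 313) (nat_lit 271) (nat_lit 136))))))))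
noncomputable def xc103 : XT := (XT.nd (nat_lit 34944) (nat_lit 0) (nat_lit 3420) (XT.nd (nat_lit 858) (nat_lit 152) (nat_lit 0) (XT.nd (nat_lit 390) (nat_lit 532) (nat_lit 0) (XT.nd (nat_lit 156) (nat_lit 380) (nat_lit 0) (XT.nd (nat_lit 78) (nat_lit 228) (nat_lit 0) (XT.lf (nat_lit 0) (nat_lit 9333805998) (nat_lit 228) (nat_lit 24762037702) (nat_lit 76) (nat_lit 35125614196) (nat_lit 42) (nat_lit 5) (nat_lit 45) (nat_lit 5) (nat_lit 43) (nat_lit 5) (nat_lit 314) (nat_lit 271) (nat_lit 135)) (XT.lf (nat_lit 0) (nat_lit 19973623191) (nat_lit 228) (nat_lit 6551446503) (nat_lit 304) (nat_lit 45275857220) (nat_lit 39) (nat_lit 5) (nat_lit 42) (nat_lit 5) (nat_lit 43) (nat_lit 5) (nat_lit 315) (nat_lit 271) (nat_lit 134))) (XT.nd (nat_lit 78) (nat_lit 380) (nat_lit 0) (XT.lf (nat_lit 0) (nat_lit 45044778541) (nat_lit 304) (nat_lit 7261451329) (nat_lit 76) (nat_lit 22189076250) (nat_lit 39) (nat_lit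 5) (nat_lit 43) (nat_lit 5) (nat_lit 40) (nat_lit 5) (nat_lit 316) (nat_lit 271) (nat_lit 133)) (XT.nd (nat_lit 78) (nat_lit 228) (nat_lit 0) (XT.lf (nat_lit 0) (nat_lit 40246503179) (nat_lit 152) (nat_lit 24693558595) (nat_lit 228) (nat_lit 12370857891) (nat_lit 37) (nat_lit 5) (nat_lit 39) (nat_lit 5) (nat_lit 40) (nat_lit 5) (nat_lit 317) (nat_lit 271) (nat_lit 132)) (XT.lf (nat_lit 0) (nat_lit 5667574745) (nat_lit 228) (nat_lit 70149031125) (nat_lit 76) (nat_lit 4442706754) (nat_lit 34) (nat_lit 5) (nat_lit 37) (nat_lit 5) (nat_lit 35) (nat_lit 5) (nat_lit 318) (nat_lit 271) (nat_lit 131))))) (XT.nd (nat_lit 234) (nat_lit 380) (nat_lit 0) (XT.nd (nat_lit 78) (nat_lit 152) (nat_lit 0) (XT.lf (nat_lit 0) (nat_lit 24985776300) (nat_lit 228) (nat_lit 23308566000) (nat_lit 76) (nat_lit 35038100231) (nat_lit 34) (nat_lit 5) (nat_lit 37) (nat_lit 5) (nat_lit 35) (nat_lit 5) (nat_lit 319) (nat_lit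 271) (nat_lit 130)) (XT.nd (nat_lit 78) (nat_lit 0) (nat_lit 0) (XT.lf (nat_lit 0) (nat_lit 26383753979) (nat_lit 152) (nat_lit 19136661278) (nat_lit 228) (nat_lit 41031300410) (nat_lit 32) (nat_lit 5) (nat_lit 34) (nat_lit 5) (nat_lit 35) (nat_lit 5) (nat_lit 320) (nat_lit 271) (nat_lit 129)) (XT.lf (nat_lit 0) (nat_lit 67431438010) (nat_lit 228) (nat_lit 10994642597) (nat_lit 76) (nat_lit 11495384730) (nat_lit 32) (nat_lit 5) (nat_lit 35) (nat_lit 5) (nat_lit 33) (nat_lit 5) (nat_lit 321) (nat_lit 271) (nat_lit 128)))) (XT.nd (nat_lit 78) (nat_lit 228) (nat_lit 0) (XT.lf (nat_lit 0) (nat_lit 41244310927) (nat_lit 152) (nat_lit 49780453504) (nat_lit 228) (nat_lit 2417337800) (nat_lit 30) (nat_lit 5) (nat_lit 32) (nat_lit 5) (nat_lit 33) (nat_lit 5) (nat_lit 322) (nat_lit 271) (nat_lit 127)) (XT.nd (nat_lit 78) (nat_lit 152) (nat_lit 0) (XT.lf (nat_lit 0) (nat_lit 18406381779) (nat_lit 228)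 (nat_lit 995518556) (nat_lit 76) (nat_lit 77728146942) (nat_lit 29) (nat_lit 5) (nat_lit 32) (nat_lit 5) (nat_lit 30) (nat_lit 5) (nat_lit 323) (nat_lit 271) (nat_lit 126)) (XT.lf (nat_lit 0) (nat_lit 40861589097) (nat_lit 228) (nat_lit 47324036044) (nat_lit 76) (nat_lit 12796839571) (nat_lit 27) (nat_lit 5) (nat_lit 30) (nat_lit 5) (nat_lit 28) (nat_lit 5) (nat_lit 324) (nat_lit 271) (nat_lit 125)))))) (XT.nd (nat_lit 33618) (nat_lit 0) (nat_lit 10792) (XT.nd (nat_lit 33384) (nat_lit 0) (nat_lit 11780) (XT.nd (nat_lit 78) (nat_lit 0) (nat_lit 0) (XT.lf (nat_lit 0) (nat_lit 5954602364) (nat_lit 152) (nat_lit 58745773015) (nat_lit 228) (nat_lit 40319305025) (nat_lit 25) (nat_lit 5) (nat_lit 27) (nat_lit 5) (nat_lit 28) (nat_lit 5) (nat_lit 325) (nat_lit 271) (nat_lit 124)) (XT.lf (nat_lit 0) (nat_lit 62881885491) (nat_lit 152) (nat_lit 27333859620) (nat_lit 228) (nat_lit 19028474295) (nat_lit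 25) (nat_lit 5) (nat_lit 27) (nat_lit 5) (nat_lit 28) (nat_lit 5) (nat_lit 326) (nat_lit 271) (nat_lit 123))) (XT.nd (nat_lit 78) (nat_lit 0) (nat_lit 0) (XT.lf (nat_lit 0) (nat_lit 9256751217) (nat_lit 1140) (nat_lit 286129463) (nat_lit 1140) (nat_lit 286129463) (nat_lit 180) (nat_lit 3) (nat_lit 195) (nat_lit 3) (nat_lit 195) (nat_lit 5) (nat_lit 272) (nat_lit 272) (nat_lit 176)) (XT.nd (nat_lit 78) (nat_lit 0) (nat_lit 76) (XT.lf (nat_lit 76) (nat_lit 13977794330) (nat_lit 0) (nat_lit 5391964394) (nat_lit 1140) (nat_lit 767441794) (nat_lit 181) (nat_lit 5) (nat_lit 180) (nat_lit 3) (nat_lit 195) (nat_lit 5) (nat_lit 273) (nat_lit 272) (nat_lit 175)) (XT.lf (nat_lit 76) (nat_lit 8701162846) (nat_lit 0) (nat_lit 11727048726) (nat_lit 1140) (nat_lit 207376615) (nat_lit 182) (nat_lit 5) (nat_lit 181) (nat_lit 5) (nat_lit 196) (nat_lit 5) (nat_lit 274) (nat_lit 272) (nat_lit 174))))) (XT.nd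 (nat_lit 234) (nat_lit 0) (nat_lit 152) (XT.nd (nat_lit 78) (nat_lit 0) (nat_lit 0) (XT.lf (nat_lit 0) (nat_lit 533680727) (nat_lit 1140) (nat_lit 17909165920) (nat_lit 1216) (nat_lit 2711153965) (nat_lit 167) (nat_lit 5) (nat_lit 182) (nat_lit 5) (nat_lit 183) (nat_lit 5) (nat_lit 275) (nat_lit 272) (nat_lit 173)) (XT.nd (nat_lit 78) (nat_lit 0) (nat_lit 76) (XT.lf (nat_lit 0) (nat_lit 1534641536) (nat_lit 1140) (nat_lit 2393559605) (nat_lit 1216) (nat_lit 17763283103) (nat_lit 167) (nat_lit 5) (nat_lit 182) (nat_lit 5) (nat_lit 183) (nat_lit 5) (nat_lit 276) (nat_lit 272) (nat_lit 172)) (XT.lf (nat_lit 0) (nat_lit 2817347636) (nat_lit 1140) (nat_lit 8197351280) (nat_lit 1216) (nat_lit 11234217332) (nat_lit 168) (nat_lit 5) (nat_lit 183) (nat_lit 5) (nat_lit 184) (nat_lit 5) (nat_lit 277) (nat_lit 272) (nat_lit 171)))) (XT.nd (nat_lit 78) (nat_lit 0) (nat_lit 0) (XT.lf (nat_lit 0) (nat_lit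 4339853740) (nat_lit 1140) (nat_lit 14217087468) (nat_lit 1216) (nat_lit 4272032618) (nat_lit 169) (nat_lit 5) (nat_lit 184) (nat_lit 5) (nat_lit 185) (nat_lit 5) (nat_lit 278) (nat_lit 272) (nat_lit 170)) (XT.nd (nat_lit 78) (nat_lit 0) (nat_lit 76) (XT.lf (nat_lit 76) (nat_lit 2932957190) (nat_lit 0) (nat_lit 3216784247) (nat_lit 1216) (nat_lit 17281977933) (nat_lit 170) (nat_lit 5) (nat_lit 169) (nat_lit 5) (nat_lit 185) (nat_lit 5) (nat_lit 279) (nat_lit 272) (nat_lit 169)) (XT.lf (nat_lit 0) (nat_lit 8309081571) (nat_lit 1140) (nat_lit 2957782491) (nat_lit 1216) (nat_lit 12789991077) (nat_lit 170) (nat_lit 5) (nat_lit 185) (nat_lit 5) (nat_lit 186) (nat_lit 5) (nat_lit 280) (nat_lit 272) (nat_lit 168))))))) (XT.nd (nat_lit 858) (nat_lit 3420) (nat_lit 0) (XT.nd (nat_lit 390) (nat_lit 2660) (nat_lit 0) (XT.nd (nat_lit 156) (nat_lit 1596) (nat_lit 0) (XT.nd (nat_lit 78) (nat_lit 0) (nat_lit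 0) (XT.lf (nat_lit 0) (nat_lit 10795717365) (nat_lit 1140) (nat_lit 9030678223) (nat_lit 1216) (nat_lit 4880292908) (nat_lit 171) (nat_lit 5) (nat_lit 186) (nat_lit 5) (nat_lit 187) (nat_lit 5) (nat_lit 281) (nat_lit 272) (nat_lit 167)) (XT.lf (nat_lit 76) (nat_lit 9986585034) (nat_lit 0) (nat_lit 3648935170) (nat_lit 1216) (nat_lit 11746647932) (nat_lit 172) (nat_lit 5) (nat_lit 171) (nat_lit 5) (nat_lit 187) (nat_lit 5) (nat_lit 282) (nat_lit 272) (nat_lit 166))) (XT.nd (nat_lit 78) (nat_lit 532) (nat_lit 0) (XT.lf (nat_lit 0) (nat_lit 3994032269) (nat_lit 1140) (nat_lit 12872618500) (nat_lit 1216) (nat_lit 9217309599) (nat_lit 157) (nat_lit 5) (nat_lit 172) (nat_lit 5) (nat_lit 173) (nat_lit 5) (nat_lit 283) (nat_lit 272) (nat_lit 165)) (XT.nd (nat_lit 78) (nat_lit 532) (nat_lit 0) (XT.lf (nat_lit 0) (nat_lit 20483808765) (nat_lit 1216) (nat_lit 2227564311) (nat_lit 76) (nat_lit 4102752855)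 (nat_lit 157) (nat_lit 5) (nat_lit 173) (nat_lit 5) (nat_lit 158) (nat_lit 5) (nat_lit 284) (nat_lit 272) (nat_lit 164)) (XT.lf (nat_lit 0) (nat_lit 18856764716) (nat_lit 532) (nat_lit 5726067167) (nat_lit 608) (nat_lit 2988954665) (nat_lit 150) (nat_lit 5) (nat_lit 157) (nat_lit 5) (nat_lit 158) (nat_lit 5) (nat_lit 285) (nat_lit 272) (nat_lit 163))))) (XT.nd (nat_lit 234) (nat_lit 1444) (nat_lit 0) (XT.nd (nat_lit 78) (nat_lit 532) (nat_lit 0) (XT.lf (nat_lit 0) (nat_lit 764636664) (nat_lit 684) (nat_lit 15568150099) (nat_lit 76) (nat_lit 12026750417) (nat_lit 141) (nat_lit 5) (nat_lit 150) (nat_lit 5) (nat_lit 142) (nat_lit 5) (nat_lit 286) (nat_lit 272) (nat_lit 162)) (XT.nd (nat_lit 78) (nat_lit 0) (nat_lit 0) (XT.lf (nat_lit 0) (nat_lit 4859989172) (nat_lit 608) (nat_lit 22796636296) (nat_lit 76) (nat_lit 1522700099) (nat_lit 134) (nat_lit 5) (nat_lit 142) (nat_lit 5) (nat_lit 135)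 (nat_lit 5) (nat_lit 287) (nat_lit 272) (nat_lit 161)) (XT.lf (nat_lit 0) (nat_lit 9477672378) (nat_lit 608) (nat_lit 454544605) (nat_lit 76) (nat_lit 20098373752) (nat_lit 134) (nat_lit 5) (nat_lit 142) (nat_lit 5) (nat_lit 135) (nat_lit 5) (nat_lit 288) (nat_lit 272) (nat_lit 160)))) (XT.nd (nat_lit 78) (nat_lit 912) (nat_lit 0) (XT.lf (nat_lit 0) (nat_lit 14628643413) (nat_lit 608) (nat_lit 7550041249) (nat_lit 76) (nat_lit 8736675965) (nat_lit 127) (nat_lit 5) (nat_lit 135) (nat_lit 5) (nat_lit 128) (nat_lit 5) (nat_lit 289) (nat_lit 272) (nat_lit 159)) (XT.nd (nat_lit 78) (nat_lit 456) (nat_lit 0) (XT.lf (nat_lit 0) (nat_lit 16759405212) (nat_lit 456) (nat_lit 3535464262) (nat_lit 532) (nat_lit 11541781273) (nat_lit 121) (nat_lit 5) (nat_lit 127) (nat_lit 5) (nat_lit 128) (nat_lit 5) (nat_lit 290) (nat_lit 272) (nat_lit 158)) (XT.lf (nat_lit 0) (nat_lit 9665292944) (nat_lit 456) (nat_lit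 16896641616) (nat_lit 532) (nat_lit 6232557295) (nat_lit 115) (nat_lit 5) (nat_lit 121) (nat_lit 5) (nat_lit 122) (nat_lit 5) (nat_lit 291) (nat_lit 272) (nat_lit 157)))))) (XT.nd (nat_lit 468) (nat_lit 1748) (nat_lit 0) (XT.nd (nat_lit 234) (nat_lit 760) (nat_lit 0) (XT.nd (nat_lit 78) (nat_lit 532) (nat_lit 0) (XT.lf (nat_lit 0) (nat_lit 2137159187) (nat_lit 380) (nat_lit 31233419795) (nat_lit 456) (nat_lit 422810979) (nat_lit 110) (nat_lit 5) (nat_lit 115) (nat_lit 5) (nat_lit 116) (nat_lit 5) (nat_lit 292) (nat_lit 272) (nat_lit 156)) (XT.nd (nat_lit 78) (nat_lit 456) (nat_lit 0) (XT.lf (nat_lit 0) (nat_lit 5970069736) (nat_lit 456) (nat_lit 5921072755) (nat_lit 76) (nat_lit 22937361057) (nat_lit 109) (nat_lit 5) (nat_lit 115) (nat_lit 5) (nat_lit 110) (nat_lit 5) (nat_lit 293) (nat_lit 272) (nat_lit 155)) (XT.lf (nat_lit 0) (nat_lit 12956480042) (nat_lit 532) (nat_lit 14484257441) (nat_lit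 76) (nat_lit 8466041172) (nat_lit 103) (nat_lit 5) (nat_lit 110) (nat_lit 5) (nat_lit 104) (nat_lit 5) (nat_lit 294) (nat_lit 272) (nat_lit 154)))) (XT.nd (nat_lit 78) (nat_lit 380) (nat_lit 0) (XT.lf (nat_lit 0) (nat_lit 13351569182) (nat_lit 380) (nat_lit 7243616311) (nat_lit 456) (nat_lit 16434702622) (nat_lit 98) (nat_lit 5) (nat_lit 103) (nat_lit 5) (nat_lit 104) (nat_lit 5) (nat_lit 295) (nat_lit 272) (nat_lit 153)) (XT.nd (nat_lit 78) (nat_lit 0) (nat_lit 0) (XT.lf (nat_lit 0) (nat_lit 4623511459) (nat_lit 380) (nat_lit 24314858614) (nat_lit 456) (nat_lit 9261116023) (nat_lit 93) (nat_lit 5) (nat_lit 98) (nat_lit 5) (nat_lit 99) (nat_lit 5) (nat_lit 296) (nat_lit 272) (nat_lit 152)) (XT.lf (nat_lit 0) (nat_lit 34752714039) (nat_lit 380) (nat_lit 3255681292) (nat_lit 456) (nat_lit 1409887124) (nat_lit 93) (nat_lit 5) (nat_lit 98) (nat_lit 5) (nat_lit 99) (nat_lit 5) (nat_lit 297) (nat_lit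 272) (nat_lit 151))))) (XT.nd (nat_lit 234) (nat_lit 684) (nat_lit 0) (XT.nd (nat_lit 78) (nat_lit 684) (nat_lit 0) (XT.lf (nat_lit 0) (nat_lit 7129855875) (nat_lit 380) (nat_lit 14746309762) (nat_lit 76) (nat_lit 18807011290) (nat_lit 88) (nat_lit 5) (nat_lit 93) (nat_lit 5) (nat_lit 89) (nat_lit 5) (nat_lit 298) (nat_lit 272) (nat_lit 150)) (XT.nd (nat_lit 78) (nat_lit 304) (nat_lit 0) (XT.lf (nat_lit 0) (nat_lit 16302077370) (nat_lit 456) (nat_lit 25582795266) (nat_lit 76) (nat_lit 118993066) (nat_lit 83) (nat_lit 5) (nat_lit 89) (nat_lit 5) (nat_lit 84) (nat_lit 5) (nat_lit 299) (nat_lit 272) (nat_lit 149)) (XT.lf (nat_lit 0) (nat_lit 5955231693) (nat_lit 304) (nat_lit 20403214713) (nat_lit 380) (nat_lit 17019383896) (nat_lit 79) (nat_lit 5) (nat_lit 83) (nat_lit 5) (nat_lit 84) (nat_lit 5) (nat_lit 300) (nat_lit 272) (nat_lit 148)))) (XT.nd (nat_lit 78) (nat_lit 684) (nat_lit 0) (XT.lf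 (nat_lit 0) (nat_lit 37198660128) (nat_lit 380) (nat_lit 5238677409) (nat_lit 76) (nat_lit 2374731933) (nat_lit 79) (nat_lit 5) (nat_lit 84) (nat_lit 5) (nat_lit 80) (nat_lit 5) (nat_lit 301) (nat_lit 272) (nat_lit 147)) (XT.nd (nat_lit 78) (nat_lit 304) (nat_lit 0) (XT.lf (nat_lit 0) (nat_lit 2701871168) (nat_lit 380) (nat_lit 17424801934) (nat_lit 76) (nat_lit 26176206607) (nat_lit 74) (nat_lit 5) (nat_lit 79) (nat_lit 5) (nat_lit 75) (nat_lit 5) (nat_lit 302) (nat_lit 272) (nat_lit 146)) (XT.lf (nat_lit 0) (nat_lit 13626077778) (nat_lit 380) (nat_lit 30699545774) (nat_lit 76) (nat_lit 3532833200) (nat_lit 70) (nat_lit 5) (nat_lit 75) (nat_lit 5) (nat_lit 71) (nat_lit 5) (nat_lit 303) (nat_lit 272) (nat_lit 145))))))))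
noncomputable def xc104 : XT := (XT.nd (nat_lit 1716) (nat_lit 152) (nat_lit 0) (XT.nd (nat_lit 858) (nat_lit 1368) (nat_lit 0) (XT.nd (nat_lit 390) (nat_lit 988) (nat_lit 0) (XT.nd (nat_lit 156) (nat_lit 608) (nat_lit 0) (XT.nd (nat_lit 78) (nat_lit 0) (nat_lit 0) (XT.lf (nat_lit 0) (nat_lit 4219899389) (nat_lit 304) (nat_lit 21296390140) (nat_lit 380) (nat_lit 23962935251) (nat_lit 66) (nat_lit 5) (nat_lit 70) (nat_lit 5) (nat_lit 71) (nat_lit 5) (nat_lit 304) (nat_lit 272) (nat_lit 144)) (XT.lf (nat_lit 0) (nat_lit 38342986196) (nat_lit 380) (nat_lit 9682522008) (nat_lit 76) (nat_lit 3145269466) (nat_lit 66) (nat_lit 5) (nat_lit 71) (nat_lit 5) (nat_lit 67) (nat_lit 5) (nat_lit 305) (nat_lit 272) (nat_lit 143))) (XT.nd (nat_lit 78) (nat_lit 380) (nat_lit 0) (XT.lf (nat_lit 0) (nat_lit 27997879091) (nat_lit 228) (nat_lit 24292549476) (nat_lit 304) (nat_lit 642102731) (nat_lit 63) (nat_lit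 5) (nat_lit 66) (nat_lit 5) (nat_lit 67) (nat_lit 5) (nat_lit 306) (nat_lit 272) (nat_lit 142)) (XT.nd (nat_lit 78) (nat_lit 0) (nat_lit 0) (XT.lf (nat_lit 0) (nat_lit 12147321014) (nat_lit 380) (nat_lit 41664752002) (nat_lit 76) (nat_lit 959852073) (nat_lit 58) (nat_lit 5) (nat_lit 63) (nat_lit 5) (nat_lit 59) (nat_lit 5) (nat_lit 307) (nat_lit 272) (nat_lit 141)) (XT.lf (nat_lit 0) (nat_lit 26063048675) (nat_lit 380) (nat_lit 3384119247) (nat_lit 76) (nat_lit 27240931326) (nat_lit 58) (nat_lit 5) (nat_lit 63) (nat_lit 5) (nat_lit 59) (nat_lit 5) (nat_lit 308) (nat_lit 272) (nat_lit 140))))) (XT.nd (nat_lit 234) (nat_lit 228) (nat_lit 0) (XT.nd (nat_lit 78) (nat_lit 532) (nat_lit 0) (XT.lf (nat_lit 0) (nat_lit 37536863846) (nat_lit 228) (nat_lit 3494313533) (nat_lit 304) (nat_lit 17658210841) (nat_lit 55) (nat_lit 5) (nat_lit 58) (nat_lit 5) (nat_lit 59) (nat_lit 5) (nat_lit 309) (nat_lit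 272) (nat_lit 139)) (XT.nd (nat_lit 78) (nat_lit 304) (nat_lit 0) (XT.lf (nat_lit 0) (nat_lit 19939207425) (nat_lit 228) (nat_lit 37259625397) (nat_lit 304) (nat_lit 3578379538) (nat_lit 52) (nat_lit 5) (nat_lit 55) (nat_lit 5) (nat_lit 56) (nat_lit 5) (nat_lit 310) (nat_lit 272) (nat_lit 138)) (XT.lf (nat_lit 0) (nat_lit 421746425) (nat_lit 228) (nat_lit 10820270529) (nat_lit 304) (nat_lit 51716526384) (nat_lit 48) (nat_lit 5) (nat_lit 51) (nat_lit 5) (nat_lit 52) (nat_lit 5) (nat_lit 311) (nat_lit 272) (nat_lit 137)))) (XT.nd (nat_lit 78) (nat_lit 228) (nat_lit 0) (XT.lf (nat_lit 0) (nat_lit 27313637978) (nat_lit 304) (nat_lit 20847506696) (nat_lit 76) (nat_lit 17069210786) (nat_lit 48) (nat_lit 5) (nat_lit 52) (nat_lit 5) (nat_lit 49) (nat_lit 5) (nat_lit 312) (nat_lit 272) (nat_lit 136)) (XT.nd (nat_lit 78) (nat_lit 0) (nat_lit 0) (XT.lf (nat_lit 0) (nat_lit 23265380538) (nat_lit 228)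 (nat_lit 21252618730) (nat_lit 304) (nat_lit 23087887775) (nat_lit 45) (nat_lit 5) (nat_lit 48) (nat_lit 5) (nat_lit 49) (nat_lit 5) (nat_lit 313) (nat_lit 272) (nat_lit 135)) (XT.lf (nat_lit 0) (nat_lit 62863022502) (nat_lit 304) (nat_lit 149196751) (nat_lit 76) (nat_lit 7079566092) (nat_lit 45) (nat_lit 5) (nat_lit 49) (nat_lit 5) (nat_lit 46) (nat_lit 5) (nat_lit 314) (nat_lit 272) (nat_lit 134)))))) (XT.nd (nat_lit 390) (nat_lit 532) (nat_lit 0) (XT.nd (nat_lit 156) (nat_lit 380) (nat_lit 0) (XT.nd (nat_lit 78) (nat_lit 228) (nat_lit 0) (XT.lf (nat_lit 0) (nat_lit 9908373198) (nat_lit 228) (nat_lit 25831268320) (nat_lit 76) (nat_lit 36939554629) (nat_lit 42) (nat_lit 5) (nat_lit 45) (nat_lit 5) (nat_lit 43) (nat_lit 5) (nat_lit 315) (nat_lit 272) (nat_lit 133)) (XT.lf (nat_lit 0) (nat_lit 21136334957) (nat_lit 228) (nat_lit 6819304888) (nat_lit 304) (nat_lit 47432110260) (nat_lit 39)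 (nat_lit 5) (nat_lit 42) (nat_lit 5) (nat_lit 43) (nat_lit 5) (nat_lit 316) (nat_lit 272) (nat_lit 132))) (XT.nd (nat_lit 78) (nat_lit 380) (nat_lit 0) (XT.lf (nat_lit 0) (nat_lit 47396913349) (nat_lit 304) (nat_lit 7465781273) (nat_lit 76) (nat_lit 23354290734) (nat_lit 39) (nat_lit 5) (nat_lit 43) (nat_lit 5) (nat_lit 40) (nat_lit 5) (nat_lit 317) (nat_lit 272) (nat_lit 131)) (XT.nd (nat_lit 78) (nat_lit 228) (nat_lit 0) (XT.lf (nat_lit 0) (nat_lit 42413020636) (nat_lit 152) (nat_lit 25870665351) (nat_lit 228) (nat_lit 12889796080) (nat_lit 37) (nat_lit 5) (nat_lit 39) (nat_lit 5) (nat_lit 40) (nat_lit 5) (nat_lit 318) (nat_lit 272) (nat_lit 130)) (XT.lf (nat_lit 0) (nat_lit 6045973163) (nat_lit 228) (nat_lit 73502380140) (nat_lit 76) (nat_lit 4720995816) (nat_lit 34) (nat_lit 5) (nat_lit 37) (nat_lit 5) (nat_lit 35) (nat_lit 5) (nat_lit 319) (nat_lit 272) (nat_lit 129))))) (XT.nd (nat_lit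 234) (nat_lit 380) (nat_lit 0) (XT.nd (nat_lit 78) (nat_lit 152) (nat_lit 0) (XT.lf (nat_lit 0) (nat_lit 26325560049) (nat_lit 228) (nat_lit 24327229975) (nat_lit 76) (nat_lit 36843484980) (nat_lit 34) (nat_lit 5) (nat_lit 37) (nat_lit 5) (nat_lit 35) (nat_lit 5) (nat_lit 320) (nat_lit 272) (nat_lit 128)) (XT.nd (nat_lit 78) (nat_lit 0) (nat_lit 0) (XT.lf (nat_lit 0) (nat_lit 27845499034) (nat_lit 152) (nat_lit 20038492986) (nat_lit 228) (nat_lit 42992611507) (nat_lit 32) (nat_lit 5) (nat_lit 34) (nat_lit 5) (nat_lit 35) (nat_lit 5) (nat_lit 321) (nat_lit 272) (nat_lit 127)) (XT.lf (nat_lit 0) (nat_lit 70886900107) (nat_lit 228) (nat_lit 11406539896) (nat_lit 76) (nat_lit 12121514044) (nat_lit 32) (nat_lit 5) (nat_lit 35) (nat_lit 5) (nat_lit 33) (nat_lit 5) (nat_lit 322) (nat_lit 272) (nat_lit 126)))) (XT.nd (nat_lit 78) (nat_lit 228) (nat_lit 0) (XT.lf (nat_lit 0) (nat_lit 43440410297)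 (nat_lit 152) (nat_lit 52216774755) (nat_lit 228) (nat_lit 2454522200) (nat_lit 30) (nat_lit 5) (nat_lit 32) (nat_lit 5) (nat_lit 33) (nat_lit 5) (nat_lit 323) (nat_lit 272) (nat_lit 125)) (XT.nd (nat_lit 78) (nat_lit 152) (nat_lit 0) (XT.lf (nat_lit 0) (nat_lit 19404843290) (nat_lit 228) (nat_lit 916171143) (nat_lit 76) (nat_lit 81663131184) (nat_lit 29) (nat_lit 5) (nat_lit 32) (nat_lit 5) (nat_lit 30) (nat_lit 5) (nat_lit 324) (nat_lit 272) (nat_lit 124)) (XT.lf (nat_lit 0) (nat_lit 42980774201) (nat_lit 228) (nat_lit 49562968746) (nat_lit 76) (nat_lit 13485504926) (nat_lit 27) (nat_lit 5) (nat_lit 30) (nat_lit 5) (nat_lit 28) (nat_lit 5) (nat_lit 325) (nat_lit 272) (nat_lit 123))))))) (XT.nd (nat_lit 34164) (nat_lit 0) (nat_lit 6460) (XT.nd (nat_lit 33696) (nat_lit 0) (nat_lit 10792) (XT.nd (nat_lit 33462) (nat_lit 0) (nat_lit 10716) (XT.nd (nat_lit 33384) (nat_lit 0) (nat_lit 11780)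 (XT.lf (nat_lit 0) (nat_lit 6375953439) (nat_lit 152) (nat_lit 61633110600) (nat_lit 228) (nat_lit 42259336094) (nat_lit 25) (nat_lit 5) (nat_lit 27) (nat_lit 5) (nat_lit 28) (nat_lit 5) (nat_lit 326) (nat_lit 272) (nat_lit 122)) (XT.lf (nat_lit 0) (nat_lit 9974599812) (nat_lit 1140) (nat_lit 168875047) (nat_lit 1140) (nat_lit 168875047) (nat_lit 180) (nat_lit 3) (nat_lit 195) (nat_lit 3) (nat_lit 195) (nat_lit 5) (nat_lit 273) (nat_lit 273) (nat_lit 174))) (XT.nd (nat_lit 78) (nat_lit 1064) (nat_lit 0) (XT.lf (nat_lit 76) (nat_lit 14932263491) (nat_lit 0) (nat_lit 5894175257) (nat_lit 1140) (nat_lit 302099056) (nat_lit 181) (nat_lit 5) (nat_lit 180) (nat_lit 3) (nat_lit 195) (nat_lit 5) (nat_lit 274) (nat_lit 273) (nat_lit 173)) (XT.nd (nat_lit 78) (nat_lit 0) (nat_lit 76) (XT.lf (nat_lit 0) (nat_lit 257297553) (nat_lit 1140) (nat_lit 12253369879) (nat_lit 1216) (nat_lit 9141828248) (nat_lit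 166) (nat_lit 5) (nat_lit 181) (nat_lit 5) (nat_lit 182) (nat_lit 5) (nat_lit 275) (nat_lit 273) (nat_lit 172)) (XT.lf (nat_lit 0) (nat_lit 1009553356) (nat_lit 1140) (nat_lit 18520781526) (nat_lit 1216) (nat_lit 2667117828) (nat_lit 167) (nat_lit 5) (nat_lit 182) (nat_lit 5) (nat_lit 183) (nat_lit 5) (nat_lit 276) (nat_lit 273) (nat_lit 171))))) (XT.nd (nat_lit 234) (nat_lit 0) (nat_lit 152) (XT.nd (nat_lit 78) (nat_lit 0) (nat_lit 76) (XT.lf (nat_lit 0) (nat_lit 2039172273) (nat_lit 1140) (nat_lit 2242911213) (nat_lit 1216) (nat_lit 18480405509) (nat_lit 167) (nat_lit 5) (nat_lit 182) (nat_lit 5) (nat_lit 183) (nat_lit 5) (nat_lit 277) (nat_lit 273) (nat_lit 170)) (XT.nd (nat_lit 78) (nat_lit 0) (nat_lit 76) (XT.lf (nat_lit 0) (nat_lit 3366749721) (nat_lit 1140) (nat_lit 8330225659) (nat_lit 1216) (nat_lit 11651430163) (nat_lit 168) (nat_lit 5) (nat_lit 183) (nat_lit 5) (nat_lit 184) (nat_lit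 5) (nat_lit 278) (nat_lit 273) (nat_lit 169)) (XT.lf (nat_lit 0) (nat_lit 4947334763) (nat_lit 1140) (nat_lit 14645292843) (nat_lit 1216) (nat_lit 4365413141) (nat_lit 169) (nat_lit 5) (nat_lit 184) (nat_lit 5) (nat_lit 185) (nat_lit 5) (nat_lit 279) (nat_lit 273) (nat_lit 168)))) (XT.nd (nat_lit 78) (nat_lit 0) (nat_lit 76) (XT.lf (nat_lit 76) (nat_lit 3354151971) (nat_lit 0) (nat_lit 3477609303) (nat_lit 1216) (nat_lit 17759672728) (nat_lit 170) (nat_lit 5) (nat_lit 169) (nat_lit 5) (nat_lit 185) (nat_lit 5) (nat_lit 280) (nat_lit 273) (nat_lit 167)) (XT.nd (nat_lit 78) (nat_lit 0) (nat_lit 76) (XT.lf (nat_lit 0) (nat_lit 9080318165) (nat_lit 1140) (nat_lit 2831976965) (nat_lit 1216) (nat_lit 13336124193) (nat_lit 170) (nat_lit 5) (nat_lit 185) (nat_lit 5) (nat_lit 186) (nat_lit 5) (nat_lit 281) (nat_lit 273) (nat_lit 166)) (XT.lf (nat_lit 0) (nat_lit 11676173028) (nat_lit 1140) (nat_lit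 9204818521) (nat_lit 1216) (nat_lit 5050234994) (nat_lit 171) (nat_lit 5) (nat_lit 186) (nat_lit 5) (nat_lit 187) (nat_lit 5) (nat_lit 282) (nat_lit 273) (nat_lit 165)))))) (XT.nd (nat_lit 390) (nat_lit 2356) (nat_lit 0) (XT.nd (nat_lit 156) (nat_lit 1216) (nat_lit 0) (XT.nd (nat_lit 78) (nat_lit 1064) (nat_lit 0) (XT.lf (nat_lit 76) (nat_lit 10755356467) (nat_lit 0) (nat_lit 3888977214) (nat_lit 1216) (nat_lit 11996582896) (nat_lit 172) (nat_lit 5) (nat_lit 171) (nat_lit 5) (nat_lit 187) (nat_lit 5) (nat_lit 283) (nat_lit 273) (nat_lit 164)) (XT.lf (nat_lit 0) (nat_lit 4466053329) (nat_lit 1140) (nat_lit 13557484657) (nat_lit 1216) (nat_lit 9354691054) (nat_lit 157) (nat_lit 5) (nat_lit 172) (nat_lit 5) (nat_lit 173) (nat_lit 5) (nat_lit 284) (nat_lit 273) (nat_lit 163))) (XT.nd (nat_lit 78) (nat_lit 1216) (nat_lit 0) (XT.lf (nat_lit 0) (nat_lit 21806245203) (nat_lit 1216) (nat_lit 2069756650)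 (nat_lit 76) (nat_lit 4269385179) (nat_lit 157) (nat_lit 5) (nat_lit 173) (nat_lit 5) (nat_lit 158) (nat_lit 5) (nat_lit 285) (nat_lit 273) (nat_lit 162)) (XT.nd (nat_lit 78) (nat_lit 684) (nat_lit 0) (XT.lf (nat_lit 0) (nat_lit 20061072670) (nat_lit 532) (nat_lit 6037458024) (nat_lit 608) (nat_lit 2842774355) (nat_lit 150) (nat_lit 5) (nat_lit 157) (nat_lit 5) (nat_lit 158) (nat_lit 5) (nat_lit 286) (nat_lit 273) (nat_lit 161)) (XT.lf (nat_lit 0) (nat_lit 1081246342) (nat_lit 684) (nat_lit 16077559160) (nat_lit 76) (nat_lit 12609918820) (nat_lit 141) (nat_lit 5) (nat_lit 150) (nat_lit 5) (nat_lit 142) (nat_lit 5) (nat_lit 287) (nat_lit 273) (nat_lit 160))))) (XT.nd (nat_lit 234) (nat_lit 1292) (nat_lit 0) (XT.nd (nat_lit 78) (nat_lit 532) (nat_lit 0) (XT.lf (nat_lit 0) (nat_lit 5370561046) (nat_lit 608) (nat_lit 23666672945) (nat_lit 76) (nat_lit 1592613177) (nat_lit 134) (nat_lit 5) (nat_lit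 142) (nat_lit 5) (nat_lit 135) (nat_lit 5) (nat_lit 288) (nat_lit 273) (nat_lit 159)) (XT.nd (nat_lit 78) (nat_lit 532) (nat_lit 0) (XT.lf (nat_lit 0) (nat_lit 10206386868) (nat_lit 608) (nat_lit 220324058) (nat_lit 76) (nat_lit 21097366795) (nat_lit 134) (nat_lit 5) (nat_lit 142) (nat_lit 5) (nat_lit 135) (nat_lit 5) (nat_lit 289) (nat_lit 273) (nat_lit 158)) (XT.lf (nat_lit 0) (nat_lit 15605213925) (nat_lit 608) (nat_lit 7670272477) (nat_lit 76) (nat_lit 9177909416) (nat_lit 127) (nat_lit 5) (nat_lit 135) (nat_lit 5) (nat_lit 128) (nat_lit 5) (nat_lit 290) (nat_lit 273) (nat_lit 157)))) (XT.nd (nat_lit 78) (nat_lit 836) (nat_lit 0) (XT.lf (nat_lit 0) (nat_lit 17847271690) (nat_lit 456) (nat_lit 3698208500) (nat_lit 532) (nat_lit 11875566420) (nat_lit 121) (nat_lit 5) (nat_lit 127) (nat_lit 5) (nat_lit 128) (nat_lit 5) (nat_lit 291) (nat_lit 273) (nat_lit 156)) (XT.nd (nat_lit 78) (nat_lit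 380) (nat_lit 0) (XT.lf (nat_lit 0) (nat_lit 10398383098) (nat_lit 456) (nat_lit 17718813567) (nat_lit 532) (nat_lit 6309861337) (nat_lit 115) (nat_lit 5) (nat_lit 121) (nat_lit 5) (nat_lit 122) (nat_lit 5) (nat_lit 292) (nat_lit 273) (nat_lit 155)) (XT.lf (nat_lit 0) (nat_lit 2493423126) (nat_lit 380) (nat_lit 32764637677) (nat_lit 456) (nat_lit 218102943) (nat_lit 110) (nat_lit 5) (nat_lit 115) (nat_lit 5) (nat_lit 116) (nat_lit 5) (nat_lit 293) (nat_lit 273) (nat_lit 154))))))))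
noncomputable def xc105 : XT := (XT.nd (nat_lit 1716) (nat_lit 1216) (nat_lit 0) (XT.nd (nat_lit 858) (nat_lit 1900) (nat_lit 0) (XT.nd (nat_lit 390) (nat_lit 1748) (nat_lit 0) (XT.nd (nat_lit 156) (nat_lit 760) (nat_lit 0) (XT.nd (nat_lit 78) (nat_lit 456) (nat_lit 0) (XT.lf (nat_lit 0) (nat_lit 6479469857) (nat_lit 456) (nat_lit 5975097156) (nat_lit 76) (nat_lit 24108732338) (nat_lit 109) (nat_lit 5) (nat_lit 115) (nat_lit 5) (nat_lit 110) (nat_lit 5) (nat_lit 294) (nat_lit 273) (nat_lit 153)) (XT.lf (nat_lit 0) (nat_lit 13807725215) (nat_lit 532) (nat_lit 14967304700) (nat_lit 76) (nat_lit 8920696967) (nat_lit 103) (nat_lit 5) (nat_lit 110) (nat_lit 5) (nat_lit 104) (nat_lit 5) (nat_lit 295) (nat_lit 273) (nat_lit 152))) (XT.nd (nat_lit 78) (nat_lit 380) (nat_lit 0) (XT.lf (nat_lit 0) (nat_lit 14253400290) (nat_lit 380) (nat_lit 7567530705) (nat_lit 456) (nat_lit 17054297584) (nat_lit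 98) (nat_lit 5) (nat_lit 103) (nat_lit 5) (nat_lit 104) (nat_lit 5) (nat_lit 296) (nat_lit 273) (nat_lit 151)) (XT.nd (nat_lit 78) (nat_lit 0) (nat_lit 0) (XT.lf (nat_lit 0) (nat_lit 5087845119) (nat_lit 380) (nat_lit 25486688590) (nat_lit 456) (nat_lit 9528988048) (nat_lit 93) (nat_lit 5) (nat_lit 98) (nat_lit 5) (nat_lit 99) (nat_lit 5) (nat_lit 297) (nat_lit 273) (nat_lit 150)) (XT.lf (nat_lit 0) (nat_lit 36712405063) (nat_lit 380) (nat_lit 3376643494) (nat_lit 456) (nat_lit 1294492169) (nat_lit 93) (nat_lit 5) (nat_lit 98) (nat_lit 5) (nat_lit 99) (nat_lit 5) (nat_lit 298) (nat_lit 273) (nat_lit 149))))) (XT.nd (nat_lit 234) (nat_lit 684) (nat_lit 0) (XT.nd (nat_lit 78) (nat_lit 684) (nat_lit 0) (XT.lf (nat_lit 0) (nat_lit 7662461549) (nat_lit 380) (nat_lit 15259096780) (nat_lit 76) (nat_lit 19790263964) (nat_lit 88) (nat_lit 5) (nat_lit 93) (nat_lit 5) (nat_lit 89) (nat_lit 5) (nat_lit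 299) (nat_lit 273) (nat_lit 148)) (XT.nd (nat_lit 78) (nat_lit 304) (nat_lit 0) (XT.lf (nat_lit 0) (nat_lit 17287468224) (nat_lit 456) (nat_lit 26638992790) (nat_lit 76) (nat_lit 172270226) (nat_lit 83) (nat_lit 5) (nat_lit 89) (nat_lit 5) (nat_lit 84) (nat_lit 5) (nat_lit 300) (nat_lit 273) (nat_lit 147)) (XT.lf (nat_lit 0) (nat_lit 6469544922) (nat_lit 304) (nat_lit 21371083512) (nat_lit 380) (nat_lit 17700956889) (nat_lit 79) (nat_lit 5) (nat_lit 83) (nat_lit 5) (nat_lit 84) (nat_lit 5) (nat_lit 301) (nat_lit 273) (nat_lit 146)))) (XT.nd (nat_lit 78) (nat_lit 684) (nat_lit 0) (XT.lf (nat_lit 0) (nat_lit 39215509678) (nat_lit 380) (nat_lit 5289958444) (nat_lit 76) (nat_lit 2542298561) (nat_lit 79) (nat_lit 5) (nat_lit 84) (nat_lit 5) (nat_lit 80) (nat_lit 5) (nat_lit 302) (nat_lit 273) (nat_lit 145)) (XT.nd (nat_lit 78) (nat_lit 304) (nat_lit 0) (XT.lf (nat_lit 0) (nat_lit 2990060659) (nat_lit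 380) (nat_lit 18088196822) (nat_lit 76) (nat_lit 27534989549) (nat_lit 74) (nat_lit 5) (nat_lit 79) (nat_lit 5) (nat_lit 75) (nat_lit 5) (nat_lit 303) (nat_lit 273) (nat_lit 144)) (XT.lf (nat_lit 0) (nat_lit 14455648419) (nat_lit 380) (nat_lit 32028548708) (nat_lit 76) (nat_lit 3762559426) (nat_lit 70) (nat_lit 5) (nat_lit 75) (nat_lit 5) (nat_lit 71) (nat_lit 5) (nat_lit 304) (nat_lit 273) (nat_lit 143)))))) (XT.nd (nat_lit 390) (nat_lit 988) (nat_lit 0) (XT.nd (nat_lit 156) (nat_lit 608) (nat_lit 0) (XT.nd (nat_lit 78) (nat_lit 0) (nat_lit 0) (XT.lf (nat_lit 0) (nat_lit 4630964499) (nat_lit 304) (nat_lit 22304269134) (nat_lit 380) (nat_lit 25013491798) (nat_lit 66) (nat_lit 5) (nat_lit 70) (nat_lit 5) (nat_lit 71) (nat_lit 5) (nat_lit 305) (nat_lit 273) (nat_lit 142)) (XT.lf (nat_lit 0) (nat_lit 40396970719) (nat_lit 380) (nat_lit 9972378221) (nat_lit 76) (nat_lit 3355703795) (nat_lit 66)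 (nat_lit 5) (nat_lit 71) (nat_lit 5) (nat_lit 67) (nat_lit 5) (nat_lit 306) (nat_lit 273) (nat_lit 141))) (XT.nd (nat_lit 78) (nat_lit 380) (nat_lit 0) (XT.lf (nat_lit 0) (nat_lit 29586474226) (nat_lit 228) (nat_lit 25450608932) (nat_lit 304) (nat_lit 537959509) (nat_lit 63) (nat_lit 5) (nat_lit 66) (nat_lit 5) (nat_lit 67) (nat_lit 5) (nat_lit 307) (nat_lit 273) (nat_lit 140)) (XT.nd (nat_lit 78) (nat_lit 0) (nat_lit 0) (XT.lf (nat_lit 0) (nat_lit 12884251352) (nat_lit 380) (nat_lit 43558510058) (nat_lit 76) (nat_lit 1063733198) (nat_lit 58) (nat_lit 5) (nat_lit 63) (nat_lit 5) (nat_lit 59) (nat_lit 5) (nat_lit 308) (nat_lit 273) (nat_lit 139)) (XT.lf (nat_lit 0) (nat_lit 27489595668) (nat_lit 380) (nat_lit 3372868501) (nat_lit 76) (nat_lit 28656205056) (nat_lit 58) (nat_lit 5) (nat_lit 63) (nat_lit 5) (nat_lit 59) (nat_lit 5) (nat_lit 309) (nat_lit 273) (nat_lit 138))))) (XT.nd (nat_lit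 234) (nat_lit 228) (nat_lit 0) (XT.nd (nat_lit 78) (nat_lit 532) (nat_lit 0) (XT.lf (nat_lit 0) (nat_lit 39588990991) (nat_lit 228) (nat_lit 3612948821) (nat_lit 304) (nat_lit 18418214903) (nat_lit 55) (nat_lit 5) (nat_lit 58) (nat_lit 5) (nat_lit 59) (nat_lit 5) (nat_lit 310) (nat_lit 273) (nat_lit 137)) (XT.nd (nat_lit 78) (nat_lit 304) (nat_lit 0) (XT.lf (nat_lit 0) (nat_lit 21109500417) (nat_lit 228) (nat_lit 39064980839) (nat_lit 304) (nat_lit 3637999749) (nat_lit 52) (nat_lit 5) (nat_lit 55) (nat_lit 5) (nat_lit 56) (nat_lit 5) (nat_lit 311) (nat_lit 273) (nat_lit 136)) (XT.lf (nat_lit 0) (nat_lit 613572932) (nat_lit 228) (nat_lit 11303586898) (nat_lit 304) (nat_lit 54185807745) (nat_lit 48) (nat_lit 5) (nat_lit 51) (nat_lit 5) (nat_lit 52) (nat_lit 5) (nat_lit 312) (nat_lit 273) (nat_lit 135)))) (XT.nd (nat_lit 78) (nat_lit 228) (nat_lit 0) (XT.lf (nat_lit 0) (nat_lit 28787507161)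 (nat_lit 304) (nat_lit 21724465368) (nat_lit 76) (nat_lit 17976548733) (nat_lit 48) (nat_lit 5) (nat_lit 52) (nat_lit 5) (nat_lit 49) (nat_lit 5) (nat_lit 313) (nat_lit 273) (nat_lit 134)) (XT.nd (nat_lit 78) (nat_lit 0) (nat_lit 0) (XT.lf (nat_lit 0) (nat_lit 24589324591) (nat_lit 228) (nat_lit 22259154655) (nat_lit 304) (nat_lit 24134463461) (nat_lit 45) (nat_lit 5) (nat_lit 48) (nat_lit 5) (nat_lit 49) (nat_lit 5) (nat_lit 314) (nat_lit 273) (nat_lit 133)) (XT.lf (nat_lit 0) (nat_lit 66106287185) (nat_lit 304) (nat_lit 1061831) (nat_lit 76) (nat_lit 7485925726) (nat_lit 45) (nat_lit 5) (nat_lit 49) (nat_lit 5) (nat_lit 46) (nat_lit 5) (nat_lit 315) (nat_lit 273) (nat_lit 132))))))) (XT.nd (nat_lit 34320) (nat_lit 0) (nat_lit 9728) (XT.nd (nat_lit 390) (nat_lit 380) (nat_lit 0) (XT.nd (nat_lit 156) (nat_lit 380) (nat_lit 0) (XT.nd (nat_lit 78) (nat_lit 228) (nat_lit 0) (XT.lf (nat_lit 0)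 (nat_lit 10501639386) (nat_lit 228) (nat_lit 26969660519) (nat_lit 76) (nat_lit 38838831429) (nat_lit 42) (nat_lit 5) (nat_lit 45) (nat_lit 5) (nat_lit 43) (nat_lit 5) (nat_lit 316) (nat_lit 273) (nat_lit 131)) (XT.lf (nat_lit 0) (nat_lit 22341932300) (nat_lit 228) (nat_lit 7106107830) (nat_lit 304) (nat_lit 49706173984) (nat_lit 39) (nat_lit 5) (nat_lit 42) (nat_lit 5) (nat_lit 43) (nat_lit 5) (nat_lit 317) (nat_lit 273) (nat_lit 130))) (XT.nd (nat_lit 78) (nat_lit 380) (nat_lit 0) (XT.lf (nat_lit 0) (nat_lit 49857367524) (nat_lit 304) (nat_lit 7695086099) (nat_lit 76) (nat_lit 24572581844) (nat_lit 39) (nat_lit 5) (nat_lit 43) (nat_lit 5) (nat_lit 40) (nat_lit 5) (nat_lit 318) (nat_lit 273) (nat_lit 129)) (XT.nd (nat_lit 78) (nat_lit 228) (nat_lit 0) (XT.lf (nat_lit 0) (nat_lit 44673528627) (nat_lit 152) (nat_lit 27111979868) (nat_lit 228) (nat_lit 13443941480) (nat_lit 37) (nat_lit 5)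 (nat_lit 39) (nat_lit 5) (nat_lit 40) (nat_lit 5) (nat_lit 319) (nat_lit 273) (nat_lit 128)) (XT.lf (nat_lit 0) (nat_lit 6434457473) (nat_lit 228) (nat_lit 77037723599) (nat_lit 76) (nat_lit 5007978690) (nat_lit 34) (nat_lit 5) (nat_lit 37) (nat_lit 5) (nat_lit 35) (nat_lit 5) (nat_lit 320) (nat_lit 273) (nat_lit 127))))) (XT.nd (nat_lit 234) (nat_lit 228) (nat_lit 0) (XT.nd (nat_lit 78) (nat_lit 152) (nat_lit 0) (XT.lf (nat_lit 0) (nat_lit 27723919624) (nat_lit 228) (nat_lit 25410471904) (nat_lit 76) (nat_lit 38734166927) (nat_lit 34) (nat_lit 5) (nat_lit 37) (nat_lit 5) (nat_lit 35) (nat_lit 5) (nat_lit 321) (nat_lit 273) (nat_lit 126)) (XT.nd (nat_lit 78) (nat_lit 0) (nat_lit 0) (XT.lf (nat_lit 0) (nat_lit 29367077709) (nat_lit 152) (nat_lit 20990529785) (nat_lit 228) (nat_lit 45060379113) (nat_lit 32) (nat_lit 5) (nat_lit 34) (nat_lit 5) (nat_lit 35) (nat_lit 5) (nat_lit 322) (nat_lit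 273) (nat_lit 125)) (XT.lf (nat_lit 0) (nat_lit 74507335994) (nat_lit 228) (nat_lit 11851846637) (nat_lit 76) (nat_lit 12774174850) (nat_lit 32) (nat_lit 5) (nat_lit 35) (nat_lit 5) (nat_lit 33) (nat_lit 5) (nat_lit 323) (nat_lit 273) (nat_lit 124)))) (XT.nd (nat_lit 78) (nat_lit 76) (nat_lit 0) (XT.lf (nat_lit 0) (nat_lit 45733867386) (nat_lit 152) (nat_lit 54779811747) (nat_lit 228) (nat_lit 2501345824) (nat_lit 30) (nat_lit 5) (nat_lit 32) (nat_lit 5) (nat_lit 33) (nat_lit 5) (nat_lit 324) (nat_lit 273) (nat_lit 123)) (XT.nd (nat_lit 33540) (nat_lit 0) (nat_lit 11476) (XT.lf (nat_lit 0) (nat_lit 20445962936) (nat_lit 228) (nat_lit 844861024) (nat_lit 76) (nat_lit 85790348418) (nat_lit 29) (nat_lit 5) (nat_lit 32) (nat_lit 5) (nat_lit 30) (nat_lit 5) (nat_lit 325) (nat_lit 273) (nat_lit 122)) (XT.lf (nat_lit 0) (nat_lit 10704632328) (nat_lit 1140) (nat_lit 57989195) (nat_lit 1140) (nat_lit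 57989195) (nat_lit 180) (nat_lit 3) (nat_lit 195) (nat_lit 3) (nat_lit 195) (nat_lit 5) (nat_lit 274) (nat_lit 274) (nat_lit 172)))))) (XT.nd (nat_lit 390) (nat_lit 608) (nat_lit 0) (XT.nd (nat_lit 156) (nat_lit 0) (nat_lit 152) (XT.nd (nat_lit 78) (nat_lit 0) (nat_lit 76) (XT.lf (nat_lit 0) (nat_lit 136954524) (nat_lit 1140) (nat_lit 6261533049) (nat_lit 1216) (nat_lit 15772357260) (nat_lit 165) (nat_lit 5) (nat_lit 180) (nat_lit 3) (nat_lit 181) (nat_lit 5) (nat_lit 275) (nat_lit 274) (nat_lit 171)) (XT.lf (nat_lit 0) (nat_lit 697186469) (nat_lit 1140) (nat_lit 12615985197) (nat_lit 1216) (nat_lit 9408402577) (nat_lit 166) (nat_lit 5) (nat_lit 181) (nat_lit 5) (nat_lit 182) (nat_lit 5) (nat_lit 276) (nat_lit 274) (nat_lit 170))) (XT.nd (nat_lit 78) (nat_lit 0) (nat_lit 0) (XT.lf (nat_lit 0) (nat_lit 1467458320) (nat_lit 1140) (nat_lit 19189366915) (nat_lit 1216) (nat_lit 2637576816) (nat_lit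 167) (nat_lit 5) (nat_lit 182) (nat_lit 5) (nat_lit 183) (nat_lit 5) (nat_lit 277) (nat_lit 274) (nat_lit 169)) (XT.nd (nat_lit 78) (nat_lit 0) (nat_lit 76) (XT.lf (nat_lit 0) (nat_lit 2529156882) (nat_lit 1140) (nat_lit 2109862786) (nat_lit 1216) (nat_lit 19249285877) (nat_lit 167) (nat_lit 5) (nat_lit 182) (nat_lit 5) (nat_lit 183) (nat_lit 5) (nat_lit 278) (nat_lit 274) (nat_lit 168)) (XT.lf (nat_lit 0) (nat_lit 3905640226) (nat_lit 1140) (nat_lit 8495495958) (nat_lit 1216) (nat_lit 12102937692) (nat_lit 168) (nat_lit 5) (nat_lit 183) (nat_lit 5) (nat_lit 184) (nat_lit 5) (nat_lit 279) (nat_lit 274) (nat_lit 167))))) (XT.nd (nat_lit 234) (nat_lit 912) (nat_lit 0) (XT.nd (nat_lit 78) (nat_lit 0) (nat_lit 0) (XT.lf (nat_lit 0) (nat_lit 5548885933) (nat_lit 1140) (nat_lit 15121186511) (nat_lit 1216) (nat_lit 4474639710) (nat_lit 169) (nat_lit 5) (nat_lit 184) (nat_lit 5) (nat_lit 185) (nat_lit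 5) (nat_lit 280) (nat_lit 274) (nat_lit 166)) (XT.nd (nat_lit 78) (nat_lit 0) (nat_lit 76) (XT.lf (nat_lit 76) (nat_lit 3770881721) (nat_lit 0) (nat_lit 3742179877) (nat_lit 1216) (nat_lit 18297176453) (nat_lit 170) (nat_lit 5) (nat_lit 169) (nat_lit 5) (nat_lit 185) (nat_lit 5) (nat_lit 281) (nat_lit 274) (nat_lit 165)) (XT.lf (nat_lit 0) (nat_lit 9857039303) (nat_lit 1140) (nat_lit 2725326697) (nat_lit 1216) (nat_lit 13918244291) (nat_lit 170) (nat_lit 5) (nat_lit 185) (nat_lit 5) (nat_lit 186) (nat_lit 5) (nat_lit 282) (nat_lit 274) (nat_lit 164)))) (XT.nd (nat_lit 78) (nat_lit 1064) (nat_lit 0) (XT.lf (nat_lit 0) (nat_lit 12568979226) (nat_lit 1140) (nat_lit 9413455263) (nat_lit 1216) (nat_lit 5235560749) (nat_lit 171) (nat_lit 5) (nat_lit 186) (nat_lit 5) (nat_lit 187) (nat_lit 5) (nat_lit 283) (nat_lit 274) (nat_lit 163)) (XT.nd (nat_lit 78) (nat_lit 1064) (nat_lit 0) (XT.lf (nat_lit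 76) (nat_lit 11537516292) (nat_lit 0) (nat_lit 4135666696) (nat_lit 1216) (nat_lit 12290382624) (nat_lit 172) (nat_lit 5) (nat_lit 171) (nat_lit 5) (nat_lit 187) (nat_lit 5) (nat_lit 284) (nat_lit 274) (nat_lit 162)) (XT.lf (nat_lit 0) (nat_lit 4936357760) (nat_lit 1140) (nat_lit 14272760462) (nat_lit 1216) (nat_lit 9529016061) (nat_lit 157) (nat_lit 5) (nat_lit 172) (nat_lit 5) (nat_lit 173) (nat_lit 5) (nat_lit 285) (nat_lit 274) (nat_lit 161))))))))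
noncomputable def xc106 : XT := (XT.nd (nat_lit 1716) (nat_lit 2736) (nat_lit 0) (XT.nd (nat_lit 858) (nat_lit 2812) (nat_lit 0) (XT.nd (nat_lit 390) (nat_lit 1824) (nat_lit 0) (XT.nd (nat_lit 156) (nat_lit 1748) (nat_lit 0) (XT.nd (nat_lit 78) (nat_lit 532) (nat_lit 0) (XT.lf (nat_lit 0) (nat_lit 23167075376) (nat_lit 1216) (nat_lit 1929084957) (nat_lit 76) (nat_lit 4447928979) (nat_lit 157) (nat_lit 5) (nat_lit 173) (nat_lit 5) (nat_lit 158) (nat_lit 5) (nat_lit 286) (nat_lit 274) (nat_lit 160)) (XT.lf (nat_lit 0) (nat_lit 21301287045) (nat_lit 532) (nat_lit 6362086026) (nat_lit 608) (nat_lit 2716769724) (nat_lit 150) (nat_lit 5) (nat_lit 157) (nat_lit 5) (nat_lit 158) (nat_lit 5) (nat_lit 287) (nat_lit 274) (nat_lit 159))) (XT.nd (nat_lit 78) (nat_lit 1064) (nat_lit 0) (XT.lf (nat_lit 0) (nat_lit 1387805571) (nat_lit 684) (nat_lit 16637447599) (nat_lit 76) (nat_lit 13223934835) (nat_lit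 141) (nat_lit 5) (nat_lit 150) (nat_lit 5) (nat_lit 142) (nat_lit 5) (nat_lit 288) (nat_lit 274) (nat_lit 158)) (XT.nd (nat_lit 78) (nat_lit 532) (nat_lit 0) (XT.lf (nat_lit 0) (nat_lit 5881785166) (nat_lit 608) (nat_lit 24605294423) (nat_lit 76) (nat_lit 1666600364) (nat_lit 134) (nat_lit 5) (nat_lit 142) (nat_lit 5) (nat_lit 135) (nat_lit 5) (nat_lit 289) (nat_lit 274) (nat_lit 157)) (XT.lf (nat_lit 0) (nat_lit 1753157) (nat_lit 532) (nat_lit 10946109019) (nat_lit 608) (nat_lit 22145124094) (nat_lit 127) (nat_lit 5) (nat_lit 134) (nat_lit 5) (nat_lit 135) (nat_lit 5) (nat_lit 290) (nat_lit 274) (nat_lit 156))))) (XT.nd (nat_lit 234) (nat_lit 912) (nat_lit 0) (XT.nd (nat_lit 78) (nat_lit 912) (nat_lit 0) (XT.lf (nat_lit 0) (nat_lit 16607822322) (nat_lit 608) (nat_lit 7820433870) (nat_lit 76) (nat_lit 9640795501) (nat_lit 127) (nat_lit 5) (nat_lit 135) (nat_lit 5) (nat_lit 128) (nat_lit 5)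 (nat_lit 291) (nat_lit 274) (nat_lit 155)) (XT.nd (nat_lit 78) (nat_lit 456) (nat_lit 0) (XT.lf (nat_lit 0) (nat_lit 18966298510) (nat_lit 456) (nat_lit 3870394230) (nat_lit 532) (nat_lit 12248660916) (nat_lit 121) (nat_lit 5) (nat_lit 127) (nat_lit 5) (nat_lit 128) (nat_lit 5) (nat_lit 292) (nat_lit 274) (nat_lit 154)) (XT.lf (nat_lit 0) (nat_lit 11144901353) (nat_lit 456) (nat_lit 18584200840) (nat_lit 532) (nat_lit 6412815789) (nat_lit 115) (nat_lit 5) (nat_lit 121) (nat_lit 5) (nat_lit 122) (nat_lit 5) (nat_lit 293) (nat_lit 274) (nat_lit 153)))) (XT.nd (nat_lit 78) (nat_lit 532) (nat_lit 0) (XT.lf (nat_lit 0) (nat_lit 2844312859) (nat_lit 380) (nat_lit 34375247694) (nat_lit 456) (nat_lit 24156765) (nat_lit 110) (nat_lit 5) (nat_lit 115) (nat_lit 5) (nat_lit 116) (nat_lit 5) (nat_lit 294) (nat_lit 274) (nat_lit 152)) (XT.nd (nat_lit 78) (nat_lit 456) (nat_lit 0) (XT.lf (nat_lit 0) (nat_lit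 6994732814) (nat_lit 456) (nat_lit 6054324362) (nat_lit 76) (nat_lit 25336394105) (nat_lit 109) (nat_lit 5) (nat_lit 115) (nat_lit 5) (nat_lit 110) (nat_lit 5) (nat_lit 295) (nat_lit 274) (nat_lit 151)) (XT.lf (nat_lit 0) (nat_lit 14682620474) (nat_lit 532) (nat_lit 15496925615) (nat_lit 76) (nat_lit 9395170578) (nat_lit 103) (nat_lit 5) (nat_lit 110) (nat_lit 5) (nat_lit 104) (nat_lit 5) (nat_lit 296) (nat_lit 274) (nat_lit 150)))))) (XT.nd (nat_lit 390) (nat_lit 1292) (nat_lit 0) (XT.nd (nat_lit 156) (nat_lit 760) (nat_lit 0) (XT.nd (nat_lit 78) (nat_lit 380) (nat_lit 0) (XT.lf (nat_lit 0) (nat_lit 15178544363) (nat_lit 380) (nat_lit 7911198468) (nat_lit 456) (nat_lit 17723665372) (nat_lit 98) (nat_lit 5) (nat_lit 103) (nat_lit 5) (nat_lit 104) (nat_lit 5) (nat_lit 297) (nat_lit 274) (nat_lit 149)) (XT.lf (nat_lit 0) (nat_lit 5553718634) (nat_lit 380) (nat_lit 26721192675) (nat_lit 456)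 (nat_lit 9828400012) (nat_lit 93) (nat_lit 5) (nat_lit 98) (nat_lit 5) (nat_lit 99) (nat_lit 5) (nat_lit 298) (nat_lit 274) (nat_lit 148))) (XT.nd (nat_lit 78) (nat_lit 760) (nat_lit 0) (XT.lf (nat_lit 0) (nat_lit 38749436039) (nat_lit 380) (nat_lit 3507542007) (nat_lit 456) (nat_lit 1190609693) (nat_lit 93) (nat_lit 5) (nat_lit 98) (nat_lit 5) (nat_lit 99) (nat_lit 5) (nat_lit 299) (nat_lit 274) (nat_lit 147)) (XT.nd (nat_lit 78) (nat_lit 380) (nat_lit 0) (XT.lf (nat_lit 0) (nat_lit 8205324200) (nat_lit 380) (nat_lit 15818397678) (nat_lit 76) (nat_lit 20818690640) (nat_lit 88) (nat_lit 5) (nat_lit 93) (nat_lit 5) (nat_lit 89) (nat_lit 5) (nat_lit 300) (nat_lit 274) (nat_lit 146)) (XT.lf (nat_lit 0) (nat_lit 18306296950) (nat_lit 456) (nat_lit 27768727247) (nat_lit 76) (nat_lit 223811181) (nat_lit 83) (nat_lit 5) (nat_lit 89) (nat_lit 5) (nat_lit 84) (nat_lit 5) (nat_lit 301) (nat_lit 274)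 (nat_lit 145))))) (XT.nd (nat_lit 234) (nat_lit 608) (nat_lit 0) (XT.nd (nat_lit 78) (nat_lit 380) (nat_lit 0) (XT.lf (nat_lit 0) (nat_lit 6989440894) (nat_lit 304) (nat_lit 22392207360) (nat_lit 380) (nat_lit 18432357385) (nat_lit 79) (nat_lit 5) (nat_lit 83) (nat_lit 5) (nat_lit 84) (nat_lit 5) (nat_lit 302) (nat_lit 274) (nat_lit 144)) (XT.nd (nat_lit 78) (nat_lit 380) (nat_lit 0) (XT.lf (nat_lit 0) (nat_lit 41318613092) (nat_lit 380) (nat_lit 5363388036) (nat_lit 76) (nat_lit 2713703767) (nat_lit 79) (nat_lit 5) (nat_lit 84) (nat_lit 5) (nat_lit 80) (nat_lit 5) (nat_lit 303) (nat_lit 274) (nat_lit 143)) (XT.lf (nat_lit 0) (nat_lit 3278426216) (nat_lit 380) (nat_lit 18804084931) (nat_lit 76) (nat_lit 28957065659) (nat_lit 74) (nat_lit 5) (nat_lit 79) (nat_lit 5) (nat_lit 75) (nat_lit 5) (nat_lit 304) (nat_lit 274) (nat_lit 142)))) (XT.nd (nat_lit 78) (nat_lit 304) (nat_lit 0) (XT.lf (nat_lit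 0) (nat_lit 15312913155) (nat_lit 380) (nat_lit 33443151333) (nat_lit 76) (nat_lit 3998836663) (nat_lit 70) (nat_lit 5) (nat_lit 75) (nat_lit 5) (nat_lit 71) (nat_lit 5) (nat_lit 305) (nat_lit 274) (nat_lit 141)) (XT.nd (nat_lit 78) (nat_lit 0) (nat_lit 0) (XT.lf (nat_lit 0) (nat_lit 5043982240) (nat_lit 304) (nat_lit 23367835866) (nat_lit 380) (nat_lit 26130297712) (nat_lit 66) (nat_lit 5) (nat_lit 70) (nat_lit 5) (nat_lit 71) (nat_lit 5) (nat_lit 306) (nat_lit 274) (nat_lit 140)) (XT.lf (nat_lit 0) (nat_lit 42540932828) (nat_lit 380) (nat_lit 10294788618) (nat_lit 76) (nat_lit 3571716519) (nat_lit 66) (nat_lit 5) (nat_lit 71) (nat_lit 5) (nat_lit 67) (nat_lit 5) (nat_lit 307) (nat_lit 274) (nat_lit 139))))))) (XT.nd (nat_lit 858) (nat_lit 684) (nat_lit 0) (XT.nd (nat_lit 390) (nat_lit 988) (nat_lit 0) (XT.nd (nat_lit 156) (nat_lit 456) (nat_lit 0) (XT.nd (nat_lit 78) (nat_lit 380) (nat_lit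 0) (XT.lf (nat_lit 0) (nat_lit 31236955470) (nat_lit 228) (nat_lit 26671830519) (nat_lit 304) (nat_lit 441276207) (nat_lit 63) (nat_lit 5) (nat_lit 66) (nat_lit 5) (nat_lit 67) (nat_lit 5) (nat_lit 308) (nat_lit 274) (nat_lit 138)) (XT.lf (nat_lit 0) (nat_lit 13645982547) (nat_lit 380) (nat_lit 45564572029) (nat_lit 76) (nat_lit 1167612395) (nat_lit 58) (nat_lit 5) (nat_lit 63) (nat_lit 5) (nat_lit 59) (nat_lit 5) (nat_lit 309) (nat_lit 274) (nat_lit 137))) (XT.nd (nat_lit 78) (nat_lit 456) (nat_lit 0) (XT.lf (nat_lit 0) (nat_lit 28975997954) (nat_lit 380) (nat_lit 3377832371) (nat_lit 76) (nat_lit 30137293915) (nat_lit 58) (nat_lit 5) (nat_lit 63) (nat_lit 5) (nat_lit 59) (nat_lit 5) (nat_lit 310) (nat_lit 274) (nat_lit 136)) (XT.nd (nat_lit 78) (nat_lit 228) (nat_lit 0) (XT.lf (nat_lit 0) (nat_lit 41727428254) (nat_lit 228) (nat_lit 3742729696) (nat_lit 304) (nat_lit 19227645847) (nat_lit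 55) (nat_lit 5) (nat_lit 58) (nat_lit 5) (nat_lit 59) (nat_lit 5) (nat_lit 311) (nat_lit 274) (nat_lit 135)) (XT.lf (nat_lit 0) (nat_lit 22322193234) (nat_lit 228) (nat_lit 40965961556) (nat_lit 304) (nat_lit 3711692239) (nat_lit 52) (nat_lit 5) (nat_lit 55) (nat_lit 5) (nat_lit 56) (nat_lit 5) (nat_lit 312) (nat_lit 274) (nat_lit 134))))) (XT.nd (nat_lit 234) (nat_lit 456) (nat_lit 0) (XT.nd (nat_lit 78) (nat_lit 228) (nat_lit 0) (XT.lf (nat_lit 0) (nat_lit 799117054) (nat_lit 228) (nat_lit 11816433220) (nat_lit 304) (nat_lit 56789388420) (nat_lit 48) (nat_lit 5) (nat_lit 51) (nat_lit 5) (nat_lit 52) (nat_lit 5) (nat_lit 313) (nat_lit 274) (nat_lit 133)) (XT.nd (nat_lit 78) (nat_lit 228) (nat_lit 0) (XT.lf (nat_lit 0) (nat_lit 30325011575) (nat_lit 304) (nat_lit 22660650848) (nat_lit 76) (nat_lit 18924244567) (nat_lit 48) (nat_lit 5) (nat_lit 52) (nat_lit 5) (nat_lit 49) (nat_lit 5) (nat_lit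 314) (nat_lit 274) (nat_lit 132)) (XT.lf (nat_lit 0) (nat_lit 25964527807) (nat_lit 228) (nat_lit 23321232558) (nat_lit 304) (nat_lit 25243391891) (nat_lit 45) (nat_lit 5) (nat_lit 48) (nat_lit 5) (nat_lit 49) (nat_lit 5) (nat_lit 315) (nat_lit 274) (nat_lit 131)))) (XT.nd (nat_lit 78) (nat_lit 304) (nat_lit 0) (XT.lf (nat_lit 0) (nat_lit 142800664) (nat_lit 152) (nat_lit 69360979515) (nat_lit 228) (nat_lit 7766305445) (nat_lit 43) (nat_lit 5) (nat_lit 45) (nat_lit 5) (nat_lit 46) (nat_lit 5) (nat_lit 316) (nat_lit 274) (nat_lit 130)) (XT.nd (nat_lit 78) (nat_lit 228) (nat_lit 0) (XT.lf (nat_lit 0) (nat_lit 11115471947) (nat_lit 228) (nat_lit 28179212735) (nat_lit 76) (nat_lit 40828209798) (nat_lit 42) (nat_lit 5) (nat_lit 45) (nat_lit 5) (nat_lit 43) (nat_lit 5) (nat_lit 317) (nat_lit 274) (nat_lit 129)) (XT.lf (nat_lit 0) (nat_lit 23593977301) (nat_lit 228) (nat_lit 7412286416) (nat_lit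 304) (nat_lit 52103009406) (nat_lit 39) (nat_lit 5) (nat_lit 42) (nat_lit 5) (nat_lit 43) (nat_lit 5) (nat_lit 318) (nat_lit 274) (nat_lit 128)))))) (XT.nd (nat_lit 390) (nat_lit 152) (nat_lit 0) (XT.nd (nat_lit 156) (nat_lit 380) (nat_lit 0) (XT.nd (nat_lit 78) (nat_lit 152) (nat_lit 0) (XT.lf (nat_lit 0) (nat_lit 52432420488) (nat_lit 304) (nat_lit 7949242455) (nat_lit 76) (nat_lit 25847085378) (nat_lit 39) (nat_lit 5) (nat_lit 43) (nat_lit 5) (nat_lit 40) (nat_lit 5) (nat_lit 319) (nat_lit 274) (nat_lit 127)) (XT.lf (nat_lit 0) (nat_lit 47034059443) (nat_lit 152) (nat_lit 28420214914) (nat_lit 228) (nat_lit 14034193517) (nat_lit 37) (nat_lit 5) (nat_lit 39) (nat_lit 5) (nat_lit 40) (nat_lit 5) (nat_lit 320) (nat_lit 274) (nat_lit 126))) (XT.nd (nat_lit 78) (nat_lit 152) (nat_lit 0) (XT.lf (nat_lit 0) (nat_lit 6834353273) (nat_lit 228) (nat_lit 80762829237) (nat_lit 76) (nat_lit 5304575432)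 (nat_lit 34) (nat_lit 5) (nat_lit 37) (nat_lit 5) (nat_lit 35) (nat_lit 5) (nat_lit 321) (nat_lit 274) (nat_lit 125)) (XT.nd (nat_lit 78) (nat_lit 152) (nat_lit 0) (XT.lf (nat_lit 0) (nat_lit 29184566011) (nat_lit 228) (nat_lit 26560252126) (nat_lit 76) (nat_lit 40714873186) (nat_lit 34) (nat_lit 5) (nat_lit 37) (nat_lit 5) (nat_lit 35) (nat_lit 5) (nat_lit 322) (nat_lit 274) (nat_lit 124)) (XT.lf (nat_lit 0) (nat_lit 30952713883) (nat_lit 152) (nat_lit 21994806523) (nat_lit 228) (nat_lit 47239145943) (nat_lit 32) (nat_lit 5) (nat_lit 34) (nat_lit 5) (nat_lit 35) (nat_lit 5) (nat_lit 323) (nat_lit 274) (nat_lit 123))))) (XT.nd (nat_lit 33774) (nat_lit 0) (nat_lit 10260) (XT.nd (nat_lit 78) (nat_lit 152) (nat_lit 0) (XT.lf (nat_lit 0) (nat_lit 78301719466) (nat_lit 228) (nat_lit 12331041912) (nat_lit 76) (nat_lit 13455137655) (nat_lit 32) (nat_lit 5) (nat_lit 35) (nat_lit 5) (nat_lit 33) (nat_lit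 5) (nat_lit 324) (nat_lit 274) (nat_lit 122)) (XT.nd (nat_lit 33618) (nat_lit 0) (nat_lit 10260) (XT.lf (nat_lit 0) (nat_lit 48130707307) (nat_lit 152) (nat_lit 57475444743) (nat_lit 228) (nat_lit 2557567323) (nat_lit 30) (nat_lit 5) (nat_lit 32) (nat_lit 5) (nat_lit 33) (nat_lit 5) (nat_lit 325) (nat_lit 274) (nat_lit 121)) (XT.lf (nat_lit 0) (nat_lit 46882628) (nat_lit 0) (nat_lit 46882628) (nat_lit 1140) (nat_lit 11261148378) (nat_lit 165) (nat_lit 5) (nat_lit 165) (nat_lit 3) (nat_lit 180) (nat_lit 3) (nat_lit 275) (nat_lit 275) (nat_lit 170)))) (XT.nd (nat_lit 78) (nat_lit 0) (nat_lit 76) (XT.lf (nat_lit 0) (nat_lit 550123103) (nat_lit 1140) (nat_lit 6355556801) (nat_lit 1216) (nat_lit 16360817067) (nat_lit 165) (nat_lit 5) (nat_lit 180) (nat_lit 3) (nat_lit 181) (nat_lit 5) (nat_lit 276) (nat_lit 275) (nat_lit 169)) (XT.nd (nat_lit 78) (nat_lit 0) (nat_lit 76) (XT.lf (nat_lit 0) (nat_lit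 1119369183) (nat_lit 1140) (nat_lit 13019978854) (nat_lit 1216) (nat_lit 9706018096) (nat_lit 166) (nat_lit 5) (nat_lit 181) (nat_lit 5) (nat_lit 182) (nat_lit 5) (nat_lit 277) (nat_lit 275) (nat_lit 168)) (XT.lf (nat_lit 0) (nat_lit 1910379803) (nat_lit 1140) (nat_lit 19915317178) (nat_lit 1216) (nat_lit 2621703363) (nat_lit 167) (nat_lit 5) (nat_lit 182) (nat_lit 5) (nat_lit 183) (nat_lit 5) (nat_lit 278) (nat_lit 275) (nat_lit 167))))))))
noncomputable def xc107 : XT := (XT.nd (nat_lit 1716) (nat_lit 4484) (nat_lit 0) (XT.nd (nat_lit 858) (nat_lit 3648) (nat_lit 0) (XT.nd (nat_lit 390) (nat_lit 1976) (nat_lit 0) (XT.nd (nat_lit 156) (nat_lit 0) (nat_lit 152) (XT.nd (nat_lit 78) (nat_lit 0) (nat_lit 76) (XT.lf (nat_lit 0) (nat_lit 3007565743) (nat_lit 1140) (nat_lit 1992957751) (nat_lit 1216) (nat_lit 20071033701) (nat_lit 167) (nat_lit 5) (nat_lit 182) (nat_lit 5) (nat_lit 183) (nat_lit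 5) (nat_lit 279) (nat_lit 275) (nat_lit 166)) (XT.lf (nat_lit 0) (nat_lit 4437024749) (nat_lit 1140) (nat_lit 8692387778) (nat_lit 1216) (nat_lit 12589205685) (nat_lit 168) (nat_lit 5) (nat_lit 183) (nat_lit 5) (nat_lit 184) (nat_lit 5) (nat_lit 280) (nat_lit 275) (nat_lit 165))) (XT.nd (nat_lit 78) (nat_lit 0) (nat_lit 0) (XT.lf (nat_lit 0) (nat_lit 6147585950) (nat_lit 1140) (nat_lit 15644709806) (nat_lit 1216) (nat_lit 4599465492) (nat_lit 169) (nat_lit 5) (nat_lit 184) (nat_lit 5) (nat_lit 185) (nat_lit 5) (nat_lit 281) (nat_lit 275) (nat_lit 164)) (XT.nd (nat_lit 78) (nat_lit 0) (nat_lit 76) (XT.lf (nat_lit 76) (nat_lit 4185296240) (nat_lit 0) (nat_lit 4011547472) (nat_lit 1216) (nat_lit 18894139664) (nat_lit 170) (nat_lit 5) (nat_lit 169) (nat_lit 5) (nat_lit 185) (nat_lit 5) (nat_lit 282) (nat_lit 275) (nat_lit 163)) (XT.lf (nat_lit 0) (nat_lit 10642594424) (nat_lit 1140) (nat_lit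 2636423766) (nat_lit 1216) (nat_lit 14537343705) (nat_lit 170) (nat_lit 5) (nat_lit 185) (nat_lit 5) (nat_lit 186) (nat_lit 5) (nat_lit 283) (nat_lit 275) (nat_lit 162))))) (XT.nd (nat_lit 234) (nat_lit 1216) (nat_lit 0) (XT.nd (nat_lit 78) (nat_lit 1064) (nat_lit 0) (XT.lf (nat_lit 0) (nat_lit 13477698070) (nat_lit 1140) (nat_lit 9655915613) (nat_lit 1216) (nat_lit 5436399109) (nat_lit 171) (nat_lit 5) (nat_lit 186) (nat_lit 5) (nat_lit 187) (nat_lit 5) (nat_lit 284) (nat_lit 275) (nat_lit 161)) (XT.nd (nat_lit 78) (nat_lit 1064) (nat_lit 0) (XT.lf (nat_lit 76) (nat_lit 12336062856) (nat_lit 0) (nat_lit 4389833815) (nat_lit 1216) (nat_lit 12627324052) (nat_lit 172) (nat_lit 5) (nat_lit 171) (nat_lit 5) (nat_lit 187) (nat_lit 5) (nat_lit 285) (nat_lit 275) (nat_lit 160)) (XT.lf (nat_lit 0) (nat_lit 5407213530) (nat_lit 1140) (nat_lit 15020322812) (nat_lit 1216) (nat_lit 9739335756) (nat_lit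 157) (nat_lit 5) (nat_lit 172) (nat_lit 5) (nat_lit 173) (nat_lit 5) (nat_lit 286) (nat_lit 275) (nat_lit 159)))) (XT.nd (nat_lit 78) (nat_lit 1216) (nat_lit 0) (XT.lf (nat_lit 0) (nat_lit 24570796867) (nat_lit 1216) (nat_lit 1804079317) (nat_lit 76) (nat_lit 4638647007) (nat_lit 157) (nat_lit 5) (nat_lit 173) (nat_lit 5) (nat_lit 158) (nat_lit 5) (nat_lit 287) (nat_lit 275) (nat_lit 158)) (XT.nd (nat_lit 78) (nat_lit 684) (nat_lit 0) (XT.lf (nat_lit 0) (nat_lit 22581463181) (nat_lit 532) (nat_lit 6700829874) (nat_lit 608) (nat_lit 2609394287) (nat_lit 150) (nat_lit 5) (nat_lit 157) (nat_lit 5) (nat_lit 158) (nat_lit 5) (nat_lit 288) (nat_lit 275) (nat_lit 157)) (XT.lf (nat_lit 0) (nat_lit 1686217992) (nat_lit 684) (nat_lit 17248014293) (nat_lit 76) (nat_lit 13870183798) (nat_lit 141) (nat_lit 5) (nat_lit 150) (nat_lit 5) (nat_lit 142) (nat_lit 5) (nat_lit 289) (nat_lit 275) (nat_lit 156))))))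 (XT.nd (nat_lit 390) (nat_lit 1672) (nat_lit 0) (XT.nd (nat_lit 156) (nat_lit 912) (nat_lit 0) (XT.nd (nat_lit 78) (nat_lit 532) (nat_lit 0) (XT.lf (nat_lit 0) (nat_lit 6396006912) (nat_lit 608) (nat_lit 25613597993) (nat_lit 76) (nat_lit 1744811587) (nat_lit 134) (nat_lit 5) (nat_lit 142) (nat_lit 5) (nat_lit 135) (nat_lit 5) (nat_lit 290) (nat_lit 275) (nat_lit 155)) (XT.lf (nat_lit 0) (nat_lit 217439494) (nat_lit 532) (nat_lit 11489538246) (nat_lit 608) (nat_lit 23033979043) (nat_lit 127) (nat_lit 5) (nat_lit 134) (nat_lit 5) (nat_lit 135) (nat_lit 5) (nat_lit 291) (nat_lit 275) (nat_lit 154))) (XT.nd (nat_lit 78) (nat_lit 912) (nat_lit 0) (XT.lf (nat_lit 0) (nat_lit 17639889358) (nat_lit 608) (nat_lit 7999798212) (nat_lit 76) (nat_lit 10126454881) (nat_lit 127) (nat_lit 5) (nat_lit 135) (nat_lit 5) (nat_lit 128) (nat_lit 5) (nat_lit 292) (nat_lit 275) (nat_lit 153)) (XT.nd (nat_lit 78)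 (nat_lit 456) (nat_lit 0) (XT.lf (nat_lit 0) (nat_lit 20120203672) (nat_lit 456) (nat_lit 4052372269) (nat_lit 532) (nat_lit 12660927228) (nat_lit 121) (nat_lit 5) (nat_lit 127) (nat_lit 5) (nat_lit 128) (nat_lit 5) (nat_lit 293) (nat_lit 275) (nat_lit 152)) (XT.lf (nat_lit 0) (nat_lit 11907678484) (nat_lit 456) (nat_lit 19494768337) (nat_lit 532) (nat_lit 6540677790) (nat_lit 115) (nat_lit 5) (nat_lit 121) (nat_lit 5) (nat_lit 122) (nat_lit 5) (nat_lit 294) (nat_lit 275) (nat_lit 151))))) (XT.nd (nat_lit 234) (nat_lit 760) (nat_lit 0) (XT.nd (nat_lit 78) (nat_lit 456) (nat_lit 0) (XT.lf (nat_lit 0) (nat_lit 157310792) (nat_lit 456) (nat_lit 35910056908) (nat_lit 76) (nat_lit 3032816095) (nat_lit 109) (nat_lit 5) (nat_lit 115) (nat_lit 5) (nat_lit 110) (nat_lit 5) (nat_lit 295) (nat_lit 275) (nat_lit 150)) (XT.nd (nat_lit 78) (nat_lit 456) (nat_lit 0) (XT.lf (nat_lit 0) (nat_lit 7517974638)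 (nat_lit 456) (nat_lit 6157922528) (nat_lit 76) (nat_lit 26623372676) (nat_lit 109) (nat_lit 5) (nat_lit 115) (nat_lit 5) (nat_lit 110) (nat_lit 5) (nat_lit 296) (nat_lit 275) (nat_lit 149)) (XT.lf (nat_lit 0) (nat_lit 15584106598) (nat_lit 532) (nat_lit 16073364349) (nat_lit 76) (nat_lit 9890723902) (nat_lit 103) (nat_lit 5) (nat_lit 110) (nat_lit 5) (nat_lit 104) (nat_lit 5) (nat_lit 297) (nat_lit 275) (nat_lit 148)))) (XT.nd (nat_lit 78) (nat_lit 380) (nat_lit 0) (XT.lf (nat_lit 0) (nat_lit 16130191815) (nat_lit 380) (nat_lit 8275276511) (nat_lit 456) (nat_lit 18443547423) (nat_lit 98) (nat_lit 5) (nat_lit 103) (nat_lit 5) (nat_lit 104) (nat_lit 5) (nat_lit 298) (nat_lit 275) (nat_lit 147)) (XT.nd (nat_lit 78) (nat_lit 0) (nat_lit 0) (XT.lf (nat_lit 0) (nat_lit 6023224301) (nat_lit 380) (nat_lit 28021125012) (nat_lit 456) (nat_lit 10159241837) (nat_lit 93) (nat_lit 5) (nat_lit 98) (nat_lit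 5) (nat_lit 99) (nat_lit 5) (nat_lit 299) (nat_lit 275) (nat_lit 146)) (XT.lf (nat_lit 0) (nat_lit 40869593303) (nat_lit 380) (nat_lit 3648512158) (nat_lit 456) (nat_lit 1097208582) (nat_lit 93) (nat_lit 5) (nat_lit 98) (nat_lit 5) (nat_lit 99) (nat_lit 5) (nat_lit 300) (nat_lit 275) (nat_lit 145))))))) (XT.nd (nat_lit 858) (nat_lit 1824) (nat_lit 0) (XT.nd (nat_lit 390) (nat_lit 1216) (nat_lit 0) (XT.nd (nat_lit 156) (nat_lit 684) (nat_lit 0) (XT.nd (nat_lit 78) (nat_lit 380) (nat_lit 0) (XT.lf (nat_lit 0) (nat_lit 8760478913) (nat_lit 380) (nat_lit 16424597433) (nat_lit 76) (nat_lit 21894920843) (nat_lit 88) (nat_lit 5) (nat_lit 93) (nat_lit 5) (nat_lit 89) (nat_lit 5) (nat_lit 301) (nat_lit 275) (nat_lit 144)) (XT.lf (nat_lit 0) (nat_lit 19361707322) (nat_lit 456) (nat_lit 28973748477) (nat_lit 76) (nat_lit 273938196) (nat_lit 83) (nat_lit 5) (nat_lit 89) (nat_lit 5) (nat_lit 84) (nat_lit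 5) (nat_lit 302) (nat_lit 275) (nat_lit 143))) (XT.nd (nat_lit 78) (nat_lit 380) (nat_lit 0) (XT.lf (nat_lit 0) (nat_lit 7517070513) (nat_lit 304) (nat_lit 23468797022) (nat_lit 380) (nat_lit 19214612579) (nat_lit 79) (nat_lit 5) (nat_lit 83) (nat_lit 5) (nat_lit 84) (nat_lit 5) (nat_lit 303) (nat_lit 275) (nat_lit 142)) (XT.nd (nat_lit 78) (nat_lit 380) (nat_lit 0) (XT.lf (nat_lit 0) (nat_lit 43513639375) (nat_lit 380) (nat_lit 5458252829) (nat_lit 76) (nat_lit 2889561542) (nat_lit 79) (nat_lit 5) (nat_lit 84) (nat_lit 5) (nat_lit 80) (nat_lit 5) (nat_lit 304) (nat_lit 275) (nat_lit 141)) (XT.lf (nat_lit 0) (nat_lit 3568299930) (nat_lit 380) (nat_lit 19573294410) (nat_lit 76) (nat_lit 30446031533) (nat_lit 74) (nat_lit 5) (nat_lit 79) (nat_lit 5) (nat_lit 75) (nat_lit 5) (nat_lit 305) (nat_lit 275) (nat_lit 140))))) (XT.nd (nat_lit 234) (nat_lit 608) (nat_lit 0) (XT.nd (nat_lit 78) (nat_lit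 304) (nat_lit 0) (XT.lf (nat_lit 0) (nat_lit 16200538237) (nat_lit 380) (nat_lit 34945853288) (nat_lit 76) (nat_lit 4242451299) (nat_lit 70) (nat_lit 5) (nat_lit 75) (nat_lit 5) (nat_lit 71) (nat_lit 5) (nat_lit 306) (nat_lit 275) (nat_lit 139)) (XT.nd (nat_lit 78) (nat_lit 0) (nat_lit 0) (XT.lf (nat_lit 0) (nat_lit 5460779552) (nat_lit 304) (nat_lit 24489382558) (nat_lit 380) (nat_lit 27315389762) (nat_lit 66) (nat_lit 5) (nat_lit 70) (nat_lit 5) (nat_lit 71) (nat_lit 5) (nat_lit 307) (nat_lit 275) (nat_lit 138)) (XT.lf (nat_lit 0) (nat_lit 44780554138) (nat_lit 380) (nat_lit 10649701731) (nat_lit 76) (nat_lit 3794046140) (nat_lit 66) (nat_lit 5) (nat_lit 71) (nat_lit 5) (nat_lit 67) (nat_lit 5) (nat_lit 308) (nat_lit 275) (nat_lit 137)))) (XT.nd (nat_lit 78) (nat_lit 380) (nat_lit 0) (XT.lf (nat_lit 0) (nat_lit 32954048171) (nat_lit 228) (nat_lit 27958883397) (nat_lit 304) (nat_lit 351248156)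 (nat_lit 63) (nat_lit 5) (nat_lit 66) (nat_lit 5) (nat_lit 67) (nat_lit 5) (nat_lit 309) (nat_lit 275) (nat_lit 136)) (XT.nd (nat_lit 78) (nat_lit 0) (nat_lit 0) (XT.lf (nat_lit 0) (nat_lit 14434874535) (nat_lit 380) (nat_lit 47686915340) (nat_lit 76) (nat_lit 1271972639) (nat_lit 58) (nat_lit 5) (nat_lit 63) (nat_lit 5) (nat_lit 59) (nat_lit 5) (nat_lit 310) (nat_lit 275) (nat_lit 135)) (XT.lf (nat_lit 0) (nat_lit 30526314861) (nat_lit 380) (nat_lit 3398261809) (nat_lit 76) (nat_lit 31687948729) (nat_lit 58) (nat_lit 5) (nat_lit 63) (nat_lit 5) (nat_lit 59) (nat_lit 5) (nat_lit 311) (nat_lit 275) (nat_lit 134)))))) (XT.nd (nat_lit 468) (nat_lit 684) (nat_lit 0) (XT.nd (nat_lit 234) (nat_lit 380) (nat_lit 0) (XT.nd (nat_lit 78) (nat_lit 532) (nat_lit 0) (XT.lf (nat_lit 0) (nat_lit 43958006209) (nat_lit 228) (nat_lit 3883728706) (nat_lit 304) (nat_lit 20087912674) (nat_lit 55) (nat_lit 5)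 (nat_lit 58) (nat_lit 5) (nat_lit 59) (nat_lit 5) (nat_lit 312) (nat_lit 275) (nat_lit 133)) (XT.nd (nat_lit 78) (nat_lit 304) (nat_lit 0) (XT.lf (nat_lit 0) (nat_lit 23580904071) (nat_lit 228) (nat_lit 42966850722) (nat_lit 304) (nat_lit 3799129461) (nat_lit 52) (nat_lit 5) (nat_lit 55) (nat_lit 5) (nat_lit 56) (nat_lit 5) (nat_lit 313) (nat_lit 275) (nat_lit 132)) (XT.lf (nat_lit 0) (nat_lit 979540457) (nat_lit 228) (nat_lit 12359787287) (nat_lit 304) (nat_lit 59532976015) (nat_lit 48) (nat_lit 5) (nat_lit 51) (nat_lit 5) (nat_lit 52) (nat_lit 5) (nat_lit 314) (nat_lit 275) (nat_lit 131)))) (XT.nd (nat_lit 78) (nat_lit 380) (nat_lit 0) (XT.lf (nat_lit 0) (nat_lit 31930268101) (nat_lit 304) (nat_lit 23657594693) (nat_lit 76) (nat_lit 19914781872) (nat_lit 48) (nat_lit 5) (nat_lit 52) (nat_lit 5) (nat_lit 49) (nat_lit 5) (nat_lit 315) (nat_lit 275) (nat_lit 130)) (XT.nd (nat_lit 78) (nat_lit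 152) (nat_lit 0) (XT.lf (nat_lit 0) (nat_lit 27394941940) (nat_lit 228) (nat_lit 24441144682) (nat_lit 304) (nat_lit 26416858772) (nat_lit 45) (nat_lit 5) (nat_lit 48) (nat_lit 5) (nat_lit 49) (nat_lit 5) (nat_lit 316) (nat_lit 275) (nat_lit 129)) (XT.lf (nat_lit 0) (nat_lit 280496503) (nat_lit 152) (nat_lit 72782091338) (nat_lit 228) (nat_lit 8068414143) (nat_lit 43) (nat_lit 5) (nat_lit 45) (nat_lit 5) (nat_lit 46) (nat_lit 5) (nat_lit 317) (nat_lit 275) (nat_lit 128))))) (XT.nd (nat_lit 234) (nat_lit 380) (nat_lit 0) (XT.nd (nat_lit 78) (nat_lit 228) (nat_lit 0) (XT.lf (nat_lit 0) (nat_lit 11751744948) (nat_lit 228) (nat_lit 29462159032) (nat_lit 76) (nat_lit 42912646861) (nat_lit 42) (nat_lit 5) (nat_lit 45) (nat_lit 5) (nat_lit 43) (nat_lit 5) (nat_lit 318) (nat_lit 275) (nat_lit 127)) (XT.nd (nat_lit 78) (nat_lit 0) (nat_lit 0) (XT.lf (nat_lit 0) (nat_lit 24896078330) (nat_lit 228)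 (nat_lit 7738341276) (nat_lit 304) (nat_lit 54627912006) (nat_lit 39) (nat_lit 5) (nat_lit 42) (nat_lit 5) (nat_lit 43) (nat_lit 5) (nat_lit 319) (nat_lit 275) (nat_lit 126)) (XT.lf (nat_lit 0) (nat_lit 55128585356) (nat_lit 304) (nat_lit 8228248389) (nat_lit 76) (nat_lit 27181049119) (nat_lit 39) (nat_lit 5) (nat_lit 43) (nat_lit 5) (nat_lit 40) (nat_lit 5) (nat_lit 320) (nat_lit 275) (nat_lit 125)))) (XT.nd (nat_lit 78) (nat_lit 228) (nat_lit 0) (XT.lf (nat_lit 0) (nat_lit 49500823081) (nat_lit 152) (nat_lit 29798265164) (nat_lit 228) (nat_lit 14661576628) (nat_lit 37) (nat_lit 5) (nat_lit 39) (nat_lit 5) (nat_lit 40) (nat_lit 5) (nat_lit 321) (nat_lit 275) (nat_lit 124)) (XT.nd (nat_lit 78) (nat_lit 0) (nat_lit 0) (XT.lf (nat_lit 0) (nat_lit 7246976085) (nat_lit 228) (nat_lit 84685977009) (nat_lit 76) (nat_lit 5611706978) (nat_lit 34) (nat_lit 5) (nat_lit 37) (nat_lit 5) (nat_lit 35) (nat_lit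 5) (nat_lit 322) (nat_lit 275) (nat_lit 123)) (XT.lf (nat_lit 0) (nat_lit 30711323025) (nat_lit 228) (nat_lit 27778746933) (nat_lit 76) (nat_lit 42790524249) (nat_lit 34) (nat_lit 5) (nat_lit 37) (nat_lit 5) (nat_lit 35) (nat_lit 5) (nat_lit 323) (nat_lit 275) (nat_lit 122))))))))
noncomputable def xc108 : XT := (XT.nd (nat_lit 35334) (nat_lit 0) (nat_lit 988) (XT.nd (nat_lit 34476) (nat_lit 0) (nat_lit 6308) (XT.nd (nat_lit 34008) (nat_lit 0) (nat_lit 10260) (XT.nd (nat_lit 33774) (nat_lit 0) (nat_lit 10108) (XT.nd (nat_lit 78) (nat_lit 0) (nat_lit 0) (XT.lf (nat_lit 0) (nat_lit 32606728071) (nat_lit 152) (nat_lit 23053503991) (nat_lit 228) (nat_lit 49533754373) (nat_lit 32) (nat_lit 5) (nat_lit 34) (nat_lit 5) (nat_lit 35) (nat_lit 5) (nat_lit 324) (nat_lit 275) (nat_lit 121)) (XT.lf (nat_lit 0) (nat_lit 82279405596) (nat_lit 228) (nat_lit 12844739535) (nat_lit 76) (nat_lit 14166220218)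 (nat_lit 32) (nat_lit 5) (nat_lit 35) (nat_lit 5) (nat_lit 33) (nat_lit 5) (nat_lit 325) (nat_lit 275) (nat_lit 120))) (XT.nd (nat_lit 78) (nat_lit 0) (nat_lit 0) (XT.lf (nat_lit 0) (nat_lit 146437042) (nat_lit 0) (nat_lit 146437042) (nat_lit 1140) (nat_lit 11623619054) (nat_lit 165) (nat_lit 5) (nat_lit 165) (nat_lit 3) (nat_lit 180) (nat_lit 3) (nat_lit 276) (nat_lit 276) (nat_lit 168)) (XT.nd (nat_lit 78) (nat_lit 0) (nat_lit 76) (XT.lf (nat_lit 0) (nat_lit 946174251) (nat_lit 1140) (nat_lit 6474647204) (nat_lit 1216) (nat_lit 16997308663) (nat_lit 165) (nat_lit 5) (nat_lit 180) (nat_lit 3) (nat_lit 181) (nat_lit 5) (nat_lit 277) (nat_lit 276) (nat_lit 167)) (XT.lf (nat_lit 0) (nat_lit 1526651375) (nat_lit 1140) (nat_lit 13465258430) (nat_lit 1216) (nat_lit 10034580125) (nat_lit 166) (nat_lit 5) (nat_lit 181) (nat_lit 5) (nat_lit 182) (nat_lit 5) (nat_lit 278) (nat_lit 276) (nat_lit 166)))))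 (XT.nd (nat_lit 234) (nat_lit 0) (nat_lit 152) (XT.nd (nat_lit 78) (nat_lit 0) (nat_lit 0) (XT.lf (nat_lit 0) (nat_lit 2341090237) (nat_lit 1140) (nat_lit 20699275251) (nat_lit 1216) (nat_lit 2618772846) (nat_lit 167) (nat_lit 5) (nat_lit 182) (nat_lit 5) (nat_lit 183) (nat_lit 5) (nat_lit 279) (nat_lit 276) (nat_lit 165)) (XT.nd (nat_lit 78) (nat_lit 0) (nat_lit 76) (XT.lf (nat_lit 0) (nat_lit 3477173976) (nat_lit 1140) (nat_lit 1890883938) (nat_lit 1216) (nat_lit 20946951400) (nat_lit 167) (nat_lit 5) (nat_lit 182) (nat_lit 5) (nat_lit 183) (nat_lit 5) (nat_lit 280) (nat_lit 276) (nat_lit 164)) (XT.lf (nat_lit 0) (nat_lit 4963730873) (nat_lit 1140) (nat_lit 8920310587) (nat_lit 1216) (nat_lit 13110839310) (nat_lit 168) (nat_lit 5) (nat_lit 183) (nat_lit 5) (nat_lit 184) (nat_lit 5) (nat_lit 281) (nat_lit 276) (nat_lit 163)))) (XT.nd (nat_lit 78) (nat_lit 0) (nat_lit 0) (XT.lf (nat_lit 0)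 (nat_lit 6746353656) (nat_lit 1140) (nat_lit 16216028262) (nat_lit 1216) (nat_lit 4739727925) (nat_lit 169) (nat_lit 5) (nat_lit 184) (nat_lit 5) (nat_lit 185) (nat_lit 5) (nat_lit 282) (nat_lit 276) (nat_lit 162)) (XT.nd (nat_lit 78) (nat_lit 0) (nat_lit 76) (XT.lf (nat_lit 76) (nat_lit 4599432192) (nat_lit 0) (nat_lit 4286735822) (nat_lit 1216) (nat_lit 19550505957) (nat_lit 170) (nat_lit 5) (nat_lit 169) (nat_lit 5) (nat_lit 185) (nat_lit 5) (nat_lit 283) (nat_lit 276) (nat_lit 161)) (XT.lf (nat_lit 0) (nat_lit 11440214536) (nat_lit 1140) (nat_lit 2564009792) (nat_lit 1216) (nat_lit 15194539417) (nat_lit 170) (nat_lit 5) (nat_lit 185) (nat_lit 5) (nat_lit 186) (nat_lit 5) (nat_lit 284) (nat_lit 276) (nat_lit 160)))))) (XT.nd (nat_lit 390) (nat_lit 2660) (nat_lit 0) (XT.nd (nat_lit 156) (nat_lit 1596) (nat_lit 0) (XT.nd (nat_lit 78) (nat_lit 0) (nat_lit 0) (XT.lf (nat_lit 0) (nat_lit 14405796020)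 (nat_lit 1140) (nat_lit 9931716009) (nat_lit 1216) (nat_lit 5652944980) (nat_lit 171) (nat_lit 5) (nat_lit 186) (nat_lit 5) (nat_lit 187) (nat_lit 5) (nat_lit 285) (nat_lit 276) (nat_lit 159)) (XT.lf (nat_lit 76) (nat_lit 13153927903) (nat_lit 0) (nat_lit 4652303995) (nat_lit 1216) (nat_lit 13006919096) (nat_lit 172) (nat_lit 5) (nat_lit 171) (nat_lit 5) (nat_lit 187) (nat_lit 5) (nat_lit 286) (nat_lit 276) (nat_lit 158))) (XT.nd (nat_lit 78) (nat_lit 532) (nat_lit 0) (XT.lf (nat_lit 0) (nat_lit 5880783169) (nat_lit 1140) (nat_lit 15802109318) (nat_lit 1216) (nat_lit 9984913784) (nat_lit 157) (nat_lit 5) (nat_lit 172) (nat_lit 5) (nat_lit 173) (nat_lit 5) (nat_lit 287) (nat_lit 276) (nat_lit 157)) (XT.nd (nat_lit 78) (nat_lit 532) (nat_lit 0) (XT.lf (nat_lit 0) (nat_lit 26021892467) (nat_lit 1216) (nat_lit 1693412638) (nat_lit 76) (nat_lit 4841846096) (nat_lit 157) (nat_lit 5) (nat_lit 173)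 (nat_lit 5) (nat_lit 158) (nat_lit 5) (nat_lit 288) (nat_lit 276) (nat_lit 156)) (XT.lf (nat_lit 0) (nat_lit 23905649069) (nat_lit 532) (nat_lit 7054592046) (nat_lit 608) (nat_lit 2519261805) (nat_lit 150) (nat_lit 5) (nat_lit 157) (nat_lit 5) (nat_lit 158) (nat_lit 5) (nat_lit 289) (nat_lit 276) (nat_lit 155))))) (XT.nd (nat_lit 234) (nat_lit 912) (nat_lit 0) (XT.nd (nat_lit 78) (nat_lit 1064) (nat_lit 0) (XT.lf (nat_lit 0) (nat_lit 1978258726) (nat_lit 684) (nat_lit 17909684227) (nat_lit 76) (nat_lit 14550134912) (nat_lit 141) (nat_lit 5) (nat_lit 150) (nat_lit 5) (nat_lit 142) (nat_lit 5) (nat_lit 290) (nat_lit 276) (nat_lit 154)) (XT.nd (nat_lit 78) (nat_lit 532) (nat_lit 0) (XT.lf (nat_lit 0) (nat_lit 6915473914) (nat_lit 608) (nat_lit 26692952585) (nat_lit 76) (nat_lit 1827409268) (nat_lit 134) (nat_lit 5) (nat_lit 142) (nat_lit 5) (nat_lit 135) (nat_lit 5) (nat_lit 291) (nat_lit 276)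 (nat_lit 153)) (XT.lf (nat_lit 0) (nat_lit 423865826) (nat_lit 532) (nat_lit 12060499309) (nat_lit 608) (nat_lit 23987581618) (nat_lit 127) (nat_lit 5) (nat_lit 134) (nat_lit 5) (nat_lit 135) (nat_lit 5) (nat_lit 292) (nat_lit 276) (nat_lit 152)))) (XT.nd (nat_lit 78) (nat_lit 912) (nat_lit 0) (XT.lf (nat_lit 0) (nat_lit 18704809830) (nat_lit 608) (nat_lit 8207808665) (nat_lit 76) (nat_lit 10636060713) (nat_lit 127) (nat_lit 5) (nat_lit 135) (nat_lit 5) (nat_lit 128) (nat_lit 5) (nat_lit 293) (nat_lit 276) (nat_lit 151)) (XT.nd (nat_lit 78) (nat_lit 456) (nat_lit 0) (XT.lf (nat_lit 0) (nat_lit 21312690260) (nat_lit 456) (nat_lit 4244522245) (nat_lit 532) (nat_lit 13112416460) (nat_lit 121) (nat_lit 5) (nat_lit 127) (nat_lit 5) (nat_lit 128) (nat_lit 5) (nat_lit 294) (nat_lit 276) (nat_lit 150)) (XT.lf (nat_lit 0) (nat_lit 12689486048) (nat_lit 456) (nat_lit 20452597416) (nat_lit 532) (nat_lit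 6692855636) (nat_lit 115) (nat_lit 5) (nat_lit 121) (nat_lit 5) (nat_lit 122) (nat_lit 5) (nat_lit 295) (nat_lit 276) (nat_lit 149))))))) (XT.nd (nat_lit 858) (nat_lit 2204) (nat_lit 0) (XT.nd (nat_lit 390) (nat_lit 1444) (nat_lit 0) (XT.nd (nat_lit 156) (nat_lit 1216) (nat_lit 0) (XT.nd (nat_lit 78) (nat_lit 0) (nat_lit 0) (XT.lf (nat_lit 0) (nat_lit 330419363) (nat_lit 456) (nat_lit 37515923513) (nat_lit 76) (nat_lit 3203655820) (nat_lit 109) (nat_lit 5) (nat_lit 115) (nat_lit 5) (nat_lit 110) (nat_lit 5) (nat_lit 296) (nat_lit 276) (nat_lit 148)) (XT.lf (nat_lit 0) (nat_lit 8051247685) (nat_lit 456) (nat_lit 6285212711) (nat_lit 76) (nat_lit 27972825996) (nat_lit 109) (nat_lit 5) (nat_lit 115) (nat_lit 5) (nat_lit 110) (nat_lit 5) (nat_lit 297) (nat_lit 276) (nat_lit 147))) (XT.nd (nat_lit 78) (nat_lit 760) (nat_lit 0) (XT.lf (nat_lit 0) (nat_lit 16515107937) (nat_lit 532) (nat_lit 16697071072)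 (nat_lit 76) (nat_lit 10408656738) (nat_lit 103) (nat_lit 5) (nat_lit 110) (nat_lit 5) (nat_lit 104) (nat_lit 5) (nat_lit 298) (nat_lit 276) (nat_lit 146)) (XT.nd (nat_lit 78) (nat_lit 380) (nat_lit 0) (XT.lf (nat_lit 0) (nat_lit 17111504340) (nat_lit 380) (nat_lit 8660485344) (nat_lit 456) (nat_lit 19214884688) (nat_lit 98) (nat_lit 5) (nat_lit 103) (nat_lit 5) (nat_lit 104) (nat_lit 5) (nat_lit 299) (nat_lit 276) (nat_lit 145)) (XT.lf (nat_lit 0) (nat_lit 6498371671) (nat_lit 380) (nat_lit 29389412739) (nat_lit 456) (nat_lit 10521554790) (nat_lit 93) (nat_lit 5) (nat_lit 98) (nat_lit 5) (nat_lit 99) (nat_lit 5) (nat_lit 300) (nat_lit 276) (nat_lit 144))))) (XT.nd (nat_lit 234) (nat_lit 684) (nat_lit 0) (XT.nd (nat_lit 78) (nat_lit 760) (nat_lit 0) (XT.lf (nat_lit 0) (nat_lit 43078774068) (nat_lit 380) (nat_lit 3799729649) (nat_lit 456) (nat_lit 1013355545) (nat_lit 93) (nat_lit 5) (nat_lit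 98) (nat_lit 5) (nat_lit 99) (nat_lit 5) (nat_lit 301) (nat_lit 276) (nat_lit 143)) (XT.nd (nat_lit 78) (nat_lit 380) (nat_lit 0) (XT.lf (nat_lit 0) (nat_lit 9329921001) (nat_lit 380) (nat_lit 17078280703) (nat_lit 76) (nat_lit 23021681100) (nat_lit 88) (nat_lit 5) (nat_lit 93) (nat_lit 5) (nat_lit 89) (nat_lit 5) (nat_lit 302) (nat_lit 276) (nat_lit 142)) (XT.lf (nat_lit 0) (nat_lit 20456863459) (nat_lit 456) (nat_lit 30256072970) (nat_lit 76) (nat_lit 322951620) (nat_lit 83) (nat_lit 5) (nat_lit 89) (nat_lit 5) (nat_lit 84) (nat_lit 5) (nat_lit 303) (nat_lit 276) (nat_lit 141)))) (XT.nd (nat_lit 78) (nat_lit 380) (nat_lit 0) (XT.lf (nat_lit 0) (nat_lit 8054518210) (nat_lit 304) (nat_lit 24603215825) (nat_lit 380) (nat_lit 20048937154) (nat_lit 79) (nat_lit 5) (nat_lit 83) (nat_lit 5) (nat_lit 84) (nat_lit 5) (nat_lit 304) (nat_lit 276) (nat_lit 140)) (XT.nd (nat_lit 78) (nat_lit 380) (nat_lit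 0) (XT.lf (nat_lit 0) (nat_lit 45806414884) (nat_lit 380) (nat_lit 5573973082) (nat_lit 76) (nat_lit 3070477341) (nat_lit 79) (nat_lit 5) (nat_lit 84) (nat_lit 5) (nat_lit 80) (nat_lit 5) (nat_lit 305) (nat_lit 276) (nat_lit 139)) (XT.lf (nat_lit 0) (nat_lit 3860957469) (nat_lit 380) (nat_lit 20396861836) (nat_lit 76) (nat_lit 32005623442) (nat_lit 74) (nat_lit 5) (nat_lit 79) (nat_lit 5) (nat_lit 75) (nat_lit 5) (nat_lit 306) (nat_lit 276) (nat_lit 138)))))) (XT.nd (nat_lit 390) (nat_lit 988) (nat_lit 0) (XT.nd (nat_lit 156) (nat_lit 608) (nat_lit 0) (XT.nd (nat_lit 78) (nat_lit 304) (nat_lit 0) (XT.lf (nat_lit 0) (nat_lit 17121204082) (nat_lit 380) (nat_lit 36539444718) (nat_lit 76) (nat_lit 4494186384) (nat_lit 70) (nat_lit 5) (nat_lit 75) (nat_lit 5) (nat_lit 71) (nat_lit 5) (nat_lit 307) (nat_lit 276) (nat_lit 137)) (XT.lf (nat_lit 0) (nat_lit 5883113949) (nat_lit 304) (nat_lit 25671361798)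 (nat_lit 380) (nat_lit 28571025159) (nat_lit 66) (nat_lit 5) (nat_lit 70) (nat_lit 5) (nat_lit 71) (nat_lit 5) (nat_lit 308) (nat_lit 276) (nat_lit 136))) (XT.nd (nat_lit 78) (nat_lit 608) (nat_lit 0) (XT.lf (nat_lit 0) (nat_lit 47121690388) (nat_lit 380) (nat_lit 11037219637) (nat_lit 76) (nat_lit 4023425358) (nat_lit 66) (nat_lit 5) (nat_lit 71) (nat_lit 5) (nat_lit 67) (nat_lit 5) (nat_lit 309) (nat_lit 276) (nat_lit 135)) (XT.nd (nat_lit 78) (nat_lit 380) (nat_lit 0) (XT.lf (nat_lit 0) (nat_lit 34742562306) (nat_lit 228) (nat_lit 29314615641) (nat_lit 304) (nat_lit 267139941) (nat_lit 63) (nat_lit 5) (nat_lit 66) (nat_lit 5) (nat_lit 67) (nat_lit 5) (nat_lit 310) (nat_lit 276) (nat_lit 134)) (XT.lf (nat_lit 0) (nat_lit 15253301127) (nat_lit 380) (nat_lit 49929868554) (nat_lit 76) (nat_lit 1377276147) (nat_lit 58) (nat_lit 5) (nat_lit 63) (nat_lit 5) (nat_lit 59) (nat_lit 5) (nat_lit 311)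 (nat_lit 276) (nat_lit 133))))) (XT.nd (nat_lit 234) (nat_lit 532) (nat_lit 0) (XT.nd (nat_lit 78) (nat_lit 456) (nat_lit 0) (XT.lf (nat_lit 0) (nat_lit 32144709524) (nat_lit 380) (nat_lit 3433515325) (nat_lit 76) (nat_lit 33312065095) (nat_lit 58) (nat_lit 5) (nat_lit 63) (nat_lit 5) (nat_lit 59) (nat_lit 5) (nat_lit 312) (nat_lit 276) (nat_lit 132)) (XT.nd (nat_lit 78) (nat_lit 228) (nat_lit 0) (XT.lf (nat_lit 0) (nat_lit 46286706104) (nat_lit 228) (nat_lit 4036067091) (nat_lit 304) (nat_lit 21000593600) (nat_lit 55) (nat_lit 5) (nat_lit 58) (nat_lit 5) (nat_lit 59) (nat_lit 5) (nat_lit 313) (nat_lit 276) (nat_lit 131)) (XT.lf (nat_lit 0) (nat_lit 24889292744) (nat_lit 228) (nat_lit 45072191978) (nat_lit 304) (nat_lit 3900063358) (nat_lit 52) (nat_lit 5) (nat_lit 55) (nat_lit 5) (nat_lit 56) (nat_lit 5) (nat_lit 314) (nat_lit 276) (nat_lit 130)))) (XT.nd (nat_lit 78) (nat_lit 228) (nat_lit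 0) (XT.lf (nat_lit 0) (nat_lit 1155925689) (nat_lit 228) (nat_lit 12934722144) (nat_lit 304) (nat_lit 62422657174) (nat_lit 48) (nat_lit 5) (nat_lit 51) (nat_lit 5) (nat_lit 52) (nat_lit 5) (nat_lit 315) (nat_lit 276) (nat_lit 129)) (XT.nd (nat_lit 78) (nat_lit 228) (nat_lit 0) (XT.lf (nat_lit 0) (nat_lit 33607512523) (nat_lit 304) (nat_lit 24717037967) (nat_lit 76) (nat_lit 20950725117) (nat_lit 48) (nat_lit 5) (nat_lit 52) (nat_lit 5) (nat_lit 49) (nat_lit 5) (nat_lit 316) (nat_lit 276) (nat_lit 128)) (XT.lf (nat_lit 0) (nat_lit 28884587216) (nat_lit 228) (nat_lit 25621342954) (nat_lit 304) (nat_lit 27657245734) (nat_lit 45) (nat_lit 5) (nat_lit 48) (nat_lit 5) (nat_lit 49) (nat_lit 5) (nat_lit 317) (nat_lit 276) (nat_lit 127))))))))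
noncomputable def xc109 : XT := (XT.nd (nat_lit 35412) (nat_lit 0) (nat_lit 1976) (XT.nd (nat_lit 34554) (nat_lit 0) (nat_lit 8968) (XT.nd (nat_lit 390) (nat_lit 380) (nat_lit 0) (XT.nd (nat_lit 156) (nat_lit 380) (nat_lit 0) (XT.nd (nat_lit 78) (nat_lit 76) (nat_lit 0) (XT.lf (nat_lit 0) (nat_lit 412939293) (nat_lit 152) (nat_lit 76378622524) (nat_lit 228) (nat_lit 8393642946) (nat_lit 43) (nat_lit 5) (nat_lit 45) (nat_lit 5) (nat_lit 46) (nat_lit 5) (nat_lit 318) (nat_lit 276) (nat_lit 126)) (XT.lf (nat_lit 0) (nat_lit 12412347528) (nat_lit 228) (nat_lit 30820968263) (nat_lit 76) (nat_lit 45097305574) (nat_lit 42) (nat_lit 5) (nat_lit 45) (nat_lit 5) (nat_lit 43) (nat_lit 5) (nat_lit 319) (nat_lit 276) (nat_lit 125))) (XT.nd (nat_lit 78) (nat_lit 152) (nat_lit 0) (XT.lf (nat_lit 0) (nat_lit 26251904617) (nat_lit 228) (nat_lit 8084841595) (nat_lit 304) (nat_lit 57286520422) (nat_lit 39)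 (nat_lit 5) (nat_lit 42) (nat_lit 5) (nat_lit 43) (nat_lit 5) (nat_lit 320) (nat_lit 276) (nat_lit 124)) (XT.nd (nat_lit 78) (nat_lit 152) (nat_lit 0) (XT.lf (nat_lit 0) (nat_lit 57952628087) (nat_lit 304) (nat_lit 8532217553) (nat_lit 76) (nat_lit 28577842592) (nat_lit 39) (nat_lit 5) (nat_lit 43) (nat_lit 5) (nat_lit 40) (nat_lit 5) (nat_lit 321) (nat_lit 276) (nat_lit 123)) (XT.lf (nat_lit 0) (nat_lit 52080227651) (nat_lit 152) (nat_lit 31249211986) (nat_lit 228) (nat_lit 15327239075) (nat_lit 37) (nat_lit 5) (nat_lit 39) (nat_lit 5) (nat_lit 40) (nat_lit 5) (nat_lit 322) (nat_lit 276) (nat_lit 122))))) (XT.nd (nat_lit 33930) (nat_lit 0) (nat_lit 10108) (XT.nd (nat_lit 78) (nat_lit 152) (nat_lit 0) (XT.lf (nat_lit 0) (nat_lit 7673637949) (nat_lit 228) (nat_lit 88815973194) (nat_lit 76) (nat_lit 5930299378) (nat_lit 34) (nat_lit 5) (nat_lit 37) (nat_lit 5) (nat_lit 35) (nat_lit 5) (nat_lit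 323) (nat_lit 276) (nat_lit 121)) (XT.nd (nat_lit 78) (nat_lit 152) (nat_lit 0) (XT.lf (nat_lit 0) (nat_lit 32308139710) (nat_lit 228) (nat_lit 29068348408) (nat_lit 76) (nat_lit 44966247653) (nat_lit 34) (nat_lit 5) (nat_lit 37) (nat_lit 5) (nat_lit 35) (nat_lit 5) (nat_lit 324) (nat_lit 276) (nat_lit 120)) (XT.lf (nat_lit 0) (nat_lit 34333552904) (nat_lit 152) (nat_lit 24168952108) (nat_lit 228) (nat_lit 51949354683) (nat_lit 32) (nat_lit 5) (nat_lit 34) (nat_lit 5) (nat_lit 35) (nat_lit 5) (nat_lit 325) (nat_lit 276) (nat_lit 119)))) (XT.nd (nat_lit 78) (nat_lit 0) (nat_lit 0) (XT.lf (nat_lit 0) (nat_lit 241931487) (nat_lit 0) (nat_lit 241931487) (nat_lit 1140) (nat_lit 12022861919) (nat_lit 165) (nat_lit 5) (nat_lit 165) (nat_lit 3) (nat_lit 180) (nat_lit 3) (nat_lit 277) (nat_lit 277) (nat_lit 166)) (XT.nd (nat_lit 78) (nat_lit 0) (nat_lit 76) (XT.lf (nat_lit 0) (nat_lit 1327764135)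 (nat_lit 1140) (nat_lit 6618164202) (nat_lit 1216) (nat_lit 17682503569) (nat_lit 165) (nat_lit 5) (nat_lit 180) (nat_lit 3) (nat_lit 181) (nat_lit 5) (nat_lit 278) (nat_lit 277) (nat_lit 165)) (XT.lf (nat_lit 0) (nat_lit 1921635856) (nat_lit 1140) (nat_lit 13951927821) (nat_lit 1216) (nat_lit 10394142351) (nat_lit 166) (nat_lit 5) (nat_lit 181) (nat_lit 5) (nat_lit 182) (nat_lit 5) (nat_lit 279) (nat_lit 277) (nat_lit 164)))))) (XT.nd (nat_lit 390) (nat_lit 1292) (nat_lit 0) (XT.nd (nat_lit 156) (nat_lit 0) (nat_lit 76) (XT.nd (nat_lit 78) (nat_lit 0) (nat_lit 0) (XT.lf (nat_lit 0) (nat_lit 2762173269) (nat_lit 1140) (nat_lit 21542123108) (nat_lit 1216) (nat_lit 2628155311) (nat_lit 167) (nat_lit 5) (nat_lit 182) (nat_lit 5) (nat_lit 183) (nat_lit 5) (nat_lit 280) (nat_lit 277) (nat_lit 163)) (XT.lf (nat_lit 0) (nat_lit 3940583647) (nat_lit 1140) (nat_lit 1802460606) (nat_lit 1216) (nat_lit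 21878531182) (nat_lit 167) (nat_lit 5) (nat_lit 182) (nat_lit 5) (nat_lit 183) (nat_lit 5) (nat_lit 281) (nat_lit 277) (nat_lit 162))) (XT.nd (nat_lit 78) (nat_lit 0) (nat_lit 76) (XT.lf (nat_lit 0) (nat_lit 5488429785) (nat_lit 1140) (nat_lit 9178846226) (nat_lit 1216) (nat_lit 13668579316) (nat_lit 168) (nat_lit 5) (nat_lit 183) (nat_lit 5) (nat_lit 184) (nat_lit 5) (nat_lit 282) (nat_lit 277) (nat_lit 161)) (XT.nd (nat_lit 78) (nat_lit 0) (nat_lit 0) (XT.lf (nat_lit 0) (nat_lit 7347969215) (nat_lit 1140) (nat_lit 16835521707) (nat_lit 1216) (nat_lit 4895343944) (nat_lit 169) (nat_lit 5) (nat_lit 184) (nat_lit 5) (nat_lit 185) (nat_lit 5) (nat_lit 283) (nat_lit 277) (nat_lit 160)) (XT.lf (nat_lit 76) (nat_lit 5015227965) (nat_lit 0) (nat_lit 4568746968) (nat_lit 1216) (nat_lit 20266497749) (nat_lit 170) (nat_lit 5) (nat_lit 169) (nat_lit 5) (nat_lit 185) (nat_lit 5) (nat_lit 284) (nat_lit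 277) (nat_lit 159))))) (XT.nd (nat_lit 234) (nat_lit 1520) (nat_lit 0) (XT.nd (nat_lit 78) (nat_lit 0) (nat_lit 76) (XT.lf (nat_lit 0) (nat_lit 12253032874) (nat_lit 1140) (nat_lit 2506962969) (nat_lit 1216) (nat_lit 15891072307) (nat_lit 170) (nat_lit 5) (nat_lit 185) (nat_lit 5) (nat_lit 186) (nat_lit 5) (nat_lit 285) (nat_lit 277) (nat_lit 158)) (XT.nd (nat_lit 78) (nat_lit 0) (nat_lit 0) (XT.lf (nat_lit 0) (nat_lit 15356664548) (nat_lit 1140) (nat_lit 10240550893) (nat_lit 1216) (nat_lit 5885457006) (nat_lit 171) (nat_lit 5) (nat_lit 186) (nat_lit 5) (nat_lit 187) (nat_lit 5) (nat_lit 286) (nat_lit 277) (nat_lit 157)) (XT.lf (nat_lit 76) (nat_lit 13993993372) (nat_lit 0) (nat_lit 4923901951) (nat_lit 1216) (nat_lit 13428901188) (nat_lit 172) (nat_lit 5) (nat_lit 171) (nat_lit 5) (nat_lit 187) (nat_lit 5) (nat_lit 287) (nat_lit 277) (nat_lit 156)))) (XT.nd (nat_lit 78) (nat_lit 532) (nat_lit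 0) (XT.lf (nat_lit 0) (nat_lit 6359138848) (nat_lit 1140) (nat_lit 16620124412) (nat_lit 1216) (nat_lit 10265212752) (nat_lit 157) (nat_lit 5) (nat_lit 172) (nat_lit 5) (nat_lit 173) (nat_lit 5) (nat_lit 288) (nat_lit 277) (nat_lit 155)) (XT.nd (nat_lit 78) (nat_lit 532) (nat_lit 0) (XT.lf (nat_lit 0) (nat_lit 27524851723) (nat_lit 1216) (nat_lit 1595887672) (nat_lit 76) (nat_lit 5057876486) (nat_lit 157) (nat_lit 5) (nat_lit 173) (nat_lit 5) (nat_lit 158) (nat_lit 5) (nat_lit 289) (nat_lit 277) (nat_lit 154)) (XT.lf (nat_lit 0) (nat_lit 25277904520) (nat_lit 532) (nat_lit 7424301854) (nat_lit 608) (nat_lit 2445132199) (nat_lit 150) (nat_lit 5) (nat_lit 157) (nat_lit 5) (nat_lit 158) (nat_lit 5) (nat_lit 290) (nat_lit 277) (nat_lit 153))))))) (XT.nd (nat_lit 858) (nat_lit 2660) (nat_lit 0) (XT.nd (nat_lit 390) (nat_lit 2128) (nat_lit 0) (XT.nd (nat_lit 156) (nat_lit 988) (nat_lit 0) (XT.nd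 (nat_lit 78) (nat_lit 532) (nat_lit 0) (XT.lf (nat_lit 0) (nat_lit 2265588745) (nat_lit 684) (nat_lit 18623099703) (nat_lit 76) (nat_lit 15265344084) (nat_lit 141) (nat_lit 5) (nat_lit 150) (nat_lit 5) (nat_lit 142) (nat_lit 5) (nat_lit 291) (nat_lit 277) (nat_lit 152)) (XT.lf (nat_lit 0) (nat_lit 7442351152) (nat_lit 608) (nat_lit 27844992226) (nat_lit 76) (nat_lit 1914568486) (nat_lit 134) (nat_lit 5) (nat_lit 142) (nat_lit 5) (nat_lit 135) (nat_lit 5) (nat_lit 292) (nat_lit 277) (nat_lit 151))) (XT.nd (nat_lit 78) (nat_lit 456) (nat_lit 0) (XT.lf (nat_lit 0) (nat_lit 622432685) (nat_lit 532) (nat_lit 12660335295) (nat_lit 608) (nat_lit 25007281445) (nat_lit 127) (nat_lit 5) (nat_lit 134) (nat_lit 5) (nat_lit 135) (nat_lit 5) (nat_lit 293) (nat_lit 277) (nat_lit 150)) (XT.nd (nat_lit 78) (nat_lit 456) (nat_lit 0) (XT.lf (nat_lit 0) (nat_lit 19805969600) (nat_lit 608) (nat_lit 8444068071)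 (nat_lit 76) (nat_lit 11170841607) (nat_lit 127) (nat_lit 5) (nat_lit 135) (nat_lit 5) (nat_lit 128) (nat_lit 5) (nat_lit 294) (nat_lit 277) (nat_lit 149)) (XT.lf (nat_lit 0) (nat_lit 22547464370) (nat_lit 456) (nat_lit 4447252994) (nat_lit 532) (nat_lit 13603359615) (nat_lit 121) (nat_lit 5) (nat_lit 127) (nat_lit 5) (nat_lit 128) (nat_lit 5) (nat_lit 295) (nat_lit 277) (nat_lit 148))))) (XT.nd (nat_lit 234) (nat_lit 1216) (nat_lit 0) (XT.nd (nat_lit 78) (nat_lit 456) (nat_lit 0) (XT.lf (nat_lit 0) (nat_lit 13493052087) (nat_lit 456) (nat_lit 21459890018) (nat_lit 532) (nat_lit 6868898831) (nat_lit 115) (nat_lit 5) (nat_lit 121) (nat_lit 5) (nat_lit 122) (nat_lit 5) (nat_lit 296) (nat_lit 277) (nat_lit 147)) (XT.nd (nat_lit 78) (nat_lit 0) (nat_lit 0) (XT.lf (nat_lit 0) (nat_lit 496820632) (nat_lit 456) (nat_lit 39219714029) (nat_lit 76) (nat_lit 3381252597) (nat_lit 109) (nat_lit 5) (nat_lit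 115) (nat_lit 5) (nat_lit 110) (nat_lit 5) (nat_lit 297) (nat_lit 277) (nat_lit 146)) (XT.lf (nat_lit 0) (nat_lit 8596553213) (nat_lit 456) (nat_lit 6435658433) (nat_lit 76) (nat_lit 29388052045) (nat_lit 109) (nat_lit 5) (nat_lit 115) (nat_lit 5) (nat_lit 110) (nat_lit 5) (nat_lit 298) (nat_lit 277) (nat_lit 145)))) (XT.nd (nat_lit 78) (nat_lit 760) (nat_lit 0) (XT.lf (nat_lit 0) (nat_lit 17478546789) (nat_lit 532) (nat_lit 17368694246) (nat_lit 76) (nat_lit 10950311017) (nat_lit 103) (nat_lit 5) (nat_lit 110) (nat_lit 5) (nat_lit 104) (nat_lit 5) (nat_lit 299) (nat_lit 277) (nat_lit 144)) (XT.nd (nat_lit 78) (nat_lit 380) (nat_lit 0) (XT.lf (nat_lit 0) (nat_lit 18125630970) (nat_lit 380) (nat_lit 9067609391) (nat_lit 456) (nat_lit 20038812499) (nat_lit 98) (nat_lit 5) (nat_lit 103) (nat_lit 5) (nat_lit 104) (nat_lit 5) (nat_lit 300) (nat_lit 277) (nat_lit 143)) (XT.lf (nat_lit 0) (nat_lit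 6981100826) (nat_lit 380) (nat_lit 30829161360) (nat_lit 456) (nat_lit 10915524466) (nat_lit 93) (nat_lit 5) (nat_lit 98) (nat_lit 5) (nat_lit 99) (nat_lit 5) (nat_lit 301) (nat_lit 277) (nat_lit 142)))))) (XT.nd (nat_lit 468) (nat_lit 1216) (nat_lit 0) (XT.nd (nat_lit 234) (nat_lit 684) (nat_lit 0) (XT.nd (nat_lit 78) (nat_lit 760) (nat_lit 0) (XT.lf (nat_lit 0) (nat_lit 45383008553) (nat_lit 380) (nat_lit 3961409449) (nat_lit 456) (nat_lit 938206120) (nat_lit 93) (nat_lit 5) (nat_lit 98) (nat_lit 5) (nat_lit 99) (nat_lit 5) (nat_lit 302) (nat_lit 277) (nat_lit 141)) (XT.nd (nat_lit 78) (nat_lit 380) (nat_lit 0) (XT.lf (nat_lit 0) (nat_lit 9915617180) (nat_lit 380) (nat_lit 17780225032) (nat_lit 76) (nat_lit 24201802991) (nat_lit 88) (nat_lit 5) (nat_lit 93) (nat_lit 5) (nat_lit 89) (nat_lit 5) (nat_lit 303) (nat_lit 277) (nat_lit 140)) (XT.lf (nat_lit 0) (nat_lit 21594963566) (nat_lit 456)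 (nat_lit 31617980535) (nat_lit 76) (nat_lit 371132321) (nat_lit 83) (nat_lit 5) (nat_lit 89) (nat_lit 5) (nat_lit 84) (nat_lit 5) (nat_lit 304) (nat_lit 277) (nat_lit 139)))) (XT.nd (nat_lit 78) (nat_lit 380) (nat_lit 0) (XT.lf (nat_lit 0) (nat_lit 8603814797) (nat_lit 304) (nat_lit 25797983375) (nat_lit 380) (nat_lit 20936729995) (nat_lit 79) (nat_lit 5) (nat_lit 83) (nat_lit 5) (nat_lit 84) (nat_lit 5) (nat_lit 305) (nat_lit 277) (nat_lit 138)) (XT.nd (nat_lit 78) (nat_lit 380) (nat_lit 0) (XT.lf (nat_lit 0) (nat_lit 48202942921) (nat_lit 380) (nat_lit 5710093606) (nat_lit 76) (nat_lit 3257051295) (nat_lit 79) (nat_lit 5) (nat_lit 84) (nat_lit 5) (nat_lit 80) (nat_lit 5) (nat_lit 306) (nat_lit 277) (nat_lit 137)) (XT.lf (nat_lit 0) (nat_lit 4157626696) (nat_lit 380) (nat_lit 21276027109) (nat_lit 76) (nat_lit 33639728045) (nat_lit 74) (nat_lit 5) (nat_lit 79) (nat_lit 5) (nat_lit 75) (nat_lit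 5) (nat_lit 307) (nat_lit 277) (nat_lit 136))))) (XT.nd (nat_lit 234) (nat_lit 608) (nat_lit 0) (XT.nd (nat_lit 78) (nat_lit 304) (nat_lit 0) (XT.lf (nat_lit 0) (nat_lit 18077617060) (nat_lit 380) (nat_lit 38227005404) (nat_lit 76) (nat_lit 4754825426) (nat_lit 70) (nat_lit 5) (nat_lit 75) (nat_lit 5) (nat_lit 71) (nat_lit 5) (nat_lit 308) (nat_lit 277) (nat_lit 135)) (XT.nd (nat_lit 78) (nat_lit 0) (nat_lit 0) (XT.lf (nat_lit 0) (nat_lit 6312684993) (nat_lit 304) (nat_lit 26916390307) (nat_lit 380) (nat_lit 29899681549) (nat_lit 66) (nat_lit 5) (nat_lit 70) (nat_lit 5) (nat_lit 71) (nat_lit 5) (nat_lit 309) (nat_lit 277) (nat_lit 134)) (XT.lf (nat_lit 0) (nat_lit 49570390367) (nat_lit 380) (nat_lit 11457591112) (nat_lit 76) (nat_lit 4260584754) (nat_lit 66) (nat_lit 5) (nat_lit 71) (nat_lit 5) (nat_lit 67) (nat_lit 5) (nat_lit 310) (nat_lit 277) (nat_lit 133)))) (XT.nd (nat_lit 78) (nat_lit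 380) (nat_lit 0) (XT.lf (nat_lit 0) (nat_lit 36607410807) (nat_lit 228) (nat_lit 30742058962) (nat_lit 304) (nat_lit 188278686) (nat_lit 63) (nat_lit 5) (nat_lit 66) (nat_lit 5) (nat_lit 67) (nat_lit 5) (nat_lit 311) (nat_lit 277) (nat_lit 132)) (XT.nd (nat_lit 78) (nat_lit 0) (nat_lit 0) (XT.lf (nat_lit 0) (nat_lit 16103660393) (nat_lit 380) (nat_lit 52298114768) (nat_lit 76) (nat_lit 1483967505) (nat_lit 58) (nat_lit 5) (nat_lit 63) (nat_lit 5) (nat_lit 59) (nat_lit 5) (nat_lit 312) (nat_lit 277) (nat_lit 131)) (XT.lf (nat_lit 0) (nat_lit 33835463295) (nat_lit 380) (nat_lit 3483050888) (nat_lit 76) (nat_lit 35013694589) (nat_lit 58) (nat_lit 5) (nat_lit 63) (nat_lit 5) (nat_lit 59) (nat_lit 5) (nat_lit 313) (nat_lit 277) (nat_lit 130))))))))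
noncomputable def xc110 : XT := (XT.nd (nat_lit 35568) (nat_lit 0) (nat_lit 2432) (XT.nd (nat_lit 34710) (nat_lit 0) (nat_lit 9956) (XT.nd (nat_lit 390) (nat_lit 836) (nat_lit 0) (XT.nd (nat_lit 156) (nat_lit 532) (nat_lit 0) (XT.nd (nat_lit 78) (nat_lit 228) (nat_lit 0) (XT.lf (nat_lit 0) (nat_lit 48719680488) (nat_lit 228) (nat_lit 4199913031) (nat_lit 304) (nat_lit 21967435336) (nat_lit 55) (nat_lit 5) (nat_lit 58) (nat_lit 5) (nat_lit 59) (nat_lit 5) (nat_lit 314) (nat_lit 277) (nat_lit 129)) (XT.lf (nat_lit 0) (nat_lit 26251075722) (nat_lit 228) (nat_lit 47286798148) (nat_lit 304) (nat_lit 4014320425) (nat_lit 52) (nat_lit 5) (nat_lit 55) (nat_lit 5) (nat_lit 56) (nat_lit 5) (nat_lit 315) (nat_lit 277) (nat_lit 128))) (XT.nd (nat_lit 78) (nat_lit 228) (nat_lit 0) (XT.lf (nat_lit 0) (nat_lit 1329284975) (nat_lit 228) (nat_lit 13542406543) (nat_lit 304) (nat_lit 65464907817) (nat_lit 48)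 (nat_lit 5) (nat_lit 51) (nat_lit 5) (nat_lit 52) (nat_lit 5) (nat_lit 316) (nat_lit 277) (nat_lit 127)) (XT.nd (nat_lit 78) (nat_lit 228) (nat_lit 0) (XT.lf (nat_lit 0) (nat_lit 35361113561) (nat_lit 304) (nat_lit 25840929357) (nat_lit 76) (nat_lit 22034727723) (nat_lit 48) (nat_lit 5) (nat_lit 52) (nat_lit 5) (nat_lit 49) (nat_lit 5) (nat_lit 317) (nat_lit 277) (nat_lit 126)) (XT.lf (nat_lit 0) (nat_lit 30437567759) (nat_lit 228) (nat_lit 26864442790) (nat_lit 304) (nat_lit 28967132078) (nat_lit 45) (nat_lit 5) (nat_lit 48) (nat_lit 5) (nat_lit 49) (nat_lit 5) (nat_lit 318) (nat_lit 277) (nat_lit 125))))) (XT.nd (nat_lit 234) (nat_lit 380) (nat_lit 0) (XT.nd (nat_lit 78) (nat_lit 304) (nat_lit 0) (XT.lf (nat_lit 0) (nat_lit 540994842) (nat_lit 152) (nat_lit 80158938339) (nat_lit 228) (nat_lit 8742402731) (nat_lit 43) (nat_lit 5) (nat_lit 45) (nat_lit 5) (nat_lit 46) (nat_lit 5) (nat_lit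 319) (nat_lit 277) (nat_lit 124)) (XT.nd (nat_lit 78) (nat_lit 228) (nat_lit 0) (XT.lf (nat_lit 0) (nat_lit 13099191963) (nat_lit 228) (nat_lit 32258344367) (nat_lit 76) (nat_lit 47387568921) (nat_lit 42) (nat_lit 5) (nat_lit 45) (nat_lit 5) (nat_lit 43) (nat_lit 5) (nat_lit 320) (nat_lit 277) (nat_lit 123)) (XT.lf (nat_lit 0) (nat_lit 27665200411) (nat_lit 228) (nat_lit 8452424496) (nat_lit 304) (nat_lit 60084826321) (nat_lit 39) (nat_lit 5) (nat_lit 42) (nat_lit 5) (nat_lit 43) (nat_lit 5) (nat_lit 321) (nat_lit 277) (nat_lit 122)))) (XT.nd (nat_lit 78) (nat_lit 380) (nat_lit 0) (XT.lf (nat_lit 0) (nat_lit 60911586896) (nat_lit 304) (nat_lit 8861374230) (nat_lit 76) (nat_lit 30040966937) (nat_lit 39) (nat_lit 5) (nat_lit 43) (nat_lit 5) (nat_lit 40) (nat_lit 5) (nat_lit 322) (nat_lit 277) (nat_lit 121)) (XT.nd (nat_lit 78) (nat_lit 228) (nat_lit 0) (XT.lf (nat_lit 0) (nat_lit 54778899729)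 (nat_lit 152) (nat_lit 32776328879) (nat_lit 228) (nat_lit 16032452380) (nat_lit 37) (nat_lit 5) (nat_lit 39) (nat_lit 5) (nat_lit 40) (nat_lit 5) (nat_lit 323) (nat_lit 277) (nat_lit 120)) (XT.lf (nat_lit 0) (nat_lit 8115653688) (nat_lit 228) (nat_lit 93162166261) (nat_lit 76) (nat_lit 6261287862) (nat_lit 34) (nat_lit 5) (nat_lit 37) (nat_lit 5) (nat_lit 35) (nat_lit 5) (nat_lit 324) (nat_lit 277) (nat_lit 119)))))) (XT.nd (nat_lit 390) (nat_lit 0) (nat_lit 228) (XT.nd (nat_lit 156) (nat_lit 0) (nat_lit 76) (XT.nd (nat_lit 78) (nat_lit 0) (nat_lit 0) (XT.lf (nat_lit 0) (nat_lit 334003201) (nat_lit 0) (nat_lit 334003201) (nat_lit 1140) (nat_lit 12458981805) (nat_lit 165) (nat_lit 5) (nat_lit 165) (nat_lit 3) (nat_lit 180) (nat_lit 3) (nat_lit 278) (nat_lit 278) (nat_lit 164)) (XT.lf (nat_lit 0) (nat_lit 1697355219) (nat_lit 1140) (nat_lit 6785611765) (nat_lit 1216) (nat_lit 18417267724)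 (nat_lit 165) (nat_lit 5) (nat_lit 180) (nat_lit 3) (nat_lit 181) (nat_lit 5) (nat_lit 279) (nat_lit 278) (nat_lit 163))) (XT.nd (nat_lit 78) (nat_lit 0) (nat_lit 76) (XT.lf (nat_lit 0) (nat_lit 2306744327) (nat_lit 1140) (nat_lit 14480278379) (nat_lit 1216) (nat_lit 10784900007) (nat_lit 166) (nat_lit 5) (nat_lit 181) (nat_lit 5) (nat_lit 182) (nat_lit 5) (nat_lit 280) (nat_lit 278) (nat_lit 162)) (XT.nd (nat_lit 78) (nat_lit 0) (nat_lit 0) (XT.lf (nat_lit 0) (nat_lit 3176044763) (nat_lit 1140) (nat_lit 22444974474) (nat_lit 1216) (nat_lit 2649308040) (nat_lit 167) (nat_lit 5) (nat_lit 182) (nat_lit 5) (nat_lit 183) (nat_lit 5) (nat_lit 281) (nat_lit 278) (nat_lit 161)) (XT.lf (nat_lit 0) (nat_lit 4400244097) (nat_lit 1140) (nat_lit 1726626694) (nat_lit 1216) (nat_lit 22867452945) (nat_lit 167) (nat_lit 5) (nat_lit 182) (nat_lit 5) (nat_lit 183) (nat_lit 5) (nat_lit 282) (nat_lit 278) (nat_lit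 160))))) (XT.nd (nat_lit 234) (nat_lit 0) (nat_lit 152) (XT.nd (nat_lit 78) (nat_lit 0) (nat_lit 76) (XT.lf (nat_lit 0) (nat_lit 6013656143) (nat_lit 1140) (nat_lit 9467738750) (nat_lit 1216) (nat_lit 14263299023) (nat_lit 168) (nat_lit 5) (nat_lit 183) (nat_lit 5) (nat_lit 184) (nat_lit 5) (nat_lit 283) (nat_lit 278) (nat_lit 159)) (XT.nd (nat_lit 78) (nat_lit 0) (nat_lit 0) (XT.lf (nat_lit 0) (nat_lit 7955093640) (nat_lit 1140) (nat_lit 17503775825) (nat_lit 1216) (nat_lit 5066305810) (nat_lit 169) (nat_lit 5) (nat_lit 184) (nat_lit 5) (nat_lit 185) (nat_lit 5) (nat_lit 284) (nat_lit 278) (nat_lit 158)) (XT.lf (nat_lit 76) (nat_lit 5434537357) (nat_lit 0) (nat_lit 4858566952) (nat_lit 1216) (nat_lit 21042604037) (nat_lit 170) (nat_lit 5) (nat_lit 169) (nat_lit 5) (nat_lit 185) (nat_lit 5) (nat_lit 285) (nat_lit 278) (nat_lit 157)))) (XT.nd (nat_lit 78) (nat_lit 0) (nat_lit 76) (XT.lf (nat_lit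 0) (nat_lit 13084104119) (nat_lit 1140) (nat_lit 2464286344) (nat_lit 1216) (nat_lit 16628307028) (nat_lit 170) (nat_lit 5) (nat_lit 185) (nat_lit 5) (nat_lit 186) (nat_lit 5) (nat_lit 286) (nat_lit 278) (nat_lit 156)) (XT.nd (nat_lit 78) (nat_lit 0) (nat_lit 0) (XT.lf (nat_lit 0) (nat_lit 16333639477) (nat_lit 1140) (nat_lit 10582282822) (nat_lit 1216) (nat_lit 6134255730) (nat_lit 171) (nat_lit 5) (nat_lit 186) (nat_lit 5) (nat_lit 187) (nat_lit 5) (nat_lit 287) (nat_lit 278) (nat_lit 155)) (XT.lf (nat_lit 76) (nat_lit 14859107167) (nat_lit 0) (nat_lit 5205455558) (nat_lit 1216) (nat_lit 13893213491) (nat_lit 172) (nat_lit 5) (nat_lit 171) (nat_lit 5) (nat_lit 187) (nat_lit 5) (nat_lit 288) (nat_lit 278) (nat_lit 154))))))) (XT.nd (nat_lit 858) (nat_lit 3268) (nat_lit 0) (XT.nd (nat_lit 390) (nat_lit 1900) (nat_lit 0) (XT.nd (nat_lit 156) (nat_lit 1748) (nat_lit 0) (XT.nd (nat_lit 78) (nat_lit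 0) (nat_lit 0) (XT.lf (nat_lit 0) (nat_lit 6844276307) (nat_lit 1140) (nat_lit 17476445489) (nat_lit 1216) (nat_lit 10579882260) (nat_lit 157) (nat_lit 5) (nat_lit 172) (nat_lit 5) (nat_lit 173) (nat_lit 5) (nat_lit 289) (nat_lit 278) (nat_lit 153)) (XT.lf (nat_lit 0) (nat_lit 29084191481) (nat_lit 1216) (nat_lit 1510425279) (nat_lit 76) (nat_lit 5287131385) (nat_lit 157) (nat_lit 5) (nat_lit 173) (nat_lit 5) (nat_lit 158) (nat_lit 5) (nat_lit 290) (nat_lit 278) (nat_lit 152))) (XT.nd (nat_lit 78) (nat_lit 1216) (nat_lit 0) (XT.lf (nat_lit 0) (nat_lit 26702319471) (nat_lit 532) (nat_lit 7810918495) (nat_lit 608) (nat_lit 2385898836) (nat_lit 150) (nat_lit 5) (nat_lit 157) (nat_lit 5) (nat_lit 158) (nat_lit 5) (nat_lit 291) (nat_lit 278) (nat_lit 151)) (XT.nd (nat_lit 78) (nat_lit 532) (nat_lit 0) (XT.lf (nat_lit 0) (nat_lit 2549768032) (nat_lit 684) (nat_lit 19389112978) (nat_lit 76) (nat_lit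 16017457025) (nat_lit 141) (nat_lit 5) (nat_lit 150) (nat_lit 5) (nat_lit 142) (nat_lit 5) (nat_lit 292) (nat_lit 278) (nat_lit 150)) (XT.lf (nat_lit 0) (nat_lit 7978734962) (nat_lit 608) (nat_lit 29071611009) (nat_lit 76) (nat_lit 2006477186) (nat_lit 134) (nat_lit 5) (nat_lit 142) (nat_lit 5) (nat_lit 135) (nat_lit 5) (nat_lit 293) (nat_lit 278) (nat_lit 149))))) (XT.nd (nat_lit 234) (nat_lit 912) (nat_lit 0) (XT.nd (nat_lit 78) (nat_lit 456) (nat_lit 0) (XT.lf (nat_lit 0) (nat_lit 814437373) (nat_lit 532) (nat_lit 13290459561) (nat_lit 608) (nat_lit 26094671138) (nat_lit 127) (nat_lit 5) (nat_lit 134) (nat_lit 5) (nat_lit 135) (nat_lit 5) (nat_lit 294) (nat_lit 278) (nat_lit 148)) (XT.nd (nat_lit 78) (nat_lit 456) (nat_lit 0) (XT.lf (nat_lit 0) (nat_lit 20946761756) (nat_lit 608) (nat_lit 8708329500) (nat_lit 76) (nat_lit 11732084692) (nat_lit 127) (nat_lit 5) (nat_lit 135) (nat_lit 5)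 (nat_lit 128) (nat_lit 5) (nat_lit 295) (nat_lit 278) (nat_lit 147)) (XT.lf (nat_lit 0) (nat_lit 23828252188) (nat_lit 456) (nat_lit 4661003070) (nat_lit 532) (nat_lit 14134160097) (nat_lit 121) (nat_lit 5) (nat_lit 127) (nat_lit 5) (nat_lit 128) (nat_lit 5) (nat_lit 296) (nat_lit 278) (nat_lit 146)))) (XT.nd (nat_lit 78) (nat_lit 456) (nat_lit 0) (XT.lf (nat_lit 0) (nat_lit 14321075882) (nat_lit 456) (nat_lit 22518973165) (nat_lit 532) (nat_lit 7068489272) (nat_lit 115) (nat_lit 5) (nat_lit 121) (nat_lit 5) (nat_lit 122) (nat_lit 5) (nat_lit 297) (nat_lit 278) (nat_lit 145)) (XT.nd (nat_lit 78) (nat_lit 0) (nat_lit 0) (XT.lf (nat_lit 0) (nat_lit 657607515) (nat_lit 456) (nat_lit 41024685526) (nat_lit 76) (nat_lit 3566110226) (nat_lit 109) (nat_lit 5) (nat_lit 115) (nat_lit 5) (nat_lit 110) (nat_lit 5) (nat_lit 298) (nat_lit 278) (nat_lit 144)) (XT.lf (nat_lit 0) (nat_lit 9155853112) (nat_lit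 456) (nat_lit 6608856398) (nat_lit 76) (nat_lit 30872497503) (nat_lit 109) (nat_lit 5) (nat_lit 115) (nat_lit 5) (nat_lit 110) (nat_lit 5) (nat_lit 299) (nat_lit 278) (nat_lit 143)))))) (XT.nd (nat_lit 390) (nat_lit 1672) (nat_lit 0) (XT.nd (nat_lit 156) (nat_lit 760) (nat_lit 0) (XT.nd (nat_lit 78) (nat_lit 380) (nat_lit 0) (XT.lf (nat_lit 0) (nat_lit 18477357081) (nat_lit 532) (nat_lit 18089074192) (nat_lit 76) (nat_lit 11517075042) (nat_lit 103) (nat_lit 5) (nat_lit 110) (nat_lit 5) (nat_lit 104) (nat_lit 5) (nat_lit 300) (nat_lit 278) (nat_lit 142)) (XT.lf (nat_lit 0) (nat_lit 19175723325) (nat_lit 380) (nat_lit 9497497597) (nat_lit 456) (nat_lit 20916656595) (nat_lit 98) (nat_lit 5) (nat_lit 103) (nat_lit 5) (nat_lit 104) (nat_lit 5) (nat_lit 301) (nat_lit 278) (nat_lit 141))) (XT.nd (nat_lit 78) (nat_lit 380) (nat_lit 0) (XT.lf (nat_lit 0) (nat_lit 7473294707) (nat_lit 380) (nat_lit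 32343660683) (nat_lit 456) (nat_lit 11341474783) (nat_lit 93) (nat_lit 5) (nat_lit 98) (nat_lit 5) (nat_lit 99) (nat_lit 5) (nat_lit 302) (nat_lit 278) (nat_lit 140)) (XT.nd (nat_lit 78) (nat_lit 380) (nat_lit 0) (XT.lf (nat_lit 0) (nat_lit 47788481686) (nat_lit 380) (nat_lit 4133804926) (nat_lit 456) (nat_lit 870996515) (nat_lit 93) (nat_lit 5) (nat_lit 98) (nat_lit 5) (nat_lit 99) (nat_lit 5) (nat_lit 303) (nat_lit 278) (nat_lit 139)) (XT.lf (nat_lit 0) (nat_lit 10519516071) (nat_lit 380) (nat_lit 18531395280) (nat_lit 76) (nat_lit 25438231314) (nat_lit 88) (nat_lit 5) (nat_lit 93) (nat_lit 5) (nat_lit 89) (nat_lit 5) (nat_lit 304) (nat_lit 278) (nat_lit 138))))) (XT.nd (nat_lit 234) (nat_lit 988) (nat_lit 0) (XT.nd (nat_lit 78) (nat_lit 304) (nat_lit 0) (XT.lf (nat_lit 0) (nat_lit 22779253182) (nat_lit 456) (nat_lit 33062012367) (nat_lit 76) (nat_lit 418743920) (nat_lit 83) (nat_lit 5)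 (nat_lit 89) (nat_lit 5) (nat_lit 84) (nat_lit 5) (nat_lit 305) (nat_lit 278) (nat_lit 137)) (XT.nd (nat_lit 78) (nat_lit 0) (nat_lit 0) (XT.lf (nat_lit 0) (nat_lit 9166949462) (nat_lit 304) (nat_lit 27055779831) (nat_lit 380) (nat_lit 21879571921) (nat_lit 79) (nat_lit 5) (nat_lit 83) (nat_lit 5) (nat_lit 84) (nat_lit 5) (nat_lit 306) (nat_lit 278) (nat_lit 136)) (XT.lf (nat_lit 0) (nat_lit 50709423213) (nat_lit 380) (nat_lit 5866275719) (nat_lit 76) (nat_lit 3449881263) (nat_lit 79) (nat_lit 5) (nat_lit 84) (nat_lit 5) (nat_lit 80) (nat_lit 5) (nat_lit 307) (nat_lit 278) (nat_lit 135)))) (XT.nd (nat_lit 78) (nat_lit 608) (nat_lit 0) (XT.lf (nat_lit 0) (nat_lit 4459495653) (nat_lit 380) (nat_lit 22212229537) (nat_lit 76) (nat_lit 35352393296) (nat_lit 74) (nat_lit 5) (nat_lit 79) (nat_lit 5) (nat_lit 75) (nat_lit 5) (nat_lit 308) (nat_lit 278) (nat_lit 134)) (XT.nd (nat_lit 78) (nat_lit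 304) (nat_lit 0) (XT.lf (nat_lit 0) (nat_lit 19072520838) (nat_lit 380) (nat_lit 40011905288) (nat_lit 76) (nat_lit 5025156016) (nat_lit 70) (nat_lit 5) (nat_lit 75) (nat_lit 5) (nat_lit 71) (nat_lit 5) (nat_lit 309) (nat_lit 278) (nat_lit 133)) (XT.lf (nat_lit 0) (nat_lit 6751144953) (nat_lit 304) (nat_lit 28227253287) (nat_lit 380) (nat_lit 31304058038) (nat_lit 66) (nat_lit 5) (nat_lit 70) (nat_lit 5) (nat_lit 71) (nat_lit 5) (nat_lit 310) (nat_lit 278) (nat_lit 132))))))))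
noncomputable def xc111 : XT := (XT.nd (nat_lit 35646) (nat_lit 0) (nat_lit 2812) (XT.nd (nat_lit 858) (nat_lit 380) (nat_lit 0) (XT.nd (nat_lit 390) (nat_lit 988) (nat_lit 0) (XT.nd (nat_lit 156) (nat_lit 608) (nat_lit 0) (XT.nd (nat_lit 78) (nat_lit 228) (nat_lit 0) (XT.lf (nat_lit 0) (nat_lit 52132914836) (nat_lit 380) (nat_lit 11911205809) (nat_lit 76) (nat_lit 4506256285) (nat_lit 66) (nat_lit 5) (nat_lit 71) (nat_lit 5) (nat_lit 67) (nat_lit 5) (nat_lit 311) (nat_lit 278) (nat_lit 131)) (XT.lf (nat_lit 0) (nat_lit 38553627503) (nat_lit 228) (nat_lit 32244434055) (nat_lit 304) (nat_lit 114047947) (nat_lit 63) (nat_lit 5) (nat_lit 66) (nat_lit 5) (nat_lit 67) (nat_lit 5) (nat_lit 312) (nat_lit 278) (nat_lit 130))) (XT.nd (nat_lit 78) (nat_lit 228) (nat_lit 0) (XT.lf (nat_lit 0) (nat_lit 16988384646) (nat_lit 380) (nat_lit 54796696503) (nat_lit 76) (nat_lit 1592476585) (nat_lit 58) (nat_lit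 5) (nat_lit 63) (nat_lit 5) (nat_lit 59) (nat_lit 5) (nat_lit 313) (nat_lit 278) (nat_lit 129)) (XT.nd (nat_lit 78) (nat_lit 228) (nat_lit 0) (XT.lf (nat_lit 0) (nat_lit 35602990015) (nat_lit 380) (nat_lit 3546418667) (nat_lit 76) (nat_lit 36797056179) (nat_lit 58) (nat_lit 5) (nat_lit 63) (nat_lit 5) (nat_lit 59) (nat_lit 5) (nat_lit 314) (nat_lit 278) (nat_lit 128)) (XT.lf (nat_lit 0) (nat_lit 51263273655) (nat_lit 228) (nat_lit 4375480189) (nat_lit 304) (nat_lit 22990353186) (nat_lit 55) (nat_lit 5) (nat_lit 58) (nat_lit 5) (nat_lit 59) (nat_lit 5) (nat_lit 315) (nat_lit 278) (nat_lit 127))))) (XT.nd (nat_lit 234) (nat_lit 456) (nat_lit 0) (XT.nd (nat_lit 78) (nat_lit 304) (nat_lit 0) (XT.lf (nat_lit 0) (nat_lit 27670040700) (nat_lit 228) (nat_lit 49615760796) (nat_lit 304) (nat_lit 4141797352) (nat_lit 52) (nat_lit 5) (nat_lit 55) (nat_lit 5) (nat_lit 56) (nat_lit 5) (nat_lit 316) (nat_lit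 278) (nat_lit 126)) (XT.nd (nat_lit 78) (nat_lit 0) (nat_lit 0) (XT.lf (nat_lit 0) (nat_lit 1500568273) (nat_lit 228) (nat_lit 14184105821) (nat_lit 304) (nat_lit 68666604714) (nat_lit 48) (nat_lit 5) (nat_lit 51) (nat_lit 5) (nat_lit 52) (nat_lit 5) (nat_lit 317) (nat_lit 278) (nat_lit 125)) (XT.lf (nat_lit 0) (nat_lit 37195586847) (nat_lit 304) (nat_lit 27031424344) (nat_lit 76) (nat_lit 23169540164) (nat_lit 48) (nat_lit 5) (nat_lit 52) (nat_lit 5) (nat_lit 49) (nat_lit 5) (nat_lit 318) (nat_lit 278) (nat_lit 124)))) (XT.nd (nat_lit 78) (nat_lit 228) (nat_lit 0) (XT.lf (nat_lit 0) (nat_lit 32058086676) (nat_lit 228) (nat_lit 28173227459) (nat_lit 304) (nat_lit 30349297351) (nat_lit 45) (nat_lit 5) (nat_lit 48) (nat_lit 5) (nat_lit 49) (nat_lit 5) (nat_lit 319) (nat_lit 278) (nat_lit 123)) (XT.nd (nat_lit 78) (nat_lit 76) (nat_lit 0) (XT.lf (nat_lit 0) (nat_lit 665467337) (nat_lit 152)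 (nat_lit 84131860030) (nat_lit 228) (nat_lit 9115194195) (nat_lit 43) (nat_lit 5) (nat_lit 45) (nat_lit 5) (nat_lit 46) (nat_lit 5) (nat_lit 320) (nat_lit 278) (nat_lit 122)) (XT.lf (nat_lit 0) (nat_lit 13814221455) (nat_lit 228) (nat_lit 33777227745) (nat_lit 76) (nat_lit 49789054459) (nat_lit 42) (nat_lit 5) (nat_lit 45) (nat_lit 5) (nat_lit 43) (nat_lit 5) (nat_lit 321) (nat_lit 278) (nat_lit 121)))))) (XT.nd (nat_lit 34320) (nat_lit 0) (nat_lit 9804) (XT.nd (nat_lit 156) (nat_lit 152) (nat_lit 0) (XT.nd (nat_lit 78) (nat_lit 0) (nat_lit 0) (XT.lf (nat_lit 0) (nat_lit 29139798811) (nat_lit 228) (nat_lit 8841794765) (nat_lit 304) (nat_lit 63029185441) (nat_lit 39) (nat_lit 5) (nat_lit 42) (nat_lit 5) (nat_lit 43) (nat_lit 5) (nat_lit 322) (nat_lit 278) (nat_lit 120)) (XT.lf (nat_lit 0) (nat_lit 64012792005) (nat_lit 304) (nat_lit 9216049110) (nat_lit 76) (nat_lit 31574064913) (nat_lit 39)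 (nat_lit 5) (nat_lit 43) (nat_lit 5) (nat_lit 40) (nat_lit 5) (nat_lit 323) (nat_lit 278) (nat_lit 119))) (XT.nd (nat_lit 34008) (nat_lit 0) (nat_lit 9728) (XT.lf (nat_lit 0) (nat_lit 57603704756) (nat_lit 152) (nat_lit 34383087540) (nat_lit 228) (nat_lit 16778611372) (nat_lit 37) (nat_lit 5) (nat_lit 39) (nat_lit 5) (nat_lit 40) (nat_lit 5) (nat_lit 324) (nat_lit 278) (nat_lit 118)) (XT.nd (nat_lit 78) (nat_lit 0) (nat_lit 0) (XT.lf (nat_lit 0) (nat_lit 423243171) (nat_lit 0) (nat_lit 423243171) (nat_lit 1140) (nat_lit 12932249979) (nat_lit 165) (nat_lit 5) (nat_lit 165) (nat_lit 3) (nat_lit 180) (nat_lit 3) (nat_lit 279) (nat_lit 279) (nat_lit 162)) (XT.lf (nat_lit 0) (nat_lit 2057236927) (nat_lit 1140) (nat_lit 6976628728) (nat_lit 1216) (nat_lit 19202656259) (nat_lit 165) (nat_lit 5) (nat_lit 180) (nat_lit 3) (nat_lit 181) (nat_lit 5) (nat_lit 280) (nat_lit 279) (nat_lit 161))))) (XT.nd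 (nat_lit 234) (nat_lit 0) (nat_lit 152) (XT.nd (nat_lit 78) (nat_lit 0) (nat_lit 76) (XT.lf (nat_lit 0) (nat_lit 2684237259) (nat_lit 1140) (nat_lit 15050781339) (nat_lit 1216) (nat_lit 11207184045) (nat_lit 166) (nat_lit 5) (nat_lit 181) (nat_lit 5) (nat_lit 182) (nat_lit 5) (nat_lit 281) (nat_lit 279) (nat_lit 160)) (XT.nd (nat_lit 78) (nat_lit 0) (nat_lit 0) (XT.lf (nat_lit 0) (nat_lit 3584972018) (nat_lit 1140) (nat_lit 23409168967) (nat_lit 1216) (nat_lit 2681768874) (nat_lit 167) (nat_lit 5) (nat_lit 182) (nat_lit 5) (nat_lit 183) (nat_lit 5) (nat_lit 282) (nat_lit 279) (nat_lit 159)) (XT.lf (nat_lit 0) (nat_lit 4858470603) (nat_lit 1140) (nat_lit 1662430190) (nat_lit 1216) (nat_lit 23915583146) (nat_lit 167) (nat_lit 5) (nat_lit 182) (nat_lit 5) (nat_lit 183) (nat_lit 5) (nat_lit 283) (nat_lit 279) (nat_lit 158)))) (XT.nd (nat_lit 78) (nat_lit 0) (nat_lit 76) (XT.lf (nat_lit 0) (nat_lit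 6541826360) (nat_lit 1140) (nat_lit 9786885518) (nat_lit 1216) (nat_lit 14896002060) (nat_lit 168) (nat_lit 5) (nat_lit 183) (nat_lit 5) (nat_lit 184) (nat_lit 5) (nat_lit 284) (nat_lit 279) (nat_lit 157)) (XT.nd (nat_lit 78) (nat_lit 0) (nat_lit 0) (XT.lf (nat_lit 0) (nat_lit 8570286839) (nat_lit 1140) (nat_lit 18221575078) (nat_lit 1216) (nat_lit 5252677489) (nat_lit 169) (nat_lit 5) (nat_lit 184) (nat_lit 5) (nat_lit 185) (nat_lit 5) (nat_lit 285) (nat_lit 279) (nat_lit 156)) (XT.lf (nat_lit 76) (nat_lit 5859142225) (nat_lit 0) (nat_lit 5157171159) (nat_lit 1216) (nat_lit 21879569977) (nat_lit 170) (nat_lit 5) (nat_lit 169) (nat_lit 5) (nat_lit 185) (nat_lit 5) (nat_lit 286) (nat_lit 279) (nat_lit 155))))))) (XT.nd (nat_lit 858) (nat_lit 3572) (nat_lit 0) (XT.nd (nat_lit 390) (nat_lit 2736) (nat_lit 0) (XT.nd (nat_lit 156) (nat_lit 988) (nat_lit 0) (XT.nd (nat_lit 78) (nat_lit 0) (nat_lit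 76) (XT.lf (nat_lit 0) (nat_lit 13936422342) (nat_lit 1140) (nat_lit 2435097239) (nat_lit 1216) (nat_lit 17407732453) (nat_lit 170) (nat_lit 5) (nat_lit 185) (nat_lit 5) (nat_lit 186) (nat_lit 5) (nat_lit 287) (nat_lit 279) (nat_lit 154)) (XT.lf (nat_lit 0) (nat_lit 17340019140) (nat_lit 1140) (nat_lit 10956933819) (nat_lit 1216) (nat_lit 6399722144) (nat_lit 171) (nat_lit 5) (nat_lit 186) (nat_lit 5) (nat_lit 187) (nat_lit 5) (nat_lit 288) (nat_lit 279) (nat_lit 153))) (XT.nd (nat_lit 78) (nat_lit 1064) (nat_lit 0) (XT.lf (nat_lit 76) (nat_lit 15752098014) (nat_lit 0) (nat_lit 5497799546) (nat_lit 1216) (nat_lit 14399998651) (nat_lit 172) (nat_lit 5) (nat_lit 171) (nat_lit 5) (nat_lit 187) (nat_lit 5) (nat_lit 289) (nat_lit 279) (nat_lit 152)) (XT.nd (nat_lit 78) (nat_lit 0) (nat_lit 0) (XT.lf (nat_lit 0) (nat_lit 7338127779) (nat_lit 1140) (nat_lit 18373229083) (nat_lit 1216) (nat_lit 10928748364)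 (nat_lit 157) (nat_lit 5) (nat_lit 172) (nat_lit 5) (nat_lit 173) (nat_lit 5) (nat_lit 290) (nat_lit 279) (nat_lit 151)) (XT.lf (nat_lit 0) (nat_lit 30704475588) (nat_lit 1216) (nat_lit 1436053774) (nat_lit 76) (nat_lit 5530046752) (nat_lit 157) (nat_lit 5) (nat_lit 173) (nat_lit 5) (nat_lit 158) (nat_lit 5) (nat_lit 291) (nat_lit 279) (nat_lit 150))))) (XT.nd (nat_lit 234) (nat_lit 988) (nat_lit 0) (XT.nd (nat_lit 78) (nat_lit 1216) (nat_lit 0) (XT.lf (nat_lit 0) (nat_lit 28183031567) (nat_lit 532) (nat_lit 8215434078) (nat_lit 608) (nat_lit 2340577021) (nat_lit 150) (nat_lit 5) (nat_lit 157) (nat_lit 5) (nat_lit 158) (nat_lit 5) (nat_lit 292) (nat_lit 279) (nat_lit 149)) (XT.nd (nat_lit 78) (nat_lit 532) (nat_lit 0) (XT.lf (nat_lit 0) (nat_lit 2832267634) (nat_lit 684) (nat_lit 20208780227) (nat_lit 76) (nat_lit 16808212632) (nat_lit 141) (nat_lit 5) (nat_lit 150) (nat_lit 5) (nat_lit 142)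 (nat_lit 5) (nat_lit 293) (nat_lit 279) (nat_lit 148)) (XT.lf (nat_lit 0) (nat_lit 8526666042) (nat_lit 608) (nat_lit 30374959516) (nat_lit 76) (nat_lit 2103336443) (nat_lit 134) (nat_lit 5) (nat_lit 142) (nat_lit 5) (nat_lit 135) (nat_lit 5) (nat_lit 294) (nat_lit 279) (nat_lit 147)))) (XT.nd (nat_lit 78) (nat_lit 456) (nat_lit 0) (XT.lf (nat_lit 0) (nat_lit 1001084914) (nat_lit 532) (nat_lit 13952358958) (nat_lit 608) (nat_lit 27251582128) (nat_lit 127) (nat_lit 5) (nat_lit 134) (nat_lit 5) (nat_lit 135) (nat_lit 5) (nat_lit 295) (nat_lit 279) (nat_lit 146)) (XT.nd (nat_lit 78) (nat_lit 456) (nat_lit 0) (XT.lf (nat_lit 0) (nat_lit 22130602045) (nat_lit 608) (nat_lit 9000487948) (nat_lit 76) (nat_lit 12321138818) (nat_lit 127) (nat_lit 5) (nat_lit 135) (nat_lit 5) (nat_lit 128) (nat_lit 5) (nat_lit 296) (nat_lit 279) (nat_lit 145)) (XT.lf (nat_lit 0) (nat_lit 25158816362) (nat_lit 456) (nat_lit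 4886241365) (nat_lit 532) (nat_lit 14705387377) (nat_lit 121) (nat_lit 5) (nat_lit 127) (nat_lit 5) (nat_lit 128) (nat_lit 5) (nat_lit 297) (nat_lit 279) (nat_lit 144)))))) (XT.nd (nat_lit 468) (nat_lit 1444) (nat_lit 0) (XT.nd (nat_lit 234) (nat_lit 1216) (nat_lit 0) (XT.nd (nat_lit 78) (nat_lit 456) (nat_lit 0) (XT.lf (nat_lit 0) (nat_lit 15176241867) (nat_lit 456) (nat_lit 23632303815) (nat_lit 532) (nat_lit 7291433464) (nat_lit 115) (nat_lit 5) (nat_lit 121) (nat_lit 5) (nat_lit 122) (nat_lit 5) (nat_lit 298) (nat_lit 279) (nat_lit 143)) (XT.nd (nat_lit 78) (nat_lit 0) (nat_lit 0) (XT.lf (nat_lit 0) (nat_lit 813794785) (nat_lit 456) (nat_lit 42934410321) (nat_lit 76) (nat_lit 3758742268) (nat_lit 109) (nat_lit 5) (nat_lit 115) (nat_lit 5) (nat_lit 110) (nat_lit 5) (nat_lit 299) (nat_lit 279) (nat_lit 142)) (XT.lf (nat_lit 0) (nat_lit 9731080905) (nat_lit 456) (nat_lit 6804528283) (nat_lit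 76) (nat_lit 32429766693) (nat_lit 109) (nat_lit 5) (nat_lit 115) (nat_lit 5) (nat_lit 110) (nat_lit 5) (nat_lit 300) (nat_lit 279) (nat_lit 141)))) (XT.nd (nat_lit 78) (nat_lit 760) (nat_lit 0) (XT.lf (nat_lit 0) (nat_lit 19514497455) (nat_lit 532) (nat_lit 18859237865) (nat_lit 76) (nat_lit 12110387727) (nat_lit 103) (nat_lit 5) (nat_lit 110) (nat_lit 5) (nat_lit 104) (nat_lit 5) (nat_lit 301) (nat_lit 279) (nat_lit 140)) (XT.nd (nat_lit 78) (nat_lit 380) (nat_lit 0) (XT.lf (nat_lit 0) (nat_lit 20264950132) (nat_lit 380) (nat_lit 9951064302) (nat_lit 456) (nat_lit 21849930216) (nat_lit 98) (nat_lit 5) (nat_lit 103) (nat_lit 5) (nat_lit 104) (nat_lit 5) (nat_lit 302) (nat_lit 279) (nat_lit 139)) (XT.lf (nat_lit 0) (nat_lit 7976790590) (nat_lit 380) (nat_lit 33936391341) (nat_lit 456) (nat_lit 11799862892) (nat_lit 93) (nat_lit 5) (nat_lit 98) (nat_lit 5) (nat_lit 99) (nat_lit 5) (nat_lit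 303) (nat_lit 279) (nat_lit 138))))) (XT.nd (nat_lit 234) (nat_lit 684) (nat_lit 0) (XT.nd (nat_lit 78) (nat_lit 760) (nat_lit 0) (XT.lf (nat_lit 0) (nat_lit 50301554482) (nat_lit 380) (nat_lit 4317207195) (nat_lit 456) (nat_lit 811036217) (nat_lit 93) (nat_lit 5) (nat_lit 98) (nat_lit 5) (nat_lit 99) (nat_lit 5) (nat_lit 304) (nat_lit 279) (nat_lit 137)) (XT.nd (nat_lit 78) (nat_lit 380) (nat_lit 0) (XT.lf (nat_lit 0) (nat_lit 11143558116) (nat_lit 380) (nat_lit 19332939190) (nat_lit 76) (nat_lit 26734032380) (nat_lit 88) (nat_lit 5) (nat_lit 93) (nat_lit 5) (nat_lit 89) (nat_lit 5) (nat_lit 305) (nat_lit 279) (nat_lit 136)) (XT.lf (nat_lit 0) (nat_lit 24013038006) (nat_lit 456) (nat_lit 34590970404) (nat_lit 76) (nat_lit 466034843) (nat_lit 83) (nat_lit 5) (nat_lit 89) (nat_lit 5) (nat_lit 84) (nat_lit 5) (nat_lit 306) (nat_lit 279) (nat_lit 135)))) (XT.nd (nat_lit 78) (nat_lit 380) (nat_lit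 0) (XT.lf (nat_lit 0) (nat_lit 9745880994) (nat_lit 304) (nat_lit 28379450716) (nat_lit 380) (nat_lit 22879224373) (nat_lit 79) (nat_lit 5) (nat_lit 83) (nat_lit 5) (nat_lit 84) (nat_lit 5) (nat_lit 307) (nat_lit 279) (nat_lit 134)) (XT.nd (nat_lit 78) (nat_lit 380) (nat_lit 0) (XT.lf (nat_lit 0) (nat_lit 53332271376) (nat_lit 380) (nat_lit 6042290124) (nat_lit 76) (nat_lit 3649565714) (nat_lit 79) (nat_lit 5) (nat_lit 84) (nat_lit 5) (nat_lit 80) (nat_lit 5) (nat_lit 308) (nat_lit 279) (nat_lit 133)) (XT.lf (nat_lit 0) (nat_lit 4767719980) (nat_lit 380) (nat_lit 23207105024) (nat_lit 76) (nat_lit 37147839581) (nat_lit 74) (nat_lit 5) (nat_lit 79) (nat_lit 5) (nat_lit 75) (nat_lit 5) (nat_lit 309) (nat_lit 279) (nat_lit 132))))))))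
noncomputable def xc112 : XT := (XT.nd (nat_lit 35724) (nat_lit 0) (nat_lit 3040) (XT.nd (nat_lit 858) (nat_lit 456) (nat_lit 0) (XT.nd (nat_lit 390) (nat_lit 988) (nat_lit 0) (XT.nd (nat_lit 156) (nat_lit 608) (nat_lit 0) (XT.nd (nat_lit 78) (nat_lit 304) (nat_lit 0) (XT.lf (nat_lit 0) (nat_lit 20108707355) (nat_lit 380) (nat_lit 41897806325) (nat_lit 76) (nat_lit 5305973289) (nat_lit 70) (nat_lit 5) (nat_lit 75) (nat_lit 5) (nat_lit 71) (nat_lit 5) (nat_lit 310) (nat_lit 279) (nat_lit 131)) (XT.lf (nat_lit 0) (nat_lit 7200108742) (nat_lit 304) (nat_lit 29606909343) (nat_lit 380) (nat_lit 32787077185) (nat_lit 66) (nat_lit 5) (nat_lit 70) (nat_lit 5) (nat_lit 71) (nat_lit 5) (nat_lit 311) (nat_lit 279) (nat_lit 130))) (XT.nd (nat_lit 78) (nat_lit 608) (nat_lit 0) (XT.lf (nat_lit 0) (nat_lit 54815755545) (nat_lit 380) (nat_lit 12398589357) (nat_lit 76) (nat_lit 4761176622) (nat_lit 66) (nat_lit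 5) (nat_lit 71) (nat_lit 5) (nat_lit 67) (nat_lit 5) (nat_lit 312) (nat_lit 279) (nat_lit 129)) (XT.nd (nat_lit 78) (nat_lit 380) (nat_lit 0) (XT.lf (nat_lit 0) (nat_lit 40586384756) (nat_lit 228) (nat_lit 33825156568) (nat_lit 304) (nat_lit 43882161) (nat_lit 63) (nat_lit 5) (nat_lit 66) (nat_lit 5) (nat_lit 67) (nat_lit 5) (nat_lit 313) (nat_lit 279) (nat_lit 128)) (XT.lf (nat_lit 0) (nat_lit 17909950121) (nat_lit 380) (nat_lit 57431022028) (nat_lit 76) (nat_lit 1703221234) (nat_lit 58) (nat_lit 5) (nat_lit 63) (nat_lit 5) (nat_lit 59) (nat_lit 5) (nat_lit 314) (nat_lit 279) (nat_lit 127))))) (XT.nd (nat_lit 234) (nat_lit 532) (nat_lit 0) (XT.nd (nat_lit 78) (nat_lit 456) (nat_lit 0) (XT.lf (nat_lit 0) (nat_lit 37451850223) (nat_lit 380) (nat_lit 3623254553) (nat_lit 76) (nat_lit 38666547864) (nat_lit 58) (nat_lit 5) (nat_lit 63) (nat_lit 5) (nat_lit 59) (nat_lit 5) (nat_lit 315) (nat_lit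 279) (nat_lit 126)) (XT.nd (nat_lit 78) (nat_lit 228) (nat_lit 0) (XT.lf (nat_lit 0) (nat_lit 53924042002) (nat_lit 228) (nat_lit 4563026539) (nat_lit 304) (nat_lit 24071431918) (nat_lit 55) (nat_lit 5) (nat_lit 58) (nat_lit 5) (nat_lit 59) (nat_lit 5) (nat_lit 316) (nat_lit 279) (nat_lit 125)) (XT.lf (nat_lit 0) (nat_lit 29150060824) (nat_lit 228) (nat_lit 52064460619) (nat_lit 304) (nat_lit 4282457203) (nat_lit 52) (nat_lit 5) (nat_lit 55) (nat_lit 5) (nat_lit 56) (nat_lit 5) (nat_lit 317) (nat_lit 279) (nat_lit 124)))) (XT.nd (nat_lit 78) (nat_lit 228) (nat_lit 0) (XT.lf (nat_lit 0) (nat_lit 1670670654) (nat_lit 228) (nat_lit 14861183176) (nat_lit 304) (nat_lit 72035038356) (nat_lit 48) (nat_lit 5) (nat_lit 51) (nat_lit 5) (nat_lit 52) (nat_lit 5) (nat_lit 318) (nat_lit 279) (nat_lit 123)) (XT.nd (nat_lit 78) (nat_lit 228) (nat_lit 0) (XT.lf (nat_lit 0) (nat_lit 39115608918) (nat_lit 304)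 (nat_lit 28290885374) (nat_lit 76) (nat_lit 24358018129) (nat_lit 48) (nat_lit 5) (nat_lit 52) (nat_lit 5) (nat_lit 49) (nat_lit 5) (nat_lit 319) (nat_lit 279) (nat_lit 122)) (XT.lf (nat_lit 0) (nat_lit 33750460877) (nat_lit 228) (nat_lit 29550653030) (nat_lit 304) (nat_lit 31806724731) (nat_lit 45) (nat_lit 5) (nat_lit 48) (nat_lit 5) (nat_lit 49) (nat_lit 5) (nat_lit 320) (nat_lit 279) (nat_lit 121)))))) (XT.nd (nat_lit 34398) (nat_lit 0) (nat_lit 9576) (XT.nd (nat_lit 156) (nat_lit 228) (nat_lit 0) (XT.nd (nat_lit 78) (nat_lit 76) (nat_lit 0) (XT.lf (nat_lit 0) (nat_lit 787106012) (nat_lit 152) (nat_lit 88306684119) (nat_lit 228) (nat_lit 9512605902) (nat_lit 43) (nat_lit 5) (nat_lit 45) (nat_lit 5) (nat_lit 46) (nat_lit 5) (nat_lit 321) (nat_lit 279) (nat_lit 120)) (XT.lf (nat_lit 0) (nat_lit 14559417693) (nat_lit 228) (nat_lit 35380797667) (nat_lit 76) (nat_lit 52307629260) (nat_lit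 42) (nat_lit 5) (nat_lit 45) (nat_lit 5) (nat_lit 43) (nat_lit 5) (nat_lit 322) (nat_lit 279) (nat_lit 119))) (XT.nd (nat_lit 78) (nat_lit 0) (nat_lit 0) (XT.lf (nat_lit 0) (nat_lit 30679635354) (nat_lit 228) (nat_lit 9253724906) (nat_lit 304) (nat_lit 66126329795) (nat_lit 39) (nat_lit 5) (nat_lit 42) (nat_lit 5) (nat_lit 43) (nat_lit 5) (nat_lit 323) (nat_lit 279) (nat_lit 118)) (XT.nd (nat_lit 34086) (nat_lit 0) (nat_lit 9576) (XT.lf (nat_lit 0) (nat_lit 67263885813) (nat_lit 304) (nat_lit 9596675753) (nat_lit 76) (nat_lit 33180931087) (nat_lit 39) (nat_lit 5) (nat_lit 43) (nat_lit 5) (nat_lit 40) (nat_lit 5) (nat_lit 324) (nat_lit 279) (nat_lit 117)) (XT.lf (nat_lit 0) (nat_lit 510201075) (nat_lit 0) (nat_lit 510201075) (nat_lit 1140) (nat_lit 13443097475) (nat_lit 165) (nat_lit 5) (nat_lit 165) (nat_lit 3) (nat_lit 180) (nat_lit 3) (nat_lit 280) (nat_lit 280) (nat_lit 160))))) (XT.nd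 (nat_lit 234) (nat_lit 0) (nat_lit 152) (XT.nd (nat_lit 78) (nat_lit 0) (nat_lit 76) (XT.lf (nat_lit 0) (nat_lit 2409544531) (nat_lit 1140) (nat_lit 7190980686) (nat_lit 1216) (nat_lit 20039909389) (nat_lit 165) (nat_lit 5) (nat_lit 180) (nat_lit 3) (nat_lit 181) (nat_lit 5) (nat_lit 281) (nat_lit 280) (nat_lit 159)) (XT.nd (nat_lit 78) (nat_lit 0) (nat_lit 76) (XT.lf (nat_lit 0) (nat_lit 3056232085) (nat_lit 1140) (nat_lit 15664081441) (nat_lit 1216) (nat_lit 11661456207) (nat_lit 166) (nat_lit 5) (nat_lit 181) (nat_lit 5) (nat_lit 182) (nat_lit 5) (nat_lit 282) (nat_lit 280) (nat_lit 158)) (XT.lf (nat_lit 0) (nat_lit 3991091382) (nat_lit 1140) (nat_lit 24436267569) (nat_lit 1216) (nat_lit 2725150227) (nat_lit 167) (nat_lit 5) (nat_lit 182) (nat_lit 5) (nat_lit 183) (nat_lit 5) (nat_lit 283) (nat_lit 280) (nat_lit 157)))) (XT.nd (nat_lit 78) (nat_lit 0) (nat_lit 76) (XT.lf (nat_lit 0) (nat_lit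 5317461527) (nat_lit 1140) (nat_lit 1609018512) (nat_lit 1216) (nat_lit 25024974598) (nat_lit 167) (nat_lit 5) (nat_lit 182) (nat_lit 5) (nat_lit 183) (nat_lit 5) (nat_lit 284) (nat_lit 280) (nat_lit 156)) (XT.nd (nat_lit 78) (nat_lit 0) (nat_lit 76) (XT.lf (nat_lit 0) (nat_lit 7075255464) (nat_lit 1140) (nat_lit 10136329413) (nat_lit 1216) (nat_lit 15567820836) (nat_lit 168) (nat_lit 5) (nat_lit 183) (nat_lit 5) (nat_lit 184) (nat_lit 5) (nat_lit 285) (nat_lit 280) (nat_lit 155)) (XT.lf (nat_lit 0) (nat_lit 9196024326) (nat_lit 1140) (nat_lit 18989896881) (nat_lit 1216) (nat_lit 5454591535) (nat_lit 169) (nat_lit 5) (nat_lit 184) (nat_lit 5) (nat_lit 185) (nat_lit 5) (nat_lit 286) (nat_lit 280) (nat_lit 154))))))) (XT.nd (nat_lit 858) (nat_lit 3648) (nat_lit 0) (XT.nd (nat_lit 390) (nat_lit 2280) (nat_lit 0) (XT.nd (nat_lit 156) (nat_lit 912) (nat_lit 0) (XT.nd (nat_lit 78) (nat_lit 0) (nat_lit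 76) (XT.lf (nat_lit 76) (nat_lit 6290764188) (nat_lit 0) (nat_lit 5465529362) (nat_lit 1216) (nat_lit 22778388146) (nat_lit 170) (nat_lit 5) (nat_lit 169) (nat_lit 5) (nat_lit 185) (nat_lit 5) (nat_lit 287) (nat_lit 280) (nat_lit 153)) (XT.lf (nat_lit 0) (nat_lit 14812937806) (nat_lit 1140) (nat_lit 2418617704) (nat_lit 1216) (nat_lit 18230962680) (nat_lit 170) (nat_lit 5) (nat_lit 185) (nat_lit 5) (nat_lit 186) (nat_lit 5) (nat_lit 288) (nat_lit 280) (nat_lit 152))) (XT.nd (nat_lit 78) (nat_lit 1064) (nat_lit 0) (XT.lf (nat_lit 0) (nat_lit 18379081493) (nat_lit 1140) (nat_lit 11364677886) (nat_lit 1216) (nat_lit 6682296576) (nat_lit 171) (nat_lit 5) (nat_lit 186) (nat_lit 5) (nat_lit 187) (nat_lit 5) (nat_lit 289) (nat_lit 280) (nat_lit 151)) (XT.nd (nat_lit 78) (nat_lit 1064) (nat_lit 0) (XT.lf (nat_lit 76) (nat_lit 16675789525) (nat_lit 0) (nat_lit 5801779056) (nat_lit 1216) (nat_lit 14949589953)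 (nat_lit 172) (nat_lit 5) (nat_lit 171) (nat_lit 5) (nat_lit 187) (nat_lit 5) (nat_lit 290) (nat_lit 280) (nat_lit 150)) (XT.lf (nat_lit 0) (nat_lit 7842573993) (nat_lit 1140) (nat_lit 19312717132) (nat_lit 1216) (nat_lit 11311804368) (nat_lit 157) (nat_lit 5) (nat_lit 172) (nat_lit 5) (nat_lit 173) (nat_lit 5) (nat_lit 291) (nat_lit 280) (nat_lit 149))))) (XT.nd (nat_lit 234) (nat_lit 1064) (nat_lit 0) (XT.nd (nat_lit 78) (nat_lit 1216) (nat_lit 0) (XT.lf (nat_lit 0) (nat_lit 32390333864) (nat_lit 1216) (nat_lit 1371899303) (nat_lit 76) (nat_lit 5787101287) (nat_lit 157) (nat_lit 5) (nat_lit 173) (nat_lit 5) (nat_lit 158) (nat_lit 5) (nat_lit 292) (nat_lit 280) (nat_lit 148)) (XT.nd (nat_lit 78) (nat_lit 684) (nat_lit 0) (XT.lf (nat_lit 0) (nat_lit 29724243120) (nat_lit 532) (nat_lit 8638876673) (nat_lit 608) (nat_lit 2308293622) (nat_lit 150) (nat_lit 5) (nat_lit 157) (nat_lit 5) (nat_lit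 158) (nat_lit 5) (nat_lit 293) (nat_lit 280) (nat_lit 147)) (XT.lf (nat_lit 0) (nat_lit 3114480744) (nat_lit 684) (nat_lit 21083356745) (nat_lit 76) (nat_lit 17639446624) (nat_lit 141) (nat_lit 5) (nat_lit 150) (nat_lit 5) (nat_lit 142) (nat_lit 5) (nat_lit 294) (nat_lit 280) (nat_lit 146)))) (XT.nd (nat_lit 78) (nat_lit 532) (nat_lit 0) (XT.lf (nat_lit 0) (nat_lit 9088141596) (nat_lit 608) (nat_lit 31757442599) (nat_lit 76) (nat_lit 2205360769) (nat_lit 134) (nat_lit 5) (nat_lit 142) (nat_lit 5) (nat_lit 135) (nat_lit 5) (nat_lit 295) (nat_lit 280) (nat_lit 145)) (XT.nd (nat_lit 78) (nat_lit 0) (nat_lit 0) (XT.lf (nat_lit 0) (nat_lit 1183498046) (nat_lit 532) (nat_lit 14647597241) (nat_lit 608) (nat_lit 28480081808) (nat_lit 127) (nat_lit 5) (nat_lit 134) (nat_lit 5) (nat_lit 135) (nat_lit 5) (nat_lit 296) (nat_lit 280) (nat_lit 144)) (XT.lf (nat_lit 0) (nat_lit 23360943667) (nat_lit 608)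 (nat_lit 9320573091) (nat_lit 76) (nat_lit 12939417882) (nat_lit 127) (nat_lit 5) (nat_lit 135) (nat_lit 5) (nat_lit 128) (nat_lit 5) (nat_lit 297) (nat_lit 280) (nat_lit 143)))))) (XT.nd (nat_lit 390) (nat_lit 1824) (nat_lit 0) (XT.nd (nat_lit 156) (nat_lit 912) (nat_lit 0) (XT.nd (nat_lit 78) (nat_lit 456) (nat_lit 0) (XT.lf (nat_lit 0) (nat_lit 26542971751) (nat_lit 456) (nat_lit 5123467847) (nat_lit 532) (nat_lit 15317771734) (nat_lit 121) (nat_lit 5) (nat_lit 127) (nat_lit 5) (nat_lit 128) (nat_lit 5) (nat_lit 298) (nat_lit 280) (nat_lit 142)) (XT.lf (nat_lit 0) (nat_lit 16061232818) (nat_lit 456) (nat_lit 24802474101) (nat_lit 532) (nat_lit 7537655683) (nat_lit 115) (nat_lit 5) (nat_lit 121) (nat_lit 5) (nat_lit 122) (nat_lit 5) (nat_lit 299) (nat_lit 280) (nat_lit 141))) (XT.nd (nat_lit 78) (nat_lit 456) (nat_lit 0) (XT.lf (nat_lit 0) (nat_lit 966327512) (nat_lit 456) (nat_lit 44952777565)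 (nat_lit 76) (nat_lit 3959673966) (nat_lit 109) (nat_lit 5) (nat_lit 115) (nat_lit 5) (nat_lit 110) (nat_lit 5) (nat_lit 300) (nat_lit 280) (nat_lit 140)) (XT.nd (nat_lit 78) (nat_lit 456) (nat_lit 0) (XT.lf (nat_lit 0) (nat_lit 10324152082) (nat_lit 456) (nat_lit 7022513486) (nat_lit 76) (nat_lit 34063630823) (nat_lit 109) (nat_lit 5) (nat_lit 115) (nat_lit 5) (nat_lit 110) (nat_lit 5) (nat_lit 301) (nat_lit 280) (nat_lit 139)) (XT.lf (nat_lit 0) (nat_lit 20592963842) (nat_lit 532) (nat_lit 19680394735) (nat_lit 76) (nat_lit 12731742880) (nat_lit 103) (nat_lit 5) (nat_lit 110) (nat_lit 5) (nat_lit 104) (nat_lit 5) (nat_lit 302) (nat_lit 280) (nat_lit 138))))) (XT.nd (nat_lit 234) (nat_lit 1064) (nat_lit 0) (XT.nd (nat_lit 78) (nat_lit 380) (nat_lit 0) (XT.lf (nat_lit 0) (nat_lit 21396511144) (nat_lit 380) (nat_lit 10429290374) (nat_lit 456) (nat_lit 22840332205) (nat_lit 98) (nat_lit 5)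 (nat_lit 103) (nat_lit 5) (nat_lit 104) (nat_lit 5) (nat_lit 303) (nat_lit 280) (nat_lit 137)) (XT.nd (nat_lit 78) (nat_lit 0) (nat_lit 0) (XT.lf (nat_lit 0) (nat_lit 8493390798) (nat_lit 380) (nat_lit 35611031881) (nat_lit 456) (nat_lit 12291274966) (nat_lit 93) (nat_lit 5) (nat_lit 98) (nat_lit 5) (nat_lit 99) (nat_lit 5) (nat_lit 304) (nat_lit 280) (nat_lit 136)) (XT.lf (nat_lit 0) (nat_lit 52928785233) (nat_lit 380) (nat_lit 4511944673) (nat_lit 456) (nat_lit 757701294) (nat_lit 93) (nat_lit 5) (nat_lit 98) (nat_lit 5) (nat_lit 99) (nat_lit 5) (nat_lit 305) (nat_lit 280) (nat_lit 135)))) (XT.nd (nat_lit 78) (nat_lit 684) (nat_lit 0) (XT.lf (nat_lit 0) (nat_lit 11789684993) (nat_lit 380) (nat_lit 20186184014) (nat_lit 76) (nat_lit 28092402479) (nat_lit 88) (nat_lit 5) (nat_lit 93) (nat_lit 5) (nat_lit 89) (nat_lit 5) (nat_lit 306) (nat_lit 280) (nat_lit 134)) (XT.nd (nat_lit 78) (nat_lit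 304) (nat_lit 0) (XT.lf (nat_lit 0) (nat_lit 25299696405) (nat_lit 456) (nat_lit 36207917944) (nat_lit 76) (nat_lit 513240192) (nat_lit 83) (nat_lit 5) (nat_lit 89) (nat_lit 5) (nat_lit 84) (nat_lit 5) (nat_lit 307) (nat_lit 280) (nat_lit 133)) (XT.lf (nat_lit 0) (nat_lit 10342548339) (nat_lit 304) (nat_lit 29772012270) (nat_lit 380) (nat_lit 23937628999) (nat_lit 79) (nat_lit 5) (nat_lit 83) (nat_lit 5) (nat_lit 84) (nat_lit 5) (nat_lit 308) (nat_lit 280) (nat_lit 132))))))))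
noncomputable def xc113 : XT := (XT.nd (nat_lit 35880) (nat_lit 0) (nat_lit 2812) (XT.nd (nat_lit 858) (nat_lit 456) (nat_lit 0) (XT.nd (nat_lit 390) (nat_lit 1368) (nat_lit 0) (XT.nd (nat_lit 156) (nat_lit 608) (nat_lit 0) (XT.nd (nat_lit 78) (nat_lit 380) (nat_lit 0) (XT.lf (nat_lit 0) (nat_lit 56078138462) (nat_lit 380) (nat_lit 6238010634) (nat_lit 76) (nat_lit 3856706484) (nat_lit 79) (nat_lit 5) (nat_lit 84) (nat_lit 5) (nat_lit 80) (nat_lit 5) (nat_lit 309) (nat_lit 280) (nat_lit 131)) (XT.lf (nat_lit 0) (nat_lit 5083429829) (nat_lit 380) (nat_lit 24262484321) (nat_lit 76) (nat_lit 39030471125) (nat_lit 74) (nat_lit 5) (nat_lit 79) (nat_lit 5) (nat_lit 75) (nat_lit 5) (nat_lit 310) (nat_lit 280) (nat_lit 130))) (XT.nd (nat_lit 78) (nat_lit 304) (nat_lit 0) (XT.lf (nat_lit 0) (nat_lit 21189027508) (nat_lit 380) (nat_lit 43888665596) (nat_lit 76) (nat_lit 5598083266) (nat_lit 70) (nat_lit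 5) (nat_lit 75) (nat_lit 5) (nat_lit 71) (nat_lit 5) (nat_lit 311) (nat_lit 280) (nat_lit 129)) (XT.nd (nat_lit 78) (nat_lit 0) (nat_lit 0) (XT.lf (nat_lit 0) (nat_lit 7661163195) (nat_lit 304) (nat_lit 31058495981) (nat_lit 380) (nat_lit 34351887956) (nat_lit 66) (nat_lit 5) (nat_lit 70) (nat_lit 5) (nat_lit 71) (nat_lit 5) (nat_lit 312) (nat_lit 280) (nat_lit 128)) (XT.lf (nat_lit 0) (nat_lit 57625654404) (nat_lit 380) (nat_lit 12920399330) (nat_lit 76) (nat_lit 5026090349) (nat_lit 66) (nat_lit 5) (nat_lit 71) (nat_lit 5) (nat_lit 67) (nat_lit 5) (nat_lit 313) (nat_lit 280) (nat_lit 127))))) (XT.nd (nat_lit 234) (nat_lit 760) (nat_lit 0) (XT.nd (nat_lit 78) (nat_lit 304) (nat_lit 0) (XT.lf (nat_lit 0) (nat_lit 22294701) (nat_lit 304) (nat_lit 35465323869) (nat_lit 76) (nat_lit 42688491078) (nat_lit 62) (nat_lit 5) (nat_lit 66) (nat_lit 5) (nat_lit 63) (nat_lit 5) (nat_lit 314) (nat_lit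 280) (nat_lit 126)) (XT.nd (nat_lit 78) (nat_lit 0) (nat_lit 0) (XT.lf (nat_lit 0) (nat_lit 18870886397) (nat_lit 380) (nat_lit 60206873084) (nat_lit 76) (nat_lit 1816609797) (nat_lit 58) (nat_lit 5) (nat_lit 63) (nat_lit 5) (nat_lit 59) (nat_lit 5) (nat_lit 315) (nat_lit 280) (nat_lit 125)) (XT.lf (nat_lit 0) (nat_lit 39386765372) (nat_lit 380) (nat_lit 3713274380) (nat_lit 76) (nat_lit 40626758592) (nat_lit 58) (nat_lit 5) (nat_lit 63) (nat_lit 5) (nat_lit 59) (nat_lit 5) (nat_lit 316) (nat_lit 280) (nat_lit 124)))) (XT.nd (nat_lit 78) (nat_lit 532) (nat_lit 0) (XT.lf (nat_lit 0) (nat_lit 56708774410) (nat_lit 228) (nat_lit 4762853459) (nat_lit 304) (nat_lit 25212927390) (nat_lit 55) (nat_lit 5) (nat_lit 58) (nat_lit 5) (nat_lit 59) (nat_lit 5) (nat_lit 317) (nat_lit 280) (nat_lit 123)) (XT.nd (nat_lit 78) (nat_lit 304) (nat_lit 0) (XT.lf (nat_lit 0) (nat_lit 30695108617) (nat_lit 228)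 (nat_lit 54638578690) (nat_lit 304) (nat_lit 4436326080) (nat_lit 52) (nat_lit 5) (nat_lit 55) (nat_lit 5) (nat_lit 56) (nat_lit 5) (nat_lit 318) (nat_lit 280) (nat_lit 122)) (XT.lf (nat_lit 0) (nat_lit 1840439077) (nat_lit 228) (nat_lit 15575101349) (nat_lit 304) (nat_lit 75577927150) (nat_lit 48) (nat_lit 5) (nat_lit 51) (nat_lit 5) (nat_lit 52) (nat_lit 5) (nat_lit 319) (nat_lit 280) (nat_lit 121)))))) (XT.nd (nat_lit 34554) (nat_lit 0) (nat_lit 9348) (XT.nd (nat_lit 156) (nat_lit 228) (nat_lit 0) (XT.nd (nat_lit 78) (nat_lit 228) (nat_lit 0) (XT.lf (nat_lit 0) (nat_lit 41126031294) (nat_lit 304) (nat_lit 29621882987) (nat_lit 76) (nat_lit 25603130788) (nat_lit 48) (nat_lit 5) (nat_lit 52) (nat_lit 5) (nat_lit 49) (nat_lit 5) (nat_lit 320) (nat_lit 280) (nat_lit 120)) (XT.lf (nat_lit 0) (nat_lit 35519135727) (nat_lit 228) (nat_lit 30999853889) (nat_lit 304) (nat_lit 33342605195) (nat_lit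 45) (nat_lit 5) (nat_lit 48) (nat_lit 5) (nat_lit 49) (nat_lit 5) (nat_lit 321) (nat_lit 280) (nat_lit 119))) (XT.nd (nat_lit 78) (nat_lit 76) (nat_lit 0) (XT.lf (nat_lit 0) (nat_lit 906611252) (nat_lit 152) (nat_lit 92693202985) (nat_lit 228) (nat_lit 9935312838) (nat_lit 43) (nat_lit 5) (nat_lit 45) (nat_lit 5) (nat_lit 46) (nat_lit 5) (nat_lit 322) (nat_lit 280) (nat_lit 118)) (XT.nd (nat_lit 34242) (nat_lit 0) (nat_lit 9348) (XT.lf (nat_lit 0) (nat_lit 15336808228) (nat_lit 228) (nat_lit 37072475678) (nat_lit 76) (nat_lit 54949425306) (nat_lit 42) (nat_lit 5) (nat_lit 45) (nat_lit 5) (nat_lit 43) (nat_lit 5) (nat_lit 323) (nat_lit 280) (nat_lit 117)) (XT.lf (nat_lit 0) (nat_lit 595389810) (nat_lit 0) (nat_lit 595389810) (nat_lit 1140) (nat_lit 13992109489) (nat_lit 165) (nat_lit 5) (nat_lit 165) (nat_lit 3) (nat_lit 180) (nat_lit 3) (nat_lit 281) (nat_lit 281) (nat_lit 158))))) (XT.nd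 (nat_lit 234) (nat_lit 0) (nat_lit 152) (XT.nd (nat_lit 78) (nat_lit 0) (nat_lit 76) (XT.lf (nat_lit 0) (nat_lit 2756276412) (nat_lit 1140) (nat_lit 7428552870) (nat_lit 1216) (nat_lit 20930449363) (nat_lit 165) (nat_lit 5) (nat_lit 180) (nat_lit 3) (nat_lit 181) (nat_lit 5) (nat_lit 282) (nat_lit 281) (nat_lit 157)) (XT.nd (nat_lit 78) (nat_lit 0) (nat_lit 76) (XT.lf (nat_lit 0) (nat_lit 3424719846) (nat_lit 1140) (nat_lit 16320991667) (nat_lit 1216) (nat_lit 12148304944) (nat_lit 166) (nat_lit 5) (nat_lit 181) (nat_lit 5) (nat_lit 182) (nat_lit 5) (nat_lit 283) (nat_lit 281) (nat_lit 156)) (XT.lf (nat_lit 0) (nat_lit 4396424421) (nat_lit 1140) (nat_lit 25528049341) (nat_lit 1216) (nat_lit 2779133733) (nat_lit 167) (nat_lit 5) (nat_lit 182) (nat_lit 5) (nat_lit 183) (nat_lit 5) (nat_lit 284) (nat_lit 281) (nat_lit 155)))) (XT.nd (nat_lit 78) (nat_lit 0) (nat_lit 76) (XT.lf (nat_lit 0) (nat_lit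 5779314098) (nat_lit 1140) (nat_lit 1565629812) (nat_lit 1216) (nat_lit 26197867132) (nat_lit 167) (nat_lit 5) (nat_lit 182) (nat_lit 5) (nat_lit 183) (nat_lit 5) (nat_lit 285) (nat_lit 281) (nat_lit 154)) (XT.nd (nat_lit 78) (nat_lit 0) (nat_lit 76) (XT.lf (nat_lit 0) (nat_lit 7616172692) (nat_lit 1140) (nat_lit 10516252114) (nat_lit 1216) (nat_lit 16280015662) (nat_lit 168) (nat_lit 5) (nat_lit 183) (nat_lit 5) (nat_lit 184) (nat_lit 5) (nat_lit 286) (nat_lit 281) (nat_lit 153)) (XT.lf (nat_lit 0) (nat_lit 9834712748) (nat_lit 1140) (nat_lit 19809906962) (nat_lit 1216) (nat_lit 5672246437) (nat_lit 169) (nat_lit 5) (nat_lit 184) (nat_lit 5) (nat_lit 185) (nat_lit 5) (nat_lit 287) (nat_lit 281) (nat_lit 152))))))) (XT.nd (nat_lit 858) (nat_lit 3648) (nat_lit 0) (XT.nd (nat_lit 390) (nat_lit 2280) (nat_lit 0) (XT.nd (nat_lit 156) (nat_lit 912) (nat_lit 0) (XT.nd (nat_lit 78) (nat_lit 0) (nat_lit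 76) (XT.lf (nat_lit 76) (nat_lit 6731075506) (nat_lit 0) (nat_lit 5784610498) (nat_lit 1216) (nat_lit 23740291383) (nat_lit 170) (nat_lit 5) (nat_lit 169) (nat_lit 5) (nat_lit 185) (nat_lit 5) (nat_lit 288) (nat_lit 281) (nat_lit 151)) (XT.lf (nat_lit 0) (nat_lit 15716572766) (nat_lit 1140) (nat_lit 2414165916) (nat_lit 1216) (nat_lit 19099738573) (nat_lit 170) (nat_lit 5) (nat_lit 185) (nat_lit 5) (nat_lit 186) (nat_lit 5) (nat_lit 289) (nat_lit 281) (nat_lit 150))) (XT.nd (nat_lit 78) (nat_lit 1064) (nat_lit 0) (XT.lf (nat_lit 0) (nat_lit 19454100326) (nat_lit 1140) (nat_lit 11805834570) (nat_lit 1216) (nat_lit 6982477912) (nat_lit 171) (nat_lit 5) (nat_lit 186) (nat_lit 5) (nat_lit 187) (nat_lit 5) (nat_lit 290) (nat_lit 281) (nat_lit 149)) (XT.nd (nat_lit 78) (nat_lit 1064) (nat_lit 0) (XT.lf (nat_lit 76) (nat_lit 17633013569) (nat_lit 0) (nat_lit 6118253073) (nat_lit 1216) (nat_lit 15542503799)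 (nat_lit 172) (nat_lit 5) (nat_lit 171) (nat_lit 5) (nat_lit 187) (nat_lit 5) (nat_lit 291) (nat_lit 281) (nat_lit 148)) (XT.lf (nat_lit 0) (nat_lit 8359455369) (nat_lit 1140) (nat_lit 20297243324) (nat_lit 1216) (nat_lit 11729202828) (nat_lit 157) (nat_lit 5) (nat_lit 172) (nat_lit 5) (nat_lit 173) (nat_lit 5) (nat_lit 292) (nat_lit 281) (nat_lit 147))))) (XT.nd (nat_lit 234) (nat_lit 1064) (nat_lit 0) (XT.nd (nat_lit 78) (nat_lit 1216) (nat_lit 0) (XT.lf (nat_lit 0) (nat_lit 34146480486) (nat_lit 1216) (nat_lit 1317177116) (nat_lit 76) (nat_lit 6058816621) (nat_lit 157) (nat_lit 5) (nat_lit 173) (nat_lit 5) (nat_lit 158) (nat_lit 5) (nat_lit 293) (nat_lit 281) (nat_lit 146)) (XT.nd (nat_lit 78) (nat_lit 684) (nat_lit 0) (XT.lf (nat_lit 0) (nat_lit 31330237567) (nat_lit 532) (nat_lit 9082313379) (nat_lit 608) (nat_lit 2288277691) (nat_lit 150) (nat_lit 5) (nat_lit 157) (nat_lit 5) (nat_lit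 158) (nat_lit 5) (nat_lit 294) (nat_lit 281) (nat_lit 145)) (XT.lf (nat_lit 0) (nat_lit 3397732880) (nat_lit 684) (nat_lit 22014293295) (nat_lit 76) (nat_lit 18513095473) (nat_lit 141) (nat_lit 5) (nat_lit 150) (nat_lit 5) (nat_lit 142) (nat_lit 5) (nat_lit 295) (nat_lit 281) (nat_lit 144)))) (XT.nd (nat_lit 78) (nat_lit 532) (nat_lit 0) (XT.lf (nat_lit 0) (nat_lit 9665126683) (nat_lit 608) (nat_lit 33221718455) (nat_lit 76) (nat_lit 2312778471) (nat_lit 134) (nat_lit 5) (nat_lit 142) (nat_lit 5) (nat_lit 135) (nat_lit 5) (nat_lit 296) (nat_lit 281) (nat_lit 143)) (XT.nd (nat_lit 78) (nat_lit 0) (nat_lit 0) (XT.lf (nat_lit 0) (nat_lit 1362726361) (nat_lit 532) (nat_lit 15377818676) (nat_lit 608) (nat_lit 29782471907) (nat_lit 127) (nat_lit 5) (nat_lit 134) (nat_lit 5) (nat_lit 135) (nat_lit 5) (nat_lit 297) (nat_lit 281) (nat_lit 142)) (XT.lf (nat_lit 0) (nat_lit 24641291549) (nat_lit 608)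 (nat_lit 9668743012) (nat_lit 76) (nat_lit 13588404308) (nat_lit 127) (nat_lit 5) (nat_lit 135) (nat_lit 5) (nat_lit 128) (nat_lit 5) (nat_lit 298) (nat_lit 281) (nat_lit 141)))))) (XT.nd (nat_lit 390) (nat_lit 1824) (nat_lit 0) (XT.nd (nat_lit 156) (nat_lit 912) (nat_lit 0) (XT.nd (nat_lit 78) (nat_lit 456) (nat_lit 0) (XT.lf (nat_lit 0) (nat_lit 27984600675) (nat_lit 456) (nat_lit 5373214404) (nat_lit 532) (nat_lit 15972199993) (nat_lit 121) (nat_lit 5) (nat_lit 127) (nat_lit 5) (nat_lit 128) (nat_lit 5) (nat_lit 299) (nat_lit 281) (nat_lit 140)) (XT.lf (nat_lit 0) (nat_lit 16978742402) (nat_lit 456) (nat_lit 26032216939) (nat_lit 532) (nat_lit 7807192025) (nat_lit 115) (nat_lit 5) (nat_lit 121) (nat_lit 5) (nat_lit 122) (nat_lit 5) (nat_lit 300) (nat_lit 281) (nat_lit 139))) (XT.nd (nat_lit 78) (nat_lit 456) (nat_lit 0) (XT.lf (nat_lit 0) (nat_lit 1116088774) (nat_lit 456) (nat_lit 47083996242)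 (nat_lit 76) (nat_lit 4169444136) (nat_lit 109) (nat_lit 5) (nat_lit 115) (nat_lit 5) (nat_lit 110) (nat_lit 5) (nat_lit 301) (nat_lit 281) (nat_lit 138)) (XT.nd (nat_lit 78) (nat_lit 456) (nat_lit 0) (XT.lf (nat_lit 0) (nat_lit 10936973864) (nat_lit 456) (nat_lit 7262762778) (nat_lit 76) (nat_lit 35778037575) (nat_lit 109) (nat_lit 5) (nat_lit 115) (nat_lit 5) (nat_lit 110) (nat_lit 5) (nat_lit 302) (nat_lit 281) (nat_lit 137)) (XT.lf (nat_lit 0) (nat_lit 21715801616) (nat_lit 532) (nat_lit 20553933726) (nat_lit 76) (nat_lit 13382693532) (nat_lit 103) (nat_lit 5) (nat_lit 110) (nat_lit 5) (nat_lit 104) (nat_lit 5) (nat_lit 303) (nat_lit 281) (nat_lit 136))))) (XT.nd (nat_lit 234) (nat_lit 1064) (nat_lit 0) (XT.nd (nat_lit 78) (nat_lit 380) (nat_lit 0) (XT.lf (nat_lit 0) (nat_lit 22573650539) (nat_lit 380) (nat_lit 10933224604) (nat_lit 456) (nat_lit 23889746075) (nat_lit 98) (nat_lit 5)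 (nat_lit 103) (nat_lit 5) (nat_lit 104) (nat_lit 5) (nat_lit 304) (nat_lit 281) (nat_lit 135)) (XT.nd (nat_lit 78) (nat_lit 0) (nat_lit 0) (XT.lf (nat_lit 0) (nat_lit 9024872744) (nat_lit 380) (nat_lit 37371466445) (nat_lit 456) (nat_lit 12816422778) (nat_lit 93) (nat_lit 5) (nat_lit 98) (nat_lit 5) (nat_lit 99) (nat_lit 5) (nat_lit 305) (nat_lit 281) (nat_lit 134)) (XT.lf (nat_lit 0) (nat_lit 55676950596) (nat_lit 380) (nat_lit 4718382830) (nat_lit 456) (nat_lit 710428323) (nat_lit 93) (nat_lit 5) (nat_lit 98) (nat_lit 5) (nat_lit 99) (nat_lit 5) (nat_lit 306) (nat_lit 281) (nat_lit 133)))) (XT.nd (nat_lit 78) (nat_lit 684) (nat_lit 0) (XT.lf (nat_lit 0) (nat_lit 12459848583) (nat_lit 380) (nat_lit 21092634136) (nat_lit 76) (nat_lit 29516676554) (nat_lit 88) (nat_lit 5) (nat_lit 93) (nat_lit 5) (nat_lit 89) (nat_lit 5) (nat_lit 307) (nat_lit 281) (nat_lit 132)) (XT.nd (nat_lit 78) (nat_lit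 304) (nat_lit 0) (XT.lf (nat_lit 0) (nat_lit 26642691656) (nat_lit 456) (nat_lit 37916181433) (nat_lit 76) (nat_lit 560583478) (nat_lit 83) (nat_lit 5) (nat_lit 89) (nat_lit 5) (nat_lit 84) (nat_lit 5) (nat_lit 308) (nat_lit 281) (nat_lit 131)) (XT.lf (nat_lit 0) (nat_lit 10958880560) (nat_lit 304) (nat_lit 31236657345) (nat_lit 380) (nat_lit 25056908097) (nat_lit 79) (nat_lit 5) (nat_lit 83) (nat_lit 5) (nat_lit 84) (nat_lit 5) (nat_lit 309) (nat_lit 281) (nat_lit 130))))))))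
noncomputable def xc114 : XT := (XT.nd (nat_lit 35958) (nat_lit 0) (nat_lit 2736) (XT.nd (nat_lit 858) (nat_lit 380) (nat_lit 0) (XT.nd (nat_lit 390) (nat_lit 1368) (nat_lit 0) (XT.nd (nat_lit 156) (nat_lit 608) (nat_lit 0) (XT.nd (nat_lit 78) (nat_lit 380) (nat_lit 0) (XT.lf (nat_lit 0) (nat_lit 58953930662) (nat_lit 380) (nat_lit 6453408675) (nat_lit 76) (nat_lit 4071911408) (nat_lit 79) (nat_lit 5) (nat_lit 84) (nat_lit 5) (nat_lit 80) (nat_lit 5) (nat_lit 310) (nat_lit 281) (nat_lit 129)) (XT.lf (nat_lit 0) (nat_lit 5407736331) (nat_lit 380) (nat_lit 25380392252) (nat_lit 76) (nat_lit 41004887711) (nat_lit 74) (nat_lit 5) (nat_lit 79) (nat_lit 5) (nat_lit 75) (nat_lit 5) (nat_lit 311) (nat_lit 281) (nat_lit 128))) (XT.nd (nat_lit 78) (nat_lit 304) (nat_lit 0) (XT.lf (nat_lit 0) (nat_lit 22316401591) (nat_lit 380) (nat_lit 45988739650) (nat_lit 76) (nat_lit 5902306080) (nat_lit 70) (nat_lit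 5) (nat_lit 75) (nat_lit 5) (nat_lit 71) (nat_lit 5) (nat_lit 312) (nat_lit 281) (nat_lit 127)) (XT.nd (nat_lit 78) (nat_lit 0) (nat_lit 0) (XT.lf (nat_lit 0) (nat_lit 8135875792) (nat_lit 304) (nat_lit 32585335675) (nat_lit 380) (nat_lit 36001869576) (nat_lit 66) (nat_lit 5) (nat_lit 70) (nat_lit 5) (nat_lit 71) (nat_lit 5) (nat_lit 313) (nat_lit 281) (nat_lit 126)) (XT.lf (nat_lit 0) (nat_lit 60569622912) (nat_lit 380) (nat_lit 13477422023) (nat_lit 76) (nat_lit 5301753048) (nat_lit 66) (nat_lit 5) (nat_lit 71) (nat_lit 5) (nat_lit 67) (nat_lit 5) (nat_lit 314) (nat_lit 281) (nat_lit 125))))) (XT.nd (nat_lit 234) (nat_lit 760) (nat_lit 0) (XT.nd (nat_lit 78) (nat_lit 304) (nat_lit 0) (XT.lf (nat_lit 0) (nat_lit 84608400) (nat_lit 304) (nat_lit 37150858649) (nat_lit 76) (nat_lit 44847544864) (nat_lit 62) (nat_lit 5) (nat_lit 66) (nat_lit 5) (nat_lit 63) (nat_lit 5) (nat_lit 315) (nat_lit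 281) (nat_lit 124)) (XT.nd (nat_lit 78) (nat_lit 0) (nat_lit 0) (XT.lf (nat_lit 0) (nat_lit 19873785609) (nat_lit 380) (nat_lit 63130413976) (nat_lit 76) (nat_lit 1933043462) (nat_lit 58) (nat_lit 5) (nat_lit 63) (nat_lit 5) (nat_lit 59) (nat_lit 5) (nat_lit 316) (nat_lit 281) (nat_lit 123)) (XT.lf (nat_lit 0) (nat_lit 41412632110) (nat_lit 380) (nat_lit 3816268801) (nat_lit 76) (nat_lit 42682480499) (nat_lit 58) (nat_lit 5) (nat_lit 63) (nat_lit 5) (nat_lit 59) (nat_lit 5) (nat_lit 317) (nat_lit 281) (nat_lit 122)))) (XT.nd (nat_lit 78) (nat_lit 532) (nat_lit 0) (XT.lf (nat_lit 0) (nat_lit 59624512729) (nat_lit 228) (nat_lit 4975305060) (nat_lit 304) (nat_lit 26417268884) (nat_lit 55) (nat_lit 5) (nat_lit 58) (nat_lit 5) (nat_lit 59) (nat_lit 5) (nat_lit 318) (nat_lit 281) (nat_lit 121)) (XT.nd (nat_lit 78) (nat_lit 304) (nat_lit 0) (XT.lf (nat_lit 0) (nat_lit 32309269718) (nat_lit 228)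 (nat_lit 57344108569) (nat_lit 304) (nat_lit 4603490244) (nat_lit 52) (nat_lit 5) (nat_lit 55) (nat_lit 5) (nat_lit 56) (nat_lit 5) (nat_lit 319) (nat_lit 281) (nat_lit 120)) (XT.lf (nat_lit 0) (nat_lit 2010678619) (nat_lit 228) (nat_lit 16327424684) (nat_lit 304) (nat_lit 79303432919) (nat_lit 48) (nat_lit 5) (nat_lit 51) (nat_lit 5) (nat_lit 52) (nat_lit 5) (nat_lit 320) (nat_lit 281) (nat_lit 119)))))) (XT.nd (nat_lit 34632) (nat_lit 0) (nat_lit 9348) (XT.nd (nat_lit 156) (nat_lit 152) (nat_lit 0) (XT.nd (nat_lit 78) (nat_lit 228) (nat_lit 0) (XT.lf (nat_lit 0) (nat_lit 43231894700) (nat_lit 304) (nat_lit 31027197858) (nat_lit 76) (nat_lit 26907969189) (nat_lit 48) (nat_lit 5) (nat_lit 52) (nat_lit 5) (nat_lit 49) (nat_lit 5) (nat_lit 321) (nat_lit 281) (nat_lit 118)) (XT.lf (nat_lit 0) (nat_lit 37368699595) (nat_lit 228) (nat_lit 32524148813) (nat_lit 304) (nat_lit 34960342465) (nat_lit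 45) (nat_lit 5) (nat_lit 48) (nat_lit 5) (nat_lit 49) (nat_lit 5) (nat_lit 322) (nat_lit 281) (nat_lit 117))) (XT.nd (nat_lit 34320) (nat_lit 0) (nat_lit 9272) (XT.lf (nat_lit 0) (nat_lit 1024640173) (nat_lit 152) (nat_lit 97301726771) (nat_lit 228) (nat_lit 10384075434) (nat_lit 43) (nat_lit 5) (nat_lit 45) (nat_lit 5) (nat_lit 46) (nat_lit 5) (nat_lit 323) (nat_lit 281) (nat_lit 116)) (XT.nd (nat_lit 78) (nat_lit 0) (nat_lit 0) (XT.lf (nat_lit 0) (nat_lit 679289623) (nat_lit 0) (nat_lit 679289623) (nat_lit 1140) (nat_lit 14580020760) (nat_lit 165) (nat_lit 5) (nat_lit 165) (nat_lit 3) (nat_lit 180) (nat_lit 3) (nat_lit 282) (nat_lit 282) (nat_lit 156)) (XT.lf (nat_lit 0) (nat_lit 3099309875) (nat_lit 1140) (nat_lit 7689343913) (nat_lit 1216) (nat_lit 21875878412) (nat_lit 165) (nat_lit 5) (nat_lit 180) (nat_lit 3) (nat_lit 181) (nat_lit 5) (nat_lit 283) (nat_lit 282) (nat_lit 155))))) (XT.nd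 (nat_lit 234) (nat_lit 0) (nat_lit 152) (XT.nd (nat_lit 78) (nat_lit 0) (nat_lit 76) (XT.lf (nat_lit 0) (nat_lit 3791580471) (nat_lit 1140) (nat_lit 17022489009) (nat_lit 1216) (nat_lit 12668442121) (nat_lit 166) (nat_lit 5) (nat_lit 181) (nat_lit 5) (nat_lit 182) (nat_lit 5) (nat_lit 284) (nat_lit 282) (nat_lit 154)) (XT.nd (nat_lit 78) (nat_lit 0) (nat_lit 0) (XT.lf (nat_lit 0) (nat_lit 4802892781) (nat_lit 1140) (nat_lit 26686509307) (nat_lit 1216) (nat_lit 2843465471) (nat_lit 167) (nat_lit 5) (nat_lit 182) (nat_lit 5) (nat_lit 183) (nat_lit 5) (nat_lit 285) (nat_lit 282) (nat_lit 153)) (XT.lf (nat_lit 0) (nat_lit 6246038983) (nat_lit 1140) (nat_lit 1531585112) (nat_lit 1216) (nat_lit 27436689109) (nat_lit 167) (nat_lit 5) (nat_lit 182) (nat_lit 5) (nat_lit 183) (nat_lit 5) (nat_lit 286) (nat_lit 282) (nat_lit 152)))) (XT.nd (nat_lit 78) (nat_lit 0) (nat_lit 76) (XT.lf (nat_lit 0) (nat_lit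 8166735934) (nat_lit 1140) (nat_lit 10926968330) (nat_lit 1216) (nat_lit 17033974527) (nat_lit 168) (nat_lit 5) (nat_lit 183) (nat_lit 5) (nat_lit 184) (nat_lit 5) (nat_lit 287) (nat_lit 282) (nat_lit 151)) (XT.nd (nat_lit 78) (nat_lit 0) (nat_lit 0) (XT.lf (nat_lit 0) (nat_lit 10488704354) (nat_lit 1140) (nat_lit 20682955813) (nat_lit 1216) (nat_lit 5905904405) (nat_lit 169) (nat_lit 5) (nat_lit 184) (nat_lit 5) (nat_lit 185) (nat_lit 5) (nat_lit 288) (nat_lit 282) (nat_lit 150)) (XT.lf (nat_lit 76) (nat_lit 7181709198) (nat_lit 0) (nat_lit 6115387206) (nat_lit 1216) (nat_lit 24766747066) (nat_lit 170) (nat_lit 5) (nat_lit 169) (nat_lit 5) (nat_lit 185) (nat_lit 5) (nat_lit 289) (nat_lit 282) (nat_lit 149))))))) (XT.nd (nat_lit 858) (nat_lit 3192) (nat_lit 0) (XT.nd (nat_lit 390) (nat_lit 2736) (nat_lit 0) (XT.nd (nat_lit 156) (nat_lit 988) (nat_lit 0) (XT.nd (nat_lit 78) (nat_lit 0) (nat_lit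 76) (XT.lf (nat_lit 0) (nat_lit 16650236388) (nat_lit 1140) (nat_lit 2421148431) (nat_lit 1216) (nat_lit 20015929818) (nat_lit 170) (nat_lit 5) (nat_lit 185) (nat_lit 5) (nat_lit 186) (nat_lit 5) (nat_lit 290) (nat_lit 282) (nat_lit 148)) (XT.lf (nat_lit 0) (nat_lit 20568360679) (nat_lit 1140) (nat_lit 12280863522) (nat_lit 1216) (nat_lit 7300823129) (nat_lit 171) (nat_lit 5) (nat_lit 186) (nat_lit 5) (nat_lit 187) (nat_lit 5) (nat_lit 291) (nat_lit 282) (nat_lit 147))) (XT.nd (nat_lit 78) (nat_lit 1064) (nat_lit 0) (XT.lf (nat_lit 76) (nat_lit 18626623039) (nat_lit 0) (nat_lit 6448097757) (nat_lit 1216) (nat_lit 16179433387) (nat_lit 172) (nat_lit 5) (nat_lit 171) (nat_lit 5) (nat_lit 187) (nat_lit 5) (nat_lit 292) (nat_lit 282) (nat_lit 146)) (XT.nd (nat_lit 78) (nat_lit 0) (nat_lit 0) (XT.lf (nat_lit 0) (nat_lit 8890582492) (nat_lit 1140) (nat_lit 21329239581) (nat_lit 1216) (nat_lit 12181248675)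 (nat_lit 157) (nat_lit 5) (nat_lit 172) (nat_lit 5) (nat_lit 173) (nat_lit 5) (nat_lit 293) (nat_lit 282) (nat_lit 145)) (XT.lf (nat_lit 0) (nat_lit 35977731883) (nat_lit 1216) (nat_lit 1271183680) (nat_lit 76) (nat_lit 6345757697) (nat_lit 157) (nat_lit 5) (nat_lit 173) (nat_lit 5) (nat_lit 158) (nat_lit 5) (nat_lit 294) (nat_lit 282) (nat_lit 144))))) (XT.nd (nat_lit 234) (nat_lit 988) (nat_lit 0) (XT.nd (nat_lit 78) (nat_lit 1216) (nat_lit 0) (XT.lf (nat_lit 0) (nat_lit 33005395514) (nat_lit 532) (nat_lit 9546853421) (nat_lit 608) (nat_lit 2279852017) (nat_lit 150) (nat_lit 5) (nat_lit 157) (nat_lit 5) (nat_lit 158) (nat_lit 5) (nat_lit 295) (nat_lit 282) (nat_lit 143)) (XT.nd (nat_lit 78) (nat_lit 532) (nat_lit 0) (XT.lf (nat_lit 0) (nat_lit 3683291268) (nat_lit 684) (nat_lit 23003233550) (nat_lit 76) (nat_lit 19431200603) (nat_lit 141) (nat_lit 5) (nat_lit 150) (nat_lit 5) (nat_lit 142)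 (nat_lit 5) (nat_lit 296) (nat_lit 282) (nat_lit 142)) (XT.lf (nat_lit 0) (nat_lit 10259564882) (nat_lit 608) (nat_lit 34770698914) (nat_lit 76) (nat_lit 2425832055) (nat_lit 134) (nat_lit 5) (nat_lit 142) (nat_lit 5) (nat_lit 135) (nat_lit 5) (nat_lit 297) (nat_lit 282) (nat_lit 141)))) (XT.nd (nat_lit 78) (nat_lit 456) (nat_lit 0) (XT.lf (nat_lit 0) (nat_lit 1539754662) (nat_lit 532) (nat_lit 16144751853) (nat_lit 608) (nat_lit 31161288027) (nat_lit 127) (nat_lit 5) (nat_lit 134) (nat_lit 5) (nat_lit 135) (nat_lit 5) (nat_lit 298) (nat_lit 282) (nat_lit 140)) (XT.nd (nat_lit 78) (nat_lit 456) (nat_lit 0) (XT.lf (nat_lit 0) (nat_lit 25975216170) (nat_lit 608) (nat_lit 10045278818) (nat_lit 76) (nat_lit 14269652670) (nat_lit 127) (nat_lit 5) (nat_lit 135) (nat_lit 5) (nat_lit 128) (nat_lit 5) (nat_lit 299) (nat_lit 282) (nat_lit 139)) (XT.lf (nat_lit 0) (nat_lit 29487667749) (nat_lit 456)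 (nat_lit 5636045795) (nat_lit 532) (nat_lit 16669712190) (nat_lit 121) (nat_lit 5) (nat_lit 127) (nat_lit 5) (nat_lit 128) (nat_lit 5) (nat_lit 300) (nat_lit 282) (nat_lit 138)))))) (XT.nd (nat_lit 390) (nat_lit 1444) (nat_lit 0) (XT.nd (nat_lit 156) (nat_lit 836) (nat_lit 0) (XT.nd (nat_lit 78) (nat_lit 456) (nat_lit 0) (XT.lf (nat_lit 0) (nat_lit 17931487180) (nat_lit 456) (nat_lit 27324412034) (nat_lit 532) (nat_lit 8100185238) (nat_lit 115) (nat_lit 5) (nat_lit 121) (nat_lit 5) (nat_lit 122) (nat_lit 5) (nat_lit 301) (nat_lit 282) (nat_lit 137)) (XT.lf (nat_lit 0) (nat_lit 1263906716) (nat_lit 456) (nat_lit 49332599500) (nat_lit 76) (nat_lit 4388607020) (nat_lit 109) (nat_lit 5) (nat_lit 115) (nat_lit 5) (nat_lit 110) (nat_lit 5) (nat_lit 302) (nat_lit 282) (nat_lit 136))) (XT.nd (nat_lit 78) (nat_lit 836) (nat_lit 0) (XT.lf (nat_lit 0) (nat_lit 11571454465) (nat_lit 456) (nat_lit 7525332770)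 (nat_lit 76) (nat_lit 37577121051) (nat_lit 109) (nat_lit 5) (nat_lit 115) (nat_lit 5) (nat_lit 110) (nat_lit 5) (nat_lit 303) (nat_lit 282) (nat_lit 135)) (XT.nd (nat_lit 78) (nat_lit 380) (nat_lit 0) (XT.lf (nat_lit 0) (nat_lit 22886117395) (nat_lit 532) (nat_lit 21481421119) (nat_lit 76) (nat_lit 14064856333) (nat_lit 103) (nat_lit 5) (nat_lit 110) (nat_lit 5) (nat_lit 104) (nat_lit 5) (nat_lit 304) (nat_lit 282) (nat_lit 134)) (XT.lf (nat_lit 0) (nat_lit 23799669880) (nat_lit 380) (nat_lit 11463985346) (nat_lit 456) (nat_lit 25000239963) (nat_lit 98) (nat_lit 5) (nat_lit 103) (nat_lit 5) (nat_lit 104) (nat_lit 5) (nat_lit 305) (nat_lit 282) (nat_lit 133))))) (XT.nd (nat_lit 234) (nat_lit 684) (nat_lit 0) (XT.nd (nat_lit 78) (nat_lit 380) (nat_lit 0) (XT.lf (nat_lit 0) (nat_lit 9572998382) (nat_lit 380) (nat_lit 39221793027) (nat_lit 456) (nat_lit 13376141026) (nat_lit 93) (nat_lit 5)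 (nat_lit 98) (nat_lit 5) (nat_lit 99) (nat_lit 5) (nat_lit 306) (nat_lit 282) (nat_lit 132)) (XT.nd (nat_lit 78) (nat_lit 380) (nat_lit 0) (XT.lf (nat_lit 0) (nat_lit 58553066698) (nat_lit 380) (nat_lit 4936924124) (nat_lit 456) (nat_lit 668708891) (nat_lit 93) (nat_lit 5) (nat_lit 98) (nat_lit 5) (nat_lit 99) (nat_lit 5) (nat_lit 307) (nat_lit 282) (nat_lit 131)) (XT.lf (nat_lit 0) (nat_lit 13156019551) (nat_lit 380) (nat_lit 22053969626) (nat_lit 76) (nat_lit 31010337094) (nat_lit 88) (nat_lit 5) (nat_lit 93) (nat_lit 5) (nat_lit 89) (nat_lit 5) (nat_lit 308) (nat_lit 282) (nat_lit 130)))) (XT.nd (nat_lit 78) (nat_lit 304) (nat_lit 0) (XT.lf (nat_lit 0) (nat_lit 28045583998) (nat_lit 456) (nat_lit 39719353399) (nat_lit 76) (nat_lit 608278208) (nat_lit 83) (nat_lit 5) (nat_lit 89) (nat_lit 5) (nat_lit 84) (nat_lit 5) (nat_lit 309) (nat_lit 282) (nat_lit 129)) (XT.nd (nat_lit 78) (nat_lit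 0) (nat_lit 0) (XT.lf (nat_lit 0) (nat_lit 11596806269) (nat_lit 304) (nat_lit 32776761832) (nat_lit 380) (nat_lit 26239365881) (nat_lit 79) (nat_lit 5) (nat_lit 83) (nat_lit 5) (nat_lit 84) (nat_lit 5) (nat_lit 310) (nat_lit 282) (nat_lit 128)) (XT.lf (nat_lit 0) (nat_lit 61966829259) (nat_lit 380) (nat_lit 6688548505) (nat_lit 76) (nat_lit 4295796864) (nat_lit 79) (nat_lit 5) (nat_lit 84) (nat_lit 5) (nat_lit 80) (nat_lit 5) (nat_lit 311) (nat_lit 282) (nat_lit 127))))))))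
noncomputable def xc115 : XT := (XT.nd (nat_lit 36036) (nat_lit 0) (nat_lit 1596) (XT.nd (nat_lit 858) (nat_lit 228) (nat_lit 0) (XT.nd (nat_lit 390) (nat_lit 1064) (nat_lit 0) (XT.nd (nat_lit 156) (nat_lit 608) (nat_lit 0) (XT.nd (nat_lit 78) (nat_lit 304) (nat_lit 0) (XT.lf (nat_lit 0) (nat_lit 5741737670) (nat_lit 380) (nat_lit 26563047888) (nat_lit 76) (nat_lit 43075896749) (nat_lit 74) (nat_lit 5) (nat_lit 79) (nat_lit 5) (nat_lit 75) (nat_lit 5) (nat_lit 312) (nat_lit 282) (nat_lit 126)) (XT.lf (nat_lit 0) (nat_lit 23493829568) (nat_lit 380) (nat_lit 48202590034) (nat_lit 76) (nat_lit 6219479118) (nat_lit 70) (nat_lit 5) (nat_lit 75) (nat_lit 5) (nat_lit 71) (nat_lit 5) (nat_lit 313) (nat_lit 282) (nat_lit 125))) (XT.nd (nat_lit 78) (nat_lit 304) (nat_lit 0) (XT.lf (nat_lit 0) (nat_lit 8625802857) (nat_lit 304) (nat_lit 34190942500) (nat_lit 380) (nat_lit 37740636272) (nat_lit 66) (nat_lit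 5) (nat_lit 70) (nat_lit 5) (nat_lit 71) (nat_lit 5) (nat_lit 314) (nat_lit 282) (nat_lit 124)) (XT.nd (nat_lit 78) (nat_lit 304) (nat_lit 0) (XT.lf (nat_lit 0) (nat_lit 63654961915) (nat_lit 380) (nat_lit 14070569974) (nat_lit 76) (nat_lit 5588934289) (nat_lit 66) (nat_lit 5) (nat_lit 71) (nat_lit 5) (nat_lit 67) (nat_lit 5) (nat_lit 315) (nat_lit 282) (nat_lit 123)) (XT.lf (nat_lit 0) (nat_lit 144348084) (nat_lit 304) (nat_lit 38928826603) (nat_lit 76) (nat_lit 47112261547) (nat_lit 62) (nat_lit 5) (nat_lit 66) (nat_lit 5) (nat_lit 63) (nat_lit 5) (nat_lit 316) (nat_lit 282) (nat_lit 122))))) (XT.nd (nat_lit 234) (nat_lit 532) (nat_lit 0) (XT.nd (nat_lit 78) (nat_lit 228) (nat_lit 0) (XT.lf (nat_lit 0) (nat_lit 20921311527) (nat_lit 380) (nat_lit 66208202011) (nat_lit 76) (nat_lit 2052918471) (nat_lit 58) (nat_lit 5) (nat_lit 63) (nat_lit 5) (nat_lit 59) (nat_lit 5) (nat_lit 317) (nat_lit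 282) (nat_lit 121)) (XT.nd (nat_lit 78) (nat_lit 228) (nat_lit 0) (XT.lf (nat_lit 0) (nat_lit 43534536703) (nat_lit 380) (nat_lit 3932098752) (nat_lit 76) (nat_lit 44838721509) (nat_lit 58) (nat_lit 5) (nat_lit 63) (nat_lit 5) (nat_lit 59) (nat_lit 5) (nat_lit 318) (nat_lit 282) (nat_lit 120)) (XT.lf (nat_lit 0) (nat_lit 62678572468) (nat_lit 228) (nat_lit 5200767753) (nat_lit 304) (nat_lit 27687062148) (nat_lit 55) (nat_lit 5) (nat_lit 58) (nat_lit 5) (nat_lit 59) (nat_lit 5) (nat_lit 319) (nat_lit 282) (nat_lit 119)))) (XT.nd (nat_lit 78) (nat_lit 304) (nat_lit 0) (XT.lf (nat_lit 0) (nat_lit 33996756488) (nat_lit 228) (nat_lit 60187369276) (nat_lit 304) (nat_lit 4784093655) (nat_lit 52) (nat_lit 5) (nat_lit 55) (nat_lit 5) (nat_lit 56) (nat_lit 5) (nat_lit 320) (nat_lit 282) (nat_lit 118)) (XT.nd (nat_lit 78) (nat_lit 0) (nat_lit 0) (XT.lf (nat_lit 0) (nat_lit 2182158209) (nat_lit 228)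 (nat_lit 17119821558) (nat_lit 304) (nat_lit 83220177728) (nat_lit 48) (nat_lit 5) (nat_lit 51) (nat_lit 5) (nat_lit 52) (nat_lit 5) (nat_lit 321) (nat_lit 282) (nat_lit 117)) (XT.lf (nat_lit 0) (nat_lit 45438443486) (nat_lit 304) (nat_lit 32509823711) (nat_lit 76) (nat_lit 28275754824) (nat_lit 48) (nat_lit 5) (nat_lit 52) (nat_lit 5) (nat_lit 49) (nat_lit 5) (nat_lit 322) (nat_lit 282) (nat_lit 116)))))) (XT.nd (nat_lit 34710) (nat_lit 0) (nat_lit 9272) (XT.nd (nat_lit 34476) (nat_lit 0) (nat_lit 9120) (XT.nd (nat_lit 34398) (nat_lit 0) (nat_lit 9120) (XT.lf (nat_lit 0) (nat_lit 39303898367) (nat_lit 228) (nat_lit 34127047618) (nat_lit 304) (nat_lit 36663558690) (nat_lit 45) (nat_lit 5) (nat_lit 48) (nat_lit 5) (nat_lit 49) (nat_lit 5) (nat_lit 323) (nat_lit 282) (nat_lit 115)) (XT.lf (nat_lit 0) (nat_lit 762351903) (nat_lit 0) (nat_lit 762351903) (nat_lit 1140) (nat_lit 15207711862) (nat_lit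 165) (nat_lit 5) (nat_lit 165) (nat_lit 3) (nat_lit 180) (nat_lit 3) (nat_lit 283) (nat_lit 283) (nat_lit 154))) (XT.nd (nat_lit 78) (nat_lit 0) (nat_lit 76) (XT.lf (nat_lit 0) (nat_lit 3440415633) (nat_lit 1140) (nat_lit 7973460452) (nat_lit 1216) (nat_lit 22877977621) (nat_lit 165) (nat_lit 5) (nat_lit 180) (nat_lit 3) (nat_lit 181) (nat_lit 5) (nat_lit 284) (nat_lit 283) (nat_lit 153)) (XT.nd (nat_lit 78) (nat_lit 0) (nat_lit 76) (XT.lf (nat_lit 0) (nat_lit 4158596802) (nat_lit 1140) (nat_lit 17769711200) (nat_lit 1216) (nat_lit 13222700444) (nat_lit 166) (nat_lit 5) (nat_lit 181) (nat_lit 5) (nat_lit 182) (nat_lit 5) (nat_lit 285) (nat_lit 283) (nat_lit 152)) (XT.lf (nat_lit 0) (nat_lit 5212331876) (nat_lit 1140) (nat_lit 27913857448) (nat_lit 1216) (nat_lit 2917951717) (nat_lit 167) (nat_lit 5) (nat_lit 182) (nat_lit 5) (nat_lit 183) (nat_lit 5) (nat_lit 286) (nat_lit 283) (nat_lit 151)))))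 (XT.nd (nat_lit 234) (nat_lit 0) (nat_lit 152) (XT.nd (nat_lit 78) (nat_lit 0) (nat_lit 76) (XT.lf (nat_lit 0) (nat_lit 6719573748) (nat_lit 1140) (nat_lit 1506281201) (nat_lit 1216) (nat_lit 28744059728) (nat_lit 167) (nat_lit 5) (nat_lit 182) (nat_lit 5) (nat_lit 183) (nat_lit 5) (nat_lit 287) (nat_lit 283) (nat_lit 150)) (XT.nd (nat_lit 78) (nat_lit 0) (nat_lit 76) (XT.lf (nat_lit 0) (nat_lit 8729045164) (nat_lit 1140) (nat_lit 11368920928) (nat_lit 1216) (nat_lit 17831213463) (nat_lit 168) (nat_lit 5) (nat_lit 183) (nat_lit 5) (nat_lit 184) (nat_lit 5) (nat_lit 288) (nat_lit 283) (nat_lit 149)) (XT.lf (nat_lit 0) (nat_lit 11160310519) (nat_lit 1140) (nat_lit 21610576168) (nat_lit 1216) (nat_lit 6155889554) (nat_lit 169) (nat_lit 5) (nat_lit 184) (nat_lit 5) (nat_lit 185) (nat_lit 5) (nat_lit 289) (nat_lit 283) (nat_lit 148)))) (XT.nd (nat_lit 78) (nat_lit 0) (nat_lit 76) (XT.lf (nat_lit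 76) (nat_lit 7644268505) (nat_lit 0) (nat_lit 6458840180) (nat_lit 1216) (nat_lit 25859452777) (nat_lit 170) (nat_lit 5) (nat_lit 169) (nat_lit 5) (nat_lit 185) (nat_lit 5) (nat_lit 290) (nat_lit 283) (nat_lit 147)) (XT.nd (nat_lit 78) (nat_lit 0) (nat_lit 76) (XT.lf (nat_lit 0) (nat_lit 17616838896) (nat_lit 1140) (nat_lit 2439053218) (nat_lit 1216) (nat_lit 20981537480) (nat_lit 170) (nat_lit 5) (nat_lit 185) (nat_lit 5) (nat_lit 186) (nat_lit 5) (nat_lit 291) (nat_lit 283) (nat_lit 146)) (XT.lf (nat_lit 0) (nat_lit 21725173576) (nat_lit 1140) (nat_lit 12790359963) (nat_lit 1216) (nat_lit 7637947117) (nat_lit 171) (nat_lit 5) (nat_lit 186) (nat_lit 5) (nat_lit 187) (nat_lit 5) (nat_lit 292) (nat_lit 283) (nat_lit 145))))))) (XT.nd (nat_lit 858) (nat_lit 3268) (nat_lit 0) (XT.nd (nat_lit 390) (nat_lit 2432) (nat_lit 0) (XT.nd (nat_lit 156) (nat_lit 1216) (nat_lit 0) (XT.nd (nat_lit 78) (nat_lit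 1064) (nat_lit 0) (XT.lf (nat_lit 76) (nat_lit 19659504116) (nat_lit 0) (nat_lit 6792209703) (nat_lit 1216) (nat_lit 16861243513) (nat_lit 172) (nat_lit 5) (nat_lit 171) (nat_lit 5) (nat_lit 187) (nat_lit 5) (nat_lit 293) (nat_lit 283) (nat_lit 144)) (XT.lf (nat_lit 0) (nat_lit 9437745951) (nat_lit 1140) (nat_lit 22411242685) (nat_lit 1216) (nat_lit 12668393382) (nat_lit 157) (nat_lit 5) (nat_lit 172) (nat_lit 5) (nat_lit 173) (nat_lit 5) (nat_lit 294) (nat_lit 283) (nat_lit 143))) (XT.nd (nat_lit 78) (nat_lit 1216) (nat_lit 0) (XT.lf (nat_lit 0) (nat_lit 37889024258) (nat_lit 1216) (nat_lit 1233289538) (nat_lit 76) (nat_lit 6648533333) (nat_lit 157) (nat_lit 5) (nat_lit 173) (nat_lit 5) (nat_lit 158) (nat_lit 5) (nat_lit 295) (nat_lit 283) (nat_lit 142)) (XT.nd (nat_lit 78) (nat_lit 684) (nat_lit 0) (XT.lf (nat_lit 0) (nat_lit 34754210476) (nat_lit 532) (nat_lit 10033651307) (nat_lit 608)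 (nat_lit 2282425518) (nat_lit 150) (nat_lit 5) (nat_lit 157) (nat_lit 5) (nat_lit 158) (nat_lit 5) (nat_lit 296) (nat_lit 283) (nat_lit 141)) (XT.lf (nat_lit 0) (nat_lit 3972373514) (nat_lit 684) (nat_lit 24052012543) (nat_lit 76) (nat_lit 20395912883) (nat_lit 141) (nat_lit 5) (nat_lit 150) (nat_lit 5) (nat_lit 142) (nat_lit 5) (nat_lit 297) (nat_lit 283) (nat_lit 140))))) (XT.nd (nat_lit 234) (nat_lit 1368) (nat_lit 0) (XT.nd (nat_lit 78) (nat_lit 532) (nat_lit 0) (XT.lf (nat_lit 0) (nat_lit 10873388355) (nat_lit 608) (nat_lit 36407550899) (nat_lit 76) (nat_lit 2544778679) (nat_lit 134) (nat_lit 5) (nat_lit 142) (nat_lit 5) (nat_lit 135) (nat_lit 5) (nat_lit 298) (nat_lit 283) (nat_lit 139)) (XT.nd (nat_lit 78) (nat_lit 0) (nat_lit 0) (XT.lf (nat_lit 0) (nat_lit 1715510634) (nat_lit 532) (nat_lit 16950213703) (nat_lit 608) (nat_lit 32619300297) (nat_lit 127) (nat_lit 5) (nat_lit 134) (nat_lit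 5) (nat_lit 135) (nat_lit 5) (nat_lit 299) (nat_lit 283) (nat_lit 138)) (XT.lf (nat_lit 0) (nat_lit 27366367042) (nat_lit 608) (nat_lit 10450580087) (nat_lit 76) (nat_lit 14984793486) (nat_lit 127) (nat_lit 5) (nat_lit 135) (nat_lit 5) (nat_lit 128) (nat_lit 5) (nat_lit 300) (nat_lit 283) (nat_lit 137)))) (XT.nd (nat_lit 78) (nat_lit 912) (nat_lit 0) (XT.lf (nat_lit 0) (nat_lit 31056234393) (nat_lit 456) (nat_lit 5912560712) (nat_lit 532) (nat_lit 17411499112) (nat_lit 121) (nat_lit 5) (nat_lit 127) (nat_lit 5) (nat_lit 128) (nat_lit 5) (nat_lit 301) (nat_lit 283) (nat_lit 136)) (XT.nd (nat_lit 78) (nat_lit 456) (nat_lit 0) (XT.lf (nat_lit 0) (nat_lit 18922218146) (nat_lit 456) (nat_lit 28682092271) (nat_lit 532) (nat_lit 8416880316) (nat_lit 115) (nat_lit 5) (nat_lit 121) (nat_lit 5) (nat_lit 122) (nat_lit 5) (nat_lit 302) (nat_lit 283) (nat_lit 135)) (XT.lf (nat_lit 0) (nat_lit 1410561012)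 (nat_lit 456) (nat_lit 51703450287) (nat_lit 76) (nat_lit 4617734130) (nat_lit 109) (nat_lit 5) (nat_lit 115) (nat_lit 5) (nat_lit 110) (nat_lit 5) (nat_lit 303) (nat_lit 283) (nat_lit 134)))))) (XT.nd (nat_lit 468) (nat_lit 1672) (nat_lit 0) (XT.nd (nat_lit 234) (nat_lit 760) (nat_lit 0) (XT.nd (nat_lit 78) (nat_lit 836) (nat_lit 0) (XT.lf (nat_lit 0) (nat_lit 12229511912) (nat_lit 456) (nat_lit 7810381135) (nat_lit 76) (nat_lit 39465212112) (nat_lit 109) (nat_lit 5) (nat_lit 115) (nat_lit 5) (nat_lit 110) (nat_lit 5) (nat_lit 304) (nat_lit 283) (nat_lit 133)) (XT.nd (nat_lit 78) (nat_lit 380) (nat_lit 0) (XT.lf (nat_lit 0) (nat_lit 24107090564) (nat_lit 532) (nat_lit 22464599392) (nat_lit 76) (nat_lit 14779916043) (nat_lit 103) (nat_lit 5) (nat_lit 110) (nat_lit 5) (nat_lit 104) (nat_lit 5) (nat_lit 305) (nat_lit 283) (nat_lit 132)) (XT.lf (nat_lit 0) (nat_lit 25077940734) (nat_lit 380)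 (nat_lit 12022762401) (nat_lit 456) (nat_lit 26174067458) (nat_lit 98) (nat_lit 5) (nat_lit 103) (nat_lit 5) (nat_lit 104) (nat_lit 5) (nat_lit 306) (nat_lit 283) (nat_lit 131)))) (XT.nd (nat_lit 78) (nat_lit 380) (nat_lit 0) (XT.lf (nat_lit 0) (nat_lit 10139523133) (nat_lit 380) (nat_lit 41166332348) (nat_lit 456) (nat_lit 13971385365) (nat_lit 93) (nat_lit 5) (nat_lit 98) (nat_lit 5) (nat_lit 99) (nat_lit 5) (nat_lit 307) (nat_lit 283) (nat_lit 130)) (XT.nd (nat_lit 78) (nat_lit 380) (nat_lit 0) (XT.lf (nat_lit 0) (nat_lit 61564410349) (nat_lit 380) (nat_lit 5168008110) (nat_lit 456) (nat_lit 632084610) (nat_lit 93) (nat_lit 5) (nat_lit 98) (nat_lit 5) (nat_lit 99) (nat_lit 5) (nat_lit 308) (nat_lit 283) (nat_lit 129)) (XT.lf (nat_lit 0) (nat_lit 13880195621) (nat_lit 380) (nat_lit 23072045688) (nat_lit 76) (nat_lit 32577023302) (nat_lit 88) (nat_lit 5) (nat_lit 93) (nat_lit 5) (nat_lit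 89) (nat_lit 5) (nat_lit 309) (nat_lit 283) (nat_lit 128))))) (XT.nd (nat_lit 234) (nat_lit 988) (nat_lit 0) (XT.nd (nat_lit 78) (nat_lit 304) (nat_lit 0) (XT.lf (nat_lit 0) (nat_lit 29512042572) (nat_lit 456) (nat_lit 41621296484) (nat_lit 76) (nat_lit 656529358) (nat_lit 83) (nat_lit 5) (nat_lit 89) (nat_lit 5) (nat_lit 84) (nat_lit 5) (nat_lit 310) (nat_lit 283) (nat_lit 127)) (XT.nd (nat_lit 78) (nat_lit 0) (nat_lit 0) (XT.lf (nat_lit 0) (nat_lit 12258262620) (nat_lit 304) (nat_lit 34395891643) (nat_lit 380) (nat_lit 27487490528) (nat_lit 79) (nat_lit 5) (nat_lit 83) (nat_lit 5) (nat_lit 84) (nat_lit 5) (nat_lit 311) (nat_lit 283) (nat_lit 126)) (XT.lf (nat_lit 0) (nat_lit 65124310917) (nat_lit 380) (nat_lit 6943583092) (nat_lit 76) (nat_lit 4528990233) (nat_lit 79) (nat_lit 5) (nat_lit 84) (nat_lit 5) (nat_lit 80) (nat_lit 5) (nat_lit 312) (nat_lit 283) (nat_lit 125)))) (XT.nd (nat_lit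 78) (nat_lit 608) (nat_lit 0) (XT.lf (nat_lit 0) (nat_lit 6086524800) (nat_lit 380) (nat_lit 27812865609) (nat_lit 76) (nat_lit 45248525738) (nat_lit 74) (nat_lit 5) (nat_lit 79) (nat_lit 5) (nat_lit 75) (nat_lit 5) (nat_lit 313) (nat_lit 283) (nat_lit 124)) (XT.nd (nat_lit 78) (nat_lit 304) (nat_lit 0) (XT.lf (nat_lit 0) (nat_lit 24724401227) (nat_lit 380) (nat_lit 50535089968) (nat_lit 76) (nat_lit 6550460088) (nat_lit 70) (nat_lit 5) (nat_lit 75) (nat_lit 5) (nat_lit 71) (nat_lit 5) (nat_lit 314) (nat_lit 283) (nat_lit 123)) (XT.lf (nat_lit 0) (nat_lit 9132497332) (nat_lit 304) (nat_lit 35879029344) (nat_lit 380) (nat_lit 39572042885) (nat_lit 66) (nat_lit 5) (nat_lit 70) (nat_lit 5) (nat_lit 71) (nat_lit 5) (nat_lit 315) (nat_lit 283) (nat_lit 122))))))))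
noncomputable def xc116 : XT := (XT.nd (nat_lit 36192) (nat_lit 0) (nat_lit 760) (XT.nd (nat_lit 35334) (nat_lit 0) (nat_lit 7068) (XT.nd (nat_lit 390) (nat_lit 532) (nat_lit 0) (XT.nd (nat_lit 156) (nat_lit 532) (nat_lit 0) (XT.nd (nat_lit 78) (nat_lit 304) (nat_lit 0) (XT.lf (nat_lit 0) (nat_lit 66889281764) (nat_lit 380) (nat_lit 14700880195) (nat_lit 76) (nat_lit 5888420540) (nat_lit 66) (nat_lit 5) (nat_lit 71) (nat_lit 5) (nat_lit 67) (nat_lit 5) (nat_lit 316) (nat_lit 283) (nat_lit 121)) (XT.lf (nat_lit 0) (nat_lit 201914027) (nat_lit 304) (nat_lit 40803091082) (nat_lit 76) (nat_lit 49488137154) (nat_lit 62) (nat_lit 5) (nat_lit 66) (nat_lit 5) (nat_lit 63) (nat_lit 5) (nat_lit 317) (nat_lit 283) (nat_lit 120))) (XT.nd (nat_lit 78) (nat_lit 228) (nat_lit 0) (XT.lf (nat_lit 0) (nat_lit 22016208521) (nat_lit 380) (nat_lit 69447199264) (nat_lit 76) (nat_lit 2176628190) (nat_lit 58) (nat_lit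 5) (nat_lit 63) (nat_lit 5) (nat_lit 59) (nat_lit 5) (nat_lit 318) (nat_lit 283) (nat_lit 119)) (XT.nd (nat_lit 78) (nat_lit 228) (nat_lit 0) (XT.lf (nat_lit 0) (nat_lit 45757769650) (nat_lit 380) (nat_lit 4060691454) (nat_lit 76) (nat_lit 47100718343) (nat_lit 58) (nat_lit 5) (nat_lit 63) (nat_lit 5) (nat_lit 59) (nat_lit 5) (nat_lit 319) (nat_lit 283) (nat_lit 118)) (XT.lf (nat_lit 0) (nat_lit 65878563770) (nat_lit 228) (nat_lit 5439670031) (nat_lit 304) (nat_lit 29025093095) (nat_lit 55) (nat_lit 5) (nat_lit 58) (nat_lit 5) (nat_lit 59) (nat_lit 5) (nat_lit 320) (nat_lit 283) (nat_lit 117))))) (XT.nd (nat_lit 34710) (nat_lit 0) (nat_lit 8892) (XT.nd (nat_lit 78) (nat_lit 304) (nat_lit 0) (XT.lf (nat_lit 0) (nat_lit 35761921554) (nat_lit 228) (nat_lit 63175019171) (nat_lit 304) (nat_lit 4978335888) (nat_lit 52) (nat_lit 5) (nat_lit 55) (nat_lit 5) (nat_lit 56) (nat_lit 5) (nat_lit 321)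 (nat_lit 283) (nat_lit 116)) (XT.nd (nat_lit 34554) (nat_lit 0) (nat_lit 8892) (XT.lf (nat_lit 0) (nat_lit 2355615922) (nat_lit 228) (nat_lit 17954067184) (nat_lit 304) (nat_lit 87337262045) (nat_lit 48) (nat_lit 5) (nat_lit 51) (nat_lit 5) (nat_lit 52) (nat_lit 5) (nat_lit 322) (nat_lit 283) (nat_lit 115)) (XT.lf (nat_lit 0) (nat_lit 845002649) (nat_lit 0) (nat_lit 845002649) (nat_lit 1140) (nat_lit 15876206358) (nat_lit 165) (nat_lit 5) (nat_lit 165) (nat_lit 3) (nat_lit 180) (nat_lit 3) (nat_lit 284) (nat_lit 284) (nat_lit 152)))) (XT.nd (nat_lit 78) (nat_lit 0) (nat_lit 76) (XT.lf (nat_lit 0) (nat_lit 3781271122) (nat_lit 1140) (nat_lit 8281112470) (nat_lit 1216) (nat_lit 23938706695) (nat_lit 165) (nat_lit 5) (nat_lit 180) (nat_lit 3) (nat_lit 181) (nat_lit 5) (nat_lit 285) (nat_lit 284) (nat_lit 151)) (XT.nd (nat_lit 78) (nat_lit 0) (nat_lit 76) (XT.lf (nat_lit 0) (nat_lit 4527467511)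 (nat_lit 1140) (nat_lit 18563954347) (nat_lit 1216) (nat_lit 13812031581) (nat_lit 166) (nat_lit 5) (nat_lit 181) (nat_lit 5) (nat_lit 182) (nat_lit 5) (nat_lit 286) (nat_lit 284) (nat_lit 150)) (XT.lf (nat_lit 0) (nat_lit 5626503533) (nat_lit 1140) (nat_lit 29212518733) (nat_lit 1216) (nat_lit 3002455173) (nat_lit 167) (nat_lit 5) (nat_lit 182) (nat_lit 5) (nat_lit 183) (nat_lit 5) (nat_lit 287) (nat_lit 284) (nat_lit 149)))))) (XT.nd (nat_lit 390) (nat_lit 1976) (nat_lit 0) (XT.nd (nat_lit 156) (nat_lit 0) (nat_lit 152) (XT.nd (nat_lit 78) (nat_lit 0) (nat_lit 76) (XT.lf (nat_lit 0) (nat_lit 7201795352) (nat_lit 1140) (nat_lit 1489184226) (nat_lit 1216) (nat_lit 30122792115) (nat_lit 167) (nat_lit 5) (nat_lit 182) (nat_lit 5) (nat_lit 183) (nat_lit 5) (nat_lit 288) (nat_lit 284) (nat_lit 148)) (XT.lf (nat_lit 0) (nat_lit 9305154958) (nat_lit 1140) (nat_lit 11842676890) (nat_lit 1216) (nat_lit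 18673377501) (nat_lit 168) (nat_lit 5) (nat_lit 183) (nat_lit 5) (nat_lit 184) (nat_lit 5) (nat_lit 289) (nat_lit 284) (nat_lit 147))) (XT.nd (nat_lit 78) (nat_lit 0) (nat_lit 0) (XT.lf (nat_lit 0) (nat_lit 11851814433) (nat_lit 1140) (nat_lit 22594481453) (nat_lit 1216) (nat_lit 6422586462) (nat_lit 169) (nat_lit 5) (nat_lit 184) (nat_lit 5) (nat_lit 185) (nat_lit 5) (nat_lit 290) (nat_lit 284) (nat_lit 146)) (XT.nd (nat_lit 78) (nat_lit 0) (nat_lit 76) (XT.lf (nat_lit 76) (nat_lit 8120335760) (nat_lit 0) (nat_lit 6815962337) (nat_lit 1216) (nat_lit 27020333224) (nat_lit 170) (nat_lit 5) (nat_lit 169) (nat_lit 5) (nat_lit 185) (nat_lit 5) (nat_lit 291) (nat_lit 284) (nat_lit 145)) (XT.lf (nat_lit 0) (nat_lit 18619305048) (nat_lit 1140) (nat_lit 2467443398) (nat_lit 1216) (nat_lit 21998697049) (nat_lit 170) (nat_lit 5) (nat_lit 185) (nat_lit 5) (nat_lit 186) (nat_lit 5) (nat_lit 292) (nat_lit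 284) (nat_lit 144))))) (XT.nd (nat_lit 234) (nat_lit 1216) (nat_lit 0) (XT.nd (nat_lit 78) (nat_lit 1064) (nat_lit 0) (XT.lf (nat_lit 0) (nat_lit 22927890180) (nat_lit 1140) (nat_lit 13335050990) (nat_lit 1216) (nat_lit 7994522778) (nat_lit 171) (nat_lit 5) (nat_lit 186) (nat_lit 5) (nat_lit 187) (nat_lit 5) (nat_lit 293) (nat_lit 284) (nat_lit 143)) (XT.nd (nat_lit 78) (nat_lit 1064) (nat_lit 0) (XT.lf (nat_lit 76) (nat_lit 20734588096) (nat_lit 0) (nat_lit 7151509129) (nat_lit 1216) (nat_lit 17588966419) (nat_lit 172) (nat_lit 5) (nat_lit 171) (nat_lit 5) (nat_lit 187) (nat_lit 5) (nat_lit 294) (nat_lit 284) (nat_lit 142)) (XT.lf (nat_lit 0) (nat_lit 10002725616) (nat_lit 1140) (nat_lit 23545901078) (nat_lit 1216) (nat_lit 13191230079) (nat_lit 157) (nat_lit 5) (nat_lit 172) (nat_lit 5) (nat_lit 173) (nat_lit 5) (nat_lit 295) (nat_lit 284) (nat_lit 141)))) (XT.nd (nat_lit 78) (nat_lit 1216)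 (nat_lit 0) (XT.lf (nat_lit 0) (nat_lit 39885430827) (nat_lit 1216) (nat_lit 1202932858) (nat_lit 76) (nat_lit 6967796961) (nat_lit 157) (nat_lit 5) (nat_lit 173) (nat_lit 5) (nat_lit 158) (nat_lit 5) (nat_lit 296) (nat_lit 284) (nat_lit 140)) (XT.nd (nat_lit 78) (nat_lit 684) (nat_lit 0) (XT.lf (nat_lit 0) (nat_lit 36581304389) (nat_lit 532) (nat_lit 10543910030) (nat_lit 608) (nat_lit 2295486386) (nat_lit 150) (nat_lit 5) (nat_lit 157) (nat_lit 5) (nat_lit 158) (nat_lit 5) (nat_lit 297) (nat_lit 284) (nat_lit 139)) (XT.lf (nat_lit 0) (nat_lit 4266155620) (nat_lit 684) (nat_lit 25162656087) (nat_lit 76) (nat_lit 21409497417) (nat_lit 141) (nat_lit 5) (nat_lit 150) (nat_lit 5) (nat_lit 142) (nat_lit 5) (nat_lit 298) (nat_lit 284) (nat_lit 138))))))) (XT.nd (nat_lit 858) (nat_lit 2660) (nat_lit 0) (XT.nd (nat_lit 390) (nat_lit 1672) (nat_lit 0) (XT.nd (nat_lit 156) (nat_lit 912) (nat_lit 0)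 (XT.nd (nat_lit 78) (nat_lit 532) (nat_lit 0) (XT.lf (nat_lit 0) (nat_lit 11508527368) (nat_lit 608) (nat_lit 38135699001) (nat_lit 76) (nat_lit 2669890647) (nat_lit 134) (nat_lit 5) (nat_lit 142) (nat_lit 5) (nat_lit 135) (nat_lit 5) (nat_lit 299) (nat_lit 284) (nat_lit 137)) (XT.lf (nat_lit 0) (nat_lit 1890871871) (nat_lit 532) (nat_lit 17796113737) (nat_lit 608) (nat_lit 34159515079) (nat_lit 127) (nat_lit 5) (nat_lit 134) (nat_lit 5) (nat_lit 135) (nat_lit 5) (nat_lit 300) (nat_lit 284) (nat_lit 136))) (XT.nd (nat_lit 78) (nat_lit 912) (nat_lit 0) (XT.lf (nat_lit 0) (nat_lit 28818485904) (nat_lit 608) (nat_lit 10885161090) (nat_lit 76) (nat_lit 15735537181) (nat_lit 127) (nat_lit 5) (nat_lit 135) (nat_lit 5) (nat_lit 128) (nat_lit 5) (nat_lit 301) (nat_lit 284) (nat_lit 135)) (XT.nd (nat_lit 78) (nat_lit 456) (nat_lit 0) (XT.lf (nat_lit 0) (nat_lit 32694473102) (nat_lit 456) (nat_lit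 6203392944) (nat_lit 532) (nat_lit 18198900655) (nat_lit 121) (nat_lit 5) (nat_lit 127) (nat_lit 5) (nat_lit 128) (nat_lit 5) (nat_lit 302) (nat_lit 284) (nat_lit 134)) (XT.lf (nat_lit 0) (nat_lit 19953731871) (nat_lit 456) (nat_lit 30108450522) (nat_lit 532) (nat_lit 8757620763) (nat_lit 115) (nat_lit 5) (nat_lit 121) (nat_lit 5) (nat_lit 122) (nat_lit 5) (nat_lit 303) (nat_lit 284) (nat_lit 133))))) (XT.nd (nat_lit 234) (nat_lit 760) (nat_lit 0) (XT.nd (nat_lit 78) (nat_lit 456) (nat_lit 0) (XT.lf (nat_lit 0) (nat_lit 1556788799) (nat_lit 456) (nat_lit 54201748255) (nat_lit 76) (nat_lit 4857416083) (nat_lit 109) (nat_lit 5) (nat_lit 115) (nat_lit 5) (nat_lit 110) (nat_lit 5) (nat_lit 304) (nat_lit 284) (nat_lit 132)) (XT.nd (nat_lit 78) (nat_lit 456) (nat_lit 0) (XT.lf (nat_lit 0) (nat_lit 12913082495) (nat_lit 456) (nat_lit 8118162528) (nat_lit 76) (nat_lit 41446849143) (nat_lit 109) (nat_lit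 5) (nat_lit 115) (nat_lit 5) (nat_lit 110) (nat_lit 5) (nat_lit 305) (nat_lit 284) (nat_lit 131)) (XT.lf (nat_lit 0) (nat_lit 25381984593) (nat_lit 532) (nat_lit 23505386928) (nat_lit 76) (nat_lit 15529630116) (nat_lit 103) (nat_lit 5) (nat_lit 110) (nat_lit 5) (nat_lit 104) (nat_lit 5) (nat_lit 306) (nat_lit 284) (nat_lit 130)))) (XT.nd (nat_lit 78) (nat_lit 380) (nat_lit 0) (XT.lf (nat_lit 0) (nat_lit 26411917009) (nat_lit 380) (nat_lit 12610819150) (nat_lit 456) (nat_lit 27413669240) (nat_lit 98) (nat_lit 5) (nat_lit 103) (nat_lit 5) (nat_lit 104) (nat_lit 5) (nat_lit 307) (nat_lit 284) (nat_lit 129)) (XT.nd (nat_lit 78) (nat_lit 0) (nat_lit 0) (XT.lf (nat_lit 0) (nat_lit 10726204351) (nat_lit 380) (nat_lit 43209637327) (nat_lit 456) (nat_lit 14603231084) (nat_lit 93) (nat_lit 5) (nat_lit 98) (nat_lit 5) (nat_lit 99) (nat_lit 5) (nat_lit 308) (nat_lit 284) (nat_lit 128)) (XT.lf (nat_lit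 0) (nat_lit 64718540449) (nat_lit 380) (nat_lit 5412111717) (nat_lit 456) (nat_lit 600142603) (nat_lit 93) (nat_lit 5) (nat_lit 98) (nat_lit 5) (nat_lit 99) (nat_lit 5) (nat_lit 309) (nat_lit 284) (nat_lit 127)))))) (XT.nd (nat_lit 390) (nat_lit 1216) (nat_lit 0) (XT.nd (nat_lit 156) (nat_lit 684) (nat_lit 0) (XT.nd (nat_lit 78) (nat_lit 380) (nat_lit 0) (XT.lf (nat_lit 0) (nat_lit 14634409568) (nat_lit 380) (nat_lit 24148892944) (nat_lit 76) (nat_lit 34220540548) (nat_lit 88) (nat_lit 5) (nat_lit 93) (nat_lit 5) (nat_lit 89) (nat_lit 5) (nat_lit 310) (nat_lit 284) (nat_lit 126)) (XT.lf (nat_lit 0) (nat_lit 31045857284) (nat_lit 456) (nat_lit 43626148532) (nat_lit 76) (nat_lit 705534728) (nat_lit 83) (nat_lit 5) (nat_lit 89) (nat_lit 5) (nat_lit 84) (nat_lit 5) (nat_lit 311) (nat_lit 284) (nat_lit 125))) (XT.nd (nat_lit 78) (nat_lit 380) (nat_lit 0) (XT.lf (nat_lit 0) (nat_lit 12945203903)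 (nat_lit 304) (nat_lit 36097810234) (nat_lit 380) (nat_lit 28803956985) (nat_lit 79) (nat_lit 5) (nat_lit 83) (nat_lit 5) (nat_lit 84) (nat_lit 5) (nat_lit 312) (nat_lit 284) (nat_lit 124)) (XT.nd (nat_lit 78) (nat_lit 380) (nat_lit 0) (XT.lf (nat_lit 0) (nat_lit 68434168363) (nat_lit 380) (nat_lit 7218750603) (nat_lit 76) (nat_lit 4772132284) (nat_lit 79) (nat_lit 5) (nat_lit 84) (nat_lit 5) (nat_lit 80) (nat_lit 5) (nat_lit 313) (nat_lit 284) (nat_lit 123)) (XT.lf (nat_lit 0) (nat_lit 6443186865) (nat_lit 380) (nat_lit 29132457031) (nat_lit 76) (nat_lit 47528035156) (nat_lit 74) (nat_lit 5) (nat_lit 79) (nat_lit 5) (nat_lit 75) (nat_lit 5) (nat_lit 314) (nat_lit 284) (nat_lit 122))))) (XT.nd (nat_lit 234) (nat_lit 608) (nat_lit 0) (XT.nd (nat_lit 78) (nat_lit 304) (nat_lit 0) (XT.lf (nat_lit 0) (nat_lit 26011306258) (nat_lit 380) (nat_lit 52991432160) (nat_lit 76) (nat_lit 6896130044) (nat_lit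 70) (nat_lit 5) (nat_lit 75) (nat_lit 5) (nat_lit 71) (nat_lit 5) (nat_lit 315) (nat_lit 284) (nat_lit 121)) (XT.nd (nat_lit 78) (nat_lit 0) (nat_lit 0) (XT.lf (nat_lit 0) (nat_lit 9657516151) (nat_lit 304) (nat_lit 37653515704) (nat_lit 380) (nat_lit 41500191334) (nat_lit 66) (nat_lit 5) (nat_lit 70) (nat_lit 5) (nat_lit 71) (nat_lit 5) (nat_lit 316) (nat_lit 284) (nat_lit 120)) (XT.lf (nat_lit 0) (nat_lit 70280522952) (nat_lit 380) (nat_lit 15369513069) (nat_lit 76) (nat_lit 6201018018) (nat_lit 66) (nat_lit 5) (nat_lit 71) (nat_lit 5) (nat_lit 67) (nat_lit 5) (nat_lit 317) (nat_lit 284) (nat_lit 119)))) (XT.nd (nat_lit 78) (nat_lit 304) (nat_lit 0) (XT.lf (nat_lit 0) (nat_lit 257677337) (nat_lit 304) (nat_lit 42777779105) (nat_lit 76) (nat_lit 51980922724) (nat_lit 62) (nat_lit 5) (nat_lit 66) (nat_lit 5) (nat_lit 63) (nat_lit 5) (nat_lit 318) (nat_lit 284) (nat_lit 118)) (XT.nd (nat_lit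 78) (nat_lit 0) (nat_lit 0) (XT.lf (nat_lit 0) (nat_lit 23161310482) (nat_lit 380) (nat_lit 72854785669) (nat_lit 76) (nat_lit 2304565083) (nat_lit 58) (nat_lit 5) (nat_lit 63) (nat_lit 5) (nat_lit 59) (nat_lit 5) (nat_lit 319) (nat_lit 284) (nat_lit 117)) (XT.lf (nat_lit 0) (nat_lit 48087840547) (nat_lit 380) (nat_lit 4202036924) (nat_lit 76) (nat_lit 49473949959) (nat_lit 58) (nat_lit 5) (nat_lit 63) (nat_lit 5) (nat_lit 59) (nat_lit 5) (nat_lit 320) (nat_lit 284) (nat_lit 116))))))))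
noncomputable def xc117 : XT := (XT.nd (nat_lit 36270) (nat_lit 0) (nat_lit 228) (XT.nd (nat_lit 35412) (nat_lit 0) (nat_lit 4788) (XT.nd (nat_lit 34944) (nat_lit 0) (nat_lit 8740) (XT.nd (nat_lit 34710) (nat_lit 0) (nat_lit 8588) (XT.nd (nat_lit 78) (nat_lit 228) (nat_lit 0) (XT.lf (nat_lit 0) (nat_lit 69232412756) (nat_lit 228) (nat_lit 5692482459) (nat_lit 304) (nat_lit 30434332185) (nat_lit 55) (nat_lit 5) (nat_lit 58) (nat_lit 5) (nat_lit 59) (nat_lit 5) (nat_lit 321) (nat_lit 284) (nat_lit 115)) (XT.lf (nat_lit 0) (nat_lit 37609271366) (nat_lit 228) (nat_lit 66314070747) (nat_lit 304) (nat_lit 5186470414) (nat_lit 52) (nat_lit 5) (nat_lit 55) (nat_lit 5) (nat_lit 56) (nat_lit 5) (nat_lit 322) (nat_lit 284) (nat_lit 114))) (XT.nd (nat_lit 78) (nat_lit 0) (nat_lit 0) (XT.lf (nat_lit 0) (nat_lit 927645662) (nat_lit 0) (nat_lit 927645662) (nat_lit 1140) (nat_lit 16586668741) (nat_lit 165)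 (nat_lit 5) (nat_lit 165) (nat_lit 3) (nat_lit 180) (nat_lit 3) (nat_lit 285) (nat_lit 285) (nat_lit 150)) (XT.nd (nat_lit 78) (nat_lit 0) (nat_lit 76) (XT.lf (nat_lit 0) (nat_lit 4123472735) (nat_lit 1140) (nat_lit 8612609359) (nat_lit 1216) (nat_lit 25060204564) (nat_lit 165) (nat_lit 5) (nat_lit 180) (nat_lit 3) (nat_lit 181) (nat_lit 5) (nat_lit 286) (nat_lit 285) (nat_lit 149)) (XT.lf (nat_lit 0) (nat_lit 4899818999) (nat_lit 1140) (nat_lit 19406671419) (nat_lit 1216) (nat_lit 14437504920) (nat_lit 166) (nat_lit 5) (nat_lit 181) (nat_lit 5) (nat_lit 182) (nat_lit 5) (nat_lit 287) (nat_lit 285) (nat_lit 148))))) (XT.nd (nat_lit 234) (nat_lit 0) (nat_lit 152) (XT.nd (nat_lit 78) (nat_lit 0) (nat_lit 0) (XT.lf (nat_lit 0) (nat_lit 6047107678) (nat_lit 1140) (nat_lit 30585134160) (nat_lit 1216) (nat_lit 3096891646) (nat_lit 167) (nat_lit 5) (nat_lit 182) (nat_lit 5) (nat_lit 183) (nat_lit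 5) (nat_lit 288) (nat_lit 285) (nat_lit 147)) (XT.nd (nat_lit 78) (nat_lit 0) (nat_lit 76) (XT.lf (nat_lit 0) (nat_lit 7694531756) (nat_lit 1140) (nat_lit 1479823904) (nat_lit 1216) (nat_lit 31575897163) (nat_lit 167) (nat_lit 5) (nat_lit 182) (nat_lit 5) (nat_lit 183) (nat_lit 5) (nat_lit 289) (nat_lit 285) (nat_lit 146)) (XT.lf (nat_lit 0) (nat_lit 9897086208) (nat_lit 1140) (nat_lit 12348924037) (nat_lit 1216) (nat_lit 19562242172) (nat_lit 168) (nat_lit 5) (nat_lit 183) (nat_lit 5) (nat_lit 184) (nat_lit 5) (nat_lit 290) (nat_lit 285) (nat_lit 145)))) (XT.nd (nat_lit 78) (nat_lit 0) (nat_lit 0) (XT.lf (nat_lit 0) (nat_lit 12565483056) (nat_lit 1140) (nat_lit 23636565141) (nat_lit 1216) (nat_lit 6706439078) (nat_lit 169) (nat_lit 5) (nat_lit 184) (nat_lit 5) (nat_lit 185) (nat_lit 5) (nat_lit 291) (nat_lit 285) (nat_lit 144)) (XT.nd (nat_lit 78) (nat_lit 0) (nat_lit 76) (XT.lf (nat_lit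 76) (nat_lit 8611480739) (nat_lit 0) (nat_lit 7187762855) (nat_lit 1216) (nat_lit 28251538372) (nat_lit 170) (nat_lit 5) (nat_lit 169) (nat_lit 5) (nat_lit 185) (nat_lit 5) (nat_lit 292) (nat_lit 285) (nat_lit 143)) (XT.lf (nat_lit 0) (nat_lit 19660587041) (nat_lit 1140) (nat_lit 2505951639) (nat_lit 1216) (nat_lit 23069681965) (nat_lit 170) (nat_lit 5) (nat_lit 185) (nat_lit 5) (nat_lit 186) (nat_lit 5) (nat_lit 293) (nat_lit 285) (nat_lit 142)))))) (XT.nd (nat_lit 390) (nat_lit 2660) (nat_lit 0) (XT.nd (nat_lit 156) (nat_lit 1596) (nat_lit 0) (XT.nd (nat_lit 78) (nat_lit 0) (nat_lit 0) (XT.lf (nat_lit 0) (nat_lit 24179915460) (nat_lit 1140) (nat_lit 13915792682) (nat_lit 1216) (nat_lit 8371281394) (nat_lit 171) (nat_lit 5) (nat_lit 186) (nat_lit 5) (nat_lit 187) (nat_lit 5) (nat_lit 294) (nat_lit 285) (nat_lit 141)) (XT.lf (nat_lit 76) (nat_lit 21854862875) (nat_lit 0) (nat_lit 7526943035)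 (nat_lit 1216) (nat_lit 18363798624) (nat_lit 172) (nat_lit 5) (nat_lit 171) (nat_lit 5) (nat_lit 187) (nat_lit 5) (nat_lit 295) (nat_lit 285) (nat_lit 140))) (XT.nd (nat_lit 78) (nat_lit 532) (nat_lit 0) (XT.lf (nat_lit 0) (nat_lit 10587299418) (nat_lit 1140) (nat_lit 24735981854) (nat_lit 1216) (nat_lit 13750489568) (nat_lit 157) (nat_lit 5) (nat_lit 172) (nat_lit 5) (nat_lit 173) (nat_lit 5) (nat_lit 296) (nat_lit 285) (nat_lit 139)) (XT.nd (nat_lit 78) (nat_lit 532) (nat_lit 0) (XT.lf (nat_lit 0) (nat_lit 41972178883) (nat_lit 1216) (nat_lit 1179613599) (nat_lit 76) (nat_lit 7304247546) (nat_lit 157) (nat_lit 5) (nat_lit 173) (nat_lit 5) (nat_lit 158) (nat_lit 5) (nat_lit 297) (nat_lit 285) (nat_lit 138)) (XT.lf (nat_lit 0) (nat_lit 38491442977) (nat_lit 532) (nat_lit 11078884360) (nat_lit 608) (nat_lit 2318595936) (nat_lit 150) (nat_lit 5) (nat_lit 157) (nat_lit 5) (nat_lit 158) (nat_lit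 5) (nat_lit 298) (nat_lit 285) (nat_lit 137))))) (XT.nd (nat_lit 234) (nat_lit 912) (nat_lit 0) (XT.nd (nat_lit 78) (nat_lit 1064) (nat_lit 0) (XT.lf (nat_lit 0) (nat_lit 4565779438) (nat_lit 684) (nat_lit 26337381106) (nat_lit 76) (nat_lit 22474338627) (nat_lit 141) (nat_lit 5) (nat_lit 150) (nat_lit 5) (nat_lit 142) (nat_lit 5) (nat_lit 299) (nat_lit 285) (nat_lit 136)) (XT.nd (nat_lit 78) (nat_lit 532) (nat_lit 0) (XT.lf (nat_lit 0) (nat_lit 12166919356) (nat_lit 608) (nat_lit 39958829127) (nat_lit 76) (nat_lit 2801455960) (nat_lit 134) (nat_lit 5) (nat_lit 142) (nat_lit 5) (nat_lit 135) (nat_lit 5) (nat_lit 300) (nat_lit 285) (nat_lit 135)) (XT.lf (nat_lit 0) (nat_lit 2066672339) (nat_lit 532) (nat_lit 18684458516) (nat_lit 608) (nat_lit 35785177697) (nat_lit 127) (nat_lit 5) (nat_lit 134) (nat_lit 5) (nat_lit 135) (nat_lit 5) (nat_lit 301) (nat_lit 285) (nat_lit 134)))) (XT.nd (nat_lit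 78) (nat_lit 912) (nat_lit 0) (XT.lf (nat_lit 0) (nat_lit 30335419732) (nat_lit 608) (nat_lit 11349647714) (nat_lit 76) (nat_lit 16523678231) (nat_lit 127) (nat_lit 5) (nat_lit 135) (nat_lit 5) (nat_lit 128) (nat_lit 5) (nat_lit 302) (nat_lit 285) (nat_lit 133)) (XT.nd (nat_lit 78) (nat_lit 456) (nat_lit 0) (XT.lf (nat_lit 0) (nat_lit 34406681555) (nat_lit 456) (nat_lit 6509212656) (nat_lit 532) (nat_lit 19033404951) (nat_lit 121) (nat_lit 5) (nat_lit 127) (nat_lit 5) (nat_lit 128) (nat_lit 5) (nat_lit 303) (nat_lit 285) (nat_lit 132)) (XT.lf (nat_lit 0) (nat_lit 21028881337) (nat_lit 456) (nat_lit 31606846869) (nat_lit 532) (nat_lit 9122845503) (nat_lit 115) (nat_lit 5) (nat_lit 121) (nat_lit 5) (nat_lit 122) (nat_lit 5) (nat_lit 304) (nat_lit 285) (nat_lit 131))))))) (XT.nd (nat_lit 858) (nat_lit 1444) (nat_lit 0) (XT.nd (nat_lit 390) (nat_lit 1444) (nat_lit 0) (XT.nd (nat_lit 156) (nat_lit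 1216) (nat_lit 0) (XT.nd (nat_lit 78) (nat_lit 0) (nat_lit 0) (XT.lf (nat_lit 0) (nat_lit 1703290131) (nat_lit 456) (nat_lit 56833037893) (nat_lit 76) (nat_lit 5108264435) (nat_lit 109) (nat_lit 5) (nat_lit 115) (nat_lit 5) (nat_lit 110) (nat_lit 5) (nat_lit 305) (nat_lit 285) (nat_lit 130)) (XT.lf (nat_lit 0) (nat_lit 13624128898) (nat_lit 456) (nat_lit 8449025155) (nat_lit 76) (nat_lit 43526789265) (nat_lit 109) (nat_lit 5) (nat_lit 115) (nat_lit 5) (nat_lit 110) (nat_lit 5) (nat_lit 306) (nat_lit 285) (nat_lit 129))) (XT.nd (nat_lit 78) (nat_lit 760) (nat_lit 0) (XT.lf (nat_lit 0) (nat_lit 26714158200) (nat_lit 532) (nat_lit 24605878556) (nat_lit 76) (nat_lit 16315833409) (nat_lit 103) (nat_lit 5) (nat_lit 110) (nat_lit 5) (nat_lit 104) (nat_lit 5) (nat_lit 307) (nat_lit 285) (nat_lit 128)) (XT.nd (nat_lit 78) (nat_lit 380) (nat_lit 0) (XT.lf (nat_lit 0) (nat_lit 27805147089) (nat_lit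 380) (nat_lit 13229494918) (nat_lit 456) (nat_lit 28721675522) (nat_lit 98) (nat_lit 5) (nat_lit 103) (nat_lit 5) (nat_lit 104) (nat_lit 5) (nat_lit 308) (nat_lit 285) (nat_lit 127)) (XT.lf (nat_lit 0) (nat_lit 11334809410) (nat_lit 380) (nat_lit 45356503195) (nat_lit 456) (nat_lit 15272872413) (nat_lit 93) (nat_lit 5) (nat_lit 98) (nat_lit 5) (nat_lit 99) (nat_lit 5) (nat_lit 309) (nat_lit 285) (nat_lit 126))))) (XT.nd (nat_lit 234) (nat_lit 684) (nat_lit 0) (XT.nd (nat_lit 78) (nat_lit 760) (nat_lit 0) (XT.lf (nat_lit 0) (nat_lit 68023319701) (nat_lit 380) (nat_lit 5669749686) (nat_lit 456) (nat_lit 572511423) (nat_lit 93) (nat_lit 5) (nat_lit 98) (nat_lit 5) (nat_lit 99) (nat_lit 5) (nat_lit 310) (nat_lit 285) (nat_lit 125)) (XT.nd (nat_lit 78) (nat_lit 380) (nat_lit 0) (XT.lf (nat_lit 0) (nat_lit 15420736999) (nat_lit 380) (nat_lit 25286718517) (nat_lit 76) (nat_lit 35944870143) (nat_lit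 88) (nat_lit 5) (nat_lit 93) (nat_lit 5) (nat_lit 89) (nat_lit 5) (nat_lit 311) (nat_lit 285) (nat_lit 124)) (XT.lf (nat_lit 0) (nat_lit 32650950678) (nat_lit 456) (nat_lit 45738328725) (nat_lit 76) (nat_lit 755486205) (nat_lit 83) (nat_lit 5) (nat_lit 89) (nat_lit 5) (nat_lit 84) (nat_lit 5) (nat_lit 312) (nat_lit 285) (nat_lit 123)))) (XT.nd (nat_lit 78) (nat_lit 380) (nat_lit 0) (XT.lf (nat_lit 0) (nat_lit 13659609814) (nat_lit 304) (nat_lit 37886486694) (nat_lit 380) (nat_lit 30191630508) (nat_lit 79) (nat_lit 5) (nat_lit 83) (nat_lit 5) (nat_lit 84) (nat_lit 5) (nat_lit 313) (nat_lit 285) (nat_lit 122)) (XT.nd (nat_lit 78) (nat_lit 380) (nat_lit 0) (XT.lf (nat_lit 0) (nat_lit 71904531566) (nat_lit 380) (nat_lit 7514371448) (nat_lit 76) (nat_lit 5025879524) (nat_lit 79) (nat_lit 5) (nat_lit 84) (nat_lit 5) (nat_lit 80) (nat_lit 5) (nat_lit 314) (nat_lit 285) (nat_lit 121)) (XT.lf (nat_lit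 0) (nat_lit 6812816345) (nat_lit 380) (nat_lit 30524633754) (nat_lit 76) (nat_lit 49919931817) (nat_lit 74) (nat_lit 5) (nat_lit 79) (nat_lit 5) (nat_lit 75) (nat_lit 5) (nat_lit 315) (nat_lit 285) (nat_lit 120)))))) (XT.nd (nat_lit 468) (nat_lit 228) (nat_lit 0) (XT.nd (nat_lit 234) (nat_lit 608) (nat_lit 0) (XT.nd (nat_lit 78) (nat_lit 304) (nat_lit 0) (XT.lf (nat_lit 0) (nat_lit 27357844333) (nat_lit 380) (nat_lit 55577137731) (nat_lit 76) (nat_lit 7257396367) (nat_lit 70) (nat_lit 5) (nat_lit 75) (nat_lit 5) (nat_lit 71) (nat_lit 5) (nat_lit 316) (nat_lit 285) (nat_lit 119)) (XT.nd (nat_lit 78) (nat_lit 0) (nat_lit 0) (XT.lf (nat_lit 0) (nat_lit 10202427289) (nat_lit 304) (nat_lit 39518536063) (nat_lit 380) (nat_lit 43529437911) (nat_lit 66) (nat_lit 5) (nat_lit 70) (nat_lit 5) (nat_lit 71) (nat_lit 5) (nat_lit 317) (nat_lit 285) (nat_lit 118)) (XT.lf (nat_lit 0) (nat_lit 73836977309)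 (nat_lit 380) (nat_lit 16077751864) (nat_lit 76) (nat_lit 6527555495) (nat_lit 66) (nat_lit 5) (nat_lit 71) (nat_lit 5) (nat_lit 67) (nat_lit 5) (nat_lit 318) (nat_lit 285) (nat_lit 117)))) (XT.nd (nat_lit 78) (nat_lit 304) (nat_lit 0) (XT.lf (nat_lit 0) (nat_lit 311983071) (nat_lit 304) (nat_lit 44857287986) (nat_lit 76) (nat_lit 54596638893) (nat_lit 62) (nat_lit 5) (nat_lit 66) (nat_lit 5) (nat_lit 63) (nat_lit 5) (nat_lit 319) (nat_lit 285) (nat_lit 116)) (XT.nd (nat_lit 78) (nat_lit 0) (nat_lit 0) (XT.lf (nat_lit 0) (nat_lit 24359549734) (nat_lit 380) (nat_lit 76438773426) (nat_lit 76) (nat_lit 2437122575) (nat_lit 58) (nat_lit 5) (nat_lit 63) (nat_lit 5) (nat_lit 59) (nat_lit 5) (nat_lit 320) (nat_lit 285) (nat_lit 115)) (XT.lf (nat_lit 0) (nat_lit 50530493267) (nat_lit 380) (nat_lit 4356184935) (nat_lit 76) (nat_lit 51964151492) (nat_lit 58) (nat_lit 5) (nat_lit 63) (nat_lit 5) (nat_lit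 59) (nat_lit 5) (nat_lit 321) (nat_lit 285) (nat_lit 114))))) (XT.nd (nat_lit 34866) (nat_lit 0) (nat_lit 8436) (XT.nd (nat_lit 34710) (nat_lit 0) (nat_lit 8360) (XT.lf (nat_lit 0) (nat_lit 72748383323) (nat_lit 228) (nat_lit 5959717853) (nat_lit 304) (nat_lit 31917939439) (nat_lit 55) (nat_lit 5) (nat_lit 58) (nat_lit 5) (nat_lit 59) (nat_lit 5) (nat_lit 322) (nat_lit 285) (nat_lit 113)) (XT.nd (nat_lit 78) (nat_lit 0) (nat_lit 0) (XT.lf (nat_lit 0) (nat_lit 1010665478) (nat_lit 0) (nat_lit 1010665478) (nat_lit 1140) (nat_lit 17340403144) (nat_lit 165) (nat_lit 5) (nat_lit 165) (nat_lit 3) (nat_lit 180) (nat_lit 3) (nat_lit 286) (nat_lit 286) (nat_lit 148)) (XT.lf (nat_lit 0) (nat_lit 4468547103) (nat_lit 1140) (nat_lit 8968356622) (nat_lit 1216) (nat_lit 26244790786) (nat_lit 165) (nat_lit 5) (nat_lit 180) (nat_lit 3) (nat_lit 181) (nat_lit 5) (nat_lit 287) (nat_lit 286) (nat_lit 147))))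 (XT.nd (nat_lit 78) (nat_lit 0) (nat_lit 76) (XT.lf (nat_lit 0) (nat_lit 5277216401) (nat_lit 1140) (nat_lit 20299471524) (nat_lit 1216) (nat_lit 15100306932) (nat_lit 166) (nat_lit 5) (nat_lit 181) (nat_lit 5) (nat_lit 182) (nat_lit 5) (nat_lit 288) (nat_lit 286) (nat_lit 146)) (XT.nd (nat_lit 78) (nat_lit 0) (nat_lit 0) (XT.lf (nat_lit 0) (nat_lit 6475793192) (nat_lit 1140) (nat_lit 32034562742) (nat_lit 1216) (nat_lit 3201227126) (nat_lit 167) (nat_lit 5) (nat_lit 182) (nat_lit 5) (nat_lit 183) (nat_lit 5) (nat_lit 289) (nat_lit 286) (nat_lit 145)) (XT.lf (nat_lit 0) (nat_lit 8199572753) (nat_lit 1140) (nat_lit 1477788312) (nat_lit 1216) (nat_lit 33106588115) (nat_lit 167) (nat_lit 5) (nat_lit 182) (nat_lit 5) (nat_lit 183) (nat_lit 5) (nat_lit 290) (nat_lit 286) (nat_lit 144))))))))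
noncomputable def xc118 : XT := (XT.nd (nat_lit 1716) (nat_lit 2280) (nat_lit 0) (XT.nd (nat_lit 858) (nat_lit 3496) (nat_lit 0) (XT.nd (nat_lit 390) (nat_lit 2584) (nat_lit 0) (XT.nd (nat_lit 156) (nat_lit 0) (nat_lit 76) (XT.nd (nat_lit 78) (nat_lit 0) (nat_lit 76) (XT.lf (nat_lit 0) (nat_lit 10506837119) (nat_lit 1140) (nat_lit 12888468472) (nat_lit 1216) (nat_lit 20499715547) (nat_lit 168) (nat_lit 5) (nat_lit 183) (nat_lit 5) (nat_lit 184) (nat_lit 5) (nat_lit 291) (nat_lit 286) (nat_lit 143)) (XT.lf (nat_lit 0) (nat_lit 13303578436) (nat_lit 1140) (nat_lit 24738900986) (nat_lit 1216) (nat_lit 7007949959) (nat_lit 169) (nat_lit 5) (nat_lit 184) (nat_lit 5) (nat_lit 185) (nat_lit 5) (nat_lit 292) (nat_lit 286) (nat_lit 142))) (XT.nd (nat_lit 78) (nat_lit 0) (nat_lit 76) (XT.lf (nat_lit 76) (nat_lit 9119268554) (nat_lit 0) (nat_lit 7575271091) (nat_lit 1216) (nat_lit 29555442717) (nat_lit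 170) (nat_lit 5) (nat_lit 169) (nat_lit 5) (nat_lit 185) (nat_lit 5) (nat_lit 293) (nat_lit 286) (nat_lit 141)) (XT.nd (nat_lit 78) (nat_lit 0) (nat_lit 76) (XT.lf (nat_lit 0) (nat_lit 20743676929) (nat_lit 1140) (nat_lit 2554275137) (nat_lit 1216) (nat_lit 24196907618) (nat_lit 170) (nat_lit 5) (nat_lit 185) (nat_lit 5) (nat_lit 186) (nat_lit 5) (nat_lit 294) (nat_lit 286) (nat_lit 140)) (XT.lf (nat_lit 0) (nat_lit 25484721457) (nat_lit 1140) (nat_lit 14533567932) (nat_lit 1216) (nat_lit 8769013242) (nat_lit 171) (nat_lit 5) (nat_lit 186) (nat_lit 5) (nat_lit 187) (nat_lit 5) (nat_lit 295) (nat_lit 286) (nat_lit 139))))) (XT.nd (nat_lit 234) (nat_lit 1748) (nat_lit 0) (XT.nd (nat_lit 78) (nat_lit 1064) (nat_lit 0) (XT.lf (nat_lit 76) (nat_lit 23023384136) (nat_lit 0) (nat_lit 7919488327) (nat_lit 1216) (nat_lit 19187098653) (nat_lit 172) (nat_lit 5) (nat_lit 171) (nat_lit 5) (nat_lit 187)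 (nat_lit 5) (nat_lit 296) (nat_lit 286) (nat_lit 138)) (XT.nd (nat_lit 78) (nat_lit 0) (nat_lit 0) (XT.lf (nat_lit 0) (nat_lit 11193251710) (nat_lit 1140) (nat_lit 25984377974) (nat_lit 1216) (nat_lit 14347037161) (nat_lit 157) (nat_lit 5) (nat_lit 172) (nat_lit 5) (nat_lit 173) (nat_lit 5) (nat_lit 297) (nat_lit 286) (nat_lit 137)) (XT.lf (nat_lit 0) (nat_lit 44154666751) (nat_lit 1216) (nat_lit 1162888245) (nat_lit 76) (nat_lit 7658630659) (nat_lit 157) (nat_lit 5) (nat_lit 173) (nat_lit 5) (nat_lit 158) (nat_lit 5) (nat_lit 298) (nat_lit 286) (nat_lit 136)))) (XT.nd (nat_lit 78) (nat_lit 1216) (nat_lit 0) (XT.lf (nat_lit 0) (nat_lit 40489551062) (nat_lit 532) (nat_lit 11639884205) (nat_lit 608) (nat_lit 2351383085) (nat_lit 150) (nat_lit 5) (nat_lit 157) (nat_lit 5) (nat_lit 158) (nat_lit 5) (nat_lit 299) (nat_lit 286) (nat_lit 135)) (XT.nd (nat_lit 78) (nat_lit 532) (nat_lit 0) (XT.lf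 (nat_lit 0) (nat_lit 4872359600) (nat_lit 684) (nat_lit 27578596841) (nat_lit 76) (nat_lit 23592945662) (nat_lit 141) (nat_lit 5) (nat_lit 150) (nat_lit 5) (nat_lit 142) (nat_lit 5) (nat_lit 300) (nat_lit 286) (nat_lit 134)) (XT.lf (nat_lit 0) (nat_lit 12850517587) (nat_lit 608) (nat_lit 41880893193) (nat_lit 76) (nat_lit 2939778898) (nat_lit 134) (nat_lit 5) (nat_lit 142) (nat_lit 5) (nat_lit 135) (nat_lit 5) (nat_lit 301) (nat_lit 286) (nat_lit 133)))))) (XT.nd (nat_lit 390) (nat_lit 1596) (nat_lit 0) (XT.nd (nat_lit 156) (nat_lit 1368) (nat_lit 0) (XT.nd (nat_lit 78) (nat_lit 0) (nat_lit 0) (XT.lf (nat_lit 0) (nat_lit 2243708337) (nat_lit 532) (nat_lit 19617356355) (nat_lit 608) (nat_lit 37499776140) (nat_lit 127) (nat_lit 5) (nat_lit 134) (nat_lit 5) (nat_lit 135) (nat_lit 5) (nat_lit 302) (nat_lit 286) (nat_lit 132)) (XT.lf (nat_lit 0) (nat_lit 31921133606) (nat_lit 608) (nat_lit 11844775062)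 (nat_lit 76) (nat_lit 17351099504) (nat_lit 127) (nat_lit 5) (nat_lit 135) (nat_lit 5) (nat_lit 128) (nat_lit 5) (nat_lit 303) (nat_lit 286) (nat_lit 131))) (XT.nd (nat_lit 78) (nat_lit 912) (nat_lit 0) (XT.lf (nat_lit 0) (nat_lit 36197296629) (nat_lit 456) (nat_lit 6830727769) (nat_lit 532) (nat_lit 19916648226) (nat_lit 121) (nat_lit 5) (nat_lit 127) (nat_lit 5) (nat_lit 128) (nat_lit 5) (nat_lit 304) (nat_lit 286) (nat_lit 130)) (XT.nd (nat_lit 78) (nat_lit 456) (nat_lit 0) (XT.lf (nat_lit 0) (nat_lit 22150586513) (nat_lit 456) (nat_lit 33180816261) (nat_lit 532) (nat_lit 9513086374) (nat_lit 115) (nat_lit 5) (nat_lit 121) (nat_lit 5) (nat_lit 122) (nat_lit 5) (nat_lit 305) (nat_lit 286) (nat_lit 129)) (XT.lf (nat_lit 0) (nat_lit 1850732999) (nat_lit 456) (nat_lit 59603217884) (nat_lit 76) (nat_lit 5370913528) (nat_lit 109) (nat_lit 5) (nat_lit 115) (nat_lit 5) (nat_lit 110) (nat_lit 5)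 (nat_lit 306) (nat_lit 286) (nat_lit 128))))) (XT.nd (nat_lit 234) (nat_lit 760) (nat_lit 0) (XT.nd (nat_lit 78) (nat_lit 836) (nat_lit 0) (XT.lf (nat_lit 0) (nat_lit 14364648067) (nat_lit 456) (nat_lit 8803407932) (nat_lit 76) (nat_lit 45710020034) (nat_lit 109) (nat_lit 5) (nat_lit 115) (nat_lit 5) (nat_lit 110) (nat_lit 5) (nat_lit 307) (nat_lit 286) (nat_lit 127)) (XT.nd (nat_lit 78) (nat_lit 380) (nat_lit 0) (XT.lf (nat_lit 0) (nat_lit 28107076429) (nat_lit 532) (nat_lit 25768346890) (nat_lit 76) (nat_lit 17140443027) (nat_lit 103) (nat_lit 5) (nat_lit 110) (nat_lit 5) (nat_lit 104) (nat_lit 5) (nat_lit 308) (nat_lit 286) (nat_lit 126)) (XT.lf (nat_lit 0) (nat_lit 29261285831) (nat_lit 380) (nat_lit 13880207588) (nat_lit 456) (nat_lit 30100909249) (nat_lit 98) (nat_lit 5) (nat_lit 103) (nat_lit 5) (nat_lit 104) (nat_lit 5) (nat_lit 309) (nat_lit 286) (nat_lit 125)))) (XT.nd (nat_lit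 78) (nat_lit 380) (nat_lit 0) (XT.lf (nat_lit 0) (nat_lit 11967123432) (nat_lit 380) (nat_lit 47611978243) (nat_lit 456) (nat_lit 15981622405) (nat_lit 93) (nat_lit 5) (nat_lit 98) (nat_lit 5) (nat_lit 99) (nat_lit 5) (nat_lit 310) (nat_lit 286) (nat_lit 124)) (XT.nd (nat_lit 78) (nat_lit 380) (nat_lit 0) (XT.lf (nat_lit 0) (nat_lit 71486936688) (nat_lit 380) (nat_lit 5941475159) (nat_lit 456) (nat_lit 548857348) (nat_lit 93) (nat_lit 5) (nat_lit 98) (nat_lit 5) (nat_lit 99) (nat_lit 5) (nat_lit 311) (nat_lit 286) (nat_lit 123)) (XT.lf (nat_lit 0) (nat_lit 16241303964) (nat_lit 380) (nat_lit 26487907891) (nat_lit 76) (nat_lit 37754179471) (nat_lit 88) (nat_lit 5) (nat_lit 93) (nat_lit 5) (nat_lit 89) (nat_lit 5) (nat_lit 312) (nat_lit 286) (nat_lit 122))))))) (XT.nd (nat_lit 35646) (nat_lit 0) (nat_lit 7524) (XT.nd (nat_lit 390) (nat_lit 912) (nat_lit 0) (XT.nd (nat_lit 156) (nat_lit 684)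 (nat_lit 0) (XT.nd (nat_lit 78) (nat_lit 304) (nat_lit 0) (XT.lf (nat_lit 0) (nat_lit 34331389849) (nat_lit 456) (nat_lit 47962544722) (nat_lit 76) (nat_lit 806570938) (nat_lit 83) (nat_lit 5) (nat_lit 89) (nat_lit 5) (nat_lit 84) (nat_lit 5) (nat_lit 313) (nat_lit 286) (nat_lit 121)) (XT.lf (nat_lit 0) (nat_lit 14403493448) (nat_lit 304) (nat_lit 39766104406) (nat_lit 380) (nat_lit 31653570921) (nat_lit 79) (nat_lit 5) (nat_lit 83) (nat_lit 5) (nat_lit 84) (nat_lit 5) (nat_lit 314) (nat_lit 286) (nat_lit 120))) (XT.nd (nat_lit 78) (nat_lit 684) (nat_lit 0) (XT.lf (nat_lit 0) (nat_lit 75543889468) (nat_lit 380) (nat_lit 7830845863) (nat_lit 76) (nat_lit 5290906494) (nat_lit 79) (nat_lit 5) (nat_lit 84) (nat_lit 5) (nat_lit 80) (nat_lit 5) (nat_lit 315) (nat_lit 286) (nat_lit 119)) (XT.nd (nat_lit 78) (nat_lit 304) (nat_lit 0) (XT.lf (nat_lit 0) (nat_lit 7196513975) (nat_lit 380) (nat_lit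 31992410902) (nat_lit 76) (nat_lit 52429982742) (nat_lit 74) (nat_lit 5) (nat_lit 79) (nat_lit 5) (nat_lit 75) (nat_lit 5) (nat_lit 316) (nat_lit 286) (nat_lit 118)) (XT.lf (nat_lit 0) (nat_lit 28767435200) (nat_lit 380) (nat_lit 58298066238) (nat_lit 76) (nat_lit 7635195727) (nat_lit 70) (nat_lit 5) (nat_lit 75) (nat_lit 5) (nat_lit 71) (nat_lit 5) (nat_lit 317) (nat_lit 286) (nat_lit 117))))) (XT.nd (nat_lit 234) (nat_lit 304) (nat_lit 0) (XT.nd (nat_lit 78) (nat_lit 304) (nat_lit 0) (XT.lf (nat_lit 0) (nat_lit 10768816527) (nat_lit 304) (nat_lit 41478448874) (nat_lit 380) (nat_lit 45664401426) (nat_lit 66) (nat_lit 5) (nat_lit 70) (nat_lit 5) (nat_lit 71) (nat_lit 5) (nat_lit 318) (nat_lit 286) (nat_lit 116)) (XT.nd (nat_lit 78) (nat_lit 304) (nat_lit 0) (XT.lf (nat_lit 0) (nat_lit 77567309810) (nat_lit 380) (nat_lit 16827002851) (nat_lit 76) (nat_lit 6868887080) (nat_lit 66) (nat_lit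 5) (nat_lit 71) (nat_lit 5) (nat_lit 67) (nat_lit 5) (nat_lit 319) (nat_lit 286) (nat_lit 115)) (XT.lf (nat_lit 0) (nat_lit 365153079) (nat_lit 304) (nat_lit 47046292908) (nat_lit 76) (nat_lit 57341591050) (nat_lit 62) (nat_lit 5) (nat_lit 66) (nat_lit 5) (nat_lit 63) (nat_lit 5) (nat_lit 320) (nat_lit 286) (nat_lit 114)))) (XT.nd (nat_lit 34866) (nat_lit 0) (nat_lit 8132) (XT.lf (nat_lit 0) (nat_lit 25613965976) (nat_lit 380) (nat_lit 80207422732) (nat_lit 76) (nat_lit 2574696832) (nat_lit 58) (nat_lit 5) (nat_lit 63) (nat_lit 5) (nat_lit 59) (nat_lit 5) (nat_lit 321) (nat_lit 286) (nat_lit 113)) (XT.nd (nat_lit 78) (nat_lit 0) (nat_lit 0) (XT.lf (nat_lit 0) (nat_lit 1094430075) (nat_lit 0) (nat_lit 1094430075) (nat_lit 1140) (nat_lit 18138852749) (nat_lit 165) (nat_lit 5) (nat_lit 165) (nat_lit 3) (nat_lit 180) (nat_lit 3) (nat_lit 287) (nat_lit 287) (nat_lit 146)) (XT.lf (nat_lit 0) (nat_lit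 4817961516) (nat_lit 1140) (nat_lit 9348853178) (nat_lit 1216) (nat_lit 27494967736) (nat_lit 165) (nat_lit 5) (nat_lit 180) (nat_lit 3) (nat_lit 181) (nat_lit 5) (nat_lit 288) (nat_lit 287) (nat_lit 145)))))) (XT.nd (nat_lit 390) (nat_lit 684) (nat_lit 0) (XT.nd (nat_lit 156) (nat_lit 0) (nat_lit 76) (XT.nd (nat_lit 78) (nat_lit 0) (nat_lit 76) (XT.lf (nat_lit 0) (nat_lit 5661173775) (nat_lit 1140) (nat_lit 21244119961) (nat_lit 1216) (nat_lit 15801741114) (nat_lit 166) (nat_lit 5) (nat_lit 181) (nat_lit 5) (nat_lit 182) (nat_lit 5) (nat_lit 289) (nat_lit 287) (nat_lit 144)) (XT.lf (nat_lit 0) (nat_lit 6914168003) (nat_lit 1140) (nat_lit 33563884415) (nat_lit 1216) (nat_lit 3315475237) (nat_lit 167) (nat_lit 5) (nat_lit 182) (nat_lit 5) (nat_lit 183) (nat_lit 5) (nat_lit 290) (nat_lit 287) (nat_lit 143))) (XT.nd (nat_lit 78) (nat_lit 0) (nat_lit 76) (XT.lf (nat_lit 0) (nat_lit 8718680107)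 (nat_lit 1140) (nat_lit 1482719190) (nat_lit 1216) (nat_lit 34718285859) (nat_lit 167) (nat_lit 5) (nat_lit 182) (nat_lit 5) (nat_lit 183) (nat_lit 5) (nat_lit 291) (nat_lit 287) (nat_lit 142)) (XT.nd (nat_lit 78) (nat_lit 0) (nat_lit 76) (XT.lf (nat_lit 0) (nat_lit 11136393578) (nat_lit 1140) (nat_lit 13462232697) (nat_lit 1216) (nat_lit 21487840794) (nat_lit 168) (nat_lit 5) (nat_lit 183) (nat_lit 5) (nat_lit 184) (nat_lit 5) (nat_lit 292) (nat_lit 287) (nat_lit 141)) (XT.lf (nat_lit 0) (nat_lit 14068368448) (nat_lit 1140) (nat_lit 25903744074) (nat_lit 1216) (nat_lit 7327679817) (nat_lit 169) (nat_lit 5) (nat_lit 184) (nat_lit 5) (nat_lit 185) (nat_lit 5) (nat_lit 293) (nat_lit 287) (nat_lit 140))))) (XT.nd (nat_lit 234) (nat_lit 912) (nat_lit 0) (XT.nd (nat_lit 78) (nat_lit 0) (nat_lit 76) (XT.lf (nat_lit 76) (nat_lit 9645267154) (nat_lit 0) (nat_lit 7979540398) (nat_lit 1216) (nat_lit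 30934645625) (nat_lit 170) (nat_lit 5) (nat_lit 169) (nat_lit 5) (nat_lit 185) (nat_lit 5) (nat_lit 294) (nat_lit 287) (nat_lit 139)) (XT.nd (nat_lit 78) (nat_lit 0) (nat_lit 76) (XT.lf (nat_lit 0) (nat_lit 21871618632) (nat_lit 1140) (nat_lit 2612171130) (nat_lit 1216) (nat_lit 25382935815) (nat_lit 170) (nat_lit 5) (nat_lit 185) (nat_lit 5) (nat_lit 186) (nat_lit 5) (nat_lit 295) (nat_lit 287) (nat_lit 138)) (XT.lf (nat_lit 0) (nat_lit 26845860227) (nat_lit 1140) (nat_lit 15189484983) (nat_lit 1216) (nat_lit 9188568466) (nat_lit 171) (nat_lit 5) (nat_lit 186) (nat_lit 5) (nat_lit 187) (nat_lit 5) (nat_lit 296) (nat_lit 287) (nat_lit 137)))) (XT.nd (nat_lit 78) (nat_lit 1064) (nat_lit 0) (XT.lf (nat_lit 76) (nat_lit 24243286329) (nat_lit 0) (nat_lit 8330154934) (nat_lit 1216) (nat_lit 20060385647) (nat_lit 172) (nat_lit 5) (nat_lit 171) (nat_lit 5) (nat_lit 187) (nat_lit 5) (nat_lit 297)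 (nat_lit 287) (nat_lit 136)) (XT.nd (nat_lit 78) (nat_lit 0) (nat_lit 0) (XT.lf (nat_lit 0) (nat_lit 11822381254) (nat_lit 1140) (nat_lit 27294115718) (nat_lit 1216) (nat_lit 14981870303) (nat_lit 157) (nat_lit 5) (nat_lit 172) (nat_lit 5) (nat_lit 173) (nat_lit 5) (nat_lit 298) (nat_lit 287) (nat_lit 135)) (XT.lf (nat_lit 0) (nat_lit 46438480745) (nat_lit 1216) (nat_lit 1152365053) (nat_lit 76) (nat_lit 8031739730) (nat_lit 157) (nat_lit 5) (nat_lit 173) (nat_lit 5) (nat_lit 158) (nat_lit 5) (nat_lit 299) (nat_lit 287) (nat_lit 134))))))))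
noncomputable def xc119 : XT := (XT.nd (nat_lit 36582) (nat_lit 0) (nat_lit 3116) (XT.nd (nat_lit 858) (nat_lit 2736) (nat_lit 0) (XT.nd (nat_lit 390) (nat_lit 2204) (nat_lit 0) (XT.nd (nat_lit 156) (nat_lit 1064) (nat_lit 0) (XT.nd (nat_lit 78) (nat_lit 684) (nat_lit 0) (XT.lf (nat_lit 0) (nat_lit 42580727876) (nat_lit 532) (nat_lit 12228278076) (nat_lit 608) (nat_lit 2393539406) (nat_lit 150) (nat_lit 5) (nat_lit 157) (nat_lit 5) (nat_lit 158) (nat_lit 5) (nat_lit 300) (nat_lit 287) (nat_lit 133)) (XT.lf (nat_lit 0) (nat_lit 5186989997) (nat_lit 684) (nat_lit 28888906891) (nat_lit 76) (nat_lit 24767958119) (nat_lit 141) (nat_lit 5) (nat_lit 150) (nat_lit 5) (nat_lit 142) (nat_lit 5) (nat_lit 301) (nat_lit 287) (nat_lit 132))) (XT.nd (nat_lit 78) (nat_lit 532) (nat_lit 0) (XT.lf (nat_lit 0) (nat_lit 13561299487) (nat_lit 608) (nat_lit 43906114822) (nat_lit 76) (nat_lit 3085180669) (nat_lit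 134) (nat_lit 5) (nat_lit 142) (nat_lit 5) (nat_lit 135) (nat_lit 5) (nat_lit 302) (nat_lit 287) (nat_lit 131)) (XT.nd (nat_lit 78) (nat_lit 0) (nat_lit 0) (XT.lf (nat_lit 0) (nat_lit 2422743985) (nat_lit 532) (nat_lit 20597022280) (nat_lit 608) (nat_lit 39307045726) (nat_lit 127) (nat_lit 5) (nat_lit 134) (nat_lit 5) (nat_lit 135) (nat_lit 5) (nat_lit 303) (nat_lit 287) (nat_lit 130)) (XT.lf (nat_lit 0) (nat_lit 33579723517) (nat_lit 608) (nat_lit 12371385662) (nat_lit 76) (nat_lit 18219776803) (nat_lit 127) (nat_lit 5) (nat_lit 135) (nat_lit 5) (nat_lit 128) (nat_lit 5) (nat_lit 304) (nat_lit 287) (nat_lit 129))))) (XT.nd (nat_lit 234) (nat_lit 836) (nat_lit 0) (XT.nd (nat_lit 78) (nat_lit 912) (nat_lit 0) (XT.lf (nat_lit 0) (nat_lit 38070908395) (nat_lit 456) (nat_lit 7168685455) (nat_lit 532) (nat_lit 20850415356) (nat_lit 121) (nat_lit 5) (nat_lit 127) (nat_lit 5) (nat_lit 128) (nat_lit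 5) (nat_lit 305) (nat_lit 287) (nat_lit 128)) (XT.nd (nat_lit 78) (nat_lit 456) (nat_lit 0) (XT.lf (nat_lit 0) (nat_lit 23321844736) (nat_lit 456) (nat_lit 34834076619) (nat_lit 532) (nat_lit 9928966177) (nat_lit 115) (nat_lit 5) (nat_lit 121) (nat_lit 5) (nat_lit 122) (nat_lit 5) (nat_lit 306) (nat_lit 287) (nat_lit 127)) (XT.lf (nat_lit 0) (nat_lit 1999757957) (nat_lit 456) (nat_lit 62518551654) (nat_lit 76) (nat_lit 5646022353) (nat_lit 109) (nat_lit 5) (nat_lit 115) (nat_lit 5) (nat_lit 110) (nat_lit 5) (nat_lit 307) (nat_lit 287) (nat_lit 126)))) (XT.nd (nat_lit 78) (nat_lit 836) (nat_lit 0) (XT.lf (nat_lit 0) (nat_lit 15136678860) (nat_lit 456) (nat_lit 9181838211) (nat_lit 76) (nat_lit 48001771653) (nat_lit 109) (nat_lit 5) (nat_lit 115) (nat_lit 5) (nat_lit 110) (nat_lit 5) (nat_lit 308) (nat_lit 287) (nat_lit 125)) (XT.nd (nat_lit 78) (nat_lit 380) (nat_lit 0) (XT.lf (nat_lit 0)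 (nat_lit 29564321697) (nat_lit 532) (nat_lit 26995244421) (nat_lit 76) (nat_lit 18005463317) (nat_lit 103) (nat_lit 5) (nat_lit 110) (nat_lit 5) (nat_lit 104) (nat_lit 5) (nat_lit 309) (nat_lit 287) (nat_lit 124)) (XT.lf (nat_lit 0) (nat_lit 30784106482) (nat_lit 380) (nat_lit 14564456447) (nat_lit 456) (nat_lit 31554390040) (nat_lit 98) (nat_lit 5) (nat_lit 103) (nat_lit 5) (nat_lit 104) (nat_lit 5) (nat_lit 310) (nat_lit 287) (nat_lit 123)))))) (XT.nd (nat_lit 390) (nat_lit 1292) (nat_lit 0) (XT.nd (nat_lit 156) (nat_lit 1064) (nat_lit 0) (XT.nd (nat_lit 78) (nat_lit 0) (nat_lit 0) (XT.lf (nat_lit 0) (nat_lit 12624956749) (nat_lit 380) (nat_lit 49981375240) (nat_lit 456) (nat_lit 16730913386) (nat_lit 93) (nat_lit 5) (nat_lit 98) (nat_lit 5) (nat_lit 99) (nat_lit 5) (nat_lit 311) (nat_lit 287) (nat_lit 122)) (XT.lf (nat_lit 0) (nat_lit 75117928422) (nat_lit 380) (nat_lit 6227880426) (nat_lit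 456) (nat_lit 528881035) (nat_lit 93) (nat_lit 5) (nat_lit 98) (nat_lit 5) (nat_lit 99) (nat_lit 5) (nat_lit 312) (nat_lit 287) (nat_lit 121))) (XT.nd (nat_lit 78) (nat_lit 684) (nat_lit 0) (XT.lf (nat_lit 0) (nat_lit 17098294438) (nat_lit 380) (nat_lit 27755027502) (nat_lit 76) (nat_lit 39652832499) (nat_lit 88) (nat_lit 5) (nat_lit 93) (nat_lit 5) (nat_lit 89) (nat_lit 5) (nat_lit 313) (nat_lit 287) (nat_lit 120)) (XT.nd (nat_lit 78) (nat_lit 304) (nat_lit 0) (XT.lf (nat_lit 0) (nat_lit 36091398468) (nat_lit 456) (nat_lit 50303800811) (nat_lit 76) (nat_lit 858972431) (nat_lit 83) (nat_lit 5) (nat_lit 89) (nat_lit 5) (nat_lit 84) (nat_lit 5) (nat_lit 314) (nat_lit 287) (nat_lit 119)) (XT.lf (nat_lit 0) (nat_lit 15178909068) (nat_lit 304) (nat_lit 41741070286) (nat_lit 380) (nat_lit 33193037573) (nat_lit 79) (nat_lit 5) (nat_lit 83) (nat_lit 5) (nat_lit 84) (nat_lit 5) (nat_lit 315) (nat_lit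 287) (nat_lit 118))))) (XT.nd (nat_lit 234) (nat_lit 608) (nat_lit 0) (XT.nd (nat_lit 78) (nat_lit 684) (nat_lit 0) (XT.lf (nat_lit 0) (nat_lit 79361112353) (nat_lit 380) (nat_lit 8168651958) (nat_lit 76) (nat_lit 5567908049) (nat_lit 79) (nat_lit 5) (nat_lit 84) (nat_lit 5) (nat_lit 80) (nat_lit 5) (nat_lit 316) (nat_lit 287) (nat_lit 117)) (XT.nd (nat_lit 78) (nat_lit 304) (nat_lit 0) (XT.lf (nat_lit 0) (nat_lit 7595393472) (nat_lit 380) (nat_lit 33539011457) (nat_lit 76) (nat_lit 55064229574) (nat_lit 74) (nat_lit 5) (nat_lit 79) (nat_lit 5) (nat_lit 75) (nat_lit 5) (nat_lit 317) (nat_lit 287) (nat_lit 116)) (XT.lf (nat_lit 0) (nat_lit 30243628865) (nat_lit 380) (nat_lit 61160426803) (nat_lit 76) (nat_lit 8030497048) (nat_lit 70) (nat_lit 5) (nat_lit 75) (nat_lit 5) (nat_lit 71) (nat_lit 5) (nat_lit 318) (nat_lit 287) (nat_lit 115)))) (XT.nd (nat_lit 78) (nat_lit 304) (nat_lit 0) (XT.lf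 (nat_lit 0) (nat_lit 11358293973) (nat_lit 304) (nat_lit 43537846156) (nat_lit 380) (nat_lit 47909972172) (nat_lit 66) (nat_lit 5) (nat_lit 70) (nat_lit 5) (nat_lit 71) (nat_lit 5) (nat_lit 319) (nat_lit 287) (nat_lit 114)) (XT.nd (nat_lit 78) (nat_lit 304) (nat_lit 0) (XT.lf (nat_lit 0) (nat_lit 81480581093) (nat_lit 380) (nat_lit 17618795982) (nat_lit 76) (nat_lit 7225894981) (nat_lit 66) (nat_lit 5) (nat_lit 71) (nat_lit 5) (nat_lit 67) (nat_lit 5) (nat_lit 320) (nat_lit 287) (nat_lit 113)) (XT.lf (nat_lit 0) (nat_lit 417488606) (nat_lit 304) (nat_lit 49349755419) (nat_lit 76) (nat_lit 60222385080) (nat_lit 62) (nat_lit 5) (nat_lit 66) (nat_lit 5) (nat_lit 63) (nat_lit 5) (nat_lit 321) (nat_lit 287) (nat_lit 112))))))) (XT.nd (nat_lit 858) (nat_lit 4712) (nat_lit 0) (XT.nd (nat_lit 390) (nat_lit 0) (nat_lit 228) (XT.nd (nat_lit 156) (nat_lit 0) (nat_lit 76) (XT.nd (nat_lit 78) (nat_lit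 0) (nat_lit 0) (XT.lf (nat_lit 0) (nat_lit 1179293367) (nat_lit 0) (nat_lit 1179293367) (nat_lit 1140) (nat_lit 18983599875) (nat_lit 165) (nat_lit 5) (nat_lit 165) (nat_lit 3) (nat_lit 180) (nat_lit 3) (nat_lit 288) (nat_lit 288) (nat_lit 144)) (XT.lf (nat_lit 0) (nat_lit 5173133567) (nat_lit 1140) (nat_lit 9754689239) (nat_lit 1216) (nat_lit 28813423524) (nat_lit 165) (nat_lit 5) (nat_lit 180) (nat_lit 3) (nat_lit 181) (nat_lit 5) (nat_lit 289) (nat_lit 288) (nat_lit 143))) (XT.nd (nat_lit 78) (nat_lit 0) (nat_lit 76) (XT.lf (nat_lit 0) (nat_lit 6053163579) (nat_lit 1140) (nat_lit 22242538984) (nat_lit 1216) (nat_lit 16543228474) (nat_lit 166) (nat_lit 5) (nat_lit 181) (nat_lit 5) (nat_lit 182) (nat_lit 5) (nat_lit 290) (nat_lit 288) (nat_lit 142)) (XT.nd (nat_lit 78) (nat_lit 0) (nat_lit 0) (XT.lf (nat_lit 0) (nat_lit 7363808514) (nat_lit 1140) (nat_lit 35176403838) (nat_lit 1216) (nat_lit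 3439695036) (nat_lit 167) (nat_lit 5) (nat_lit 182) (nat_lit 5) (nat_lit 183) (nat_lit 5) (nat_lit 291) (nat_lit 288) (nat_lit 141)) (XT.lf (nat_lit 0) (nat_lit 9253597075) (nat_lit 1140) (nat_lit 1494307724) (nat_lit 1216) (nat_lit 36414624948) (nat_lit 167) (nat_lit 5) (nat_lit 182) (nat_lit 5) (nat_lit 183) (nat_lit 5) (nat_lit 292) (nat_lit 288) (nat_lit 140))))) (XT.nd (nat_lit 234) (nat_lit 0) (nat_lit 152) (XT.nd (nat_lit 78) (nat_lit 0) (nat_lit 76) (XT.lf (nat_lit 0) (nat_lit 11787738974) (nat_lit 1140) (nat_lit 14071254355) (nat_lit 1216) (nat_lit 22528799247) (nat_lit 168) (nat_lit 5) (nat_lit 183) (nat_lit 5) (nat_lit 184) (nat_lit 5) (nat_lit 293) (nat_lit 288) (nat_lit 139)) (XT.nd (nat_lit 78) (nat_lit 0) (nat_lit 0) (XT.lf (nat_lit 0) (nat_lit 14862137065) (nat_lit 1140) (nat_lit 27133532674) (nat_lit 1216) (nat_lit 7666247355) (nat_lit 169) (nat_lit 5) (nat_lit 184) (nat_lit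 5) (nat_lit 185) (nat_lit 5) (nat_lit 294) (nat_lit 288) (nat_lit 138)) (XT.lf (nat_lit 76) (nat_lit 10191054478) (nat_lit 0) (nat_lit 8401651887) (nat_lit 1216) (nat_lit 32391972711) (nat_lit 170) (nat_lit 5) (nat_lit 169) (nat_lit 5) (nat_lit 185) (nat_lit 5) (nat_lit 295) (nat_lit 288) (nat_lit 137)))) (XT.nd (nat_lit 78) (nat_lit 0) (nat_lit 76) (XT.lf (nat_lit 0) (nat_lit 23047519614) (nat_lit 1140) (nat_lit 2679452916) (nat_lit 1216) (nat_lit 26630479717) (nat_lit 170) (nat_lit 5) (nat_lit 185) (nat_lit 5) (nat_lit 186) (nat_lit 5) (nat_lit 296) (nat_lit 288) (nat_lit 136)) (XT.nd (nat_lit 78) (nat_lit 0) (nat_lit 0) (XT.lf (nat_lit 0) (nat_lit 28266976546) (nat_lit 1140) (nat_lit 15884776605) (nat_lit 1216) (nat_lit 9630858170) (nat_lit 171) (nat_lit 5) (nat_lit 186) (nat_lit 5) (nat_lit 187) (nat_lit 5) (nat_lit 297) (nat_lit 288) (nat_lit 135)) (XT.lf (nat_lit 76) (nat_lit 25517793490)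 (nat_lit 0) (nat_lit 8759988931) (nat_lit 1216) (nat_lit 20985338773) (nat_lit 172) (nat_lit 5) (nat_lit 171) (nat_lit 5) (nat_lit 187) (nat_lit 5) (nat_lit 298) (nat_lit 288) (nat_lit 134)))))) (XT.nd (nat_lit 468) (nat_lit 1824) (nat_lit 0) (XT.nd (nat_lit 234) (nat_lit 1748) (nat_lit 0) (XT.nd (nat_lit 78) (nat_lit 532) (nat_lit 0) (XT.lf (nat_lit 0) (nat_lit 12476508895) (nat_lit 1140) (nat_lit 28668362407) (nat_lit 1216) (nat_lit 15656116910) (nat_lit 157) (nat_lit 5) (nat_lit 172) (nat_lit 5) (nat_lit 173) (nat_lit 5) (nat_lit 299) (nat_lit 288) (nat_lit 133)) (XT.nd (nat_lit 78) (nat_lit 532) (nat_lit 0) (XT.lf (nat_lit 0) (nat_lit 48829412181) (nat_lit 1216) (nat_lit 1147699764) (nat_lit 76) (nat_lit 8424417454) (nat_lit 157) (nat_lit 5) (nat_lit 173) (nat_lit 5) (nat_lit 158) (nat_lit 5) (nat_lit 300) (nat_lit 288) (nat_lit 132)) (XT.lf (nat_lit 0) (nat_lit 44770262466) (nat_lit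 532) (nat_lit 12845496661) (nat_lit 608) (nat_lit 2444814714) (nat_lit 150) (nat_lit 5) (nat_lit 157) (nat_lit 5) (nat_lit 158) (nat_lit 5) (nat_lit 301) (nat_lit 288) (nat_lit 131)))) (XT.nd (nat_lit 78) (nat_lit 1064) (nat_lit 0) (XT.lf (nat_lit 0) (nat_lit 5510749852) (nat_lit 684) (nat_lit 30271112062) (nat_lit 76) (nat_lit 26002152101) (nat_lit 141) (nat_lit 5) (nat_lit 150) (nat_lit 5) (nat_lit 142) (nat_lit 5) (nat_lit 302) (nat_lit 288) (nat_lit 130)) (XT.nd (nat_lit 78) (nat_lit 532) (nat_lit 0) (XT.lf (nat_lit 0) (nat_lit 14301274684) (nat_lit 608) (nat_lit 46038996046) (nat_lit 76) (nat_lit 3238000089) (nat_lit 134) (nat_lit 5) (nat_lit 142) (nat_lit 5) (nat_lit 135) (nat_lit 5) (nat_lit 303) (nat_lit 288) (nat_lit 129)) (XT.lf (nat_lit 0) (nat_lit 2604516316) (nat_lit 532) (nat_lit 21625783241) (nat_lit 608) (nat_lit 41210974683) (nat_lit 127) (nat_lit 5) (nat_lit 134) (nat_lit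 5) (nat_lit 135) (nat_lit 5) (nat_lit 304) (nat_lit 288) (nat_lit 128))))) (XT.nd (nat_lit 234) (nat_lit 912) (nat_lit 0) (XT.nd (nat_lit 78) (nat_lit 912) (nat_lit 0) (XT.lf (nat_lit 0) (nat_lit 35315429177) (nat_lit 608) (nat_lit 12930428276) (nat_lit 76) (nat_lit 19131783623) (nat_lit 127) (nat_lit 5) (nat_lit 135) (nat_lit 5) (nat_lit 128) (nat_lit 5) (nat_lit 305) (nat_lit 288) (nat_lit 127)) (XT.nd (nat_lit 78) (nat_lit 456) (nat_lit 0) (XT.lf (nat_lit 0) (nat_lit 40032274164) (nat_lit 456) (nat_lit 7523873740) (nat_lit 532) (nat_lit 21836641085) (nat_lit 121) (nat_lit 5) (nat_lit 127) (nat_lit 5) (nat_lit 128) (nat_lit 5) (nat_lit 306) (nat_lit 288) (nat_lit 126)) (XT.lf (nat_lit 0) (nat_lit 24545740962) (nat_lit 456) (nat_lit 36570537407) (nat_lit 532) (nat_lit 10371197237) (nat_lit 115) (nat_lit 5) (nat_lit 121) (nat_lit 5) (nat_lit 122) (nat_lit 5) (nat_lit 307) (nat_lit 288) (nat_lit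 125)))) (XT.nd (nat_lit 78) (nat_lit 456) (nat_lit 0) (XT.lf (nat_lit 0) (nat_lit 2150982417) (nat_lit 456) (nat_lit 65585679124) (nat_lit 76) (nat_lit 5934276440) (nat_lit 109) (nat_lit 5) (nat_lit 115) (nat_lit 5) (nat_lit 110) (nat_lit 5) (nat_lit 308) (nat_lit 288) (nat_lit 124)) (XT.nd (nat_lit 78) (nat_lit 456) (nat_lit 0) (XT.lf (nat_lit 0) (nat_lit 15942309528) (nat_lit 456) (nat_lit 9584930014) (nat_lit 76) (nat_lit 50407529730) (nat_lit 109) (nat_lit 5) (nat_lit 115) (nat_lit 5) (nat_lit 110) (nat_lit 5) (nat_lit 309) (nat_lit 288) (nat_lit 123)) (XT.lf (nat_lit 0) (nat_lit 31089604854) (nat_lit 532) (nat_lit 28289206358) (nat_lit 76) (nat_lit 18912991030) (nat_lit 103) (nat_lit 5) (nat_lit 110) (nat_lit 5) (nat_lit 104) (nat_lit 5) (nat_lit 310) (nat_lit 288) (nat_lit 122))))))))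
noncomputable def xc120 : XT := (XT.nd (nat_lit 36738) (nat_lit 0) (nat_lit 304) (XT.nd (nat_lit 35880) (nat_lit 0) (nat_lit 6916) (XT.nd (nat_lit 390) (nat_lit 1292) (nat_lit 0) (XT.nd (nat_lit 156) (nat_lit 760) (nat_lit 0) (XT.nd (nat_lit 78) (nat_lit 380) (nat_lit 0) (XT.lf (nat_lit 0) (nat_lit 32377512587) (nat_lit 380) (nat_lit 15283825282) (nat_lit 456) (nat_lit 33085338866) (nat_lit 98) (nat_lit 5) (nat_lit 103) (nat_lit 5) (nat_lit 104) (nat_lit 5) (nat_lit 311) (nat_lit 288) (nat_lit 121)) (XT.lf (nat_lit 0) (nat_lit 13310152110) (nat_lit 380) (nat_lit 52470283535) (nat_lit 456) (nat_lit 17522297931) (nat_lit 93) (nat_lit 5) (nat_lit 98) (nat_lit 5) (nat_lit 99) (nat_lit 5) (nat_lit 312) (nat_lit 288) (nat_lit 120))) (XT.nd (nat_lit 78) (nat_lit 760) (nat_lit 0) (XT.lf (nat_lit 0) (nat_lit 78925203437) (nat_lit 380) (nat_lit 6529597812) (nat_lit 456) (nat_lit 512314493) (nat_lit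 93) (nat_lit 5) (nat_lit 98) (nat_lit 5) (nat_lit 99) (nat_lit 5) (nat_lit 313) (nat_lit 288) (nat_lit 119)) (XT.nd (nat_lit 78) (nat_lit 380) (nat_lit 0) (XT.lf (nat_lit 0) (nat_lit 17993957709) (nat_lit 380) (nat_lit 29090828052) (nat_lit 76) (nat_lit 41645400705) (nat_lit 88) (nat_lit 5) (nat_lit 93) (nat_lit 5) (nat_lit 89) (nat_lit 5) (nat_lit 314) (nat_lit 288) (nat_lit 118)) (XT.lf (nat_lit 0) (nat_lit 37935368960) (nat_lit 456) (nat_lit 52767407045) (nat_lit 76) (nat_lit 912871570) (nat_lit 83) (nat_lit 5) (nat_lit 89) (nat_lit 5) (nat_lit 84) (nat_lit 5) (nat_lit 315) (nat_lit 288) (nat_lit 117))))) (XT.nd (nat_lit 234) (nat_lit 608) (nat_lit 0) (XT.nd (nat_lit 78) (nat_lit 380) (nat_lit 0) (XT.lf (nat_lit 0) (nat_lit 15987959688) (nat_lit 304) (nat_lit 43816024625) (nat_lit 380) (nat_lit 34813494991) (nat_lit 79) (nat_lit 5) (nat_lit 83) (nat_lit 5) (nat_lit 84) (nat_lit 5) (nat_lit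 316) (nat_lit 288) (nat_lit 116)) (XT.nd (nat_lit 78) (nat_lit 380) (nat_lit 0) (XT.lf (nat_lit 0) (nat_lit 83365474920) (nat_lit 380) (nat_lit 8528344241) (nat_lit 76) (nat_lit 5857601620) (nat_lit 79) (nat_lit 5) (nat_lit 84) (nat_lit 5) (nat_lit 80) (nat_lit 5) (nat_lit 317) (nat_lit 288) (nat_lit 115)) (XT.lf (nat_lit 0) (nat_lit 8010586092) (nat_lit 380) (nat_lit 35167871336) (nat_lit 76) (nat_lit 57829003588) (nat_lit 74) (nat_lit 5) (nat_lit 79) (nat_lit 5) (nat_lit 75) (nat_lit 5) (nat_lit 318) (nat_lit 288) (nat_lit 114)))) (XT.nd (nat_lit 78) (nat_lit 304) (nat_lit 0) (XT.lf (nat_lit 0) (nat_lit 31790115891) (nat_lit 380) (nat_lit 64170790323) (nat_lit 76) (nat_lit 8444304472) (nat_lit 70) (nat_lit 5) (nat_lit 75) (nat_lit 5) (nat_lit 71) (nat_lit 5) (nat_lit 319) (nat_lit 288) (nat_lit 113)) (XT.nd (nat_lit 35100) (nat_lit 0) (nat_lit 7524) (XT.lf (nat_lit 0) (nat_lit 11972500390)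 (nat_lit 304) (nat_lit 45701563713) (nat_lit 380) (nat_lit 50271321733) (nat_lit 66) (nat_lit 5) (nat_lit 70) (nat_lit 5) (nat_lit 71) (nat_lit 5) (nat_lit 320) (nat_lit 288) (nat_lit 112)) (XT.lf (nat_lit 0) (nat_lit 1265597527) (nat_lit 0) (nat_lit 1265597527) (nat_lit 1140) (nat_lit 19876366705) (nat_lit 165) (nat_lit 5) (nat_lit 165) (nat_lit 3) (nat_lit 180) (nat_lit 3) (nat_lit 289) (nat_lit 289) (nat_lit 142)))))) (XT.nd (nat_lit 390) (nat_lit 608) (nat_lit 0) (XT.nd (nat_lit 156) (nat_lit 0) (nat_lit 152) (XT.nd (nat_lit 78) (nat_lit 0) (nat_lit 76) (XT.lf (nat_lit 0) (nat_lit 5535440110) (nat_lit 1140) (nat_lit 10186544700) (nat_lit 1216) (nat_lit 30203035653) (nat_lit 165) (nat_lit 5) (nat_lit 180) (nat_lit 3) (nat_lit 181) (nat_lit 5) (nat_lit 290) (nat_lit 289) (nat_lit 141)) (XT.lf (nat_lit 0) (nat_lit 6454625490) (nat_lit 1140) (nat_lit 23296809268) (nat_lit 1216) (nat_lit 17326308541)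 (nat_lit 166) (nat_lit 5) (nat_lit 181) (nat_lit 5) (nat_lit 182) (nat_lit 5) (nat_lit 291) (nat_lit 289) (nat_lit 140))) (XT.nd (nat_lit 78) (nat_lit 0) (nat_lit 0) (XT.lf (nat_lit 0) (nat_lit 7826268428) (nat_lit 1140) (nat_lit 36875655052) (nat_lit 1216) (nat_lit 3573989118) (nat_lit 167) (nat_lit 5) (nat_lit 182) (nat_lit 5) (nat_lit 183) (nat_lit 5) (nat_lit 292) (nat_lit 289) (nat_lit 139)) (XT.nd (nat_lit 78) (nat_lit 0) (nat_lit 76) (XT.lf (nat_lit 0) (nat_lit 9806057394) (nat_lit 1140) (nat_lit 1512290751) (nat_lit 1216) (nat_lit 38199460319) (nat_lit 167) (nat_lit 5) (nat_lit 182) (nat_lit 5) (nat_lit 183) (nat_lit 5) (nat_lit 293) (nat_lit 289) (nat_lit 138)) (XT.lf (nat_lit 0) (nat_lit 12462863535) (nat_lit 1140) (nat_lit 14716685575) (nat_lit 1216) (nat_lit 23624913961) (nat_lit 168) (nat_lit 5) (nat_lit 183) (nat_lit 5) (nat_lit 184) (nat_lit 5) (nat_lit 294) (nat_lit 289) (nat_lit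 137))))) (XT.nd (nat_lit 234) (nat_lit 912) (nat_lit 0) (XT.nd (nat_lit 78) (nat_lit 0) (nat_lit 0) (XT.lf (nat_lit 0) (nat_lit 15687194208) (nat_lit 1140) (nat_lit 28430890846) (nat_lit 1216) (nat_lit 8024329380) (nat_lit 169) (nat_lit 5) (nat_lit 184) (nat_lit 5) (nat_lit 185) (nat_lit 5) (nat_lit 295) (nat_lit 289) (nat_lit 136)) (XT.nd (nat_lit 78) (nat_lit 0) (nat_lit 76) (XT.lf (nat_lit 76) (nat_lit 10758225312) (nat_lit 0) (nat_lit 8842718127) (nat_lit 1216) (nat_lit 33930478199) (nat_lit 170) (nat_lit 5) (nat_lit 169) (nat_lit 5) (nat_lit 185) (nat_lit 5) (nat_lit 296) (nat_lit 289) (nat_lit 135)) (XT.lf (nat_lit 0) (nat_lit 24274562308) (nat_lit 1140) (nat_lit 2755986315) (nat_lit 1216) (nat_lit 27942409246) (nat_lit 170) (nat_lit 5) (nat_lit 185) (nat_lit 5) (nat_lit 186) (nat_lit 5) (nat_lit 297) (nat_lit 289) (nat_lit 134)))) (XT.nd (nat_lit 78) (nat_lit 1064) (nat_lit 0) (XT.lf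 (nat_lit 0) (nat_lit 29751820437) (nat_lit 1140) (nat_lit 16620799901) (nat_lit 1216) (nat_lit 10096855754) (nat_lit 171) (nat_lit 5) (nat_lit 186) (nat_lit 5) (nat_lit 187) (nat_lit 5) (nat_lit 298) (nat_lit 289) (nat_lit 133)) (XT.nd (nat_lit 78) (nat_lit 1064) (nat_lit 0) (XT.lf (nat_lit 76) (nat_lit 26850229962) (nat_lit 0) (nat_lit 9210075680) (nat_lit 1216) (nat_lit 21963797406) (nat_lit 172) (nat_lit 5) (nat_lit 171) (nat_lit 5) (nat_lit 187) (nat_lit 5) (nat_lit 299) (nat_lit 289) (nat_lit 132)) (XT.lf (nat_lit 0) (nat_lit 13157484978) (nat_lit 1140) (nat_lit 30110434408) (nat_lit 1216) (nat_lit 16371034403) (nat_lit 157) (nat_lit 5) (nat_lit 172) (nat_lit 5) (nat_lit 173) (nat_lit 5) (nat_lit 300) (nat_lit 289) (nat_lit 131))))))) (XT.nd (nat_lit 858) (nat_lit 2508) (nat_lit 0) (XT.nd (nat_lit 390) (nat_lit 1824) (nat_lit 0) (XT.nd (nat_lit 156) (nat_lit 1748) (nat_lit 0) (XT.nd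 (nat_lit 78) (nat_lit 532) (nat_lit 0) (XT.lf (nat_lit 0) (nat_lit 51333474535) (nat_lit 1216) (nat_lit 1148591744) (nat_lit 76) (nat_lit 8837557363) (nat_lit 157) (nat_lit 5) (nat_lit 173) (nat_lit 5) (nat_lit 158) (nat_lit 5) (nat_lit 301) (nat_lit 289) (nat_lit 130)) (XT.lf (nat_lit 0) (nat_lit 47063649237) (nat_lit 532) (nat_lit 13493036511) (nat_lit 608) (nat_lit 2505013126) (nat_lit 150) (nat_lit 5) (nat_lit 157) (nat_lit 5) (nat_lit 158) (nat_lit 5) (nat_lit 302) (nat_lit 289) (nat_lit 129))) (XT.nd (nat_lit 78) (nat_lit 1064) (nat_lit 0) (XT.lf (nat_lit 0) (nat_lit 5844709436) (nat_lit 684) (nat_lit 31728213993) (nat_lit 76) (nat_lit 27298446623) (nat_lit 141) (nat_lit 5) (nat_lit 150) (nat_lit 5) (nat_lit 142) (nat_lit 5) (nat_lit 303) (nat_lit 289) (nat_lit 128)) (XT.nd (nat_lit 78) (nat_lit 532) (nat_lit 0) (XT.lf (nat_lit 0) (nat_lit 15072492815) (nat_lit 608) (nat_lit 48284324971)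 (nat_lit 76) (nat_lit 3398594321) (nat_lit 134) (nat_lit 5) (nat_lit 142) (nat_lit 5) (nat_lit 135) (nat_lit 5) (nat_lit 304) (nat_lit 289) (nat_lit 127)) (XT.lf (nat_lit 0) (nat_lit 2789739983) (nat_lit 532) (nat_lit 22706083603) (nat_lit 608) (nat_lit 43215810646) (nat_lit 127) (nat_lit 5) (nat_lit 134) (nat_lit 5) (nat_lit 135) (nat_lit 5) (nat_lit 305) (nat_lit 289) (nat_lit 126))))) (XT.nd (nat_lit 234) (nat_lit 912) (nat_lit 0) (XT.nd (nat_lit 78) (nat_lit 912) (nat_lit 0) (XT.lf (nat_lit 0) (nat_lit 37132646880) (nat_lit 608) (nat_lit 13522957246) (nat_lit 76) (nat_lit 20089296143) (nat_lit 127) (nat_lit 5) (nat_lit 135) (nat_lit 5) (nat_lit 128) (nat_lit 5) (nat_lit 306) (nat_lit 289) (nat_lit 125)) (XT.nd (nat_lit 78) (nat_lit 456) (nat_lit 0) (XT.lf (nat_lit 0) (nat_lit 42086332634) (nat_lit 456) (nat_lit 7897123219) (nat_lit 532) (nat_lit 22877411878) (nat_lit 121) (nat_lit 5)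 (nat_lit 127) (nat_lit 5) (nat_lit 128) (nat_lit 5) (nat_lit 307) (nat_lit 289) (nat_lit 124)) (XT.lf (nat_lit 0) (nat_lit 25825457931) (nat_lit 456) (nat_lit 38394308683) (nat_lit 532) (nat_lit 10840580457) (nat_lit 115) (nat_lit 5) (nat_lit 121) (nat_lit 5) (nat_lit 122) (nat_lit 5) (nat_lit 308) (nat_lit 289) (nat_lit 123)))) (XT.nd (nat_lit 78) (nat_lit 456) (nat_lit 0) (XT.lf (nat_lit 0) (nat_lit 2305004609) (nat_lit 456) (nat_lit 68811629644) (nat_lit 76) (nat_lit 6236389780) (nat_lit 109) (nat_lit 5) (nat_lit 115) (nat_lit 5) (nat_lit 110) (nat_lit 5) (nat_lit 309) (nat_lit 289) (nat_lit 122)) (XT.nd (nat_lit 78) (nat_lit 456) (nat_lit 0) (XT.lf (nat_lit 0) (nat_lit 16783685073) (nat_lit 456) (nat_lit 10013382766) (nat_lit 76) (nat_lit 52933048615) (nat_lit 109) (nat_lit 5) (nat_lit 115) (nat_lit 5) (nat_lit 110) (nat_lit 5) (nat_lit 310) (nat_lit 289) (nat_lit 121)) (XT.lf (nat_lit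 0) (nat_lit 32686776317) (nat_lit 532) (nat_lit 29653054173) (nat_lit 76) (nat_lit 19865220670) (nat_lit 103) (nat_lit 5) (nat_lit 110) (nat_lit 5) (nat_lit 104) (nat_lit 5) (nat_lit 311) (nat_lit 289) (nat_lit 120)))))) (XT.nd (nat_lit 390) (nat_lit 988) (nat_lit 0) (XT.nd (nat_lit 156) (nat_lit 760) (nat_lit 0) (XT.nd (nat_lit 78) (nat_lit 380) (nat_lit 0) (XT.lf (nat_lit 0) (nat_lit 34045549922) (nat_lit 380) (nat_lit 16039985719) (nat_lit 456) (nat_lit 34697183427) (nat_lit 98) (nat_lit 5) (nat_lit 103) (nat_lit 5) (nat_lit 104) (nat_lit 5) (nat_lit 312) (nat_lit 289) (nat_lit 119)) (XT.lf (nat_lit 0) (nat_lit 14024591709) (nat_lit 380) (nat_lit 55084581868) (nat_lit 456) (nat_lit 18357450356) (nat_lit 93) (nat_lit 5) (nat_lit 98) (nat_lit 5) (nat_lit 99) (nat_lit 5) (nat_lit 313) (nat_lit 289) (nat_lit 118))) (XT.nd (nat_lit 78) (nat_lit 760) (nat_lit 0) (XT.lf (nat_lit 0) (nat_lit 82918065508)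 (nat_lit 380) (nat_lit 6847300708) (nat_lit 456) (nat_lit 498918340) (nat_lit 93) (nat_lit 5) (nat_lit 98) (nat_lit 5) (nat_lit 99) (nat_lit 5) (nat_lit 314) (nat_lit 289) (nat_lit 117)) (XT.nd (nat_lit 78) (nat_lit 380) (nat_lit 0) (XT.lf (nat_lit 0) (nat_lit 18930615729) (nat_lit 380) (nat_lit 30498248525) (nat_lit 76) (nat_lit 43736674441) (nat_lit 88) (nat_lit 5) (nat_lit 93) (nat_lit 5) (nat_lit 89) (nat_lit 5) (nat_lit 315) (nat_lit 289) (nat_lit 116)) (XT.lf (nat_lit 0) (nat_lit 39867874885) (nat_lit 456) (nat_lit 55358989364) (nat_lit 76) (nat_lit 968447591) (nat_lit 83) (nat_lit 5) (nat_lit 89) (nat_lit 5) (nat_lit 84) (nat_lit 5) (nat_lit 316) (nat_lit 289) (nat_lit 115))))) (XT.nd (nat_lit 234) (nat_lit 304) (nat_lit 0) (XT.nd (nat_lit 78) (nat_lit 380) (nat_lit 0) (XT.lf (nat_lit 0) (nat_lit 16832804536) (nat_lit 304) (nat_lit 45995851548) (nat_lit 380) (nat_lit 36518619209) (nat_lit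 79) (nat_lit 5) (nat_lit 83) (nat_lit 5) (nat_lit 84) (nat_lit 5) (nat_lit 317) (nat_lit 289) (nat_lit 114)) (XT.nd (nat_lit 78) (nat_lit 380) (nat_lit 0) (XT.lf (nat_lit 0) (nat_lit 87566680140) (nat_lit 380) (nat_lit 8910552550) (nat_lit 76) (nat_lit 6160729472) (nat_lit 79) (nat_lit 5) (nat_lit 84) (nat_lit 5) (nat_lit 80) (nat_lit 5) (nat_lit 318) (nat_lit 289) (nat_lit 113)) (XT.lf (nat_lit 0) (nat_lit 8443245053) (nat_lit 380) (nat_lit 36882645225) (nat_lit 76) (nat_lit 60730941328) (nat_lit 74) (nat_lit 5) (nat_lit 79) (nat_lit 5) (nat_lit 75) (nat_lit 5) (nat_lit 319) (nat_lit 289) (nat_lit 112)))) (XT.nd (nat_lit 35178) (nat_lit 0) (nat_lit 7220) (XT.lf (nat_lit 0) (nat_lit 33410737861) (nat_lit 380) (nat_lit 67336102791) (nat_lit 76) (nat_lit 8877660350) (nat_lit 70) (nat_lit 5) (nat_lit 75) (nat_lit 5) (nat_lit 71) (nat_lit 5) (nat_lit 320) (nat_lit 289) (nat_lit 111)) (XT.nd (nat_lit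 78) (nat_lit 0) (nat_lit 0) (XT.lf (nat_lit 0) (nat_lit 1353675128) (nat_lit 0) (nat_lit 1353675128) (nat_lit 1140) (nat_lit 20819016639) (nat_lit 165) (nat_lit 5) (nat_lit 165) (nat_lit 3) (nat_lit 180) (nat_lit 3) (nat_lit 290) (nat_lit 290) (nat_lit 140)) (XT.lf (nat_lit 0) (nat_lit 5906225598) (nat_lit 1140) (nat_lit 10645188034) (nat_lit 1216) (nat_lit 31666875376) (nat_lit 165) (nat_lit 5) (nat_lit 180) (nat_lit 3) (nat_lit 181) (nat_lit 5) (nat_lit 291) (nat_lit 290) (nat_lit 139))))))))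
noncomputable def xc121 : XT := (XT.nd (nat_lit 1716) (nat_lit 1824) (nat_lit 0) (XT.nd (nat_lit 858) (nat_lit 4484) (nat_lit 0) (XT.nd (nat_lit 390) (nat_lit 684) (nat_lit 0) (XT.nd (nat_lit 156) (nat_lit 0) (nat_lit 76) (XT.nd (nat_lit 78) (nat_lit 0) (nat_lit 76) (XT.lf (nat_lit 0) (nat_lit 6866974663) (nat_lit 1140) (nat_lit 24409172029) (nat_lit 1216) (nat_lit 18152640879) (nat_lit 166) (nat_lit 5) (nat_lit 181) (nat_lit 5) (nat_lit 182) (nat_lit 5) (nat_lit 292) (nat_lit 290) (nat_lit 138)) (XT.lf (nat_lit 0) (nat_lit 8303087054) (nat_lit 1140) (nat_lit 38665406987) (nat_lit 1216) (nat_lit 3718502025) (nat_lit 167) (nat_lit 5) (nat_lit 182) (nat_lit 5) (nat_lit 183) (nat_lit 5) (nat_lit 293) (nat_lit 290) (nat_lit 137))) (XT.nd (nat_lit 78) (nat_lit 0) (nat_lit 76) (XT.lf (nat_lit 0) (nat_lit 10377793791) (nat_lit 1140) (nat_lit 1536447366) (nat_lit 1216) (nat_lit 40076874718) (nat_lit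 167) (nat_lit 5) (nat_lit 182) (nat_lit 5) (nat_lit 183) (nat_lit 5) (nat_lit 294) (nat_lit 290) (nat_lit 136)) (XT.nd (nat_lit 78) (nat_lit 0) (nat_lit 76) (XT.lf (nat_lit 0) (nat_lit 13163773254) (nat_lit 1140) (nat_lit 15399792872) (nat_lit 1216) (nat_lit 24778653764) (nat_lit 168) (nat_lit 5) (nat_lit 183) (nat_lit 5) (nat_lit 184) (nat_lit 5) (nat_lit 295) (nat_lit 290) (nat_lit 135)) (XT.lf (nat_lit 0) (nat_lit 16545885248) (nat_lit 1140) (nat_lit 29798631794) (nat_lit 1216) (nat_lit 8402661184) (nat_lit 169) (nat_lit 5) (nat_lit 184) (nat_lit 5) (nat_lit 185) (nat_lit 5) (nat_lit 296) (nat_lit 290) (nat_lit 134))))) (XT.nd (nat_lit 234) (nat_lit 912) (nat_lit 0) (XT.nd (nat_lit 78) (nat_lit 0) (nat_lit 76) (XT.lf (nat_lit 76) (nat_lit 11348397902) (nat_lit 0) (nat_lit 9303886819) (nat_lit 1216) (nat_lit 35553448234) (nat_lit 170) (nat_lit 5) (nat_lit 169) (nat_lit 5) (nat_lit 185)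 (nat_lit 5) (nat_lit 297) (nat_lit 290) (nat_lit 133)) (XT.nd (nat_lit 78) (nat_lit 0) (nat_lit 76) (XT.lf (nat_lit 0) (nat_lit 25556015332) (nat_lit 1140) (nat_lit 2841686540) (nat_lit 1216) (nat_lit 29321756959) (nat_lit 170) (nat_lit 5) (nat_lit 185) (nat_lit 5) (nat_lit 186) (nat_lit 5) (nat_lit 298) (nat_lit 290) (nat_lit 132)) (XT.lf (nat_lit 0) (nat_lit 31304259590) (nat_lit 1140) (nat_lit 17399036691) (nat_lit 1216) (nat_lit 10587598475) (nat_lit 171) (nat_lit 5) (nat_lit 186) (nat_lit 5) (nat_lit 187) (nat_lit 5) (nat_lit 299) (nat_lit 290) (nat_lit 131)))) (XT.nd (nat_lit 78) (nat_lit 1064) (nat_lit 0) (XT.lf (nat_lit 76) (nat_lit 28244031073) (nat_lit 0) (nat_lit 9681543003) (nat_lit 1216) (nat_lit 22997762055) (nat_lit 172) (nat_lit 5) (nat_lit 171) (nat_lit 5) (nat_lit 187) (nat_lit 5) (nat_lit 300) (nat_lit 290) (nat_lit 130)) (XT.nd (nat_lit 78) (nat_lit 0) (nat_lit 0) (XT.lf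 (nat_lit 0) (nat_lit 13867196540) (nat_lit 1140) (nat_lit 31623805452) (nat_lit 1216) (nat_lit 17128009387) (nat_lit 157) (nat_lit 5) (nat_lit 172) (nat_lit 5) (nat_lit 173) (nat_lit 5) (nat_lit 301) (nat_lit 290) (nat_lit 129)) (XT.lf (nat_lit 0) (nat_lit 53956920819) (nat_lit 1216) (nat_lit 1154780508) (nat_lit 76) (nat_lit 9272105559) (nat_lit 157) (nat_lit 5) (nat_lit 173) (nat_lit 5) (nat_lit 158) (nat_lit 5) (nat_lit 302) (nat_lit 290) (nat_lit 128)))))) (XT.nd (nat_lit 390) (nat_lit 2204) (nat_lit 0) (XT.nd (nat_lit 156) (nat_lit 1064) (nat_lit 0) (XT.nd (nat_lit 78) (nat_lit 684) (nat_lit 0) (XT.lf (nat_lit 0) (nat_lit 49466603715) (nat_lit 532) (nat_lit 14172463863) (nat_lit 608) (nat_lit 2573989566) (nat_lit 150) (nat_lit 5) (nat_lit 157) (nat_lit 5) (nat_lit 158) (nat_lit 5) (nat_lit 303) (nat_lit 290) (nat_lit 127)) (XT.lf (nat_lit 0) (nat_lit 6189935467) (nat_lit 684) (nat_lit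 33263419548) (nat_lit 76) (nat_lit 28659910375) (nat_lit 141) (nat_lit 5) (nat_lit 150) (nat_lit 5) (nat_lit 142) (nat_lit 5) (nat_lit 304) (nat_lit 290) (nat_lit 126))) (XT.nd (nat_lit 78) (nat_lit 532) (nat_lit 0) (XT.lf (nat_lit 0) (nat_lit 15877051149) (nat_lit 608) (nat_lit 50647184415) (nat_lit 76) (nat_lit 3567339663) (nat_lit 134) (nat_lit 5) (nat_lit 142) (nat_lit 5) (nat_lit 135) (nat_lit 5) (nat_lit 305) (nat_lit 290) (nat_lit 125)) (XT.nd (nat_lit 78) (nat_lit 0) (nat_lit 0) (XT.lf (nat_lit 0) (nat_lit 2979111654) (nat_lit 532) (nat_lit 23840490913) (nat_lit 608) (nat_lit 45326068053) (nat_lit 127) (nat_lit 5) (nat_lit 134) (nat_lit 5) (nat_lit 135) (nat_lit 5) (nat_lit 306) (nat_lit 290) (nat_lit 124)) (XT.lf (nat_lit 0) (nat_lit 39035942483) (nat_lit 608) (nat_lit 14150132370) (nat_lit 76) (nat_lit 21094598445) (nat_lit 127) (nat_lit 5) (nat_lit 135) (nat_lit 5) (nat_lit 128)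 (nat_lit 5) (nat_lit 307) (nat_lit 290) (nat_lit 123))))) (XT.nd (nat_lit 234) (nat_lit 836) (nat_lit 0) (XT.nd (nat_lit 78) (nat_lit 912) (nat_lit 0) (XT.lf (nat_lit 0) (nat_lit 44238218210) (nat_lit 456) (nat_lit 8289308897) (nat_lit 532) (nat_lit 23974968404) (nat_lit 121) (nat_lit 5) (nat_lit 127) (nat_lit 5) (nat_lit 128) (nat_lit 5) (nat_lit 308) (nat_lit 290) (nat_lit 122)) (XT.nd (nat_lit 78) (nat_lit 456) (nat_lit 0) (XT.lf (nat_lit 0) (nat_lit 27164286312) (nat_lit 456) (nat_lit 40309710652) (nat_lit 532) (nat_lit 11338004816) (nat_lit 115) (nat_lit 5) (nat_lit 121) (nat_lit 5) (nat_lit 122) (nat_lit 5) (nat_lit 309) (nat_lit 290) (nat_lit 121)) (XT.lf (nat_lit 0) (nat_lit 2462407286) (nat_lit 456) (nat_lit 72203836128) (nat_lit 76) (nat_lit 6553106792) (nat_lit 109) (nat_lit 5) (nat_lit 115) (nat_lit 5) (nat_lit 110) (nat_lit 5) (nat_lit 310) (nat_lit 290) (nat_lit 120)))) (XT.nd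 (nat_lit 78) (nat_lit 836) (nat_lit 0) (XT.lf (nat_lit 0) (nat_lit 17663014513) (nat_lit 456) (nat_lit 10467980478) (nat_lit 76) (nat_lit 55584365353) (nat_lit 109) (nat_lit 5) (nat_lit 115) (nat_lit 5) (nat_lit 110) (nat_lit 5) (nat_lit 311) (nat_lit 290) (nat_lit 119)) (XT.nd (nat_lit 78) (nat_lit 380) (nat_lit 0) (XT.lf (nat_lit 0) (nat_lit 34359837330) (nat_lit 532) (nat_lit 31089799850) (nat_lit 76) (nat_lit 20864450037) (nat_lit 103) (nat_lit 5) (nat_lit 110) (nat_lit 5) (nat_lit 104) (nat_lit 5) (nat_lit 312) (nat_lit 290) (nat_lit 118)) (XT.lf (nat_lit 0) (nat_lit 35792418534) (nat_lit 380) (nat_lit 16834700808) (nat_lit 456) (nat_lit 36393564247) (nat_lit 98) (nat_lit 5) (nat_lit 103) (nat_lit 5) (nat_lit 104) (nat_lit 5) (nat_lit 313) (nat_lit 290) (nat_lit 117))))))) (XT.nd (nat_lit 36036) (nat_lit 0) (nat_lit 5092) (XT.nd (nat_lit 390) (nat_lit 380) (nat_lit 0) (XT.nd (nat_lit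 156) (nat_lit 1064) (nat_lit 0) (XT.nd (nat_lit 78) (nat_lit 0) (nat_lit 0) (XT.lf (nat_lit 0) (nat_lit 14770204056) (nat_lit 380) (nat_lit 57830451919) (nat_lit 456) (nat_lit 19238168706) (nat_lit 93) (nat_lit 5) (nat_lit 98) (nat_lit 5) (nat_lit 99) (nat_lit 5) (nat_lit 314) (nat_lit 290) (nat_lit 116)) (XT.lf (nat_lit 0) (nat_lit 87106238079) (nat_lit 380) (nat_lit 7181704752) (nat_lit 456) (nat_lit 488479335) (nat_lit 93) (nat_lit 5) (nat_lit 98) (nat_lit 5) (nat_lit 99) (nat_lit 5) (nat_lit 315) (nat_lit 290) (nat_lit 115))) (XT.nd (nat_lit 78) (nat_lit 684) (nat_lit 0) (XT.lf (nat_lit 0) (nat_lit 19910670448) (nat_lit 380) (nat_lit 31980420880) (nat_lit 76) (nat_lit 45931674786) (nat_lit 88) (nat_lit 5) (nat_lit 93) (nat_lit 5) (nat_lit 89) (nat_lit 5) (nat_lit 316) (nat_lit 290) (nat_lit 114)) (XT.nd (nat_lit 78) (nat_lit 304) (nat_lit 0) (XT.lf (nat_lit 0) (nat_lit 41893683574) (nat_lit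 456) (nat_lit 58084500707) (nat_lit 76) (nat_lit 1025878989) (nat_lit 83) (nat_lit 5) (nat_lit 89) (nat_lit 5) (nat_lit 84) (nat_lit 5) (nat_lit 317) (nat_lit 290) (nat_lit 113)) (XT.lf (nat_lit 0) (nat_lit 17715666408) (nat_lit 304) (nat_lit 48285690105) (nat_lit 380) (nat_lit 38312304789) (nat_lit 79) (nat_lit 5) (nat_lit 83) (nat_lit 5) (nat_lit 84) (nat_lit 5) (nat_lit 318) (nat_lit 290) (nat_lit 112))))) (XT.nd (nat_lit 35412) (nat_lit 0) (nat_lit 6916) (XT.nd (nat_lit 78) (nat_lit 380) (nat_lit 0) (XT.lf (nat_lit 0) (nat_lit 91974883964) (nat_lit 380) (nat_lit 9315981399) (nat_lit 76) (nat_lit 6478060977) (nat_lit 79) (nat_lit 5) (nat_lit 84) (nat_lit 5) (nat_lit 80) (nat_lit 5) (nat_lit 319) (nat_lit 290) (nat_lit 111)) (XT.nd (nat_lit 35256) (nat_lit 0) (nat_lit 6916) (XT.lf (nat_lit 0) (nat_lit 8894549851) (nat_lit 380) (nat_lit 38687213153) (nat_lit 76) (nat_lit 63777000921) (nat_lit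 74) (nat_lit 5) (nat_lit 79) (nat_lit 5) (nat_lit 75) (nat_lit 5) (nat_lit 320) (nat_lit 290) (nat_lit 110)) (XT.lf (nat_lit 0) (nat_lit 1443851152) (nat_lit 0) (nat_lit 1443851152) (nat_lit 1140) (nat_lit 21813556222) (nat_lit 165) (nat_lit 5) (nat_lit 165) (nat_lit 3) (nat_lit 180) (nat_lit 3) (nat_lit 291) (nat_lit 291) (nat_lit 138)))) (XT.nd (nat_lit 78) (nat_lit 0) (nat_lit 76) (XT.lf (nat_lit 0) (nat_lit 6286809878) (nat_lit 1140) (nat_lit 11131475643) (nat_lit 1216) (nat_lit 33208212741) (nat_lit 165) (nat_lit 5) (nat_lit 180) (nat_lit 3) (nat_lit 181) (nat_lit 5) (nat_lit 292) (nat_lit 291) (nat_lit 137)) (XT.nd (nat_lit 78) (nat_lit 0) (nat_lit 76) (XT.lf (nat_lit 0) (nat_lit 7291609471) (nat_lit 1140) (nat_lit 25582031809) (nat_lit 1216) (nat_lit 19024007081) (nat_lit 166) (nat_lit 5) (nat_lit 181) (nat_lit 5) (nat_lit 182) (nat_lit 5) (nat_lit 293) (nat_lit 291) (nat_lit 136))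 (XT.lf (nat_lit 0) (nat_lit 8795797148) (nat_lit 1140) (nat_lit 40549669791) (nat_lit 1216) (nat_lit 3873418919) (nat_lit 167) (nat_lit 5) (nat_lit 182) (nat_lit 5) (nat_lit 183) (nat_lit 5) (nat_lit 294) (nat_lit 291) (nat_lit 135)))))) (XT.nd (nat_lit 390) (nat_lit 1976) (nat_lit 0) (XT.nd (nat_lit 156) (nat_lit 0) (nat_lit 152) (XT.nd (nat_lit 78) (nat_lit 0) (nat_lit 76) (XT.lf (nat_lit 0) (nat_lit 10970546092) (nat_lit 1140) (nat_lit 1566595882) (nat_lit 1216) (nat_lit 42051186827) (nat_lit 167) (nat_lit 5) (nat_lit 182) (nat_lit 5) (nat_lit 183) (nat_lit 5) (nat_lit 295) (nat_lit 291) (nat_lit 134)) (XT.lf (nat_lit 0) (nat_lit 13892498462) (nat_lit 1140) (nat_lit 16121957588) (nat_lit 1216) (nat_lit 25992637795) (nat_lit 168) (nat_lit 5) (nat_lit 183) (nat_lit 5) (nat_lit 184) (nat_lit 5) (nat_lit 296) (nat_lit 291) (nat_lit 133))) (XT.nd (nat_lit 78) (nat_lit 0) (nat_lit 0) (XT.lf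 (nat_lit 0) (nat_lit 17440600217) (nat_lit 1140) (nat_lit 31239761939) (nat_lit 1216) (nat_lit 8802037177) (nat_lit 169) (nat_lit 5) (nat_lit 184) (nat_lit 5) (nat_lit 185) (nat_lit 5) (nat_lit 297) (nat_lit 291) (nat_lit 132)) (XT.nd (nat_lit 78) (nat_lit 0) (nat_lit 76) (XT.lf (nat_lit 76) (nat_lit 11963220359) (nat_lit 0) (nat_lit 9786344458) (nat_lit 1216) (nat_lit 37264405112) (nat_lit 170) (nat_lit 5) (nat_lit 169) (nat_lit 5) (nat_lit 185) (nat_lit 5) (nat_lit 298) (nat_lit 291) (nat_lit 131)) (XT.lf (nat_lit 0) (nat_lit 26895244588) (nat_lit 1140) (nat_lit 2936515457) (nat_lit 1216) (nat_lit 30771724399) (nat_lit 170) (nat_lit 5) (nat_lit 185) (nat_lit 5) (nat_lit 186) (nat_lit 5) (nat_lit 299) (nat_lit 291) (nat_lit 130))))) (XT.nd (nat_lit 234) (nat_lit 1216) (nat_lit 0) (XT.nd (nat_lit 78) (nat_lit 1064) (nat_lit 0) (XT.lf (nat_lit 0) (nat_lit 32928291735) (nat_lit 1140) (nat_lit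 18221094461) (nat_lit 1216) (nat_lit 11104189222) (nat_lit 171) (nat_lit 5) (nat_lit 186) (nat_lit 5) (nat_lit 187) (nat_lit 5) (nat_lit 300) (nat_lit 291) (nat_lit 129)) (XT.nd (nat_lit 78) (nat_lit 1064) (nat_lit 0) (XT.lf (nat_lit 76) (nat_lit 29702753817) (nat_lit 0) (nat_lit 10175564406) (nat_lit 1216) (nat_lit 24089395990) (nat_lit 172) (nat_lit 5) (nat_lit 171) (nat_lit 5) (nat_lit 187) (nat_lit 5) (nat_lit 301) (nat_lit 291) (nat_lit 128)) (XT.lf (nat_lit 0) (nat_lit 14607574339) (nat_lit 1140) (nat_lit 33212115294) (nat_lit 1216) (nat_lit 17928557941) (nat_lit 157) (nat_lit 5) (nat_lit 172) (nat_lit 5) (nat_lit 173) (nat_lit 5) (nat_lit 302) (nat_lit 291) (nat_lit 127)))) (XT.nd (nat_lit 78) (nat_lit 1216) (nat_lit 0) (XT.lf (nat_lit 0) (nat_lit 56706261243) (nat_lit 1216) (nat_lit 1166042596) (nat_lit 76) (nat_lit 9729062609) (nat_lit 157) (nat_lit 5) (nat_lit 173) (nat_lit 5) (nat_lit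 158) (nat_lit 5) (nat_lit 303) (nat_lit 291) (nat_lit 126)) (XT.nd (nat_lit 78) (nat_lit 684) (nat_lit 0) (XT.lf (nat_lit 0) (nat_lit 51985078586) (nat_lit 532) (nat_lit 14885418599) (nat_lit 608) (nat_lit 2651646670) (nat_lit 150) (nat_lit 5) (nat_lit 157) (nat_lit 5) (nat_lit 158) (nat_lit 5) (nat_lit 304) (nat_lit 291) (nat_lit 125)) (XT.lf (nat_lit 0) (nat_lit 6547496239) (nat_lit 684) (nat_lit 34880145949) (nat_lit 76) (nat_lit 30089768861) (nat_lit 141) (nat_lit 5) (nat_lit 150) (nat_lit 5) (nat_lit 142) (nat_lit 5) (nat_lit 305) (nat_lit 291) (nat_lit 124))))))))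
noncomputable def xc122 : XT := (XT.nd (nat_lit 37050) (nat_lit 0) (nat_lit 304) (XT.nd (nat_lit 858) (nat_lit 1064) (nat_lit 0) (XT.nd (nat_lit 390) (nat_lit 1672) (nat_lit 0) (XT.nd (nat_lit 156) (nat_lit 912) (nat_lit 0) (XT.nd (nat_lit 78) (nat_lit 532) (nat_lit 0) (XT.lf (nat_lit 0) (nat_lit 16717102068) (nat_lit 608) (nat_lit 53132961500) (nat_lit 76) (nat_lit 3744632385) (nat_lit 134) (nat_lit 5) (nat_lit 142) (nat_lit 5) (nat_lit 135) (nat_lit 5) (nat_lit 306) (nat_lit 291) (nat_lit 123)) (XT.lf (nat_lit 0) (nat_lit 3173314105) (nat_lit 532) (nat_lit 25031701970) (nat_lit 608) (nat_lit 47546536421) (nat_lit 127) (nat_lit 5) (nat_lit 134) (nat_lit 5) (nat_lit 135) (nat_lit 5) (nat_lit 307) (nat_lit 291) (nat_lit 122))) (XT.nd (nat_lit 78) (nat_lit 912) (nat_lit 0) (XT.lf (nat_lit 0) (nat_lit 41030064560) (nat_lit 608) (nat_lit 14813219271) (nat_lit 76) (nat_lit 22150088000) (nat_lit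 127) (nat_lit 5) (nat_lit 135) (nat_lit 5) (nat_lit 128) (nat_lit 5) (nat_lit 308) (nat_lit 291) (nat_lit 121)) (XT.nd (nat_lit 78) (nat_lit 456) (nat_lit 0) (XT.lf (nat_lit 0) (nat_lit 46493275555) (nat_lit 456) (nat_lit 8701352136) (nat_lit 532) (nat_lit 25131708599) (nat_lit 121) (nat_lit 5) (nat_lit 127) (nat_lit 5) (nat_lit 128) (nat_lit 5) (nat_lit 309) (nat_lit 291) (nat_lit 120)) (XT.lf (nat_lit 0) (nat_lit 28565634854) (nat_lit 456) (nat_lit 42321283746) (nat_lit 532) (nat_lit 11864447311) (nat_lit 115) (nat_lit 5) (nat_lit 121) (nat_lit 5) (nat_lit 122) (nat_lit 5) (nat_lit 310) (nat_lit 291) (nat_lit 119))))) (XT.nd (nat_lit 234) (nat_lit 760) (nat_lit 0) (XT.nd (nat_lit 78) (nat_lit 456) (nat_lit 0) (XT.lf (nat_lit 0) (nat_lit 2623761161) (nat_lit 456) (nat_lit 75770150386) (nat_lit 76) (nat_lit 6885204328) (nat_lit 109) (nat_lit 5) (nat_lit 115) (nat_lit 5) (nat_lit 110) (nat_lit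 5) (nat_lit 311) (nat_lit 291) (nat_lit 118)) (XT.nd (nat_lit 78) (nat_lit 456) (nat_lit 0) (XT.lf (nat_lit 0) (nat_lit 18582578107) (nat_lit 456) (nat_lit 10949591360) (nat_lit 76) (nat_lit 58367814285) (nat_lit 109) (nat_lit 5) (nat_lit 115) (nat_lit 5) (nat_lit 110) (nat_lit 5) (nat_lit 312) (nat_lit 291) (nat_lit 117)) (XT.lf (nat_lit 0) (nat_lit 36112951369) (nat_lit 532) (nat_lit 32602650811) (nat_lit 76) (nat_lit 21913085994) (nat_lit 103) (nat_lit 5) (nat_lit 110) (nat_lit 5) (nat_lit 104) (nat_lit 5) (nat_lit 313) (nat_lit 291) (nat_lit 116)))) (XT.nd (nat_lit 78) (nat_lit 380) (nat_lit 0) (XT.lf (nat_lit 0) (nat_lit 37622484918) (nat_lit 380) (nat_lit 17669828867) (nat_lit 456) (nat_lit 38178341460) (nat_lit 98) (nat_lit 5) (nat_lit 103) (nat_lit 5) (nat_lit 104) (nat_lit 5) (nat_lit 314) (nat_lit 291) (nat_lit 115)) (XT.nd (nat_lit 78) (nat_lit 0) (nat_lit 0) (XT.lf (nat_lit 0)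 (nat_lit 15548970731) (nat_lit 380) (nat_lit 60714392618) (nat_lit 456) (nat_lit 20166377215) (nat_lit 93) (nat_lit 5) (nat_lit 98) (nat_lit 5) (nat_lit 99) (nat_lit 5) (nat_lit 315) (nat_lit 291) (nat_lit 114)) (XT.lf (nat_lit 0) (nat_lit 91499889481) (nat_lit 380) (nat_lit 7533569135) (nat_lit 456) (nat_lit 480808134) (nat_lit 93) (nat_lit 5) (nat_lit 98) (nat_lit 5) (nat_lit 99) (nat_lit 5) (nat_lit 316) (nat_lit 291) (nat_lit 113)))))) (XT.nd (nat_lit 35724) (nat_lit 0) (nat_lit 6612) (XT.nd (nat_lit 156) (nat_lit 304) (nat_lit 0) (XT.nd (nat_lit 78) (nat_lit 380) (nat_lit 0) (XT.lf (nat_lit 0) (nat_lit 20936611165) (nat_lit 380) (nat_lit 33540675418) (nat_lit 76) (nat_lit 48235665892) (nat_lit 88) (nat_lit 5) (nat_lit 93) (nat_lit 5) (nat_lit 89) (nat_lit 5) (nat_lit 317) (nat_lit 291) (nat_lit 112)) (XT.lf (nat_lit 0) (nat_lit 44017769063) (nat_lit 456) (nat_lit 60950233112) (nat_lit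 76) (nat_lit 1085344383) (nat_lit 83) (nat_lit 5) (nat_lit 89) (nat_lit 5) (nat_lit 84) (nat_lit 5) (nat_lit 318) (nat_lit 291) (nat_lit 111))) (XT.nd (nat_lit 35412) (nat_lit 0) (nat_lit 6536) (XT.lf (nat_lit 0) (nat_lit 18638838975) (nat_lit 304) (nat_lit 50690946019) (nat_lit 380) (nat_lit 40198672519) (nat_lit 79) (nat_lit 5) (nat_lit 83) (nat_lit 5) (nat_lit 84) (nat_lit 5) (nat_lit 319) (nat_lit 291) (nat_lit 110)) (XT.nd (nat_lit 78) (nat_lit 0) (nat_lit 0) (XT.lf (nat_lit 0) (nat_lit 1536444859) (nat_lit 0) (nat_lit 1536444859) (nat_lit 1140) (nat_lit 22862137662) (nat_lit 165) (nat_lit 5) (nat_lit 165) (nat_lit 3) (nat_lit 180) (nat_lit 3) (nat_lit 292) (nat_lit 292) (nat_lit 136)) (XT.lf (nat_lit 0) (nat_lit 6678495497) (nat_lit 1140) (nat_lit 11646351654) (nat_lit 1216) (nat_lit 34830522331) (nat_lit 165) (nat_lit 5) (nat_lit 180) (nat_lit 3) (nat_lit 181) (nat_lit 5) (nat_lit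 293) (nat_lit 292) (nat_lit 135))))) (XT.nd (nat_lit 234) (nat_lit 0) (nat_lit 152) (XT.nd (nat_lit 78) (nat_lit 0) (nat_lit 76) (XT.lf (nat_lit 0) (nat_lit 7729918811) (nat_lit 1140) (nat_lit 26817959864) (nat_lit 1216) (nat_lit 19942313248) (nat_lit 166) (nat_lit 5) (nat_lit 181) (nat_lit 5) (nat_lit 182) (nat_lit 5) (nat_lit 294) (nat_lit 292) (nat_lit 134)) (XT.nd (nat_lit 78) (nat_lit 0) (nat_lit 0) (XT.lf (nat_lit 0) (nat_lit 9305932348) (nat_lit 1140) (nat_lit 42532701993) (nat_lit 1216) (nat_lit 4038964507) (nat_lit 167) (nat_lit 5) (nat_lit 182) (nat_lit 5) (nat_lit 183) (nat_lit 5) (nat_lit 295) (nat_lit 292) (nat_lit 133)) (XT.lf (nat_lit 0) (nat_lit 11586068961) (nat_lit 1140) (nat_lit 1602591116) (nat_lit 1216) (nat_lit 44126960113) (nat_lit 167) (nat_lit 5) (nat_lit 182) (nat_lit 5) (nat_lit 183) (nat_lit 5) (nat_lit 296) (nat_lit 292) (nat_lit 132)))) (XT.nd (nat_lit 78) (nat_lit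 0) (nat_lit 76) (XT.lf (nat_lit 0) (nat_lit 14651102111) (nat_lit 1140) (nat_lit 16884676849) (nat_lit 1216) (nat_lit 27269640517) (nat_lit 168) (nat_lit 5) (nat_lit 183) (nat_lit 5) (nat_lit 184) (nat_lit 5) (nat_lit 297) (nat_lit 292) (nat_lit 131)) (XT.nd (nat_lit 78) (nat_lit 0) (nat_lit 0) (XT.lf (nat_lit 0) (nat_lit 18373782796) (nat_lit 1140) (nat_lit 32757485686) (nat_lit 1216) (nat_lit 9223311766) (nat_lit 169) (nat_lit 5) (nat_lit 184) (nat_lit 5) (nat_lit 185) (nat_lit 5) (nat_lit 298) (nat_lit 292) (nat_lit 130)) (XT.lf (nat_lit 76) (nat_lit 12604376898) (nat_lit 0) (nat_lit 10291320000) (nat_lit 1216) (nat_lit 39067112413) (nat_lit 170) (nat_lit 5) (nat_lit 169) (nat_lit 5) (nat_lit 185) (nat_lit 5) (nat_lit 299) (nat_lit 292) (nat_lit 129))))))) (XT.nd (nat_lit 858) (nat_lit 2888) (nat_lit 0) (XT.nd (nat_lit 390) (nat_lit 2736) (nat_lit 0) (XT.nd (nat_lit 156) (nat_lit 988)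 (nat_lit 0) (XT.nd (nat_lit 78) (nat_lit 0) (nat_lit 76) (XT.lf (nat_lit 0) (nat_lit 28295724268) (nat_lit 1140) (nat_lit 3040479179) (nat_lit 1216) (nat_lit 32295688934) (nat_lit 170) (nat_lit 5) (nat_lit 185) (nat_lit 5) (nat_lit 186) (nat_lit 5) (nat_lit 300) (nat_lit 292) (nat_lit 128)) (XT.lf (nat_lit 0) (nat_lit 34628057040) (nat_lit 1140) (nat_lit 19088707856) (nat_lit 1216) (nat_lit 11647798523) (nat_lit 171) (nat_lit 5) (nat_lit 186) (nat_lit 5) (nat_lit 187) (nat_lit 5) (nat_lit 301) (nat_lit 292) (nat_lit 127))) (XT.nd (nat_lit 78) (nat_lit 1064) (nat_lit 0) (XT.lf (nat_lit 76) (nat_lit 31230087599) (nat_lit 0) (nat_lit 10693362357) (nat_lit 1216) (nat_lit 25241027541) (nat_lit 172) (nat_lit 5) (nat_lit 171) (nat_lit 5) (nat_lit 187) (nat_lit 5) (nat_lit 302) (nat_lit 292) (nat_lit 126)) (XT.nd (nat_lit 78) (nat_lit 0) (nat_lit 0) (XT.lf (nat_lit 0) (nat_lit 15380599742) (nat_lit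 1140) (nat_lit 34879178717) (nat_lit 1216) (nat_lit 18774326504) (nat_lit 157) (nat_lit 5) (nat_lit 172) (nat_lit 5) (nat_lit 173) (nat_lit 5) (nat_lit 303) (nat_lit 292) (nat_lit 125)) (XT.lf (nat_lit 0) (nat_lit 59588281229) (nat_lit 1216) (nat_lit 1182188773) (nat_lit 76) (nat_lit 10209485600) (nat_lit 157) (nat_lit 5) (nat_lit 173) (nat_lit 5) (nat_lit 158) (nat_lit 5) (nat_lit 304) (nat_lit 292) (nat_lit 124))))) (XT.nd (nat_lit 234) (nat_lit 988) (nat_lit 0) (XT.nd (nat_lit 78) (nat_lit 1216) (nat_lit 0) (XT.lf (nat_lit 0) (nat_lit 54625280076) (nat_lit 532) (nat_lit 15633618365) (nat_lit 608) (nat_lit 2737932066) (nat_lit 150) (nat_lit 5) (nat_lit 157) (nat_lit 5) (nat_lit 158) (nat_lit 5) (nat_lit 305) (nat_lit 292) (nat_lit 123)) (XT.nd (nat_lit 78) (nat_lit 532) (nat_lit 0) (XT.lf (nat_lit 0) (nat_lit 6918466515) (nat_lit 684) (nat_lit 36582026647) (nat_lit 76) (nat_lit 31591411922)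 (nat_lit 141) (nat_lit 5) (nat_lit 150) (nat_lit 5) (nat_lit 142) (nat_lit 5) (nat_lit 306) (nat_lit 292) (nat_lit 122)) (XT.lf (nat_lit 0) (nat_lit 17594860447) (nat_lit 608) (nat_lit 55747358204) (nat_lit 76) (nat_lit 3930889617) (nat_lit 134) (nat_lit 5) (nat_lit 142) (nat_lit 5) (nat_lit 135) (nat_lit 5) (nat_lit 307) (nat_lit 292) (nat_lit 121)))) (XT.nd (nat_lit 78) (nat_lit 456) (nat_lit 0) (XT.lf (nat_lit 0) (nat_lit 3373020054) (nat_lit 532) (nat_lit 26282549211) (nat_lit 608) (nat_lit 49882289515) (nat_lit 127) (nat_lit 5) (nat_lit 134) (nat_lit 5) (nat_lit 135) (nat_lit 5) (nat_lit 308) (nat_lit 292) (nat_lit 120)) (XT.nd (nat_lit 78) (nat_lit 456) (nat_lit 0) (XT.lf (nat_lit 0) (nat_lit 43119957767) (nat_lit 608) (nat_lit 15513590242) (nat_lit 76) (nat_lit 23258281409) (nat_lit 127) (nat_lit 5) (nat_lit 135) (nat_lit 5) (nat_lit 128) (nat_lit 5) (nat_lit 309) (nat_lit 292) (nat_lit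 119)) (XT.lf (nat_lit 0) (nat_lit 48857074421) (nat_lit 456) (nat_lit 9134222730) (nat_lit 532) (nat_lit 26350191330) (nat_lit 121) (nat_lit 5) (nat_lit 127) (nat_lit 5) (nat_lit 128) (nat_lit 5) (nat_lit 310) (nat_lit 292) (nat_lit 118)))))) (XT.nd (nat_lit 390) (nat_lit 1140) (nat_lit 0) (XT.nd (nat_lit 156) (nat_lit 836) (nat_lit 0) (XT.nd (nat_lit 78) (nat_lit 456) (nat_lit 0) (XT.lf (nat_lit 0) (nat_lit 30033040612) (nat_lit 456) (nat_lit 44433799235) (nat_lit 532) (nat_lit 12420973309) (nat_lit 115) (nat_lit 5) (nat_lit 121) (nat_lit 5) (nat_lit 122) (nat_lit 5) (nat_lit 311) (nat_lit 292) (nat_lit 117)) (XT.lf (nat_lit 0) (nat_lit 2789628141) (nat_lit 456) (nat_lit 79518859674) (nat_lit 76) (nat_lit 7233493749) (nat_lit 109) (nat_lit 5) (nat_lit 115) (nat_lit 5) (nat_lit 110) (nat_lit 5) (nat_lit 312) (nat_lit 292) (nat_lit 116))) (XT.nd (nat_lit 78) (nat_lit 836) (nat_lit 0) (XT.lf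 (nat_lit 0) (nat_lit 19544734556) (nat_lit 456) (nat_lit 11459167851) (nat_lit 76) (nat_lit 61290042336) (nat_lit 109) (nat_lit 5) (nat_lit 115) (nat_lit 5) (nat_lit 110) (nat_lit 5) (nat_lit 313) (nat_lit 292) (nat_lit 115)) (XT.nd (nat_lit 78) (nat_lit 380) (nat_lit 0) (XT.lf (nat_lit 0) (nat_lit 37950455784) (nat_lit 532) (nat_lit 34195015523) (nat_lit 76) (nat_lit 23013650457) (nat_lit 103) (nat_lit 5) (nat_lit 110) (nat_lit 5) (nat_lit 104) (nat_lit 5) (nat_lit 314) (nat_lit 292) (nat_lit 114)) (XT.lf (nat_lit 0) (nat_lit 39540294385) (nat_lit 380) (nat_lit 18547327584) (nat_lit 456) (nat_lit 40055602298) (nat_lit 98) (nat_lit 5) (nat_lit 103) (nat_lit 5) (nat_lit 104) (nat_lit 5) (nat_lit 315) (nat_lit 292) (nat_lit 113))))) (XT.nd (nat_lit 234) (nat_lit 380) (nat_lit 0) (XT.nd (nat_lit 78) (nat_lit 380) (nat_lit 0) (XT.lf (nat_lit 0) (nat_lit 16362933075) (nat_lit 380) (nat_lit 63743235245)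 (nat_lit 456) (nat_lit 21144129249) (nat_lit 93) (nat_lit 5) (nat_lit 98) (nat_lit 5) (nat_lit 99) (nat_lit 5) (nat_lit 316) (nat_lit 292) (nat_lit 112)) (XT.nd (nat_lit 78) (nat_lit 380) (nat_lit 0) (XT.lf (nat_lit 0) (nat_lit 96109659010) (nat_lit 380) (nat_lit 7903698064) (nat_lit 456) (nat_lit 475737277) (nat_lit 93) (nat_lit 5) (nat_lit 98) (nat_lit 5) (nat_lit 99) (nat_lit 5) (nat_lit 317) (nat_lit 292) (nat_lit 111)) (XT.lf (nat_lit 0) (nat_lit 22011021945) (nat_lit 380) (nat_lit 35182546826) (nat_lit 76) (nat_lit 50654167887) (nat_lit 88) (nat_lit 5) (nat_lit 93) (nat_lit 5) (nat_lit 89) (nat_lit 5) (nat_lit 318) (nat_lit 292) (nat_lit 110)))) (XT.nd (nat_lit 35490) (nat_lit 0) (nat_lit 6232) (XT.lf (nat_lit 0) (nat_lit 46245325372) (nat_lit 456) (nat_lit 63962830817) (nat_lit 76) (nat_lit 1147023344) (nat_lit 83) (nat_lit 5) (nat_lit 89) (nat_lit 5) (nat_lit 84) (nat_lit 5) (nat_lit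 319) (nat_lit 292) (nat_lit 109)) (XT.nd (nat_lit 78) (nat_lit 0) (nat_lit 0) (XT.lf (nat_lit 0) (nat_lit 1631771546) (nat_lit 0) (nat_lit 1631771546) (nat_lit 1140) (nat_lit 23967061896) (nat_lit 165) (nat_lit 5) (nat_lit 165) (nat_lit 3) (nat_lit 180) (nat_lit 3) (nat_lit 293) (nat_lit 293) (nat_lit 134)) (XT.lf (nat_lit 0) (nat_lit 7082574580) (nat_lit 1140) (nat_lit 12190848130) (nat_lit 1216) (nat_lit 36537489675) (nat_lit 165) (nat_lit 5) (nat_lit 180) (nat_lit 3) (nat_lit 181) (nat_lit 5) (nat_lit 294) (nat_lit 293) (nat_lit 133))))))))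
noncomputable def xc123 : XT := (XT.nd (nat_lit 1716) (nat_lit 380) (nat_lit 0) (XT.nd (nat_lit 858) (nat_lit 4484) (nat_lit 0) (XT.nd (nat_lit 390) (nat_lit 684) (nat_lit 0) (XT.nd (nat_lit 156) (nat_lit 0) (nat_lit 76) (XT.nd (nat_lit 78) (nat_lit 0) (nat_lit 76) (XT.lf (nat_lit 0) (nat_lit 8183289007) (nat_lit 1140) (nat_lit 28119698188) (nat_lit 1216) (nat_lit 20909592914) (nat_lit 166) (nat_lit 5) (nat_lit 181) (nat_lit 5) (nat_lit 182) (nat_lit 5) (nat_lit 295) (nat_lit 293) (nat_lit 132)) (XT.lf (nat_lit 0) (nat_lit 9835034266) (nat_lit 1140) (nat_lit 44619018464) (nat_lit 1216) (nat_lit 4215402203) (nat_lit 167) (nat_lit 5) (nat_lit 182) (nat_lit 5) (nat_lit 183) (nat_lit 5) (nat_lit 296) (nat_lit 293) (nat_lit 131))) (XT.nd (nat_lit 78) (nat_lit 0) (nat_lit 76) (XT.lf (nat_lit 0) (nat_lit 12226139362) (nat_lit 1140) (nat_lit 1644321978) (nat_lit 1216) (nat_lit 46309012377) (nat_lit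 167) (nat_lit 5) (nat_lit 182) (nat_lit 5) (nat_lit 183) (nat_lit 5) (nat_lit 297) (nat_lit 293) (nat_lit 130)) (XT.nd (nat_lit 78) (nat_lit 0) (nat_lit 76) (XT.lf (nat_lit 0) (nat_lit 15441687808) (nat_lit 1140) (nat_lit 17689565005) (nat_lit 1216) (nat_lit 28612597221) (nat_lit 168) (nat_lit 5) (nat_lit 183) (nat_lit 5) (nat_lit 184) (nat_lit 5) (nat_lit 298) (nat_lit 293) (nat_lit 129)) (XT.lf (nat_lit 0) (nat_lit 19347939118) (nat_lit 1140) (nat_lit 34355210901) (nat_lit 1216) (nat_lit 9667400465) (nat_lit 169) (nat_lit 5) (nat_lit 184) (nat_lit 5) (nat_lit 185) (nat_lit 5) (nat_lit 299) (nat_lit 293) (nat_lit 128))))) (XT.nd (nat_lit 234) (nat_lit 912) (nat_lit 0) (XT.nd (nat_lit 78) (nat_lit 0) (nat_lit 76) (XT.lf (nat_lit 76) (nat_lit 13273593948) (nat_lit 0) (nat_lit 10820088558) (nat_lit 1216) (nat_lit 40965580999) (nat_lit 170) (nat_lit 5) (nat_lit 169) (nat_lit 5) (nat_lit 185)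 (nat_lit 5) (nat_lit 300) (nat_lit 293) (nat_lit 127)) (XT.nd (nat_lit 78) (nat_lit 0) (nat_lit 76) (XT.lf (nat_lit 0) (nat_lit 29761047852) (nat_lit 1140) (nat_lit 3153625995) (nat_lit 1216) (nat_lit 33897211081) (nat_lit 170) (nat_lit 5) (nat_lit 185) (nat_lit 5) (nat_lit 186) (nat_lit 5) (nat_lit 301) (nat_lit 293) (nat_lit 126)) (XT.lf (nat_lit 0) (nat_lit 36407850565) (nat_lit 1140) (nat_lit 20003740684) (nat_lit 1216) (nat_lit 12219666762) (nat_lit 171) (nat_lit 5) (nat_lit 186) (nat_lit 5) (nat_lit 187) (nat_lit 5) (nat_lit 302) (nat_lit 293) (nat_lit 125)))) (XT.nd (nat_lit 78) (nat_lit 1064) (nat_lit 0) (XT.lf (nat_lit 76) (nat_lit 32829865077) (nat_lit 0) (nat_lit 11236211637) (nat_lit 1216) (nat_lit 26455153070) (nat_lit 172) (nat_lit 5) (nat_lit 171) (nat_lit 5) (nat_lit 187) (nat_lit 5) (nat_lit 303) (nat_lit 293) (nat_lit 124)) (XT.nd (nat_lit 78) (nat_lit 0) (nat_lit 0) (XT.lf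 (nat_lit 0) (nat_lit 16188311531) (nat_lit 1140) (nat_lit 36628994940) (nat_lit 1216) (nat_lit 19667093320) (nat_lit 157) (nat_lit 5) (nat_lit 172) (nat_lit 5) (nat_lit 173) (nat_lit 5) (nat_lit 304) (nat_lit 293) (nat_lit 123)) (XT.lf (nat_lit 0) (nat_lit 62610059847) (nat_lit 1216) (nat_lit 1203061520) (nat_lit 76) (nat_lit 10714490365) (nat_lit 157) (nat_lit 5) (nat_lit 173) (nat_lit 5) (nat_lit 158) (nat_lit 5) (nat_lit 305) (nat_lit 293) (nat_lit 122)))))) (XT.nd (nat_lit 390) (nat_lit 2204) (nat_lit 0) (XT.nd (nat_lit 156) (nat_lit 1064) (nat_lit 0) (XT.nd (nat_lit 78) (nat_lit 684) (nat_lit 0) (XT.lf (nat_lit 0) (nat_lit 57393684724) (nat_lit 532) (nat_lit 16418862854) (nat_lit 608) (nat_lit 2832835983) (nat_lit 150) (nat_lit 5) (nat_lit 157) (nat_lit 5) (nat_lit 158) (nat_lit 5) (nat_lit 306) (nat_lit 293) (nat_lit 121)) (XT.lf (nat_lit 0) (nat_lit 7303932212) (nat_lit 684) (nat_lit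 38372917912) (nat_lit 76) (nat_lit 33168401674) (nat_lit 141) (nat_lit 5) (nat_lit 150) (nat_lit 5) (nat_lit 142) (nat_lit 5) (nat_lit 307) (nat_lit 293) (nat_lit 120))) (XT.nd (nat_lit 78) (nat_lit 532) (nat_lit 0) (XT.lf (nat_lit 0) (nat_lit 18512610976) (nat_lit 608) (nat_lit 58496402876) (nat_lit 76) (nat_lit 4126550299) (nat_lit 134) (nat_lit 5) (nat_lit 142) (nat_lit 5) (nat_lit 135) (nat_lit 5) (nat_lit 308) (nat_lit 293) (nat_lit 119)) (XT.nd (nat_lit 78) (nat_lit 0) (nat_lit 0) (XT.lf (nat_lit 0) (nat_lit 3578895767) (nat_lit 532) (nat_lit 27596007412) (nat_lit 608) (nat_lit 52338695395) (nat_lit 127) (nat_lit 5) (nat_lit 134) (nat_lit 5) (nat_lit 135) (nat_lit 5) (nat_lit 309) (nat_lit 293) (nat_lit 118)) (XT.lf (nat_lit 0) (nat_lit 45310776498) (nat_lit 608) (nat_lit 16252725543) (nat_lit 76) (nat_lit 24421820431) (nat_lit 127) (nat_lit 5) (nat_lit 135) (nat_lit 5) (nat_lit 128)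 (nat_lit 5) (nat_lit 310) (nat_lit 293) (nat_lit 117))))) (XT.nd (nat_lit 234) (nat_lit 836) (nat_lit 0) (XT.nd (nat_lit 78) (nat_lit 912) (nat_lit 0) (XT.lf (nat_lit 0) (nat_lit 51335424821) (nat_lit 456) (nat_lit 9588941111) (nat_lit 532) (nat_lit 27633140626) (nat_lit 121) (nat_lit 5) (nat_lit 127) (nat_lit 5) (nat_lit 128) (nat_lit 5) (nat_lit 311) (nat_lit 293) (nat_lit 116)) (XT.nd (nat_lit 78) (nat_lit 456) (nat_lit 0) (XT.lf (nat_lit 0) (nat_lit 31570179277) (nat_lit 456) (nat_lit 46652270423) (nat_lit 532) (nat_lit 13008737287) (nat_lit 115) (nat_lit 5) (nat_lit 121) (nat_lit 5) (nat_lit 122) (nat_lit 5) (nat_lit 312) (nat_lit 293) (nat_lit 115)) (XT.lf (nat_lit 0) (nat_lit 2960564352) (nat_lit 456) (nat_lit 83458704489) (nat_lit 76) (nat_lit 7598823043) (nat_lit 109) (nat_lit 5) (nat_lit 115) (nat_lit 5) (nat_lit 110) (nat_lit 5) (nat_lit 313) (nat_lit 293) (nat_lit 114)))) (XT.nd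 (nat_lit 78) (nat_lit 836) (nat_lit 0) (XT.lf (nat_lit 0) (nat_lit 20551928241) (nat_lit 456) (nat_lit 11997747035) (nat_lit 76) (nat_lit 64358025031) (nat_lit 109) (nat_lit 5) (nat_lit 115) (nat_lit 5) (nat_lit 110) (nat_lit 5) (nat_lit 314) (nat_lit 293) (nat_lit 113)) (XT.nd (nat_lit 78) (nat_lit 380) (nat_lit 0) (XT.lf (nat_lit 0) (nat_lit 39876873673) (nat_lit 532) (nat_lit 35870509765) (nat_lit 76) (nat_lit 24168786643) (nat_lit 103) (nat_lit 5) (nat_lit 110) (nat_lit 5) (nat_lit 104) (nat_lit 5) (nat_lit 315) (nat_lit 293) (nat_lit 112)) (XT.lf (nat_lit 0) (nat_lit 41550583682) (nat_lit 380) (nat_lit 19469258383) (nat_lit 456) (nat_lit 42029669275) (nat_lit 98) (nat_lit 5) (nat_lit 103) (nat_lit 5) (nat_lit 104) (nat_lit 5) (nat_lit 316) (nat_lit 293) (nat_lit 111))))))) (XT.nd (nat_lit 36426) (nat_lit 0) (nat_lit 1216) (XT.nd (nat_lit 35958) (nat_lit 0) (nat_lit 5624) (XT.nd (nat_lit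 35724) (nat_lit 0) (nat_lit 5472) (XT.nd (nat_lit 78) (nat_lit 0) (nat_lit 0) (XT.lf (nat_lit 0) (nat_lit 17214198828) (nat_lit 380) (nat_lit 66924159361) (nat_lit 456) (nat_lit 22173610699) (nat_lit 93) (nat_lit 5) (nat_lit 98) (nat_lit 5) (nat_lit 99) (nat_lit 5) (nat_lit 317) (nat_lit 293) (nat_lit 110)) (XT.lf (nat_lit 0) (nat_lit 100946683960) (nat_lit 380) (nat_lit 8292942352) (nat_lit 456) (nat_lit 473119367) (nat_lit 93) (nat_lit 5) (nat_lit 98) (nat_lit 5) (nat_lit 99) (nat_lit 5) (nat_lit 318) (nat_lit 293) (nat_lit 109))) (XT.nd (nat_lit 78) (nat_lit 0) (nat_lit 0) (XT.lf (nat_lit 0) (nat_lit 1730144199) (nat_lit 0) (nat_lit 1730144199) (nat_lit 1140) (nat_lit 25130782203) (nat_lit 165) (nat_lit 5) (nat_lit 165) (nat_lit 3) (nat_lit 180) (nat_lit 3) (nat_lit 294) (nat_lit 294) (nat_lit 132)) (XT.nd (nat_lit 78) (nat_lit 0) (nat_lit 76) (XT.lf (nat_lit 0) (nat_lit 7500335334) (nat_lit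 1140) (nat_lit 12766085677) (nat_lit 1216) (nat_lit 38333018334) (nat_lit 165) (nat_lit 5) (nat_lit 180) (nat_lit 3) (nat_lit 181) (nat_lit 5) (nat_lit 295) (nat_lit 294) (nat_lit 131)) (XT.lf (nat_lit 0) (nat_lit 8653110378) (nat_lit 1140) (nat_lit 29490164124) (nat_lit 1216) (nat_lit 21928010430) (nat_lit 166) (nat_lit 5) (nat_lit 181) (nat_lit 5) (nat_lit 182) (nat_lit 5) (nat_lit 296) (nat_lit 294) (nat_lit 130))))) (XT.nd (nat_lit 234) (nat_lit 0) (nat_lit 152) (XT.nd (nat_lit 78) (nat_lit 0) (nat_lit 0) (XT.lf (nat_lit 0) (nat_lit 10384659267) (nat_lit 1140) (nat_lit 46813399202) (nat_lit 1216) (nat_lit 4403033511) (nat_lit 167) (nat_lit 5) (nat_lit 182) (nat_lit 5) (nat_lit 183) (nat_lit 5) (nat_lit 297) (nat_lit 294) (nat_lit 129)) (XT.nd (nat_lit 78) (nat_lit 0) (nat_lit 76) (XT.lf (nat_lit 0) (nat_lit 12892563748) (nat_lit 1140) (nat_lit 1691709329) (nat_lit 1216) (nat_lit 48602426042)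 (nat_lit 167) (nat_lit 5) (nat_lit 182) (nat_lit 5) (nat_lit 183) (nat_lit 5) (nat_lit 298) (nat_lit 294) (nat_lit 128)) (XT.lf (nat_lit 0) (nat_lit 16266407654) (nat_lit 1140) (nat_lit 18538355558) (nat_lit 1216) (nat_lit 30024610009) (nat_lit 168) (nat_lit 5) (nat_lit 183) (nat_lit 5) (nat_lit 184) (nat_lit 5) (nat_lit 299) (nat_lit 294) (nat_lit 127)))) (XT.nd (nat_lit 78) (nat_lit 0) (nat_lit 0) (XT.lf (nat_lit 0) (nat_lit 20365646443) (nat_lit 1140) (nat_lit 36036555056) (nat_lit 1216) (nat_lit 10135281246) (nat_lit 169) (nat_lit 5) (nat_lit 184) (nat_lit 5) (nat_lit 185) (nat_lit 5) (nat_lit 300) (nat_lit 294) (nat_lit 126)) (XT.nd (nat_lit 78) (nat_lit 0) (nat_lit 76) (XT.lf (nat_lit 76) (nat_lit 13972646167) (nat_lit 0) (nat_lit 11373975124) (nat_lit 1216) (nat_lit 42964075891) (nat_lit 170) (nat_lit 5) (nat_lit 169) (nat_lit 5) (nat_lit 185) (nat_lit 5) (nat_lit 301) (nat_lit 294)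 (nat_lit 125)) (XT.lf (nat_lit 0) (nat_lit 31294939129) (nat_lit 1140) (nat_lit 3276044579) (nat_lit 1216) (nat_lit 35580042339) (nat_lit 170) (nat_lit 5) (nat_lit 185) (nat_lit 5) (nat_lit 186) (nat_lit 5) (nat_lit 302) (nat_lit 294) (nat_lit 124)))))) (XT.nd (nat_lit 468) (nat_lit 2432) (nat_lit 0) (XT.nd (nat_lit 234) (nat_lit 1216) (nat_lit 0) (XT.nd (nat_lit 78) (nat_lit 1064) (nat_lit 0) (XT.lf (nat_lit 0) (nat_lit 38272134861) (nat_lit 1140) (nat_lit 20968188430) (nat_lit 1216) (nat_lit 12821106619) (nat_lit 171) (nat_lit 5) (nat_lit 186) (nat_lit 5) (nat_lit 187) (nat_lit 5) (nat_lit 303) (nat_lit 294) (nat_lit 123)) (XT.nd (nat_lit 78) (nat_lit 1064) (nat_lit 0) (XT.lf (nat_lit 76) (nat_lit 34506073160) (nat_lit 0) (nat_lit 11805442773) (nat_lit 1216) (nat_lit 27734440566) (nat_lit 172) (nat_lit 5) (nat_lit 171) (nat_lit 5) (nat_lit 187) (nat_lit 5) (nat_lit 304) (nat_lit 294) (nat_lit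 122)) (XT.lf (nat_lit 0) (nat_lit 17032812641) (nat_lit 1140) (nat_lit 38465757418) (nat_lit 1216) (nat_lit 20608770427) (nat_lit 157) (nat_lit 5) (nat_lit 172) (nat_lit 5) (nat_lit 173) (nat_lit 5) (nat_lit 305) (nat_lit 294) (nat_lit 121)))) (XT.nd (nat_lit 78) (nat_lit 1216) (nat_lit 0) (XT.lf (nat_lit 0) (nat_lit 65778988741) (nat_lit 1216) (nat_lit 1228532790) (nat_lit 76) (nat_lit 11245253873) (nat_lit 157) (nat_lit 5) (nat_lit 173) (nat_lit 5) (nat_lit 158) (nat_lit 5) (nat_lit 306) (nat_lit 294) (nat_lit 120)) (XT.nd (nat_lit 78) (nat_lit 684) (nat_lit 0) (XT.lf (nat_lit 0) (nat_lit 60297056619) (nat_lit 532) (nat_lit 17243038261) (nat_lit 608) (nat_lit 2936389177) (nat_lit 150) (nat_lit 5) (nat_lit 157) (nat_lit 5) (nat_lit 158) (nat_lit 5) (nat_lit 307) (nat_lit 294) (nat_lit 119)) (XT.lf (nat_lit 0) (nat_lit 7704994919) (nat_lit 684) (nat_lit 40256906150) (nat_lit 76) (nat_lit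 34824480855) (nat_lit 141) (nat_lit 5) (nat_lit 150) (nat_lit 5) (nat_lit 142) (nat_lit 5) (nat_lit 308) (nat_lit 294) (nat_lit 118))))) (XT.nd (nat_lit 234) (nat_lit 1368) (nat_lit 0) (XT.nd (nat_lit 78) (nat_lit 532) (nat_lit 0) (XT.lf (nat_lit 0) (nat_lit 19472715453) (nat_lit 608) (nat_lit 61386462713) (nat_lit 76) (nat_lit 4332076184) (nat_lit 134) (nat_lit 5) (nat_lit 142) (nat_lit 5) (nat_lit 135) (nat_lit 5) (nat_lit 309) (nat_lit 294) (nat_lit 117)) (XT.nd (nat_lit 78) (nat_lit 0) (nat_lit 0) (XT.lf (nat_lit 0) (nat_lit 3791604465) (nat_lit 532) (nat_lit 28975200746) (nat_lit 608) (nat_lit 54921427356) (nat_lit 127) (nat_lit 5) (nat_lit 134) (nat_lit 5) (nat_lit 135) (nat_lit 5) (nat_lit 310) (nat_lit 294) (nat_lit 116)) (XT.lf (nat_lit 0) (nat_lit 47607898854) (nat_lit 608) (nat_lit 17032215143) (nat_lit 76) (nat_lit 25643478302) (nat_lit 127) (nat_lit 5) (nat_lit 135) (nat_lit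 5) (nat_lit 128) (nat_lit 5) (nat_lit 311) (nat_lit 294) (nat_lit 115)))) (XT.nd (nat_lit 78) (nat_lit 912) (nat_lit 0) (XT.lf (nat_lit 0) (nat_lit 53934392596) (nat_lit 456) (nat_lit 10066580678) (nat_lit 532) (nat_lit 28983450473) (nat_lit 121) (nat_lit 5) (nat_lit 127) (nat_lit 5) (nat_lit 128) (nat_lit 5) (nat_lit 312) (nat_lit 294) (nat_lit 114)) (XT.nd (nat_lit 78) (nat_lit 456) (nat_lit 0) (XT.lf (nat_lit 0) (nat_lit 33180875664) (nat_lit 456) (nat_lit 48981964422) (nat_lit 532) (nat_lit 13628983959) (nat_lit 115) (nat_lit 5) (nat_lit 121) (nat_lit 5) (nat_lit 122) (nat_lit 5) (nat_lit 313) (nat_lit 294) (nat_lit 113)) (XT.lf (nat_lit 0) (nat_lit 3137123004) (nat_lit 456) (nat_lit 87598897611) (nat_lit 76) (nat_lit 7982079031) (nat_lit 109) (nat_lit 5) (nat_lit 115) (nat_lit 5) (nat_lit 110) (nat_lit 5) (nat_lit 314) (nat_lit 294) (nat_lit 112))))))))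
noncomputable def xc124 : XT := (XT.nd (nat_lit 37362) (nat_lit 0) (nat_lit 760) (XT.nd (nat_lit 36504) (nat_lit 0) (nat_lit 2584) (XT.nd (nat_lit 36036) (nat_lit 0) (nat_lit 5472) (XT.nd (nat_lit 156) (nat_lit 760) (nat_lit 0) (XT.nd (nat_lit 78) (nat_lit 456) (nat_lit 0) (XT.lf (nat_lit 0) (nat_lit 21606696495) (nat_lit 456) (nat_lit 12566451432) (nat_lit 76) (nat_lit 67579083269) (nat_lit 109) (nat_lit 5) (nat_lit 115) (nat_lit 5) (nat_lit 110) (nat_lit 5) (nat_lit 315) (nat_lit 294) (nat_lit 111)) (XT.lf (nat_lit 0) (nat_lit 41896926063) (nat_lit 532) (nat_lit 37632963567) (nat_lit 76) (nat_lit 25381265578) (nat_lit 103) (nat_lit 5) (nat_lit 110) (nat_lit 5) (nat_lit 104) (nat_lit 5) (nat_lit 316) (nat_lit 294) (nat_lit 110))) (XT.nd (nat_lit 78) (nat_lit 380) (nat_lit 0) (XT.lf (nat_lit 0) (nat_lit 43658293888) (nat_lit 380) (nat_lit 20437791071) (nat_lit 456) (nat_lit 44105109076) (nat_lit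 98) (nat_lit 5) (nat_lit 103) (nat_lit 5) (nat_lit 104) (nat_lit 5) (nat_lit 317) (nat_lit 294) (nat_lit 109)) (XT.nd (nat_lit 35724) (nat_lit 0) (nat_lit 5472) (XT.lf (nat_lit 0) (nat_lit 18104948769) (nat_lit 380) (nat_lit 70264709601) (nat_lit 456) (nat_lit 23257143830) (nat_lit 93) (nat_lit 5) (nat_lit 98) (nat_lit 5) (nat_lit 99) (nat_lit 5) (nat_lit 318) (nat_lit 294) (nat_lit 108)) (XT.lf (nat_lit 0) (nat_lit 1831875061) (nat_lit 0) (nat_lit 1831875061) (nat_lit 1140) (nat_lit 26355908353) (nat_lit 165) (nat_lit 5) (nat_lit 165) (nat_lit 3) (nat_lit 180) (nat_lit 3) (nat_lit 295) (nat_lit 295) (nat_lit 130))))) (XT.nd (nat_lit 234) (nat_lit 0) (nat_lit 152) (XT.nd (nat_lit 78) (nat_lit 0) (nat_lit 76) (XT.lf (nat_lit 0) (nat_lit 7933068224) (nat_lit 1140) (nat_lit 13373274442) (nat_lit 1216) (nat_lit 40221237663) (nat_lit 165) (nat_lit 5) (nat_lit 180) (nat_lit 3) (nat_lit 181) (nat_lit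 5) (nat_lit 296) (nat_lit 295) (nat_lit 129)) (XT.nd (nat_lit 78) (nat_lit 0) (nat_lit 76) (XT.lf (nat_lit 0) (nat_lit 9140783512) (nat_lit 1140) (nat_lit 30932455573) (nat_lit 1216) (nat_lit 22999864803) (nat_lit 166) (nat_lit 5) (nat_lit 181) (nat_lit 5) (nat_lit 182) (nat_lit 5) (nat_lit 297) (nat_lit 295) (nat_lit 128)) (XT.lf (nat_lit 0) (nat_lit 10956385009) (nat_lit 1140) (nat_lit 49120898927) (nat_lit 1216) (nat_lit 4602197612) (nat_lit 167) (nat_lit 5) (nat_lit 182) (nat_lit 5) (nat_lit 183) (nat_lit 5) (nat_lit 298) (nat_lit 295) (nat_lit 127)))) (XT.nd (nat_lit 78) (nat_lit 0) (nat_lit 76) (XT.lf (nat_lit 0) (nat_lit 13587185057) (nat_lit 1140) (nat_lit 1744704095) (nat_lit 1216) (nat_lit 51012559177) (nat_lit 167) (nat_lit 5) (nat_lit 182) (nat_lit 5) (nat_lit 183) (nat_lit 5) (nat_lit 299) (nat_lit 295) (nat_lit 126)) (XT.nd (nat_lit 78) (nat_lit 0) (nat_lit 76) (XT.lf (nat_lit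 0) (nat_lit 17127469948) (nat_lit 1140) (nat_lit 19432903543) (nat_lit 1216) (nat_lit 31508954277) (nat_lit 168) (nat_lit 5) (nat_lit 183) (nat_lit 5) (nat_lit 184) (nat_lit 5) (nat_lit 300) (nat_lit 295) (nat_lit 125)) (XT.lf (nat_lit 0) (nat_lit 21429561753) (nat_lit 1140) (nat_lit 37805352069) (nat_lit 1216) (nat_lit 10627996109) (nat_lit 169) (nat_lit 5) (nat_lit 184) (nat_lit 5) (nat_lit 185) (nat_lit 5) (nat_lit 301) (nat_lit 295) (nat_lit 124)))))) (XT.nd (nat_lit 390) (nat_lit 2280) (nat_lit 0) (XT.nd (nat_lit 156) (nat_lit 912) (nat_lit 0) (XT.nd (nat_lit 78) (nat_lit 0) (nat_lit 76) (XT.lf (nat_lit 76) (nat_lit 14703362395) (nat_lit 0) (nat_lit 11954358359) (nat_lit 1216) (nat_lit 45067123986) (nat_lit 170) (nat_lit 5) (nat_lit 169) (nat_lit 5) (nat_lit 185) (nat_lit 5) (nat_lit 302) (nat_lit 295) (nat_lit 123)) (XT.lf (nat_lit 0) (nat_lit 32901263305) (nat_lit 1140) (nat_lit 3407862486)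 (nat_lit 1216) (nat_lit 37348133529) (nat_lit 170) (nat_lit 5) (nat_lit 185) (nat_lit 5) (nat_lit 186) (nat_lit 5) (nat_lit 303) (nat_lit 295) (nat_lit 122))) (XT.nd (nat_lit 78) (nat_lit 1064) (nat_lit 0) (XT.lf (nat_lit 0) (nat_lit 40225552730) (nat_lit 1140) (nat_lit 21984181264) (nat_lit 1216) (nat_lit 13453505732) (nat_lit 171) (nat_lit 5) (nat_lit 186) (nat_lit 5) (nat_lit 187) (nat_lit 5) (nat_lit 304) (nat_lit 295) (nat_lit 121)) (XT.nd (nat_lit 78) (nat_lit 1064) (nat_lit 0) (XT.lf (nat_lit 76) (nat_lit 36262864191) (nat_lit 0) (nat_lit 12402445574) (nat_lit 1216) (nat_lit 29081733880) (nat_lit 172) (nat_lit 5) (nat_lit 171) (nat_lit 5) (nat_lit 187) (nat_lit 5) (nat_lit 305) (nat_lit 295) (nat_lit 120)) (XT.lf (nat_lit 0) (nat_lit 17916276887) (nat_lit 1140) (nat_lit 40393864093) (nat_lit 1216) (nat_lit 21601406174) (nat_lit 157) (nat_lit 5) (nat_lit 172) (nat_lit 5) (nat_lit 173)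 (nat_lit 5) (nat_lit 306) (nat_lit 295) (nat_lit 119))))) (XT.nd (nat_lit 234) (nat_lit 1064) (nat_lit 0) (XT.nd (nat_lit 78) (nat_lit 1216) (nat_lit 0) (XT.lf (nat_lit 0) (nat_lit 69102791604) (nat_lit 1216) (nat_lit 1258502009) (nat_lit 76) (nat_lit 11803016784) (nat_lit 157) (nat_lit 5) (nat_lit 173) (nat_lit 5) (nat_lit 158) (nat_lit 5) (nat_lit 307) (nat_lit 295) (nat_lit 118)) (XT.nd (nat_lit 78) (nat_lit 684) (nat_lit 0) (XT.lf (nat_lit 0) (nat_lit 63342465150) (nat_lit 532) (nat_lit 18108121933) (nat_lit 608) (nat_lit 3048661148) (nat_lit 150) (nat_lit 5) (nat_lit 157) (nat_lit 5) (nat_lit 158) (nat_lit 5) (nat_lit 308) (nat_lit 295) (nat_lit 117)) (XT.lf (nat_lit 0) (nat_lit 8122776271) (nat_lit 684) (nat_lit 42238315940) (nat_lit 76) (nat_lit 36563581630) (nat_lit 141) (nat_lit 5) (nat_lit 150) (nat_lit 5) (nat_lit 142) (nat_lit 5) (nat_lit 309) (nat_lit 295) (nat_lit 116)))) (XT.nd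 (nat_lit 78) (nat_lit 532) (nat_lit 0) (XT.lf (nat_lit 0) (nat_lit 20477620096) (nat_lit 608) (nat_lit 64424257225) (nat_lit 76) (nat_lit 4547952890) (nat_lit 134) (nat_lit 5) (nat_lit 142) (nat_lit 5) (nat_lit 135) (nat_lit 5) (nat_lit 310) (nat_lit 295) (nat_lit 115)) (XT.nd (nat_lit 78) (nat_lit 0) (nat_lit 0) (XT.lf (nat_lit 0) (nat_lit 4011809550) (nat_lit 532) (nat_lit 30423410182) (nat_lit 608) (nat_lit 57636475769) (nat_lit 127) (nat_lit 5) (nat_lit 134) (nat_lit 5) (nat_lit 135) (nat_lit 5) (nat_lit 311) (nat_lit 295) (nat_lit 114)) (XT.lf (nat_lit 0) (nat_lit 50016940990) (nat_lit 608) (nat_lit 17853760888) (nat_lit 76) (nat_lit 26926166367) (nat_lit 127) (nat_lit 5) (nat_lit 135) (nat_lit 5) (nat_lit 128) (nat_lit 5) (nat_lit 312) (nat_lit 295) (nat_lit 113))))))) (XT.nd (nat_lit 36660) (nat_lit 0) (nat_lit 1824) (XT.nd (nat_lit 36192) (nat_lit 0) (nat_lit 4712) (XT.nd (nat_lit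 156) (nat_lit 912) (nat_lit 0) (XT.nd (nat_lit 78) (nat_lit 456) (nat_lit 0) (XT.lf (nat_lit 0) (nat_lit 56660315431) (nat_lit 456) (nat_lit 10568270267) (nat_lit 532) (nat_lit 30404190176) (nat_lit 121) (nat_lit 5) (nat_lit 127) (nat_lit 5) (nat_lit 128) (nat_lit 5) (nat_lit 313) (nat_lit 295) (nat_lit 112)) (XT.lf (nat_lit 0) (nat_lit 34869114390) (nat_lit 456) (nat_lit 51428414550) (nat_lit 532) (nat_lit 14283049762) (nat_lit 115) (nat_lit 5) (nat_lit 121) (nat_lit 5) (nat_lit 122) (nat_lit 5) (nat_lit 314) (nat_lit 295) (nat_lit 111))) (XT.nd (nat_lit 78) (nat_lit 456) (nat_lit 0) (XT.lf (nat_lit 0) (nat_lit 3319857099) (nat_lit 456) (nat_lit 91949144439) (nat_lit 76) (nat_lit 8384189636) (nat_lit 109) (nat_lit 5) (nat_lit 115) (nat_lit 5) (nat_lit 110) (nat_lit 5) (nat_lit 315) (nat_lit 295) (nat_lit 110)) (XT.nd (nat_lit 78) (nat_lit 456) (nat_lit 0) (XT.lf (nat_lit 0) (nat_lit 22711676982)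 (nat_lit 456) (nat_lit 13166490144) (nat_lit 76) (nat_lit 70960900912) (nat_lit 109) (nat_lit 5) (nat_lit 115) (nat_lit 5) (nat_lit 110) (nat_lit 5) (nat_lit 316) (nat_lit 295) (nat_lit 109)) (XT.lf (nat_lit 0) (nat_lit 44015544435) (nat_lit 532) (nat_lit 39486428810) (nat_lit 76) (nat_lit 26653992897) (nat_lit 103) (nat_lit 5) (nat_lit 110) (nat_lit 5) (nat_lit 104) (nat_lit 5) (nat_lit 317) (nat_lit 295) (nat_lit 108))))) (XT.nd (nat_lit 234) (nat_lit 0) (nat_lit 152) (XT.nd (nat_lit 78) (nat_lit 0) (nat_lit 0) (XT.lf (nat_lit 0) (nat_lit 1937277115) (nat_lit 0) (nat_lit 1937277115) (nat_lit 1140) (nat_lit 27645211290) (nat_lit 165) (nat_lit 5) (nat_lit 165) (nat_lit 3) (nat_lit 180) (nat_lit 3) (nat_lit 296) (nat_lit 296) (nat_lit 128)) (XT.nd (nat_lit 78) (nat_lit 0) (nat_lit 76) (XT.lf (nat_lit 0) (nat_lit 8382071860) (nat_lit 1140) (nat_lit 14013715472) (nat_lit 1216) (nat_lit 42206511258)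 (nat_lit 165) (nat_lit 5) (nat_lit 180) (nat_lit 3) (nat_lit 181) (nat_lit 5) (nat_lit 297) (nat_lit 296) (nat_lit 127)) (XT.lf (nat_lit 0) (nat_lit 9647725287) (nat_lit 1140) (nat_lit 32449856804) (nat_lit 1216) (nat_lit 24127593963) (nat_lit 166) (nat_lit 5) (nat_lit 181) (nat_lit 5) (nat_lit 182) (nat_lit 5) (nat_lit 298) (nat_lit 296) (nat_lit 126)))) (XT.nd (nat_lit 78) (nat_lit 0) (nat_lit 0) (XT.lf (nat_lit 0) (nat_lit 11551816757) (nat_lit 1140) (nat_lit 51546857492) (nat_lit 1216) (nat_lit 4813271143) (nat_lit 167) (nat_lit 5) (nat_lit 182) (nat_lit 5) (nat_lit 183) (nat_lit 5) (nat_lit 299) (nat_lit 296) (nat_lit 125)) (XT.nd (nat_lit 78) (nat_lit 0) (nat_lit 76) (XT.lf (nat_lit 0) (nat_lit 14311889546) (nat_lit 1140) (nat_lit 1803285604) (nat_lit 1216) (nat_lit 53545057279) (nat_lit 167) (nat_lit 5) (nat_lit 182) (nat_lit 5) (nat_lit 183) (nat_lit 5) (nat_lit 300) (nat_lit 296)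 (nat_lit 124)) (XT.lf (nat_lit 0) (nat_lit 18027146765) (nat_lit 1140) (nat_lit 20375188364) (nat_lit 1216) (nat_lit 33069085679) (nat_lit 168) (nat_lit 5) (nat_lit 183) (nat_lit 5) (nat_lit 184) (nat_lit 5) (nat_lit 301) (nat_lit 296) (nat_lit 123)))))) (XT.nd (nat_lit 390) (nat_lit 3192) (nat_lit 0) (XT.nd (nat_lit 156) (nat_lit 0) (nat_lit 76) (XT.nd (nat_lit 78) (nat_lit 0) (nat_lit 0) (XT.lf (nat_lit 0) (nat_lit 22542430306) (nat_lit 1140) (nat_lit 39665659819) (nat_lit 1216) (nat_lit 11146652877) (nat_lit 169) (nat_lit 5) (nat_lit 184) (nat_lit 5) (nat_lit 185) (nat_lit 5) (nat_lit 302) (nat_lit 296) (nat_lit 122)) (XT.lf (nat_lit 76) (nat_lit 15467631576) (nat_lit 0) (nat_lit 12562674444) (nat_lit 1216) (nat_lit 47279522636) (nat_lit 170) (nat_lit 5) (nat_lit 169) (nat_lit 5) (nat_lit 185) (nat_lit 5) (nat_lit 303) (nat_lit 296) (nat_lit 121))) (XT.nd (nat_lit 78) (nat_lit 0) (nat_lit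 76) (XT.lf (nat_lit 0) (nat_lit 34584038234) (nat_lit 1140) (nat_lit 3549244888) (nat_lit 1216) (nat_lit 39205643674) (nat_lit 170) (nat_lit 5) (nat_lit 185) (nat_lit 5) (nat_lit 186) (nat_lit 5) (nat_lit 304) (nat_lit 296) (nat_lit 120)) (XT.nd (nat_lit 78) (nat_lit 0) (nat_lit 0) (XT.lf (nat_lit 0) (nat_lit 42272940233) (nat_lit 1140) (nat_lit 23053987526) (nat_lit 1216) (nat_lit 14118329574) (nat_lit 171) (nat_lit 5) (nat_lit 186) (nat_lit 5) (nat_lit 187) (nat_lit 5) (nat_lit 305) (nat_lit 296) (nat_lit 119)) (XT.lf (nat_lit 76) (nat_lit 38104567375) (nat_lit 0) (nat_lit 13028672761) (nat_lit 1216) (nat_lit 30500057568) (nat_lit 172) (nat_lit 5) (nat_lit 171) (nat_lit 5) (nat_lit 187) (nat_lit 5) (nat_lit 306) (nat_lit 296) (nat_lit 118))))) (XT.nd (nat_lit 234) (nat_lit 1748) (nat_lit 0) (XT.nd (nat_lit 78) (nat_lit 532) (nat_lit 0) (XT.lf (nat_lit 0) (nat_lit 18840955687) (nat_lit 1140)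 (nat_lit 42417928096) (nat_lit 1216) (nat_lit 22647188251) (nat_lit 157) (nat_lit 5) (nat_lit 172) (nat_lit 5) (nat_lit 173) (nat_lit 5) (nat_lit 307) (nat_lit 296) (nat_lit 117)) (XT.nd (nat_lit 78) (nat_lit 532) (nat_lit 0) (XT.lf (nat_lit 0) (nat_lit 72589544268) (nat_lit 1216) (nat_lit 1292894301) (nat_lit 76) (nat_lit 12389086187) (nat_lit 157) (nat_lit 5) (nat_lit 173) (nat_lit 5) (nat_lit 158) (nat_lit 5) (nat_lit 308) (nat_lit 296) (nat_lit 116)) (XT.lf (nat_lit 0) (nat_lit 66537303329) (nat_lit 532) (nat_lit 19016187221) (nat_lit 608) (nat_lit 3169758616) (nat_lit 150) (nat_lit 5) (nat_lit 157) (nat_lit 5) (nat_lit 158) (nat_lit 5) (nat_lit 309) (nat_lit 296) (nat_lit 115)))) (XT.nd (nat_lit 78) (nat_lit 1064) (nat_lit 0) (XT.lf (nat_lit 0) (nat_lit 8558422211) (nat_lit 684) (nat_lit 44321718796) (nat_lit 76) (nat_lit 38389834846) (nat_lit 141) (nat_lit 5) (nat_lit 150) (nat_lit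 5) (nat_lit 142) (nat_lit 5) (nat_lit 310) (nat_lit 296) (nat_lit 114)) (XT.nd (nat_lit 78) (nat_lit 532) (nat_lit 0) (XT.lf (nat_lit 0) (nat_lit 21529862887) (nat_lit 608) (nat_lit 67616872696) (nat_lit 76) (nat_lit 4774691031) (nat_lit 134) (nat_lit 5) (nat_lit 142) (nat_lit 5) (nat_lit 135) (nat_lit 5) (nat_lit 311) (nat_lit 296) (nat_lit 113)) (XT.lf (nat_lit 0) (nat_lit 4240177680) (nat_lit 532) (nat_lit 31944081280) (nat_lit 608) (nat_lit 60490160822) (nat_lit 127) (nat_lit 5) (nat_lit 134) (nat_lit 5) (nat_lit 135) (nat_lit 5) (nat_lit 312) (nat_lit 296) (nat_lit 112))))))))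
noncomputable def xc125 : XT := (XT.nd (nat_lit 37596) (nat_lit 0) (nat_lit 456) (XT.nd (nat_lit 36738) (nat_lit 0) (nat_lit 1368) (XT.nd (nat_lit 36270) (nat_lit 0) (nat_lit 4256) (XT.nd (nat_lit 156) (nat_lit 912) (nat_lit 0) (XT.nd (nat_lit 78) (nat_lit 456) (nat_lit 0) (XT.lf (nat_lit 0) (nat_lit 52543771889) (nat_lit 608) (nat_lit 18719179079) (nat_lit 76) (nat_lit 28272941033) (nat_lit 127) (nat_lit 5) (nat_lit 135) (nat_lit 5) (nat_lit 128) (nat_lit 5) (nat_lit 313) (nat_lit 296) (nat_lit 111)) (XT.lf (nat_lit 0) (nat_lit 59519819371) (nat_lit 456) (nat_lit 11095196756) (nat_lit 532) (nat_lit 31898610279) (nat_lit 121) (nat_lit 5) (nat_lit 127) (nat_lit 5) (nat_lit 128) (nat_lit 5) (nat_lit 314) (nat_lit 296) (nat_lit 110))) (XT.nd (nat_lit 78) (nat_lit 456) (nat_lit 0) (XT.lf (nat_lit 0) (nat_lit 36639050782) (nat_lit 456) (nat_lit 53997433379) (nat_lit 532) (nat_lit 14972364704)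 (nat_lit 115) (nat_lit 5) (nat_lit 121) (nat_lit 5) (nat_lit 122) (nat_lit 5) (nat_lit 315) (nat_lit 296) (nat_lit 109)) (XT.nd (nat_lit 78) (nat_lit 0) (nat_lit 0) (XT.lf (nat_lit 0) (nat_lit 3509322013) (nat_lit 456) (nat_lit 96519664652) (nat_lit 76) (nat_lit 8806126242) (nat_lit 109) (nat_lit 5) (nat_lit 115) (nat_lit 5) (nat_lit 110) (nat_lit 5) (nat_lit 316) (nat_lit 296) (nat_lit 108)) (XT.lf (nat_lit 0) (nat_lit 23869615173) (nat_lit 456) (nat_lit 13799160357) (nat_lit 76) (nat_lit 74511543219) (nat_lit 109) (nat_lit 5) (nat_lit 115) (nat_lit 5) (nat_lit 110) (nat_lit 5) (nat_lit 317) (nat_lit 296) (nat_lit 107))))) (XT.nd (nat_lit 234) (nat_lit 0) (nat_lit 152) (XT.nd (nat_lit 78) (nat_lit 0) (nat_lit 0) (XT.lf (nat_lit 0) (nat_lit 2046665507) (nat_lit 0) (nat_lit 2046665507) (nat_lit 1140) (nat_lit 29001628335) (nat_lit 165) (nat_lit 5) (nat_lit 165) (nat_lit 3) (nat_lit 180) (nat_lit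 3) (nat_lit 297) (nat_lit 297) (nat_lit 126)) (XT.nd (nat_lit 78) (nat_lit 0) (nat_lit 76) (XT.lf (nat_lit 0) (nat_lit 8848658650) (nat_lit 1140) (nat_lit 14688802431) (nat_lit 1216) (nat_lit 44293446083) (nat_lit 165) (nat_lit 5) (nat_lit 180) (nat_lit 3) (nat_lit 181) (nat_lit 5) (nat_lit 298) (nat_lit 297) (nat_lit 125)) (XT.lf (nat_lit 0) (nat_lit 10175374679) (nat_lit 1140) (nat_lit 34045844839) (nat_lit 1216) (nat_lit 25313779483) (nat_lit 166) (nat_lit 5) (nat_lit 181) (nat_lit 5) (nat_lit 182) (nat_lit 5) (nat_lit 299) (nat_lit 297) (nat_lit 124)))) (XT.nd (nat_lit 78) (nat_lit 0) (nat_lit 0) (XT.lf (nat_lit 0) (nat_lit 12172593534) (nat_lit 1140) (nat_lit 54096911132) (nat_lit 1216) (nat_lit 5036668170) (nat_lit 167) (nat_lit 5) (nat_lit 182) (nat_lit 5) (nat_lit 183) (nat_lit 5) (nat_lit 300) (nat_lit 297) (nat_lit 123)) (XT.nd (nat_lit 78) (nat_lit 0) (nat_lit 76) (XT.lf (nat_lit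 0) (nat_lit 15068613488) (nat_lit 1140) (nat_lit 1867460136) (nat_lit 1216) (nat_lit 56205865829) (nat_lit 167) (nat_lit 5) (nat_lit 182) (nat_lit 5) (nat_lit 183) (nat_lit 5) (nat_lit 301) (nat_lit 297) (nat_lit 122)) (XT.lf (nat_lit 0) (nat_lit 18967781492) (nat_lit 1140) (nat_lit 21367317073) (nat_lit 1216) (nat_lit 34708647617) (nat_lit 168) (nat_lit 5) (nat_lit 183) (nat_lit 5) (nat_lit 184) (nat_lit 5) (nat_lit 302) (nat_lit 297) (nat_lit 121)))))) (XT.nd (nat_lit 390) (nat_lit 3192) (nat_lit 0) (XT.nd (nat_lit 156) (nat_lit 0) (nat_lit 76) (XT.nd (nat_lit 78) (nat_lit 0) (nat_lit 0) (XT.lf (nat_lit 0) (nat_lit 23707094194) (nat_lit 1140) (nat_lit 41621768339) (nat_lit 1216) (nat_lit 11692427210) (nat_lit 169) (nat_lit 5) (nat_lit 184) (nat_lit 5) (nat_lit 185) (nat_lit 5) (nat_lit 303) (nat_lit 297) (nat_lit 120)) (XT.lf (nat_lit 76) (nat_lit 16267408674) (nat_lit 0) (nat_lit 13200421016)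 (nat_lit 1216) (nat_lit 49606349062) (nat_lit 170) (nat_lit 5) (nat_lit 169) (nat_lit 5) (nat_lit 185) (nat_lit 5) (nat_lit 304) (nat_lit 297) (nat_lit 119))) (XT.nd (nat_lit 78) (nat_lit 0) (nat_lit 76) (XT.lf (nat_lit 0) (nat_lit 36347445827) (nat_lit 1140) (nat_lit 3700393551) (nat_lit 1216) (nat_lit 41156949411) (nat_lit 170) (nat_lit 5) (nat_lit 185) (nat_lit 5) (nat_lit 186) (nat_lit 5) (nat_lit 305) (nat_lit 297) (nat_lit 118)) (XT.nd (nat_lit 78) (nat_lit 0) (nat_lit 0) (XT.lf (nat_lit 0) (nat_lit 44419339957) (nat_lit 1140) (nat_lit 24180017696) (nat_lit 1216) (nat_lit 14817124561) (nat_lit 171) (nat_lit 5) (nat_lit 186) (nat_lit 5) (nat_lit 187) (nat_lit 5) (nat_lit 306) (nat_lit 297) (nat_lit 117)) (XT.lf (nat_lit 76) (nat_lit 40035700484) (nat_lit 0) (nat_lit 13685643732) (nat_lit 1216) (nat_lit 31992622346) (nat_lit 172) (nat_lit 5) (nat_lit 171) (nat_lit 5) (nat_lit 187) (nat_lit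 5) (nat_lit 307) (nat_lit 297) (nat_lit 116))))) (XT.nd (nat_lit 234) (nat_lit 1748) (nat_lit 0) (XT.nd (nat_lit 78) (nat_lit 532) (nat_lit 0) (XT.lf (nat_lit 0) (nat_lit 19809184838) (nat_lit 1140) (nat_lit 44542788943) (nat_lit 1216) (nat_lit 23748447228) (nat_lit 157) (nat_lit 5) (nat_lit 172) (nat_lit 5) (nat_lit 173) (nat_lit 5) (nat_lit 308) (nat_lit 297) (nat_lit 115)) (XT.nd (nat_lit 78) (nat_lit 532) (nat_lit 0) (XT.lf (nat_lit 0) (nat_lit 76247695481) (nat_lit 1216) (nat_lit 1331658918) (nat_lit 76) (nat_lit 13004838514) (nat_lit 157) (nat_lit 5) (nat_lit 173) (nat_lit 5) (nat_lit 158) (nat_lit 5) (nat_lit 309) (nat_lit 297) (nat_lit 114)) (XT.lf (nat_lit 0) (nat_lit 69889306745) (nat_lit 532) (nat_lit 19969408547) (nat_lit 608) (nat_lit 3299824243) (nat_lit 150) (nat_lit 5) (nat_lit 157) (nat_lit 5) (nat_lit 158) (nat_lit 5) (nat_lit 310) (nat_lit 297) (nat_lit 113)))) (XT.nd (nat_lit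 78) (nat_lit 1064) (nat_lit 0) (XT.lf (nat_lit 0) (nat_lit 9013107155) (nat_lit 684) (nat_lit 46511942659) (nat_lit 76) (nat_lit 40307579771) (nat_lit 141) (nat_lit 5) (nat_lit 150) (nat_lit 5) (nat_lit 142) (nat_lit 5) (nat_lit 311) (nat_lit 297) (nat_lit 112)) (XT.nd (nat_lit 78) (nat_lit 532) (nat_lit 0) (XT.lf (nat_lit 0) (nat_lit 22632081007) (nat_lit 608) (nat_lit 70971777655) (nat_lit 76) (nat_lit 5012827393) (nat_lit 134) (nat_lit 5) (nat_lit 142) (nat_lit 5) (nat_lit 135) (nat_lit 5) (nat_lit 312) (nat_lit 297) (nat_lit 111)) (XT.lf (nat_lit 0) (nat_lit 4477381713) (nat_lit 532) (nat_lit 33540832363) (nat_lit 608) (nat_lit 63489146201) (nat_lit 127) (nat_lit 5) (nat_lit 134) (nat_lit 5) (nat_lit 135) (nat_lit 5) (nat_lit 313) (nat_lit 297) (nat_lit 110))))))) (XT.nd (nat_lit 36894) (nat_lit 0) (nat_lit 912) (XT.nd (nat_lit 36426) (nat_lit 0) (nat_lit 3876) (XT.nd (nat_lit 156) (nat_lit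 456) (nat_lit 0) (XT.nd (nat_lit 78) (nat_lit 456) (nat_lit 0) (XT.lf (nat_lit 0) (nat_lit 55194528601) (nat_lit 608) (nat_lit 19630403472) (nat_lit 76) (nat_lit 29687011077) (nat_lit 127) (nat_lit 5) (nat_lit 135) (nat_lit 5) (nat_lit 128) (nat_lit 5) (nat_lit 314) (nat_lit 297) (nat_lit 109)) (XT.lf (nat_lit 0) (nat_lit 62519835889) (nat_lit 456) (nat_lit 11648607819) (nat_lit 532) (nat_lit 33470149041) (nat_lit 121) (nat_lit 5) (nat_lit 127) (nat_lit 5) (nat_lit 128) (nat_lit 5) (nat_lit 315) (nat_lit 297) (nat_lit 108))) (XT.nd (nat_lit 36114) (nat_lit 0) (nat_lit 3800) (XT.lf (nat_lit 0) (nat_lit 38495022073) (nat_lit 456) (nat_lit 56695126455) (nat_lit 532) (nat_lit 15698454553) (nat_lit 115) (nat_lit 5) (nat_lit 121) (nat_lit 5) (nat_lit 122) (nat_lit 5) (nat_lit 316) (nat_lit 297) (nat_lit 107)) (XT.nd (nat_lit 78) (nat_lit 0) (nat_lit 0) (XT.lf (nat_lit 0) (nat_lit 2160358905) (nat_lit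 0) (nat_lit 2160358905) (nat_lit 1140) (nat_lit 30428268917) (nat_lit 165) (nat_lit 5) (nat_lit 165) (nat_lit 3) (nat_lit 180) (nat_lit 3) (nat_lit 298) (nat_lit 298) (nat_lit 124)) (XT.lf (nat_lit 0) (nat_lit 9334160242) (nat_lit 1140) (nat_lit 15400023674) (nat_lit 1216) (nat_lit 46486902299) (nat_lit 165) (nat_lit 5) (nat_lit 180) (nat_lit 3) (nat_lit 181) (nat_lit 5) (nat_lit 299) (nat_lit 298) (nat_lit 123))))) (XT.nd (nat_lit 234) (nat_lit 0) (nat_lit 152) (XT.nd (nat_lit 78) (nat_lit 0) (nat_lit 76) (XT.lf (nat_lit 0) (nat_lit 10725198405) (nat_lit 1140) (nat_lit 35724096441) (nat_lit 1216) (nat_lit 26561151743) (nat_lit 166) (nat_lit 5) (nat_lit 181) (nat_lit 5) (nat_lit 182) (nat_lit 5) (nat_lit 300) (nat_lit 298) (nat_lit 122)) (XT.nd (nat_lit 78) (nat_lit 0) (nat_lit 0) (XT.lf (nat_lit 0) (nat_lit 12820394130) (nat_lit 1140) (nat_lit 56777004548) (nat_lit 1216) (nat_lit 5272840326)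 (nat_lit 167) (nat_lit 5) (nat_lit 182) (nat_lit 5) (nat_lit 183) (nat_lit 5) (nat_lit 301) (nat_lit 298) (nat_lit 121)) (XT.lf (nat_lit 0) (nat_lit 15859349800) (nat_lit 1140) (nat_lit 1937259676) (nat_lit 1216) (nat_lit 59001243643) (nat_lit 167) (nat_lit 5) (nat_lit 182) (nat_lit 5) (nat_lit 183) (nat_lit 5) (nat_lit 302) (nat_lit 298) (nat_lit 120)))) (XT.nd (nat_lit 78) (nat_lit 0) (nat_lit 76) (XT.lf (nat_lit 0) (nat_lit 19951796315) (nat_lit 1140) (nat_lit 22411528089) (nat_lit 1216) (nat_lit 36431479231) (nat_lit 168) (nat_lit 5) (nat_lit 183) (nat_lit 5) (nat_lit 184) (nat_lit 5) (nat_lit 303) (nat_lit 298) (nat_lit 119)) (XT.nd (nat_lit 78) (nat_lit 0) (nat_lit 0) (XT.lf (nat_lit 0) (nat_lit 24926500942) (nat_lit 1140) (nat_lit 43678208710) (nat_lit 1216) (nat_lit 12266564842) (nat_lit 169) (nat_lit 5) (nat_lit 184) (nat_lit 5) (nat_lit 185) (nat_lit 5) (nat_lit 304) (nat_lit 298)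 (nat_lit 118)) (XT.lf (nat_lit 76) (nat_lit 17104720623) (nat_lit 0) (nat_lit 13869161205) (nat_lit 1216) (nat_lit 52052970637) (nat_lit 170) (nat_lit 5) (nat_lit 169) (nat_lit 5) (nat_lit 185) (nat_lit 5) (nat_lit 305) (nat_lit 298) (nat_lit 117)))))) (XT.nd (nat_lit 468) (nat_lit 1748) (nat_lit 0) (XT.nd (nat_lit 234) (nat_lit 1520) (nat_lit 0) (XT.nd (nat_lit 78) (nat_lit 0) (nat_lit 76) (XT.lf (nat_lit 0) (nat_lit 38195843680) (nat_lit 1140) (nat_lit 3861546035) (nat_lit 1216) (nat_lit 43206654980) (nat_lit 170) (nat_lit 5) (nat_lit 185) (nat_lit 5) (nat_lit 186) (nat_lit 5) (nat_lit 306) (nat_lit 298) (nat_lit 116)) (XT.nd (nat_lit 78) (nat_lit 0) (nat_lit 0) (XT.lf (nat_lit 0) (nat_lit 46670014630) (nat_lit 1140) (nat_lit 25364828824) (nat_lit 1216) (nat_lit 15551521386) (nat_lit 171) (nat_lit 5) (nat_lit 186) (nat_lit 5) (nat_lit 187) (nat_lit 5) (nat_lit 307) (nat_lit 298) (nat_lit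 115)) (XT.lf (nat_lit 76) (nat_lit 42060981870) (nat_lit 0) (nat_lit 14374948442) (nat_lit 1216) (nat_lit 33562831149) (nat_lit 172) (nat_lit 5) (nat_lit 171) (nat_lit 5) (nat_lit 187) (nat_lit 5) (nat_lit 308) (nat_lit 298) (nat_lit 114)))) (XT.nd (nat_lit 78) (nat_lit 532) (nat_lit 0) (XT.lf (nat_lit 0) (nat_lit 20823391350) (nat_lit 1140) (nat_lit 46773524256) (nat_lit 1216) (nat_lit 24907660576) (nat_lit 157) (nat_lit 5) (nat_lit 172) (nat_lit 5) (nat_lit 173) (nat_lit 5) (nat_lit 309) (nat_lit 298) (nat_lit 113)) (XT.nd (nat_lit 78) (nat_lit 532) (nat_lit 0) (XT.lf (nat_lit 0) (nat_lit 80086088418) (nat_lit 1216) (nat_lit 1374767852) (nat_lit 76) (nat_lit 13651722633) (nat_lit 157) (nat_lit 5) (nat_lit 173) (nat_lit 5) (nat_lit 158) (nat_lit 5) (nat_lit 310) (nat_lit 298) (nat_lit 112)) (XT.lf (nat_lit 0) (nat_lit 73406573216) (nat_lit 532) (nat_lit 20970066698) (nat_lit 608) (nat_lit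 3439035588) (nat_lit 150) (nat_lit 5) (nat_lit 157) (nat_lit 5) (nat_lit 158) (nat_lit 5) (nat_lit 311) (nat_lit 298) (nat_lit 111))))) (XT.nd (nat_lit 234) (nat_lit 0) (nat_lit 0) (XT.nd (nat_lit 78) (nat_lit 1064) (nat_lit 0) (XT.lf (nat_lit 0) (nat_lit 9488038098) (nat_lit 684) (nat_lit 48814082125) (nat_lit 76) (nat_lit 42321374345) (nat_lit 141) (nat_lit 5) (nat_lit 150) (nat_lit 5) (nat_lit 142) (nat_lit 5) (nat_lit 312) (nat_lit 298) (nat_lit 110)) (XT.nd (nat_lit 78) (nat_lit 532) (nat_lit 0) (XT.lf (nat_lit 0) (nat_lit 23787018370) (nat_lit 608) (nat_lit 74496839393) (nat_lit 76) (nat_lit 5262926188) (nat_lit 134) (nat_lit 5) (nat_lit 142) (nat_lit 5) (nat_lit 135) (nat_lit 5) (nat_lit 313) (nat_lit 298) (nat_lit 109)) (XT.lf (nat_lit 0) (nat_lit 4724103542) (nat_lit 532) (nat_lit 35217463114) (nat_lit 608) (nat_lit 66640453704) (nat_lit 127) (nat_lit 5) (nat_lit 134) (nat_lit 5)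 (nat_lit 135) (nat_lit 5) (nat_lit 314) (nat_lit 298) (nat_lit 108)))) (XT.nd (nat_lit 36270) (nat_lit 0) (nat_lit 2888) (XT.lf (nat_lit 0) (nat_lit 57975632008) (nat_lit 608) (nat_lit 20589488670) (nat_lit 76) (nat_lit 31171745297) (nat_lit 127) (nat_lit 5) (nat_lit 135) (nat_lit 5) (nat_lit 128) (nat_lit 5) (nat_lit 315) (nat_lit 298) (nat_lit 107)) (XT.nd (nat_lit 78) (nat_lit 0) (nat_lit 0) (XT.lf (nat_lit 0) (nat_lit 2278680817) (nat_lit 0) (nat_lit 2278680817) (nat_lit 1140) (nat_lit 31928420835) (nat_lit 165) (nat_lit 5) (nat_lit 165) (nat_lit 3) (nat_lit 180) (nat_lit 3) (nat_lit 299) (nat_lit 299) (nat_lit 122)) (XT.lf (nat_lit 0) (nat_lit 9839932798) (nat_lit 1140) (nat_lit 16148964649) (nat_lit 1216) (nat_lit 48792003796) (nat_lit 165) (nat_lit 5) (nat_lit 180) (nat_lit 3) (nat_lit 181) (nat_lit 5) (nat_lit 300) (nat_lit 299) (nat_lit 121))))))))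
noncomputable def xc126 : XT := (XT.nd (nat_lit 37986) (nat_lit 0) (nat_lit 1064) (XT.nd (nat_lit 858) (nat_lit 2280) (nat_lit 0) (XT.nd (nat_lit 390) (nat_lit 684) (nat_lit 0) (XT.nd (nat_lit 156) (nat_lit 0) (nat_lit 76) (XT.nd (nat_lit 78) (nat_lit 0) (nat_lit 76) (XT.lf (nat_lit 0) (nat_lit 11298696413) (nat_lit 1140) (nat_lit 37488495694) (nat_lit 1216) (nat_lit 27872595531) (nat_lit 166) (nat_lit 5) (nat_lit 181) (nat_lit 5) (nat_lit 182) (nat_lit 5) (nat_lit 301) (nat_lit 299) (nat_lit 120)) (XT.lf (nat_lit 0) (nat_lit 13496943015) (nat_lit 1140) (nat_lit 59593403854) (nat_lit 1216) (nat_lit 5522277126) (nat_lit 167) (nat_lit 5) (nat_lit 182) (nat_lit 5) (nat_lit 183) (nat_lit 5) (nat_lit 302) (nat_lit 299) (nat_lit 119))) (XT.nd (nat_lit 78) (nat_lit 0) (nat_lit 76) (XT.lf (nat_lit 0) (nat_lit 16686154603) (nat_lit 1140) (nat_lit 2012740830) (nat_lit 1216) (nat_lit 61937777047) (nat_lit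 167) (nat_lit 5) (nat_lit 182) (nat_lit 5) (nat_lit 183) (nat_lit 5) (nat_lit 303) (nat_lit 299) (nat_lit 118)) (XT.nd (nat_lit 78) (nat_lit 0) (nat_lit 76) (XT.lf (nat_lit 0) (nat_lit 20981699735) (nat_lit 1140) (nat_lit 23510195343) (nat_lit 1216) (nat_lit 38241623925) (nat_lit 168) (nat_lit 5) (nat_lit 183) (nat_lit 5) (nat_lit 184) (nat_lit 5) (nat_lit 304) (nat_lit 299) (nat_lit 117)) (XT.lf (nat_lit 0) (nat_lit 26203712191) (nat_lit 1140) (nat_lit 45839762641) (nat_lit 1216) (nat_lit 12870384033) (nat_lit 169) (nat_lit 5) (nat_lit 184) (nat_lit 5) (nat_lit 185) (nat_lit 5) (nat_lit 305) (nat_lit 299) (nat_lit 116))))) (XT.nd (nat_lit 234) (nat_lit 912) (nat_lit 0) (XT.nd (nat_lit 78) (nat_lit 0) (nat_lit 76) (XT.lf (nat_lit 76) (nat_lit 17981672314) (nat_lit 0) (nat_lit 14570527781) (nat_lit 1216) (nat_lit 54625056015) (nat_lit 170) (nat_lit 5) (nat_lit 169) (nat_lit 5) (nat_lit 185)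 (nat_lit 5) (nat_lit 306) (nat_lit 299) (nat_lit 115)) (XT.nd (nat_lit 78) (nat_lit 0) (nat_lit 76) (XT.lf (nat_lit 0) (nat_lit 40133776963) (nat_lit 1140) (nat_lit 4032975089) (nat_lit 1216) (nat_lit 45359602785) (nat_lit 170) (nat_lit 5) (nat_lit 185) (nat_lit 5) (nat_lit 186) (nat_lit 5) (nat_lit 307) (nat_lit 299) (nat_lit 114)) (XT.lf (nat_lit 0) (nat_lit 49030461100) (nat_lit 1140) (nat_lit 26611129442) (nat_lit 1216) (nat_lit 16323238586) (nat_lit 171) (nat_lit 5) (nat_lit 186) (nat_lit 5) (nat_lit 187) (nat_lit 5) (nat_lit 308) (nat_lit 299) (nat_lit 113)))) (XT.nd (nat_lit 78) (nat_lit 1064) (nat_lit 0) (XT.lf (nat_lit 76) (nat_lit 44185342857) (nat_lit 0) (nat_lit 15098251441) (nat_lit 1216) (nat_lit 35214285801) (nat_lit 172) (nat_lit 5) (nat_lit 171) (nat_lit 5) (nat_lit 187) (nat_lit 5) (nat_lit 309) (nat_lit 299) (nat_lit 112)) (XT.nd (nat_lit 78) (nat_lit 0) (nat_lit 0) (XT.lf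 (nat_lit 0) (nat_lit 21886100392) (nat_lit 1140) (nat_lit 49115462025) (nat_lit 1216) (nat_lit 26127457199) (nat_lit 157) (nat_lit 5) (nat_lit 172) (nat_lit 5) (nat_lit 173) (nat_lit 5) (nat_lit 310) (nat_lit 299) (nat_lit 111)) (XT.lf (nat_lit 0) (nat_lit 84113983009) (nat_lit 1216) (nat_lit 1422214625) (nat_lit 76) (nat_lit 14331263134) (nat_lit 157) (nat_lit 5) (nat_lit 173) (nat_lit 5) (nat_lit 158) (nat_lit 5) (nat_lit 311) (nat_lit 299) (nat_lit 110)))))) (XT.nd (nat_lit 36660) (nat_lit 0) (nat_lit 2888) (XT.nd (nat_lit 156) (nat_lit 1064) (nat_lit 0) (XT.nd (nat_lit 78) (nat_lit 684) (nat_lit 0) (XT.lf (nat_lit 0) (nat_lit 77097583178) (nat_lit 532) (nat_lit 22020554362) (nat_lit 608) (nat_lit 3587604268) (nat_lit 150) (nat_lit 5) (nat_lit 157) (nat_lit 5) (nat_lit 158) (nat_lit 5) (nat_lit 312) (nat_lit 299) (nat_lit 109)) (XT.lf (nat_lit 0) (nat_lit 9984458675) (nat_lit 684) (nat_lit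 51233509435) (nat_lit 76) (nat_lit 44436005951) (nat_lit 141) (nat_lit 5) (nat_lit 150) (nat_lit 5) (nat_lit 142) (nat_lit 5) (nat_lit 313) (nat_lit 299) (nat_lit 108))) (XT.nd (nat_lit 78) (nat_lit 532) (nat_lit 0) (XT.lf (nat_lit 0) (nat_lit 24997533290) (nat_lit 608) (nat_lit 78200341550) (nat_lit 76) (nat_lit 5525580365) (nat_lit 134) (nat_lit 5) (nat_lit 142) (nat_lit 5) (nat_lit 135) (nat_lit 5) (nat_lit 314) (nat_lit 299) (nat_lit 107)) (XT.nd (nat_lit 36348) (nat_lit 0) (nat_lit 2888) (XT.lf (nat_lit 0) (nat_lit 4981036831) (nat_lit 532) (nat_lit 36977963602) (nat_lit 608) (nat_lit 69951478832) (nat_lit 127) (nat_lit 5) (nat_lit 134) (nat_lit 5) (nat_lit 135) (nat_lit 5) (nat_lit 315) (nat_lit 299) (nat_lit 106)) (XT.lf (nat_lit 0) (nat_lit 2401960860) (nat_lit 0) (nat_lit 2401960860) (nat_lit 1140) (nat_lit 33505557044) (nat_lit 165) (nat_lit 5) (nat_lit 165) (nat_lit 3) (nat_lit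 180) (nat_lit 3) (nat_lit 300) (nat_lit 300) (nat_lit 120))))) (XT.nd (nat_lit 234) (nat_lit 0) (nat_lit 152) (XT.nd (nat_lit 78) (nat_lit 0) (nat_lit 76) (XT.lf (nat_lit 0) (nat_lit 10367362131) (nat_lit 1140) (nat_lit 16937310653) (nat_lit 1216) (nat_lit 51214149458) (nat_lit 165) (nat_lit 5) (nat_lit 180) (nat_lit 3) (nat_lit 181) (nat_lit 5) (nat_lit 301) (nat_lit 300) (nat_lit 119)) (XT.nd (nat_lit 78) (nat_lit 0) (nat_lit 76) (XT.lf (nat_lit 0) (nat_lit 11897407277) (nat_lit 1140) (nat_lit 39343142185) (nat_lit 1216) (nat_lit 29251156102) (nat_lit 166) (nat_lit 5) (nat_lit 181) (nat_lit 5) (nat_lit 182) (nat_lit 5) (nat_lit 302) (nat_lit 300) (nat_lit 118)) (XT.lf (nat_lit 0) (nat_lit 14204016178) (nat_lit 1140) (nat_lit 62552710400) (nat_lit 1216) (nat_lit 5785506431) (nat_lit 167) (nat_lit 5) (nat_lit 182) (nat_lit 5) (nat_lit 183) (nat_lit 5) (nat_lit 303) (nat_lit 300) (nat_lit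 117)))) (XT.nd (nat_lit 78) (nat_lit 0) (nat_lit 76) (XT.lf (nat_lit 0) (nat_lit 17551153774) (nat_lit 1140) (nat_lit 2093983922) (nat_lit 1216) (nat_lit 65022394898) (nat_lit 167) (nat_lit 5) (nat_lit 182) (nat_lit 5) (nat_lit 183) (nat_lit 5) (nat_lit 304) (nat_lit 300) (nat_lit 116)) (XT.nd (nat_lit 78) (nat_lit 0) (nat_lit 76) (XT.lf (nat_lit 0) (nat_lit 22060094114) (nat_lit 1140) (nat_lit 24665832865) (nat_lit 1216) (nat_lit 40143338439) (nat_lit 168) (nat_lit 5) (nat_lit 183) (nat_lit 5) (nat_lit 184) (nat_lit 5) (nat_lit 305) (nat_lit 300) (nat_lit 115)) (XT.lf (nat_lit 0) (nat_lit 27541912497) (nat_lit 1140) (nat_lit 48111472764) (nat_lit 1216) (nat_lit 13505278245) (nat_lit 169) (nat_lit 5) (nat_lit 184) (nat_lit 5) (nat_lit 185) (nat_lit 5) (nat_lit 306) (nat_lit 300) (nat_lit 114))))))) (XT.nd (nat_lit 37284) (nat_lit 0) (nat_lit 684) (XT.nd (nat_lit 390) (nat_lit 1216) (nat_lit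 0) (XT.nd (nat_lit 156) (nat_lit 912) (nat_lit 0) (XT.nd (nat_lit 78) (nat_lit 0) (nat_lit 76) (XT.lf (nat_lit 76) (nat_lit 18900452673) (nat_lit 0) (nat_lit 15306227427) (nat_lit 1216) (nat_lit 57328587133) (nat_lit 170) (nat_lit 5) (nat_lit 169) (nat_lit 5) (nat_lit 185) (nat_lit 5) (nat_lit 307) (nat_lit 300) (nat_lit 113)) (XT.lf (nat_lit 0) (nat_lit 42165990617) (nat_lit 1140) (nat_lit 4214988244) (nat_lit 1216) (nat_lit 47620884561) (nat_lit 170) (nat_lit 5) (nat_lit 185) (nat_lit 5) (nat_lit 186) (nat_lit 5) (nat_lit 308) (nat_lit 300) (nat_lit 112))) (XT.nd (nat_lit 78) (nat_lit 1064) (nat_lit 0) (XT.lf (nat_lit 0) (nat_lit 51506424733) (nat_lit 1140) (nat_lit 27921784941) (nat_lit 1216) (nat_lit 17134086348) (nat_lit 171) (nat_lit 5) (nat_lit 186) (nat_lit 5) (nat_lit 187) (nat_lit 5) (nat_lit 309) (nat_lit 300) (nat_lit 111)) (XT.nd (nat_lit 78) (nat_lit 1064) (nat_lit 0) (XT.lf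 (nat_lit 76) (nat_lit 46413940516) (nat_lit 0) (nat_lit 15857296056) (nat_lit 1216) (nat_lit 36950794281) (nat_lit 172) (nat_lit 5) (nat_lit 171) (nat_lit 5) (nat_lit 187) (nat_lit 5) (nat_lit 310) (nat_lit 300) (nat_lit 110)) (XT.lf (nat_lit 0) (nat_lit 22999942350) (nat_lit 1140) (nat_lit 51574193454) (nat_lit 1216) (nat_lit 27410622435) (nat_lit 157) (nat_lit 5) (nat_lit 172) (nat_lit 5) (nat_lit 173) (nat_lit 5) (nat_lit 311) (nat_lit 300) (nat_lit 109))))) (XT.nd (nat_lit 36660) (nat_lit 0) (nat_lit 1824) (XT.nd (nat_lit 78) (nat_lit 1216) (nat_lit 0) (XT.lf (nat_lit 0) (nat_lit 88341079139) (nat_lit 1216) (nat_lit 1474013228) (nat_lit 76) (nat_lit 15045063814) (nat_lit 157) (nat_lit 5) (nat_lit 173) (nat_lit 5) (nat_lit 158) (nat_lit 5) (nat_lit 312) (nat_lit 300) (nat_lit 108)) (XT.nd (nat_lit 78) (nat_lit 684) (nat_lit 0) (XT.lf (nat_lit 0) (nat_lit 80971220886) (nat_lit 532) (nat_lit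 23123381926) (nat_lit 608) (nat_lit 3745775321) (nat_lit 150) (nat_lit 5) (nat_lit 157) (nat_lit 5) (nat_lit 158) (nat_lit 5) (nat_lit 313) (nat_lit 300) (nat_lit 107)) (XT.lf (nat_lit 0) (nat_lit 10503653193) (nat_lit 684) (nat_lit 53775886227) (nat_lit 76) (nat_lit 46656502747) (nat_lit 141) (nat_lit 5) (nat_lit 150) (nat_lit 5) (nat_lit 142) (nat_lit 5) (nat_lit 314) (nat_lit 300) (nat_lit 106)))) (XT.nd (nat_lit 78) (nat_lit 0) (nat_lit 0) (XT.lf (nat_lit 0) (nat_lit 2530536002) (nat_lit 0) (nat_lit 2530536002) (nat_lit 1140) (nat_lit 35163342985) (nat_lit 165) (nat_lit 5) (nat_lit 165) (nat_lit 3) (nat_lit 180) (nat_lit 3) (nat_lit 301) (nat_lit 301) (nat_lit 118)) (XT.nd (nat_lit 78) (nat_lit 0) (nat_lit 76) (XT.lf (nat_lit 0) (nat_lit 10917868734) (nat_lit 1140) (nat_lit 17766849900) (nat_lit 1216) (nat_lit 53759025159) (nat_lit 165) (nat_lit 5) (nat_lit 180) (nat_lit 3) (nat_lit 181)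 (nat_lit 5) (nat_lit 302) (nat_lit 301) (nat_lit 117)) (XT.lf (nat_lit 0) (nat_lit 12522913507) (nat_lit 1140) (nat_lit 41292359799) (nat_lit 1216) (nat_lit 30700045692) (nat_lit 166) (nat_lit 5) (nat_lit 181) (nat_lit 5) (nat_lit 182) (nat_lit 5) (nat_lit 303) (nat_lit 301) (nat_lit 116)))))) (XT.nd (nat_lit 390) (nat_lit 1292) (nat_lit 0) (XT.nd (nat_lit 156) (nat_lit 0) (nat_lit 76) (XT.nd (nat_lit 78) (nat_lit 0) (nat_lit 0) (XT.lf (nat_lit 0) (nat_lit 14943446930) (nat_lit 1140) (nat_lit 65661875491) (nat_lit 1216) (nat_lit 6063095086) (nat_lit 167) (nat_lit 5) (nat_lit 182) (nat_lit 5) (nat_lit 183) (nat_lit 5) (nat_lit 304) (nat_lit 301) (nat_lit 115)) (XT.lf (nat_lit 0) (nat_lit 18456549504) (nat_lit 1140) (nat_lit 2181092234) (nat_lit 1216) (nat_lit 68262384484) (nat_lit 167) (nat_lit 5) (nat_lit 182) (nat_lit 5) (nat_lit 183) (nat_lit 5) (nat_lit 305) (nat_lit 301) (nat_lit 114)))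 (XT.nd (nat_lit 78) (nat_lit 0) (nat_lit 76) (XT.lf (nat_lit 0) (nat_lit 23189683302) (nat_lit 1140) (nat_lit 25881099796) (nat_lit 1216) (nat_lit 42141102474) (nat_lit 168) (nat_lit 5) (nat_lit 183) (nat_lit 5) (nat_lit 184) (nat_lit 5) (nat_lit 306) (nat_lit 301) (nat_lit 113)) (XT.nd (nat_lit 78) (nat_lit 0) (nat_lit 0) (XT.lf (nat_lit 0) (nat_lit 28944418277) (nat_lit 1140) (nat_lit 50498653651) (nat_lit 1216) (nat_lit 14172719038) (nat_lit 169) (nat_lit 5) (nat_lit 184) (nat_lit 5) (nat_lit 185) (nat_lit 5) (nat_lit 307) (nat_lit 301) (nat_lit 112)) (XT.lf (nat_lit 76) (nat_lit 19863340834) (nat_lit 0) (nat_lit 16078045153) (nat_lit 1216) (nat_lit 60169872107) (nat_lit 170) (nat_lit 5) (nat_lit 169) (nat_lit 5) (nat_lit 185) (nat_lit 5) (nat_lit 308) (nat_lit 301) (nat_lit 111))))) (XT.nd (nat_lit 234) (nat_lit 1520) (nat_lit 0) (XT.nd (nat_lit 78) (nat_lit 0) (nat_lit 76) (XT.lf (nat_lit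 0) (nat_lit 44297441899) (nat_lit 1140) (nat_lit 4407927589) (nat_lit 1216) (nat_lit 49995853177) (nat_lit 170) (nat_lit 5) (nat_lit 185) (nat_lit 5) (nat_lit 186) (nat_lit 5) (nat_lit 309) (nat_lit 301) (nat_lit 110)) (XT.nd (nat_lit 78) (nat_lit 0) (nat_lit 0) (XT.lf (nat_lit 0) (nat_lit 54103914295) (nat_lit 1140) (nat_lit 29299823419) (nat_lit 1216) (nat_lit 17985970559) (nat_lit 171) (nat_lit 5) (nat_lit 186) (nat_lit 5) (nat_lit 187) (nat_lit 5) (nat_lit 310) (nat_lit 301) (nat_lit 109)) (XT.lf (nat_lit 76) (nat_lit 48752170889) (nat_lit 0) (nat_lit 16653908743) (nat_lit 1216) (nat_lit 38776378612) (nat_lit 172) (nat_lit 5) (nat_lit 171) (nat_lit 5) (nat_lit 187) (nat_lit 5) (nat_lit 311) (nat_lit 301) (nat_lit 108)))) (XT.nd (nat_lit 78) (nat_lit 532) (nat_lit 0) (XT.lf (nat_lit 0) (nat_lit 24167660047) (nat_lit 1140) (nat_lit 54155586417) (nat_lit 1216) (nat_lit 28760103557) (nat_lit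 157) (nat_lit 5) (nat_lit 172) (nat_lit 5) (nat_lit 173) (nat_lit 5) (nat_lit 312) (nat_lit 301) (nat_lit 107)) (XT.nd (nat_lit 78) (nat_lit 532) (nat_lit 0) (XT.lf (nat_lit 0) (nat_lit 92777540788) (nat_lit 1216) (nat_lit 1530197221) (nat_lit 76) (nat_lit 15794811358) (nat_lit 157) (nat_lit 5) (nat_lit 173) (nat_lit 5) (nat_lit 158) (nat_lit 5) (nat_lit 313) (nat_lit 301) (nat_lit 106)) (XT.lf (nat_lit 0) (nat_lit 85036796488) (nat_lit 532) (nat_lit 24281183535) (nat_lit 608) (nat_lit 3913826754) (nat_lit 150) (nat_lit 5) (nat_lit 157) (nat_lit 5) (nat_lit 158) (nat_lit 5) (nat_lit 314) (nat_lit 301) (nat_lit 105))))))))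
noncomputable def xc127 : XT := (XT.nd (nat_lit 75192) (nat_lit 0) (nat_lit 608) (XT.nd (nat_lit 858) (nat_lit 608) (nat_lit 0) (XT.nd (nat_lit 390) (nat_lit 0) (nat_lit 228) (XT.nd (nat_lit 156) (nat_lit 0) (nat_lit 76) (XT.nd (nat_lit 78) (nat_lit 0) (nat_lit 0) (XT.lf (nat_lit 0) (nat_lit 2664751781) (nat_lit 0) (nat_lit 2664751781) (nat_lit 1140) (nat_lit 36905644455) (nat_lit 165) (nat_lit 5) (nat_lit 165) (nat_lit 3) (nat_lit 180) (nat_lit 3) (nat_lit 302) (nat_lit 302) (nat_lit 116)) (XT.lf (nat_lit 0) (nat_lit 11492912735) (nat_lit 1140) (nat_lit 18639476944) (nat_lit 1216) (nat_lit 56432616533) (nat_lit 165) (nat_lit 5) (nat_lit 180) (nat_lit 3) (nat_lit 181) (nat_lit 5) (nat_lit 303) (nat_lit 302) (nat_lit 115))) (XT.nd (nat_lit 78) (nat_lit 0) (nat_lit 76) (XT.lf (nat_lit 0) (nat_lit 13176846817) (nat_lit 1140) (nat_lit 43340706138) (nat_lit 1216) (nat_lit 32222650504) (nat_lit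 166) (nat_lit 5) (nat_lit 181) (nat_lit 5) (nat_lit 182) (nat_lit 5) (nat_lit 304) (nat_lit 302) (nat_lit 114)) (XT.nd (nat_lit 78) (nat_lit 0) (nat_lit 0) (XT.lf (nat_lit 0) (nat_lit 15717131697) (nat_lit 1140) (nat_lit 68928216043) (nat_lit 1216) (nat_lit 6355649688) (nat_lit 167) (nat_lit 5) (nat_lit 182) (nat_lit 5) (nat_lit 183) (nat_lit 5) (nat_lit 305) (nat_lit 302) (nat_lit 113)) (XT.lf (nat_lit 0) (nat_lit 19404626903) (nat_lit 1140) (nat_lit 2274191396) (nat_lit 1216) (nat_lit 71665408326) (nat_lit 167) (nat_lit 5) (nat_lit 182) (nat_lit 5) (nat_lit 183) (nat_lit 5) (nat_lit 306) (nat_lit 302) (nat_lit 112))))) (XT.nd (nat_lit 234) (nat_lit 0) (nat_lit 152) (XT.nd (nat_lit 78) (nat_lit 0) (nat_lit 76) (XT.lf (nat_lit 0) (nat_lit 24373280376) (nat_lit 1140) (nat_lit 27158805841) (nat_lit 1216) (nat_lit 44239628902) (nat_lit 168) (nat_lit 5) (nat_lit 183) (nat_lit 5) (nat_lit 184)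 (nat_lit 5) (nat_lit 307) (nat_lit 302) (nat_lit 111)) (XT.nd (nat_lit 78) (nat_lit 0) (nat_lit 0) (XT.lf (nat_lit 0) (nat_lit 30414686951) (nat_lit 1140) (nat_lit 53006903566) (nat_lit 1216) (nat_lit 14874259190) (nat_lit 169) (nat_lit 5) (nat_lit 184) (nat_lit 5) (nat_lit 185) (nat_lit 5) (nat_lit 308) (nat_lit 302) (nat_lit 110)) (XT.lf (nat_lit 76) (nat_lit 20872712435) (nat_lit 0) (nat_lit 16887848867) (nat_lit 1216) (nat_lit 63155559016) (nat_lit 170) (nat_lit 5) (nat_lit 169) (nat_lit 5) (nat_lit 185) (nat_lit 5) (nat_lit 309) (nat_lit 302) (nat_lit 109)))) (XT.nd (nat_lit 78) (nat_lit 0) (nat_lit 76) (XT.lf (nat_lit 0) (nat_lit 46533313315) (nat_lit 1140) (nat_lit 4612169712) (nat_lit 1216) (nat_lit 52490135077) (nat_lit 170) (nat_lit 5) (nat_lit 185) (nat_lit 5) (nat_lit 186) (nat_lit 5) (nat_lit 310) (nat_lit 302) (nat_lit 108)) (XT.nd (nat_lit 78) (nat_lit 0) (nat_lit 0) (XT.lf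 (nat_lit 0) (nat_lit 56829217334) (nat_lit 1140) (nat_lit 30748442011) (nat_lit 1216) (nat_lit 18880897109) (nat_lit 171) (nat_lit 5) (nat_lit 186) (nat_lit 5) (nat_lit 187) (nat_lit 5) (nat_lit 311) (nat_lit 302) (nat_lit 107)) (XT.lf (nat_lit 76) (nat_lit 51205682696) (nat_lit 0) (nat_lit 17490003622) (nat_lit 1216) (nat_lit 40695283362) (nat_lit 172) (nat_lit 5) (nat_lit 171) (nat_lit 5) (nat_lit 187) (nat_lit 5) (nat_lit 312) (nat_lit 302) (nat_lit 106)))))) (XT.nd (nat_lit 37050) (nat_lit 0) (nat_lit 760) (XT.nd (nat_lit 36816) (nat_lit 0) (nat_lit 608) (XT.nd (nat_lit 36738) (nat_lit 0) (nat_lit 608) (XT.lf (nat_lit 0) (nat_lit 25392116136) (nat_lit 1140) (nat_lit 56865799562) (nat_lit 1216) (nat_lit 30179015765) (nat_lit 157) (nat_lit 5) (nat_lit 172) (nat_lit 5) (nat_lit 173) (nat_lit 5) (nat_lit 313) (nat_lit 302) (nat_lit 105)) (XT.lf (nat_lit 0) (nat_lit 2804963500) (nat_lit 0)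 (nat_lit 2804963500) (nat_lit 1140) (nat_lit 38736536039) (nat_lit 165) (nat_lit 5) (nat_lit 165) (nat_lit 3) (nat_lit 180) (nat_lit 3) (nat_lit 303) (nat_lit 303) (nat_lit 114))) (XT.nd (nat_lit 78) (nat_lit 0) (nat_lit 76) (XT.lf (nat_lit 0) (nat_lit 12093998793) (nat_lit 1140) (nat_lit 19557196414) (nat_lit 1216) (nat_lit 59241222522) (nat_lit 165) (nat_lit 5) (nat_lit 180) (nat_lit 3) (nat_lit 181) (nat_lit 5) (nat_lit 304) (nat_lit 303) (nat_lit 113)) (XT.nd (nat_lit 78) (nat_lit 0) (nat_lit 76) (XT.lf (nat_lit 0) (nat_lit 13860893361) (nat_lit 1140) (nat_lit 45492982577) (nat_lit 1216) (nat_lit 33822538156) (nat_lit 166) (nat_lit 5) (nat_lit 181) (nat_lit 5) (nat_lit 182) (nat_lit 5) (nat_lit 305) (nat_lit 303) (nat_lit 112)) (XT.lf (nat_lit 0) (nat_lit 16527035828) (nat_lit 1140) (nat_lit 72359431178) (nat_lit 1216) (nat_lit 6663817523) (nat_lit 167) (nat_lit 5) (nat_lit 182) (nat_lit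 5) (nat_lit 183) (nat_lit 5) (nat_lit 306) (nat_lit 303) (nat_lit 111))))) (XT.nd (nat_lit 234) (nat_lit 0) (nat_lit 152) (XT.nd (nat_lit 78) (nat_lit 0) (nat_lit 76) (XT.lf (nat_lit 0) (nat_lit 20397760673) (nat_lit 1140) (nat_lit 2373428901) (nat_lit 1216) (nat_lit 75239521932) (nat_lit 167) (nat_lit 5) (nat_lit 182) (nat_lit 5) (nat_lit 183) (nat_lit 5) (nat_lit 307) (nat_lit 303) (nat_lit 110)) (XT.nd (nat_lit 78) (nat_lit 0) (nat_lit 76) (XT.lf (nat_lit 0) (nat_lit 25613815514) (nat_lit 1140) (nat_lit 28501917158) (nat_lit 1216) (nat_lit 46443874569) (nat_lit 168) (nat_lit 5) (nat_lit 183) (nat_lit 5) (nat_lit 184) (nat_lit 5) (nat_lit 308) (nat_lit 303) (nat_lit 109)) (XT.lf (nat_lit 0) (nat_lit 31956326296) (nat_lit 1140) (nat_lit 55642116982) (nat_lit 1216) (nat_lit 15611536049) (nat_lit 169) (nat_lit 5) (nat_lit 184) (nat_lit 5) (nat_lit 185) (nat_lit 5) (nat_lit 309) (nat_lit 303)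 (nat_lit 108)))) (XT.nd (nat_lit 78) (nat_lit 0) (nat_lit 76) (XT.lf (nat_lit 76) (nat_lit 21931046070) (nat_lit 0) (nat_lit 17737594105) (nat_lit 1216) (nat_lit 66292650621) (nat_lit 170) (nat_lit 5) (nat_lit 169) (nat_lit 5) (nat_lit 185) (nat_lit 5) (nat_lit 310) (nat_lit 303) (nat_lit 107)) (XT.nd (nat_lit 78) (nat_lit 0) (nat_lit 76) (XT.lf (nat_lit 0) (nat_lit 48879025984) (nat_lit 1140) (nat_lit 4828125811) (nat_lit 1216) (nat_lit 55109643410) (nat_lit 170) (nat_lit 5) (nat_lit 185) (nat_lit 5) (nat_lit 186) (nat_lit 5) (nat_lit 311) (nat_lit 303) (nat_lit 106)) (XT.lf (nat_lit 0) (nat_lit 59688916136) (nat_lit 1140) (nat_lit 32271013699) (nat_lit 1216) (nat_lit 19820976451) (nat_lit 171) (nat_lit 5) (nat_lit 186) (nat_lit 5) (nat_lit 187) (nat_lit 5) (nat_lit 312) (nat_lit 303) (nat_lit 105))))))) (XT.nd (nat_lit 37752) (nat_lit 0) (nat_lit 0) (XT.nd (nat_lit 390) (nat_lit 0) (nat_lit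 0) (XT.nd (nat_lit 156) (nat_lit 0) (nat_lit 76) (XT.nd (nat_lit 78) (nat_lit 0) (nat_lit 0) (XT.lf (nat_lit 0) (nat_lit 2951537417) (nat_lit 0) (nat_lit 2951537417) (nat_lit 1140) (nat_lit 40660310107) (nat_lit 165) (nat_lit 5) (nat_lit 165) (nat_lit 3) (nat_lit 180) (nat_lit 3) (nat_lit 304) (nat_lit 304) (nat_lit 112)) (XT.lf (nat_lit 0) (nat_lit 12722680973) (nat_lit 1140) (nat_lit 20522127094) (nat_lit 1216) (nat_lit 62191469736) (nat_lit 165) (nat_lit 5) (nat_lit 180) (nat_lit 3) (nat_lit 181) (nat_lit 5) (nat_lit 305) (nat_lit 304) (nat_lit 111))) (XT.nd (nat_lit 78) (nat_lit 0) (nat_lit 76) (XT.lf (nat_lit 0) (nat_lit 14576798985) (nat_lit 1140) (nat_lit 47754244978) (nat_lit 1216) (nat_lit 35503465632) (nat_lit 166) (nat_lit 5) (nat_lit 181) (nat_lit 5) (nat_lit 182) (nat_lit 5) (nat_lit 306) (nat_lit 304) (nat_lit 110)) (XT.nd (nat_lit 78) (nat_lit 0) (nat_lit 0) (XT.lf (nat_lit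 0) (nat_lit 17375199453) (nat_lit 1140) (nat_lit 75963619819) (nat_lit 1216) (nat_lit 6988287628) (nat_lit 167) (nat_lit 5) (nat_lit 182) (nat_lit 5) (nat_lit 183) (nat_lit 5) (nat_lit 307) (nat_lit 304) (nat_lit 109)) (XT.lf (nat_lit 0) (nat_lit 21438421882) (nat_lit 1140) (nat_lit 2478973758) (nat_lit 1216) (nat_lit 78993192533) (nat_lit 167) (nat_lit 5) (nat_lit 182) (nat_lit 5) (nat_lit 183) (nat_lit 5) (nat_lit 308) (nat_lit 304) (nat_lit 108))))) (XT.nd (nat_lit 234) (nat_lit 228) (nat_lit 0) (XT.nd (nat_lit 78) (nat_lit 0) (nat_lit 76) (XT.lf (nat_lit 0) (nat_lit 26914344039) (nat_lit 1140) (nat_lit 29913562698) (nat_lit 1216) (nat_lit 48759051719) (nat_lit 168) (nat_lit 5) (nat_lit 183) (nat_lit 5) (nat_lit 184) (nat_lit 5) (nat_lit 309) (nat_lit 304) (nat_lit 107)) (XT.nd (nat_lit 78) (nat_lit 0) (nat_lit 0) (XT.lf (nat_lit 0) (nat_lit 33573104060) (nat_lit 1140) (nat_lit 58410497877)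 (nat_lit 1216) (nat_lit 16386275119) (nat_lit 169) (nat_lit 5) (nat_lit 184) (nat_lit 5) (nat_lit 185) (nat_lit 5) (nat_lit 310) (nat_lit 304) (nat_lit 106)) (XT.lf (nat_lit 76) (nat_lit 23040929905) (nat_lit 0) (nat_lit 18629328953) (nat_lit 1216) (nat_lit 69588520027) (nat_lit 170) (nat_lit 5) (nat_lit 169) (nat_lit 5) (nat_lit 185) (nat_lit 5) (nat_lit 311) (nat_lit 304) (nat_lit 105)))) (XT.nd (nat_lit 36972) (nat_lit 380) (nat_lit 0) (XT.lf (nat_lit 0) (nat_lit 51340253477) (nat_lit 1140) (nat_lit 5056241956) (nat_lit 1216) (nat_lit 57860591865) (nat_lit 170) (nat_lit 5) (nat_lit 185) (nat_lit 5) (nat_lit 186) (nat_lit 5) (nat_lit 312) (nat_lit 304) (nat_lit 104)) (XT.nd (nat_lit 78) (nat_lit 0) (nat_lit 0) (XT.lf (nat_lit 0) (nat_lit 3104851922) (nat_lit 0) (nat_lit 3104851922) (nat_lit 1140) (nat_lit 42681486398) (nat_lit 165) (nat_lit 5) (nat_lit 165) (nat_lit 3) (nat_lit 180) (nat_lit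 3) (nat_lit 305) (nat_lit 305) (nat_lit 110)) (XT.lf (nat_lit 0) (nat_lit 13380567622) (nat_lit 1140) (nat_lit 21536506337) (nat_lit 1216) (nat_lit 65290327656) (nat_lit 165) (nat_lit 5) (nat_lit 180) (nat_lit 3) (nat_lit 181) (nat_lit 5) (nat_lit 306) (nat_lit 305) (nat_lit 109)))))) (XT.nd (nat_lit 37518) (nat_lit 0) (nat_lit 0) (XT.nd (nat_lit 234) (nat_lit 76) (nat_lit 0) (XT.nd (nat_lit 78) (nat_lit 0) (nat_lit 76) (XT.lf (nat_lit 0) (nat_lit 15326374495) (nat_lit 1140) (nat_lit 50129815071) (nat_lit 1216) (nat_lit 37269387728) (nat_lit 166) (nat_lit 5) (nat_lit 181) (nat_lit 5) (nat_lit 182) (nat_lit 5) (nat_lit 307) (nat_lit 305) (nat_lit 108)) (XT.nd (nat_lit 78) (nat_lit 0) (nat_lit 0) (XT.lf (nat_lit 0) (nat_lit 18263743402) (nat_lit 1140) (nat_lit 79749299297) (nat_lit 1216) (nat_lit 7329792013) (nat_lit 167) (nat_lit 5) (nat_lit 182) (nat_lit 5) (nat_lit 183) (nat_lit 5) (nat_lit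 308) (nat_lit 305) (nat_lit 107)) (XT.lf (nat_lit 0) (nat_lit 22529184858) (nat_lit 1140) (nat_lit 2591016243) (nat_lit 1216) (nat_lit 82935318829) (nat_lit 167) (nat_lit 5) (nat_lit 182) (nat_lit 5) (nat_lit 183) (nat_lit 5) (nat_lit 309) (nat_lit 305) (nat_lit 106)))) (XT.nd (nat_lit 78) (nat_lit 228) (nat_lit 0) (XT.lf (nat_lit 0) (nat_lit 28278054665) (nat_lit 1140) (nat_lit 31397040998) (nat_lit 1216) (nat_lit 51190640061) (nat_lit 168) (nat_lit 5) (nat_lit 183) (nat_lit 5) (nat_lit 184) (nat_lit 5) (nat_lit 310) (nat_lit 305) (nat_lit 105)) (XT.nd (nat_lit 37128) (nat_lit 304) (nat_lit 0) (XT.lf (nat_lit 0) (nat_lit 35268957856) (nat_lit 1140) (nat_lit 61318573832) (nat_lit 1216) (nat_lit 17200293880) (nat_lit 169) (nat_lit 5) (nat_lit 184) (nat_lit 5) (nat_lit 185) (nat_lit 5) (nat_lit 311) (nat_lit 305) (nat_lit 104)) (XT.lf (nat_lit 0) (nat_lit 3265298722) (nat_lit 0) (nat_lit 3265298722)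 (nat_lit 1140) (nat_lit 44804822202) (nat_lit 165) (nat_lit 5) (nat_lit 165) (nat_lit 3) (nat_lit 180) (nat_lit 3) (nat_lit 306) (nat_lit 306) (nat_lit 108))))) (XT.nd (nat_lit 234) (nat_lit 0) (nat_lit 0) (XT.nd (nat_lit 78) (nat_lit 0) (nat_lit 76) (XT.lf (nat_lit 0) (nat_lit 14069326252) (nat_lit 1140) (nat_lit 22602694818) (nat_lit 1216) (nat_lit 68545124705) (nat_lit 165) (nat_lit 5) (nat_lit 180) (nat_lit 3) (nat_lit 181) (nat_lit 5) (nat_lit 307) (nat_lit 306) (nat_lit 107)) (XT.nd (nat_lit 78) (nat_lit 0) (nat_lit 76) (XT.lf (nat_lit 0) (nat_lit 16111500984) (nat_lit 1140) (nat_lit 52625292530) (nat_lit 1216) (nat_lit 39124466017) (nat_lit 166) (nat_lit 5) (nat_lit 181) (nat_lit 5) (nat_lit 182) (nat_lit 5) (nat_lit 308) (nat_lit 306) (nat_lit 106)) (XT.lf (nat_lit 0) (nat_lit 19194875222) (nat_lit 1140) (nat_lit 83725425021) (nat_lit 1216) (nat_lit 7689107013) (nat_lit 167) (nat_lit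 5) (nat_lit 182) (nat_lit 5) (nat_lit 183) (nat_lit 5) (nat_lit 309) (nat_lit 306) (nat_lit 105)))) (XT.nd (nat_lit 37362) (nat_lit 152) (nat_lit 0) (XT.lf (nat_lit 0) (nat_lit 23672734243) (nat_lit 1140) (nat_lit 2709767778) (nat_lit 1216) (nat_lit 87075251819) (nat_lit 167) (nat_lit 5) (nat_lit 182) (nat_lit 5) (nat_lit 183) (nat_lit 5) (nat_lit 310) (nat_lit 306) (nat_lit 104)) (XT.nd (nat_lit 78) (nat_lit 0) (nat_lit 76) (XT.lf (nat_lit 0) (nat_lit 14790688482) (nat_lit 1140) (nat_lit 23723181635) (nat_lit 1216) (nat_lit 71963565217) (nat_lit 165) (nat_lit 5) (nat_lit 180) (nat_lit 3) (nat_lit 181) (nat_lit 5) (nat_lit 308) (nat_lit 307) (nat_lit 105)) (XT.lf (nat_lit 0) (nat_lit 16934135231) (nat_lit 1140) (nat_lit 55246567774) (nat_lit 1216) (nat_lit 41073078344) (nat_lit 166) (nat_lit 5) (nat_lit 181) (nat_lit 5) (nat_lit 182) (nat_lit 5) (nat_lit 309) (nat_lit 307) (nat_lit 104))))))))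

set_option maxRecDepth 10000000 in
noncomputable def Tp : PT := (PT.nd (nat_lit 4623918) (PT.nd (nat_lit 4286256) (PT.nd (nat_lit 3949218) (PT.nd (nat_lit 3649542) pc0 pc1) (PT.nd (nat_lit 187278) pc2 pc3)) (PT.nd (nat_lit 187824) (PT.nd (nat_lit 112242) pc4 pc5) (PT.nd (nat_lit 75192) pc6 pc7))) (PT.nd (nat_lit 223938) (PT.nd (nat_lit 112554) (PT.nd (nat_lit 74022) pc8 pc9) (PT.nd (nat_lit 38376) pc10 pc11)) (PT.nd (nat_lit 112086) (PT.nd (nat_lit 37830) pc12 pc13) (PT.nd (nat_lit 112008) pc14 pc15))))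

set_option maxRecDepth 10000000 in
noncomputable def Tx : XT := (XT.nd (nat_lit 7267104) (nat_lit 0) (nat_lit 152) XT.nil (XT.nd (nat_lit 4275102) (nat_lit 0) (nat_lit 0) (XT.nd (nat_lit 2020434) (nat_lit 0) (nat_lit 456) (XT.nd (nat_lit 1385592) (nat_lit 0) (nat_lit 76) (XT.nd (nat_lit 972660) (nat_lit 0) (nat_lit 0) (XT.nd (nat_lit 673530) (nat_lit 0) (nat_lit 0) (XT.nd (nat_lit 449592) (nat_lit 0) (nat_lit 0) (XT.nd (nat_lit 299754) (nat_lit 0) (nat_lit 0) (XT.nd (nat_lit 187512) (nat_lit 0) (nat_lit 0) xc0 xc1) (XT.nd (nat_lit 75192) (nat_lit 0) (nat_lit 0) xc2 xc3)) (XT.nd (nat_lit 112632) (nat_lit 0) (nat_lit 0) (XT.nd (nat_lit 74100) (nat_lit 0) (nat_lit 0) xc4 xc5) (XT.nd (nat_lit 73164) (nat_lit 0) (nat_lit 0) xc6 xc7))) (XT.nd (nat_lit 150774) (nat_lit 0) (nat_lit 0) (XT.nd (nat_lit 75660) (nat_lit 0) (nat_lit 0) (XT.nd (nat_lit 37908) (nat_lit 0) (nat_lit 0) xc8 xc9) (XT.nd (nat_lit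 37596) (nat_lit 0) (nat_lit 0) xc10 xc11)) (XT.nd (nat_lit 74490) (nat_lit 0) (nat_lit 0) (XT.nd (nat_lit 37284) (nat_lit 0) (nat_lit 0) xc12 xc13) (XT.nd (nat_lit 36972) (nat_lit 0) (nat_lit 0) xc14 xc15)))) (XT.nd (nat_lit 224952) (nat_lit 0) (nat_lit 76) (XT.nd (nat_lit 113100) (nat_lit 0) (nat_lit 76) (XT.nd (nat_lit 40092) (nat_lit 0) (nat_lit 0) (XT.nd (nat_lit 36660) (nat_lit 0) (nat_lit 76) xc16 xc17) (XT.nd (nat_lit 36504) (nat_lit 0) (nat_lit 76) xc18 xc19)) (XT.nd (nat_lit 72384) (nat_lit 0) (nat_lit 0) (XT.nd (nat_lit 36270) (nat_lit 0) (nat_lit 0) xc20 xc21) (XT.nd (nat_lit 3432) (nat_lit 228) (nat_lit 0) xc22 xc23))) (XT.nd (nat_lit 110448) (nat_lit 0) (nat_lit 0) (XT.nd (nat_lit 39234) (nat_lit 0) (nat_lit 0) (XT.nd (nat_lit 35802) (nat_lit 0) (nat_lit 228) xc24 xc25) (XT.nd (nat_lit 35646) (nat_lit 0) (nat_lit 0) xc26 xc27)) (XT.nd (nat_lit 38844) (nat_lit 0) (nat_lit 0) (XT.nd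 (nat_lit 3432) (nat_lit 380) (nat_lit 0) xc28 xc29) (XT.nd (nat_lit 3432) (nat_lit 0) (nat_lit 0) xc30 xc31))))) (XT.nd (nat_lit 334542) (nat_lit 0) (nat_lit 152) (XT.nd (nat_lit 184080) (nat_lit 0) (nat_lit 152) (XT.nd (nat_lit 76830) (nat_lit 0) (nat_lit 0) (XT.nd (nat_lit 38454) (nat_lit 0) (nat_lit 0) (XT.nd (nat_lit 35022) (nat_lit 0) (nat_lit 456) xc32 xc33) (XT.nd (nat_lit 34866) (nat_lit 0) (nat_lit 228) xc34 xc35)) (XT.nd (nat_lit 38220) (nat_lit 0) (nat_lit 0) (XT.nd (nat_lit 34710) (nat_lit 0) (nat_lit 76) xc36 xc37) (XT.nd (nat_lit 34476) (nat_lit 0) (nat_lit 76) xc38 xc39))) (XT.nd (nat_lit 75426) (nat_lit 0) (nat_lit 0) (XT.nd (nat_lit 37752) (nat_lit 0) (nat_lit 0) (XT.nd (nat_lit 3432) (nat_lit 912) (nat_lit 0) xc40 xc41) (XT.nd (nat_lit 3432) (nat_lit 836) (nat_lit 0) xc42 xc43)) (XT.nd (nat_lit 37596) (nat_lit 0) (nat_lit 0) (XT.nd (nat_lit 3432) (nat_lit 836) (nat_lit 0)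 xc44 xc45) (XT.nd (nat_lit 3432) (nat_lit 836) (nat_lit 0) xc46 xc47)))) (XT.nd (nat_lit 149448) (nat_lit 0) (nat_lit 76) (XT.nd (nat_lit 74568) (nat_lit 0) (nat_lit 76) (XT.nd (nat_lit 37206) (nat_lit 0) (nat_lit 76) (XT.nd (nat_lit 3432) (nat_lit 836) (nat_lit 0) xc48 xc49) (XT.nd (nat_lit 3432) (nat_lit 1140) (nat_lit 0) xc50 xc51)) (XT.nd (nat_lit 37362) (nat_lit 0) (nat_lit 0) (XT.nd (nat_lit 3432) (nat_lit 1292) (nat_lit 0) xc52 xc53) (XT.nd (nat_lit 3432) (nat_lit 1444) (nat_lit 0) xc54 xc55))) (XT.nd (nat_lit 75192) (nat_lit 0) (nat_lit 0) (XT.nd (nat_lit 37518) (nat_lit 0) (nat_lit 0) (XT.nd (nat_lit 3432) (nat_lit 1596) (nat_lit 0) xc56 xc57) (XT.nd (nat_lit 3432) (nat_lit 1596) (nat_lit 0) xc58 xc59)) (XT.nd (nat_lit 37752) (nat_lit 0) (nat_lit 76) (XT.nd (nat_lit 3432) (nat_lit 1596) (nat_lit 0) xc60 xc61) (XT.nd (nat_lit 3432) (nat_lit 1368) (nat_lit 0) xc62 xc63)))))) (XT.nd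 (nat_lit 715494) (nat_lit 0) (nat_lit 912) (XT.nd (nat_lit 337740) (nat_lit 0) (nat_lit 304) (XT.nd (nat_lit 152256) (nat_lit 0) (nat_lit 76) (XT.nd (nat_lit 75972) (nat_lit 0) (nat_lit 76) (XT.nd (nat_lit 37908) (nat_lit 0) (nat_lit 0) (XT.nd (nat_lit 3432) (nat_lit 988) (nat_lit 0) xc64 xc65) (XT.nd (nat_lit 3432) (nat_lit 684) (nat_lit 0) xc66 xc67)) (XT.nd (nat_lit 38064) (nat_lit 0) (nat_lit 0) (XT.nd (nat_lit 3432) (nat_lit 304) (nat_lit 0) xc68 xc69) (XT.nd (nat_lit 3432) (nat_lit 76) (nat_lit 0) xc70 xc71))) (XT.nd (nat_lit 76596) (nat_lit 0) (nat_lit 76) (XT.nd (nat_lit 38220) (nat_lit 0) (nat_lit 0) (XT.nd (nat_lit 34788) (nat_lit 0) (nat_lit 1900) xc72 xc73) (XT.nd (nat_lit 34866) (nat_lit 0) (nat_lit 1064) xc74 xc75)) (XT.nd (nat_lit 38532) (nat_lit 0) (nat_lit 0) (XT.nd (nat_lit 35022) (nat_lit 0) (nat_lit 228) xc76 xc77) (XT.nd (nat_lit 35100) (nat_lit 0) (nat_lit 76) xc78 xc79))))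 (XT.nd (nat_lit 187668) (nat_lit 0) (nat_lit 228) (XT.nd (nat_lit 77532) (nat_lit 0) (nat_lit 0) (XT.nd (nat_lit 38688) (nat_lit 0) (nat_lit 0) (XT.nd (nat_lit 3432) (nat_lit 1292) (nat_lit 0) xc80 xc81) (XT.nd (nat_lit 3432) (nat_lit 304) (nat_lit 0) xc82 xc83)) (XT.nd (nat_lit 38844) (nat_lit 0) (nat_lit 76) (XT.nd (nat_lit 35412) (nat_lit 0) (nat_lit 988) xc84 xc85) (XT.nd (nat_lit 35568) (nat_lit 0) (nat_lit 0) xc86 xc87))) (XT.nd (nat_lit 78468) (nat_lit 0) (nat_lit 76) (XT.nd (nat_lit 39156) (nat_lit 0) (nat_lit 76) (XT.nd (nat_lit 3432) (nat_lit 1444) (nat_lit 0) xc88 xc89) (XT.nd (nat_lit 35802) (nat_lit 0) (nat_lit 1596) xc90 xc91)) (XT.nd (nat_lit 71994) (nat_lit 0) (nat_lit 228) (XT.nd (nat_lit 35880) (nat_lit 0) (nat_lit 76) xc92 xc93) (XT.nd (nat_lit 3432) (nat_lit 988) (nat_lit 0) xc94 xc95))))) (XT.nd (nat_lit 488670) (nat_lit 0) (nat_lit 1444) (XT.nd (nat_lit 225576) (nat_lit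 0) (nat_lit 380) (XT.nd (nat_lit 112320) (nat_lit 0) (nat_lit 228) (XT.nd (nat_lit 39624) (nat_lit 0) (nat_lit 76) (XT.nd (nat_lit 36192) (nat_lit 0) (nat_lit 228) xc96 xc97) (XT.nd (nat_lit 36270) (nat_lit 0) (nat_lit 0) xc98 xc99)) (XT.nd (nat_lit 39936) (nat_lit 0) (nat_lit 0) (XT.nd (nat_lit 36504) (nat_lit 0) (nat_lit 152) xc100 xc101) (XT.nd (nat_lit 36582) (nat_lit 0) (nat_lit 152) xc102 xc103))) (XT.nd (nat_lit 114114) (nat_lit 0) (nat_lit 532) (XT.nd (nat_lit 73632) (nat_lit 0) (nat_lit 380) (XT.nd (nat_lit 36738) (nat_lit 0) (nat_lit 304) xc104 xc105) (XT.nd (nat_lit 36972) (nat_lit 0) (nat_lit 304) xc106 xc107)) (XT.nd (nat_lit 74256) (nat_lit 0) (nat_lit 152) (XT.nd (nat_lit 37050) (nat_lit 0) (nat_lit 0) xc108 xc109) (XT.nd (nat_lit 37284) (nat_lit 0) (nat_lit 228) xc110 xc111)))) (XT.nd (nat_lit 337740) (nat_lit 0) (nat_lit 2052) (XT.nd (nat_lit 150540) (nat_lit 0) (nat_lit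 684) (XT.nd (nat_lit 75036) (nat_lit 0) (nat_lit 304) (XT.nd (nat_lit 37440) (nat_lit 0) (nat_lit 228) xc112 xc113) (XT.nd (nat_lit 37674) (nat_lit 0) (nat_lit 152) xc114 xc115)) (XT.nd (nat_lit 110604) (nat_lit 0) (nat_lit 760) (XT.nd (nat_lit 37908) (nat_lit 0) (nat_lit 304) xc116 xc117) (XT.nd (nat_lit 38220) (nat_lit 0) (nat_lit 304) xc118 xc119))) (XT.nd (nat_lit 225420) (nat_lit 0) (nat_lit 2052) (XT.nd (nat_lit 112164) (nat_lit 0) (nat_lit 988) (XT.nd (nat_lit 73554) (nat_lit 0) (nat_lit 608) xc120 xc121) (XT.nd (nat_lit 74178) (nat_lit 0) (nat_lit 1064) xc122 xc123)) (XT.nd (nat_lit 186498) (nat_lit 0) (nat_lit 2584) (XT.nd (nat_lit 74880) (nat_lit 0) (nat_lit 1216) xc124 xc125) (XT.nd (nat_lit 112632) (nat_lit 0) (nat_lit 2280) xc126 xc127))))))) XT.nil))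

set_option maxRecDepth 10000000 in
noncomputable def Te : XT := XT.nil

set_option maxRecDepth 10000000 in
noncomputable def Tz : ZL := (ZL.cons (nat_lit 76) (nat_lit 6) (nat_lit 188083189331839887782) (ZL.cons (nat_lit 152) (nat_lit 6) (nat_lit 184158492003571771692) (ZL.cons (nat_lit 228) (nat_lit 3) (nat_lit 91973545313484061020) (ZL.cons (nat_lit 304) (nat_lit 6) (nat_lit 180037559808890249798) (ZL.cons (nat_lit 380) (nat_lit 6) (nat_lit 176345288470896561830) (ZL.cons (nat_lit 456) (nat_lit 3) (nat_lit 88071976913256066796) (ZL.cons (nat_lit 532) (nat_lit 6) (nat_lit 172468403566003189466) (ZL.cons (nat_lit 608) (nat_lit 6) (nat_lit 169002157717219348504) (ZL.cons (nat_lit 684) (nat_lit 3) (nat_lit 84405205218426613186) (ZL.cons (nat_lit 760) (nat_lit 6) (nat_lit 165362599575996315494) (ZL.cons (nat_lit 836) (nat_lit 6) (nat_lit 162116761909954226092) (ZL.cons (nat_lit 912) (nat_lit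 3) (nat_lit 80967072726231340602) (ZL.cons (nat_lit 988) (nat_lit 6) (nat_lit 158708632360610032220) (ZL.cons (nat_lit 1064) (nat_lit 6) (nat_lit 155678380507362528902) (ZL.cons (nat_lit 1140) (nat_lit 3) (nat_lit 77752230035828147838) (ZL.cons (nat_lit 1216) (nat_lit 6) (nat_lit 152836175007355296240) (ZL.cons (nat_lit 1292) (nat_lit 6) (nat_lit 152496616061452650416) (ZL.cons (nat_lit 1368) (nat_lit 6) (nat_lit 149677938796641468720) (ZL.cons (nat_lit 1444) (nat_lit 3) (nat_lit 74756150143222528061) (ZL.cons (nat_lit 1520) (nat_lit 6) (nat_lit 147041717140877962052) (ZL.cons (nat_lit 1596) (nat_lit 6) (nat_lit 146718327668589727936) (ZL.cons (nat_lit 1672) (nat_lit 6) (nat_lit 144108045892129867456) (ZL.cons (nat_lit 1748) (nat_lit 3) (nat_lit 71975147465019022969) (ZL.cons (nat_lit 1824) (nat_lit 6) (nat_lit 141675240000454855970) (ZL.cons (nat_lit 1900) (nat_lit 6) (nat_lit 141367250026847013954)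 (ZL.cons (nat_lit 1976) (nat_lit 6) (nat_lit 139414117598584514880) (ZL.cons (nat_lit 2052) (nat_lit 6) (nat_lit 138963042852104272392) (ZL.cons (nat_lit 2128) (nat_lit 3) (nat_lit 69406401920294125947) (ZL.cons (nat_lit 2204) (nat_lit 6) (nat_lit 136731949103012814718) (ZL.cons (nat_lit 2280) (nat_lit 6) (nat_lit 136438625318624393748) (ZL.cons (nat_lit 2356) (nat_lit 6) (nat_lit 134668656651598613652) (ZL.cons (nat_lit 2432) (nat_lit 6) (nat_lit 134239061654950763662) (ZL.cons (nat_lit 2508) (nat_lit 3) (nat_lit 67047988441039181595) (ZL.cons (nat_lit 2584) (nat_lit 6) (nat_lit 132768252896786873480) (ZL.cons (nat_lit 2660) (nat_lit 6) (nat_lit 132208875793225281564) (ZL.cons (nat_lit 2736) (nat_lit 6) (nat_lit 131929519808093452072) (ZL.cons (nat_lit 2812) (nat_lit 6) (nat_lit 130343233957586696308) (ZL.cons (nat_lit 2888) (nat_lit 6) (nat_lit 129934095865541124890) (ZL.cons (nat_lit 2964)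 (nat_lit 3) (nat_lit 64898912326640847935) (ZL.cons (nat_lit 3040) (nat_lit 6) (nat_lit 128637694143664439834) (ZL.cons (nat_lit 3116) (nat_lit 6) (nat_lit 128104954045034352296) (ZL.cons (nat_lit 3192) (nat_lit 6) (nat_lit 127838900725861181350) (ZL.cons (nat_lit 3268) (nat_lit 6) (nat_lit 127088195542377744862) (ZL.cons (nat_lit 3344) (nat_lit 6) (nat_lit 126437739247000499118) (ZL.cons (nat_lit 3420) (nat_lit 6) (nat_lit 126048083921242812052) (ZL.cons (nat_lit 3496) (nat_lit 3) (nat_lit 62959150907164535063) (ZL.cons (nat_lit 3572) (nat_lit 6) (nat_lit 125691048871342595454) (ZL.cons (nat_lit 3648) (nat_lit 6) (nat_lit 124928481912396627606) (ZL.cons (nat_lit 3724) (nat_lit 6) (nat_lit 124421110389891782334) (ZL.cons (nat_lit 3800) (nat_lit 6) (nat_lit 124167726276393524288) (ZL.cons (nat_lit 3876) (nat_lit 6) (nat_lit 123573588571378442832) (ZL.cons (nat_lit 3952) (nat_lit 6) (nat_lit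 122954106385304875456) (ZL.cons (nat_lit 4028) (nat_lit 6) (nat_lit 122583006075059459204) (ZL.cons (nat_lit 4104) (nat_lit 3) (nat_lit 61229702034237471542) (ZL.cons (nat_lit 4180) (nat_lit 6) (nat_lit 122369833287419711020) (ZL.cons (nat_lit 4256) (nat_lit 6) (nat_lit 121643579040804503544) (ZL.cons (nat_lit 4332) (nat_lit 6) (nat_lit 121160368066990365188) (ZL.cons (nat_lit 4408) (nat_lit 6) (nat_lit 120919049863658690862) (ZL.cons (nat_lit 4484) (nat_lit 6) (nat_lit 121314349976511006620) (ZL.cons (nat_lit 4560) (nat_lit 6) (nat_lit 120486408053189475242) (ZL.cons (nat_lit 4636) (nat_lit 6) (nat_lit 119896425018833696786) (ZL.cons (nat_lit 4712) (nat_lit 6) (nat_lit 119542996151933300356) (ZL.cons (nat_lit 4788) (nat_lit 3) (nat_lit 59712639977593071075) (ZL.cons (nat_lit 4864) (nat_lit 6) (nat_lit 120404625583150166048) (ZL.cons (nat_lit 4940) (nat_lit 6) (nat_lit 119479838253441659524)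 (ZL.cons (nat_lit 5016) (nat_lit 6) (nat_lit 118788167542379557166) (ZL.cons (nat_lit 5092) (nat_lit 6) (nat_lit 118327966614937520636) (ZL.cons (nat_lit 5168) (nat_lit 6) (nat_lit 118098139754621640326) (ZL.cons (nat_lit 5320) (nat_lit 6) (nat_lit 118621473046799752072) (ZL.cons (nat_lit 5396) (nat_lit 6) (nat_lit 117832956929350674568) (ZL.cons (nat_lit 5472) (nat_lit 6) (nat_lit 117271068325202314136) (ZL.cons (nat_lit 5548) (nat_lit 6) (nat_lit 116934469404344793726) (ZL.cons (nat_lit 5624) (nat_lit 3) (nat_lit 58411179370388035811) (ZL.cons (nat_lit 5700) (nat_lit 6) (nat_lit 116493286487343670884) (ZL.cons (nat_lit 5776) (nat_lit 6) (nat_lit 116634380242911250604) (ZL.cons (nat_lit 5852) (nat_lit 6) (nat_lit 116916903691559666186) (ZL.cons (nat_lit 5928) (nat_lit 6) (nat_lit 117341529508166651950) (ZL.cons (nat_lit 6004) (nat_lit 6) (nat_lit 117909268706581272150) (ZL.cons (nat_lit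 6080) (nat_lit 6) (nat_lit 117028518868763646886) (ZL.cons (nat_lit 6156) (nat_lit 6) (nat_lit 116369784858228311308) (ZL.cons (nat_lit 6232) (nat_lit 6) (nat_lit 115931498260664466996) (ZL.cons (nat_lit 6308) (nat_lit 6) (nat_lit 115712615536554104792) (ZL.cons (nat_lit 6384) (nat_lit 3) (nat_lit 57606606454472465742) (ZL.cons (nat_lit 6460) (nat_lit 6) (nat_lit 115285480442284423536) (ZL.cons (nat_lit 6536) (nat_lit 6) (nat_lit 115502455107858469910) (ZL.cons (nat_lit 6612) (nat_lit 6) (nat_lit 115864653512013675478) (ZL.cons (nat_lit 6688) (nat_lit 6) (nat_lit 116372938031902790728) (ZL.cons (nat_lit 6764) (nat_lit 6) (nat_lit 115621970300998907390) (ZL.cons (nat_lit 6840) (nat_lit 6) (nat_lit 115086838297048087932) (ZL.cons (nat_lit 6916) (nat_lit 6) (nat_lit 114766267896231401826) (ZL.cons (nat_lit 6992) (nat_lit 3) (nat_lit 57329747917844880863) (ZL.cons (nat_lit 7068) (nat_lit 6) (nat_lit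 114135188970799426062) (ZL.cons (nat_lit 7144) (nat_lit 6) (nat_lit 114283337414145384768) (ZL.cons (nat_lit 7220) (nat_lit 6) (nat_lit 114579987035226221128) (ZL.cons (nat_lit 7296) (nat_lit 6) (nat_lit 115025844142663556182) (ZL.cons (nat_lit 7372) (nat_lit 6) (nat_lit 114398478418344188964) (ZL.cons (nat_lit 7448) (nat_lit 6) (nat_lit 113981062611140527712) (ZL.cons (nat_lit 7524) (nat_lit 6) (nat_lit 113772602873892563710) (ZL.cons (nat_lit 7600) (nat_lit 3) (nat_lit 56590383519619218380) (ZL.cons (nat_lit 7676) (nat_lit 6) (nat_lit 113256647949244903414) (ZL.cons (nat_lit 7752) (nat_lit 6) (nat_lit 113484471348097652106) (ZL.cons (nat_lit 7828) (nat_lit 6) (nat_lit 113864779672460617952) (ZL.cons (nat_lit 7904) (nat_lit 6) (nat_lit 113355130144888408940) (ZL.cons (nat_lit 7980) (nat_lit 6) (nat_lit 113049825001253469792) (ZL.cons (nat_lit 8056) (nat_lit 3) (nat_lit 56474068662273572945)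 (ZL.cons (nat_lit 8132) (nat_lit 6) (nat_lit 112419942214431072318) (ZL.cons (nat_lit 8208) (nat_lit 6) (nat_lit 112575498079944328958) (ZL.cons (nat_lit 8284) (nat_lit 6) (nat_lit 112886980182079207136) (ZL.cons (nat_lit 8360) (nat_lit 6) (nat_lit 112489441318075720228) (ZL.cons (nat_lit 8436) (nat_lit 6) (nat_lit 112290908234982421180) (ZL.cons (nat_lit 8512) (nat_lit 3) (nat_lit 55885614026596214990) (ZL.cons (nat_lit 8588) (nat_lit 6) (nat_lit 111850903008699219966) (ZL.cons (nat_lit 8664) (nat_lit 6) (nat_lit 112090117577494606092) (ZL.cons (nat_lit 8740) (nat_lit 6) (nat_lit 111799350774032759284) (ZL.cons (nat_lit 8816) (nat_lit 3) (nat_lit 55851252683822892069) (ZL.cons (nat_lit 8892) (nat_lit 6) (nat_lit 111308960908002217728) (ZL.cons (nat_lit 8968) (nat_lit 6) (nat_lit 111472294566791137200) (ZL.cons (nat_lit 9044) (nat_lit 6) (nat_lit 111283215440035614294) (ZL.cons (nat_lit 9120)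 (nat_lit 3) (nat_lit 55474190719759164689) (ZL.cons (nat_lit 9196) (nat_lit 6) (nat_lit 111032040142800458864) (ZL.cons (nat_lit 9272) (nat_lit 3) (nat_lit 55469903211215955552) (ZL.cons (nat_lit 9348) (nat_lit 6) (nat_lit 110768306080703545660) (ZL.cons (nat_lit 9424) (nat_lit 1) (nat_lit 18446744073709551617) ZL.nil)))))))))))))))))))))))))))))))))))))))))))))))))))))))))))))))))))))))))))))))))))))))))))))))))))))))))))))))))))))))))))

noncomputable def vl : XL := ⟨(nat_lit 0), (nat_lit 76), (nat_lit 100016341), (nat_lit 152), (nat_lit 438399578), (nat_lit 76), (nat_lit 100016341), (nat_lit 1), (nat_lit 5), (nat_lit 2), (nat_lit 4), (nat_lit 1), (nat_lit 4), (nat_lit 0), (nat_lit 0), (nat_lit 0)⟩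

noncomputable def cp0 : Nat := (nat_lit 2790011087638202183323676742333879635718837315322508635294949372097186242309636218397044173003356904804920176184525651117863735673882672316875744900281865781458748680948030656127747520634218456450886819714649363999011079189264549200192776423895693607151556246751126250564528581958177167447182387189066607379030142433252446102325959358106884096674113670196489382927981696330393101827354306754133824579134277020299499061659852251901064925248628893989892600560896562493864134078684024185237486435486524900083734538119813742548518582006303535862018946865911101241776241944188537787206559604850509134855379484641585692963007088577732228075341001851045429939855519102260405437294442885048844627470805125856232576724340977048084673451215013780192627577451065768150994045213262891149952268477416767646118630265871263003607702457792587705535459577048039939476685614584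4795160670466798248815798294878765316049922210356316167131762482519197161747374357269679237764639295357056404806317318474457686836628962054947836277650829803902357654326202503931306686711801127406782530054814296874456624589191793889753629131677962819856936767725718990930411682097838835483330755672454920007039469773590133735734828842903559453960163680141911169211267040516776465506588870901472300728054726663293989007872533694061711050561766076038946156940552232766207042179347528940189866847061656360079025999812420967971494169051482987328066211231918411425120967910072748282811022269836350166182557965925591033266779676356407895769048142412736672370516751171971363980650757294801694167002158430326427793540083300728707749790908917449191769125381024255305429213416663287442335916439562439973880377769456501837761185457614916286128159922264504482419382072839574923783900609915841995851147328483317530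0432731382378085894025532215586401547165723446344803265649714188256919430580824033633480804959680784881528225067789261192923393037707588930635079193347857488129372443944889114806948969512683719591130118049838601749696474039299963204001635949129339535163714565675876330988170982109893109620257177086221860399683328559781454257625469953397046087513720698852815126355673781559692324950816714943220424530837655879097882359224278983225127049411842617874372709272170923166131170700074147138695438833124755281202968800542584652171687521810680449394445622339499261863327861820193170113938173376977595036522580776635739087234377180391646433881376902946435336619154446867005113194160832162332354575288651645416809998121467704294103692304416053874117522107827666777692223589041873612737785994399693256443565054861888826848454497464685442031964345346341810666063118464202235183302575346223470703515455105362536073424744116621593887716208090213848477645938458960018139080545331145002327398260929246847570836296089265229285321328752233475627837641863479021639341751582846219696336677522887343682210425779257344)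

noncomputable def cp1 : Nat := (nat_lit 7936038178287487952761720702230695111476036204708191807727378622967986580414951206031106355809749286035936487933003740188798126661761482957129103037247171916240757828777377652075740026479398259313239287476256363796663628824727790355468406827599954228715767575297390799755372376403827966504527987289871023515308883843120345224662572355633289242300250282788298909683305696837403513625240072000546990818699936831126069437906735908908137723553558740513165205953790102239816033928364919413239698487776200344616749089015879968868125019119040092729240367935332196376466390344760304446375042003551536599178578678183246409366004879134493810322137088203902605927778047210264706645205545076622237296905831661396090872230935386969531754730288707025338628624982752938110193413741644163459756163752215508354990232935761755457153514461768201110648577461030013376578691484528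9922433418640612047221924806794856488219711558707418550421412468471313474780958699719942720158467564920229334694424695075313827580449453273044944692032948145452357780479577076038503619716869587976254167024342542846581628180730439863763257556409926421435878060886182913531351103089640254866034910567574205753168253761444522803920844714405689411685910013629513555961627520587457457163503017412985881935245199713640926894979477745982594626314318559472989794622106031368373858053924207323453497661017164298100395106819058528422017523534583920150209805200049581522016152694018882460630329486182769426884985459140484039437775837045948338886176997850875963692789240976754027335568450450055580230461957767368349716803291500058151618571903074925328904521537534344861059409666467302911788312420563357714623673795784178551160406170261096520674192019625723320478611762623074682556701611558945073669448983398461639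8012082312771909410252034755470963749709421041153927247684553547376680449473613879866858502457357966223193012343940751278070017197761312994252626836068890989378659484296940205066953686097800928739827456521317576621689565991670984466646984365518028462233366811048731744671693657546095229178569423815738156472055557952879310312881090669273181291910400090948520662226567378701180544300116081550557199667383373079072067694706975819039788097770026655196939992314687836489613122281143457500330233772254697417711668634894519582655913334636965841354964211697699718871055769014063740883097005880711297252239009615670757481905819085798225480192770192266274270241969350223046634907122692690299171068842113578793624027412158313018283591705682100226911835394330921304617261817628180741438889218953312037334097673657289928166106797946069699437668032407683896869589098432542226654981817311466271968084871519001679281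7709113115328744320246383881227162001748656713071805111838077861105504033179288046966476462526517955267177904348891821563117442251764747953996481840633361015375104424190885477180883455603929467716651703818890478543488872065087698344149140941838661171503049316322978500602726122942884665344268907690654124981507195631570228426171214790826179657335202323291688390533051798302117583849559461510701415967402906696699629485308989942488503394533995117082518987441790811097007013203542979215032144529964616825091647114761438638306967262306717697731703551475983189427099933575596144851620669369837522431387144830299971927682152795571314347705219974785903775844872222926742453002868390942519617462822970660775376865016852039390585903768725509527606602322516685693398892762376221082248398434566454291583905053400146661779073753312850411734706336483005779381096711292853564144062705915073231489691663707709926068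7429983528918799666152274447989222264310465480824682387513527245827390127316086630069252103527205501997497566457451910161771726342154517354317387780031832885888777354192535136633217126277047775676796168573633027055367327884912078024524804281315574132686211901610523935751412832709806397007469540689761876908639835673425161832884741743110803711802701281212433753266449400191955644694844155200307115124991306807245929316711225125152957909650989796503130682183881992700080170488838400623596682442986686368002985311793448642577682392845805098458589924733633123213026139640312562355450259619296703278794567217969459586694350616443228402887904910907007101865804295583743098391192027657946309121498123130307027698650958830690687038631996015277700533032431413456296812878954674385876228907673072608520919231197893751835299526334445686626626871006919791233677353932324463514111877934497089155097152351669061655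4259182422462549886638542317637221322319311878975654584111722224592175386354974802818083100904283659852107358225307148323846378855525603820763973847490165973987530541225152112631839719691049134559921262133870595738076049628549177093950971905643594824610925546814326317664040185141114198805365897112186728645643228082442943049199836735867564495187968010303353696583644797721671315155709813270156410871990714076360134812326914408370707727041591973486327141036152240392151584454663260505623671610551290838828021874330770965853440861748777024345673930187363695711266881501172474172715416456038309627336541659762951650433612962360715115798055757029835100146933368498313053688598436122243418141587499280196851418271426309508172786196277091685885440240435642756461330341794834962736431973658094062841596569678212808129564067546728817077440039718671833103152078389817774624830244091803310995568904994949202410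209974263031975100951850645049984171892761013522322785200217493932656600413336485434291790931658892540766524437017150847725285909621814403809444297560968354673565103840041417446742496784882299292331546784927242691059995127030383453043617854321419480714058513012267415063875176855257256404402505110047057469530775313408035495276460855337252090398825139800445221584207987308479018221249023977520599963153717489285943098902680596581920898908454183533278631650726762402837517267324165059869631602037230173960084769254353542625048588103604572945734884927689885950952879600555555618646925286826338973582428147961340661505207757167749986003698005047494145330185698922195125794076378735268914748986607315480540521034243030064589471191411781678065648730670415553012892563654097030776044335710898034210063778100596841615727757072830331182798106437990816217765245477818886034350657097780558103771793166126118173985894536378818478907748076931563203648409413998430991551812191952265650145432071554926954621113875760887178056074281267348776878264639494604992919981613734352805137304195006481569466111033040777488525538208643862158765934525898821018006020937569891683857679124764348970959472850000841818780499367104423318970011981729344286150651983832716310323674507416370155169449685810835972327203935464361191339164352939429997009922079336106557440)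

noncomputable def rc0 : Nat := (nat_lit 7936038178287487952761720702230695111476036204708191807727378622967986580414951206031106355809749286035936487933003740188798126661761482957129103037247171916240757828777377652075740026479398259313239287476256363796663628824727790355468406827599954228715767575297390799755372376403827966504527987289871023515308883843120345224662572355633289242300250282788298909683305696837403513625240072000546990818699936831126069437906735908908137723553558740513165205953790102239816033928364919413239698487776200344616749089015879968868125019119040092729240367935332196376466390344760304446375042003551536599178578678183246409366004879134493810322137088203902605927778047210264706645205545076622237296905831661396090872230935386969531754730288707025338628624982752938110193413741644163459756163752215508354990232935761755457153514461768201110648577461030013376578691484528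9922433418640612047221924806794856488219711558707418550421412468471313474780958699719942720158467564920229334694424695075313827580449453273044944692032948145452357780479577076038503619716869587976254167024342542846581628180730439863763257556409926421435878060886182913531351103089640254866034910567574205753168253761444522803920844714405689411685910013629513555961627520587457457163503017412985881935245199713640926894979477745982594626314318559472989794622106031368373858053924207323453497661017164298100395106819058528422017523534583920150209805200049581522016152694018882460630329486182769426884985459140484039437775837045948338886176997850875963692789240976754027335568450450055580230461957767368349716803291500058151618571903074925328904521537534344861059409666467302911788312420563357714623673795784178551160406170261096520674192019625723320478611762623074682556701611558945073669448983398461639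8012082312771909410252034755470963749709421041153927247684553547376680449473613879866858502457357966223193012343940751278070017197761312994252626836068890989378659484296940205066953686097800928739827456521317576621689565991670984466646984365518028462233366811048731744671693657546095229178569423815738156472055557952879310312881090669273181291910400090948520662226567378701180544300116081550557199667383373079072067694706975819039788097770026655196939992314687836489613122281143457500330233772254697417711668634894519582655913334636965841354964211697699718871055769014063740883097005880711297252239009615670757481905819085798225480192770192266274270241969350223046634907122692690299171068842113578793624027412158313018283591705682100226911835394330921304617261817628180741438889218953312037334097673657289928166106797946069699437668032407683896869589098432542226654981817311466271968084871519001679281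7709113115328744320246383881227162001748656713071805111838077861105504033179288046966476462526517955267177904348891821563117442251764747953996481840633361015375104424190885477180883455603929467716651703818890478543488872065087698344149140941838661171503049316322978500602726122942884665344268907690654124981507195631570228426171214790826179657335202323291688390533051798302117583849559461510701415967402906696699629485308989942488503394533995117082518987441790811097007013203542979215032144529964616825091647114761438638306967262306717697731703551475983189427099933575596144851620669369837522431387144830299971927682152795571314347705219974785903775844872222926742453002868390942519617462822970660775376865016852039390585903768725509527606602322516685693398892762376221082248398434566454291583905053400146661779073753312850411734706336483005779381096711292853564144062705915073231489691663707709926068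7429983528918799666152274447989222264310465480824682387513527245827390127316086630069252103527205501997497566457451910161771726342154517354317387780031832885888777354192535136633217126277047775676796168573633027055367327884912078024524804281315574132686211901610523935751412832709806397007469540689761876908639835673425161832884741743110803711802701281212433753266449400191955644694844155200307115124991306807245929316711225125152957909650989796503130682183881992700080170488838400623596682442986686368002985311793448642577682392845805098458589924733633123213026139640312562355450259619296703278794567217969459586694350616443228402887904910907007101865804295583743098391192027657946309121498123130307027698650958830690687038631996015277700533032431413456296812878954674385876228907673072608520919231197893751835299526334445686626626871006919791233677353932324463514111877934497089155097152351669061655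4259182422462549886638542317637221322319311878975654584111722224592175386354974802818083100904283659852107358225307148323846378855525603820763973847490165973987530541225152112631839719691049134559921262133870595738076049628549177093950971905643594824610925546814326317664040185141114198805365897112186728645643228082442943049199836735867564495187968010303353696583644797721671315155709813270156410871990714076360134812326914408370707727041591973486327141036152240392151584454663260505623671610551290838828021874330770965853440861748777024345673930187363695711266881501172474172715416456038309627336541659762951650433612962360715115798055757029835100146933368498313053688598436122243418141587499280196851418271426309508172786196277091685885440240435642756461330341794834962736431973658094062841596569678212808129564067546728817077440039718671833103152078389817774624830244091803310995568904994949202410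209974263031975100951850645049984171892761013522322785200217493932656600413336485434291790931658892540766524437017150847725285909621814403809444297560968354673565103840041417446742496784882299292331546784927242691059995127030383453043617854321419480714058513012267415063875176855257256404402505110047057469530775313408035495276460855337252090398825139800445221584207987308479018221249023977520599963153717489285943098902680596581920898908454183533278631650726762402837517267324165059869631602037230173960084769254353542625048588103604572945734884927689885950952879600555555618646925286826338973582428147961340661505207757167749986003698005047494145330185698922195125794076378735268914748986607315480540521034243030064589471191411781678065648730670415553012892563654097030776044335710898034210063778100596841615727757072830331182798106437990816217765245477818886034350657097780558103771793166126118173985894536378818478907748076931563203648409413998430991551812191952265650145432071554926954621113875760887178056074281267348776878264639494604992919981613734352805137304195006481569466111033040777488525538208643862158765934525898821018006020937569891683857679124764348970959472850000841818780499367104423318970011981729344286150651983832716310323674507416370155169449685810835972327203935464361191339164352939429997009922079336106557440)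

end Vale.Agent.Lib.P154.PChain.BR.S5
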