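import Vale.Agent.Lib.P154.PChain.BR.R5_0

set_option linter.all false

namespace Vale.Agent.Lib.P154.PChain.BR.S6

open Vale.Agent.Lib.P154.Chain

noncomputable def pc0 : PT := (PT.nd (nat_lit 3222570) (PT.nd (nat_lit 3019614) (PT.nd (nat_lit 2938338) (PT.nd (nat_lit 2897700) (PT.nd (nat_lit 2816580) (PT.nd (nat_lit 2816502) PT.nil (PT.lf (nat_lit 76) (nat_lit 6) (nat_lit 1) (nat_lit 3) (nat_lit 160) (nat_lit 69) (nat_lit 161))) (PT.nd (nat_lit 40560) (PT.lf (nat_lit 76) (nat_lit 6) (nat_lit 1) (nat_lit 1) (nat_lit 161) (nat_lit 69) (nat_lit 160)) (PT.lf (nat_lit 152) (nat_lit 3) (nat_lit 2) (nat_lit 1) (nat_lit 160) (nat_lit 70) (nat_lit 160)))) (PT.nd (nat_lit 78) (PT.lf (nat_lit 228) (nat_lit 6) (nat_lit 3) (nat_lit 3) (nat_lit 159) (nat_lit 71) (nat_lit 160)) (PT.nd (nat_lit 40482) (PT.lf (nat_lit 228) (nat_lit 6) (nat_lit 3) (nat_lit 1) (nat_lit 160) (nat_lit 71) (nat_lit 159)) (PT.lf (nat_lit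 304) (nat_lit 6) (nat_lit 4) (nat_lit 3) (nat_lit 158) (nat_lit 72) (nat_lit 160))))) (PT.nd (nat_lit 40638) (PT.nd (nat_lit 78) (PT.lf (nat_lit 380) (nat_lit 3) (nat_lit 5) (nat_lit 1) (nat_lit 159) (nat_lit 72) (nat_lit 159)) (PT.nd (nat_lit 40482) (PT.lf (nat_lit 304) (nat_lit 6) (nat_lit 4) (nat_lit 1) (nat_lit 160) (nat_lit 72) (nat_lit 158)) (PT.lf (nat_lit 456) (nat_lit 6) (nat_lit 6) (nat_lit 3) (nat_lit 158) (nat_lit 73) (nat_lit 159)))) (PT.nd (nat_lit 40482) (PT.lf (nat_lit 456) (nat_lit 6) (nat_lit 6) (nat_lit 1) (nat_lit 159) (nat_lit 73) (nat_lit 158)) (PT.nd (nat_lit 78) (PT.lf (nat_lit 532) (nat_lit 6) (nat_lit 7) (nat_lit 3) (nat_lit 157) (nat_lit 74) (nat_lit 159)) (PT.lf (nat_lit 608) (nat_lit 3) (nat_lit 8) (nat_lit 1) (nat_lit 158) (nat_lit 74) (nat_lit 158)))))) (PT.nd (nat_lit 121680) (PT.nd (nat_lit 81042) (PT.nd (nat_lit 40482) (PT.lf (nat_lit 532) (nat_lit 6) (nat_lit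 7) (nat_lit 1) (nat_lit 159) (nat_lit 74) (nat_lit 157)) (PT.nd (nat_lit 78) (PT.lf (nat_lit 684) (nat_lit 6) (nat_lit 9) (nat_lit 3) (nat_lit 157) (nat_lit 75) (nat_lit 158)) (PT.lf (nat_lit 684) (nat_lit 6) (nat_lit 9) (nat_lit 1) (nat_lit 158) (nat_lit 75) (nat_lit 157)))) (PT.nd (nat_lit 78) (PT.lf (nat_lit 760) (nat_lit 6) (nat_lit 10) (nat_lit 3) (nat_lit 156) (nat_lit 76) (nat_lit 158)) (PT.nd (nat_lit 78) (PT.lf (nat_lit 836) (nat_lit 3) (nat_lit 11) (nat_lit 1) (nat_lit 157) (nat_lit 76) (nat_lit 157)) (PT.lf (nat_lit 760) (nat_lit 6) (nat_lit 10) (nat_lit 1) (nat_lit 158) (nat_lit 76) (nat_lit 156))))) (PT.nd (nat_lit 40638) (PT.nd (nat_lit 78) (PT.lf (nat_lit 912) (nat_lit 6) (nat_lit 12) (nat_lit 3) (nat_lit 156) (nat_lit 77) (nat_lit 157)) (PT.nd (nat_lit 40482) (PT.lf (nat_lit 912) (nat_lit 6) (nat_lit 12) (nat_lit 1) (nat_lit 157) (nat_lit 77) (nat_lit 156)) (PT.lf (nat_lit 988)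 (nat_lit 6) (nat_lit 13) (nat_lit 3) (nat_lit 155) (nat_lit 78) (nat_lit 157)))) (PT.nd (nat_lit 40482) (PT.nd (nat_lit 78) (PT.lf (nat_lit 1064) (nat_lit 3) (nat_lit 14) (nat_lit 1) (nat_lit 156) (nat_lit 78) (nat_lit 156)) (PT.lf (nat_lit 988) (nat_lit 6) (nat_lit 13) (nat_lit 1) (nat_lit 157) (nat_lit 78) (nat_lit 155))) (PT.nd (nat_lit 78) (PT.lf (nat_lit 1140) (nat_lit 6) (nat_lit 15) (nat_lit 3) (nat_lit 154) (nat_lit 79) (nat_lit 157)) (PT.lf (nat_lit 1216) (nat_lit 6) (nat_lit 16) (nat_lit 3) (nat_lit 155) (nat_lit 79) (nat_lit 156))))))) (PT.nd (nat_lit 162240) (PT.nd (nat_lit 81120) (PT.nd (nat_lit 40560) (PT.nd (nat_lit 78) (PT.lf (nat_lit 1216) (nat_lit 6) (nat_lit 16) (nat_lit 1) (nat_lit 156) (nat_lit 79) (nat_lit 155)) (PT.nd (nat_lit 40404) (PT.lf (nat_lit 1140) (nat_lit 6) (nat_lit 15) (nat_lit 1) (nat_lit 157) (nat_lit 79) (nat_lit 154)) (PT.lf (nat_lit 1292) (nat_lit 6) (nat_lit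 17) (nat_lit 3) (nat_lit 154) (nat_lit 80) (nat_lit 156)))) (PT.nd (nat_lit 78) (PT.lf (nat_lit 1368) (nat_lit 3) (nat_lit 18) (nat_lit 1) (nat_lit 155) (nat_lit 80) (nat_lit 155)) (PT.nd (nat_lit 40404) (PT.lf (nat_lit 1292) (nat_lit 6) (nat_lit 17) (nat_lit 1) (nat_lit 156) (nat_lit 80) (nat_lit 154)) (PT.lf (nat_lit 1444) (nat_lit 6) (nat_lit 19) (nat_lit 3) (nat_lit 153) (nat_lit 81) (nat_lit 156))))) (PT.nd (nat_lit 40560) (PT.nd (nat_lit 78) (PT.lf (nat_lit 1520) (nat_lit 6) (nat_lit 20) (nat_lit 3) (nat_lit 154) (nat_lit 81) (nat_lit 155)) (PT.nd (nat_lit 78) (PT.lf (nat_lit 1520) (nat_lit 6) (nat_lit 20) (nat_lit 1) (nat_lit 155) (nat_lit 81) (nat_lit 154)) (PT.lf (nat_lit 1444) (nat_lit 6) (nat_lit 19) (nat_lit 1) (nat_lit 156) (nat_lit 81) (nat_lit 153)))) (PT.nd (nat_lit 78) (PT.lf (nat_lit 1596) (nat_lit 6) (nat_lit 21) (nat_lit 3) (nat_lit 153) (nat_lit 82) (nat_lit 155)) (PT.nd (nat_lit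 78) (PT.lf (nat_lit 1672) (nat_lit 3) (nat_lit 22) (nat_lit 1) (nat_lit 154) (nat_lit 82) (nat_lit 154)) (PT.lf (nat_lit 1596) (nat_lit 6) (nat_lit 21) (nat_lit 1) (nat_lit 155) (nat_lit 82) (nat_lit 153)))))) (PT.nd (nat_lit 40794) (PT.nd (nat_lit 234) (PT.nd (nat_lit 78) (PT.lf (nat_lit 1748) (nat_lit 6) (nat_lit 23) (nat_lit 3) (nat_lit 152) (nat_lit 83) (nat_lit 155)) (PT.nd (nat_lit 78) (PT.lf (nat_lit 1824) (nat_lit 6) (nat_lit 24) (nat_lit 3) (nat_lit 153) (nat_lit 83) (nat_lit 154)) (PT.lf (nat_lit 1824) (nat_lit 6) (nat_lit 24) (nat_lit 1) (nat_lit 154) (nat_lit 83) (nat_lit 153)))) (PT.nd (nat_lit 40404) (PT.lf (nat_lit 1748) (nat_lit 6) (nat_lit 23) (nat_lit 1) (nat_lit 155) (nat_lit 83) (nat_lit 152)) (PT.nd (nat_lit 78) (PT.lf (nat_lit 1900) (nat_lit 6) (nat_lit 25) (nat_lit 3) (nat_lit 152) (nat_lit 84) (nat_lit 154)) (PT.lf (nat_lit 1976) (nat_lit 3) (nat_lit 26) (nat_lit 1) (nat_lit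 153) (nat_lit 84) (nat_lit 153))))) (PT.nd (nat_lit 40560) (PT.nd (nat_lit 40404) (PT.lf (nat_lit 1900) (nat_lit 6) (nat_lit 25) (nat_lit 1) (nat_lit 154) (nat_lit 84) (nat_lit 152)) (PT.nd (nat_lit 78) (PT.lf (nat_lit 2052) (nat_lit 6) (nat_lit 27) (nat_lit 3) (nat_lit 151) (nat_lit 85) (nat_lit 154)) (PT.lf (nat_lit 2128) (nat_lit 6) (nat_lit 28) (nat_lit 3) (nat_lit 152) (nat_lit 85) (nat_lit 153)))) (PT.nd (nat_lit 40404) (PT.nd (nat_lit 78) (PT.lf (nat_lit 2128) (nat_lit 6) (nat_lit 28) (nat_lit 1) (nat_lit 153) (nat_lit 85) (nat_lit 152)) (PT.lf (nat_lit 2052) (nat_lit 6) (nat_lit 27) (nat_lit 1) (nat_lit 154) (nat_lit 85) (nat_lit 151))) (PT.nd (nat_lit 78) (PT.lf (nat_lit 2204) (nat_lit 6) (nat_lit 29) (nat_lit 3) (nat_lit 150) (nat_lit 86) (nat_lit 154)) (PT.lf (nat_lit 2280) (nat_lit 6) (nat_lit 30) (nat_lit 3) (nat_lit 151) (nat_lit 86) (nat_lit 153))))))))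
noncomputable def pc1 : PT := (PT.nd (nat_lit 203112) (PT.nd (nat_lit 121680) (PT.nd (nat_lit 40716) (PT.nd (nat_lit 40482) (PT.nd (nat_lit 78) (PT.lf (nat_lit 2356) (nat_lit 3) (nat_lit 31) (nat_lit 1) (nat_lit 152) (nat_lit 86) (nat_lit 152)) (PT.nd (nat_lit 78) (PT.lf (nat_lit 2280) (nat_lit 6) (nat_lit 30) (nat_lit 1) (nat_lit 153) (nat_lit 86) (nat_lit 151)) (PT.lf (nat_lit 2204) (nat_lit 6) (nat_lit 29) (nat_lit 1) (nat_lit 154) (nat_lit 86) (nat_lit 150)))) (PT.nd (nat_lit 78) (PT.lf (nat_lit 2432) (nat_lit 6) (nat_lit 32) (nat_lit 3) (nat_lit 150) (nat_lit 87) (nat_lit 153)) (PT.nd (nat_lit 78) (PT.lf (nat_lit 2508) (nat_lit 6) (nat_lit 33) (nat_lit 3) (nat_lit 151) (nat_lit 87) (nat_lit 152)) (PT.lf (nat_lit 2508) (nat_lit 6) (nat_lit 33) (nat_lit 1) (nat_lit 152) (nat_lit 87) (nat_lit 151))))) (PT.nd (nat_lit 40482) (PT.nd (nat_lit 40326) (PT.lf (nat_lit 2432) (nat_lit 6) (nat_lit 32)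 (nat_lit 1) (nat_lit 153) (nat_lit 87) (nat_lit 150)) (PT.nd (nat_lit 78) (PT.lf (nat_lit 2584) (nat_lit 6) (nat_lit 34) (nat_lit 3) (nat_lit 149) (nat_lit 88) (nat_lit 153)) (PT.lf (nat_lit 2660) (nat_lit 6) (nat_lit 35) (nat_lit 3) (nat_lit 150) (nat_lit 88) (nat_lit 152)))) (PT.nd (nat_lit 78) (PT.lf (nat_lit 2736) (nat_lit 3) (nat_lit 36) (nat_lit 1) (nat_lit 151) (nat_lit 88) (nat_lit 151)) (PT.nd (nat_lit 78) (PT.lf (nat_lit 2660) (nat_lit 6) (nat_lit 35) (nat_lit 1) (nat_lit 152) (nat_lit 88) (nat_lit 150)) (PT.lf (nat_lit 2584) (nat_lit 6) (nat_lit 34) (nat_lit 1) (nat_lit 153) (nat_lit 88) (nat_lit 149)))))) (PT.nd (nat_lit 40716) (PT.nd (nat_lit 234) (PT.nd (nat_lit 78) (PT.lf (nat_lit 2812) (nat_lit 6) (nat_lit 37) (nat_lit 3) (nat_lit 149) (nat_lit 89) (nat_lit 152)) (PT.nd (nat_lit 78) (PT.lf (nat_lit 2888) (nat_lit 6) (nat_lit 38) (nat_lit 3) (nat_lit 150) (nat_lit 89) (nat_lit 151))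 (PT.lf (nat_lit 2888) (nat_lit 6) (nat_lit 38) (nat_lit 1) (nat_lit 151) (nat_lit 89) (nat_lit 150)))) (PT.nd (nat_lit 40326) (PT.lf (nat_lit 2812) (nat_lit 6) (nat_lit 37) (nat_lit 1) (nat_lit 152) (nat_lit 89) (nat_lit 149)) (PT.nd (nat_lit 78) (PT.lf (nat_lit 2964) (nat_lit 6) (nat_lit 39) (nat_lit 3) (nat_lit 148) (nat_lit 90) (nat_lit 152)) (PT.lf (nat_lit 3040) (nat_lit 6) (nat_lit 40) (nat_lit 3) (nat_lit 149) (nat_lit 90) (nat_lit 151))))) (PT.nd (nat_lit 40404) (PT.nd (nat_lit 78) (PT.lf (nat_lit 3116) (nat_lit 3) (nat_lit 41) (nat_lit 1) (nat_lit 150) (nat_lit 90) (nat_lit 150)) (PT.nd (nat_lit 78) (PT.lf (nat_lit 3040) (nat_lit 6) (nat_lit 40) (nat_lit 1) (nat_lit 151) (nat_lit 90) (nat_lit 149)) (PT.lf (nat_lit 2964) (nat_lit 6) (nat_lit 39) (nat_lit 1) (nat_lit 152) (nat_lit 90) (nat_lit 148)))) (PT.nd (nat_lit 156) (PT.nd (nat_lit 78) (PT.lf (nat_lit 3192) (nat_lit 6) (nat_lit 42)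 (nat_lit 3) (nat_lit 147) (nat_lit 91) (nat_lit 152)) (PT.lf (nat_lit 3268) (nat_lit 6) (nat_lit 43) (nat_lit 3) (nat_lit 148) (nat_lit 91) (nat_lit 151))) (PT.nd (nat_lit 78) (PT.lf (nat_lit 3344) (nat_lit 6) (nat_lit 44) (nat_lit 3) (nat_lit 149) (nat_lit 91) (nat_lit 150)) (PT.lf (nat_lit 3344) (nat_lit 6) (nat_lit 44) (nat_lit 1) (nat_lit 150) (nat_lit 91) (nat_lit 149))))))) (PT.nd (nat_lit 121446) (PT.nd (nat_lit 40638) (PT.nd (nat_lit 40404) (PT.nd (nat_lit 78) (PT.lf (nat_lit 3268) (nat_lit 6) (nat_lit 43) (nat_lit 1) (nat_lit 151) (nat_lit 91) (nat_lit 148)) (PT.nd (nat_lit 40248) (PT.lf (nat_lit 3192) (nat_lit 6) (nat_lit 42) (nat_lit 1) (nat_lit 152) (nat_lit 91) (nat_lit 147)) (PT.lf (nat_lit 3420) (nat_lit 6) (nat_lit 45) (nat_lit 3) (nat_lit 147) (nat_lit 92) (nat_lit 151)))) (PT.nd (nat_lit 78) (PT.lf (nat_lit 3496) (nat_lit 6) (nat_lit 46) (nat_lit 3) (nat_lit 148) (nat_lit 92)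 (nat_lit 150)) (PT.nd (nat_lit 78) (PT.lf (nat_lit 3572) (nat_lit 3) (nat_lit 47) (nat_lit 1) (nat_lit 149) (nat_lit 92) (nat_lit 149)) (PT.lf (nat_lit 3496) (nat_lit 6) (nat_lit 46) (nat_lit 1) (nat_lit 150) (nat_lit 92) (nat_lit 148))))) (PT.nd (nat_lit 40404) (PT.nd (nat_lit 40248) (PT.lf (nat_lit 3420) (nat_lit 6) (nat_lit 45) (nat_lit 1) (nat_lit 151) (nat_lit 92) (nat_lit 147)) (PT.nd (nat_lit 78) (PT.lf (nat_lit 3648) (nat_lit 6) (nat_lit 48) (nat_lit 3) (nat_lit 146) (nat_lit 93) (nat_lit 151)) (PT.lf (nat_lit 3724) (nat_lit 6) (nat_lit 49) (nat_lit 3) (nat_lit 147) (nat_lit 93) (nat_lit 150)))) (PT.nd (nat_lit 156) (PT.nd (nat_lit 78) (PT.lf (nat_lit 3800) (nat_lit 6) (nat_lit 50) (nat_lit 3) (nat_lit 148) (nat_lit 93) (nat_lit 149)) (PT.lf (nat_lit 3800) (nat_lit 6) (nat_lit 50) (nat_lit 1) (nat_lit 149) (nat_lit 93) (nat_lit 148))) (PT.nd (nat_lit 78) (PT.lf (nat_lit 3724) (nat_lit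 6) (nat_lit 49) (nat_lit 1) (nat_lit 150) (nat_lit 93) (nat_lit 147)) (PT.lf (nat_lit 3648) (nat_lit 6) (nat_lit 48) (nat_lit 1) (nat_lit 151) (nat_lit 93) (nat_lit 146)))))) (PT.nd (nat_lit 468) (PT.nd (nat_lit 234) (PT.nd (nat_lit 78) (PT.lf (nat_lit 3876) (nat_lit 6) (nat_lit 51) (nat_lit 3) (nat_lit 145) (nat_lit 94) (nat_lit 151)) (PT.nd (nat_lit 78) (PT.lf (nat_lit 3952) (nat_lit 6) (nat_lit 52) (nat_lit 3) (nat_lit 146) (nat_lit 94) (nat_lit 150)) (PT.lf (nat_lit 4028) (nat_lit 6) (nat_lit 53) (nat_lit 3) (nat_lit 147) (nat_lit 94) (nat_lit 149)))) (PT.nd (nat_lit 78) (PT.lf (nat_lit 4104) (nat_lit 3) (nat_lit 54) (nat_lit 1) (nat_lit 148) (nat_lit 94) (nat_lit 148)) (PT.nd (nat_lit 78) (PT.lf (nat_lit 4028) (nat_lit 6) (nat_lit 53) (nat_lit 1) (nat_lit 149) (nat_lit 94) (nat_lit 147)) (PT.lf (nat_lit 3952) (nat_lit 6) (nat_lit 52) (nat_lit 1) (nat_lit 150) (nat_lit 94) (nat_lit 146)))))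 (PT.nd (nat_lit 40326) (PT.nd (nat_lit 40170) (PT.lf (nat_lit 3876) (nat_lit 6) (nat_lit 51) (nat_lit 1) (nat_lit 151) (nat_lit 94) (nat_lit 145)) (PT.nd (nat_lit 78) (PT.lf (nat_lit 4180) (nat_lit 6) (nat_lit 55) (nat_lit 3) (nat_lit 145) (nat_lit 95) (nat_lit 150)) (PT.lf (nat_lit 4256) (nat_lit 6) (nat_lit 56) (nat_lit 3) (nat_lit 146) (nat_lit 95) (nat_lit 149)))) (PT.nd (nat_lit 156) (PT.nd (nat_lit 78) (PT.lf (nat_lit 4332) (nat_lit 6) (nat_lit 57) (nat_lit 3) (nat_lit 147) (nat_lit 95) (nat_lit 148)) (PT.lf (nat_lit 4332) (nat_lit 6) (nat_lit 57) (nat_lit 1) (nat_lit 148) (nat_lit 95) (nat_lit 147))) (PT.nd (nat_lit 78) (PT.lf (nat_lit 4256) (nat_lit 6) (nat_lit 56) (nat_lit 1) (nat_lit 149) (nat_lit 95) (nat_lit 146)) (PT.lf (nat_lit 4180) (nat_lit 6) (nat_lit 55) (nat_lit 1) (nat_lit 150) (nat_lit 95) (nat_lit 145))))))))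
noncomputable def pc2 : PT := (PT.nd (nat_lit 121992) (PT.nd (nat_lit 40950) (PT.nd (nat_lit 468) (PT.nd (nat_lit 234) (PT.nd (nat_lit 78) (PT.lf (nat_lit 4408) (nat_lit 6) (nat_lit 58) (nat_lit 3) (nat_lit 144) (nat_lit 96) (nat_lit 150)) (PT.nd (nat_lit 78) (PT.lf (nat_lit 4484) (nat_lit 6) (nat_lit 59) (nat_lit 3) (nat_lit 145) (nat_lit 96) (nat_lit 149)) (PT.lf (nat_lit 4560) (nat_lit 6) (nat_lit 60) (nat_lit 3) (nat_lit 146) (nat_lit 96) (nat_lit 148)))) (PT.nd (nat_lit 78) (PT.lf (nat_lit 4636) (nat_lit 3) (nat_lit 61) (nat_lit 1) (nat_lit 147) (nat_lit 96) (nat_lit 147)) (PT.nd (nat_lit 78) (PT.lf (nat_lit 4560) (nat_lit 6) (nat_lit 60) (nat_lit 1) (nat_lit 148) (nat_lit 96) (nat_lit 146)) (PT.lf (nat_lit 4484) (nat_lit 6) (nat_lit 59) (nat_lit 1) (nat_lit 149) (nat_lit 96) (nat_lit 145))))) (PT.nd (nat_lit 40248) (PT.nd (nat_lit 40092) (PT.lf (nat_lit 4408) (nat_lit 6) (nat_lit 58) (nat_lit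 1) (nat_lit 150) (nat_lit 96) (nat_lit 144)) (PT.nd (nat_lit 78) (PT.lf (nat_lit 4712) (nat_lit 6) (nat_lit 62) (nat_lit 3) (nat_lit 143) (nat_lit 97) (nat_lit 150)) (PT.lf (nat_lit 4788) (nat_lit 6) (nat_lit 63) (nat_lit 3) (nat_lit 144) (nat_lit 97) (nat_lit 149)))) (PT.nd (nat_lit 78) (PT.lf (nat_lit 4864) (nat_lit 6) (nat_lit 64) (nat_lit 3) (nat_lit 145) (nat_lit 97) (nat_lit 148)) (PT.nd (nat_lit 78) (PT.lf (nat_lit 4940) (nat_lit 6) (nat_lit 65) (nat_lit 3) (nat_lit 146) (nat_lit 97) (nat_lit 147)) (PT.lf (nat_lit 4940) (nat_lit 6) (nat_lit 65) (nat_lit 1) (nat_lit 147) (nat_lit 97) (nat_lit 146)))))) (PT.nd (nat_lit 40482) (PT.nd (nat_lit 40248) (PT.nd (nat_lit 78) (PT.lf (nat_lit 4864) (nat_lit 6) (nat_lit 64) (nat_lit 1) (nat_lit 148) (nat_lit 97) (nat_lit 145)) (PT.nd (nat_lit 78) (PT.lf (nat_lit 4788) (nat_lit 6) (nat_lit 63) (nat_lit 1) (nat_lit 149) (nat_lit 97) (nat_lit 144)) (PT.lf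 (nat_lit 4712) (nat_lit 6) (nat_lit 62) (nat_lit 1) (nat_lit 150) (nat_lit 97) (nat_lit 143)))) (PT.nd (nat_lit 78) (PT.lf (nat_lit 5016) (nat_lit 6) (nat_lit 66) (nat_lit 3) (nat_lit 143) (nat_lit 98) (nat_lit 149)) (PT.nd (nat_lit 78) (PT.lf (nat_lit 5092) (nat_lit 6) (nat_lit 67) (nat_lit 3) (nat_lit 144) (nat_lit 98) (nat_lit 148)) (PT.lf (nat_lit 5168) (nat_lit 6) (nat_lit 68) (nat_lit 3) (nat_lit 145) (nat_lit 98) (nat_lit 147))))) (PT.nd (nat_lit 234) (PT.nd (nat_lit 78) (PT.lf (nat_lit 5244) (nat_lit 3) (nat_lit 69) (nat_lit 1) (nat_lit 146) (nat_lit 98) (nat_lit 146)) (PT.nd (nat_lit 78) (PT.lf (nat_lit 5168) (nat_lit 6) (nat_lit 68) (nat_lit 1) (nat_lit 147) (nat_lit 98) (nat_lit 145)) (PT.lf (nat_lit 5092) (nat_lit 6) (nat_lit 67) (nat_lit 1) (nat_lit 148) (nat_lit 98) (nat_lit 144)))) (PT.nd (nat_lit 40170) (PT.nd (nat_lit 40092) (PT.lf (nat_lit 5016) (nat_lit 6) (nat_lit 66) (nat_lit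 1) (nat_lit 149) (nat_lit 98) (nat_lit 143)) (PT.lf (nat_lit 5320) (nat_lit 6) (nat_lit 70) (nat_lit 3) (nat_lit 142) (nat_lit 99) (nat_lit 149))) (PT.nd (nat_lit 78) (PT.lf (nat_lit 5396) (nat_lit 6) (nat_lit 71) (nat_lit 3) (nat_lit 143) (nat_lit 99) (nat_lit 148)) (PT.lf (nat_lit 5472) (nat_lit 6) (nat_lit 72) (nat_lit 3) (nat_lit 144) (nat_lit 99) (nat_lit 147))))))) (PT.nd (nat_lit 40950) (PT.nd (nat_lit 40404) (PT.nd (nat_lit 234) (PT.nd (nat_lit 78) (PT.lf (nat_lit 5548) (nat_lit 6) (nat_lit 73) (nat_lit 3) (nat_lit 145) (nat_lit 99) (nat_lit 146)) (PT.nd (nat_lit 78) (PT.lf (nat_lit 5548) (nat_lit 6) (nat_lit 73) (nat_lit 1) (nat_lit 146) (nat_lit 99) (nat_lit 145)) (PT.lf (nat_lit 5472) (nat_lit 6) (nat_lit 72) (nat_lit 1) (nat_lit 147) (nat_lit 99) (nat_lit 144)))) (PT.nd (nat_lit 78) (PT.lf (nat_lit 5396) (nat_lit 6) (nat_lit 71) (nat_lit 1) (nat_lit 148) (nat_lit 99) (nat_lit 143))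 (PT.nd (nat_lit 40014) (PT.lf (nat_lit 5320) (nat_lit 6) (nat_lit 70) (nat_lit 1) (nat_lit 149) (nat_lit 99) (nat_lit 142)) (PT.lf (nat_lit 5624) (nat_lit 6) (nat_lit 74) (nat_lit 3) (nat_lit 141) (nat_lit 100) (nat_lit 149))))) (PT.nd (nat_lit 234) (PT.nd (nat_lit 78) (PT.lf (nat_lit 5700) (nat_lit 6) (nat_lit 75) (nat_lit 3) (nat_lit 142) (nat_lit 100) (nat_lit 148)) (PT.nd (nat_lit 78) (PT.lf (nat_lit 5776) (nat_lit 6) (nat_lit 76) (nat_lit 3) (nat_lit 143) (nat_lit 100) (nat_lit 147)) (PT.lf (nat_lit 5852) (nat_lit 6) (nat_lit 77) (nat_lit 3) (nat_lit 144) (nat_lit 100) (nat_lit 146)))) (PT.nd (nat_lit 156) (PT.nd (nat_lit 78) (PT.lf (nat_lit 5928) (nat_lit 3) (nat_lit 78) (nat_lit 1) (nat_lit 145) (nat_lit 100) (nat_lit 145)) (PT.lf (nat_lit 5852) (nat_lit 6) (nat_lit 77) (nat_lit 1) (nat_lit 146) (nat_lit 100) (nat_lit 144))) (PT.nd (nat_lit 78) (PT.lf (nat_lit 5776) (nat_lit 6) (nat_lit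 76) (nat_lit 1) (nat_lit 147) (nat_lit 100) (nat_lit 143)) (PT.lf (nat_lit 5700) (nat_lit 6) (nat_lit 75) (nat_lit 1) (nat_lit 148) (nat_lit 100) (nat_lit 142)))))) (PT.nd (nat_lit 40404) (PT.nd (nat_lit 40170) (PT.nd (nat_lit 40014) (PT.lf (nat_lit 5624) (nat_lit 6) (nat_lit 74) (nat_lit 1) (nat_lit 149) (nat_lit 100) (nat_lit 141)) (PT.nd (nat_lit 78) (PT.lf (nat_lit 6004) (nat_lit 6) (nat_lit 79) (nat_lit 3) (nat_lit 141) (nat_lit 101) (nat_lit 148)) (PT.lf (nat_lit 6080) (nat_lit 6) (nat_lit 80) (nat_lit 3) (nat_lit 142) (nat_lit 101) (nat_lit 147)))) (PT.nd (nat_lit 78) (PT.lf (nat_lit 6156) (nat_lit 6) (nat_lit 81) (nat_lit 3) (nat_lit 143) (nat_lit 101) (nat_lit 146)) (PT.nd (nat_lit 78) (PT.lf (nat_lit 6232) (nat_lit 6) (nat_lit 82) (nat_lit 3) (nat_lit 144) (nat_lit 101) (nat_lit 145)) (PT.lf (nat_lit 6232) (nat_lit 6) (nat_lit 82) (nat_lit 1) (nat_lit 145) (nat_lit 101) (nat_lit 144)))))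 (PT.nd (nat_lit 40170) (PT.nd (nat_lit 78) (PT.lf (nat_lit 6156) (nat_lit 6) (nat_lit 81) (nat_lit 1) (nat_lit 146) (nat_lit 101) (nat_lit 143)) (PT.nd (nat_lit 78) (PT.lf (nat_lit 6080) (nat_lit 6) (nat_lit 80) (nat_lit 1) (nat_lit 147) (nat_lit 101) (nat_lit 142)) (PT.lf (nat_lit 6004) (nat_lit 6) (nat_lit 79) (nat_lit 1) (nat_lit 148) (nat_lit 101) (nat_lit 141)))) (PT.nd (nat_lit 156) (PT.nd (nat_lit 78) (PT.lf (nat_lit 6308) (nat_lit 6) (nat_lit 83) (nat_lit 3) (nat_lit 140) (nat_lit 102) (nat_lit 148)) (PT.lf (nat_lit 6384) (nat_lit 6) (nat_lit 84) (nat_lit 3) (nat_lit 141) (nat_lit 102) (nat_lit 147))) (PT.nd (nat_lit 78) (PT.lf (nat_lit 6460) (nat_lit 6) (nat_lit 85) (nat_lit 3) (nat_lit 142) (nat_lit 102) (nat_lit 146)) (PT.lf (nat_lit 6536) (nat_lit 6) (nat_lit 86) (nat_lit 3) (nat_lit 143) (nat_lit 102) (nat_lit 145))))))))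
noncomputable def pc3 : PT := (PT.nd (nat_lit 121524) (PT.nd (nat_lit 40794) (PT.nd (nat_lit 40326) (PT.nd (nat_lit 234) (PT.nd (nat_lit 78) (PT.lf (nat_lit 6612) (nat_lit 3) (nat_lit 87) (nat_lit 1) (nat_lit 144) (nat_lit 102) (nat_lit 144)) (PT.nd (nat_lit 78) (PT.lf (nat_lit 6536) (nat_lit 6) (nat_lit 86) (nat_lit 1) (nat_lit 145) (nat_lit 102) (nat_lit 143)) (PT.lf (nat_lit 6460) (nat_lit 6) (nat_lit 85) (nat_lit 1) (nat_lit 146) (nat_lit 102) (nat_lit 142)))) (PT.nd (nat_lit 78) (PT.lf (nat_lit 6384) (nat_lit 6) (nat_lit 84) (nat_lit 1) (nat_lit 147) (nat_lit 102) (nat_lit 141)) (PT.nd (nat_lit 39936) (PT.lf (nat_lit 6308) (nat_lit 6) (nat_lit 83) (nat_lit 1) (nat_lit 148) (nat_lit 102) (nat_lit 140)) (PT.lf (nat_lit 6688) (nat_lit 6) (nat_lit 88) (nat_lit 3) (nat_lit 139) (nat_lit 103) (nat_lit 148))))) (PT.nd (nat_lit 234) (PT.nd (nat_lit 78) (PT.lf (nat_lit 6764) (nat_lit 6) (nat_lit 89)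 (nat_lit 3) (nat_lit 140) (nat_lit 103) (nat_lit 147)) (PT.nd (nat_lit 78) (PT.lf (nat_lit 6840) (nat_lit 6) (nat_lit 90) (nat_lit 3) (nat_lit 141) (nat_lit 103) (nat_lit 146)) (PT.lf (nat_lit 6916) (nat_lit 6) (nat_lit 91) (nat_lit 3) (nat_lit 142) (nat_lit 103) (nat_lit 145)))) (PT.nd (nat_lit 78) (PT.lf (nat_lit 6992) (nat_lit 6) (nat_lit 92) (nat_lit 3) (nat_lit 143) (nat_lit 103) (nat_lit 144)) (PT.nd (nat_lit 78) (PT.lf (nat_lit 6992) (nat_lit 6) (nat_lit 92) (nat_lit 1) (nat_lit 144) (nat_lit 103) (nat_lit 143)) (PT.lf (nat_lit 6916) (nat_lit 6) (nat_lit 91) (nat_lit 1) (nat_lit 145) (nat_lit 103) (nat_lit 142)))))) (PT.nd (nat_lit 40326) (PT.nd (nat_lit 40092) (PT.nd (nat_lit 78) (PT.lf (nat_lit 6840) (nat_lit 6) (nat_lit 90) (nat_lit 1) (nat_lit 146) (nat_lit 103) (nat_lit 141)) (PT.nd (nat_lit 78) (PT.lf (nat_lit 6764) (nat_lit 6) (nat_lit 89) (nat_lit 1) (nat_lit 147) (nat_lit 103)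 (nat_lit 140)) (PT.lf (nat_lit 6688) (nat_lit 6) (nat_lit 88) (nat_lit 1) (nat_lit 148) (nat_lit 103) (nat_lit 139)))) (PT.nd (nat_lit 78) (PT.lf (nat_lit 7068) (nat_lit 6) (nat_lit 93) (nat_lit 3) (nat_lit 139) (nat_lit 104) (nat_lit 147)) (PT.nd (nat_lit 78) (PT.lf (nat_lit 7144) (nat_lit 6) (nat_lit 94) (nat_lit 3) (nat_lit 140) (nat_lit 104) (nat_lit 146)) (PT.lf (nat_lit 7220) (nat_lit 6) (nat_lit 95) (nat_lit 3) (nat_lit 141) (nat_lit 104) (nat_lit 145))))) (PT.nd (nat_lit 234) (PT.nd (nat_lit 78) (PT.lf (nat_lit 7296) (nat_lit 6) (nat_lit 96) (nat_lit 3) (nat_lit 142) (nat_lit 104) (nat_lit 144)) (PT.nd (nat_lit 78) (PT.lf (nat_lit 7372) (nat_lit 3) (nat_lit 97) (nat_lit 1) (nat_lit 143) (nat_lit 104) (nat_lit 143)) (PT.lf (nat_lit 7296) (nat_lit 6) (nat_lit 96) (nat_lit 1) (nat_lit 144) (nat_lit 104) (nat_lit 142)))) (PT.nd (nat_lit 156) (PT.nd (nat_lit 78) (PT.lf (nat_lit 7220) (nat_lit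 6) (nat_lit 95) (nat_lit 1) (nat_lit 145) (nat_lit 104) (nat_lit 141)) (PT.lf (nat_lit 7144) (nat_lit 6) (nat_lit 94) (nat_lit 1) (nat_lit 146) (nat_lit 104) (nat_lit 140))) (PT.nd (nat_lit 39936) (PT.lf (nat_lit 7068) (nat_lit 6) (nat_lit 93) (nat_lit 1) (nat_lit 147) (nat_lit 104) (nat_lit 139)) (PT.lf (nat_lit 7448) (nat_lit 6) (nat_lit 98) (nat_lit 3) (nat_lit 138) (nat_lit 105) (nat_lit 147))))))) (PT.nd (nat_lit 40794) (PT.nd (nat_lit 468) (PT.nd (nat_lit 234) (PT.nd (nat_lit 78) (PT.lf (nat_lit 7524) (nat_lit 6) (nat_lit 99) (nat_lit 3) (nat_lit 139) (nat_lit 105) (nat_lit 146)) (PT.nd (nat_lit 78) (PT.lf (nat_lit 7600) (nat_lit 6) (nat_lit 100) (nat_lit 3) (nat_lit 140) (nat_lit 105) (nat_lit 145)) (PT.lf (nat_lit 7676) (nat_lit 6) (nat_lit 101) (nat_lit 3) (nat_lit 141) (nat_lit 105) (nat_lit 144)))) (PT.nd (nat_lit 78) (PT.lf (nat_lit 7752) (nat_lit 6) (nat_lit 102) (nat_lit 3) (nat_lit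 142) (nat_lit 105) (nat_lit 143)) (PT.nd (nat_lit 78) (PT.lf (nat_lit 7752) (nat_lit 6) (nat_lit 102) (nat_lit 1) (nat_lit 143) (nat_lit 105) (nat_lit 142)) (PT.lf (nat_lit 7676) (nat_lit 6) (nat_lit 101) (nat_lit 1) (nat_lit 144) (nat_lit 105) (nat_lit 141))))) (PT.nd (nat_lit 40014) (PT.nd (nat_lit 78) (PT.lf (nat_lit 7600) (nat_lit 6) (nat_lit 100) (nat_lit 1) (nat_lit 145) (nat_lit 105) (nat_lit 140)) (PT.nd (nat_lit 78) (PT.lf (nat_lit 7524) (nat_lit 6) (nat_lit 99) (nat_lit 1) (nat_lit 146) (nat_lit 105) (nat_lit 139)) (PT.lf (nat_lit 7448) (nat_lit 6) (nat_lit 98) (nat_lit 1) (nat_lit 147) (nat_lit 105) (nat_lit 138)))) (PT.nd (nat_lit 156) (PT.nd (nat_lit 78) (PT.lf (nat_lit 7828) (nat_lit 6) (nat_lit 103) (nat_lit 3) (nat_lit 137) (nat_lit 106) (nat_lit 147)) (PT.lf (nat_lit 7904) (nat_lit 6) (nat_lit 104) (nat_lit 3) (nat_lit 138) (nat_lit 106) (nat_lit 146))) (PT.nd (nat_lit 78) (PT.lf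 (nat_lit 7980) (nat_lit 6) (nat_lit 105) (nat_lit 3) (nat_lit 139) (nat_lit 106) (nat_lit 145)) (PT.lf (nat_lit 8056) (nat_lit 6) (nat_lit 106) (nat_lit 3) (nat_lit 140) (nat_lit 106) (nat_lit 144)))))) (PT.nd (nat_lit 468) (PT.nd (nat_lit 234) (PT.nd (nat_lit 78) (PT.lf (nat_lit 8132) (nat_lit 6) (nat_lit 107) (nat_lit 3) (nat_lit 141) (nat_lit 106) (nat_lit 143)) (PT.nd (nat_lit 78) (PT.lf (nat_lit 8208) (nat_lit 3) (nat_lit 108) (nat_lit 1) (nat_lit 142) (nat_lit 106) (nat_lit 142)) (PT.lf (nat_lit 8132) (nat_lit 6) (nat_lit 107) (nat_lit 1) (nat_lit 143) (nat_lit 106) (nat_lit 141)))) (PT.nd (nat_lit 78) (PT.lf (nat_lit 8056) (nat_lit 6) (nat_lit 106) (nat_lit 1) (nat_lit 144) (nat_lit 106) (nat_lit 140)) (PT.nd (nat_lit 78) (PT.lf (nat_lit 7980) (nat_lit 6) (nat_lit 105) (nat_lit 1) (nat_lit 145) (nat_lit 106) (nat_lit 139)) (PT.lf (nat_lit 7904) (nat_lit 6) (nat_lit 104) (nat_lit 1) (nat_lit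 146) (nat_lit 106) (nat_lit 138))))) (PT.nd (nat_lit 39936) (PT.nd (nat_lit 39780) (PT.lf (nat_lit 7828) (nat_lit 6) (nat_lit 103) (nat_lit 1) (nat_lit 147) (nat_lit 106) (nat_lit 137)) (PT.nd (nat_lit 78) (PT.lf (nat_lit 8284) (nat_lit 6) (nat_lit 109) (nat_lit 3) (nat_lit 136) (nat_lit 107) (nat_lit 147)) (PT.lf (nat_lit 8360) (nat_lit 6) (nat_lit 110) (nat_lit 3) (nat_lit 137) (nat_lit 107) (nat_lit 146)))) (PT.nd (nat_lit 156) (PT.nd (nat_lit 78) (PT.lf (nat_lit 8436) (nat_lit 6) (nat_lit 111) (nat_lit 3) (nat_lit 138) (nat_lit 107) (nat_lit 145)) (PT.lf (nat_lit 8512) (nat_lit 6) (nat_lit 112) (nat_lit 3) (nat_lit 139) (nat_lit 107) (nat_lit 144))) (PT.nd (nat_lit 78) (PT.lf (nat_lit 8588) (nat_lit 6) (nat_lit 113) (nat_lit 3) (nat_lit 140) (nat_lit 107) (nat_lit 143)) (PT.lf (nat_lit 8664) (nat_lit 6) (nat_lit 114) (nat_lit 3) (nat_lit 141) (nat_lit 107) (nat_lit 142))))))))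
noncomputable def pc4 : PT := (PT.nd (nat_lit 81354) (PT.nd (nat_lit 40638) (PT.nd (nat_lit 40170) (PT.nd (nat_lit 234) (PT.nd (nat_lit 78) (PT.lf (nat_lit 8664) (nat_lit 6) (nat_lit 114) (nat_lit 1) (nat_lit 142) (nat_lit 107) (nat_lit 141)) (PT.nd (nat_lit 78) (PT.lf (nat_lit 8588) (nat_lit 6) (nat_lit 113) (nat_lit 1) (nat_lit 143) (nat_lit 107) (nat_lit 140)) (PT.lf (nat_lit 8512) (nat_lit 6) (nat_lit 112) (nat_lit 1) (nat_lit 144) (nat_lit 107) (nat_lit 139)))) (PT.nd (nat_lit 78) (PT.lf (nat_lit 8436) (nat_lit 6) (nat_lit 111) (nat_lit 1) (nat_lit 145) (nat_lit 107) (nat_lit 138)) (PT.nd (nat_lit 78) (PT.lf (nat_lit 8360) (nat_lit 6) (nat_lit 110) (nat_lit 1) (nat_lit 146) (nat_lit 107) (nat_lit 137)) (PT.lf (nat_lit 8284) (nat_lit 6) (nat_lit 109) (nat_lit 1) (nat_lit 147) (nat_lit 107) (nat_lit 136))))) (PT.nd (nat_lit 234) (PT.nd (nat_lit 78) (PT.lf (nat_lit 8740) (nat_lit 6) (nat_lit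 115) (nat_lit 3) (nat_lit 136) (nat_lit 108) (nat_lit 146)) (PT.nd (nat_lit 78) (PT.lf (nat_lit 8816) (nat_lit 6) (nat_lit 116) (nat_lit 3) (nat_lit 137) (nat_lit 108) (nat_lit 145)) (PT.lf (nat_lit 8892) (nat_lit 6) (nat_lit 117) (nat_lit 3) (nat_lit 138) (nat_lit 108) (nat_lit 144)))) (PT.nd (nat_lit 78) (PT.lf (nat_lit 8968) (nat_lit 6) (nat_lit 118) (nat_lit 3) (nat_lit 139) (nat_lit 108) (nat_lit 143)) (PT.nd (nat_lit 78) (PT.lf (nat_lit 9044) (nat_lit 6) (nat_lit 119) (nat_lit 3) (nat_lit 140) (nat_lit 108) (nat_lit 142)) (PT.lf (nat_lit 9120) (nat_lit 3) (nat_lit 120) (nat_lit 1) (nat_lit 141) (nat_lit 108) (nat_lit 141)))))) (PT.nd (nat_lit 40170) (PT.nd (nat_lit 234) (PT.nd (nat_lit 78) (PT.lf (nat_lit 9044) (nat_lit 6) (nat_lit 119) (nat_lit 1) (nat_lit 142) (nat_lit 108) (nat_lit 140)) (PT.nd (nat_lit 78) (PT.lf (nat_lit 8968) (nat_lit 6) (nat_lit 118) (nat_lit 1) (nat_lit 143) (nat_lit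 108) (nat_lit 139)) (PT.lf (nat_lit 8892) (nat_lit 6) (nat_lit 117) (nat_lit 1) (nat_lit 144) (nat_lit 108) (nat_lit 138)))) (PT.nd (nat_lit 78) (PT.lf (nat_lit 8816) (nat_lit 6) (nat_lit 116) (nat_lit 1) (nat_lit 145) (nat_lit 108) (nat_lit 137)) (PT.nd (nat_lit 39780) (PT.lf (nat_lit 8740) (nat_lit 6) (nat_lit 115) (nat_lit 1) (nat_lit 146) (nat_lit 108) (nat_lit 136)) (PT.lf (nat_lit 9196) (nat_lit 6) (nat_lit 121) (nat_lit 3) (nat_lit 135) (nat_lit 109) (nat_lit 146))))) (PT.nd (nat_lit 234) (PT.nd (nat_lit 78) (PT.lf (nat_lit 9272) (nat_lit 6) (nat_lit 122) (nat_lit 3) (nat_lit 136) (nat_lit 109) (nat_lit 145)) (PT.nd (nat_lit 78) (PT.lf (nat_lit 9348) (nat_lit 6) (nat_lit 123) (nat_lit 3) (nat_lit 137) (nat_lit 109) (nat_lit 144)) (PT.lf (nat_lit 9424) (nat_lit 6) (nat_lit 124) (nat_lit 3) (nat_lit 138) (nat_lit 109) (nat_lit 143)))) (PT.nd (nat_lit 156) (PT.nd (nat_lit 78) (PT.lf (nat_lit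 9500) (nat_lit 6) (nat_lit 125) (nat_lit 3) (nat_lit 139) (nat_lit 109) (nat_lit 142)) (PT.lf (nat_lit 9576) (nat_lit 6) (nat_lit 126) (nat_lit 3) (nat_lit 140) (nat_lit 109) (nat_lit 141))) (PT.nd (nat_lit 78) (PT.lf (nat_lit 9576) (nat_lit 6) (nat_lit 126) (nat_lit 1) (nat_lit 141) (nat_lit 109) (nat_lit 140)) (PT.lf (nat_lit 9500) (nat_lit 6) (nat_lit 125) (nat_lit 1) (nat_lit 142) (nat_lit 109) (nat_lit 139))))))) (PT.nd (nat_lit 40638) (PT.nd (nat_lit 40092) (PT.nd (nat_lit 234) (PT.nd (nat_lit 78) (PT.lf (nat_lit 9424) (nat_lit 6) (nat_lit 124) (nat_lit 1) (nat_lit 143) (nat_lit 109) (nat_lit 138)) (PT.nd (nat_lit 78) (PT.lf (nat_lit 9348) (nat_lit 6) (nat_lit 123) (nat_lit 1) (nat_lit 144) (nat_lit 109) (nat_lit 137)) (PT.lf (nat_lit 9272) (nat_lit 6) (nat_lit 122) (nat_lit 1) (nat_lit 145) (nat_lit 109) (nat_lit 136)))) (PT.nd (nat_lit 39702) (PT.lf (nat_lit 9196) (nat_lit 6) (nat_lit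 121) (nat_lit 1) (nat_lit 146) (nat_lit 109) (nat_lit 135)) (PT.nd (nat_lit 78) (PT.lf (nat_lit 9652) (nat_lit 6) (nat_lit 127) (nat_lit 3) (nat_lit 134) (nat_lit 110) (nat_lit 146)) (PT.lf (nat_lit 9728) (nat_lit 6) (nat_lit 128) (nat_lit 3) (nat_lit 135) (nat_lit 110) (nat_lit 145))))) (PT.nd (nat_lit 234) (PT.nd (nat_lit 78) (PT.lf (nat_lit 9804) (nat_lit 6) (nat_lit 129) (nat_lit 3) (nat_lit 136) (nat_lit 110) (nat_lit 144)) (PT.nd (nat_lit 78) (PT.lf (nat_lit 9880) (nat_lit 6) (nat_lit 130) (nat_lit 3) (nat_lit 137) (nat_lit 110) (nat_lit 143)) (PT.lf (nat_lit 9956) (nat_lit 6) (nat_lit 131) (nat_lit 3) (nat_lit 138) (nat_lit 110) (nat_lit 142)))) (PT.nd (nat_lit 156) (PT.nd (nat_lit 78) (PT.lf (nat_lit 10032) (nat_lit 6) (nat_lit 132) (nat_lit 3) (nat_lit 139) (nat_lit 110) (nat_lit 141)) (PT.lf (nat_lit 10108) (nat_lit 3) (nat_lit 133) (nat_lit 1) (nat_lit 140) (nat_lit 110) (nat_lit 140)))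 (PT.nd (nat_lit 78) (PT.lf (nat_lit 10032) (nat_lit 6) (nat_lit 132) (nat_lit 1) (nat_lit 141) (nat_lit 110) (nat_lit 139)) (PT.lf (nat_lit 9956) (nat_lit 6) (nat_lit 131) (nat_lit 1) (nat_lit 142) (nat_lit 110) (nat_lit 138)))))) (PT.nd (nat_lit 40014) (PT.nd (nat_lit 234) (PT.nd (nat_lit 78) (PT.lf (nat_lit 9880) (nat_lit 6) (nat_lit 130) (nat_lit 1) (nat_lit 143) (nat_lit 110) (nat_lit 137)) (PT.nd (nat_lit 78) (PT.lf (nat_lit 9804) (nat_lit 6) (nat_lit 129) (nat_lit 1) (nat_lit 144) (nat_lit 110) (nat_lit 136)) (PT.lf (nat_lit 9728) (nat_lit 6) (nat_lit 128) (nat_lit 1) (nat_lit 145) (nat_lit 110) (nat_lit 135)))) (PT.nd (nat_lit 39624) (PT.lf (nat_lit 9652) (nat_lit 6) (nat_lit 127) (nat_lit 1) (nat_lit 146) (nat_lit 110) (nat_lit 134)) (PT.nd (nat_lit 78) (PT.lf (nat_lit 10184) (nat_lit 6) (nat_lit 134) (nat_lit 3) (nat_lit 133) (nat_lit 111) (nat_lit 146)) (PT.lf (nat_lit 10260) (nat_lit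 6) (nat_lit 135) (nat_lit 3) (nat_lit 134) (nat_lit 111) (nat_lit 145))))) (PT.nd (nat_lit 234) (PT.nd (nat_lit 78) (PT.lf (nat_lit 10336) (nat_lit 6) (nat_lit 136) (nat_lit 3) (nat_lit 135) (nat_lit 111) (nat_lit 144)) (PT.nd (nat_lit 78) (PT.lf (nat_lit 10412) (nat_lit 6) (nat_lit 137) (nat_lit 3) (nat_lit 136) (nat_lit 111) (nat_lit 143)) (PT.lf (nat_lit 10488) (nat_lit 6) (nat_lit 138) (nat_lit 3) (nat_lit 137) (nat_lit 111) (nat_lit 142)))) (PT.nd (nat_lit 156) (PT.nd (nat_lit 78) (PT.lf (nat_lit 10564) (nat_lit 6) (nat_lit 139) (nat_lit 3) (nat_lit 138) (nat_lit 111) (nat_lit 141)) (PT.lf (nat_lit 10640) (nat_lit 6) (nat_lit 140) (nat_lit 3) (nat_lit 139) (nat_lit 111) (nat_lit 140))) (PT.nd (nat_lit 78) (PT.lf (nat_lit 10640) (nat_lit 6) (nat_lit 140) (nat_lit 1) (nat_lit 140) (nat_lit 111) (nat_lit 139)) (PT.lf (nat_lit 10564) (nat_lit 6) (nat_lit 139) (nat_lit 1) (nat_lit 141) (nat_lit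 111) (nat_lit 138))))))))
noncomputable def pc5 : PT := (PT.nd (nat_lit 80886) (PT.nd (nat_lit 40404) (PT.nd (nat_lit 39936) (PT.nd (nat_lit 234) (PT.nd (nat_lit 78) (PT.lf (nat_lit 10488) (nat_lit 6) (nat_lit 138) (nat_lit 1) (nat_lit 142) (nat_lit 111) (nat_lit 137)) (PT.nd (nat_lit 78) (PT.lf (nat_lit 10412) (nat_lit 6) (nat_lit 137) (nat_lit 1) (nat_lit 143) (nat_lit 111) (nat_lit 136)) (PT.lf (nat_lit 10336) (nat_lit 6) (nat_lit 136) (nat_lit 1) (nat_lit 144) (nat_lit 111) (nat_lit 135)))) (PT.nd (nat_lit 78) (PT.lf (nat_lit 10260) (nat_lit 6) (nat_lit 135) (nat_lit 1) (nat_lit 145) (nat_lit 111) (nat_lit 134)) (PT.nd (nat_lit 39546) (PT.lf (nat_lit 10184) (nat_lit 6) (nat_lit 134) (nat_lit 1) (nat_lit 146) (nat_lit 111) (nat_lit 133)) (PT.lf (nat_lit 10716) (nat_lit 6) (nat_lit 141) (nat_lit 3) (nat_lit 132) (nat_lit 112) (nat_lit 146))))) (PT.nd (nat_lit 234) (PT.nd (nat_lit 78) (PT.lf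 (nat_lit 10792) (nat_lit 6) (nat_lit 142) (nat_lit 3) (nat_lit 133) (nat_lit 112) (nat_lit 145)) (PT.nd (nat_lit 78) (PT.lf (nat_lit 10868) (nat_lit 6) (nat_lit 143) (nat_lit 3) (nat_lit 134) (nat_lit 112) (nat_lit 144)) (PT.lf (nat_lit 10944) (nat_lit 6) (nat_lit 144) (nat_lit 3) (nat_lit 135) (nat_lit 112) (nat_lit 143)))) (PT.nd (nat_lit 78) (PT.lf (nat_lit 11020) (nat_lit 6) (nat_lit 145) (nat_lit 3) (nat_lit 136) (nat_lit 112) (nat_lit 142)) (PT.nd (nat_lit 78) (PT.lf (nat_lit 11096) (nat_lit 6) (nat_lit 146) (nat_lit 3) (nat_lit 137) (nat_lit 112) (nat_lit 141)) (PT.lf (nat_lit 11172) (nat_lit 6) (nat_lit 147) (nat_lit 3) (nat_lit 138) (nat_lit 112) (nat_lit 140)))))) (PT.nd (nat_lit 468) (PT.nd (nat_lit 234) (PT.nd (nat_lit 78) (PT.lf (nat_lit 11248) (nat_lit 3) (nat_lit 148) (nat_lit 1) (nat_lit 139) (nat_lit 112) (nat_lit 139)) (PT.nd (nat_lit 78) (PT.lf (nat_lit 11172) (nat_lit 6) (nat_lit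 147) (nat_lit 1) (nat_lit 140) (nat_lit 112) (nat_lit 138)) (PT.lf (nat_lit 11096) (nat_lit 6) (nat_lit 146) (nat_lit 1) (nat_lit 141) (nat_lit 112) (nat_lit 137)))) (PT.nd (nat_lit 78) (PT.lf (nat_lit 11020) (nat_lit 6) (nat_lit 145) (nat_lit 1) (nat_lit 142) (nat_lit 112) (nat_lit 136)) (PT.nd (nat_lit 78) (PT.lf (nat_lit 10944) (nat_lit 6) (nat_lit 144) (nat_lit 1) (nat_lit 143) (nat_lit 112) (nat_lit 135)) (PT.lf (nat_lit 10868) (nat_lit 6) (nat_lit 143) (nat_lit 1) (nat_lit 144) (nat_lit 112) (nat_lit 134))))) (PT.nd (nat_lit 39702) (PT.nd (nat_lit 78) (PT.lf (nat_lit 10792) (nat_lit 6) (nat_lit 142) (nat_lit 1) (nat_lit 145) (nat_lit 112) (nat_lit 133)) (PT.nd (nat_lit 39546) (PT.lf (nat_lit 10716) (nat_lit 6) (nat_lit 141) (nat_lit 1) (nat_lit 146) (nat_lit 112) (nat_lit 132)) (PT.lf (nat_lit 11400) (nat_lit 6) (nat_lit 150) (nat_lit 3) (nat_lit 132) (nat_lit 113) (nat_lit 145)))) (PT.nd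 (nat_lit 156) (PT.nd (nat_lit 78) (PT.lf (nat_lit 11476) (nat_lit 6) (nat_lit 151) (nat_lit 3) (nat_lit 133) (nat_lit 113) (nat_lit 144)) (PT.lf (nat_lit 11552) (nat_lit 6) (nat_lit 152) (nat_lit 3) (nat_lit 134) (nat_lit 113) (nat_lit 143))) (PT.nd (nat_lit 78) (PT.lf (nat_lit 11628) (nat_lit 6) (nat_lit 153) (nat_lit 3) (nat_lit 135) (nat_lit 113) (nat_lit 142)) (PT.lf (nat_lit 11704) (nat_lit 6) (nat_lit 154) (nat_lit 3) (nat_lit 136) (nat_lit 113) (nat_lit 141))))))) (PT.nd (nat_lit 40482) (PT.nd (nat_lit 468) (PT.nd (nat_lit 234) (PT.nd (nat_lit 78) (PT.lf (nat_lit 11780) (nat_lit 6) (nat_lit 155) (nat_lit 3) (nat_lit 137) (nat_lit 113) (nat_lit 140)) (PT.nd (nat_lit 78) (PT.lf (nat_lit 11856) (nat_lit 6) (nat_lit 156) (nat_lit 3) (nat_lit 138) (nat_lit 113) (nat_lit 139)) (PT.lf (nat_lit 11856) (nat_lit 6) (nat_lit 156) (nat_lit 1) (nat_lit 139) (nat_lit 113) (nat_lit 138)))) (PT.nd (nat_lit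 78) (PT.lf (nat_lit 11780) (nat_lit 6) (nat_lit 155) (nat_lit 1) (nat_lit 140) (nat_lit 113) (nat_lit 137)) (PT.nd (nat_lit 78) (PT.lf (nat_lit 11704) (nat_lit 6) (nat_lit 154) (nat_lit 1) (nat_lit 141) (nat_lit 113) (nat_lit 136)) (PT.lf (nat_lit 11628) (nat_lit 6) (nat_lit 153) (nat_lit 1) (nat_lit 142) (nat_lit 113) (nat_lit 135))))) (PT.nd (nat_lit 39702) (PT.nd (nat_lit 78) (PT.lf (nat_lit 11552) (nat_lit 6) (nat_lit 152) (nat_lit 1) (nat_lit 143) (nat_lit 113) (nat_lit 134)) (PT.nd (nat_lit 78) (PT.lf (nat_lit 11476) (nat_lit 6) (nat_lit 151) (nat_lit 1) (nat_lit 144) (nat_lit 113) (nat_lit 133)) (PT.lf (nat_lit 11400) (nat_lit 6) (nat_lit 150) (nat_lit 1) (nat_lit 145) (nat_lit 113) (nat_lit 132)))) (PT.nd (nat_lit 156) (PT.nd (nat_lit 78) (PT.lf (nat_lit 11932) (nat_lit 6) (nat_lit 157) (nat_lit 3) (nat_lit 131) (nat_lit 114) (nat_lit 145)) (PT.lf (nat_lit 12008) (nat_lit 6) (nat_lit 158)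 (nat_lit 3) (nat_lit 132) (nat_lit 114) (nat_lit 144))) (PT.nd (nat_lit 78) (PT.lf (nat_lit 12084) (nat_lit 6) (nat_lit 159) (nat_lit 3) (nat_lit 133) (nat_lit 114) (nat_lit 143)) (PT.lf (nat_lit 12160) (nat_lit 6) (nat_lit 160) (nat_lit 3) (nat_lit 134) (nat_lit 114) (nat_lit 142)))))) (PT.nd (nat_lit 468) (PT.nd (nat_lit 234) (PT.nd (nat_lit 78) (PT.lf (nat_lit 12236) (nat_lit 6) (nat_lit 161) (nat_lit 3) (nat_lit 135) (nat_lit 114) (nat_lit 141)) (PT.nd (nat_lit 78) (PT.lf (nat_lit 12312) (nat_lit 6) (nat_lit 162) (nat_lit 3) (nat_lit 136) (nat_lit 114) (nat_lit 140)) (PT.lf (nat_lit 12388) (nat_lit 6) (nat_lit 163) (nat_lit 3) (nat_lit 137) (nat_lit 114) (nat_lit 139)))) (PT.nd (nat_lit 78) (PT.lf (nat_lit 12464) (nat_lit 3) (nat_lit 164) (nat_lit 1) (nat_lit 138) (nat_lit 114) (nat_lit 138)) (PT.nd (nat_lit 78) (PT.lf (nat_lit 12388) (nat_lit 6) (nat_lit 163) (nat_lit 1) (nat_lit 139) (nat_lit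 114) (nat_lit 137)) (PT.lf (nat_lit 12312) (nat_lit 6) (nat_lit 162) (nat_lit 1) (nat_lit 140) (nat_lit 114) (nat_lit 136))))) (PT.nd (nat_lit 234) (PT.nd (nat_lit 78) (PT.lf (nat_lit 12236) (nat_lit 6) (nat_lit 161) (nat_lit 1) (nat_lit 141) (nat_lit 114) (nat_lit 135)) (PT.nd (nat_lit 78) (PT.lf (nat_lit 12160) (nat_lit 6) (nat_lit 160) (nat_lit 1) (nat_lit 142) (nat_lit 114) (nat_lit 134)) (PT.lf (nat_lit 12084) (nat_lit 6) (nat_lit 159) (nat_lit 1) (nat_lit 143) (nat_lit 114) (nat_lit 133)))) (PT.nd (nat_lit 39546) (PT.nd (nat_lit 78) (PT.lf (nat_lit 12008) (nat_lit 6) (nat_lit 158) (nat_lit 1) (nat_lit 144) (nat_lit 114) (nat_lit 132)) (PT.lf (nat_lit 11932) (nat_lit 6) (nat_lit 157) (nat_lit 1) (nat_lit 145) (nat_lit 114) (nat_lit 131))) (PT.nd (nat_lit 78) (PT.lf (nat_lit 13072) (nat_lit 6) (nat_lit 172) (nat_lit 3) (nat_lit 130) (nat_lit 115) (nat_lit 145)) (PT.lf (nat_lit 13148) (nat_lit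 6) (nat_lit 173) (nat_lit 3) (nat_lit 131) (nat_lit 115) (nat_lit 144))))))))
noncomputable def pc6 : PT := (PT.nd (nat_lit 41262) (PT.nd (nat_lit 936) (PT.nd (nat_lit 468) (PT.nd (nat_lit 234) (PT.nd (nat_lit 78) (PT.lf (nat_lit 13224) (nat_lit 6) (nat_lit 174) (nat_lit 3) (nat_lit 132) (nat_lit 115) (nat_lit 143)) (PT.nd (nat_lit 78) (PT.lf (nat_lit 13300) (nat_lit 6) (nat_lit 175) (nat_lit 3) (nat_lit 133) (nat_lit 115) (nat_lit 142)) (PT.lf (nat_lit 13376) (nat_lit 6) (nat_lit 176) (nat_lit 3) (nat_lit 134) (nat_lit 115) (nat_lit 141)))) (PT.nd (nat_lit 78) (PT.lf (nat_lit 13452) (nat_lit 6) (nat_lit 177) (nat_lit 3) (nat_lit 135) (nat_lit 115) (nat_lit 140)) (PT.nd (nat_lit 78) (PT.lf (nat_lit 13528) (nat_lit 6) (nat_lit 178) (nat_lit 3) (nat_lit 136) (nat_lit 115) (nat_lit 139)) (PT.lf (nat_lit 13604) (nat_lit 6) (nat_lit 179) (nat_lit 3) (nat_lit 137) (nat_lit 115) (nat_lit 138))))) (PT.nd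 (nat_lit 234) (PT.nd (nat_lit 78) (PT.lf (nat_lit 13604) (nat_lit 6) (nat_lit 179) (nat_lit 1) (nat_lit 138) (nat_lit 115) (nat_lit 137)) (PT.nd (nat_lit 78) (PT.lf (nat_lit 13528) (nat_lit 6) (nat_lit 178) (nat_lit 1) (nat_lit 139) (nat_lit 115) (nat_lit 136)) (PT.lf (nat_lit 13452) (nat_lit 6) (nat_lit 177) (nat_lit 1) (nat_lit 140) (nat_lit 115) (nat_lit 135)))) (PT.nd (nat_lit 78) (PT.lf (nat_lit 13376) (nat_lit 6) (nat_lit 176) (nat_lit 1) (nat_lit 141) (nat_lit 115) (nat_lit 134)) (PT.nd (nat_lit 78) (PT.lf (nat_lit 13300) (nat_lit 6) (nat_lit 175) (nat_lit 1) (nat_lit 142) (nat_lit 115) (nat_lit 133)) (PT.lf (nat_lit 13224) (nat_lit 6) (nat_lit 174) (nat_lit 1) (nat_lit 143) (nat_lit 115) (nat_lit 132)))))) (PT.nd (nat_lit 39780) (PT.nd (nat_lit 39546) (PT.nd (nat_lit 78) (PT.lf (nat_lit 13148) (nat_lit 6) (nat_lit 173) (nat_lit 1) (nat_lit 144) (nat_lit 115) (nat_lit 131)) (PT.nd (nat_lit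 39390) (PT.lf (nat_lit 13072) (nat_lit 6) (nat_lit 172) (nat_lit 1) (nat_lit 145) (nat_lit 115) (nat_lit 130)) (PT.lf (nat_lit 12996) (nat_lit 6) (nat_lit 171) (nat_lit 3) (nat_lit 129) (nat_lit 116) (nat_lit 145)))) (PT.nd (nat_lit 78) (PT.lf (nat_lit 14212) (nat_lit 6) (nat_lit 187) (nat_lit 3) (nat_lit 130) (nat_lit 116) (nat_lit 144)) (PT.nd (nat_lit 78) (PT.lf (nat_lit 14288) (nat_lit 6) (nat_lit 188) (nat_lit 3) (nat_lit 131) (nat_lit 116) (nat_lit 143)) (PT.lf (nat_lit 14364) (nat_lit 6) (nat_lit 189) (nat_lit 3) (nat_lit 132) (nat_lit 116) (nat_lit 142))))) (PT.nd (nat_lit 234) (PT.nd (nat_lit 78) (PT.lf (nat_lit 14440) (nat_lit 6) (nat_lit 190) (nat_lit 3) (nat_lit 133) (nat_lit 116) (nat_lit 141)) (PT.nd (nat_lit 78) (PT.lf (nat_lit 14516) (nat_lit 6) (nat_lit 191) (nat_lit 3) (nat_lit 134) (nat_lit 116) (nat_lit 140)) (PT.lf (nat_lit 14592) (nat_lit 6) (nat_lit 192) (nat_lit 3) (nat_lit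 135) (nat_lit 116) (nat_lit 139)))) (PT.nd (nat_lit 156) (PT.nd (nat_lit 78) (PT.lf (nat_lit 14668) (nat_lit 6) (nat_lit 193) (nat_lit 3) (nat_lit 136) (nat_lit 116) (nat_lit 138)) (PT.lf (nat_lit 14744) (nat_lit 3) (nat_lit 194) (nat_lit 1) (nat_lit 137) (nat_lit 116) (nat_lit 137))) (PT.nd (nat_lit 78) (PT.lf (nat_lit 14668) (nat_lit 6) (nat_lit 193) (nat_lit 1) (nat_lit 138) (nat_lit 116) (nat_lit 136)) (PT.lf (nat_lit 14592) (nat_lit 6) (nat_lit 192) (nat_lit 1) (nat_lit 139) (nat_lit 116) (nat_lit 135))))))) (PT.nd (nat_lit 40248) (PT.nd (nat_lit 39702) (PT.nd (nat_lit 234) (PT.nd (nat_lit 78) (PT.lf (nat_lit 14516) (nat_lit 6) (nat_lit 191) (nat_lit 1) (nat_lit 140) (nat_lit 116) (nat_lit 134)) (PT.nd (nat_lit 78) (PT.lf (nat_lit 14440) (nat_lit 6) (nat_lit 190) (nat_lit 1) (nat_lit 141) (nat_lit 116) (nat_lit 133)) (PT.lf (nat_lit 14364) (nat_lit 6) (nat_lit 189) (nat_lit 1) (nat_lit 142)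 (nat_lit 116) (nat_lit 132)))) (PT.nd (nat_lit 78) (PT.lf (nat_lit 14288) (nat_lit 6) (nat_lit 188) (nat_lit 1) (nat_lit 143) (nat_lit 116) (nat_lit 131)) (PT.nd (nat_lit 78) (PT.lf (nat_lit 14212) (nat_lit 6) (nat_lit 187) (nat_lit 1) (nat_lit 144) (nat_lit 116) (nat_lit 130)) (PT.lf (nat_lit 12996) (nat_lit 6) (nat_lit 171) (nat_lit 1) (nat_lit 145) (nat_lit 116) (nat_lit 129))))) (PT.nd (nat_lit 234) (PT.nd (nat_lit 78) (PT.lf (nat_lit 12920) (nat_lit 6) (nat_lit 170) (nat_lit 3) (nat_lit 128) (nat_lit 117) (nat_lit 145)) (PT.nd (nat_lit 78) (PT.lf (nat_lit 14136) (nat_lit 6) (nat_lit 186) (nat_lit 3) (nat_lit 129) (nat_lit 117) (nat_lit 144)) (PT.lf (nat_lit 15276) (nat_lit 6) (nat_lit 201) (nat_lit 3) (nat_lit 130) (nat_lit 117) (nat_lit 143)))) (PT.nd (nat_lit 156) (PT.nd (nat_lit 78) (PT.lf (nat_lit 15352) (nat_lit 6) (nat_lit 202) (nat_lit 3) (nat_lit 131) (nat_lit 117) (nat_lit 142))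 (PT.lf (nat_lit 15428) (nat_lit 6) (nat_lit 203) (nat_lit 3) (nat_lit 132) (nat_lit 117) (nat_lit 141))) (PT.nd (nat_lit 78) (PT.lf (nat_lit 15504) (nat_lit 6) (nat_lit 204) (nat_lit 3) (nat_lit 133) (nat_lit 117) (nat_lit 140)) (PT.lf (nat_lit 15580) (nat_lit 6) (nat_lit 205) (nat_lit 3) (nat_lit 134) (nat_lit 117) (nat_lit 139)))))) (PT.nd (nat_lit 468) (PT.nd (nat_lit 234) (PT.nd (nat_lit 78) (PT.lf (nat_lit 15656) (nat_lit 6) (nat_lit 206) (nat_lit 3) (nat_lit 135) (nat_lit 117) (nat_lit 138)) (PT.nd (nat_lit 78) (PT.lf (nat_lit 15732) (nat_lit 6) (nat_lit 207) (nat_lit 3) (nat_lit 136) (nat_lit 117) (nat_lit 137)) (PT.lf (nat_lit 15732) (nat_lit 6) (nat_lit 207) (nat_lit 1) (nat_lit 137) (nat_lit 117) (nat_lit 136)))) (PT.nd (nat_lit 78) (PT.lf (nat_lit 15656) (nat_lit 6) (nat_lit 206) (nat_lit 1) (nat_lit 138) (nat_lit 117) (nat_lit 135)) (PT.nd (nat_lit 78) (PT.lf (nat_lit 15580) (nat_lit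 6) (nat_lit 205) (nat_lit 1) (nat_lit 139) (nat_lit 117) (nat_lit 134)) (PT.lf (nat_lit 15504) (nat_lit 6) (nat_lit 204) (nat_lit 1) (nat_lit 140) (nat_lit 117) (nat_lit 133))))) (PT.nd (nat_lit 234) (PT.nd (nat_lit 78) (PT.lf (nat_lit 15428) (nat_lit 6) (nat_lit 203) (nat_lit 1) (nat_lit 141) (nat_lit 117) (nat_lit 132)) (PT.nd (nat_lit 78) (PT.lf (nat_lit 15352) (nat_lit 6) (nat_lit 202) (nat_lit 1) (nat_lit 142) (nat_lit 117) (nat_lit 131)) (PT.lf (nat_lit 15276) (nat_lit 6) (nat_lit 201) (nat_lit 1) (nat_lit 143) (nat_lit 117) (nat_lit 130)))) (PT.nd (nat_lit 39312) (PT.nd (nat_lit 78) (PT.lf (nat_lit 14136) (nat_lit 6) (nat_lit 186) (nat_lit 1) (nat_lit 144) (nat_lit 117) (nat_lit 129)) (PT.lf (nat_lit 12920) (nat_lit 6) (nat_lit 170) (nat_lit 1) (nat_lit 145) (nat_lit 117) (nat_lit 128))) (PT.nd (nat_lit 78) (PT.lf (nat_lit 12844) (nat_lit 6) (nat_lit 169) (nat_lit 3) (nat_lit 127) (nat_lit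 118) (nat_lit 145)) (PT.lf (nat_lit 14060) (nat_lit 6) (nat_lit 185) (nat_lit 3) (nat_lit 128) (nat_lit 118) (nat_lit 144))))))))
noncomputable def pc7 : PT := (PT.nd (nat_lit 41028) (PT.nd (nat_lit 936) (PT.nd (nat_lit 468) (PT.nd (nat_lit 234) (PT.nd (nat_lit 78) (PT.lf (nat_lit 15200) (nat_lit 6) (nat_lit 200) (nat_lit 3) (nat_lit 129) (nat_lit 118) (nat_lit 143)) (PT.nd (nat_lit 78) (PT.lf (nat_lit 16264) (nat_lit 6) (nat_lit 214) (nat_lit 3) (nat_lit 130) (nat_lit 118) (nat_lit 142)) (PT.lf (nat_lit 16340) (nat_lit 6) (nat_lit 215) (nat_lit 3) (nat_lit 131) (nat_lit 118) (nat_lit 141)))) (PT.nd (nat_lit 78) (PT.lf (nat_lit 16416) (nat_lit 6) (nat_lit 216) (nat_lit 3) (nat_lit 132) (nat_lit 118) (nat_lit 140)) (PT.nd (nat_lit 78) (PT.lf (nat_lit 16492) (nat_lit 6) (nat_lit 217) (nat_lit 3) (nat_lit 133) (nat_lit 118) (nat_lit 139)) (PT.lf (nat_lit 16568) (nat_lit 6) (nat_lit 218) (nat_lit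 3) (nat_lit 134) (nat_lit 118) (nat_lit 138))))) (PT.nd (nat_lit 234) (PT.nd (nat_lit 78) (PT.lf (nat_lit 16644) (nat_lit 6) (nat_lit 219) (nat_lit 3) (nat_lit 135) (nat_lit 118) (nat_lit 137)) (PT.nd (nat_lit 78) (PT.lf (nat_lit 16720) (nat_lit 3) (nat_lit 220) (nat_lit 1) (nat_lit 136) (nat_lit 118) (nat_lit 136)) (PT.lf (nat_lit 16644) (nat_lit 6) (nat_lit 219) (nat_lit 1) (nat_lit 137) (nat_lit 118) (nat_lit 135)))) (PT.nd (nat_lit 78) (PT.lf (nat_lit 16568) (nat_lit 6) (nat_lit 218) (nat_lit 1) (nat_lit 138) (nat_lit 118) (nat_lit 134)) (PT.nd (nat_lit 78) (PT.lf (nat_lit 16492) (nat_lit 6) (nat_lit 217) (nat_lit 1) (nat_lit 139) (nat_lit 118) (nat_lit 133)) (PT.lf (nat_lit 16416) (nat_lit 6) (nat_lit 216) (nat_lit 1) (nat_lit 140) (nat_lit 118) (nat_lit 132)))))) (PT.nd (nat_lit 39546) (PT.nd (nat_lit 234) (PT.nd (nat_lit 78) (PT.lf (nat_lit 16340) (nat_lit 6) (nat_lit 215) (nat_lit 1) (nat_lit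 141) (nat_lit 118) (nat_lit 131)) (PT.nd (nat_lit 78) (PT.lf (nat_lit 16264) (nat_lit 6) (nat_lit 214) (nat_lit 1) (nat_lit 142) (nat_lit 118) (nat_lit 130)) (PT.lf (nat_lit 15200) (nat_lit 6) (nat_lit 200) (nat_lit 1) (nat_lit 143) (nat_lit 118) (nat_lit 129)))) (PT.nd (nat_lit 78) (PT.lf (nat_lit 14060) (nat_lit 6) (nat_lit 185) (nat_lit 1) (nat_lit 144) (nat_lit 118) (nat_lit 128)) (PT.nd (nat_lit 39156) (PT.lf (nat_lit 12844) (nat_lit 6) (nat_lit 169) (nat_lit 1) (nat_lit 145) (nat_lit 118) (nat_lit 127)) (PT.lf (nat_lit 12768) (nat_lit 6) (nat_lit 168) (nat_lit 3) (nat_lit 126) (nat_lit 119) (nat_lit 145))))) (PT.nd (nat_lit 234) (PT.nd (nat_lit 78) (PT.lf (nat_lit 13984) (nat_lit 6) (nat_lit 184) (nat_lit 3) (nat_lit 127) (nat_lit 119) (nat_lit 144)) (PT.nd (nat_lit 78) (PT.lf (nat_lit 15124) (nat_lit 6) (nat_lit 199) (nat_lit 3) (nat_lit 128) (nat_lit 119) (nat_lit 143)) (PT.lf (nat_lit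 16188) (nat_lit 6) (nat_lit 213) (nat_lit 3) (nat_lit 129) (nat_lit 119) (nat_lit 142)))) (PT.nd (nat_lit 156) (PT.nd (nat_lit 78) (PT.lf (nat_lit 17176) (nat_lit 6) (nat_lit 226) (nat_lit 3) (nat_lit 130) (nat_lit 119) (nat_lit 141)) (PT.lf (nat_lit 17252) (nat_lit 6) (nat_lit 227) (nat_lit 3) (nat_lit 131) (nat_lit 119) (nat_lit 140))) (PT.nd (nat_lit 78) (PT.lf (nat_lit 17328) (nat_lit 6) (nat_lit 228) (nat_lit 3) (nat_lit 132) (nat_lit 119) (nat_lit 139)) (PT.lf (nat_lit 17404) (nat_lit 6) (nat_lit 229) (nat_lit 3) (nat_lit 133) (nat_lit 119) (nat_lit 138))))))) (PT.nd (nat_lit 40014) (PT.nd (nat_lit 468) (PT.nd (nat_lit 234) (PT.nd (nat_lit 78) (PT.lf (nat_lit 17480) (nat_lit 6) (nat_lit 230) (nat_lit 3) (nat_lit 134) (nat_lit 119) (nat_lit 137)) (PT.nd (nat_lit 78) (PT.lf (nat_lit 17556) (nat_lit 6) (nat_lit 231) (nat_lit 3) (nat_lit 135) (nat_lit 119) (nat_lit 136)) (PT.lf (nat_lit 17556)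 (nat_lit 6) (nat_lit 231) (nat_lit 1) (nat_lit 136) (nat_lit 119) (nat_lit 135)))) (PT.nd (nat_lit 78) (PT.lf (nat_lit 17480) (nat_lit 6) (nat_lit 230) (nat_lit 1) (nat_lit 137) (nat_lit 119) (nat_lit 134)) (PT.nd (nat_lit 78) (PT.lf (nat_lit 17404) (nat_lit 6) (nat_lit 229) (nat_lit 1) (nat_lit 138) (nat_lit 119) (nat_lit 133)) (PT.lf (nat_lit 17328) (nat_lit 6) (nat_lit 228) (nat_lit 1) (nat_lit 139) (nat_lit 119) (nat_lit 132))))) (PT.nd (nat_lit 234) (PT.nd (nat_lit 78) (PT.lf (nat_lit 17252) (nat_lit 6) (nat_lit 227) (nat_lit 1) (nat_lit 140) (nat_lit 119) (nat_lit 131)) (PT.nd (nat_lit 78) (PT.lf (nat_lit 17176) (nat_lit 6) (nat_lit 226) (nat_lit 1) (nat_lit 141) (nat_lit 119) (nat_lit 130)) (PT.lf (nat_lit 16188) (nat_lit 6) (nat_lit 213) (nat_lit 1) (nat_lit 142) (nat_lit 119) (nat_lit 129)))) (PT.nd (nat_lit 156) (PT.nd (nat_lit 78) (PT.lf (nat_lit 15124) (nat_lit 6) (nat_lit 199) (nat_lit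 1) (nat_lit 143) (nat_lit 119) (nat_lit 128)) (PT.lf (nat_lit 13984) (nat_lit 6) (nat_lit 184) (nat_lit 1) (nat_lit 144) (nat_lit 119) (nat_lit 127))) (PT.nd (nat_lit 39078) (PT.lf (nat_lit 12768) (nat_lit 6) (nat_lit 168) (nat_lit 1) (nat_lit 145) (nat_lit 119) (nat_lit 126)) (PT.lf (nat_lit 12692) (nat_lit 6) (nat_lit 167) (nat_lit 3) (nat_lit 125) (nat_lit 120) (nat_lit 145)))))) (PT.nd (nat_lit 468) (PT.nd (nat_lit 234) (PT.nd (nat_lit 78) (PT.lf (nat_lit 13908) (nat_lit 6) (nat_lit 183) (nat_lit 3) (nat_lit 126) (nat_lit 120) (nat_lit 144)) (PT.nd (nat_lit 78) (PT.lf (nat_lit 15048) (nat_lit 6) (nat_lit 198) (nat_lit 3) (nat_lit 127) (nat_lit 120) (nat_lit 143)) (PT.lf (nat_lit 16112) (nat_lit 6) (nat_lit 212) (nat_lit 3) (nat_lit 128) (nat_lit 120) (nat_lit 142)))) (PT.nd (nat_lit 78) (PT.lf (nat_lit 17100) (nat_lit 6) (nat_lit 225) (nat_lit 3) (nat_lit 129) (nat_lit 120) (nat_lit 141))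 (PT.nd (nat_lit 78) (PT.lf (nat_lit 18012) (nat_lit 6) (nat_lit 237) (nat_lit 3) (nat_lit 130) (nat_lit 120) (nat_lit 140)) (PT.lf (nat_lit 18088) (nat_lit 6) (nat_lit 238) (nat_lit 3) (nat_lit 131) (nat_lit 120) (nat_lit 139))))) (PT.nd (nat_lit 234) (PT.nd (nat_lit 78) (PT.lf (nat_lit 18164) (nat_lit 6) (nat_lit 239) (nat_lit 3) (nat_lit 132) (nat_lit 120) (nat_lit 138)) (PT.nd (nat_lit 78) (PT.lf (nat_lit 18240) (nat_lit 6) (nat_lit 240) (nat_lit 3) (nat_lit 133) (nat_lit 120) (nat_lit 137)) (PT.lf (nat_lit 18316) (nat_lit 6) (nat_lit 241) (nat_lit 3) (nat_lit 134) (nat_lit 120) (nat_lit 136)))) (PT.nd (nat_lit 156) (PT.nd (nat_lit 78) (PT.lf (nat_lit 18392) (nat_lit 3) (nat_lit 242) (nat_lit 1) (nat_lit 135) (nat_lit 120) (nat_lit 135)) (PT.lf (nat_lit 18316) (nat_lit 6) (nat_lit 241) (nat_lit 1) (nat_lit 136) (nat_lit 120) (nat_lit 134))) (PT.nd (nat_lit 78) (PT.lf (nat_lit 18240) (nat_lit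 6) (nat_lit 240) (nat_lit 1) (nat_lit 137) (nat_lit 120) (nat_lit 133)) (PT.lf (nat_lit 18164) (nat_lit 6) (nat_lit 239) (nat_lit 1) (nat_lit 138) (nat_lit 120) (nat_lit 132))))))))
noncomputable def pc8 : PT := (PT.nd (nat_lit 40872) (PT.nd (nat_lit 39858) (PT.nd (nat_lit 468) (PT.nd (nat_lit 234) (PT.nd (nat_lit 78) (PT.lf (nat_lit 18088) (nat_lit 6) (nat_lit 238) (nat_lit 1) (nat_lit 139) (nat_lit 120) (nat_lit 131)) (PT.nd (nat_lit 78) (PT.lf (nat_lit 18012) (nat_lit 6) (nat_lit 237) (nat_lit 1) (nat_lit 140) (nat_lit 120) (nat_lit 130)) (PT.lf (nat_lit 17100) (nat_lit 6) (nat_lit 225) (nat_lit 1) (nat_lit 141) (nat_lit 120) (nat_lit 129)))) (PT.nd (nat_lit 78) (PT.lf (nat_lit 16112) (nat_lit 6) (nat_lit 212) (nat_lit 1) (nat_lit 142) (nat_lit 120) (nat_lit 128)) (PT.nd (nat_lit 78) (PT.lf (nat_lit 15048) (nat_lit 6) (nat_lit 198) (nat_lit 1) (nat_lit 143) (nat_lit 120) (nat_lit 127)) (PT.lf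 (nat_lit 13908) (nat_lit 6) (nat_lit 183) (nat_lit 1) (nat_lit 144) (nat_lit 120) (nat_lit 126))))) (PT.nd (nat_lit 39156) (PT.nd (nat_lit 39000) (PT.lf (nat_lit 12692) (nat_lit 6) (nat_lit 167) (nat_lit 1) (nat_lit 145) (nat_lit 120) (nat_lit 125)) (PT.nd (nat_lit 78) (PT.lf (nat_lit 12616) (nat_lit 6) (nat_lit 166) (nat_lit 3) (nat_lit 124) (nat_lit 121) (nat_lit 145)) (PT.lf (nat_lit 13832) (nat_lit 6) (nat_lit 182) (nat_lit 3) (nat_lit 125) (nat_lit 121) (nat_lit 144)))) (PT.nd (nat_lit 78) (PT.lf (nat_lit 14972) (nat_lit 6) (nat_lit 197) (nat_lit 3) (nat_lit 126) (nat_lit 121) (nat_lit 143)) (PT.nd (nat_lit 78) (PT.lf (nat_lit 16036) (nat_lit 6) (nat_lit 211) (nat_lit 3) (nat_lit 127) (nat_lit 121) (nat_lit 142)) (PT.lf (nat_lit 17024) (nat_lit 6) (nat_lit 224) (nat_lit 3) (nat_lit 128) (nat_lit 121) (nat_lit 141)))))) (PT.nd (nat_lit 468) (PT.nd (nat_lit 234) (PT.nd (nat_lit 78) (PT.lf (nat_lit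 17936) (nat_lit 6) (nat_lit 236) (nat_lit 3) (nat_lit 129) (nat_lit 121) (nat_lit 140)) (PT.nd (nat_lit 78) (PT.lf (nat_lit 18772) (nat_lit 6) (nat_lit 247) (nat_lit 3) (nat_lit 130) (nat_lit 121) (nat_lit 139)) (PT.lf (nat_lit 18848) (nat_lit 6) (nat_lit 248) (nat_lit 3) (nat_lit 131) (nat_lit 121) (nat_lit 138)))) (PT.nd (nat_lit 78) (PT.lf (nat_lit 18924) (nat_lit 6) (nat_lit 249) (nat_lit 3) (nat_lit 132) (nat_lit 121) (nat_lit 137)) (PT.nd (nat_lit 78) (PT.lf (nat_lit 19000) (nat_lit 6) (nat_lit 250) (nat_lit 3) (nat_lit 133) (nat_lit 121) (nat_lit 136)) (PT.lf (nat_lit 19076) (nat_lit 6) (nat_lit 251) (nat_lit 3) (nat_lit 134) (nat_lit 121) (nat_lit 135))))) (PT.nd (nat_lit 234) (PT.nd (nat_lit 78) (PT.lf (nat_lit 19076) (nat_lit 6) (nat_lit 251) (nat_lit 1) (nat_lit 135) (nat_lit 121) (nat_lit 134)) (PT.nd (nat_lit 78) (PT.lf (nat_lit 19000) (nat_lit 6) (nat_lit 250) (nat_lit 1) (nat_lit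 136) (nat_lit 121) (nat_lit 133)) (PT.lf (nat_lit 18924) (nat_lit 6) (nat_lit 249) (nat_lit 1) (nat_lit 137) (nat_lit 121) (nat_lit 132)))) (PT.nd (nat_lit 156) (PT.nd (nat_lit 78) (PT.lf (nat_lit 18848) (nat_lit 6) (nat_lit 248) (nat_lit 1) (nat_lit 138) (nat_lit 121) (nat_lit 131)) (PT.lf (nat_lit 18772) (nat_lit 6) (nat_lit 247) (nat_lit 1) (nat_lit 139) (nat_lit 121) (nat_lit 130))) (PT.nd (nat_lit 78) (PT.lf (nat_lit 17936) (nat_lit 6) (nat_lit 236) (nat_lit 1) (nat_lit 140) (nat_lit 121) (nat_lit 129)) (PT.lf (nat_lit 17024) (nat_lit 6) (nat_lit 224) (nat_lit 1) (nat_lit 141) (nat_lit 121) (nat_lit 128))))))) (PT.nd (nat_lit 39858) (PT.nd (nat_lit 39312) (PT.nd (nat_lit 234) (PT.nd (nat_lit 78) (PT.lf (nat_lit 16036) (nat_lit 6) (nat_lit 211) (nat_lit 1) (nat_lit 142) (nat_lit 121) (nat_lit 127)) (PT.nd (nat_lit 78) (PT.lf (nat_lit 14972) (nat_lit 6) (nat_lit 197) (nat_lit 1) (nat_lit 143)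 (nat_lit 121) (nat_lit 126)) (PT.lf (nat_lit 13832) (nat_lit 6) (nat_lit 182) (nat_lit 1) (nat_lit 144) (nat_lit 121) (nat_lit 125)))) (PT.nd (nat_lit 38922) (PT.lf (nat_lit 12616) (nat_lit 6) (nat_lit 166) (nat_lit 1) (nat_lit 145) (nat_lit 121) (nat_lit 124)) (PT.nd (nat_lit 78) (PT.lf (nat_lit 12540) (nat_lit 6) (nat_lit 165) (nat_lit 3) (nat_lit 123) (nat_lit 122) (nat_lit 145)) (PT.lf (nat_lit 13756) (nat_lit 6) (nat_lit 181) (nat_lit 3) (nat_lit 124) (nat_lit 122) (nat_lit 144))))) (PT.nd (nat_lit 234) (PT.nd (nat_lit 78) (PT.lf (nat_lit 14896) (nat_lit 6) (nat_lit 196) (nat_lit 3) (nat_lit 125) (nat_lit 122) (nat_lit 143)) (PT.nd (nat_lit 78) (PT.lf (nat_lit 15960) (nat_lit 6) (nat_lit 210) (nat_lit 3) (nat_lit 126) (nat_lit 122) (nat_lit 142)) (PT.lf (nat_lit 16948) (nat_lit 6) (nat_lit 223) (nat_lit 3) (nat_lit 127) (nat_lit 122) (nat_lit 141)))) (PT.nd (nat_lit 156) (PT.nd (nat_lit 78)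 (PT.lf (nat_lit 17860) (nat_lit 6) (nat_lit 235) (nat_lit 3) (nat_lit 128) (nat_lit 122) (nat_lit 140)) (PT.lf (nat_lit 18696) (nat_lit 6) (nat_lit 246) (nat_lit 3) (nat_lit 129) (nat_lit 122) (nat_lit 139))) (PT.nd (nat_lit 78) (PT.lf (nat_lit 19456) (nat_lit 6) (nat_lit 256) (nat_lit 3) (nat_lit 130) (nat_lit 122) (nat_lit 138)) (PT.lf (nat_lit 19532) (nat_lit 6) (nat_lit 257) (nat_lit 3) (nat_lit 131) (nat_lit 122) (nat_lit 137)))))) (PT.nd (nat_lit 468) (PT.nd (nat_lit 234) (PT.nd (nat_lit 78) (PT.lf (nat_lit 19608) (nat_lit 6) (nat_lit 258) (nat_lit 3) (nat_lit 132) (nat_lit 122) (nat_lit 136)) (PT.nd (nat_lit 78) (PT.lf (nat_lit 19684) (nat_lit 6) (nat_lit 259) (nat_lit 3) (nat_lit 133) (nat_lit 122) (nat_lit 135)) (PT.lf (nat_lit 19760) (nat_lit 3) (nat_lit 260) (nat_lit 1) (nat_lit 134) (nat_lit 122) (nat_lit 134)))) (PT.nd (nat_lit 78) (PT.lf (nat_lit 19684) (nat_lit 6) (nat_lit 259)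 (nat_lit 1) (nat_lit 135) (nat_lit 122) (nat_lit 133)) (PT.nd (nat_lit 78) (PT.lf (nat_lit 19608) (nat_lit 6) (nat_lit 258) (nat_lit 1) (nat_lit 136) (nat_lit 122) (nat_lit 132)) (PT.lf (nat_lit 19532) (nat_lit 6) (nat_lit 257) (nat_lit 1) (nat_lit 137) (nat_lit 122) (nat_lit 131))))) (PT.nd (nat_lit 234) (PT.nd (nat_lit 78) (PT.lf (nat_lit 19456) (nat_lit 6) (nat_lit 256) (nat_lit 1) (nat_lit 138) (nat_lit 122) (nat_lit 130)) (PT.nd (nat_lit 78) (PT.lf (nat_lit 18696) (nat_lit 6) (nat_lit 246) (nat_lit 1) (nat_lit 139) (nat_lit 122) (nat_lit 129)) (PT.lf (nat_lit 17860) (nat_lit 6) (nat_lit 235) (nat_lit 1) (nat_lit 140) (nat_lit 122) (nat_lit 128)))) (PT.nd (nat_lit 156) (PT.nd (nat_lit 78) (PT.lf (nat_lit 16948) (nat_lit 6) (nat_lit 223) (nat_lit 1) (nat_lit 141) (nat_lit 122) (nat_lit 127)) (PT.lf (nat_lit 15960) (nat_lit 6) (nat_lit 210) (nat_lit 1) (nat_lit 142) (nat_lit 122) (nat_lit 126)))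 (PT.nd (nat_lit 78) (PT.lf (nat_lit 14896) (nat_lit 6) (nat_lit 196) (nat_lit 1) (nat_lit 143) (nat_lit 122) (nat_lit 125)) (PT.lf (nat_lit 13756) (nat_lit 6) (nat_lit 181) (nat_lit 1) (nat_lit 144) (nat_lit 122) (nat_lit 124))))))))
noncomputable def pc9 : PT := (PT.nd (nat_lit 79404) (PT.nd (nat_lit 39702) (PT.nd (nat_lit 39234) (PT.nd (nat_lit 39000) (PT.nd (nat_lit 38844) (PT.lf (nat_lit 12540) (nat_lit 6) (nat_lit 165) (nat_lit 1) (nat_lit 145) (nat_lit 122) (nat_lit 123)) (PT.nd (nat_lit 78) (PT.lf (nat_lit 12540) (nat_lit 6) (nat_lit 165) (nat_lit 5) (nat_lit 122) (nat_lit 123) (nat_lit 145)) (PT.lf (nat_lit 13680) (nat_lit 3) (nat_lit 180) (nat_lit 3) (nat_lit 123) (nat_lit 123) (nat_lit 144)))) (PT.nd (nat_lit 78) (PT.lf (nat_lit 14820) (nat_lit 6) (nat_lit 195) (nat_lit 3) (nat_lit 124) (nat_lit 123) (nat_lit 143)) (PT.nd (nat_lit 78) (PT.lf (nat_lit 15884) (nat_lit 6) (nat_lit 209)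 (nat_lit 3) (nat_lit 125) (nat_lit 123) (nat_lit 142)) (PT.lf (nat_lit 16872) (nat_lit 6) (nat_lit 222) (nat_lit 3) (nat_lit 126) (nat_lit 123) (nat_lit 141))))) (PT.nd (nat_lit 234) (PT.nd (nat_lit 78) (PT.lf (nat_lit 17784) (nat_lit 6) (nat_lit 234) (nat_lit 3) (nat_lit 127) (nat_lit 123) (nat_lit 140)) (PT.nd (nat_lit 78) (PT.lf (nat_lit 18620) (nat_lit 6) (nat_lit 245) (nat_lit 3) (nat_lit 128) (nat_lit 123) (nat_lit 139)) (PT.lf (nat_lit 19380) (nat_lit 6) (nat_lit 255) (nat_lit 3) (nat_lit 129) (nat_lit 123) (nat_lit 138)))) (PT.nd (nat_lit 78) (PT.lf (nat_lit 20064) (nat_lit 6) (nat_lit 264) (nat_lit 3) (nat_lit 130) (nat_lit 123) (nat_lit 137)) (PT.nd (nat_lit 78) (PT.lf (nat_lit 20140) (nat_lit 6) (nat_lit 265) (nat_lit 3) (nat_lit 131) (nat_lit 123) (nat_lit 136)) (PT.lf (nat_lit 20216) (nat_lit 6) (nat_lit 266) (nat_lit 3) (nat_lit 132) (nat_lit 123) (nat_lit 135)))))) (PT.nd (nat_lit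 468) (PT.nd (nat_lit 234) (PT.nd (nat_lit 78) (PT.lf (nat_lit 20292) (nat_lit 6) (nat_lit 267) (nat_lit 3) (nat_lit 133) (nat_lit 123) (nat_lit 134)) (PT.nd (nat_lit 78) (PT.lf (nat_lit 20292) (nat_lit 6) (nat_lit 267) (nat_lit 1) (nat_lit 134) (nat_lit 123) (nat_lit 133)) (PT.lf (nat_lit 20216) (nat_lit 6) (nat_lit 266) (nat_lit 1) (nat_lit 135) (nat_lit 123) (nat_lit 132)))) (PT.nd (nat_lit 78) (PT.lf (nat_lit 20140) (nat_lit 6) (nat_lit 265) (nat_lit 1) (nat_lit 136) (nat_lit 123) (nat_lit 131)) (PT.nd (nat_lit 78) (PT.lf (nat_lit 20064) (nat_lit 6) (nat_lit 264) (nat_lit 1) (nat_lit 137) (nat_lit 123) (nat_lit 130)) (PT.lf (nat_lit 19380) (nat_lit 6) (nat_lit 255) (nat_lit 1) (nat_lit 138) (nat_lit 123) (nat_lit 129))))) (PT.nd (nat_lit 234) (PT.nd (nat_lit 78) (PT.lf (nat_lit 18620) (nat_lit 6) (nat_lit 245) (nat_lit 1) (nat_lit 139) (nat_lit 123) (nat_lit 128)) (PT.nd (nat_lit 78) (PT.lf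 (nat_lit 17784) (nat_lit 6) (nat_lit 234) (nat_lit 1) (nat_lit 140) (nat_lit 123) (nat_lit 127)) (PT.lf (nat_lit 16872) (nat_lit 6) (nat_lit 222) (nat_lit 1) (nat_lit 141) (nat_lit 123) (nat_lit 126)))) (PT.nd (nat_lit 156) (PT.nd (nat_lit 78) (PT.lf (nat_lit 15884) (nat_lit 6) (nat_lit 209) (nat_lit 1) (nat_lit 142) (nat_lit 123) (nat_lit 125)) (PT.lf (nat_lit 14820) (nat_lit 6) (nat_lit 195) (nat_lit 1) (nat_lit 143) (nat_lit 123) (nat_lit 124))) (PT.nd (nat_lit 78) (PT.lf (nat_lit 13680) (nat_lit 3) (nat_lit 180) (nat_lit 0) (nat_lit 144) (nat_lit 123) (nat_lit 123)) (PT.lf (nat_lit 12540) (nat_lit 6) (nat_lit 165) (nat_lit 0) (nat_lit 145) (nat_lit 123) (nat_lit 122))))))) (PT.nd (nat_lit 1014) (PT.nd (nat_lit 468) (PT.nd (nat_lit 234) (PT.nd (nat_lit 78) (PT.lf (nat_lit 12616) (nat_lit 6) (nat_lit 166) (nat_lit 5) (nat_lit 121) (nat_lit 124) (nat_lit 145)) (PT.nd (nat_lit 78) (PT.lf (nat_lit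 13756) (nat_lit 6) (nat_lit 181) (nat_lit 5) (nat_lit 122) (nat_lit 124) (nat_lit 144)) (PT.lf (nat_lit 14820) (nat_lit 6) (nat_lit 195) (nat_lit 5) (nat_lit 123) (nat_lit 124) (nat_lit 143)))) (PT.nd (nat_lit 78) (PT.lf (nat_lit 15808) (nat_lit 3) (nat_lit 208) (nat_lit 3) (nat_lit 124) (nat_lit 124) (nat_lit 142)) (PT.nd (nat_lit 78) (PT.lf (nat_lit 16796) (nat_lit 6) (nat_lit 221) (nat_lit 3) (nat_lit 125) (nat_lit 124) (nat_lit 141)) (PT.lf (nat_lit 17708) (nat_lit 6) (nat_lit 233) (nat_lit 3) (nat_lit 126) (nat_lit 124) (nat_lit 140))))) (PT.nd (nat_lit 234) (PT.nd (nat_lit 78) (PT.lf (nat_lit 18544) (nat_lit 6) (nat_lit 244) (nat_lit 3) (nat_lit 127) (nat_lit 124) (nat_lit 139)) (PT.nd (nat_lit 78) (PT.lf (nat_lit 19304) (nat_lit 6) (nat_lit 254) (nat_lit 3) (nat_lit 128) (nat_lit 124) (nat_lit 138)) (PT.lf (nat_lit 19988) (nat_lit 6) (nat_lit 263) (nat_lit 3) (nat_lit 129) (nat_lit 124)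 (nat_lit 137)))) (PT.nd (nat_lit 156) (PT.nd (nat_lit 78) (PT.lf (nat_lit 20596) (nat_lit 6) (nat_lit 271) (nat_lit 3) (nat_lit 130) (nat_lit 124) (nat_lit 136)) (PT.lf (nat_lit 20672) (nat_lit 6) (nat_lit 272) (nat_lit 3) (nat_lit 131) (nat_lit 124) (nat_lit 135))) (PT.nd (nat_lit 78) (PT.lf (nat_lit 20748) (nat_lit 6) (nat_lit 273) (nat_lit 3) (nat_lit 132) (nat_lit 124) (nat_lit 134)) (PT.lf (nat_lit 20824) (nat_lit 3) (nat_lit 274) (nat_lit 1) (nat_lit 133) (nat_lit 124) (nat_lit 133)))))) (PT.nd (nat_lit 468) (PT.nd (nat_lit 234) (PT.nd (nat_lit 78) (PT.lf (nat_lit 20748) (nat_lit 6) (nat_lit 273) (nat_lit 1) (nat_lit 134) (nat_lit 124) (nat_lit 132)) (PT.nd (nat_lit 78) (PT.lf (nat_lit 20672) (nat_lit 6) (nat_lit 272) (nat_lit 1) (nat_lit 135) (nat_lit 124) (nat_lit 131)) (PT.lf (nat_lit 20596) (nat_lit 6) (nat_lit 271) (nat_lit 1) (nat_lit 136) (nat_lit 124) (nat_lit 130)))) (PT.nd (nat_lit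 78) (PT.lf (nat_lit 19988) (nat_lit 6) (nat_lit 263) (nat_lit 1) (nat_lit 137) (nat_lit 124) (nat_lit 129)) (PT.nd (nat_lit 78) (PT.lf (nat_lit 19304) (nat_lit 6) (nat_lit 254) (nat_lit 1) (nat_lit 138) (nat_lit 124) (nat_lit 128)) (PT.lf (nat_lit 18544) (nat_lit 6) (nat_lit 244) (nat_lit 1) (nat_lit 139) (nat_lit 124) (nat_lit 127))))) (PT.nd (nat_lit 234) (PT.nd (nat_lit 78) (PT.lf (nat_lit 17708) (nat_lit 6) (nat_lit 233) (nat_lit 1) (nat_lit 140) (nat_lit 124) (nat_lit 126)) (PT.nd (nat_lit 78) (PT.lf (nat_lit 16796) (nat_lit 6) (nat_lit 221) (nat_lit 1) (nat_lit 141) (nat_lit 124) (nat_lit 125)) (PT.lf (nat_lit 15808) (nat_lit 3) (nat_lit 208) (nat_lit 0) (nat_lit 142) (nat_lit 124) (nat_lit 124)))) (PT.nd (nat_lit 156) (PT.nd (nat_lit 78) (PT.lf (nat_lit 14820) (nat_lit 6) (nat_lit 195) (nat_lit 0) (nat_lit 143) (nat_lit 124) (nat_lit 123)) (PT.lf (nat_lit 13756) (nat_lit 6) (nat_lit 181)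 (nat_lit 0) (nat_lit 144) (nat_lit 124) (nat_lit 122))) (PT.nd (nat_lit 38688) (PT.lf (nat_lit 12616) (nat_lit 6) (nat_lit 166) (nat_lit 0) (nat_lit 145) (nat_lit 124) (nat_lit 121)) (PT.lf (nat_lit 12692) (nat_lit 6) (nat_lit 167) (nat_lit 5) (nat_lit 120) (nat_lit 125) (nat_lit 145))))))))
noncomputable def pc10 : PT := (PT.nd (nat_lit 40482) (PT.nd (nat_lit 936) (PT.nd (nat_lit 468) (PT.nd (nat_lit 234) (PT.nd (nat_lit 78) (PT.lf (nat_lit 13832) (nat_lit 6) (nat_lit 182) (nat_lit 5) (nat_lit 121) (nat_lit 125) (nat_lit 144)) (PT.nd (nat_lit 78) (PT.lf (nat_lit 14896) (nat_lit 6) (nat_lit 196) (nat_lit 5) (nat_lit 122) (nat_lit 125) (nat_lit 143)) (PT.lf (nat_lit 15884) (nat_lit 6) (nat_lit 209) (nat_lit 5) (nat_lit 123) (nat_lit 125) (nat_lit 142)))) (PT.nd (nat_lit 78) (PT.lf (nat_lit 16796) (nat_lit 6) (nat_lit 221) (nat_lit 5) (nat_lit 124) (nat_lit 125) (nat_lit 141)) (PT.nd (nat_lit 78)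 (PT.lf (nat_lit 17632) (nat_lit 3) (nat_lit 232) (nat_lit 3) (nat_lit 125) (nat_lit 125) (nat_lit 140)) (PT.lf (nat_lit 18468) (nat_lit 6) (nat_lit 243) (nat_lit 3) (nat_lit 126) (nat_lit 125) (nat_lit 139))))) (PT.nd (nat_lit 234) (PT.nd (nat_lit 78) (PT.lf (nat_lit 19228) (nat_lit 6) (nat_lit 253) (nat_lit 3) (nat_lit 127) (nat_lit 125) (nat_lit 138)) (PT.nd (nat_lit 78) (PT.lf (nat_lit 19912) (nat_lit 6) (nat_lit 262) (nat_lit 3) (nat_lit 128) (nat_lit 125) (nat_lit 137)) (PT.lf (nat_lit 20520) (nat_lit 6) (nat_lit 270) (nat_lit 3) (nat_lit 129) (nat_lit 125) (nat_lit 136)))) (PT.nd (nat_lit 78) (PT.lf (nat_lit 21052) (nat_lit 6) (nat_lit 277) (nat_lit 3) (nat_lit 130) (nat_lit 125) (nat_lit 135)) (PT.nd (nat_lit 78) (PT.lf (nat_lit 21128) (nat_lit 6) (nat_lit 278) (nat_lit 3) (nat_lit 131) (nat_lit 125) (nat_lit 134)) (PT.lf (nat_lit 21204) (nat_lit 6) (nat_lit 279) (nat_lit 3) (nat_lit 132)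 (nat_lit 125) (nat_lit 133)))))) (PT.nd (nat_lit 468) (PT.nd (nat_lit 234) (PT.nd (nat_lit 78) (PT.lf (nat_lit 21204) (nat_lit 6) (nat_lit 279) (nat_lit 1) (nat_lit 133) (nat_lit 125) (nat_lit 132)) (PT.nd (nat_lit 78) (PT.lf (nat_lit 21128) (nat_lit 6) (nat_lit 278) (nat_lit 1) (nat_lit 134) (nat_lit 125) (nat_lit 131)) (PT.lf (nat_lit 21052) (nat_lit 6) (nat_lit 277) (nat_lit 1) (nat_lit 135) (nat_lit 125) (nat_lit 130)))) (PT.nd (nat_lit 78) (PT.lf (nat_lit 20520) (nat_lit 6) (nat_lit 270) (nat_lit 1) (nat_lit 136) (nat_lit 125) (nat_lit 129)) (PT.nd (nat_lit 78) (PT.lf (nat_lit 19912) (nat_lit 6) (nat_lit 262) (nat_lit 1) (nat_lit 137) (nat_lit 125) (nat_lit 128)) (PT.lf (nat_lit 19228) (nat_lit 6) (nat_lit 253) (nat_lit 1) (nat_lit 138) (nat_lit 125) (nat_lit 127))))) (PT.nd (nat_lit 234) (PT.nd (nat_lit 78) (PT.lf (nat_lit 18468) (nat_lit 6) (nat_lit 243) (nat_lit 1) (nat_lit 139) (nat_lit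 125) (nat_lit 126)) (PT.nd (nat_lit 78) (PT.lf (nat_lit 17632) (nat_lit 3) (nat_lit 232) (nat_lit 0) (nat_lit 140) (nat_lit 125) (nat_lit 125)) (PT.lf (nat_lit 16796) (nat_lit 6) (nat_lit 221) (nat_lit 0) (nat_lit 141) (nat_lit 125) (nat_lit 124)))) (PT.nd (nat_lit 156) (PT.nd (nat_lit 78) (PT.lf (nat_lit 15884) (nat_lit 6) (nat_lit 209) (nat_lit 0) (nat_lit 142) (nat_lit 125) (nat_lit 123)) (PT.lf (nat_lit 14896) (nat_lit 6) (nat_lit 196) (nat_lit 0) (nat_lit 143) (nat_lit 125) (nat_lit 122))) (PT.nd (nat_lit 78) (PT.lf (nat_lit 13832) (nat_lit 6) (nat_lit 182) (nat_lit 0) (nat_lit 144) (nat_lit 125) (nat_lit 121)) (PT.lf (nat_lit 12692) (nat_lit 6) (nat_lit 167) (nat_lit 0) (nat_lit 145) (nat_lit 125) (nat_lit 120))))))) (PT.nd (nat_lit 1014) (PT.nd (nat_lit 468) (PT.nd (nat_lit 234) (PT.nd (nat_lit 78) (PT.lf (nat_lit 12768) (nat_lit 6) (nat_lit 168) (nat_lit 5) (nat_lit 119) (nat_lit 126)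 (nat_lit 145)) (PT.nd (nat_lit 78) (PT.lf (nat_lit 13908) (nat_lit 6) (nat_lit 183) (nat_lit 5) (nat_lit 120) (nat_lit 126) (nat_lit 144)) (PT.lf (nat_lit 14972) (nat_lit 6) (nat_lit 197) (nat_lit 5) (nat_lit 121) (nat_lit 126) (nat_lit 143)))) (PT.nd (nat_lit 78) (PT.lf (nat_lit 15960) (nat_lit 6) (nat_lit 210) (nat_lit 5) (nat_lit 122) (nat_lit 126) (nat_lit 142)) (PT.nd (nat_lit 78) (PT.lf (nat_lit 16872) (nat_lit 6) (nat_lit 222) (nat_lit 5) (nat_lit 123) (nat_lit 126) (nat_lit 141)) (PT.lf (nat_lit 17708) (nat_lit 6) (nat_lit 233) (nat_lit 5) (nat_lit 124) (nat_lit 126) (nat_lit 140))))) (PT.nd (nat_lit 234) (PT.nd (nat_lit 78) (PT.lf (nat_lit 18468) (nat_lit 6) (nat_lit 243) (nat_lit 5) (nat_lit 125) (nat_lit 126) (nat_lit 139)) (PT.nd (nat_lit 78) (PT.lf (nat_lit 19152) (nat_lit 3) (nat_lit 252) (nat_lit 3) (nat_lit 126) (nat_lit 126) (nat_lit 138)) (PT.lf (nat_lit 19836) (nat_lit 6) (nat_lit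 261) (nat_lit 3) (nat_lit 127) (nat_lit 126) (nat_lit 137)))) (PT.nd (nat_lit 156) (PT.nd (nat_lit 78) (PT.lf (nat_lit 20444) (nat_lit 6) (nat_lit 269) (nat_lit 3) (nat_lit 128) (nat_lit 126) (nat_lit 136)) (PT.lf (nat_lit 20976) (nat_lit 6) (nat_lit 276) (nat_lit 3) (nat_lit 129) (nat_lit 126) (nat_lit 135))) (PT.nd (nat_lit 78) (PT.lf (nat_lit 21432) (nat_lit 6) (nat_lit 282) (nat_lit 3) (nat_lit 130) (nat_lit 126) (nat_lit 134)) (PT.lf (nat_lit 21508) (nat_lit 6) (nat_lit 283) (nat_lit 3) (nat_lit 131) (nat_lit 126) (nat_lit 133)))))) (PT.nd (nat_lit 468) (PT.nd (nat_lit 234) (PT.nd (nat_lit 78) (PT.lf (nat_lit 21584) (nat_lit 3) (nat_lit 284) (nat_lit 1) (nat_lit 132) (nat_lit 126) (nat_lit 132)) (PT.nd (nat_lit 78) (PT.lf (nat_lit 21508) (nat_lit 6) (nat_lit 283) (nat_lit 1) (nat_lit 133) (nat_lit 126) (nat_lit 131)) (PT.lf (nat_lit 21432) (nat_lit 6) (nat_lit 282) (nat_lit 1) (nat_lit 134)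 (nat_lit 126) (nat_lit 130)))) (PT.nd (nat_lit 78) (PT.lf (nat_lit 20976) (nat_lit 6) (nat_lit 276) (nat_lit 1) (nat_lit 135) (nat_lit 126) (nat_lit 129)) (PT.nd (nat_lit 78) (PT.lf (nat_lit 20444) (nat_lit 6) (nat_lit 269) (nat_lit 1) (nat_lit 136) (nat_lit 126) (nat_lit 128)) (PT.lf (nat_lit 19836) (nat_lit 6) (nat_lit 261) (nat_lit 1) (nat_lit 137) (nat_lit 126) (nat_lit 127))))) (PT.nd (nat_lit 234) (PT.nd (nat_lit 78) (PT.lf (nat_lit 19152) (nat_lit 3) (nat_lit 252) (nat_lit 0) (nat_lit 138) (nat_lit 126) (nat_lit 126)) (PT.nd (nat_lit 78) (PT.lf (nat_lit 18468) (nat_lit 6) (nat_lit 243) (nat_lit 0) (nat_lit 139) (nat_lit 126) (nat_lit 125)) (PT.lf (nat_lit 17708) (nat_lit 6) (nat_lit 233) (nat_lit 0) (nat_lit 140) (nat_lit 126) (nat_lit 124)))) (PT.nd (nat_lit 156) (PT.nd (nat_lit 78) (PT.lf (nat_lit 16872) (nat_lit 6) (nat_lit 222) (nat_lit 0) (nat_lit 141) (nat_lit 126) (nat_lit 123))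 (PT.lf (nat_lit 15960) (nat_lit 6) (nat_lit 210) (nat_lit 0) (nat_lit 142) (nat_lit 126) (nat_lit 122))) (PT.nd (nat_lit 78) (PT.lf (nat_lit 14972) (nat_lit 6) (nat_lit 197) (nat_lit 0) (nat_lit 143) (nat_lit 126) (nat_lit 121)) (PT.lf (nat_lit 13908) (nat_lit 6) (nat_lit 183) (nat_lit 0) (nat_lit 144) (nat_lit 126) (nat_lit 120))))))))
noncomputable def pc11 : PT := (PT.nd (nat_lit 40404) (PT.nd (nat_lit 39390) (PT.nd (nat_lit 38922) (PT.nd (nat_lit 38688) (PT.nd (nat_lit 38532) (PT.lf (nat_lit 12768) (nat_lit 6) (nat_lit 168) (nat_lit 0) (nat_lit 145) (nat_lit 126) (nat_lit 119)) (PT.nd (nat_lit 78) (PT.lf (nat_lit 12844) (nat_lit 6) (nat_lit 169) (nat_lit 5) (nat_lit 118) (nat_lit 127) (nat_lit 145)) (PT.lf (nat_lit 13984) (nat_lit 6) (nat_lit 184) (nat_lit 5) (nat_lit 119) (nat_lit 127) (nat_lit 144)))) (PT.nd (nat_lit 78) (PT.lf (nat_lit 15048) (nat_lit 6) (nat_lit 198) (nat_lit 5) (nat_lit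 120) (nat_lit 127) (nat_lit 143)) (PT.nd (nat_lit 78) (PT.lf (nat_lit 16036) (nat_lit 6) (nat_lit 211) (nat_lit 5) (nat_lit 121) (nat_lit 127) (nat_lit 142)) (PT.lf (nat_lit 16948) (nat_lit 6) (nat_lit 223) (nat_lit 5) (nat_lit 122) (nat_lit 127) (nat_lit 141))))) (PT.nd (nat_lit 234) (PT.nd (nat_lit 78) (PT.lf (nat_lit 17784) (nat_lit 6) (nat_lit 234) (nat_lit 5) (nat_lit 123) (nat_lit 127) (nat_lit 140)) (PT.nd (nat_lit 78) (PT.lf (nat_lit 18544) (nat_lit 6) (nat_lit 244) (nat_lit 5) (nat_lit 124) (nat_lit 127) (nat_lit 139)) (PT.lf (nat_lit 19228) (nat_lit 6) (nat_lit 253) (nat_lit 5) (nat_lit 125) (nat_lit 127) (nat_lit 138)))) (PT.nd (nat_lit 78) (PT.lf (nat_lit 19836) (nat_lit 6) (nat_lit 261) (nat_lit 5) (nat_lit 126) (nat_lit 127) (nat_lit 137)) (PT.nd (nat_lit 78) (PT.lf (nat_lit 20368) (nat_lit 3) (nat_lit 268) (nat_lit 3) (nat_lit 127) (nat_lit 127) (nat_lit 136)) (PT.lf (nat_lit 20900)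 (nat_lit 6) (nat_lit 275) (nat_lit 3) (nat_lit 128) (nat_lit 127) (nat_lit 135)))))) (PT.nd (nat_lit 468) (PT.nd (nat_lit 234) (PT.nd (nat_lit 78) (PT.lf (nat_lit 21356) (nat_lit 6) (nat_lit 281) (nat_lit 3) (nat_lit 129) (nat_lit 127) (nat_lit 134)) (PT.nd (nat_lit 78) (PT.lf (nat_lit 21736) (nat_lit 6) (nat_lit 286) (nat_lit 3) (nat_lit 130) (nat_lit 127) (nat_lit 133)) (PT.lf (nat_lit 21812) (nat_lit 6) (nat_lit 287) (nat_lit 3) (nat_lit 131) (nat_lit 127) (nat_lit 132)))) (PT.nd (nat_lit 78) (PT.lf (nat_lit 21812) (nat_lit 6) (nat_lit 287) (nat_lit 1) (nat_lit 132) (nat_lit 127) (nat_lit 131)) (PT.nd (nat_lit 78) (PT.lf (nat_lit 21736) (nat_lit 6) (nat_lit 286) (nat_lit 1) (nat_lit 133) (nat_lit 127) (nat_lit 130)) (PT.lf (nat_lit 21356) (nat_lit 6) (nat_lit 281) (nat_lit 1) (nat_lit 134) (nat_lit 127) (nat_lit 129))))) (PT.nd (nat_lit 234) (PT.nd (nat_lit 78) (PT.lf (nat_lit 20900) (nat_lit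 6) (nat_lit 275) (nat_lit 1) (nat_lit 135) (nat_lit 127) (nat_lit 128)) (PT.nd (nat_lit 78) (PT.lf (nat_lit 20368) (nat_lit 3) (nat_lit 268) (nat_lit 0) (nat_lit 136) (nat_lit 127) (nat_lit 127)) (PT.lf (nat_lit 19836) (nat_lit 6) (nat_lit 261) (nat_lit 0) (nat_lit 137) (nat_lit 127) (nat_lit 126)))) (PT.nd (nat_lit 156) (PT.nd (nat_lit 78) (PT.lf (nat_lit 19228) (nat_lit 6) (nat_lit 253) (nat_lit 0) (nat_lit 138) (nat_lit 127) (nat_lit 125)) (PT.lf (nat_lit 18544) (nat_lit 6) (nat_lit 244) (nat_lit 0) (nat_lit 139) (nat_lit 127) (nat_lit 124))) (PT.nd (nat_lit 78) (PT.lf (nat_lit 17784) (nat_lit 6) (nat_lit 234) (nat_lit 0) (nat_lit 140) (nat_lit 127) (nat_lit 123)) (PT.lf (nat_lit 16948) (nat_lit 6) (nat_lit 223) (nat_lit 0) (nat_lit 141) (nat_lit 127) (nat_lit 122))))))) (PT.nd (nat_lit 39390) (PT.nd (nat_lit 38844) (PT.nd (nat_lit 234) (PT.nd (nat_lit 78) (PT.lf (nat_lit 16036) (nat_lit 6)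 (nat_lit 211) (nat_lit 0) (nat_lit 142) (nat_lit 127) (nat_lit 121)) (PT.nd (nat_lit 78) (PT.lf (nat_lit 15048) (nat_lit 6) (nat_lit 198) (nat_lit 0) (nat_lit 143) (nat_lit 127) (nat_lit 120)) (PT.lf (nat_lit 13984) (nat_lit 6) (nat_lit 184) (nat_lit 0) (nat_lit 144) (nat_lit 127) (nat_lit 119)))) (PT.nd (nat_lit 38454) (PT.lf (nat_lit 12844) (nat_lit 6) (nat_lit 169) (nat_lit 0) (nat_lit 145) (nat_lit 127) (nat_lit 118)) (PT.nd (nat_lit 78) (PT.lf (nat_lit 12920) (nat_lit 6) (nat_lit 170) (nat_lit 5) (nat_lit 117) (nat_lit 128) (nat_lit 145)) (PT.lf (nat_lit 14060) (nat_lit 6) (nat_lit 185) (nat_lit 5) (nat_lit 118) (nat_lit 128) (nat_lit 144))))) (PT.nd (nat_lit 234) (PT.nd (nat_lit 78) (PT.lf (nat_lit 15124) (nat_lit 6) (nat_lit 199) (nat_lit 5) (nat_lit 119) (nat_lit 128) (nat_lit 143)) (PT.nd (nat_lit 78) (PT.lf (nat_lit 16112) (nat_lit 6) (nat_lit 212) (nat_lit 5) (nat_lit 120) (nat_lit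 128) (nat_lit 142)) (PT.lf (nat_lit 17024) (nat_lit 6) (nat_lit 224) (nat_lit 5) (nat_lit 121) (nat_lit 128) (nat_lit 141)))) (PT.nd (nat_lit 156) (PT.nd (nat_lit 78) (PT.lf (nat_lit 17860) (nat_lit 6) (nat_lit 235) (nat_lit 5) (nat_lit 122) (nat_lit 128) (nat_lit 140)) (PT.lf (nat_lit 18620) (nat_lit 6) (nat_lit 245) (nat_lit 5) (nat_lit 123) (nat_lit 128) (nat_lit 139))) (PT.nd (nat_lit 78) (PT.lf (nat_lit 19304) (nat_lit 6) (nat_lit 254) (nat_lit 5) (nat_lit 124) (nat_lit 128) (nat_lit 138)) (PT.lf (nat_lit 19912) (nat_lit 6) (nat_lit 262) (nat_lit 5) (nat_lit 125) (nat_lit 128) (nat_lit 137)))))) (PT.nd (nat_lit 468) (PT.nd (nat_lit 234) (PT.nd (nat_lit 78) (PT.lf (nat_lit 20444) (nat_lit 6) (nat_lit 269) (nat_lit 5) (nat_lit 126) (nat_lit 128) (nat_lit 136)) (PT.nd (nat_lit 78) (PT.lf (nat_lit 20900) (nat_lit 6) (nat_lit 275) (nat_lit 5) (nat_lit 127) (nat_lit 128) (nat_lit 135)) (PT.lf (nat_lit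 21280) (nat_lit 3) (nat_lit 280) (nat_lit 3) (nat_lit 128) (nat_lit 128) (nat_lit 134)))) (PT.nd (nat_lit 78) (PT.lf (nat_lit 21660) (nat_lit 6) (nat_lit 285) (nat_lit 3) (nat_lit 129) (nat_lit 128) (nat_lit 133)) (PT.nd (nat_lit 78) (PT.lf (nat_lit 21964) (nat_lit 6) (nat_lit 289) (nat_lit 3) (nat_lit 130) (nat_lit 128) (nat_lit 132)) (PT.lf (nat_lit 22040) (nat_lit 3) (nat_lit 290) (nat_lit 1) (nat_lit 131) (nat_lit 128) (nat_lit 131))))) (PT.nd (nat_lit 234) (PT.nd (nat_lit 78) (PT.lf (nat_lit 21964) (nat_lit 6) (nat_lit 289) (nat_lit 1) (nat_lit 132) (nat_lit 128) (nat_lit 130)) (PT.nd (nat_lit 78) (PT.lf (nat_lit 21660) (nat_lit 6) (nat_lit 285) (nat_lit 1) (nat_lit 133) (nat_lit 128) (nat_lit 129)) (PT.lf (nat_lit 21280) (nat_lit 3) (nat_lit 280) (nat_lit 0) (nat_lit 134) (nat_lit 128) (nat_lit 128)))) (PT.nd (nat_lit 156) (PT.nd (nat_lit 78) (PT.lf (nat_lit 20900) (nat_lit 6) (nat_lit 275)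 (nat_lit 0) (nat_lit 135) (nat_lit 128) (nat_lit 127)) (PT.lf (nat_lit 20444) (nat_lit 6) (nat_lit 269) (nat_lit 0) (nat_lit 136) (nat_lit 128) (nat_lit 126))) (PT.nd (nat_lit 78) (PT.lf (nat_lit 19912) (nat_lit 6) (nat_lit 262) (nat_lit 0) (nat_lit 137) (nat_lit 128) (nat_lit 125)) (PT.lf (nat_lit 19304) (nat_lit 6) (nat_lit 254) (nat_lit 0) (nat_lit 138) (nat_lit 128) (nat_lit 124))))))))
noncomputable def pc12 : PT := (PT.nd (nat_lit 40248) (PT.nd (nat_lit 39234) (PT.nd (nat_lit 468) (PT.nd (nat_lit 234) (PT.nd (nat_lit 78) (PT.lf (nat_lit 18620) (nat_lit 6) (nat_lit 245) (nat_lit 0) (nat_lit 139) (nat_lit 128) (nat_lit 123)) (PT.nd (nat_lit 78) (PT.lf (nat_lit 17860) (nat_lit 6) (nat_lit 235) (nat_lit 0) (nat_lit 140) (nat_lit 128) (nat_lit 122)) (PT.lf (nat_lit 17024) (nat_lit 6) (nat_lit 224) (nat_lit 0) (nat_lit 141) (nat_lit 128) (nat_lit 121)))) (PT.nd (nat_lit 78) (PT.lf (nat_lit 16112)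 (nat_lit 6) (nat_lit 212) (nat_lit 0) (nat_lit 142) (nat_lit 128) (nat_lit 120)) (PT.nd (nat_lit 78) (PT.lf (nat_lit 15124) (nat_lit 6) (nat_lit 199) (nat_lit 0) (nat_lit 143) (nat_lit 128) (nat_lit 119)) (PT.lf (nat_lit 14060) (nat_lit 6) (nat_lit 185) (nat_lit 0) (nat_lit 144) (nat_lit 128) (nat_lit 118))))) (PT.nd (nat_lit 38532) (PT.nd (nat_lit 38376) (PT.lf (nat_lit 12920) (nat_lit 6) (nat_lit 170) (nat_lit 0) (nat_lit 145) (nat_lit 128) (nat_lit 117)) (PT.nd (nat_lit 78) (PT.lf (nat_lit 12996) (nat_lit 6) (nat_lit 171) (nat_lit 5) (nat_lit 116) (nat_lit 129) (nat_lit 145)) (PT.lf (nat_lit 14136) (nat_lit 6) (nat_lit 186) (nat_lit 5) (nat_lit 117) (nat_lit 129) (nat_lit 144)))) (PT.nd (nat_lit 78) (PT.lf (nat_lit 15200) (nat_lit 6) (nat_lit 200) (nat_lit 5) (nat_lit 118) (nat_lit 129) (nat_lit 143)) (PT.nd (nat_lit 78) (PT.lf (nat_lit 16188) (nat_lit 6) (nat_lit 213) (nat_lit 5) (nat_lit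 119) (nat_lit 129) (nat_lit 142)) (PT.lf (nat_lit 17100) (nat_lit 6) (nat_lit 225) (nat_lit 5) (nat_lit 120) (nat_lit 129) (nat_lit 141)))))) (PT.nd (nat_lit 468) (PT.nd (nat_lit 234) (PT.nd (nat_lit 78) (PT.lf (nat_lit 17936) (nat_lit 6) (nat_lit 236) (nat_lit 5) (nat_lit 121) (nat_lit 129) (nat_lit 140)) (PT.nd (nat_lit 78) (PT.lf (nat_lit 18696) (nat_lit 6) (nat_lit 246) (nat_lit 5) (nat_lit 122) (nat_lit 129) (nat_lit 139)) (PT.lf (nat_lit 19380) (nat_lit 6) (nat_lit 255) (nat_lit 5) (nat_lit 123) (nat_lit 129) (nat_lit 138)))) (PT.nd (nat_lit 78) (PT.lf (nat_lit 19988) (nat_lit 6) (nat_lit 263) (nat_lit 5) (nat_lit 124) (nat_lit 129) (nat_lit 137)) (PT.nd (nat_lit 78) (PT.lf (nat_lit 20520) (nat_lit 6) (nat_lit 270) (nat_lit 5) (nat_lit 125) (nat_lit 129) (nat_lit 136)) (PT.lf (nat_lit 20976) (nat_lit 6) (nat_lit 276) (nat_lit 5) (nat_lit 126) (nat_lit 129) (nat_lit 135))))) (PT.nd (nat_lit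 234) (PT.nd (nat_lit 78) (PT.lf (nat_lit 21356) (nat_lit 6) (nat_lit 281) (nat_lit 5) (nat_lit 127) (nat_lit 129) (nat_lit 134)) (PT.nd (nat_lit 78) (PT.lf (nat_lit 21660) (nat_lit 6) (nat_lit 285) (nat_lit 5) (nat_lit 128) (nat_lit 129) (nat_lit 133)) (PT.lf (nat_lit 21888) (nat_lit 3) (nat_lit 288) (nat_lit 3) (nat_lit 129) (nat_lit 129) (nat_lit 132)))) (PT.nd (nat_lit 156) (PT.nd (nat_lit 78) (PT.lf (nat_lit 22116) (nat_lit 6) (nat_lit 291) (nat_lit 3) (nat_lit 130) (nat_lit 129) (nat_lit 131)) (PT.lf (nat_lit 22116) (nat_lit 6) (nat_lit 291) (nat_lit 1) (nat_lit 131) (nat_lit 129) (nat_lit 130))) (PT.nd (nat_lit 78) (PT.lf (nat_lit 21888) (nat_lit 3) (nat_lit 288) (nat_lit 0) (nat_lit 132) (nat_lit 129) (nat_lit 129)) (PT.lf (nat_lit 21660) (nat_lit 6) (nat_lit 285) (nat_lit 0) (nat_lit 133) (nat_lit 129) (nat_lit 128))))))) (PT.nd (nat_lit 39234) (PT.nd (nat_lit 468) (PT.nd (nat_lit 234)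 (PT.nd (nat_lit 78) (PT.lf (nat_lit 21356) (nat_lit 6) (nat_lit 281) (nat_lit 0) (nat_lit 134) (nat_lit 129) (nat_lit 127)) (PT.nd (nat_lit 78) (PT.lf (nat_lit 20976) (nat_lit 6) (nat_lit 276) (nat_lit 0) (nat_lit 135) (nat_lit 129) (nat_lit 126)) (PT.lf (nat_lit 20520) (nat_lit 6) (nat_lit 270) (nat_lit 0) (nat_lit 136) (nat_lit 129) (nat_lit 125)))) (PT.nd (nat_lit 78) (PT.lf (nat_lit 19988) (nat_lit 6) (nat_lit 263) (nat_lit 0) (nat_lit 137) (nat_lit 129) (nat_lit 124)) (PT.nd (nat_lit 78) (PT.lf (nat_lit 19380) (nat_lit 6) (nat_lit 255) (nat_lit 0) (nat_lit 138) (nat_lit 129) (nat_lit 123)) (PT.lf (nat_lit 18696) (nat_lit 6) (nat_lit 246) (nat_lit 0) (nat_lit 139) (nat_lit 129) (nat_lit 122))))) (PT.nd (nat_lit 234) (PT.nd (nat_lit 78) (PT.lf (nat_lit 17936) (nat_lit 6) (nat_lit 236) (nat_lit 0) (nat_lit 140) (nat_lit 129) (nat_lit 121)) (PT.nd (nat_lit 78) (PT.lf (nat_lit 17100) (nat_lit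 6) (nat_lit 225) (nat_lit 0) (nat_lit 141) (nat_lit 129) (nat_lit 120)) (PT.lf (nat_lit 16188) (nat_lit 6) (nat_lit 213) (nat_lit 0) (nat_lit 142) (nat_lit 129) (nat_lit 119)))) (PT.nd (nat_lit 156) (PT.nd (nat_lit 78) (PT.lf (nat_lit 15200) (nat_lit 6) (nat_lit 200) (nat_lit 0) (nat_lit 143) (nat_lit 129) (nat_lit 118)) (PT.lf (nat_lit 14136) (nat_lit 6) (nat_lit 186) (nat_lit 0) (nat_lit 144) (nat_lit 129) (nat_lit 117))) (PT.nd (nat_lit 38298) (PT.lf (nat_lit 12996) (nat_lit 6) (nat_lit 171) (nat_lit 0) (nat_lit 145) (nat_lit 129) (nat_lit 116)) (PT.lf (nat_lit 13072) (nat_lit 6) (nat_lit 172) (nat_lit 5) (nat_lit 115) (nat_lit 130) (nat_lit 145)))))) (PT.nd (nat_lit 468) (PT.nd (nat_lit 234) (PT.nd (nat_lit 78) (PT.lf (nat_lit 14212) (nat_lit 6) (nat_lit 187) (nat_lit 5) (nat_lit 116) (nat_lit 130) (nat_lit 144)) (PT.nd (nat_lit 78) (PT.lf (nat_lit 15276) (nat_lit 6) (nat_lit 201) (nat_lit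 5) (nat_lit 117) (nat_lit 130) (nat_lit 143)) (PT.lf (nat_lit 16264) (nat_lit 6) (nat_lit 214) (nat_lit 5) (nat_lit 118) (nat_lit 130) (nat_lit 142)))) (PT.nd (nat_lit 78) (PT.lf (nat_lit 17176) (nat_lit 6) (nat_lit 226) (nat_lit 5) (nat_lit 119) (nat_lit 130) (nat_lit 141)) (PT.nd (nat_lit 78) (PT.lf (nat_lit 18012) (nat_lit 6) (nat_lit 237) (nat_lit 5) (nat_lit 120) (nat_lit 130) (nat_lit 140)) (PT.lf (nat_lit 18772) (nat_lit 6) (nat_lit 247) (nat_lit 5) (nat_lit 121) (nat_lit 130) (nat_lit 139))))) (PT.nd (nat_lit 234) (PT.nd (nat_lit 78) (PT.lf (nat_lit 19456) (nat_lit 6) (nat_lit 256) (nat_lit 5) (nat_lit 122) (nat_lit 130) (nat_lit 138)) (PT.nd (nat_lit 78) (PT.lf (nat_lit 20064) (nat_lit 6) (nat_lit 264) (nat_lit 5) (nat_lit 123) (nat_lit 130) (nat_lit 137)) (PT.lf (nat_lit 20596) (nat_lit 6) (nat_lit 271) (nat_lit 5) (nat_lit 124) (nat_lit 130) (nat_lit 136)))) (PT.nd (nat_lit 156) (PT.nd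 (nat_lit 78) (PT.lf (nat_lit 21052) (nat_lit 6) (nat_lit 277) (nat_lit 5) (nat_lit 125) (nat_lit 130) (nat_lit 135)) (PT.lf (nat_lit 21432) (nat_lit 6) (nat_lit 282) (nat_lit 5) (nat_lit 126) (nat_lit 130) (nat_lit 134))) (PT.nd (nat_lit 78) (PT.lf (nat_lit 21736) (nat_lit 6) (nat_lit 286) (nat_lit 5) (nat_lit 127) (nat_lit 130) (nat_lit 133)) (PT.lf (nat_lit 21964) (nat_lit 6) (nat_lit 289) (nat_lit 5) (nat_lit 128) (nat_lit 130) (nat_lit 132))))))))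
noncomputable def pc13 : PT := (PT.nd (nat_lit 40092) (PT.nd (nat_lit 936) (PT.nd (nat_lit 468) (PT.nd (nat_lit 234) (PT.nd (nat_lit 78) (PT.lf (nat_lit 22116) (nat_lit 6) (nat_lit 291) (nat_lit 5) (nat_lit 129) (nat_lit 130) (nat_lit 131)) (PT.nd (nat_lit 78) (PT.lf (nat_lit 22192) (nat_lit 1) (nat_lit 292) (nat_lit 0) (nat_lit 130) (nat_lit 130) (nat_lit 130)) (PT.lf (nat_lit 22116) (nat_lit 6) (nat_lit 291) (nat_lit 0) (nat_lit 131) (nat_lit 130) (nat_lit 129)))) (PT.nd (nat_lit 78) (PT.lf (nat_lit 21964) (nat_lit 6) (nat_lit 289) (nat_lit 0) (nat_lit 132) (nat_lit 130) (nat_lit 128)) (PT.nd (nat_lit 78) (PT.lf (nat_lit 21736) (nat_lit 6) (nat_lit 286) (nat_lit 0) (nat_lit 133) (nat_lit 130) (nat_lit 127)) (PT.lf (nat_lit 21432) (nat_lit 6) (nat_lit 282) (nat_lit 0) (nat_lit 134) (nat_lit 130) (nat_lit 126))))) (PT.nd (nat_lit 234) (PT.nd (nat_lit 78) (PT.lf (nat_lit 21052) (nat_lit 6) (nat_lit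 277) (nat_lit 0) (nat_lit 135) (nat_lit 130) (nat_lit 125)) (PT.nd (nat_lit 78) (PT.lf (nat_lit 20596) (nat_lit 6) (nat_lit 271) (nat_lit 0) (nat_lit 136) (nat_lit 130) (nat_lit 124)) (PT.lf (nat_lit 20064) (nat_lit 6) (nat_lit 264) (nat_lit 0) (nat_lit 137) (nat_lit 130) (nat_lit 123)))) (PT.nd (nat_lit 78) (PT.lf (nat_lit 19456) (nat_lit 6) (nat_lit 256) (nat_lit 0) (nat_lit 138) (nat_lit 130) (nat_lit 122)) (PT.nd (nat_lit 78) (PT.lf (nat_lit 18772) (nat_lit 6) (nat_lit 247) (nat_lit 0) (nat_lit 139) (nat_lit 130) (nat_lit 121)) (PT.lf (nat_lit 18012) (nat_lit 6) (nat_lit 237) (nat_lit 0) (nat_lit 140) (nat_lit 130) (nat_lit 120)))))) (PT.nd (nat_lit 38610) (PT.nd (nat_lit 234) (PT.nd (nat_lit 78) (PT.lf (nat_lit 17176) (nat_lit 6) (nat_lit 226) (nat_lit 0) (nat_lit 141) (nat_lit 130) (nat_lit 119)) (PT.nd (nat_lit 78) (PT.lf (nat_lit 16264) (nat_lit 6) (nat_lit 214) (nat_lit 0) (nat_lit 142)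 (nat_lit 130) (nat_lit 118)) (PT.lf (nat_lit 15276) (nat_lit 6) (nat_lit 201) (nat_lit 0) (nat_lit 143) (nat_lit 130) (nat_lit 117)))) (PT.nd (nat_lit 78) (PT.lf (nat_lit 14212) (nat_lit 6) (nat_lit 187) (nat_lit 0) (nat_lit 144) (nat_lit 130) (nat_lit 116)) (PT.nd (nat_lit 38220) (PT.lf (nat_lit 13072) (nat_lit 6) (nat_lit 172) (nat_lit 0) (nat_lit 145) (nat_lit 130) (nat_lit 115)) (PT.lf (nat_lit 11932) (nat_lit 6) (nat_lit 157) (nat_lit 5) (nat_lit 114) (nat_lit 131) (nat_lit 145))))) (PT.nd (nat_lit 234) (PT.nd (nat_lit 78) (PT.lf (nat_lit 13148) (nat_lit 6) (nat_lit 173) (nat_lit 5) (nat_lit 115) (nat_lit 131) (nat_lit 144)) (PT.nd (nat_lit 78) (PT.lf (nat_lit 14288) (nat_lit 6) (nat_lit 188) (nat_lit 5) (nat_lit 116) (nat_lit 131) (nat_lit 143)) (PT.lf (nat_lit 15352) (nat_lit 6) (nat_lit 202) (nat_lit 5) (nat_lit 117) (nat_lit 131) (nat_lit 142)))) (PT.nd (nat_lit 156) (PT.nd (nat_lit 78)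 (PT.lf (nat_lit 16340) (nat_lit 6) (nat_lit 215) (nat_lit 5) (nat_lit 118) (nat_lit 131) (nat_lit 141)) (PT.lf (nat_lit 17252) (nat_lit 6) (nat_lit 227) (nat_lit 5) (nat_lit 119) (nat_lit 131) (nat_lit 140))) (PT.nd (nat_lit 78) (PT.lf (nat_lit 18088) (nat_lit 6) (nat_lit 238) (nat_lit 5) (nat_lit 120) (nat_lit 131) (nat_lit 139)) (PT.lf (nat_lit 18848) (nat_lit 6) (nat_lit 248) (nat_lit 5) (nat_lit 121) (nat_lit 131) (nat_lit 138))))))) (PT.nd (nat_lit 1014) (PT.nd (nat_lit 468) (PT.nd (nat_lit 234) (PT.nd (nat_lit 78) (PT.lf (nat_lit 19532) (nat_lit 6) (nat_lit 257) (nat_lit 5) (nat_lit 122) (nat_lit 131) (nat_lit 137)) (PT.nd (nat_lit 78) (PT.lf (nat_lit 20140) (nat_lit 6) (nat_lit 265) (nat_lit 5) (nat_lit 123) (nat_lit 131) (nat_lit 136)) (PT.lf (nat_lit 20672) (nat_lit 6) (nat_lit 272) (nat_lit 5) (nat_lit 124) (nat_lit 131) (nat_lit 135)))) (PT.nd (nat_lit 78) (PT.lf (nat_lit 21128) (nat_lit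 6) (nat_lit 278) (nat_lit 5) (nat_lit 125) (nat_lit 131) (nat_lit 134)) (PT.nd (nat_lit 78) (PT.lf (nat_lit 21508) (nat_lit 6) (nat_lit 283) (nat_lit 5) (nat_lit 126) (nat_lit 131) (nat_lit 133)) (PT.lf (nat_lit 21812) (nat_lit 6) (nat_lit 287) (nat_lit 5) (nat_lit 127) (nat_lit 131) (nat_lit 132))))) (PT.nd (nat_lit 234) (PT.nd (nat_lit 78) (PT.lf (nat_lit 22040) (nat_lit 3) (nat_lit 290) (nat_lit 4) (nat_lit 128) (nat_lit 131) (nat_lit 131)) (PT.nd (nat_lit 78) (PT.lf (nat_lit 22116) (nat_lit 6) (nat_lit 291) (nat_lit 4) (nat_lit 129) (nat_lit 131) (nat_lit 130)) (PT.lf (nat_lit 22116) (nat_lit 6) (nat_lit 291) (nat_lit 2) (nat_lit 130) (nat_lit 131) (nat_lit 129)))) (PT.nd (nat_lit 156) (PT.nd (nat_lit 78) (PT.lf (nat_lit 22040) (nat_lit 3) (nat_lit 290) (nat_lit 0) (nat_lit 131) (nat_lit 131) (nat_lit 128)) (PT.lf (nat_lit 21812) (nat_lit 6) (nat_lit 287) (nat_lit 0) (nat_lit 132) (nat_lit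 131) (nat_lit 127))) (PT.nd (nat_lit 78) (PT.lf (nat_lit 21508) (nat_lit 6) (nat_lit 283) (nat_lit 0) (nat_lit 133) (nat_lit 131) (nat_lit 126)) (PT.lf (nat_lit 21128) (nat_lit 6) (nat_lit 278) (nat_lit 0) (nat_lit 134) (nat_lit 131) (nat_lit 125)))))) (PT.nd (nat_lit 468) (PT.nd (nat_lit 234) (PT.nd (nat_lit 78) (PT.lf (nat_lit 20672) (nat_lit 6) (nat_lit 272) (nat_lit 0) (nat_lit 135) (nat_lit 131) (nat_lit 124)) (PT.nd (nat_lit 78) (PT.lf (nat_lit 20140) (nat_lit 6) (nat_lit 265) (nat_lit 0) (nat_lit 136) (nat_lit 131) (nat_lit 123)) (PT.lf (nat_lit 19532) (nat_lit 6) (nat_lit 257) (nat_lit 0) (nat_lit 137) (nat_lit 131) (nat_lit 122)))) (PT.nd (nat_lit 78) (PT.lf (nat_lit 18848) (nat_lit 6) (nat_lit 248) (nat_lit 0) (nat_lit 138) (nat_lit 131) (nat_lit 121)) (PT.nd (nat_lit 78) (PT.lf (nat_lit 18088) (nat_lit 6) (nat_lit 238) (nat_lit 0) (nat_lit 139) (nat_lit 131) (nat_lit 120)) (PT.lf (nat_lit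 17252) (nat_lit 6) (nat_lit 227) (nat_lit 0) (nat_lit 140) (nat_lit 131) (nat_lit 119))))) (PT.nd (nat_lit 234) (PT.nd (nat_lit 78) (PT.lf (nat_lit 16340) (nat_lit 6) (nat_lit 215) (nat_lit 0) (nat_lit 141) (nat_lit 131) (nat_lit 118)) (PT.nd (nat_lit 78) (PT.lf (nat_lit 15352) (nat_lit 6) (nat_lit 202) (nat_lit 0) (nat_lit 142) (nat_lit 131) (nat_lit 117)) (PT.lf (nat_lit 14288) (nat_lit 6) (nat_lit 188) (nat_lit 0) (nat_lit 143) (nat_lit 131) (nat_lit 116)))) (PT.nd (nat_lit 38142) (PT.nd (nat_lit 78) (PT.lf (nat_lit 13148) (nat_lit 6) (nat_lit 173) (nat_lit 0) (nat_lit 144) (nat_lit 131) (nat_lit 115)) (PT.lf (nat_lit 11932) (nat_lit 6) (nat_lit 157) (nat_lit 0) (nat_lit 145) (nat_lit 131) (nat_lit 114))) (PT.nd (nat_lit 78) (PT.lf (nat_lit 10716) (nat_lit 6) (nat_lit 141) (nat_lit 5) (nat_lit 112) (nat_lit 132) (nat_lit 146)) (PT.lf (nat_lit 11400) (nat_lit 6) (nat_lit 150) (nat_lit 5) (nat_lit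 113) (nat_lit 132) (nat_lit 145))))))))
noncomputable def pc14 : PT := (PT.nd (nat_lit 1950) (PT.nd (nat_lit 936) (PT.nd (nat_lit 468) (PT.nd (nat_lit 234) (PT.nd (nat_lit 78) (PT.lf (nat_lit 12008) (nat_lit 6) (nat_lit 158) (nat_lit 5) (nat_lit 114) (nat_lit 132) (nat_lit 144)) (PT.nd (nat_lit 78) (PT.lf (nat_lit 13224) (nat_lit 6) (nat_lit 174) (nat_lit 5) (nat_lit 115) (nat_lit 132) (nat_lit 143)) (PT.lf (nat_lit 14364) (nat_lit 6) (nat_lit 189) (nat_lit 5) (nat_lit 116) (nat_lit 132) (nat_lit 142)))) (PT.nd (nat_lit 78) (PT.lf (nat_lit 15428) (nat_lit 6) (nat_lit 203) (nat_lit 5) (nat_lit 117) (nat_lit 132) (nat_lit 141)) (PT.nd (nat_lit 78) (PT.lf (nat_lit 16416) (nat_lit 6) (nat_lit 216) (nat_lit 5) (nat_lit 118) (nat_lit 132) (nat_lit 140)) (PT.lf (nat_lit 17328) (nat_lit 6) (nat_lit 228) (nat_lit 5) (nat_lit 119) (nat_lit 132) (nat_lit 139))))) (PT.nd (nat_lit 234) (PT.nd (nat_lit 78)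 (PT.lf (nat_lit 18164) (nat_lit 6) (nat_lit 239) (nat_lit 5) (nat_lit 120) (nat_lit 132) (nat_lit 138)) (PT.nd (nat_lit 78) (PT.lf (nat_lit 18924) (nat_lit 6) (nat_lit 249) (nat_lit 5) (nat_lit 121) (nat_lit 132) (nat_lit 137)) (PT.lf (nat_lit 19608) (nat_lit 6) (nat_lit 258) (nat_lit 5) (nat_lit 122) (nat_lit 132) (nat_lit 136)))) (PT.nd (nat_lit 78) (PT.lf (nat_lit 20216) (nat_lit 6) (nat_lit 266) (nat_lit 5) (nat_lit 123) (nat_lit 132) (nat_lit 135)) (PT.nd (nat_lit 78) (PT.lf (nat_lit 20748) (nat_lit 6) (nat_lit 273) (nat_lit 5) (nat_lit 124) (nat_lit 132) (nat_lit 134)) (PT.lf (nat_lit 21204) (nat_lit 6) (nat_lit 279) (nat_lit 5) (nat_lit 125) (nat_lit 132) (nat_lit 133)))))) (PT.nd (nat_lit 468) (PT.nd (nat_lit 234) (PT.nd (nat_lit 78) (PT.lf (nat_lit 21584) (nat_lit 3) (nat_lit 284) (nat_lit 4) (nat_lit 126) (nat_lit 132) (nat_lit 132)) (PT.nd (nat_lit 78) (PT.lf (nat_lit 21812) (nat_lit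 6) (nat_lit 287) (nat_lit 4) (nat_lit 127) (nat_lit 132) (nat_lit 131)) (PT.lf (nat_lit 21964) (nat_lit 6) (nat_lit 289) (nat_lit 4) (nat_lit 128) (nat_lit 132) (nat_lit 130)))) (PT.nd (nat_lit 78) (PT.lf (nat_lit 21888) (nat_lit 3) (nat_lit 288) (nat_lit 2) (nat_lit 129) (nat_lit 132) (nat_lit 129)) (PT.nd (nat_lit 78) (PT.lf (nat_lit 21964) (nat_lit 6) (nat_lit 289) (nat_lit 2) (nat_lit 130) (nat_lit 132) (nat_lit 128)) (PT.lf (nat_lit 21812) (nat_lit 6) (nat_lit 287) (nat_lit 2) (nat_lit 131) (nat_lit 132) (nat_lit 127))))) (PT.nd (nat_lit 234) (PT.nd (nat_lit 78) (PT.lf (nat_lit 21584) (nat_lit 3) (nat_lit 284) (nat_lit 0) (nat_lit 132) (nat_lit 132) (nat_lit 126)) (PT.nd (nat_lit 78) (PT.lf (nat_lit 21204) (nat_lit 6) (nat_lit 279) (nat_lit 0) (nat_lit 133) (nat_lit 132) (nat_lit 125)) (PT.lf (nat_lit 20748) (nat_lit 6) (nat_lit 273) (nat_lit 0) (nat_lit 134) (nat_lit 132) (nat_lit 124))))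 (PT.nd (nat_lit 156) (PT.nd (nat_lit 78) (PT.lf (nat_lit 20216) (nat_lit 6) (nat_lit 266) (nat_lit 0) (nat_lit 135) (nat_lit 132) (nat_lit 123)) (PT.lf (nat_lit 19608) (nat_lit 6) (nat_lit 258) (nat_lit 0) (nat_lit 136) (nat_lit 132) (nat_lit 122))) (PT.nd (nat_lit 78) (PT.lf (nat_lit 18924) (nat_lit 6) (nat_lit 249) (nat_lit 0) (nat_lit 137) (nat_lit 132) (nat_lit 121)) (PT.lf (nat_lit 18164) (nat_lit 6) (nat_lit 239) (nat_lit 0) (nat_lit 138) (nat_lit 132) (nat_lit 120))))))) (PT.nd (nat_lit 38844) (PT.nd (nat_lit 468) (PT.nd (nat_lit 234) (PT.nd (nat_lit 78) (PT.lf (nat_lit 17328) (nat_lit 6) (nat_lit 228) (nat_lit 0) (nat_lit 139) (nat_lit 132) (nat_lit 119)) (PT.nd (nat_lit 78) (PT.lf (nat_lit 16416) (nat_lit 6) (nat_lit 216) (nat_lit 0) (nat_lit 140) (nat_lit 132) (nat_lit 118)) (PT.lf (nat_lit 15428) (nat_lit 6) (nat_lit 203) (nat_lit 0) (nat_lit 141) (nat_lit 132) (nat_lit 117)))) (PT.nd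 (nat_lit 78) (PT.lf (nat_lit 14364) (nat_lit 6) (nat_lit 189) (nat_lit 0) (nat_lit 142) (nat_lit 132) (nat_lit 116)) (PT.nd (nat_lit 78) (PT.lf (nat_lit 13224) (nat_lit 6) (nat_lit 174) (nat_lit 0) (nat_lit 143) (nat_lit 132) (nat_lit 115)) (PT.lf (nat_lit 12008) (nat_lit 6) (nat_lit 158) (nat_lit 0) (nat_lit 144) (nat_lit 132) (nat_lit 114))))) (PT.nd (nat_lit 38064) (PT.nd (nat_lit 78) (PT.lf (nat_lit 11400) (nat_lit 6) (nat_lit 150) (nat_lit 0) (nat_lit 145) (nat_lit 132) (nat_lit 113)) (PT.nd (nat_lit 37908) (PT.lf (nat_lit 10716) (nat_lit 6) (nat_lit 141) (nat_lit 0) (nat_lit 146) (nat_lit 132) (nat_lit 112)) (PT.lf (nat_lit 10184) (nat_lit 6) (nat_lit 134) (nat_lit 5) (nat_lit 111) (nat_lit 133) (nat_lit 146)))) (PT.nd (nat_lit 156) (PT.nd (nat_lit 78) (PT.lf (nat_lit 10792) (nat_lit 6) (nat_lit 142) (nat_lit 5) (nat_lit 112) (nat_lit 133) (nat_lit 145)) (PT.lf (nat_lit 11476) (nat_lit 6)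 (nat_lit 151) (nat_lit 5) (nat_lit 113) (nat_lit 133) (nat_lit 144))) (PT.nd (nat_lit 78) (PT.lf (nat_lit 12084) (nat_lit 6) (nat_lit 159) (nat_lit 5) (nat_lit 114) (nat_lit 133) (nat_lit 143)) (PT.lf (nat_lit 13300) (nat_lit 6) (nat_lit 175) (nat_lit 5) (nat_lit 115) (nat_lit 133) (nat_lit 142)))))) (PT.nd (nat_lit 468) (PT.nd (nat_lit 234) (PT.nd (nat_lit 78) (PT.lf (nat_lit 14440) (nat_lit 6) (nat_lit 190) (nat_lit 5) (nat_lit 116) (nat_lit 133) (nat_lit 141)) (PT.nd (nat_lit 78) (PT.lf (nat_lit 15504) (nat_lit 6) (nat_lit 204) (nat_lit 5) (nat_lit 117) (nat_lit 133) (nat_lit 140)) (PT.lf (nat_lit 16492) (nat_lit 6) (nat_lit 217) (nat_lit 5) (nat_lit 118) (nat_lit 133) (nat_lit 139)))) (PT.nd (nat_lit 78) (PT.lf (nat_lit 17404) (nat_lit 6) (nat_lit 229) (nat_lit 5) (nat_lit 119) (nat_lit 133) (nat_lit 138)) (PT.nd (nat_lit 78) (PT.lf (nat_lit 18240) (nat_lit 6) (nat_lit 240) (nat_lit 5) (nat_lit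 120) (nat_lit 133) (nat_lit 137)) (PT.lf (nat_lit 19000) (nat_lit 6) (nat_lit 250) (nat_lit 5) (nat_lit 121) (nat_lit 133) (nat_lit 136))))) (PT.nd (nat_lit 234) (PT.nd (nat_lit 78) (PT.lf (nat_lit 19684) (nat_lit 6) (nat_lit 259) (nat_lit 5) (nat_lit 122) (nat_lit 133) (nat_lit 135)) (PT.nd (nat_lit 78) (PT.lf (nat_lit 20292) (nat_lit 6) (nat_lit 267) (nat_lit 5) (nat_lit 123) (nat_lit 133) (nat_lit 134)) (PT.lf (nat_lit 20824) (nat_lit 3) (nat_lit 274) (nat_lit 4) (nat_lit 124) (nat_lit 133) (nat_lit 133)))) (PT.nd (nat_lit 156) (PT.nd (nat_lit 78) (PT.lf (nat_lit 21204) (nat_lit 6) (nat_lit 279) (nat_lit 4) (nat_lit 125) (nat_lit 133) (nat_lit 132)) (PT.lf (nat_lit 21508) (nat_lit 6) (nat_lit 283) (nat_lit 4) (nat_lit 126) (nat_lit 133) (nat_lit 131))) (PT.nd (nat_lit 78) (PT.lf (nat_lit 21736) (nat_lit 6) (nat_lit 286) (nat_lit 4) (nat_lit 127) (nat_lit 133) (nat_lit 130)) (PT.lf (nat_lit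 21660) (nat_lit 6) (nat_lit 285) (nat_lit 4) (nat_lit 128) (nat_lit 133) (nat_lit 129))))))))
noncomputable def pc15 : PT := (PT.nd (nat_lit 39702) (PT.nd (nat_lit 936) (PT.nd (nat_lit 468) (PT.nd (nat_lit 234) (PT.nd (nat_lit 78) (PT.lf (nat_lit 21660) (nat_lit 6) (nat_lit 285) (nat_lit 2) (nat_lit 129) (nat_lit 133) (nat_lit 128)) (PT.nd (nat_lit 78) (PT.lf (nat_lit 21736) (nat_lit 6) (nat_lit 286) (nat_lit 2) (nat_lit 130) (nat_lit 133) (nat_lit 127)) (PT.lf (nat_lit 21508) (nat_lit 6) (nat_lit 283) (nat_lit 2) (nat_lit 131) (nat_lit 133) (nat_lit 126)))) (PT.nd (nat_lit 78) (PT.lf (nat_lit 21204) (nat_lit 6) (nat_lit 279) (nat_lit 2) (nat_lit 132) (nat_lit 133) (nat_lit 125)) (PT.nd (nat_lit 78) (PT.lf (nat_lit 20824) (nat_lit 3) (nat_lit 274) (nat_lit 0) (nat_lit 133) (nat_lit 133) (nat_lit 124)) (PT.lf (nat_lit 20292) (nat_lit 6) (nat_lit 267) (nat_lit 0) (nat_lit 134) (nat_lit 133) (nat_lit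 123))))) (PT.nd (nat_lit 234) (PT.nd (nat_lit 78) (PT.lf (nat_lit 19684) (nat_lit 6) (nat_lit 259) (nat_lit 0) (nat_lit 135) (nat_lit 133) (nat_lit 122)) (PT.nd (nat_lit 78) (PT.lf (nat_lit 19000) (nat_lit 6) (nat_lit 250) (nat_lit 0) (nat_lit 136) (nat_lit 133) (nat_lit 121)) (PT.lf (nat_lit 18240) (nat_lit 6) (nat_lit 240) (nat_lit 0) (nat_lit 137) (nat_lit 133) (nat_lit 120)))) (PT.nd (nat_lit 78) (PT.lf (nat_lit 17404) (nat_lit 6) (nat_lit 229) (nat_lit 0) (nat_lit 138) (nat_lit 133) (nat_lit 119)) (PT.nd (nat_lit 78) (PT.lf (nat_lit 16492) (nat_lit 6) (nat_lit 217) (nat_lit 0) (nat_lit 139) (nat_lit 133) (nat_lit 118)) (PT.lf (nat_lit 15504) (nat_lit 6) (nat_lit 204) (nat_lit 0) (nat_lit 140) (nat_lit 133) (nat_lit 117)))))) (PT.nd (nat_lit 38220) (PT.nd (nat_lit 234) (PT.nd (nat_lit 78) (PT.lf (nat_lit 14440) (nat_lit 6) (nat_lit 190) (nat_lit 0) (nat_lit 141) (nat_lit 133) (nat_lit 116))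 (PT.nd (nat_lit 78) (PT.lf (nat_lit 13300) (nat_lit 6) (nat_lit 175) (nat_lit 0) (nat_lit 142) (nat_lit 133) (nat_lit 115)) (PT.lf (nat_lit 12084) (nat_lit 6) (nat_lit 159) (nat_lit 0) (nat_lit 143) (nat_lit 133) (nat_lit 114)))) (PT.nd (nat_lit 78) (PT.lf (nat_lit 11476) (nat_lit 6) (nat_lit 151) (nat_lit 0) (nat_lit 144) (nat_lit 133) (nat_lit 113)) (PT.nd (nat_lit 78) (PT.lf (nat_lit 10792) (nat_lit 6) (nat_lit 142) (nat_lit 0) (nat_lit 145) (nat_lit 133) (nat_lit 112)) (PT.lf (nat_lit 10184) (nat_lit 6) (nat_lit 134) (nat_lit 0) (nat_lit 146) (nat_lit 133) (nat_lit 111))))) (PT.nd (nat_lit 234) (PT.nd (nat_lit 78) (PT.lf (nat_lit 9652) (nat_lit 6) (nat_lit 127) (nat_lit 5) (nat_lit 110) (nat_lit 134) (nat_lit 146)) (PT.nd (nat_lit 78) (PT.lf (nat_lit 10260) (nat_lit 6) (nat_lit 135) (nat_lit 5) (nat_lit 111) (nat_lit 134) (nat_lit 145)) (PT.lf (nat_lit 10868) (nat_lit 6) (nat_lit 143) (nat_lit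 5) (nat_lit 112) (nat_lit 134) (nat_lit 144)))) (PT.nd (nat_lit 156) (PT.nd (nat_lit 78) (PT.lf (nat_lit 11552) (nat_lit 6) (nat_lit 152) (nat_lit 5) (nat_lit 113) (nat_lit 134) (nat_lit 143)) (PT.lf (nat_lit 12160) (nat_lit 6) (nat_lit 160) (nat_lit 5) (nat_lit 114) (nat_lit 134) (nat_lit 142))) (PT.nd (nat_lit 78) (PT.lf (nat_lit 13376) (nat_lit 6) (nat_lit 176) (nat_lit 5) (nat_lit 115) (nat_lit 134) (nat_lit 141)) (PT.lf (nat_lit 14516) (nat_lit 6) (nat_lit 191) (nat_lit 5) (nat_lit 116) (nat_lit 134) (nat_lit 140))))))) (PT.nd (nat_lit 1014) (PT.nd (nat_lit 468) (PT.nd (nat_lit 234) (PT.nd (nat_lit 78) (PT.lf (nat_lit 15580) (nat_lit 6) (nat_lit 205) (nat_lit 5) (nat_lit 117) (nat_lit 134) (nat_lit 139)) (PT.nd (nat_lit 78) (PT.lf (nat_lit 16568) (nat_lit 6) (nat_lit 218) (nat_lit 5) (nat_lit 118) (nat_lit 134) (nat_lit 138)) (PT.lf (nat_lit 17480) (nat_lit 6) (nat_lit 230) (nat_lit 5) (nat_lit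 119) (nat_lit 134) (nat_lit 137)))) (PT.nd (nat_lit 78) (PT.lf (nat_lit 18316) (nat_lit 6) (nat_lit 241) (nat_lit 5) (nat_lit 120) (nat_lit 134) (nat_lit 136)) (PT.nd (nat_lit 78) (PT.lf (nat_lit 19076) (nat_lit 6) (nat_lit 251) (nat_lit 5) (nat_lit 121) (nat_lit 134) (nat_lit 135)) (PT.lf (nat_lit 19760) (nat_lit 3) (nat_lit 260) (nat_lit 4) (nat_lit 122) (nat_lit 134) (nat_lit 134))))) (PT.nd (nat_lit 234) (PT.nd (nat_lit 78) (PT.lf (nat_lit 20292) (nat_lit 6) (nat_lit 267) (nat_lit 4) (nat_lit 123) (nat_lit 134) (nat_lit 133)) (PT.nd (nat_lit 78) (PT.lf (nat_lit 20748) (nat_lit 6) (nat_lit 273) (nat_lit 4) (nat_lit 124) (nat_lit 134) (nat_lit 132)) (PT.lf (nat_lit 21128) (nat_lit 6) (nat_lit 278) (nat_lit 4) (nat_lit 125) (nat_lit 134) (nat_lit 131)))) (PT.nd (nat_lit 156) (PT.nd (nat_lit 78) (PT.lf (nat_lit 21432) (nat_lit 6) (nat_lit 282) (nat_lit 4) (nat_lit 126) (nat_lit 134) (nat_lit 130))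 (PT.lf (nat_lit 21356) (nat_lit 6) (nat_lit 281) (nat_lit 4) (nat_lit 127) (nat_lit 134) (nat_lit 129))) (PT.nd (nat_lit 78) (PT.lf (nat_lit 21280) (nat_lit 3) (nat_lit 280) (nat_lit 2) (nat_lit 128) (nat_lit 134) (nat_lit 128)) (PT.lf (nat_lit 21356) (nat_lit 6) (nat_lit 281) (nat_lit 2) (nat_lit 129) (nat_lit 134) (nat_lit 127)))))) (PT.nd (nat_lit 468) (PT.nd (nat_lit 234) (PT.nd (nat_lit 78) (PT.lf (nat_lit 21432) (nat_lit 6) (nat_lit 282) (nat_lit 2) (nat_lit 130) (nat_lit 134) (nat_lit 126)) (PT.nd (nat_lit 78) (PT.lf (nat_lit 21128) (nat_lit 6) (nat_lit 278) (nat_lit 2) (nat_lit 131) (nat_lit 134) (nat_lit 125)) (PT.lf (nat_lit 20748) (nat_lit 6) (nat_lit 273) (nat_lit 2) (nat_lit 132) (nat_lit 134) (nat_lit 124)))) (PT.nd (nat_lit 78) (PT.lf (nat_lit 20292) (nat_lit 6) (nat_lit 267) (nat_lit 2) (nat_lit 133) (nat_lit 134) (nat_lit 123)) (PT.nd (nat_lit 78) (PT.lf (nat_lit 19760) (nat_lit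 3) (nat_lit 260) (nat_lit 0) (nat_lit 134) (nat_lit 134) (nat_lit 122)) (PT.lf (nat_lit 19076) (nat_lit 6) (nat_lit 251) (nat_lit 0) (nat_lit 135) (nat_lit 134) (nat_lit 121))))) (PT.nd (nat_lit 234) (PT.nd (nat_lit 78) (PT.lf (nat_lit 18316) (nat_lit 6) (nat_lit 241) (nat_lit 0) (nat_lit 136) (nat_lit 134) (nat_lit 120)) (PT.nd (nat_lit 78) (PT.lf (nat_lit 17480) (nat_lit 6) (nat_lit 230) (nat_lit 0) (nat_lit 137) (nat_lit 134) (nat_lit 119)) (PT.lf (nat_lit 16568) (nat_lit 6) (nat_lit 218) (nat_lit 0) (nat_lit 138) (nat_lit 134) (nat_lit 118)))) (PT.nd (nat_lit 156) (PT.nd (nat_lit 78) (PT.lf (nat_lit 15580) (nat_lit 6) (nat_lit 205) (nat_lit 0) (nat_lit 139) (nat_lit 134) (nat_lit 117)) (PT.lf (nat_lit 14516) (nat_lit 6) (nat_lit 191) (nat_lit 0) (nat_lit 140) (nat_lit 134) (nat_lit 116))) (PT.nd (nat_lit 78) (PT.lf (nat_lit 13376) (nat_lit 6) (nat_lit 176) (nat_lit 0) (nat_lit 141) (nat_lit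 134) (nat_lit 115)) (PT.lf (nat_lit 12160) (nat_lit 6) (nat_lit 160) (nat_lit 0) (nat_lit 142) (nat_lit 134) (nat_lit 114))))))))
noncomputable def pc16 : PT := (PT.nd (nat_lit 39624) (PT.nd (nat_lit 38610) (PT.nd (nat_lit 38142) (PT.nd (nat_lit 234) (PT.nd (nat_lit 78) (PT.lf (nat_lit 11552) (nat_lit 6) (nat_lit 152) (nat_lit 0) (nat_lit 143) (nat_lit 134) (nat_lit 113)) (PT.nd (nat_lit 78) (PT.lf (nat_lit 10868) (nat_lit 6) (nat_lit 143) (nat_lit 0) (nat_lit 144) (nat_lit 134) (nat_lit 112)) (PT.lf (nat_lit 10260) (nat_lit 6) (nat_lit 135) (nat_lit 0) (nat_lit 145) (nat_lit 134) (nat_lit 111)))) (PT.nd (nat_lit 37752) (PT.lf (nat_lit 9652) (nat_lit 6) (nat_lit 127) (nat_lit 0) (nat_lit 146) (nat_lit 134) (nat_lit 110)) (PT.nd (nat_lit 78) (PT.lf (nat_lit 9196) (nat_lit 6) (nat_lit 121) (nat_lit 5) (nat_lit 109) (nat_lit 135) (nat_lit 146)) (PT.lf (nat_lit 9728) (nat_lit 6) (nat_lit 128) (nat_lit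 5) (nat_lit 110) (nat_lit 135) (nat_lit 145))))) (PT.nd (nat_lit 234) (PT.nd (nat_lit 78) (PT.lf (nat_lit 10336) (nat_lit 6) (nat_lit 136) (nat_lit 5) (nat_lit 111) (nat_lit 135) (nat_lit 144)) (PT.nd (nat_lit 78) (PT.lf (nat_lit 10944) (nat_lit 6) (nat_lit 144) (nat_lit 5) (nat_lit 112) (nat_lit 135) (nat_lit 143)) (PT.lf (nat_lit 11628) (nat_lit 6) (nat_lit 153) (nat_lit 5) (nat_lit 113) (nat_lit 135) (nat_lit 142)))) (PT.nd (nat_lit 78) (PT.lf (nat_lit 12236) (nat_lit 6) (nat_lit 161) (nat_lit 5) (nat_lit 114) (nat_lit 135) (nat_lit 141)) (PT.nd (nat_lit 78) (PT.lf (nat_lit 13452) (nat_lit 6) (nat_lit 177) (nat_lit 5) (nat_lit 115) (nat_lit 135) (nat_lit 140)) (PT.lf (nat_lit 14592) (nat_lit 6) (nat_lit 192) (nat_lit 5) (nat_lit 116) (nat_lit 135) (nat_lit 139)))))) (PT.nd (nat_lit 468) (PT.nd (nat_lit 234) (PT.nd (nat_lit 78) (PT.lf (nat_lit 15656) (nat_lit 6) (nat_lit 206) (nat_lit 5) (nat_lit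 117) (nat_lit 135) (nat_lit 138)) (PT.nd (nat_lit 78) (PT.lf (nat_lit 16644) (nat_lit 6) (nat_lit 219) (nat_lit 5) (nat_lit 118) (nat_lit 135) (nat_lit 137)) (PT.lf (nat_lit 17556) (nat_lit 6) (nat_lit 231) (nat_lit 5) (nat_lit 119) (nat_lit 135) (nat_lit 136)))) (PT.nd (nat_lit 78) (PT.lf (nat_lit 18392) (nat_lit 3) (nat_lit 242) (nat_lit 4) (nat_lit 120) (nat_lit 135) (nat_lit 135)) (PT.nd (nat_lit 78) (PT.lf (nat_lit 19076) (nat_lit 6) (nat_lit 251) (nat_lit 4) (nat_lit 121) (nat_lit 135) (nat_lit 134)) (PT.lf (nat_lit 19684) (nat_lit 6) (nat_lit 259) (nat_lit 4) (nat_lit 122) (nat_lit 135) (nat_lit 133))))) (PT.nd (nat_lit 234) (PT.nd (nat_lit 78) (PT.lf (nat_lit 20216) (nat_lit 6) (nat_lit 266) (nat_lit 4) (nat_lit 123) (nat_lit 135) (nat_lit 132)) (PT.nd (nat_lit 78) (PT.lf (nat_lit 20672) (nat_lit 6) (nat_lit 272) (nat_lit 4) (nat_lit 124) (nat_lit 135) (nat_lit 131)) (PT.lf (nat_lit 21052)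 (nat_lit 6) (nat_lit 277) (nat_lit 4) (nat_lit 125) (nat_lit 135) (nat_lit 130)))) (PT.nd (nat_lit 156) (PT.nd (nat_lit 78) (PT.lf (nat_lit 20976) (nat_lit 6) (nat_lit 276) (nat_lit 4) (nat_lit 126) (nat_lit 135) (nat_lit 129)) (PT.lf (nat_lit 20900) (nat_lit 6) (nat_lit 275) (nat_lit 4) (nat_lit 127) (nat_lit 135) (nat_lit 128))) (PT.nd (nat_lit 78) (PT.lf (nat_lit 20900) (nat_lit 6) (nat_lit 275) (nat_lit 2) (nat_lit 128) (nat_lit 135) (nat_lit 127)) (PT.lf (nat_lit 20976) (nat_lit 6) (nat_lit 276) (nat_lit 2) (nat_lit 129) (nat_lit 135) (nat_lit 126))))))) (PT.nd (nat_lit 936) (PT.nd (nat_lit 468) (PT.nd (nat_lit 234) (PT.nd (nat_lit 78) (PT.lf (nat_lit 21052) (nat_lit 6) (nat_lit 277) (nat_lit 2) (nat_lit 130) (nat_lit 135) (nat_lit 125)) (PT.nd (nat_lit 78) (PT.lf (nat_lit 20672) (nat_lit 6) (nat_lit 272) (nat_lit 2) (nat_lit 131) (nat_lit 135) (nat_lit 124)) (PT.lf (nat_lit 20216) (nat_lit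 6) (nat_lit 266) (nat_lit 2) (nat_lit 132) (nat_lit 135) (nat_lit 123)))) (PT.nd (nat_lit 78) (PT.lf (nat_lit 19684) (nat_lit 6) (nat_lit 259) (nat_lit 2) (nat_lit 133) (nat_lit 135) (nat_lit 122)) (PT.nd (nat_lit 78) (PT.lf (nat_lit 19076) (nat_lit 6) (nat_lit 251) (nat_lit 2) (nat_lit 134) (nat_lit 135) (nat_lit 121)) (PT.lf (nat_lit 18392) (nat_lit 3) (nat_lit 242) (nat_lit 0) (nat_lit 135) (nat_lit 135) (nat_lit 120))))) (PT.nd (nat_lit 234) (PT.nd (nat_lit 78) (PT.lf (nat_lit 17556) (nat_lit 6) (nat_lit 231) (nat_lit 0) (nat_lit 136) (nat_lit 135) (nat_lit 119)) (PT.nd (nat_lit 78) (PT.lf (nat_lit 16644) (nat_lit 6) (nat_lit 219) (nat_lit 0) (nat_lit 137) (nat_lit 135) (nat_lit 118)) (PT.lf (nat_lit 15656) (nat_lit 6) (nat_lit 206) (nat_lit 0) (nat_lit 138) (nat_lit 135) (nat_lit 117)))) (PT.nd (nat_lit 78) (PT.lf (nat_lit 14592) (nat_lit 6) (nat_lit 192) (nat_lit 0) (nat_lit 139) (nat_lit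 135) (nat_lit 116)) (PT.nd (nat_lit 78) (PT.lf (nat_lit 13452) (nat_lit 6) (nat_lit 177) (nat_lit 0) (nat_lit 140) (nat_lit 135) (nat_lit 115)) (PT.lf (nat_lit 12236) (nat_lit 6) (nat_lit 161) (nat_lit 0) (nat_lit 141) (nat_lit 135) (nat_lit 114)))))) (PT.nd (nat_lit 37986) (PT.nd (nat_lit 234) (PT.nd (nat_lit 78) (PT.lf (nat_lit 11628) (nat_lit 6) (nat_lit 153) (nat_lit 0) (nat_lit 142) (nat_lit 135) (nat_lit 113)) (PT.nd (nat_lit 78) (PT.lf (nat_lit 10944) (nat_lit 6) (nat_lit 144) (nat_lit 0) (nat_lit 143) (nat_lit 135) (nat_lit 112)) (PT.lf (nat_lit 10336) (nat_lit 6) (nat_lit 136) (nat_lit 0) (nat_lit 144) (nat_lit 135) (nat_lit 111)))) (PT.nd (nat_lit 78) (PT.lf (nat_lit 9728) (nat_lit 6) (nat_lit 128) (nat_lit 0) (nat_lit 145) (nat_lit 135) (nat_lit 110)) (PT.nd (nat_lit 37596) (PT.lf (nat_lit 9196) (nat_lit 6) (nat_lit 121) (nat_lit 0) (nat_lit 146) (nat_lit 135) (nat_lit 109)) (PT.lf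 (nat_lit 8284) (nat_lit 6) (nat_lit 109) (nat_lit 5) (nat_lit 107) (nat_lit 136) (nat_lit 147))))) (PT.nd (nat_lit 234) (PT.nd (nat_lit 78) (PT.lf (nat_lit 8740) (nat_lit 6) (nat_lit 115) (nat_lit 5) (nat_lit 108) (nat_lit 136) (nat_lit 146)) (PT.nd (nat_lit 78) (PT.lf (nat_lit 9272) (nat_lit 6) (nat_lit 122) (nat_lit 5) (nat_lit 109) (nat_lit 136) (nat_lit 145)) (PT.lf (nat_lit 9804) (nat_lit 6) (nat_lit 129) (nat_lit 5) (nat_lit 110) (nat_lit 136) (nat_lit 144)))) (PT.nd (nat_lit 156) (PT.nd (nat_lit 78) (PT.lf (nat_lit 10412) (nat_lit 6) (nat_lit 137) (nat_lit 5) (nat_lit 111) (nat_lit 136) (nat_lit 143)) (PT.lf (nat_lit 11020) (nat_lit 6) (nat_lit 145) (nat_lit 5) (nat_lit 112) (nat_lit 136) (nat_lit 142))) (PT.nd (nat_lit 78) (PT.lf (nat_lit 11704) (nat_lit 6) (nat_lit 154) (nat_lit 5) (nat_lit 113) (nat_lit 136) (nat_lit 141)) (PT.lf (nat_lit 12312) (nat_lit 6) (nat_lit 162) (nat_lit 5)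 (nat_lit 114) (nat_lit 136) (nat_lit 140))))))))
noncomputable def pc17 : PT := (PT.nd (nat_lit 1950) (PT.nd (nat_lit 936) (PT.nd (nat_lit 468) (PT.nd (nat_lit 234) (PT.nd (nat_lit 78) (PT.lf (nat_lit 13528) (nat_lit 6) (nat_lit 178) (nat_lit 5) (nat_lit 115) (nat_lit 136) (nat_lit 139)) (PT.nd (nat_lit 78) (PT.lf (nat_lit 14668) (nat_lit 6) (nat_lit 193) (nat_lit 5) (nat_lit 116) (nat_lit 136) (nat_lit 138)) (PT.lf (nat_lit 15732) (nat_lit 6) (nat_lit 207) (nat_lit 5) (nat_lit 117) (nat_lit 136) (nat_lit 137)))) (PT.nd (nat_lit 78) (PT.lf (nat_lit 16720) (nat_lit 3) (nat_lit 220) (nat_lit 4) (nat_lit 118) (nat_lit 136) (nat_lit 136)) (PT.nd (nat_lit 78) (PT.lf (nat_lit 17556) (nat_lit 6) (nat_lit 231) (nat_lit 4) (nat_lit 119) (nat_lit 136) (nat_lit 135)) (PT.lf (nat_lit 18316) (nat_lit 6) (nat_lit 241) (nat_lit 4) (nat_lit 120) (nat_lit 136) (nat_lit 134))))) (PT.nd (nat_lit 234) (PT.nd (nat_lit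 78) (PT.lf (nat_lit 19000) (nat_lit 6) (nat_lit 250) (nat_lit 4) (nat_lit 121) (nat_lit 136) (nat_lit 133)) (PT.nd (nat_lit 78) (PT.lf (nat_lit 19608) (nat_lit 6) (nat_lit 258) (nat_lit 4) (nat_lit 122) (nat_lit 136) (nat_lit 132)) (PT.lf (nat_lit 20140) (nat_lit 6) (nat_lit 265) (nat_lit 4) (nat_lit 123) (nat_lit 136) (nat_lit 131)))) (PT.nd (nat_lit 78) (PT.lf (nat_lit 20596) (nat_lit 6) (nat_lit 271) (nat_lit 4) (nat_lit 124) (nat_lit 136) (nat_lit 130)) (PT.nd (nat_lit 78) (PT.lf (nat_lit 20520) (nat_lit 6) (nat_lit 270) (nat_lit 4) (nat_lit 125) (nat_lit 136) (nat_lit 129)) (PT.lf (nat_lit 20444) (nat_lit 6) (nat_lit 269) (nat_lit 4) (nat_lit 126) (nat_lit 136) (nat_lit 128)))))) (PT.nd (nat_lit 468) (PT.nd (nat_lit 234) (PT.nd (nat_lit 78) (PT.lf (nat_lit 20368) (nat_lit 3) (nat_lit 268) (nat_lit 2) (nat_lit 127) (nat_lit 136) (nat_lit 127)) (PT.nd (nat_lit 78) (PT.lf (nat_lit 20444) (nat_lit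 6) (nat_lit 269) (nat_lit 2) (nat_lit 128) (nat_lit 136) (nat_lit 126)) (PT.lf (nat_lit 20520) (nat_lit 6) (nat_lit 270) (nat_lit 2) (nat_lit 129) (nat_lit 136) (nat_lit 125)))) (PT.nd (nat_lit 78) (PT.lf (nat_lit 20596) (nat_lit 6) (nat_lit 271) (nat_lit 2) (nat_lit 130) (nat_lit 136) (nat_lit 124)) (PT.nd (nat_lit 78) (PT.lf (nat_lit 20140) (nat_lit 6) (nat_lit 265) (nat_lit 2) (nat_lit 131) (nat_lit 136) (nat_lit 123)) (PT.lf (nat_lit 19608) (nat_lit 6) (nat_lit 258) (nat_lit 2) (nat_lit 132) (nat_lit 136) (nat_lit 122))))) (PT.nd (nat_lit 234) (PT.nd (nat_lit 78) (PT.lf (nat_lit 19000) (nat_lit 6) (nat_lit 250) (nat_lit 2) (nat_lit 133) (nat_lit 136) (nat_lit 121)) (PT.nd (nat_lit 78) (PT.lf (nat_lit 18316) (nat_lit 6) (nat_lit 241) (nat_lit 2) (nat_lit 134) (nat_lit 136) (nat_lit 120)) (PT.lf (nat_lit 17556) (nat_lit 6) (nat_lit 231) (nat_lit 2) (nat_lit 135) (nat_lit 136) (nat_lit 119))))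 (PT.nd (nat_lit 156) (PT.nd (nat_lit 78) (PT.lf (nat_lit 16720) (nat_lit 3) (nat_lit 220) (nat_lit 0) (nat_lit 136) (nat_lit 136) (nat_lit 118)) (PT.lf (nat_lit 15732) (nat_lit 6) (nat_lit 207) (nat_lit 0) (nat_lit 137) (nat_lit 136) (nat_lit 117))) (PT.nd (nat_lit 78) (PT.lf (nat_lit 14668) (nat_lit 6) (nat_lit 193) (nat_lit 0) (nat_lit 138) (nat_lit 136) (nat_lit 116)) (PT.lf (nat_lit 13528) (nat_lit 6) (nat_lit 178) (nat_lit 0) (nat_lit 139) (nat_lit 136) (nat_lit 115))))))) (PT.nd (nat_lit 38376) (PT.nd (nat_lit 468) (PT.nd (nat_lit 234) (PT.nd (nat_lit 78) (PT.lf (nat_lit 12312) (nat_lit 6) (nat_lit 162) (nat_lit 0) (nat_lit 140) (nat_lit 136) (nat_lit 114)) (PT.nd (nat_lit 78) (PT.lf (nat_lit 11704) (nat_lit 6) (nat_lit 154) (nat_lit 0) (nat_lit 141) (nat_lit 136) (nat_lit 113)) (PT.lf (nat_lit 11020) (nat_lit 6) (nat_lit 145) (nat_lit 0) (nat_lit 142) (nat_lit 136) (nat_lit 112)))) (PT.nd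 (nat_lit 78) (PT.lf (nat_lit 10412) (nat_lit 6) (nat_lit 137) (nat_lit 0) (nat_lit 143) (nat_lit 136) (nat_lit 111)) (PT.nd (nat_lit 78) (PT.lf (nat_lit 9804) (nat_lit 6) (nat_lit 129) (nat_lit 0) (nat_lit 144) (nat_lit 136) (nat_lit 110)) (PT.lf (nat_lit 9272) (nat_lit 6) (nat_lit 122) (nat_lit 0) (nat_lit 145) (nat_lit 136) (nat_lit 109))))) (PT.nd (nat_lit 37596) (PT.nd (nat_lit 78) (PT.lf (nat_lit 8740) (nat_lit 6) (nat_lit 115) (nat_lit 0) (nat_lit 146) (nat_lit 136) (nat_lit 108)) (PT.nd (nat_lit 37440) (PT.lf (nat_lit 8284) (nat_lit 6) (nat_lit 109) (nat_lit 0) (nat_lit 147) (nat_lit 136) (nat_lit 107)) (PT.lf (nat_lit 7828) (nat_lit 6) (nat_lit 103) (nat_lit 5) (nat_lit 106) (nat_lit 137) (nat_lit 147)))) (PT.nd (nat_lit 156) (PT.nd (nat_lit 78) (PT.lf (nat_lit 8360) (nat_lit 6) (nat_lit 110) (nat_lit 5) (nat_lit 107) (nat_lit 137) (nat_lit 146)) (PT.lf (nat_lit 8816) (nat_lit 6) (nat_lit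 116) (nat_lit 5) (nat_lit 108) (nat_lit 137) (nat_lit 145))) (PT.nd (nat_lit 78) (PT.lf (nat_lit 9348) (nat_lit 6) (nat_lit 123) (nat_lit 5) (nat_lit 109) (nat_lit 137) (nat_lit 144)) (PT.lf (nat_lit 9880) (nat_lit 6) (nat_lit 130) (nat_lit 5) (nat_lit 110) (nat_lit 137) (nat_lit 143)))))) (PT.nd (nat_lit 468) (PT.nd (nat_lit 234) (PT.nd (nat_lit 78) (PT.lf (nat_lit 10488) (nat_lit 6) (nat_lit 138) (nat_lit 5) (nat_lit 111) (nat_lit 137) (nat_lit 142)) (PT.nd (nat_lit 78) (PT.lf (nat_lit 11096) (nat_lit 6) (nat_lit 146) (nat_lit 5) (nat_lit 112) (nat_lit 137) (nat_lit 141)) (PT.lf (nat_lit 11780) (nat_lit 6) (nat_lit 155) (nat_lit 5) (nat_lit 113) (nat_lit 137) (nat_lit 140)))) (PT.nd (nat_lit 78) (PT.lf (nat_lit 12388) (nat_lit 6) (nat_lit 163) (nat_lit 5) (nat_lit 114) (nat_lit 137) (nat_lit 139)) (PT.nd (nat_lit 78) (PT.lf (nat_lit 13604) (nat_lit 6) (nat_lit 179) (nat_lit 5) (nat_lit 115)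 (nat_lit 137) (nat_lit 138)) (PT.lf (nat_lit 14744) (nat_lit 3) (nat_lit 194) (nat_lit 4) (nat_lit 116) (nat_lit 137) (nat_lit 137))))) (PT.nd (nat_lit 234) (PT.nd (nat_lit 78) (PT.lf (nat_lit 15732) (nat_lit 6) (nat_lit 207) (nat_lit 4) (nat_lit 117) (nat_lit 137) (nat_lit 136)) (PT.nd (nat_lit 78) (PT.lf (nat_lit 16644) (nat_lit 6) (nat_lit 219) (nat_lit 4) (nat_lit 118) (nat_lit 137) (nat_lit 135)) (PT.lf (nat_lit 17480) (nat_lit 6) (nat_lit 230) (nat_lit 4) (nat_lit 119) (nat_lit 137) (nat_lit 134)))) (PT.nd (nat_lit 156) (PT.nd (nat_lit 78) (PT.lf (nat_lit 18240) (nat_lit 6) (nat_lit 240) (nat_lit 4) (nat_lit 120) (nat_lit 137) (nat_lit 133)) (PT.lf (nat_lit 18924) (nat_lit 6) (nat_lit 249) (nat_lit 4) (nat_lit 121) (nat_lit 137) (nat_lit 132))) (PT.nd (nat_lit 78) (PT.lf (nat_lit 19532) (nat_lit 6) (nat_lit 257) (nat_lit 4) (nat_lit 122) (nat_lit 137) (nat_lit 131)) (PT.lf (nat_lit 20064)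 (nat_lit 6) (nat_lit 264) (nat_lit 4) (nat_lit 123) (nat_lit 137) (nat_lit 130))))))))
noncomputable def pc18 : PT := (PT.nd (nat_lit 39234) (PT.nd (nat_lit 936) (PT.nd (nat_lit 468) (PT.nd (nat_lit 234) (PT.nd (nat_lit 78) (PT.lf (nat_lit 19988) (nat_lit 6) (nat_lit 263) (nat_lit 4) (nat_lit 124) (nat_lit 137) (nat_lit 129)) (PT.nd (nat_lit 78) (PT.lf (nat_lit 19912) (nat_lit 6) (nat_lit 262) (nat_lit 4) (nat_lit 125) (nat_lit 137) (nat_lit 128)) (PT.lf (nat_lit 19836) (nat_lit 6) (nat_lit 261) (nat_lit 4) (nat_lit 126) (nat_lit 137) (nat_lit 127)))) (PT.nd (nat_lit 78) (PT.lf (nat_lit 19836) (nat_lit 6) (nat_lit 261) (nat_lit 2) (nat_lit 127) (nat_lit 137) (nat_lit 126)) (PT.nd (nat_lit 78) (PT.lf (nat_lit 19912) (nat_lit 6) (nat_lit 262) (nat_lit 2) (nat_lit 128) (nat_lit 137) (nat_lit 125)) (PT.lf (nat_lit 19988) (nat_lit 6) (nat_lit 263) (nat_lit 2) (nat_lit 129) (nat_lit 137) (nat_lit 124)))))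 (PT.nd (nat_lit 234) (PT.nd (nat_lit 78) (PT.lf (nat_lit 20064) (nat_lit 6) (nat_lit 264) (nat_lit 2) (nat_lit 130) (nat_lit 137) (nat_lit 123)) (PT.nd (nat_lit 78) (PT.lf (nat_lit 19532) (nat_lit 6) (nat_lit 257) (nat_lit 2) (nat_lit 131) (nat_lit 137) (nat_lit 122)) (PT.lf (nat_lit 18924) (nat_lit 6) (nat_lit 249) (nat_lit 2) (nat_lit 132) (nat_lit 137) (nat_lit 121)))) (PT.nd (nat_lit 78) (PT.lf (nat_lit 18240) (nat_lit 6) (nat_lit 240) (nat_lit 2) (nat_lit 133) (nat_lit 137) (nat_lit 120)) (PT.nd (nat_lit 78) (PT.lf (nat_lit 17480) (nat_lit 6) (nat_lit 230) (nat_lit 2) (nat_lit 134) (nat_lit 137) (nat_lit 119)) (PT.lf (nat_lit 16644) (nat_lit 6) (nat_lit 219) (nat_lit 2) (nat_lit 135) (nat_lit 137) (nat_lit 118)))))) (PT.nd (nat_lit 468) (PT.nd (nat_lit 234) (PT.nd (nat_lit 78) (PT.lf (nat_lit 15732) (nat_lit 6) (nat_lit 207) (nat_lit 2) (nat_lit 136) (nat_lit 137) (nat_lit 117)) (PT.nd (nat_lit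 78) (PT.lf (nat_lit 14744) (nat_lit 3) (nat_lit 194) (nat_lit 0) (nat_lit 137) (nat_lit 137) (nat_lit 116)) (PT.lf (nat_lit 13604) (nat_lit 6) (nat_lit 179) (nat_lit 0) (nat_lit 138) (nat_lit 137) (nat_lit 115)))) (PT.nd (nat_lit 78) (PT.lf (nat_lit 12388) (nat_lit 6) (nat_lit 163) (nat_lit 0) (nat_lit 139) (nat_lit 137) (nat_lit 114)) (PT.nd (nat_lit 78) (PT.lf (nat_lit 11780) (nat_lit 6) (nat_lit 155) (nat_lit 0) (nat_lit 140) (nat_lit 137) (nat_lit 113)) (PT.lf (nat_lit 11096) (nat_lit 6) (nat_lit 146) (nat_lit 0) (nat_lit 141) (nat_lit 137) (nat_lit 112))))) (PT.nd (nat_lit 234) (PT.nd (nat_lit 78) (PT.lf (nat_lit 10488) (nat_lit 6) (nat_lit 138) (nat_lit 0) (nat_lit 142) (nat_lit 137) (nat_lit 111)) (PT.nd (nat_lit 78) (PT.lf (nat_lit 9880) (nat_lit 6) (nat_lit 130) (nat_lit 0) (nat_lit 143) (nat_lit 137) (nat_lit 110)) (PT.lf (nat_lit 9348) (nat_lit 6) (nat_lit 123) (nat_lit 0) (nat_lit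 144) (nat_lit 137) (nat_lit 109)))) (PT.nd (nat_lit 156) (PT.nd (nat_lit 78) (PT.lf (nat_lit 8816) (nat_lit 6) (nat_lit 116) (nat_lit 0) (nat_lit 145) (nat_lit 137) (nat_lit 108)) (PT.lf (nat_lit 8360) (nat_lit 6) (nat_lit 110) (nat_lit 0) (nat_lit 146) (nat_lit 137) (nat_lit 107))) (PT.nd (nat_lit 37362) (PT.lf (nat_lit 7828) (nat_lit 6) (nat_lit 103) (nat_lit 0) (nat_lit 147) (nat_lit 137) (nat_lit 106)) (PT.lf (nat_lit 7448) (nat_lit 6) (nat_lit 98) (nat_lit 5) (nat_lit 105) (nat_lit 138) (nat_lit 147))))))) (PT.nd (nat_lit 1014) (PT.nd (nat_lit 468) (PT.nd (nat_lit 234) (PT.nd (nat_lit 78) (PT.lf (nat_lit 7904) (nat_lit 6) (nat_lit 104) (nat_lit 5) (nat_lit 106) (nat_lit 138) (nat_lit 146)) (PT.nd (nat_lit 78) (PT.lf (nat_lit 8436) (nat_lit 6) (nat_lit 111) (nat_lit 5) (nat_lit 107) (nat_lit 138) (nat_lit 145)) (PT.lf (nat_lit 8892) (nat_lit 6) (nat_lit 117) (nat_lit 5) (nat_lit 108) (nat_lit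 138) (nat_lit 144)))) (PT.nd (nat_lit 78) (PT.lf (nat_lit 9424) (nat_lit 6) (nat_lit 124) (nat_lit 5) (nat_lit 109) (nat_lit 138) (nat_lit 143)) (PT.nd (nat_lit 78) (PT.lf (nat_lit 9956) (nat_lit 6) (nat_lit 131) (nat_lit 5) (nat_lit 110) (nat_lit 138) (nat_lit 142)) (PT.lf (nat_lit 10564) (nat_lit 6) (nat_lit 139) (nat_lit 5) (nat_lit 111) (nat_lit 138) (nat_lit 141))))) (PT.nd (nat_lit 234) (PT.nd (nat_lit 78) (PT.lf (nat_lit 11172) (nat_lit 6) (nat_lit 147) (nat_lit 5) (nat_lit 112) (nat_lit 138) (nat_lit 140)) (PT.nd (nat_lit 78) (PT.lf (nat_lit 11856) (nat_lit 6) (nat_lit 156) (nat_lit 5) (nat_lit 113) (nat_lit 138) (nat_lit 139)) (PT.lf (nat_lit 12464) (nat_lit 3) (nat_lit 164) (nat_lit 4) (nat_lit 114) (nat_lit 138) (nat_lit 138)))) (PT.nd (nat_lit 156) (PT.nd (nat_lit 78) (PT.lf (nat_lit 13604) (nat_lit 6) (nat_lit 179) (nat_lit 4) (nat_lit 115) (nat_lit 138) (nat_lit 137)) (PT.lf (nat_lit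 14668) (nat_lit 6) (nat_lit 193) (nat_lit 4) (nat_lit 116) (nat_lit 138) (nat_lit 136))) (PT.nd (nat_lit 78) (PT.lf (nat_lit 15656) (nat_lit 6) (nat_lit 206) (nat_lit 4) (nat_lit 117) (nat_lit 138) (nat_lit 135)) (PT.lf (nat_lit 16568) (nat_lit 6) (nat_lit 218) (nat_lit 4) (nat_lit 118) (nat_lit 138) (nat_lit 134)))))) (PT.nd (nat_lit 468) (PT.nd (nat_lit 234) (PT.nd (nat_lit 78) (PT.lf (nat_lit 17404) (nat_lit 6) (nat_lit 229) (nat_lit 4) (nat_lit 119) (nat_lit 138) (nat_lit 133)) (PT.nd (nat_lit 78) (PT.lf (nat_lit 18164) (nat_lit 6) (nat_lit 239) (nat_lit 4) (nat_lit 120) (nat_lit 138) (nat_lit 132)) (PT.lf (nat_lit 18848) (nat_lit 6) (nat_lit 248) (nat_lit 4) (nat_lit 121) (nat_lit 138) (nat_lit 131)))) (PT.nd (nat_lit 78) (PT.lf (nat_lit 19456) (nat_lit 6) (nat_lit 256) (nat_lit 4) (nat_lit 122) (nat_lit 138) (nat_lit 130)) (PT.nd (nat_lit 78) (PT.lf (nat_lit 19380) (nat_lit 6) (nat_lit 255)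 (nat_lit 4) (nat_lit 123) (nat_lit 138) (nat_lit 129)) (PT.lf (nat_lit 19304) (nat_lit 6) (nat_lit 254) (nat_lit 4) (nat_lit 124) (nat_lit 138) (nat_lit 128))))) (PT.nd (nat_lit 234) (PT.nd (nat_lit 78) (PT.lf (nat_lit 19228) (nat_lit 6) (nat_lit 253) (nat_lit 4) (nat_lit 125) (nat_lit 138) (nat_lit 127)) (PT.nd (nat_lit 78) (PT.lf (nat_lit 19152) (nat_lit 3) (nat_lit 252) (nat_lit 2) (nat_lit 126) (nat_lit 138) (nat_lit 126)) (PT.lf (nat_lit 19228) (nat_lit 6) (nat_lit 253) (nat_lit 2) (nat_lit 127) (nat_lit 138) (nat_lit 125)))) (PT.nd (nat_lit 156) (PT.nd (nat_lit 78) (PT.lf (nat_lit 19304) (nat_lit 6) (nat_lit 254) (nat_lit 2) (nat_lit 128) (nat_lit 138) (nat_lit 124)) (PT.lf (nat_lit 19380) (nat_lit 6) (nat_lit 255) (nat_lit 2) (nat_lit 129) (nat_lit 138) (nat_lit 123))) (PT.nd (nat_lit 78) (PT.lf (nat_lit 19456) (nat_lit 6) (nat_lit 256) (nat_lit 2) (nat_lit 130) (nat_lit 138) (nat_lit 122))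 (PT.lf (nat_lit 18848) (nat_lit 6) (nat_lit 248) (nat_lit 2) (nat_lit 131) (nat_lit 138) (nat_lit 121))))))))
noncomputable def pc19 : PT := (PT.nd (nat_lit 39078) (PT.nd (nat_lit 936) (PT.nd (nat_lit 468) (PT.nd (nat_lit 234) (PT.nd (nat_lit 78) (PT.lf (nat_lit 18164) (nat_lit 6) (nat_lit 239) (nat_lit 2) (nat_lit 132) (nat_lit 138) (nat_lit 120)) (PT.nd (nat_lit 78) (PT.lf (nat_lit 17404) (nat_lit 6) (nat_lit 229) (nat_lit 2) (nat_lit 133) (nat_lit 138) (nat_lit 119)) (PT.lf (nat_lit 16568) (nat_lit 6) (nat_lit 218) (nat_lit 2) (nat_lit 134) (nat_lit 138) (nat_lit 118)))) (PT.nd (nat_lit 78) (PT.lf (nat_lit 15656) (nat_lit 6) (nat_lit 206) (nat_lit 2) (nat_lit 135) (nat_lit 138) (nat_lit 117)) (PT.nd (nat_lit 78) (PT.lf (nat_lit 14668) (nat_lit 6) (nat_lit 193) (nat_lit 2) (nat_lit 136) (nat_lit 138) (nat_lit 116)) (PT.lf (nat_lit 13604) (nat_lit 6) (nat_lit 179) (nat_lit 2) (nat_lit 137) (nat_lit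 138) (nat_lit 115))))) (PT.nd (nat_lit 234) (PT.nd (nat_lit 78) (PT.lf (nat_lit 12464) (nat_lit 3) (nat_lit 164) (nat_lit 0) (nat_lit 138) (nat_lit 138) (nat_lit 114)) (PT.nd (nat_lit 78) (PT.lf (nat_lit 11856) (nat_lit 6) (nat_lit 156) (nat_lit 0) (nat_lit 139) (nat_lit 138) (nat_lit 113)) (PT.lf (nat_lit 11172) (nat_lit 6) (nat_lit 147) (nat_lit 0) (nat_lit 140) (nat_lit 138) (nat_lit 112)))) (PT.nd (nat_lit 78) (PT.lf (nat_lit 10564) (nat_lit 6) (nat_lit 139) (nat_lit 0) (nat_lit 141) (nat_lit 138) (nat_lit 111)) (PT.nd (nat_lit 78) (PT.lf (nat_lit 9956) (nat_lit 6) (nat_lit 131) (nat_lit 0) (nat_lit 142) (nat_lit 138) (nat_lit 110)) (PT.lf (nat_lit 9424) (nat_lit 6) (nat_lit 124) (nat_lit 0) (nat_lit 143) (nat_lit 138) (nat_lit 109)))))) (PT.nd (nat_lit 37596) (PT.nd (nat_lit 234) (PT.nd (nat_lit 78) (PT.lf (nat_lit 8892) (nat_lit 6) (nat_lit 117) (nat_lit 0) (nat_lit 144) (nat_lit 138) (nat_lit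 108)) (PT.nd (nat_lit 78) (PT.lf (nat_lit 8436) (nat_lit 6) (nat_lit 111) (nat_lit 0) (nat_lit 145) (nat_lit 138) (nat_lit 107)) (PT.lf (nat_lit 7904) (nat_lit 6) (nat_lit 104) (nat_lit 0) (nat_lit 146) (nat_lit 138) (nat_lit 106)))) (PT.nd (nat_lit 37206) (PT.lf (nat_lit 7448) (nat_lit 6) (nat_lit 98) (nat_lit 0) (nat_lit 147) (nat_lit 138) (nat_lit 105)) (PT.nd (nat_lit 78) (PT.lf (nat_lit 6688) (nat_lit 6) (nat_lit 88) (nat_lit 5) (nat_lit 103) (nat_lit 139) (nat_lit 148)) (PT.lf (nat_lit 7068) (nat_lit 6) (nat_lit 93) (nat_lit 5) (nat_lit 104) (nat_lit 139) (nat_lit 147))))) (PT.nd (nat_lit 234) (PT.nd (nat_lit 78) (PT.lf (nat_lit 7524) (nat_lit 6) (nat_lit 99) (nat_lit 5) (nat_lit 105) (nat_lit 139) (nat_lit 146)) (PT.nd (nat_lit 78) (PT.lf (nat_lit 7980) (nat_lit 6) (nat_lit 105) (nat_lit 5) (nat_lit 106) (nat_lit 139) (nat_lit 145)) (PT.lf (nat_lit 8512) (nat_lit 6) (nat_lit 112) (nat_lit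 5) (nat_lit 107) (nat_lit 139) (nat_lit 144)))) (PT.nd (nat_lit 156) (PT.nd (nat_lit 78) (PT.lf (nat_lit 8968) (nat_lit 6) (nat_lit 118) (nat_lit 5) (nat_lit 108) (nat_lit 139) (nat_lit 143)) (PT.lf (nat_lit 9500) (nat_lit 6) (nat_lit 125) (nat_lit 5) (nat_lit 109) (nat_lit 139) (nat_lit 142))) (PT.nd (nat_lit 78) (PT.lf (nat_lit 10032) (nat_lit 6) (nat_lit 132) (nat_lit 5) (nat_lit 110) (nat_lit 139) (nat_lit 141)) (PT.lf (nat_lit 10640) (nat_lit 6) (nat_lit 140) (nat_lit 5) (nat_lit 111) (nat_lit 139) (nat_lit 140))))))) (PT.nd (nat_lit 1014) (PT.nd (nat_lit 468) (PT.nd (nat_lit 234) (PT.nd (nat_lit 78) (PT.lf (nat_lit 11248) (nat_lit 3) (nat_lit 148) (nat_lit 4) (nat_lit 112) (nat_lit 139) (nat_lit 139)) (PT.nd (nat_lit 78) (PT.lf (nat_lit 11856) (nat_lit 6) (nat_lit 156) (nat_lit 4) (nat_lit 113) (nat_lit 139) (nat_lit 138)) (PT.lf (nat_lit 12388) (nat_lit 6) (nat_lit 163) (nat_lit 4) (nat_lit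 114) (nat_lit 139) (nat_lit 137)))) (PT.nd (nat_lit 78) (PT.lf (nat_lit 13528) (nat_lit 6) (nat_lit 178) (nat_lit 4) (nat_lit 115) (nat_lit 139) (nat_lit 136)) (PT.nd (nat_lit 78) (PT.lf (nat_lit 14592) (nat_lit 6) (nat_lit 192) (nat_lit 4) (nat_lit 116) (nat_lit 139) (nat_lit 135)) (PT.lf (nat_lit 15580) (nat_lit 6) (nat_lit 205) (nat_lit 4) (nat_lit 117) (nat_lit 139) (nat_lit 134))))) (PT.nd (nat_lit 234) (PT.nd (nat_lit 78) (PT.lf (nat_lit 16492) (nat_lit 6) (nat_lit 217) (nat_lit 4) (nat_lit 118) (nat_lit 139) (nat_lit 133)) (PT.nd (nat_lit 78) (PT.lf (nat_lit 17328) (nat_lit 6) (nat_lit 228) (nat_lit 4) (nat_lit 119) (nat_lit 139) (nat_lit 132)) (PT.lf (nat_lit 18088) (nat_lit 6) (nat_lit 238) (nat_lit 4) (nat_lit 120) (nat_lit 139) (nat_lit 131)))) (PT.nd (nat_lit 156) (PT.nd (nat_lit 78) (PT.lf (nat_lit 18772) (nat_lit 6) (nat_lit 247) (nat_lit 4) (nat_lit 121) (nat_lit 139) (nat_lit 130))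 (PT.lf (nat_lit 18696) (nat_lit 6) (nat_lit 246) (nat_lit 4) (nat_lit 122) (nat_lit 139) (nat_lit 129))) (PT.nd (nat_lit 78) (PT.lf (nat_lit 18620) (nat_lit 6) (nat_lit 245) (nat_lit 4) (nat_lit 123) (nat_lit 139) (nat_lit 128)) (PT.lf (nat_lit 18544) (nat_lit 6) (nat_lit 244) (nat_lit 4) (nat_lit 124) (nat_lit 139) (nat_lit 127)))))) (PT.nd (nat_lit 468) (PT.nd (nat_lit 234) (PT.nd (nat_lit 78) (PT.lf (nat_lit 18468) (nat_lit 6) (nat_lit 243) (nat_lit 4) (nat_lit 125) (nat_lit 139) (nat_lit 126)) (PT.nd (nat_lit 78) (PT.lf (nat_lit 18468) (nat_lit 6) (nat_lit 243) (nat_lit 2) (nat_lit 126) (nat_lit 139) (nat_lit 125)) (PT.lf (nat_lit 18544) (nat_lit 6) (nat_lit 244) (nat_lit 2) (nat_lit 127) (nat_lit 139) (nat_lit 124)))) (PT.nd (nat_lit 78) (PT.lf (nat_lit 18620) (nat_lit 6) (nat_lit 245) (nat_lit 2) (nat_lit 128) (nat_lit 139) (nat_lit 123)) (PT.nd (nat_lit 78) (PT.lf (nat_lit 18696) (nat_lit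 6) (nat_lit 246) (nat_lit 2) (nat_lit 129) (nat_lit 139) (nat_lit 122)) (PT.lf (nat_lit 18772) (nat_lit 6) (nat_lit 247) (nat_lit 2) (nat_lit 130) (nat_lit 139) (nat_lit 121))))) (PT.nd (nat_lit 234) (PT.nd (nat_lit 78) (PT.lf (nat_lit 18088) (nat_lit 6) (nat_lit 238) (nat_lit 2) (nat_lit 131) (nat_lit 139) (nat_lit 120)) (PT.nd (nat_lit 78) (PT.lf (nat_lit 17328) (nat_lit 6) (nat_lit 228) (nat_lit 2) (nat_lit 132) (nat_lit 139) (nat_lit 119)) (PT.lf (nat_lit 16492) (nat_lit 6) (nat_lit 217) (nat_lit 2) (nat_lit 133) (nat_lit 139) (nat_lit 118)))) (PT.nd (nat_lit 156) (PT.nd (nat_lit 78) (PT.lf (nat_lit 15580) (nat_lit 6) (nat_lit 205) (nat_lit 2) (nat_lit 134) (nat_lit 139) (nat_lit 117)) (PT.lf (nat_lit 14592) (nat_lit 6) (nat_lit 192) (nat_lit 2) (nat_lit 135) (nat_lit 139) (nat_lit 116))) (PT.nd (nat_lit 78) (PT.lf (nat_lit 13528) (nat_lit 6) (nat_lit 178) (nat_lit 2) (nat_lit 136) (nat_lit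 139) (nat_lit 115)) (PT.lf (nat_lit 12388) (nat_lit 6) (nat_lit 163) (nat_lit 2) (nat_lit 137) (nat_lit 139) (nat_lit 114))))))))
noncomputable def pc20 : PT := (PT.nd (nat_lit 38922) (PT.nd (nat_lit 37908) (PT.nd (nat_lit 468) (PT.nd (nat_lit 234) (PT.nd (nat_lit 78) (PT.lf (nat_lit 11856) (nat_lit 6) (nat_lit 156) (nat_lit 2) (nat_lit 138) (nat_lit 139) (nat_lit 113)) (PT.nd (nat_lit 78) (PT.lf (nat_lit 11248) (nat_lit 3) (nat_lit 148) (nat_lit 0) (nat_lit 139) (nat_lit 139) (nat_lit 112)) (PT.lf (nat_lit 10640) (nat_lit 6) (nat_lit 140) (nat_lit 0) (nat_lit 140) (nat_lit 139) (nat_lit 111)))) (PT.nd (nat_lit 78) (PT.lf (nat_lit 10032) (nat_lit 6) (nat_lit 132) (nat_lit 0) (nat_lit 141) (nat_lit 139) (nat_lit 110)) (PT.nd (nat_lit 78) (PT.lf (nat_lit 9500) (nat_lit 6) (nat_lit 125) (nat_lit 0) (nat_lit 142) (nat_lit 139) (nat_lit 109)) (PT.lf (nat_lit 8968) (nat_lit 6) (nat_lit 118) (nat_lit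 0) (nat_lit 143) (nat_lit 139) (nat_lit 108))))) (PT.nd (nat_lit 234) (PT.nd (nat_lit 78) (PT.lf (nat_lit 8512) (nat_lit 6) (nat_lit 112) (nat_lit 0) (nat_lit 144) (nat_lit 139) (nat_lit 107)) (PT.nd (nat_lit 78) (PT.lf (nat_lit 7980) (nat_lit 6) (nat_lit 105) (nat_lit 0) (nat_lit 145) (nat_lit 139) (nat_lit 106)) (PT.lf (nat_lit 7524) (nat_lit 6) (nat_lit 99) (nat_lit 0) (nat_lit 146) (nat_lit 139) (nat_lit 105)))) (PT.nd (nat_lit 78) (PT.lf (nat_lit 7068) (nat_lit 6) (nat_lit 93) (nat_lit 0) (nat_lit 147) (nat_lit 139) (nat_lit 104)) (PT.nd (nat_lit 37050) (PT.lf (nat_lit 6688) (nat_lit 6) (nat_lit 88) (nat_lit 0) (nat_lit 148) (nat_lit 139) (nat_lit 103)) (PT.lf (nat_lit 6308) (nat_lit 6) (nat_lit 83) (nat_lit 5) (nat_lit 102) (nat_lit 140) (nat_lit 148)))))) (PT.nd (nat_lit 468) (PT.nd (nat_lit 234) (PT.nd (nat_lit 78) (PT.lf (nat_lit 6764) (nat_lit 6) (nat_lit 89) (nat_lit 5) (nat_lit 103)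 (nat_lit 140) (nat_lit 147)) (PT.nd (nat_lit 78) (PT.lf (nat_lit 7144) (nat_lit 6) (nat_lit 94) (nat_lit 5) (nat_lit 104) (nat_lit 140) (nat_lit 146)) (PT.lf (nat_lit 7600) (nat_lit 6) (nat_lit 100) (nat_lit 5) (nat_lit 105) (nat_lit 140) (nat_lit 145)))) (PT.nd (nat_lit 78) (PT.lf (nat_lit 8056) (nat_lit 6) (nat_lit 106) (nat_lit 5) (nat_lit 106) (nat_lit 140) (nat_lit 144)) (PT.nd (nat_lit 78) (PT.lf (nat_lit 8588) (nat_lit 6) (nat_lit 113) (nat_lit 5) (nat_lit 107) (nat_lit 140) (nat_lit 143)) (PT.lf (nat_lit 9044) (nat_lit 6) (nat_lit 119) (nat_lit 5) (nat_lit 108) (nat_lit 140) (nat_lit 142))))) (PT.nd (nat_lit 234) (PT.nd (nat_lit 78) (PT.lf (nat_lit 9576) (nat_lit 6) (nat_lit 126) (nat_lit 5) (nat_lit 109) (nat_lit 140) (nat_lit 141)) (PT.nd (nat_lit 78) (PT.lf (nat_lit 10108) (nat_lit 3) (nat_lit 133) (nat_lit 4) (nat_lit 110) (nat_lit 140) (nat_lit 140)) (PT.lf (nat_lit 10640) (nat_lit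 6) (nat_lit 140) (nat_lit 4) (nat_lit 111) (nat_lit 140) (nat_lit 139)))) (PT.nd (nat_lit 156) (PT.nd (nat_lit 78) (PT.lf (nat_lit 11172) (nat_lit 6) (nat_lit 147) (nat_lit 4) (nat_lit 112) (nat_lit 140) (nat_lit 138)) (PT.lf (nat_lit 11780) (nat_lit 6) (nat_lit 155) (nat_lit 4) (nat_lit 113) (nat_lit 140) (nat_lit 137))) (PT.nd (nat_lit 78) (PT.lf (nat_lit 12312) (nat_lit 6) (nat_lit 162) (nat_lit 4) (nat_lit 114) (nat_lit 140) (nat_lit 136)) (PT.lf (nat_lit 13452) (nat_lit 6) (nat_lit 177) (nat_lit 4) (nat_lit 115) (nat_lit 140) (nat_lit 135))))))) (PT.nd (nat_lit 1014) (PT.nd (nat_lit 468) (PT.nd (nat_lit 234) (PT.nd (nat_lit 78) (PT.lf (nat_lit 14516) (nat_lit 6) (nat_lit 191) (nat_lit 4) (nat_lit 116) (nat_lit 140) (nat_lit 134)) (PT.nd (nat_lit 78) (PT.lf (nat_lit 15504) (nat_lit 6) (nat_lit 204) (nat_lit 4) (nat_lit 117) (nat_lit 140) (nat_lit 133)) (PT.lf (nat_lit 16416) (nat_lit 6) (nat_lit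 216) (nat_lit 4) (nat_lit 118) (nat_lit 140) (nat_lit 132)))) (PT.nd (nat_lit 78) (PT.lf (nat_lit 17252) (nat_lit 6) (nat_lit 227) (nat_lit 4) (nat_lit 119) (nat_lit 140) (nat_lit 131)) (PT.nd (nat_lit 78) (PT.lf (nat_lit 18012) (nat_lit 6) (nat_lit 237) (nat_lit 4) (nat_lit 120) (nat_lit 140) (nat_lit 130)) (PT.lf (nat_lit 17936) (nat_lit 6) (nat_lit 236) (nat_lit 4) (nat_lit 121) (nat_lit 140) (nat_lit 129))))) (PT.nd (nat_lit 234) (PT.nd (nat_lit 78) (PT.lf (nat_lit 17860) (nat_lit 6) (nat_lit 235) (nat_lit 4) (nat_lit 122) (nat_lit 140) (nat_lit 128)) (PT.nd (nat_lit 78) (PT.lf (nat_lit 17784) (nat_lit 6) (nat_lit 234) (nat_lit 4) (nat_lit 123) (nat_lit 140) (nat_lit 127)) (PT.lf (nat_lit 17708) (nat_lit 6) (nat_lit 233) (nat_lit 4) (nat_lit 124) (nat_lit 140) (nat_lit 126)))) (PT.nd (nat_lit 156) (PT.nd (nat_lit 78) (PT.lf (nat_lit 17632) (nat_lit 3) (nat_lit 232) (nat_lit 2) (nat_lit 125)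 (nat_lit 140) (nat_lit 125)) (PT.lf (nat_lit 17708) (nat_lit 6) (nat_lit 233) (nat_lit 2) (nat_lit 126) (nat_lit 140) (nat_lit 124))) (PT.nd (nat_lit 78) (PT.lf (nat_lit 17784) (nat_lit 6) (nat_lit 234) (nat_lit 2) (nat_lit 127) (nat_lit 140) (nat_lit 123)) (PT.lf (nat_lit 17860) (nat_lit 6) (nat_lit 235) (nat_lit 2) (nat_lit 128) (nat_lit 140) (nat_lit 122)))))) (PT.nd (nat_lit 468) (PT.nd (nat_lit 234) (PT.nd (nat_lit 78) (PT.lf (nat_lit 17936) (nat_lit 6) (nat_lit 236) (nat_lit 2) (nat_lit 129) (nat_lit 140) (nat_lit 121)) (PT.nd (nat_lit 78) (PT.lf (nat_lit 18012) (nat_lit 6) (nat_lit 237) (nat_lit 2) (nat_lit 130) (nat_lit 140) (nat_lit 120)) (PT.lf (nat_lit 17252) (nat_lit 6) (nat_lit 227) (nat_lit 2) (nat_lit 131) (nat_lit 140) (nat_lit 119)))) (PT.nd (nat_lit 78) (PT.lf (nat_lit 16416) (nat_lit 6) (nat_lit 216) (nat_lit 2) (nat_lit 132) (nat_lit 140) (nat_lit 118)) (PT.nd (nat_lit 78)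 (PT.lf (nat_lit 15504) (nat_lit 6) (nat_lit 204) (nat_lit 2) (nat_lit 133) (nat_lit 140) (nat_lit 117)) (PT.lf (nat_lit 14516) (nat_lit 6) (nat_lit 191) (nat_lit 2) (nat_lit 134) (nat_lit 140) (nat_lit 116))))) (PT.nd (nat_lit 234) (PT.nd (nat_lit 78) (PT.lf (nat_lit 13452) (nat_lit 6) (nat_lit 177) (nat_lit 2) (nat_lit 135) (nat_lit 140) (nat_lit 115)) (PT.nd (nat_lit 78) (PT.lf (nat_lit 12312) (nat_lit 6) (nat_lit 162) (nat_lit 2) (nat_lit 136) (nat_lit 140) (nat_lit 114)) (PT.lf (nat_lit 11780) (nat_lit 6) (nat_lit 155) (nat_lit 2) (nat_lit 137) (nat_lit 140) (nat_lit 113)))) (PT.nd (nat_lit 156) (PT.nd (nat_lit 78) (PT.lf (nat_lit 11172) (nat_lit 6) (nat_lit 147) (nat_lit 2) (nat_lit 138) (nat_lit 140) (nat_lit 112)) (PT.lf (nat_lit 10640) (nat_lit 6) (nat_lit 140) (nat_lit 2) (nat_lit 139) (nat_lit 140) (nat_lit 111))) (PT.nd (nat_lit 78) (PT.lf (nat_lit 10108) (nat_lit 3) (nat_lit 133) (nat_lit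 0) (nat_lit 140) (nat_lit 140) (nat_lit 110)) (PT.lf (nat_lit 9576) (nat_lit 6) (nat_lit 126) (nat_lit 0) (nat_lit 141) (nat_lit 140) (nat_lit 109))))))))
noncomputable def pc21 : PT := (PT.nd (nat_lit 38766) (PT.nd (nat_lit 37752) (PT.nd (nat_lit 468) (PT.nd (nat_lit 234) (PT.nd (nat_lit 78) (PT.lf (nat_lit 9044) (nat_lit 6) (nat_lit 119) (nat_lit 0) (nat_lit 142) (nat_lit 140) (nat_lit 108)) (PT.nd (nat_lit 78) (PT.lf (nat_lit 8588) (nat_lit 6) (nat_lit 113) (nat_lit 0) (nat_lit 143) (nat_lit 140) (nat_lit 107)) (PT.lf (nat_lit 8056) (nat_lit 6) (nat_lit 106) (nat_lit 0) (nat_lit 144) (nat_lit 140) (nat_lit 106)))) (PT.nd (nat_lit 78) (PT.lf (nat_lit 7600) (nat_lit 6) (nat_lit 100) (nat_lit 0) (nat_lit 145) (nat_lit 140) (nat_lit 105)) (PT.nd (nat_lit 78) (PT.lf (nat_lit 7144) (nat_lit 6) (nat_lit 94) (nat_lit 0) (nat_lit 146) (nat_lit 140) (nat_lit 104)) (PT.lf (nat_lit 6764) (nat_lit 6) (nat_lit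 89) (nat_lit 0) (nat_lit 147) (nat_lit 140) (nat_lit 103))))) (PT.nd (nat_lit 37050) (PT.nd (nat_lit 36894) (PT.lf (nat_lit 6308) (nat_lit 6) (nat_lit 83) (nat_lit 0) (nat_lit 148) (nat_lit 140) (nat_lit 102)) (PT.nd (nat_lit 78) (PT.lf (nat_lit 5624) (nat_lit 6) (nat_lit 74) (nat_lit 5) (nat_lit 100) (nat_lit 141) (nat_lit 149)) (PT.lf (nat_lit 6004) (nat_lit 6) (nat_lit 79) (nat_lit 5) (nat_lit 101) (nat_lit 141) (nat_lit 148)))) (PT.nd (nat_lit 78) (PT.lf (nat_lit 6384) (nat_lit 6) (nat_lit 84) (nat_lit 5) (nat_lit 102) (nat_lit 141) (nat_lit 147)) (PT.nd (nat_lit 78) (PT.lf (nat_lit 6840) (nat_lit 6) (nat_lit 90) (nat_lit 5) (nat_lit 103) (nat_lit 141) (nat_lit 146)) (PT.lf (nat_lit 7220) (nat_lit 6) (nat_lit 95) (nat_lit 5) (nat_lit 104) (nat_lit 141) (nat_lit 145)))))) (PT.nd (nat_lit 468) (PT.nd (nat_lit 234) (PT.nd (nat_lit 78) (PT.lf (nat_lit 7676) (nat_lit 6) (nat_lit 101) (nat_lit 5)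 (nat_lit 105) (nat_lit 141) (nat_lit 144)) (PT.nd (nat_lit 78) (PT.lf (nat_lit 8132) (nat_lit 6) (nat_lit 107) (nat_lit 5) (nat_lit 106) (nat_lit 141) (nat_lit 143)) (PT.lf (nat_lit 8664) (nat_lit 6) (nat_lit 114) (nat_lit 5) (nat_lit 107) (nat_lit 141) (nat_lit 142)))) (PT.nd (nat_lit 78) (PT.lf (nat_lit 9120) (nat_lit 3) (nat_lit 120) (nat_lit 4) (nat_lit 108) (nat_lit 141) (nat_lit 141)) (PT.nd (nat_lit 78) (PT.lf (nat_lit 9576) (nat_lit 6) (nat_lit 126) (nat_lit 4) (nat_lit 109) (nat_lit 141) (nat_lit 140)) (PT.lf (nat_lit 10032) (nat_lit 6) (nat_lit 132) (nat_lit 4) (nat_lit 110) (nat_lit 141) (nat_lit 139))))) (PT.nd (nat_lit 234) (PT.nd (nat_lit 78) (PT.lf (nat_lit 10564) (nat_lit 6) (nat_lit 139) (nat_lit 4) (nat_lit 111) (nat_lit 141) (nat_lit 138)) (PT.nd (nat_lit 78) (PT.lf (nat_lit 11096) (nat_lit 6) (nat_lit 146) (nat_lit 4) (nat_lit 112) (nat_lit 141) (nat_lit 137)) (PT.lf (nat_lit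 11704) (nat_lit 6) (nat_lit 154) (nat_lit 4) (nat_lit 113) (nat_lit 141) (nat_lit 136)))) (PT.nd (nat_lit 156) (PT.nd (nat_lit 78) (PT.lf (nat_lit 12236) (nat_lit 6) (nat_lit 161) (nat_lit 4) (nat_lit 114) (nat_lit 141) (nat_lit 135)) (PT.lf (nat_lit 13376) (nat_lit 6) (nat_lit 176) (nat_lit 4) (nat_lit 115) (nat_lit 141) (nat_lit 134))) (PT.nd (nat_lit 78) (PT.lf (nat_lit 14440) (nat_lit 6) (nat_lit 190) (nat_lit 4) (nat_lit 116) (nat_lit 141) (nat_lit 133)) (PT.lf (nat_lit 15428) (nat_lit 6) (nat_lit 203) (nat_lit 4) (nat_lit 117) (nat_lit 141) (nat_lit 132))))))) (PT.nd (nat_lit 1014) (PT.nd (nat_lit 468) (PT.nd (nat_lit 234) (PT.nd (nat_lit 78) (PT.lf (nat_lit 16340) (nat_lit 6) (nat_lit 215) (nat_lit 4) (nat_lit 118) (nat_lit 141) (nat_lit 131)) (PT.nd (nat_lit 78) (PT.lf (nat_lit 17176) (nat_lit 6) (nat_lit 226) (nat_lit 4) (nat_lit 119) (nat_lit 141) (nat_lit 130)) (PT.lf (nat_lit 17100)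 (nat_lit 6) (nat_lit 225) (nat_lit 4) (nat_lit 120) (nat_lit 141) (nat_lit 129)))) (PT.nd (nat_lit 78) (PT.lf (nat_lit 17024) (nat_lit 6) (nat_lit 224) (nat_lit 4) (nat_lit 121) (nat_lit 141) (nat_lit 128)) (PT.nd (nat_lit 78) (PT.lf (nat_lit 16948) (nat_lit 6) (nat_lit 223) (nat_lit 4) (nat_lit 122) (nat_lit 141) (nat_lit 127)) (PT.lf (nat_lit 16872) (nat_lit 6) (nat_lit 222) (nat_lit 4) (nat_lit 123) (nat_lit 141) (nat_lit 126))))) (PT.nd (nat_lit 234) (PT.nd (nat_lit 78) (PT.lf (nat_lit 16796) (nat_lit 6) (nat_lit 221) (nat_lit 4) (nat_lit 124) (nat_lit 141) (nat_lit 125)) (PT.nd (nat_lit 78) (PT.lf (nat_lit 16796) (nat_lit 6) (nat_lit 221) (nat_lit 2) (nat_lit 125) (nat_lit 141) (nat_lit 124)) (PT.lf (nat_lit 16872) (nat_lit 6) (nat_lit 222) (nat_lit 2) (nat_lit 126) (nat_lit 141) (nat_lit 123)))) (PT.nd (nat_lit 156) (PT.nd (nat_lit 78) (PT.lf (nat_lit 16948) (nat_lit 6) (nat_lit 223) (nat_lit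 2) (nat_lit 127) (nat_lit 141) (nat_lit 122)) (PT.lf (nat_lit 17024) (nat_lit 6) (nat_lit 224) (nat_lit 2) (nat_lit 128) (nat_lit 141) (nat_lit 121))) (PT.nd (nat_lit 78) (PT.lf (nat_lit 17100) (nat_lit 6) (nat_lit 225) (nat_lit 2) (nat_lit 129) (nat_lit 141) (nat_lit 120)) (PT.lf (nat_lit 17176) (nat_lit 6) (nat_lit 226) (nat_lit 2) (nat_lit 130) (nat_lit 141) (nat_lit 119)))))) (PT.nd (nat_lit 468) (PT.nd (nat_lit 234) (PT.nd (nat_lit 78) (PT.lf (nat_lit 16340) (nat_lit 6) (nat_lit 215) (nat_lit 2) (nat_lit 131) (nat_lit 141) (nat_lit 118)) (PT.nd (nat_lit 78) (PT.lf (nat_lit 15428) (nat_lit 6) (nat_lit 203) (nat_lit 2) (nat_lit 132) (nat_lit 141) (nat_lit 117)) (PT.lf (nat_lit 14440) (nat_lit 6) (nat_lit 190) (nat_lit 2) (nat_lit 133) (nat_lit 141) (nat_lit 116)))) (PT.nd (nat_lit 78) (PT.lf (nat_lit 13376) (nat_lit 6) (nat_lit 176) (nat_lit 2) (nat_lit 134) (nat_lit 141) (nat_lit 115)) (PT.nd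 (nat_lit 78) (PT.lf (nat_lit 12236) (nat_lit 6) (nat_lit 161) (nat_lit 2) (nat_lit 135) (nat_lit 141) (nat_lit 114)) (PT.lf (nat_lit 11704) (nat_lit 6) (nat_lit 154) (nat_lit 2) (nat_lit 136) (nat_lit 141) (nat_lit 113))))) (PT.nd (nat_lit 234) (PT.nd (nat_lit 78) (PT.lf (nat_lit 11096) (nat_lit 6) (nat_lit 146) (nat_lit 2) (nat_lit 137) (nat_lit 141) (nat_lit 112)) (PT.nd (nat_lit 78) (PT.lf (nat_lit 10564) (nat_lit 6) (nat_lit 139) (nat_lit 2) (nat_lit 138) (nat_lit 141) (nat_lit 111)) (PT.lf (nat_lit 10032) (nat_lit 6) (nat_lit 132) (nat_lit 2) (nat_lit 139) (nat_lit 141) (nat_lit 110)))) (PT.nd (nat_lit 156) (PT.nd (nat_lit 78) (PT.lf (nat_lit 9576) (nat_lit 6) (nat_lit 126) (nat_lit 2) (nat_lit 140) (nat_lit 141) (nat_lit 109)) (PT.lf (nat_lit 9120) (nat_lit 3) (nat_lit 120) (nat_lit 0) (nat_lit 141) (nat_lit 141) (nat_lit 108))) (PT.nd (nat_lit 78) (PT.lf (nat_lit 8664) (nat_lit 6) (nat_lit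 114) (nat_lit 0) (nat_lit 142) (nat_lit 141) (nat_lit 107)) (PT.lf (nat_lit 8132) (nat_lit 6) (nat_lit 107) (nat_lit 0) (nat_lit 143) (nat_lit 141) (nat_lit 106))))))))
noncomputable def pc22 : PT := (PT.nd (nat_lit 38610) (PT.nd (nat_lit 37596) (PT.nd (nat_lit 37128) (PT.nd (nat_lit 234) (PT.nd (nat_lit 78) (PT.lf (nat_lit 7676) (nat_lit 6) (nat_lit 101) (nat_lit 0) (nat_lit 144) (nat_lit 141) (nat_lit 105)) (PT.nd (nat_lit 78) (PT.lf (nat_lit 7220) (nat_lit 6) (nat_lit 95) (nat_lit 0) (nat_lit 145) (nat_lit 141) (nat_lit 104)) (PT.lf (nat_lit 6840) (nat_lit 6) (nat_lit 90) (nat_lit 0) (nat_lit 146) (nat_lit 141) (nat_lit 103)))) (PT.nd (nat_lit 78) (PT.lf (nat_lit 6384) (nat_lit 6) (nat_lit 84) (nat_lit 0) (nat_lit 147) (nat_lit 141) (nat_lit 102)) (PT.nd (nat_lit 78) (PT.lf (nat_lit 6004) (nat_lit 6) (nat_lit 79) (nat_lit 0) (nat_lit 148) (nat_lit 141) (nat_lit 101)) (PT.lf (nat_lit 5624) (nat_lit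 6) (nat_lit 74) (nat_lit 0) (nat_lit 149) (nat_lit 141) (nat_lit 100))))) (PT.nd (nat_lit 234) (PT.nd (nat_lit 78) (PT.lf (nat_lit 5320) (nat_lit 6) (nat_lit 70) (nat_lit 5) (nat_lit 99) (nat_lit 142) (nat_lit 149)) (PT.nd (nat_lit 78) (PT.lf (nat_lit 5700) (nat_lit 6) (nat_lit 75) (nat_lit 5) (nat_lit 100) (nat_lit 142) (nat_lit 148)) (PT.lf (nat_lit 6080) (nat_lit 6) (nat_lit 80) (nat_lit 5) (nat_lit 101) (nat_lit 142) (nat_lit 147)))) (PT.nd (nat_lit 78) (PT.lf (nat_lit 6460) (nat_lit 6) (nat_lit 85) (nat_lit 5) (nat_lit 102) (nat_lit 142) (nat_lit 146)) (PT.nd (nat_lit 78) (PT.lf (nat_lit 6916) (nat_lit 6) (nat_lit 91) (nat_lit 5) (nat_lit 103) (nat_lit 142) (nat_lit 145)) (PT.lf (nat_lit 7296) (nat_lit 6) (nat_lit 96) (nat_lit 5) (nat_lit 104) (nat_lit 142) (nat_lit 144)))))) (PT.nd (nat_lit 468) (PT.nd (nat_lit 234) (PT.nd (nat_lit 78) (PT.lf (nat_lit 7752) (nat_lit 6) (nat_lit 102) (nat_lit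 5) (nat_lit 105) (nat_lit 142) (nat_lit 143)) (PT.nd (nat_lit 78) (PT.lf (nat_lit 8208) (nat_lit 3) (nat_lit 108) (nat_lit 4) (nat_lit 106) (nat_lit 142) (nat_lit 142)) (PT.lf (nat_lit 8664) (nat_lit 6) (nat_lit 114) (nat_lit 4) (nat_lit 107) (nat_lit 142) (nat_lit 141)))) (PT.nd (nat_lit 78) (PT.lf (nat_lit 9044) (nat_lit 6) (nat_lit 119) (nat_lit 4) (nat_lit 108) (nat_lit 142) (nat_lit 140)) (PT.nd (nat_lit 78) (PT.lf (nat_lit 9500) (nat_lit 6) (nat_lit 125) (nat_lit 4) (nat_lit 109) (nat_lit 142) (nat_lit 139)) (PT.lf (nat_lit 9956) (nat_lit 6) (nat_lit 131) (nat_lit 4) (nat_lit 110) (nat_lit 142) (nat_lit 138))))) (PT.nd (nat_lit 234) (PT.nd (nat_lit 78) (PT.lf (nat_lit 10488) (nat_lit 6) (nat_lit 138) (nat_lit 4) (nat_lit 111) (nat_lit 142) (nat_lit 137)) (PT.nd (nat_lit 78) (PT.lf (nat_lit 11020) (nat_lit 6) (nat_lit 145) (nat_lit 4) (nat_lit 112) (nat_lit 142) (nat_lit 136)) (PT.lf (nat_lit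 11628) (nat_lit 6) (nat_lit 153) (nat_lit 4) (nat_lit 113) (nat_lit 142) (nat_lit 135)))) (PT.nd (nat_lit 156) (PT.nd (nat_lit 78) (PT.lf (nat_lit 12160) (nat_lit 6) (nat_lit 160) (nat_lit 4) (nat_lit 114) (nat_lit 142) (nat_lit 134)) (PT.lf (nat_lit 13300) (nat_lit 6) (nat_lit 175) (nat_lit 4) (nat_lit 115) (nat_lit 142) (nat_lit 133))) (PT.nd (nat_lit 78) (PT.lf (nat_lit 14364) (nat_lit 6) (nat_lit 189) (nat_lit 4) (nat_lit 116) (nat_lit 142) (nat_lit 132)) (PT.lf (nat_lit 15352) (nat_lit 6) (nat_lit 202) (nat_lit 4) (nat_lit 117) (nat_lit 142) (nat_lit 131))))))) (PT.nd (nat_lit 1014) (PT.nd (nat_lit 468) (PT.nd (nat_lit 234) (PT.nd (nat_lit 78) (PT.lf (nat_lit 16264) (nat_lit 6) (nat_lit 214) (nat_lit 4) (nat_lit 118) (nat_lit 142) (nat_lit 130)) (PT.nd (nat_lit 78) (PT.lf (nat_lit 16188) (nat_lit 6) (nat_lit 213) (nat_lit 4) (nat_lit 119) (nat_lit 142) (nat_lit 129)) (PT.lf (nat_lit 16112)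 (nat_lit 6) (nat_lit 212) (nat_lit 4) (nat_lit 120) (nat_lit 142) (nat_lit 128)))) (PT.nd (nat_lit 78) (PT.lf (nat_lit 16036) (nat_lit 6) (nat_lit 211) (nat_lit 4) (nat_lit 121) (nat_lit 142) (nat_lit 127)) (PT.nd (nat_lit 78) (PT.lf (nat_lit 15960) (nat_lit 6) (nat_lit 210) (nat_lit 4) (nat_lit 122) (nat_lit 142) (nat_lit 126)) (PT.lf (nat_lit 15884) (nat_lit 6) (nat_lit 209) (nat_lit 4) (nat_lit 123) (nat_lit 142) (nat_lit 125))))) (PT.nd (nat_lit 234) (PT.nd (nat_lit 78) (PT.lf (nat_lit 15808) (nat_lit 3) (nat_lit 208) (nat_lit 2) (nat_lit 124) (nat_lit 142) (nat_lit 124)) (PT.nd (nat_lit 78) (PT.lf (nat_lit 15884) (nat_lit 6) (nat_lit 209) (nat_lit 2) (nat_lit 125) (nat_lit 142) (nat_lit 123)) (PT.lf (nat_lit 15960) (nat_lit 6) (nat_lit 210) (nat_lit 2) (nat_lit 126) (nat_lit 142) (nat_lit 122)))) (PT.nd (nat_lit 156) (PT.nd (nat_lit 78) (PT.lf (nat_lit 16036) (nat_lit 6) (nat_lit 211) (nat_lit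 2) (nat_lit 127) (nat_lit 142) (nat_lit 121)) (PT.lf (nat_lit 16112) (nat_lit 6) (nat_lit 212) (nat_lit 2) (nat_lit 128) (nat_lit 142) (nat_lit 120))) (PT.nd (nat_lit 78) (PT.lf (nat_lit 16188) (nat_lit 6) (nat_lit 213) (nat_lit 2) (nat_lit 129) (nat_lit 142) (nat_lit 119)) (PT.lf (nat_lit 16264) (nat_lit 6) (nat_lit 214) (nat_lit 2) (nat_lit 130) (nat_lit 142) (nat_lit 118)))))) (PT.nd (nat_lit 468) (PT.nd (nat_lit 234) (PT.nd (nat_lit 78) (PT.lf (nat_lit 15352) (nat_lit 6) (nat_lit 202) (nat_lit 2) (nat_lit 131) (nat_lit 142) (nat_lit 117)) (PT.nd (nat_lit 78) (PT.lf (nat_lit 14364) (nat_lit 6) (nat_lit 189) (nat_lit 2) (nat_lit 132) (nat_lit 142) (nat_lit 116)) (PT.lf (nat_lit 13300) (nat_lit 6) (nat_lit 175) (nat_lit 2) (nat_lit 133) (nat_lit 142) (nat_lit 115)))) (PT.nd (nat_lit 78) (PT.lf (nat_lit 12160) (nat_lit 6) (nat_lit 160) (nat_lit 2) (nat_lit 134) (nat_lit 142) (nat_lit 114)) (PT.nd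 (nat_lit 78) (PT.lf (nat_lit 11628) (nat_lit 6) (nat_lit 153) (nat_lit 2) (nat_lit 135) (nat_lit 142) (nat_lit 113)) (PT.lf (nat_lit 11020) (nat_lit 6) (nat_lit 145) (nat_lit 2) (nat_lit 136) (nat_lit 142) (nat_lit 112))))) (PT.nd (nat_lit 234) (PT.nd (nat_lit 78) (PT.lf (nat_lit 10488) (nat_lit 6) (nat_lit 138) (nat_lit 2) (nat_lit 137) (nat_lit 142) (nat_lit 111)) (PT.nd (nat_lit 78) (PT.lf (nat_lit 9956) (nat_lit 6) (nat_lit 131) (nat_lit 2) (nat_lit 138) (nat_lit 142) (nat_lit 110)) (PT.lf (nat_lit 9500) (nat_lit 6) (nat_lit 125) (nat_lit 2) (nat_lit 139) (nat_lit 142) (nat_lit 109)))) (PT.nd (nat_lit 156) (PT.nd (nat_lit 78) (PT.lf (nat_lit 9044) (nat_lit 6) (nat_lit 119) (nat_lit 2) (nat_lit 140) (nat_lit 142) (nat_lit 108)) (PT.lf (nat_lit 8664) (nat_lit 6) (nat_lit 114) (nat_lit 2) (nat_lit 141) (nat_lit 142) (nat_lit 107))) (PT.nd (nat_lit 78) (PT.lf (nat_lit 8208) (nat_lit 3) (nat_lit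 108) (nat_lit 0) (nat_lit 142) (nat_lit 142) (nat_lit 106)) (PT.lf (nat_lit 7752) (nat_lit 6) (nat_lit 102) (nat_lit 0) (nat_lit 143) (nat_lit 142) (nat_lit 105))))))))
noncomputable def pc23 : PT := (PT.nd (nat_lit 38454) (PT.nd (nat_lit 37440) (PT.nd (nat_lit 36972) (PT.nd (nat_lit 234) (PT.nd (nat_lit 78) (PT.lf (nat_lit 7296) (nat_lit 6) (nat_lit 96) (nat_lit 0) (nat_lit 144) (nat_lit 142) (nat_lit 104)) (PT.nd (nat_lit 78) (PT.lf (nat_lit 6916) (nat_lit 6) (nat_lit 91) (nat_lit 0) (nat_lit 145) (nat_lit 142) (nat_lit 103)) (PT.lf (nat_lit 6460) (nat_lit 6) (nat_lit 85) (nat_lit 0) (nat_lit 146) (nat_lit 142) (nat_lit 102)))) (PT.nd (nat_lit 78) (PT.lf (nat_lit 6080) (nat_lit 6) (nat_lit 80) (nat_lit 0) (nat_lit 147) (nat_lit 142) (nat_lit 101)) (PT.nd (nat_lit 78) (PT.lf (nat_lit 5700) (nat_lit 6) (nat_lit 75) (nat_lit 0) (nat_lit 148) (nat_lit 142) (nat_lit 100)) (PT.lf (nat_lit 5320) (nat_lit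 6) (nat_lit 70) (nat_lit 0) (nat_lit 149) (nat_lit 142) (nat_lit 99))))) (PT.nd (nat_lit 234) (PT.nd (nat_lit 78) (PT.lf (nat_lit 4712) (nat_lit 6) (nat_lit 62) (nat_lit 5) (nat_lit 97) (nat_lit 143) (nat_lit 150)) (PT.nd (nat_lit 78) (PT.lf (nat_lit 5016) (nat_lit 6) (nat_lit 66) (nat_lit 5) (nat_lit 98) (nat_lit 143) (nat_lit 149)) (PT.lf (nat_lit 5396) (nat_lit 6) (nat_lit 71) (nat_lit 5) (nat_lit 99) (nat_lit 143) (nat_lit 148)))) (PT.nd (nat_lit 78) (PT.lf (nat_lit 5776) (nat_lit 6) (nat_lit 76) (nat_lit 5) (nat_lit 100) (nat_lit 143) (nat_lit 147)) (PT.nd (nat_lit 78) (PT.lf (nat_lit 6156) (nat_lit 6) (nat_lit 81) (nat_lit 5) (nat_lit 101) (nat_lit 143) (nat_lit 146)) (PT.lf (nat_lit 6536) (nat_lit 6) (nat_lit 86) (nat_lit 5) (nat_lit 102) (nat_lit 143) (nat_lit 145)))))) (PT.nd (nat_lit 468) (PT.nd (nat_lit 234) (PT.nd (nat_lit 78) (PT.lf (nat_lit 6992) (nat_lit 6) (nat_lit 92) (nat_lit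 5) (nat_lit 103) (nat_lit 143) (nat_lit 144)) (PT.nd (nat_lit 78) (PT.lf (nat_lit 7372) (nat_lit 3) (nat_lit 97) (nat_lit 4) (nat_lit 104) (nat_lit 143) (nat_lit 143)) (PT.lf (nat_lit 7752) (nat_lit 6) (nat_lit 102) (nat_lit 4) (nat_lit 105) (nat_lit 143) (nat_lit 142)))) (PT.nd (nat_lit 78) (PT.lf (nat_lit 8132) (nat_lit 6) (nat_lit 107) (nat_lit 4) (nat_lit 106) (nat_lit 143) (nat_lit 141)) (PT.nd (nat_lit 78) (PT.lf (nat_lit 8588) (nat_lit 6) (nat_lit 113) (nat_lit 4) (nat_lit 107) (nat_lit 143) (nat_lit 140)) (PT.lf (nat_lit 8968) (nat_lit 6) (nat_lit 118) (nat_lit 4) (nat_lit 108) (nat_lit 143) (nat_lit 139))))) (PT.nd (nat_lit 234) (PT.nd (nat_lit 78) (PT.lf (nat_lit 9424) (nat_lit 6) (nat_lit 124) (nat_lit 4) (nat_lit 109) (nat_lit 143) (nat_lit 138)) (PT.nd (nat_lit 78) (PT.lf (nat_lit 9880) (nat_lit 6) (nat_lit 130) (nat_lit 4) (nat_lit 110) (nat_lit 143) (nat_lit 137)) (PT.lf (nat_lit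 10412) (nat_lit 6) (nat_lit 137) (nat_lit 4) (nat_lit 111) (nat_lit 143) (nat_lit 136)))) (PT.nd (nat_lit 156) (PT.nd (nat_lit 78) (PT.lf (nat_lit 10944) (nat_lit 6) (nat_lit 144) (nat_lit 4) (nat_lit 112) (nat_lit 143) (nat_lit 135)) (PT.lf (nat_lit 11552) (nat_lit 6) (nat_lit 152) (nat_lit 4) (nat_lit 113) (nat_lit 143) (nat_lit 134))) (PT.nd (nat_lit 78) (PT.lf (nat_lit 12084) (nat_lit 6) (nat_lit 159) (nat_lit 4) (nat_lit 114) (nat_lit 143) (nat_lit 133)) (PT.lf (nat_lit 13224) (nat_lit 6) (nat_lit 174) (nat_lit 4) (nat_lit 115) (nat_lit 143) (nat_lit 132))))))) (PT.nd (nat_lit 1014) (PT.nd (nat_lit 468) (PT.nd (nat_lit 234) (PT.nd (nat_lit 78) (PT.lf (nat_lit 14288) (nat_lit 6) (nat_lit 188) (nat_lit 4) (nat_lit 116) (nat_lit 143) (nat_lit 131)) (PT.nd (nat_lit 78) (PT.lf (nat_lit 15276) (nat_lit 6) (nat_lit 201) (nat_lit 4) (nat_lit 117) (nat_lit 143) (nat_lit 130)) (PT.lf (nat_lit 15200)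 (nat_lit 6) (nat_lit 200) (nat_lit 4) (nat_lit 118) (nat_lit 143) (nat_lit 129)))) (PT.nd (nat_lit 78) (PT.lf (nat_lit 15124) (nat_lit 6) (nat_lit 199) (nat_lit 4) (nat_lit 119) (nat_lit 143) (nat_lit 128)) (PT.nd (nat_lit 78) (PT.lf (nat_lit 15048) (nat_lit 6) (nat_lit 198) (nat_lit 4) (nat_lit 120) (nat_lit 143) (nat_lit 127)) (PT.lf (nat_lit 14972) (nat_lit 6) (nat_lit 197) (nat_lit 4) (nat_lit 121) (nat_lit 143) (nat_lit 126))))) (PT.nd (nat_lit 234) (PT.nd (nat_lit 78) (PT.lf (nat_lit 14896) (nat_lit 6) (nat_lit 196) (nat_lit 4) (nat_lit 122) (nat_lit 143) (nat_lit 125)) (PT.nd (nat_lit 78) (PT.lf (nat_lit 14820) (nat_lit 6) (nat_lit 195) (nat_lit 4) (nat_lit 123) (nat_lit 143) (nat_lit 124)) (PT.lf (nat_lit 14820) (nat_lit 6) (nat_lit 195) (nat_lit 2) (nat_lit 124) (nat_lit 143) (nat_lit 123)))) (PT.nd (nat_lit 156) (PT.nd (nat_lit 78) (PT.lf (nat_lit 14896) (nat_lit 6) (nat_lit 196) (nat_lit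 2) (nat_lit 125) (nat_lit 143) (nat_lit 122)) (PT.lf (nat_lit 14972) (nat_lit 6) (nat_lit 197) (nat_lit 2) (nat_lit 126) (nat_lit 143) (nat_lit 121))) (PT.nd (nat_lit 78) (PT.lf (nat_lit 15048) (nat_lit 6) (nat_lit 198) (nat_lit 2) (nat_lit 127) (nat_lit 143) (nat_lit 120)) (PT.lf (nat_lit 15124) (nat_lit 6) (nat_lit 199) (nat_lit 2) (nat_lit 128) (nat_lit 143) (nat_lit 119)))))) (PT.nd (nat_lit 468) (PT.nd (nat_lit 234) (PT.nd (nat_lit 78) (PT.lf (nat_lit 15200) (nat_lit 6) (nat_lit 200) (nat_lit 2) (nat_lit 129) (nat_lit 143) (nat_lit 118)) (PT.nd (nat_lit 78) (PT.lf (nat_lit 15276) (nat_lit 6) (nat_lit 201) (nat_lit 2) (nat_lit 130) (nat_lit 143) (nat_lit 117)) (PT.lf (nat_lit 14288) (nat_lit 6) (nat_lit 188) (nat_lit 2) (nat_lit 131) (nat_lit 143) (nat_lit 116)))) (PT.nd (nat_lit 78) (PT.lf (nat_lit 13224) (nat_lit 6) (nat_lit 174) (nat_lit 2) (nat_lit 132) (nat_lit 143) (nat_lit 115)) (PT.nd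 (nat_lit 78) (PT.lf (nat_lit 12084) (nat_lit 6) (nat_lit 159) (nat_lit 2) (nat_lit 133) (nat_lit 143) (nat_lit 114)) (PT.lf (nat_lit 11552) (nat_lit 6) (nat_lit 152) (nat_lit 2) (nat_lit 134) (nat_lit 143) (nat_lit 113))))) (PT.nd (nat_lit 234) (PT.nd (nat_lit 78) (PT.lf (nat_lit 10944) (nat_lit 6) (nat_lit 144) (nat_lit 2) (nat_lit 135) (nat_lit 143) (nat_lit 112)) (PT.nd (nat_lit 78) (PT.lf (nat_lit 10412) (nat_lit 6) (nat_lit 137) (nat_lit 2) (nat_lit 136) (nat_lit 143) (nat_lit 111)) (PT.lf (nat_lit 9880) (nat_lit 6) (nat_lit 130) (nat_lit 2) (nat_lit 137) (nat_lit 143) (nat_lit 110)))) (PT.nd (nat_lit 156) (PT.nd (nat_lit 78) (PT.lf (nat_lit 9424) (nat_lit 6) (nat_lit 124) (nat_lit 2) (nat_lit 138) (nat_lit 143) (nat_lit 109)) (PT.lf (nat_lit 8968) (nat_lit 6) (nat_lit 118) (nat_lit 2) (nat_lit 139) (nat_lit 143) (nat_lit 108))) (PT.nd (nat_lit 78) (PT.lf (nat_lit 8588) (nat_lit 6) (nat_lit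 113) (nat_lit 2) (nat_lit 140) (nat_lit 143) (nat_lit 107)) (PT.lf (nat_lit 8132) (nat_lit 6) (nat_lit 107) (nat_lit 2) (nat_lit 141) (nat_lit 143) (nat_lit 106))))))))
noncomputable def pc24 : PT := (PT.nd (nat_lit 38298) (PT.nd (nat_lit 37284) (PT.nd (nat_lit 468) (PT.nd (nat_lit 234) (PT.nd (nat_lit 78) (PT.lf (nat_lit 7752) (nat_lit 6) (nat_lit 102) (nat_lit 2) (nat_lit 142) (nat_lit 143) (nat_lit 105)) (PT.nd (nat_lit 78) (PT.lf (nat_lit 7372) (nat_lit 3) (nat_lit 97) (nat_lit 0) (nat_lit 143) (nat_lit 143) (nat_lit 104)) (PT.lf (nat_lit 6992) (nat_lit 6) (nat_lit 92) (nat_lit 0) (nat_lit 144) (nat_lit 143) (nat_lit 103)))) (PT.nd (nat_lit 78) (PT.lf (nat_lit 6536) (nat_lit 6) (nat_lit 86) (nat_lit 0) (nat_lit 145) (nat_lit 143) (nat_lit 102)) (PT.nd (nat_lit 78) (PT.lf (nat_lit 6156) (nat_lit 6) (nat_lit 81) (nat_lit 0) (nat_lit 146) (nat_lit 143) (nat_lit 101)) (PT.lf (nat_lit 5776) (nat_lit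 6) (nat_lit 76) (nat_lit 0) (nat_lit 147) (nat_lit 143) (nat_lit 100))))) (PT.nd (nat_lit 36582) (PT.nd (nat_lit 78) (PT.lf (nat_lit 5396) (nat_lit 6) (nat_lit 71) (nat_lit 0) (nat_lit 148) (nat_lit 143) (nat_lit 99)) (PT.nd (nat_lit 78) (PT.lf (nat_lit 5016) (nat_lit 6) (nat_lit 66) (nat_lit 0) (nat_lit 149) (nat_lit 143) (nat_lit 98)) (PT.lf (nat_lit 4712) (nat_lit 6) (nat_lit 62) (nat_lit 0) (nat_lit 150) (nat_lit 143) (nat_lit 97)))) (PT.nd (nat_lit 78) (PT.lf (nat_lit 4408) (nat_lit 6) (nat_lit 58) (nat_lit 5) (nat_lit 96) (nat_lit 144) (nat_lit 150)) (PT.nd (nat_lit 78) (PT.lf (nat_lit 4788) (nat_lit 6) (nat_lit 63) (nat_lit 5) (nat_lit 97) (nat_lit 144) (nat_lit 149)) (PT.lf (nat_lit 5092) (nat_lit 6) (nat_lit 67) (nat_lit 5) (nat_lit 98) (nat_lit 144) (nat_lit 148)))))) (PT.nd (nat_lit 468) (PT.nd (nat_lit 234) (PT.nd (nat_lit 78) (PT.lf (nat_lit 5472) (nat_lit 6) (nat_lit 72) (nat_lit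 5) (nat_lit 99) (nat_lit 144) (nat_lit 147)) (PT.nd (nat_lit 78) (PT.lf (nat_lit 5852) (nat_lit 6) (nat_lit 77) (nat_lit 5) (nat_lit 100) (nat_lit 144) (nat_lit 146)) (PT.lf (nat_lit 6232) (nat_lit 6) (nat_lit 82) (nat_lit 5) (nat_lit 101) (nat_lit 144) (nat_lit 145)))) (PT.nd (nat_lit 78) (PT.lf (nat_lit 6612) (nat_lit 3) (nat_lit 87) (nat_lit 4) (nat_lit 102) (nat_lit 144) (nat_lit 144)) (PT.nd (nat_lit 78) (PT.lf (nat_lit 6992) (nat_lit 6) (nat_lit 92) (nat_lit 4) (nat_lit 103) (nat_lit 144) (nat_lit 143)) (PT.lf (nat_lit 7296) (nat_lit 6) (nat_lit 96) (nat_lit 4) (nat_lit 104) (nat_lit 144) (nat_lit 142))))) (PT.nd (nat_lit 234) (PT.nd (nat_lit 78) (PT.lf (nat_lit 7676) (nat_lit 6) (nat_lit 101) (nat_lit 4) (nat_lit 105) (nat_lit 144) (nat_lit 141)) (PT.nd (nat_lit 78) (PT.lf (nat_lit 8056) (nat_lit 6) (nat_lit 106) (nat_lit 4) (nat_lit 106) (nat_lit 144) (nat_lit 140)) (PT.lf (nat_lit 8512)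 (nat_lit 6) (nat_lit 112) (nat_lit 4) (nat_lit 107) (nat_lit 144) (nat_lit 139)))) (PT.nd (nat_lit 156) (PT.nd (nat_lit 78) (PT.lf (nat_lit 8892) (nat_lit 6) (nat_lit 117) (nat_lit 4) (nat_lit 108) (nat_lit 144) (nat_lit 138)) (PT.lf (nat_lit 9348) (nat_lit 6) (nat_lit 123) (nat_lit 4) (nat_lit 109) (nat_lit 144) (nat_lit 137))) (PT.nd (nat_lit 78) (PT.lf (nat_lit 9804) (nat_lit 6) (nat_lit 129) (nat_lit 4) (nat_lit 110) (nat_lit 144) (nat_lit 136)) (PT.lf (nat_lit 10336) (nat_lit 6) (nat_lit 136) (nat_lit 4) (nat_lit 111) (nat_lit 144) (nat_lit 135))))))) (PT.nd (nat_lit 1014) (PT.nd (nat_lit 468) (PT.nd (nat_lit 234) (PT.nd (nat_lit 78) (PT.lf (nat_lit 10868) (nat_lit 6) (nat_lit 143) (nat_lit 4) (nat_lit 112) (nat_lit 144) (nat_lit 134)) (PT.nd (nat_lit 78) (PT.lf (nat_lit 11476) (nat_lit 6) (nat_lit 151) (nat_lit 4) (nat_lit 113) (nat_lit 144) (nat_lit 133)) (PT.lf (nat_lit 12008) (nat_lit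 6) (nat_lit 158) (nat_lit 4) (nat_lit 114) (nat_lit 144) (nat_lit 132)))) (PT.nd (nat_lit 78) (PT.lf (nat_lit 13148) (nat_lit 6) (nat_lit 173) (nat_lit 4) (nat_lit 115) (nat_lit 144) (nat_lit 131)) (PT.nd (nat_lit 78) (PT.lf (nat_lit 14212) (nat_lit 6) (nat_lit 187) (nat_lit 4) (nat_lit 116) (nat_lit 144) (nat_lit 130)) (PT.lf (nat_lit 14136) (nat_lit 6) (nat_lit 186) (nat_lit 4) (nat_lit 117) (nat_lit 144) (nat_lit 129))))) (PT.nd (nat_lit 234) (PT.nd (nat_lit 78) (PT.lf (nat_lit 14060) (nat_lit 6) (nat_lit 185) (nat_lit 4) (nat_lit 118) (nat_lit 144) (nat_lit 128)) (PT.nd (nat_lit 78) (PT.lf (nat_lit 13984) (nat_lit 6) (nat_lit 184) (nat_lit 4) (nat_lit 119) (nat_lit 144) (nat_lit 127)) (PT.lf (nat_lit 13908) (nat_lit 6) (nat_lit 183) (nat_lit 4) (nat_lit 120) (nat_lit 144) (nat_lit 126)))) (PT.nd (nat_lit 156) (PT.nd (nat_lit 78) (PT.lf (nat_lit 13832) (nat_lit 6) (nat_lit 182) (nat_lit 4)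 (nat_lit 121) (nat_lit 144) (nat_lit 125)) (PT.lf (nat_lit 13756) (nat_lit 6) (nat_lit 181) (nat_lit 4) (nat_lit 122) (nat_lit 144) (nat_lit 124))) (PT.nd (nat_lit 78) (PT.lf (nat_lit 13680) (nat_lit 3) (nat_lit 180) (nat_lit 2) (nat_lit 123) (nat_lit 144) (nat_lit 123)) (PT.lf (nat_lit 13756) (nat_lit 6) (nat_lit 181) (nat_lit 2) (nat_lit 124) (nat_lit 144) (nat_lit 122)))))) (PT.nd (nat_lit 468) (PT.nd (nat_lit 234) (PT.nd (nat_lit 78) (PT.lf (nat_lit 13832) (nat_lit 6) (nat_lit 182) (nat_lit 2) (nat_lit 125) (nat_lit 144) (nat_lit 121)) (PT.nd (nat_lit 78) (PT.lf (nat_lit 13908) (nat_lit 6) (nat_lit 183) (nat_lit 2) (nat_lit 126) (nat_lit 144) (nat_lit 120)) (PT.lf (nat_lit 13984) (nat_lit 6) (nat_lit 184) (nat_lit 2) (nat_lit 127) (nat_lit 144) (nat_lit 119)))) (PT.nd (nat_lit 78) (PT.lf (nat_lit 14060) (nat_lit 6) (nat_lit 185) (nat_lit 2) (nat_lit 128) (nat_lit 144) (nat_lit 118)) (PT.nd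 (nat_lit 78) (PT.lf (nat_lit 14136) (nat_lit 6) (nat_lit 186) (nat_lit 2) (nat_lit 129) (nat_lit 144) (nat_lit 117)) (PT.lf (nat_lit 14212) (nat_lit 6) (nat_lit 187) (nat_lit 2) (nat_lit 130) (nat_lit 144) (nat_lit 116))))) (PT.nd (nat_lit 234) (PT.nd (nat_lit 78) (PT.lf (nat_lit 13148) (nat_lit 6) (nat_lit 173) (nat_lit 2) (nat_lit 131) (nat_lit 144) (nat_lit 115)) (PT.nd (nat_lit 78) (PT.lf (nat_lit 12008) (nat_lit 6) (nat_lit 158) (nat_lit 2) (nat_lit 132) (nat_lit 144) (nat_lit 114)) (PT.lf (nat_lit 11476) (nat_lit 6) (nat_lit 151) (nat_lit 2) (nat_lit 133) (nat_lit 144) (nat_lit 113)))) (PT.nd (nat_lit 156) (PT.nd (nat_lit 78) (PT.lf (nat_lit 10868) (nat_lit 6) (nat_lit 143) (nat_lit 2) (nat_lit 134) (nat_lit 144) (nat_lit 112)) (PT.lf (nat_lit 10336) (nat_lit 6) (nat_lit 136) (nat_lit 2) (nat_lit 135) (nat_lit 144) (nat_lit 111))) (PT.nd (nat_lit 78) (PT.lf (nat_lit 9804) (nat_lit 6) (nat_lit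 129) (nat_lit 2) (nat_lit 136) (nat_lit 144) (nat_lit 110)) (PT.lf (nat_lit 9348) (nat_lit 6) (nat_lit 123) (nat_lit 2) (nat_lit 137) (nat_lit 144) (nat_lit 109))))))))
noncomputable def pc25 : PT := (PT.nd (nat_lit 38142) (PT.nd (nat_lit 936) (PT.nd (nat_lit 468) (PT.nd (nat_lit 234) (PT.nd (nat_lit 78) (PT.lf (nat_lit 8892) (nat_lit 6) (nat_lit 117) (nat_lit 2) (nat_lit 138) (nat_lit 144) (nat_lit 108)) (PT.nd (nat_lit 78) (PT.lf (nat_lit 8512) (nat_lit 6) (nat_lit 112) (nat_lit 2) (nat_lit 139) (nat_lit 144) (nat_lit 107)) (PT.lf (nat_lit 8056) (nat_lit 6) (nat_lit 106) (nat_lit 2) (nat_lit 140) (nat_lit 144) (nat_lit 106)))) (PT.nd (nat_lit 78) (PT.lf (nat_lit 7676) (nat_lit 6) (nat_lit 101) (nat_lit 2) (nat_lit 141) (nat_lit 144) (nat_lit 105)) (PT.nd (nat_lit 78) (PT.lf (nat_lit 7296) (nat_lit 6) (nat_lit 96) (nat_lit 2) (nat_lit 142) (nat_lit 144) (nat_lit 104)) (PT.lf (nat_lit 6992) (nat_lit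 6) (nat_lit 92) (nat_lit 2) (nat_lit 143) (nat_lit 144) (nat_lit 103))))) (PT.nd (nat_lit 234) (PT.nd (nat_lit 78) (PT.lf (nat_lit 6612) (nat_lit 3) (nat_lit 87) (nat_lit 0) (nat_lit 144) (nat_lit 144) (nat_lit 102)) (PT.nd (nat_lit 78) (PT.lf (nat_lit 6232) (nat_lit 6) (nat_lit 82) (nat_lit 0) (nat_lit 145) (nat_lit 144) (nat_lit 101)) (PT.lf (nat_lit 5852) (nat_lit 6) (nat_lit 77) (nat_lit 0) (nat_lit 146) (nat_lit 144) (nat_lit 100)))) (PT.nd (nat_lit 78) (PT.lf (nat_lit 5472) (nat_lit 6) (nat_lit 72) (nat_lit 0) (nat_lit 147) (nat_lit 144) (nat_lit 99)) (PT.nd (nat_lit 78) (PT.lf (nat_lit 5092) (nat_lit 6) (nat_lit 67) (nat_lit 0) (nat_lit 148) (nat_lit 144) (nat_lit 98)) (PT.lf (nat_lit 4788) (nat_lit 6) (nat_lit 63) (nat_lit 0) (nat_lit 149) (nat_lit 144) (nat_lit 97)))))) (PT.nd (nat_lit 36660) (PT.nd (nat_lit 36426) (PT.nd (nat_lit 36270) (PT.lf (nat_lit 4408) (nat_lit 6) (nat_lit 58)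 (nat_lit 0) (nat_lit 150) (nat_lit 144) (nat_lit 96)) (PT.nd (nat_lit 78) (PT.lf (nat_lit 3876) (nat_lit 6) (nat_lit 51) (nat_lit 5) (nat_lit 94) (nat_lit 145) (nat_lit 151)) (PT.lf (nat_lit 4180) (nat_lit 6) (nat_lit 55) (nat_lit 5) (nat_lit 95) (nat_lit 145) (nat_lit 150)))) (PT.nd (nat_lit 78) (PT.lf (nat_lit 4484) (nat_lit 6) (nat_lit 59) (nat_lit 5) (nat_lit 96) (nat_lit 145) (nat_lit 149)) (PT.nd (nat_lit 78) (PT.lf (nat_lit 4864) (nat_lit 6) (nat_lit 64) (nat_lit 5) (nat_lit 97) (nat_lit 145) (nat_lit 148)) (PT.lf (nat_lit 5168) (nat_lit 6) (nat_lit 68) (nat_lit 5) (nat_lit 98) (nat_lit 145) (nat_lit 147))))) (PT.nd (nat_lit 234) (PT.nd (nat_lit 78) (PT.lf (nat_lit 5548) (nat_lit 6) (nat_lit 73) (nat_lit 5) (nat_lit 99) (nat_lit 145) (nat_lit 146)) (PT.nd (nat_lit 78) (PT.lf (nat_lit 5928) (nat_lit 3) (nat_lit 78) (nat_lit 4) (nat_lit 100) (nat_lit 145) (nat_lit 145)) (PT.lf (nat_lit 6232)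 (nat_lit 6) (nat_lit 82) (nat_lit 4) (nat_lit 101) (nat_lit 145) (nat_lit 144)))) (PT.nd (nat_lit 156) (PT.nd (nat_lit 78) (PT.lf (nat_lit 6536) (nat_lit 6) (nat_lit 86) (nat_lit 4) (nat_lit 102) (nat_lit 145) (nat_lit 143)) (PT.lf (nat_lit 6916) (nat_lit 6) (nat_lit 91) (nat_lit 4) (nat_lit 103) (nat_lit 145) (nat_lit 142))) (PT.nd (nat_lit 78) (PT.lf (nat_lit 7220) (nat_lit 6) (nat_lit 95) (nat_lit 4) (nat_lit 104) (nat_lit 145) (nat_lit 141)) (PT.lf (nat_lit 7600) (nat_lit 6) (nat_lit 100) (nat_lit 4) (nat_lit 105) (nat_lit 145) (nat_lit 140))))))) (PT.nd (nat_lit 1014) (PT.nd (nat_lit 468) (PT.nd (nat_lit 234) (PT.nd (nat_lit 78) (PT.lf (nat_lit 7980) (nat_lit 6) (nat_lit 105) (nat_lit 4) (nat_lit 106) (nat_lit 145) (nat_lit 139)) (PT.nd (nat_lit 78) (PT.lf (nat_lit 8436) (nat_lit 6) (nat_lit 111) (nat_lit 4) (nat_lit 107) (nat_lit 145) (nat_lit 138)) (PT.lf (nat_lit 8816) (nat_lit 6) (nat_lit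 116) (nat_lit 4) (nat_lit 108) (nat_lit 145) (nat_lit 137)))) (PT.nd (nat_lit 78) (PT.lf (nat_lit 9272) (nat_lit 6) (nat_lit 122) (nat_lit 4) (nat_lit 109) (nat_lit 145) (nat_lit 136)) (PT.nd (nat_lit 78) (PT.lf (nat_lit 9728) (nat_lit 6) (nat_lit 128) (nat_lit 4) (nat_lit 110) (nat_lit 145) (nat_lit 135)) (PT.lf (nat_lit 10260) (nat_lit 6) (nat_lit 135) (nat_lit 4) (nat_lit 111) (nat_lit 145) (nat_lit 134))))) (PT.nd (nat_lit 234) (PT.nd (nat_lit 78) (PT.lf (nat_lit 10792) (nat_lit 6) (nat_lit 142) (nat_lit 4) (nat_lit 112) (nat_lit 145) (nat_lit 133)) (PT.nd (nat_lit 78) (PT.lf (nat_lit 11400) (nat_lit 6) (nat_lit 150) (nat_lit 4) (nat_lit 113) (nat_lit 145) (nat_lit 132)) (PT.lf (nat_lit 11932) (nat_lit 6) (nat_lit 157) (nat_lit 4) (nat_lit 114) (nat_lit 145) (nat_lit 131)))) (PT.nd (nat_lit 156) (PT.nd (nat_lit 78) (PT.lf (nat_lit 13072) (nat_lit 6) (nat_lit 172) (nat_lit 4) (nat_lit 115)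 (nat_lit 145) (nat_lit 130)) (PT.lf (nat_lit 12996) (nat_lit 6) (nat_lit 171) (nat_lit 4) (nat_lit 116) (nat_lit 145) (nat_lit 129))) (PT.nd (nat_lit 78) (PT.lf (nat_lit 12920) (nat_lit 6) (nat_lit 170) (nat_lit 4) (nat_lit 117) (nat_lit 145) (nat_lit 128)) (PT.lf (nat_lit 12844) (nat_lit 6) (nat_lit 169) (nat_lit 4) (nat_lit 118) (nat_lit 145) (nat_lit 127)))))) (PT.nd (nat_lit 468) (PT.nd (nat_lit 234) (PT.nd (nat_lit 78) (PT.lf (nat_lit 12768) (nat_lit 6) (nat_lit 168) (nat_lit 4) (nat_lit 119) (nat_lit 145) (nat_lit 126)) (PT.nd (nat_lit 78) (PT.lf (nat_lit 12692) (nat_lit 6) (nat_lit 167) (nat_lit 4) (nat_lit 120) (nat_lit 145) (nat_lit 125)) (PT.lf (nat_lit 12616) (nat_lit 6) (nat_lit 166) (nat_lit 4) (nat_lit 121) (nat_lit 145) (nat_lit 124)))) (PT.nd (nat_lit 78) (PT.lf (nat_lit 12540) (nat_lit 6) (nat_lit 165) (nat_lit 4) (nat_lit 122) (nat_lit 145) (nat_lit 123)) (PT.nd (nat_lit 78)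 (PT.lf (nat_lit 12540) (nat_lit 6) (nat_lit 165) (nat_lit 2) (nat_lit 123) (nat_lit 145) (nat_lit 122)) (PT.lf (nat_lit 12616) (nat_lit 6) (nat_lit 166) (nat_lit 2) (nat_lit 124) (nat_lit 145) (nat_lit 121))))) (PT.nd (nat_lit 234) (PT.nd (nat_lit 78) (PT.lf (nat_lit 12692) (nat_lit 6) (nat_lit 167) (nat_lit 2) (nat_lit 125) (nat_lit 145) (nat_lit 120)) (PT.nd (nat_lit 78) (PT.lf (nat_lit 12768) (nat_lit 6) (nat_lit 168) (nat_lit 2) (nat_lit 126) (nat_lit 145) (nat_lit 119)) (PT.lf (nat_lit 12844) (nat_lit 6) (nat_lit 169) (nat_lit 2) (nat_lit 127) (nat_lit 145) (nat_lit 118)))) (PT.nd (nat_lit 156) (PT.nd (nat_lit 78) (PT.lf (nat_lit 12920) (nat_lit 6) (nat_lit 170) (nat_lit 2) (nat_lit 128) (nat_lit 145) (nat_lit 117)) (PT.lf (nat_lit 12996) (nat_lit 6) (nat_lit 171) (nat_lit 2) (nat_lit 129) (nat_lit 145) (nat_lit 116))) (PT.nd (nat_lit 78) (PT.lf (nat_lit 13072) (nat_lit 6) (nat_lit 172) (nat_lit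 2) (nat_lit 130) (nat_lit 145) (nat_lit 115)) (PT.lf (nat_lit 11932) (nat_lit 6) (nat_lit 157) (nat_lit 2) (nat_lit 131) (nat_lit 145) (nat_lit 114))))))))
noncomputable def pc26 : PT := (PT.nd (nat_lit 37986) (PT.nd (nat_lit 936) (PT.nd (nat_lit 468) (PT.nd (nat_lit 234) (PT.nd (nat_lit 78) (PT.lf (nat_lit 11400) (nat_lit 6) (nat_lit 150) (nat_lit 2) (nat_lit 132) (nat_lit 145) (nat_lit 113)) (PT.nd (nat_lit 78) (PT.lf (nat_lit 10792) (nat_lit 6) (nat_lit 142) (nat_lit 2) (nat_lit 133) (nat_lit 145) (nat_lit 112)) (PT.lf (nat_lit 10260) (nat_lit 6) (nat_lit 135) (nat_lit 2) (nat_lit 134) (nat_lit 145) (nat_lit 111)))) (PT.nd (nat_lit 78) (PT.lf (nat_lit 9728) (nat_lit 6) (nat_lit 128) (nat_lit 2) (nat_lit 135) (nat_lit 145) (nat_lit 110)) (PT.nd (nat_lit 78) (PT.lf (nat_lit 9272) (nat_lit 6) (nat_lit 122) (nat_lit 2) (nat_lit 136) (nat_lit 145) (nat_lit 109)) (PT.lf (nat_lit 8816) (nat_lit 6)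 (nat_lit 116) (nat_lit 2) (nat_lit 137) (nat_lit 145) (nat_lit 108))))) (PT.nd (nat_lit 234) (PT.nd (nat_lit 78) (PT.lf (nat_lit 8436) (nat_lit 6) (nat_lit 111) (nat_lit 2) (nat_lit 138) (nat_lit 145) (nat_lit 107)) (PT.nd (nat_lit 78) (PT.lf (nat_lit 7980) (nat_lit 6) (nat_lit 105) (nat_lit 2) (nat_lit 139) (nat_lit 145) (nat_lit 106)) (PT.lf (nat_lit 7600) (nat_lit 6) (nat_lit 100) (nat_lit 2) (nat_lit 140) (nat_lit 145) (nat_lit 105)))) (PT.nd (nat_lit 78) (PT.lf (nat_lit 7220) (nat_lit 6) (nat_lit 95) (nat_lit 2) (nat_lit 141) (nat_lit 145) (nat_lit 104)) (PT.nd (nat_lit 78) (PT.lf (nat_lit 6916) (nat_lit 6) (nat_lit 91) (nat_lit 2) (nat_lit 142) (nat_lit 145) (nat_lit 103)) (PT.lf (nat_lit 6536) (nat_lit 6) (nat_lit 86) (nat_lit 2) (nat_lit 143) (nat_lit 145) (nat_lit 102)))))) (PT.nd (nat_lit 468) (PT.nd (nat_lit 234) (PT.nd (nat_lit 78) (PT.lf (nat_lit 6232) (nat_lit 6) (nat_lit 82) (nat_lit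 2) (nat_lit 144) (nat_lit 145) (nat_lit 101)) (PT.nd (nat_lit 78) (PT.lf (nat_lit 5928) (nat_lit 3) (nat_lit 78) (nat_lit 0) (nat_lit 145) (nat_lit 145) (nat_lit 100)) (PT.lf (nat_lit 5548) (nat_lit 6) (nat_lit 73) (nat_lit 0) (nat_lit 146) (nat_lit 145) (nat_lit 99)))) (PT.nd (nat_lit 78) (PT.lf (nat_lit 5168) (nat_lit 6) (nat_lit 68) (nat_lit 0) (nat_lit 147) (nat_lit 145) (nat_lit 98)) (PT.nd (nat_lit 78) (PT.lf (nat_lit 4864) (nat_lit 6) (nat_lit 64) (nat_lit 0) (nat_lit 148) (nat_lit 145) (nat_lit 97)) (PT.lf (nat_lit 4484) (nat_lit 6) (nat_lit 59) (nat_lit 0) (nat_lit 149) (nat_lit 145) (nat_lit 96))))) (PT.nd (nat_lit 36270) (PT.nd (nat_lit 78) (PT.lf (nat_lit 4180) (nat_lit 6) (nat_lit 55) (nat_lit 0) (nat_lit 150) (nat_lit 145) (nat_lit 95)) (PT.nd (nat_lit 36114) (PT.lf (nat_lit 3876) (nat_lit 6) (nat_lit 51) (nat_lit 0) (nat_lit 151) (nat_lit 145) (nat_lit 94)) (PT.lf (nat_lit 3648)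 (nat_lit 6) (nat_lit 48) (nat_lit 5) (nat_lit 93) (nat_lit 146) (nat_lit 151)))) (PT.nd (nat_lit 156) (PT.nd (nat_lit 78) (PT.lf (nat_lit 3952) (nat_lit 6) (nat_lit 52) (nat_lit 5) (nat_lit 94) (nat_lit 146) (nat_lit 150)) (PT.lf (nat_lit 4256) (nat_lit 6) (nat_lit 56) (nat_lit 5) (nat_lit 95) (nat_lit 146) (nat_lit 149))) (PT.nd (nat_lit 78) (PT.lf (nat_lit 4560) (nat_lit 6) (nat_lit 60) (nat_lit 5) (nat_lit 96) (nat_lit 146) (nat_lit 148)) (PT.lf (nat_lit 4940) (nat_lit 6) (nat_lit 65) (nat_lit 5) (nat_lit 97) (nat_lit 146) (nat_lit 147))))))) (PT.nd (nat_lit 1014) (PT.nd (nat_lit 468) (PT.nd (nat_lit 234) (PT.nd (nat_lit 78) (PT.lf (nat_lit 5244) (nat_lit 3) (nat_lit 69) (nat_lit 4) (nat_lit 98) (nat_lit 146) (nat_lit 146)) (PT.nd (nat_lit 78) (PT.lf (nat_lit 5548) (nat_lit 6) (nat_lit 73) (nat_lit 4) (nat_lit 99) (nat_lit 146) (nat_lit 145)) (PT.lf (nat_lit 5852) (nat_lit 6) (nat_lit 77) (nat_lit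 4) (nat_lit 100) (nat_lit 146) (nat_lit 144)))) (PT.nd (nat_lit 78) (PT.lf (nat_lit 6156) (nat_lit 6) (nat_lit 81) (nat_lit 4) (nat_lit 101) (nat_lit 146) (nat_lit 143)) (PT.nd (nat_lit 78) (PT.lf (nat_lit 6460) (nat_lit 6) (nat_lit 85) (nat_lit 4) (nat_lit 102) (nat_lit 146) (nat_lit 142)) (PT.lf (nat_lit 6840) (nat_lit 6) (nat_lit 90) (nat_lit 4) (nat_lit 103) (nat_lit 146) (nat_lit 141))))) (PT.nd (nat_lit 234) (PT.nd (nat_lit 78) (PT.lf (nat_lit 7144) (nat_lit 6) (nat_lit 94) (nat_lit 4) (nat_lit 104) (nat_lit 146) (nat_lit 140)) (PT.nd (nat_lit 78) (PT.lf (nat_lit 7524) (nat_lit 6) (nat_lit 99) (nat_lit 4) (nat_lit 105) (nat_lit 146) (nat_lit 139)) (PT.lf (nat_lit 7904) (nat_lit 6) (nat_lit 104) (nat_lit 4) (nat_lit 106) (nat_lit 146) (nat_lit 138)))) (PT.nd (nat_lit 156) (PT.nd (nat_lit 78) (PT.lf (nat_lit 8360) (nat_lit 6) (nat_lit 110) (nat_lit 4) (nat_lit 107) (nat_lit 146) (nat_lit 137))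 (PT.lf (nat_lit 8740) (nat_lit 6) (nat_lit 115) (nat_lit 4) (nat_lit 108) (nat_lit 146) (nat_lit 136))) (PT.nd (nat_lit 78) (PT.lf (nat_lit 9196) (nat_lit 6) (nat_lit 121) (nat_lit 4) (nat_lit 109) (nat_lit 146) (nat_lit 135)) (PT.lf (nat_lit 9652) (nat_lit 6) (nat_lit 127) (nat_lit 4) (nat_lit 110) (nat_lit 146) (nat_lit 134)))))) (PT.nd (nat_lit 1950) (PT.nd (nat_lit 1716) (PT.nd (nat_lit 78) (PT.lf (nat_lit 10184) (nat_lit 6) (nat_lit 134) (nat_lit 4) (nat_lit 111) (nat_lit 146) (nat_lit 133)) (PT.nd (nat_lit 1560) (PT.lf (nat_lit 10716) (nat_lit 6) (nat_lit 141) (nat_lit 4) (nat_lit 112) (nat_lit 146) (nat_lit 132)) (PT.lf (nat_lit 10716) (nat_lit 6) (nat_lit 141) (nat_lit 2) (nat_lit 132) (nat_lit 146) (nat_lit 112)))) (PT.nd (nat_lit 78) (PT.lf (nat_lit 10184) (nat_lit 6) (nat_lit 134) (nat_lit 2) (nat_lit 133) (nat_lit 146) (nat_lit 111)) (PT.nd (nat_lit 78) (PT.lf (nat_lit 9652) (nat_lit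 6) (nat_lit 127) (nat_lit 2) (nat_lit 134) (nat_lit 146) (nat_lit 110)) (PT.lf (nat_lit 9196) (nat_lit 6) (nat_lit 121) (nat_lit 2) (nat_lit 135) (nat_lit 146) (nat_lit 109))))) (PT.nd (nat_lit 234) (PT.nd (nat_lit 78) (PT.lf (nat_lit 8740) (nat_lit 6) (nat_lit 115) (nat_lit 2) (nat_lit 136) (nat_lit 146) (nat_lit 108)) (PT.nd (nat_lit 78) (PT.lf (nat_lit 8360) (nat_lit 6) (nat_lit 110) (nat_lit 2) (nat_lit 137) (nat_lit 146) (nat_lit 107)) (PT.lf (nat_lit 7904) (nat_lit 6) (nat_lit 104) (nat_lit 2) (nat_lit 138) (nat_lit 146) (nat_lit 106)))) (PT.nd (nat_lit 156) (PT.nd (nat_lit 78) (PT.lf (nat_lit 7524) (nat_lit 6) (nat_lit 99) (nat_lit 2) (nat_lit 139) (nat_lit 146) (nat_lit 105)) (PT.lf (nat_lit 7144) (nat_lit 6) (nat_lit 94) (nat_lit 2) (nat_lit 140) (nat_lit 146) (nat_lit 104))) (PT.nd (nat_lit 78) (PT.lf (nat_lit 6840) (nat_lit 6) (nat_lit 90) (nat_lit 2) (nat_lit 141) (nat_lit 146) (nat_lit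 103)) (PT.lf (nat_lit 6460) (nat_lit 6) (nat_lit 85) (nat_lit 2) (nat_lit 142) (nat_lit 146) (nat_lit 102))))))))
noncomputable def pc27 : PT := (PT.nd (nat_lit 37830) (PT.nd (nat_lit 36816) (PT.nd (nat_lit 468) (PT.nd (nat_lit 234) (PT.nd (nat_lit 78) (PT.lf (nat_lit 6156) (nat_lit 6) (nat_lit 81) (nat_lit 2) (nat_lit 143) (nat_lit 146) (nat_lit 101)) (PT.nd (nat_lit 78) (PT.lf (nat_lit 5852) (nat_lit 6) (nat_lit 77) (nat_lit 2) (nat_lit 144) (nat_lit 146) (nat_lit 100)) (PT.lf (nat_lit 5548) (nat_lit 6) (nat_lit 73) (nat_lit 2) (nat_lit 145) (nat_lit 146) (nat_lit 99)))) (PT.nd (nat_lit 78) (PT.lf (nat_lit 5244) (nat_lit 3) (nat_lit 69) (nat_lit 0) (nat_lit 146) (nat_lit 146) (nat_lit 98)) (PT.nd (nat_lit 78) (PT.lf (nat_lit 4940) (nat_lit 6) (nat_lit 65) (nat_lit 0) (nat_lit 147) (nat_lit 146) (nat_lit 97)) (PT.lf (nat_lit 4560) (nat_lit 6) (nat_lit 60) (nat_lit 0) (nat_lit 148) (nat_lit 146)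 (nat_lit 96))))) (PT.nd (nat_lit 36114) (PT.nd (nat_lit 78) (PT.lf (nat_lit 4256) (nat_lit 6) (nat_lit 56) (nat_lit 0) (nat_lit 149) (nat_lit 146) (nat_lit 95)) (PT.nd (nat_lit 78) (PT.lf (nat_lit 3952) (nat_lit 6) (nat_lit 52) (nat_lit 0) (nat_lit 150) (nat_lit 146) (nat_lit 94)) (PT.lf (nat_lit 3648) (nat_lit 6) (nat_lit 48) (nat_lit 0) (nat_lit 151) (nat_lit 146) (nat_lit 93)))) (PT.nd (nat_lit 78) (PT.lf (nat_lit 3192) (nat_lit 6) (nat_lit 42) (nat_lit 5) (nat_lit 91) (nat_lit 147) (nat_lit 152)) (PT.nd (nat_lit 78) (PT.lf (nat_lit 3420) (nat_lit 6) (nat_lit 45) (nat_lit 5) (nat_lit 92) (nat_lit 147) (nat_lit 151)) (PT.lf (nat_lit 3724) (nat_lit 6) (nat_lit 49) (nat_lit 5) (nat_lit 93) (nat_lit 147) (nat_lit 150)))))) (PT.nd (nat_lit 468) (PT.nd (nat_lit 234) (PT.nd (nat_lit 78) (PT.lf (nat_lit 4028) (nat_lit 6) (nat_lit 53) (nat_lit 5) (nat_lit 94) (nat_lit 147) (nat_lit 149)) (PT.nd (nat_lit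 78) (PT.lf (nat_lit 4332) (nat_lit 6) (nat_lit 57) (nat_lit 5) (nat_lit 95) (nat_lit 147) (nat_lit 148)) (PT.lf (nat_lit 4636) (nat_lit 3) (nat_lit 61) (nat_lit 4) (nat_lit 96) (nat_lit 147) (nat_lit 147)))) (PT.nd (nat_lit 78) (PT.lf (nat_lit 4940) (nat_lit 6) (nat_lit 65) (nat_lit 4) (nat_lit 97) (nat_lit 147) (nat_lit 146)) (PT.nd (nat_lit 78) (PT.lf (nat_lit 5168) (nat_lit 6) (nat_lit 68) (nat_lit 4) (nat_lit 98) (nat_lit 147) (nat_lit 145)) (PT.lf (nat_lit 5472) (nat_lit 6) (nat_lit 72) (nat_lit 4) (nat_lit 99) (nat_lit 147) (nat_lit 144))))) (PT.nd (nat_lit 234) (PT.nd (nat_lit 78) (PT.lf (nat_lit 5776) (nat_lit 6) (nat_lit 76) (nat_lit 4) (nat_lit 100) (nat_lit 147) (nat_lit 143)) (PT.nd (nat_lit 78) (PT.lf (nat_lit 6080) (nat_lit 6) (nat_lit 80) (nat_lit 4) (nat_lit 101) (nat_lit 147) (nat_lit 142)) (PT.lf (nat_lit 6384) (nat_lit 6) (nat_lit 84) (nat_lit 4) (nat_lit 102) (nat_lit 147)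 (nat_lit 141)))) (PT.nd (nat_lit 156) (PT.nd (nat_lit 78) (PT.lf (nat_lit 6764) (nat_lit 6) (nat_lit 89) (nat_lit 4) (nat_lit 103) (nat_lit 147) (nat_lit 140)) (PT.lf (nat_lit 7068) (nat_lit 6) (nat_lit 93) (nat_lit 4) (nat_lit 104) (nat_lit 147) (nat_lit 139))) (PT.nd (nat_lit 78) (PT.lf (nat_lit 7448) (nat_lit 6) (nat_lit 98) (nat_lit 4) (nat_lit 105) (nat_lit 147) (nat_lit 138)) (PT.lf (nat_lit 7828) (nat_lit 6) (nat_lit 103) (nat_lit 4) (nat_lit 106) (nat_lit 147) (nat_lit 137))))))) (PT.nd (nat_lit 3198) (PT.nd (nat_lit 2652) (PT.nd (nat_lit 2418) (PT.nd (nat_lit 2262) (PT.lf (nat_lit 8284) (nat_lit 6) (nat_lit 109) (nat_lit 4) (nat_lit 107) (nat_lit 147) (nat_lit 136)) (PT.nd (nat_lit 78) (PT.lf (nat_lit 8284) (nat_lit 6) (nat_lit 109) (nat_lit 2) (nat_lit 136) (nat_lit 147) (nat_lit 107)) (PT.lf (nat_lit 7828) (nat_lit 6) (nat_lit 103) (nat_lit 2) (nat_lit 137) (nat_lit 147) (nat_lit 106))))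 (PT.nd (nat_lit 78) (PT.lf (nat_lit 7448) (nat_lit 6) (nat_lit 98) (nat_lit 2) (nat_lit 138) (nat_lit 147) (nat_lit 105)) (PT.nd (nat_lit 78) (PT.lf (nat_lit 7068) (nat_lit 6) (nat_lit 93) (nat_lit 2) (nat_lit 139) (nat_lit 147) (nat_lit 104)) (PT.lf (nat_lit 6764) (nat_lit 6) (nat_lit 89) (nat_lit 2) (nat_lit 140) (nat_lit 147) (nat_lit 103))))) (PT.nd (nat_lit 234) (PT.nd (nat_lit 78) (PT.lf (nat_lit 6384) (nat_lit 6) (nat_lit 84) (nat_lit 2) (nat_lit 141) (nat_lit 147) (nat_lit 102)) (PT.nd (nat_lit 78) (PT.lf (nat_lit 6080) (nat_lit 6) (nat_lit 80) (nat_lit 2) (nat_lit 142) (nat_lit 147) (nat_lit 101)) (PT.lf (nat_lit 5776) (nat_lit 6) (nat_lit 76) (nat_lit 2) (nat_lit 143) (nat_lit 147) (nat_lit 100)))) (PT.nd (nat_lit 156) (PT.nd (nat_lit 78) (PT.lf (nat_lit 5472) (nat_lit 6) (nat_lit 72) (nat_lit 2) (nat_lit 144) (nat_lit 147) (nat_lit 99)) (PT.lf (nat_lit 5168) (nat_lit 6) (nat_lit 68)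 (nat_lit 2) (nat_lit 145) (nat_lit 147) (nat_lit 98))) (PT.nd (nat_lit 78) (PT.lf (nat_lit 4940) (nat_lit 6) (nat_lit 65) (nat_lit 2) (nat_lit 146) (nat_lit 147) (nat_lit 97)) (PT.lf (nat_lit 4636) (nat_lit 3) (nat_lit 61) (nat_lit 0) (nat_lit 147) (nat_lit 147) (nat_lit 96)))))) (PT.nd (nat_lit 36192) (PT.nd (nat_lit 234) (PT.nd (nat_lit 78) (PT.lf (nat_lit 4332) (nat_lit 6) (nat_lit 57) (nat_lit 0) (nat_lit 148) (nat_lit 147) (nat_lit 95)) (PT.nd (nat_lit 78) (PT.lf (nat_lit 4028) (nat_lit 6) (nat_lit 53) (nat_lit 0) (nat_lit 149) (nat_lit 147) (nat_lit 94)) (PT.lf (nat_lit 3724) (nat_lit 6) (nat_lit 49) (nat_lit 0) (nat_lit 150) (nat_lit 147) (nat_lit 93)))) (PT.nd (nat_lit 78) (PT.lf (nat_lit 3420) (nat_lit 6) (nat_lit 45) (nat_lit 0) (nat_lit 151) (nat_lit 147) (nat_lit 92)) (PT.nd (nat_lit 35802) (PT.lf (nat_lit 3192) (nat_lit 6) (nat_lit 42) (nat_lit 0) (nat_lit 152) (nat_lit 147) (nat_lit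 91)) (PT.lf (nat_lit 2964) (nat_lit 6) (nat_lit 39) (nat_lit 5) (nat_lit 90) (nat_lit 148) (nat_lit 152))))) (PT.nd (nat_lit 234) (PT.nd (nat_lit 78) (PT.lf (nat_lit 3268) (nat_lit 6) (nat_lit 43) (nat_lit 5) (nat_lit 91) (nat_lit 148) (nat_lit 151)) (PT.nd (nat_lit 78) (PT.lf (nat_lit 3496) (nat_lit 6) (nat_lit 46) (nat_lit 5) (nat_lit 92) (nat_lit 148) (nat_lit 150)) (PT.lf (nat_lit 3800) (nat_lit 6) (nat_lit 50) (nat_lit 5) (nat_lit 93) (nat_lit 148) (nat_lit 149)))) (PT.nd (nat_lit 156) (PT.nd (nat_lit 78) (PT.lf (nat_lit 4104) (nat_lit 3) (nat_lit 54) (nat_lit 4) (nat_lit 94) (nat_lit 148) (nat_lit 148)) (PT.lf (nat_lit 4332) (nat_lit 6) (nat_lit 57) (nat_lit 4) (nat_lit 95) (nat_lit 148) (nat_lit 147))) (PT.nd (nat_lit 78) (PT.lf (nat_lit 4560) (nat_lit 6) (nat_lit 60) (nat_lit 4) (nat_lit 96) (nat_lit 148) (nat_lit 146)) (PT.lf (nat_lit 4864) (nat_lit 6) (nat_lit 64) (nat_lit 4) (nat_lit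 97) (nat_lit 148) (nat_lit 145))))))))
noncomputable def pc28 : PT := (PT.nd (nat_lit 40248) (PT.nd (nat_lit 3666) (PT.nd (nat_lit 3198) (PT.nd (nat_lit 234) (PT.nd (nat_lit 78) (PT.lf (nat_lit 5092) (nat_lit 6) (nat_lit 67) (nat_lit 4) (nat_lit 98) (nat_lit 148) (nat_lit 144)) (PT.nd (nat_lit 78) (PT.lf (nat_lit 5396) (nat_lit 6) (nat_lit 71) (nat_lit 4) (nat_lit 99) (nat_lit 148) (nat_lit 143)) (PT.lf (nat_lit 5700) (nat_lit 6) (nat_lit 75) (nat_lit 4) (nat_lit 100) (nat_lit 148) (nat_lit 142)))) (PT.nd (nat_lit 78) (PT.lf (nat_lit 6004) (nat_lit 6) (nat_lit 79) (nat_lit 4) (nat_lit 101) (nat_lit 148) (nat_lit 141)) (PT.nd (nat_lit 78) (PT.lf (nat_lit 6308) (nat_lit 6) (nat_lit 83) (nat_lit 4) (nat_lit 102) (nat_lit 148) (nat_lit 140)) (PT.lf (nat_lit 6688) (nat_lit 6) (nat_lit 88) (nat_lit 4) (nat_lit 103) (nat_lit 148) (nat_lit 139))))) (PT.nd (nat_lit 234) (PT.nd (nat_lit 78) (PT.lf (nat_lit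 6688) (nat_lit 6) (nat_lit 88) (nat_lit 2) (nat_lit 139) (nat_lit 148) (nat_lit 103)) (PT.nd (nat_lit 78) (PT.lf (nat_lit 6308) (nat_lit 6) (nat_lit 83) (nat_lit 2) (nat_lit 140) (nat_lit 148) (nat_lit 102)) (PT.lf (nat_lit 6004) (nat_lit 6) (nat_lit 79) (nat_lit 2) (nat_lit 141) (nat_lit 148) (nat_lit 101)))) (PT.nd (nat_lit 78) (PT.lf (nat_lit 5700) (nat_lit 6) (nat_lit 75) (nat_lit 2) (nat_lit 142) (nat_lit 148) (nat_lit 100)) (PT.nd (nat_lit 78) (PT.lf (nat_lit 5396) (nat_lit 6) (nat_lit 71) (nat_lit 2) (nat_lit 143) (nat_lit 148) (nat_lit 99)) (PT.lf (nat_lit 5092) (nat_lit 6) (nat_lit 67) (nat_lit 2) (nat_lit 144) (nat_lit 148) (nat_lit 98)))))) (PT.nd (nat_lit 468) (PT.nd (nat_lit 234) (PT.nd (nat_lit 78) (PT.lf (nat_lit 4864) (nat_lit 6) (nat_lit 64) (nat_lit 2) (nat_lit 145) (nat_lit 148) (nat_lit 97)) (PT.nd (nat_lit 78) (PT.lf (nat_lit 4560) (nat_lit 6) (nat_lit 60) (nat_lit 2) (nat_lit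 146) (nat_lit 148) (nat_lit 96)) (PT.lf (nat_lit 4332) (nat_lit 6) (nat_lit 57) (nat_lit 2) (nat_lit 147) (nat_lit 148) (nat_lit 95)))) (PT.nd (nat_lit 78) (PT.lf (nat_lit 4104) (nat_lit 3) (nat_lit 54) (nat_lit 0) (nat_lit 148) (nat_lit 148) (nat_lit 94)) (PT.nd (nat_lit 78) (PT.lf (nat_lit 3800) (nat_lit 6) (nat_lit 50) (nat_lit 0) (nat_lit 149) (nat_lit 148) (nat_lit 93)) (PT.lf (nat_lit 3496) (nat_lit 6) (nat_lit 46) (nat_lit 0) (nat_lit 150) (nat_lit 148) (nat_lit 92))))) (PT.nd (nat_lit 35802) (PT.nd (nat_lit 78) (PT.lf (nat_lit 3268) (nat_lit 6) (nat_lit 43) (nat_lit 0) (nat_lit 151) (nat_lit 148) (nat_lit 91)) (PT.nd (nat_lit 35646) (PT.lf (nat_lit 2964) (nat_lit 6) (nat_lit 39) (nat_lit 0) (nat_lit 152) (nat_lit 148) (nat_lit 90)) (PT.lf (nat_lit 2584) (nat_lit 6) (nat_lit 34) (nat_lit 5) (nat_lit 88) (nat_lit 149) (nat_lit 153)))) (PT.nd (nat_lit 156) (PT.nd (nat_lit 78) (PT.lf (nat_lit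 2812) (nat_lit 6) (nat_lit 37) (nat_lit 5) (nat_lit 89) (nat_lit 149) (nat_lit 152)) (PT.lf (nat_lit 3040) (nat_lit 6) (nat_lit 40) (nat_lit 5) (nat_lit 90) (nat_lit 149) (nat_lit 151))) (PT.nd (nat_lit 78) (PT.lf (nat_lit 3344) (nat_lit 6) (nat_lit 44) (nat_lit 5) (nat_lit 91) (nat_lit 149) (nat_lit 150)) (PT.lf (nat_lit 3572) (nat_lit 3) (nat_lit 47) (nat_lit 4) (nat_lit 92) (nat_lit 149) (nat_lit 149))))))) (PT.nd (nat_lit 4134) (PT.nd (nat_lit 468) (PT.nd (nat_lit 234) (PT.nd (nat_lit 78) (PT.lf (nat_lit 3800) (nat_lit 6) (nat_lit 50) (nat_lit 4) (nat_lit 93) (nat_lit 149) (nat_lit 148)) (PT.nd (nat_lit 78) (PT.lf (nat_lit 4028) (nat_lit 6) (nat_lit 53) (nat_lit 4) (nat_lit 94) (nat_lit 149) (nat_lit 147)) (PT.lf (nat_lit 4256) (nat_lit 6) (nat_lit 56) (nat_lit 4) (nat_lit 95) (nat_lit 149) (nat_lit 146)))) (PT.nd (nat_lit 78) (PT.lf (nat_lit 4484) (nat_lit 6) (nat_lit 59) (nat_lit 4) (nat_lit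 96) (nat_lit 149) (nat_lit 145)) (PT.nd (nat_lit 78) (PT.lf (nat_lit 4788) (nat_lit 6) (nat_lit 63) (nat_lit 4) (nat_lit 97) (nat_lit 149) (nat_lit 144)) (PT.lf (nat_lit 5016) (nat_lit 6) (nat_lit 66) (nat_lit 4) (nat_lit 98) (nat_lit 149) (nat_lit 143))))) (PT.nd (nat_lit 3354) (PT.nd (nat_lit 78) (PT.lf (nat_lit 5320) (nat_lit 6) (nat_lit 70) (nat_lit 4) (nat_lit 99) (nat_lit 149) (nat_lit 142)) (PT.nd (nat_lit 3198) (PT.lf (nat_lit 5624) (nat_lit 6) (nat_lit 74) (nat_lit 4) (nat_lit 100) (nat_lit 149) (nat_lit 141)) (PT.lf (nat_lit 5624) (nat_lit 6) (nat_lit 74) (nat_lit 2) (nat_lit 141) (nat_lit 149) (nat_lit 100)))) (PT.nd (nat_lit 156) (PT.nd (nat_lit 78) (PT.lf (nat_lit 5320) (nat_lit 6) (nat_lit 70) (nat_lit 2) (nat_lit 142) (nat_lit 149) (nat_lit 99)) (PT.lf (nat_lit 5016) (nat_lit 6) (nat_lit 66) (nat_lit 2) (nat_lit 143) (nat_lit 149) (nat_lit 98))) (PT.nd (nat_lit 78) (PT.lf (nat_lit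 4788) (nat_lit 6) (nat_lit 63) (nat_lit 2) (nat_lit 144) (nat_lit 149) (nat_lit 97)) (PT.lf (nat_lit 4484) (nat_lit 6) (nat_lit 59) (nat_lit 2) (nat_lit 145) (nat_lit 149) (nat_lit 96)))))) (PT.nd (nat_lit 468) (PT.nd (nat_lit 234) (PT.nd (nat_lit 78) (PT.lf (nat_lit 4256) (nat_lit 6) (nat_lit 56) (nat_lit 2) (nat_lit 146) (nat_lit 149) (nat_lit 95)) (PT.nd (nat_lit 78) (PT.lf (nat_lit 4028) (nat_lit 6) (nat_lit 53) (nat_lit 2) (nat_lit 147) (nat_lit 149) (nat_lit 94)) (PT.lf (nat_lit 3800) (nat_lit 6) (nat_lit 50) (nat_lit 2) (nat_lit 148) (nat_lit 149) (nat_lit 93)))) (PT.nd (nat_lit 78) (PT.lf (nat_lit 3572) (nat_lit 3) (nat_lit 47) (nat_lit 0) (nat_lit 149) (nat_lit 149) (nat_lit 92)) (PT.nd (nat_lit 78) (PT.lf (nat_lit 3344) (nat_lit 6) (nat_lit 44) (nat_lit 0) (nat_lit 150) (nat_lit 149) (nat_lit 91)) (PT.lf (nat_lit 3040) (nat_lit 6) (nat_lit 40) (nat_lit 0) (nat_lit 151) (nat_lit 149)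 (nat_lit 90))))) (PT.nd (nat_lit 35568) (PT.nd (nat_lit 78) (PT.lf (nat_lit 2812) (nat_lit 6) (nat_lit 37) (nat_lit 0) (nat_lit 152) (nat_lit 149) (nat_lit 89)) (PT.nd (nat_lit 35412) (PT.lf (nat_lit 2584) (nat_lit 6) (nat_lit 34) (nat_lit 0) (nat_lit 153) (nat_lit 149) (nat_lit 88)) (PT.lf (nat_lit 2204) (nat_lit 6) (nat_lit 29) (nat_lit 5) (nat_lit 86) (nat_lit 150) (nat_lit 154)))) (PT.nd (nat_lit 156) (PT.nd (nat_lit 78) (PT.lf (nat_lit 2432) (nat_lit 6) (nat_lit 32) (nat_lit 5) (nat_lit 87) (nat_lit 150) (nat_lit 153)) (PT.lf (nat_lit 2660) (nat_lit 6) (nat_lit 35) (nat_lit 5) (nat_lit 88) (nat_lit 150) (nat_lit 152))) (PT.nd (nat_lit 78) (PT.lf (nat_lit 2888) (nat_lit 6) (nat_lit 38) (nat_lit 5) (nat_lit 89) (nat_lit 150) (nat_lit 151)) (PT.lf (nat_lit 3116) (nat_lit 3) (nat_lit 41) (nat_lit 4) (nat_lit 90) (nat_lit 150) (nat_lit 150))))))))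
noncomputable def pc29 : PT := (PT.nd (nat_lit 40638) (PT.nd (nat_lit 4446) (PT.nd (nat_lit 468) (PT.nd (nat_lit 234) (PT.nd (nat_lit 78) (PT.lf (nat_lit 3344) (nat_lit 6) (nat_lit 44) (nat_lit 4) (nat_lit 91) (nat_lit 150) (nat_lit 149)) (PT.nd (nat_lit 78) (PT.lf (nat_lit 3496) (nat_lit 6) (nat_lit 46) (nat_lit 4) (nat_lit 92) (nat_lit 150) (nat_lit 148)) (PT.lf (nat_lit 3724) (nat_lit 6) (nat_lit 49) (nat_lit 4) (nat_lit 93) (nat_lit 150) (nat_lit 147)))) (PT.nd (nat_lit 78) (PT.lf (nat_lit 3952) (nat_lit 6) (nat_lit 52) (nat_lit 4) (nat_lit 94) (nat_lit 150) (nat_lit 146)) (PT.nd (nat_lit 78) (PT.lf (nat_lit 4180) (nat_lit 6) (nat_lit 55) (nat_lit 4) (nat_lit 95) (nat_lit 150) (nat_lit 145)) (PT.lf (nat_lit 4408) (nat_lit 6) (nat_lit 58) (nat_lit 4) (nat_lit 96) (nat_lit 150) (nat_lit 144))))) (PT.nd (nat_lit 3744) (PT.nd (nat_lit 3588) (PT.lf (nat_lit 4712) (nat_lit 6) (nat_lit 62) (nat_lit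 4) (nat_lit 97) (nat_lit 150) (nat_lit 143)) (PT.nd (nat_lit 78) (PT.lf (nat_lit 4712) (nat_lit 6) (nat_lit 62) (nat_lit 2) (nat_lit 143) (nat_lit 150) (nat_lit 97)) (PT.lf (nat_lit 4408) (nat_lit 6) (nat_lit 58) (nat_lit 2) (nat_lit 144) (nat_lit 150) (nat_lit 96)))) (PT.nd (nat_lit 78) (PT.lf (nat_lit 4180) (nat_lit 6) (nat_lit 55) (nat_lit 2) (nat_lit 145) (nat_lit 150) (nat_lit 95)) (PT.nd (nat_lit 78) (PT.lf (nat_lit 3952) (nat_lit 6) (nat_lit 52) (nat_lit 2) (nat_lit 146) (nat_lit 150) (nat_lit 94)) (PT.lf (nat_lit 3724) (nat_lit 6) (nat_lit 49) (nat_lit 2) (nat_lit 147) (nat_lit 150) (nat_lit 93)))))) (PT.nd (nat_lit 468) (PT.nd (nat_lit 234) (PT.nd (nat_lit 78) (PT.lf (nat_lit 3496) (nat_lit 6) (nat_lit 46) (nat_lit 2) (nat_lit 148) (nat_lit 150) (nat_lit 92)) (PT.nd (nat_lit 78) (PT.lf (nat_lit 3344) (nat_lit 6) (nat_lit 44) (nat_lit 2) (nat_lit 149) (nat_lit 150) (nat_lit 91)) (PT.lf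 (nat_lit 3116) (nat_lit 3) (nat_lit 41) (nat_lit 0) (nat_lit 150) (nat_lit 150) (nat_lit 90)))) (PT.nd (nat_lit 78) (PT.lf (nat_lit 2888) (nat_lit 6) (nat_lit 38) (nat_lit 0) (nat_lit 151) (nat_lit 150) (nat_lit 89)) (PT.nd (nat_lit 78) (PT.lf (nat_lit 2660) (nat_lit 6) (nat_lit 35) (nat_lit 0) (nat_lit 152) (nat_lit 150) (nat_lit 88)) (PT.lf (nat_lit 2432) (nat_lit 6) (nat_lit 32) (nat_lit 0) (nat_lit 153) (nat_lit 150) (nat_lit 87))))) (PT.nd (nat_lit 35412) (PT.nd (nat_lit 35256) (PT.lf (nat_lit 2204) (nat_lit 6) (nat_lit 29) (nat_lit 0) (nat_lit 154) (nat_lit 150) (nat_lit 86)) (PT.nd (nat_lit 78) (PT.lf (nat_lit 2052) (nat_lit 6) (nat_lit 27) (nat_lit 5) (nat_lit 85) (nat_lit 151) (nat_lit 154)) (PT.lf (nat_lit 2280) (nat_lit 6) (nat_lit 30) (nat_lit 5) (nat_lit 86) (nat_lit 151) (nat_lit 153)))) (PT.nd (nat_lit 156) (PT.nd (nat_lit 78) (PT.lf (nat_lit 2508) (nat_lit 6) (nat_lit 33) (nat_lit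 5) (nat_lit 87) (nat_lit 151) (nat_lit 152)) (PT.lf (nat_lit 2736) (nat_lit 3) (nat_lit 36) (nat_lit 4) (nat_lit 88) (nat_lit 151) (nat_lit 151))) (PT.nd (nat_lit 78) (PT.lf (nat_lit 2888) (nat_lit 6) (nat_lit 38) (nat_lit 4) (nat_lit 89) (nat_lit 151) (nat_lit 150)) (PT.lf (nat_lit 3040) (nat_lit 6) (nat_lit 40) (nat_lit 4) (nat_lit 90) (nat_lit 151) (nat_lit 149))))))) (PT.nd (nat_lit 4914) (PT.nd (nat_lit 4368) (PT.nd (nat_lit 234) (PT.nd (nat_lit 78) (PT.lf (nat_lit 3268) (nat_lit 6) (nat_lit 43) (nat_lit 4) (nat_lit 91) (nat_lit 151) (nat_lit 148)) (PT.nd (nat_lit 78) (PT.lf (nat_lit 3420) (nat_lit 6) (nat_lit 45) (nat_lit 4) (nat_lit 92) (nat_lit 151) (nat_lit 147)) (PT.lf (nat_lit 3648) (nat_lit 6) (nat_lit 48) (nat_lit 4) (nat_lit 93) (nat_lit 151) (nat_lit 146)))) (PT.nd (nat_lit 3978) (PT.lf (nat_lit 3876) (nat_lit 6) (nat_lit 51) (nat_lit 4) (nat_lit 94) (nat_lit 151) (nat_lit 145))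 (PT.nd (nat_lit 78) (PT.lf (nat_lit 3876) (nat_lit 6) (nat_lit 51) (nat_lit 2) (nat_lit 145) (nat_lit 151) (nat_lit 94)) (PT.lf (nat_lit 3648) (nat_lit 6) (nat_lit 48) (nat_lit 2) (nat_lit 146) (nat_lit 151) (nat_lit 93))))) (PT.nd (nat_lit 234) (PT.nd (nat_lit 78) (PT.lf (nat_lit 3420) (nat_lit 6) (nat_lit 45) (nat_lit 2) (nat_lit 147) (nat_lit 151) (nat_lit 92)) (PT.nd (nat_lit 78) (PT.lf (nat_lit 3268) (nat_lit 6) (nat_lit 43) (nat_lit 2) (nat_lit 148) (nat_lit 151) (nat_lit 91)) (PT.lf (nat_lit 3040) (nat_lit 6) (nat_lit 40) (nat_lit 2) (nat_lit 149) (nat_lit 151) (nat_lit 90)))) (PT.nd (nat_lit 156) (PT.nd (nat_lit 78) (PT.lf (nat_lit 2888) (nat_lit 6) (nat_lit 38) (nat_lit 2) (nat_lit 150) (nat_lit 151) (nat_lit 89)) (PT.lf (nat_lit 2736) (nat_lit 3) (nat_lit 36) (nat_lit 0) (nat_lit 151) (nat_lit 151) (nat_lit 88))) (PT.nd (nat_lit 78) (PT.lf (nat_lit 2508) (nat_lit 6) (nat_lit 33) (nat_lit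 0) (nat_lit 152) (nat_lit 151) (nat_lit 87)) (PT.lf (nat_lit 2280) (nat_lit 6) (nat_lit 30) (nat_lit 0) (nat_lit 153) (nat_lit 151) (nat_lit 86)))))) (PT.nd (nat_lit 35490) (PT.nd (nat_lit 35256) (PT.nd (nat_lit 35100) (PT.lf (nat_lit 2052) (nat_lit 6) (nat_lit 27) (nat_lit 0) (nat_lit 154) (nat_lit 151) (nat_lit 85)) (PT.nd (nat_lit 78) (PT.lf (nat_lit 1748) (nat_lit 6) (nat_lit 23) (nat_lit 5) (nat_lit 83) (nat_lit 152) (nat_lit 155)) (PT.lf (nat_lit 1900) (nat_lit 6) (nat_lit 25) (nat_lit 5) (nat_lit 84) (nat_lit 152) (nat_lit 154)))) (PT.nd (nat_lit 78) (PT.lf (nat_lit 2128) (nat_lit 6) (nat_lit 28) (nat_lit 5) (nat_lit 85) (nat_lit 152) (nat_lit 153)) (PT.nd (nat_lit 78) (PT.lf (nat_lit 2356) (nat_lit 3) (nat_lit 31) (nat_lit 4) (nat_lit 86) (nat_lit 152) (nat_lit 152)) (PT.lf (nat_lit 2508) (nat_lit 6) (nat_lit 33) (nat_lit 4) (nat_lit 87) (nat_lit 152) (nat_lit 151))))) (PT.nd (nat_lit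 234) (PT.nd (nat_lit 78) (PT.lf (nat_lit 2660) (nat_lit 6) (nat_lit 35) (nat_lit 4) (nat_lit 88) (nat_lit 152) (nat_lit 150)) (PT.nd (nat_lit 78) (PT.lf (nat_lit 2812) (nat_lit 6) (nat_lit 37) (nat_lit 4) (nat_lit 89) (nat_lit 152) (nat_lit 149)) (PT.lf (nat_lit 2964) (nat_lit 6) (nat_lit 39) (nat_lit 4) (nat_lit 90) (nat_lit 152) (nat_lit 148)))) (PT.nd (nat_lit 4446) (PT.nd (nat_lit 4368) (PT.lf (nat_lit 3192) (nat_lit 6) (nat_lit 42) (nat_lit 4) (nat_lit 91) (nat_lit 152) (nat_lit 147)) (PT.lf (nat_lit 3192) (nat_lit 6) (nat_lit 42) (nat_lit 2) (nat_lit 147) (nat_lit 152) (nat_lit 91))) (PT.nd (nat_lit 78) (PT.lf (nat_lit 2964) (nat_lit 6) (nat_lit 39) (nat_lit 2) (nat_lit 148) (nat_lit 152) (nat_lit 90)) (PT.lf (nat_lit 2812) (nat_lit 6) (nat_lit 37) (nat_lit 2) (nat_lit 149) (nat_lit 152) (nat_lit 89))))))))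
noncomputable def pc30 : PT := (PT.nd (nat_lit 75972) (PT.nd (nat_lit 35724) (PT.nd (nat_lit 35256) (PT.nd (nat_lit 234) (PT.nd (nat_lit 78) (PT.lf (nat_lit 2660) (nat_lit 6) (nat_lit 35) (nat_lit 2) (nat_lit 150) (nat_lit 152) (nat_lit 88)) (PT.nd (nat_lit 78) (PT.lf (nat_lit 2508) (nat_lit 6) (nat_lit 33) (nat_lit 2) (nat_lit 151) (nat_lit 152) (nat_lit 87)) (PT.lf (nat_lit 2356) (nat_lit 3) (nat_lit 31) (nat_lit 0) (nat_lit 152) (nat_lit 152) (nat_lit 86)))) (PT.nd (nat_lit 78) (PT.lf (nat_lit 2128) (nat_lit 6) (nat_lit 28) (nat_lit 0) (nat_lit 153) (nat_lit 152) (nat_lit 85)) (PT.nd (nat_lit 78) (PT.lf (nat_lit 1900) (nat_lit 6) (nat_lit 25) (nat_lit 0) (nat_lit 154) (nat_lit 152) (nat_lit 84)) (PT.lf (nat_lit 1748) (nat_lit 6) (nat_lit 23) (nat_lit 0) (nat_lit 155) (nat_lit 152) (nat_lit 83))))) (PT.nd (nat_lit 234) (PT.nd (nat_lit 78) (PT.lf (nat_lit 1444) (nat_lit 6) (nat_lit 19) (nat_lit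 5) (nat_lit 81) (nat_lit 153) (nat_lit 156)) (PT.nd (nat_lit 78) (PT.lf (nat_lit 1596) (nat_lit 6) (nat_lit 21) (nat_lit 5) (nat_lit 82) (nat_lit 153) (nat_lit 155)) (PT.lf (nat_lit 1824) (nat_lit 6) (nat_lit 24) (nat_lit 5) (nat_lit 83) (nat_lit 153) (nat_lit 154)))) (PT.nd (nat_lit 78) (PT.lf (nat_lit 1976) (nat_lit 3) (nat_lit 26) (nat_lit 4) (nat_lit 84) (nat_lit 153) (nat_lit 153)) (PT.nd (nat_lit 78) (PT.lf (nat_lit 2128) (nat_lit 6) (nat_lit 28) (nat_lit 4) (nat_lit 85) (nat_lit 153) (nat_lit 152)) (PT.lf (nat_lit 2280) (nat_lit 6) (nat_lit 30) (nat_lit 4) (nat_lit 86) (nat_lit 153) (nat_lit 151)))))) (PT.nd (nat_lit 5148) (PT.nd (nat_lit 4914) (PT.nd (nat_lit 78) (PT.lf (nat_lit 2432) (nat_lit 6) (nat_lit 32) (nat_lit 4) (nat_lit 87) (nat_lit 153) (nat_lit 150)) (PT.nd (nat_lit 4758) (PT.lf (nat_lit 2584) (nat_lit 6) (nat_lit 34) (nat_lit 4) (nat_lit 88) (nat_lit 153) (nat_lit 149)) (PT.lf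 (nat_lit 2584) (nat_lit 6) (nat_lit 34) (nat_lit 2) (nat_lit 149) (nat_lit 153) (nat_lit 88)))) (PT.nd (nat_lit 78) (PT.lf (nat_lit 2432) (nat_lit 6) (nat_lit 32) (nat_lit 2) (nat_lit 150) (nat_lit 153) (nat_lit 87)) (PT.nd (nat_lit 78) (PT.lf (nat_lit 2280) (nat_lit 6) (nat_lit 30) (nat_lit 2) (nat_lit 151) (nat_lit 153) (nat_lit 86)) (PT.lf (nat_lit 2128) (nat_lit 6) (nat_lit 28) (nat_lit 2) (nat_lit 152) (nat_lit 153) (nat_lit 85))))) (PT.nd (nat_lit 234) (PT.nd (nat_lit 78) (PT.lf (nat_lit 1976) (nat_lit 3) (nat_lit 26) (nat_lit 0) (nat_lit 153) (nat_lit 153) (nat_lit 84)) (PT.nd (nat_lit 78) (PT.lf (nat_lit 1824) (nat_lit 6) (nat_lit 24) (nat_lit 0) (nat_lit 154) (nat_lit 153) (nat_lit 83)) (PT.lf (nat_lit 1596) (nat_lit 6) (nat_lit 21) (nat_lit 0) (nat_lit 155) (nat_lit 153) (nat_lit 82)))) (PT.nd (nat_lit 34710) (PT.nd (nat_lit 34632) (PT.lf (nat_lit 1444) (nat_lit 6) (nat_lit 19) (nat_lit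 0) (nat_lit 156) (nat_lit 153) (nat_lit 81)) (PT.lf (nat_lit 1140) (nat_lit 6) (nat_lit 15) (nat_lit 5) (nat_lit 79) (nat_lit 154) (nat_lit 157))) (PT.nd (nat_lit 78) (PT.lf (nat_lit 1292) (nat_lit 6) (nat_lit 17) (nat_lit 5) (nat_lit 80) (nat_lit 154) (nat_lit 156)) (PT.lf (nat_lit 1520) (nat_lit 6) (nat_lit 20) (nat_lit 5) (nat_lit 81) (nat_lit 154) (nat_lit 155))))))) (PT.nd (nat_lit 40326) (PT.nd (nat_lit 5382) (PT.nd (nat_lit 234) (PT.nd (nat_lit 78) (PT.lf (nat_lit 1672) (nat_lit 3) (nat_lit 22) (nat_lit 4) (nat_lit 82) (nat_lit 154) (nat_lit 154)) (PT.nd (nat_lit 78) (PT.lf (nat_lit 1824) (nat_lit 6) (nat_lit 24) (nat_lit 4) (nat_lit 83) (nat_lit 154) (nat_lit 153)) (PT.lf (nat_lit 1900) (nat_lit 6) (nat_lit 25) (nat_lit 4) (nat_lit 84) (nat_lit 154) (nat_lit 152)))) (PT.nd (nat_lit 78) (PT.lf (nat_lit 2052) (nat_lit 6) (nat_lit 27) (nat_lit 4) (nat_lit 85) (nat_lit 154) (nat_lit 151))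 (PT.nd (nat_lit 4992) (PT.lf (nat_lit 2204) (nat_lit 6) (nat_lit 29) (nat_lit 4) (nat_lit 86) (nat_lit 154) (nat_lit 150)) (PT.lf (nat_lit 2204) (nat_lit 6) (nat_lit 29) (nat_lit 2) (nat_lit 150) (nat_lit 154) (nat_lit 86))))) (PT.nd (nat_lit 234) (PT.nd (nat_lit 78) (PT.lf (nat_lit 2052) (nat_lit 6) (nat_lit 27) (nat_lit 2) (nat_lit 151) (nat_lit 154) (nat_lit 85)) (PT.nd (nat_lit 78) (PT.lf (nat_lit 1900) (nat_lit 6) (nat_lit 25) (nat_lit 2) (nat_lit 152) (nat_lit 154) (nat_lit 84)) (PT.lf (nat_lit 1824) (nat_lit 6) (nat_lit 24) (nat_lit 2) (nat_lit 153) (nat_lit 154) (nat_lit 83)))) (PT.nd (nat_lit 156) (PT.nd (nat_lit 78) (PT.lf (nat_lit 1672) (nat_lit 3) (nat_lit 22) (nat_lit 0) (nat_lit 154) (nat_lit 154) (nat_lit 82)) (PT.lf (nat_lit 1520) (nat_lit 6) (nat_lit 20) (nat_lit 0) (nat_lit 155) (nat_lit 154) (nat_lit 81))) (PT.nd (nat_lit 78) (PT.lf (nat_lit 1292) (nat_lit 6) (nat_lit 17) (nat_lit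 0) (nat_lit 156) (nat_lit 154) (nat_lit 80)) (PT.lf (nat_lit 1140) (nat_lit 6) (nat_lit 15) (nat_lit 0) (nat_lit 157) (nat_lit 154) (nat_lit 79)))))) (PT.nd (nat_lit 5772) (PT.nd (nat_lit 234) (PT.nd (nat_lit 78) (PT.lf (nat_lit 988) (nat_lit 6) (nat_lit 13) (nat_lit 5) (nat_lit 78) (nat_lit 155) (nat_lit 157)) (PT.nd (nat_lit 78) (PT.lf (nat_lit 1216) (nat_lit 6) (nat_lit 16) (nat_lit 5) (nat_lit 79) (nat_lit 155) (nat_lit 156)) (PT.lf (nat_lit 1368) (nat_lit 3) (nat_lit 18) (nat_lit 4) (nat_lit 80) (nat_lit 155) (nat_lit 155)))) (PT.nd (nat_lit 78) (PT.lf (nat_lit 1520) (nat_lit 6) (nat_lit 20) (nat_lit 4) (nat_lit 81) (nat_lit 155) (nat_lit 154)) (PT.nd (nat_lit 78) (PT.lf (nat_lit 1596) (nat_lit 6) (nat_lit 21) (nat_lit 4) (nat_lit 82) (nat_lit 155) (nat_lit 153)) (PT.lf (nat_lit 1748) (nat_lit 6) (nat_lit 23) (nat_lit 4) (nat_lit 83) (nat_lit 155) (nat_lit 152))))) (PT.nd (nat_lit 234) (PT.nd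 (nat_lit 78) (PT.lf (nat_lit 1748) (nat_lit 6) (nat_lit 23) (nat_lit 2) (nat_lit 152) (nat_lit 155) (nat_lit 83)) (PT.nd (nat_lit 78) (PT.lf (nat_lit 1596) (nat_lit 6) (nat_lit 21) (nat_lit 2) (nat_lit 153) (nat_lit 155) (nat_lit 82)) (PT.lf (nat_lit 1520) (nat_lit 6) (nat_lit 20) (nat_lit 2) (nat_lit 154) (nat_lit 155) (nat_lit 81)))) (PT.nd (nat_lit 156) (PT.nd (nat_lit 78) (PT.lf (nat_lit 1368) (nat_lit 3) (nat_lit 18) (nat_lit 0) (nat_lit 155) (nat_lit 155) (nat_lit 80)) (PT.lf (nat_lit 1216) (nat_lit 6) (nat_lit 16) (nat_lit 0) (nat_lit 156) (nat_lit 155) (nat_lit 79))) (PT.nd (nat_lit 34320) (PT.lf (nat_lit 988) (nat_lit 6) (nat_lit 13) (nat_lit 0) (nat_lit 157) (nat_lit 155) (nat_lit 78)) (PT.lf (nat_lit 760) (nat_lit 6) (nat_lit 10) (nat_lit 5) (nat_lit 76) (nat_lit 156) (nat_lit 158))))))))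
noncomputable def pc31 : PT := (PT.nd (nat_lit 81042) (PT.nd (nat_lit 40482) (PT.nd (nat_lit 6006) (PT.nd (nat_lit 234) (PT.nd (nat_lit 78) (PT.lf (nat_lit 912) (nat_lit 6) (nat_lit 12) (nat_lit 5) (nat_lit 77) (nat_lit 156) (nat_lit 157)) (PT.nd (nat_lit 78) (PT.lf (nat_lit 1064) (nat_lit 3) (nat_lit 14) (nat_lit 4) (nat_lit 78) (nat_lit 156) (nat_lit 156)) (PT.lf (nat_lit 1216) (nat_lit 6) (nat_lit 16) (nat_lit 4) (nat_lit 79) (nat_lit 156) (nat_lit 155)))) (PT.nd (nat_lit 78) (PT.lf (nat_lit 1292) (nat_lit 6) (nat_lit 17) (nat_lit 4) (nat_lit 80) (nat_lit 156) (nat_lit 154)) (PT.nd (nat_lit 5616) (PT.lf (nat_lit 1444) (nat_lit 6) (nat_lit 19) (nat_lit 4) (nat_lit 81) (nat_lit 156) (nat_lit 153)) (PT.lf (nat_lit 1444) (nat_lit 6) (nat_lit 19) (nat_lit 2) (nat_lit 153) (nat_lit 156) (nat_lit 81))))) (PT.nd (nat_lit 234) (PT.nd (nat_lit 78) (PT.lf (nat_lit 1292) (nat_lit 6) (nat_lit 17) (nat_lit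 2) (nat_lit 154) (nat_lit 156) (nat_lit 80)) (PT.nd (nat_lit 78) (PT.lf (nat_lit 1216) (nat_lit 6) (nat_lit 16) (nat_lit 2) (nat_lit 155) (nat_lit 156) (nat_lit 79)) (PT.lf (nat_lit 1064) (nat_lit 3) (nat_lit 14) (nat_lit 0) (nat_lit 156) (nat_lit 156) (nat_lit 78)))) (PT.nd (nat_lit 78) (PT.lf (nat_lit 912) (nat_lit 6) (nat_lit 12) (nat_lit 0) (nat_lit 157) (nat_lit 156) (nat_lit 77)) (PT.nd (nat_lit 34086) (PT.lf (nat_lit 760) (nat_lit 6) (nat_lit 10) (nat_lit 0) (nat_lit 158) (nat_lit 156) (nat_lit 76)) (PT.lf (nat_lit 532) (nat_lit 6) (nat_lit 7) (nat_lit 5) (nat_lit 74) (nat_lit 157) (nat_lit 159)))))) (PT.nd (nat_lit 6240) (PT.nd (nat_lit 234) (PT.nd (nat_lit 78) (PT.lf (nat_lit 684) (nat_lit 6) (nat_lit 9) (nat_lit 5) (nat_lit 75) (nat_lit 157) (nat_lit 158)) (PT.nd (nat_lit 78) (PT.lf (nat_lit 836) (nat_lit 3) (nat_lit 11) (nat_lit 4) (nat_lit 76) (nat_lit 157) (nat_lit 157)) (PT.lf (nat_lit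 912) (nat_lit 6) (nat_lit 12) (nat_lit 4) (nat_lit 77) (nat_lit 157) (nat_lit 156)))) (PT.nd (nat_lit 78) (PT.lf (nat_lit 988) (nat_lit 6) (nat_lit 13) (nat_lit 4) (nat_lit 78) (nat_lit 157) (nat_lit 155)) (PT.nd (nat_lit 5850) (PT.lf (nat_lit 1140) (nat_lit 6) (nat_lit 15) (nat_lit 4) (nat_lit 79) (nat_lit 157) (nat_lit 154)) (PT.lf (nat_lit 1140) (nat_lit 6) (nat_lit 15) (nat_lit 2) (nat_lit 154) (nat_lit 157) (nat_lit 79))))) (PT.nd (nat_lit 234) (PT.nd (nat_lit 78) (PT.lf (nat_lit 988) (nat_lit 6) (nat_lit 13) (nat_lit 2) (nat_lit 155) (nat_lit 157) (nat_lit 78)) (PT.nd (nat_lit 78) (PT.lf (nat_lit 912) (nat_lit 6) (nat_lit 12) (nat_lit 2) (nat_lit 156) (nat_lit 157) (nat_lit 77)) (PT.lf (nat_lit 836) (nat_lit 3) (nat_lit 11) (nat_lit 0) (nat_lit 157) (nat_lit 157) (nat_lit 76)))) (PT.nd (nat_lit 33930) (PT.nd (nat_lit 78) (PT.lf (nat_lit 684) (nat_lit 6) (nat_lit 9) (nat_lit 0) (nat_lit 158)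 (nat_lit 157) (nat_lit 75)) (PT.lf (nat_lit 532) (nat_lit 6) (nat_lit 7) (nat_lit 0) (nat_lit 159) (nat_lit 157) (nat_lit 74))) (PT.nd (nat_lit 78) (PT.lf (nat_lit 304) (nat_lit 6) (nat_lit 4) (nat_lit 5) (nat_lit 72) (nat_lit 158) (nat_lit 160)) (PT.lf (nat_lit 456) (nat_lit 6) (nat_lit 6) (nat_lit 5) (nat_lit 73) (nat_lit 158) (nat_lit 159))))))) (PT.nd (nat_lit 47190) (PT.nd (nat_lit 6630) (PT.nd (nat_lit 6396) (PT.nd (nat_lit 78) (PT.lf (nat_lit 608) (nat_lit 3) (nat_lit 8) (nat_lit 4) (nat_lit 74) (nat_lit 158) (nat_lit 158)) (PT.nd (nat_lit 78) (PT.lf (nat_lit 684) (nat_lit 6) (nat_lit 9) (nat_lit 4) (nat_lit 75) (nat_lit 158) (nat_lit 157)) (PT.lf (nat_lit 760) (nat_lit 6) (nat_lit 10) (nat_lit 4) (nat_lit 76) (nat_lit 158) (nat_lit 156)))) (PT.nd (nat_lit 78) (PT.lf (nat_lit 760) (nat_lit 6) (nat_lit 10) (nat_lit 2) (nat_lit 156) (nat_lit 158) (nat_lit 76)) (PT.nd (nat_lit 78) (PT.lf (nat_lit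 684) (nat_lit 6) (nat_lit 9) (nat_lit 2) (nat_lit 157) (nat_lit 158) (nat_lit 75)) (PT.lf (nat_lit 608) (nat_lit 3) (nat_lit 8) (nat_lit 0) (nat_lit 158) (nat_lit 158) (nat_lit 74))))) (PT.nd (nat_lit 33852) (PT.nd (nat_lit 78) (PT.lf (nat_lit 456) (nat_lit 6) (nat_lit 6) (nat_lit 0) (nat_lit 159) (nat_lit 158) (nat_lit 73)) (PT.nd (nat_lit 33696) (PT.lf (nat_lit 304) (nat_lit 6) (nat_lit 4) (nat_lit 0) (nat_lit 160) (nat_lit 158) (nat_lit 72)) (PT.lf (nat_lit 228) (nat_lit 6) (nat_lit 3) (nat_lit 5) (nat_lit 71) (nat_lit 159) (nat_lit 160)))) (PT.nd (nat_lit 156) (PT.nd (nat_lit 78) (PT.lf (nat_lit 380) (nat_lit 3) (nat_lit 5) (nat_lit 4) (nat_lit 72) (nat_lit 159) (nat_lit 159)) (PT.lf (nat_lit 456) (nat_lit 6) (nat_lit 6) (nat_lit 4) (nat_lit 73) (nat_lit 159) (nat_lit 158))) (PT.nd (nat_lit 6474) (PT.lf (nat_lit 532) (nat_lit 6) (nat_lit 7) (nat_lit 4) (nat_lit 74) (nat_lit 159) (nat_lit 157))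 (PT.lf (nat_lit 532) (nat_lit 6) (nat_lit 7) (nat_lit 2) (nat_lit 157) (nat_lit 159) (nat_lit 74)))))) (PT.nd (nat_lit 33930) (PT.nd (nat_lit 33696) (PT.nd (nat_lit 78) (PT.lf (nat_lit 456) (nat_lit 6) (nat_lit 6) (nat_lit 2) (nat_lit 158) (nat_lit 159) (nat_lit 73)) (PT.nd (nat_lit 78) (PT.lf (nat_lit 380) (nat_lit 3) (nat_lit 5) (nat_lit 0) (nat_lit 159) (nat_lit 159) (nat_lit 72)) (PT.lf (nat_lit 228) (nat_lit 6) (nat_lit 3) (nat_lit 0) (nat_lit 160) (nat_lit 159) (nat_lit 71)))) (PT.nd (nat_lit 78) (PT.lf (nat_lit 76) (nat_lit 6) (nat_lit 1) (nat_lit 5) (nat_lit 69) (nat_lit 160) (nat_lit 161)) (PT.nd (nat_lit 78) (PT.lf (nat_lit 152) (nat_lit 3) (nat_lit 2) (nat_lit 4) (nat_lit 70) (nat_lit 160) (nat_lit 160)) (PT.lf (nat_lit 228) (nat_lit 6) (nat_lit 3) (nat_lit 4) (nat_lit 71) (nat_lit 160) (nat_lit 159))))) (PT.nd (nat_lit 6864) (PT.nd (nat_lit 6708) (PT.lf (nat_lit 304) (nat_lit 6) (nat_lit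 4) (nat_lit 4) (nat_lit 72) (nat_lit 160) (nat_lit 158)) (PT.nd (nat_lit 78) (PT.lf (nat_lit 304) (nat_lit 6) (nat_lit 4) (nat_lit 2) (nat_lit 158) (nat_lit 160) (nat_lit 72)) (PT.lf (nat_lit 228) (nat_lit 6) (nat_lit 3) (nat_lit 2) (nat_lit 159) (nat_lit 160) (nat_lit 71)))) (PT.nd (nat_lit 33540) (PT.nd (nat_lit 78) (PT.lf (nat_lit 152) (nat_lit 3) (nat_lit 2) (nat_lit 0) (nat_lit 160) (nat_lit 160) (nat_lit 70)) (PT.lf (nat_lit 76) (nat_lit 6) (nat_lit 1) (nat_lit 0) (nat_lit 161) (nat_lit 160) (nat_lit 69))) (PT.nd (nat_lit 7098) (PT.lf (nat_lit 76) (nat_lit 6) (nat_lit 1) (nat_lit 4) (nat_lit 69) (nat_lit 161) (nat_lit 160)) (PT.lf (nat_lit 76) (nat_lit 6) (nat_lit 1) (nat_lit 2) (nat_lit 160) (nat_lit 161) (nat_lit 69))))))))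
noncomputable def xc0 : XT := (XT.nd (nat_lit 122070) (nat_lit 0) (nat_lit 0) (XT.nd (nat_lit 81198) (nat_lit 0) (nat_lit 0) (XT.nd (nat_lit 40638) (nat_lit 0) (nat_lit 0) (XT.nd (nat_lit 156) (nat_lit 0) (nat_lit 0) (XT.nd (nat_lit 78) (nat_lit 0) (nat_lit 0) (XT.lf (nat_lit 0) (nat_lit 7842601285) (nat_lit 76) (nat_lit 17709436836) (nat_lit 76) (nat_lit 17709436836) (nat_lit 2) (nat_lit 4) (nat_lit 3) (nat_lit 5) (nat_lit 3) (nat_lit 4) (nat_lit 402) (nat_lit 189) (nat_lit 189)) (XT.lf (nat_lit 0) (nat_lit 20416067223) (nat_lit 76) (nat_lit 34389230881) (nat_lit 76) (nat_lit 34242775970) (nat_lit 2) (nat_lit 4) (nat_lit 3) (nat_lit 5) (nat_lit 3) (nat_lit 4) (nat_lit 403) (nat_lit 189) (nat_lit 188))) (XT.nd (nat_lit 40326) (nat_lit 0) (nat_lit 0) (XT.lf (nat_lit 0) (nat_lit 25206538889) (nat_lit 76) (nat_lit 33366210340) (nat_lit 76) (nat_lit 33077566195) (nat_lit 2) (nat_lit 4) (nat_lit 3)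 (nat_lit 5) (nat_lit 3) (nat_lit 4) (nat_lit 404) (nat_lit 189) (nat_lit 187)) (XT.nd (nat_lit 78) (nat_lit 0) (nat_lit 0) (XT.lf (nat_lit 0) (nat_lit 3214414239) (nat_lit 76) (nat_lit 18816437975) (nat_lit 76) (nat_lit 18816437975) (nat_lit 2) (nat_lit 4) (nat_lit 3) (nat_lit 5) (nat_lit 3) (nat_lit 4) (nat_lit 400) (nat_lit 190) (nat_lit 190)) (XT.lf (nat_lit 0) (nat_lit 11009811166) (nat_lit 76) (nat_lit 36606886958) (nat_lit 76) (nat_lit 36456038400) (nat_lit 2) (nat_lit 4) (nat_lit 3) (nat_lit 5) (nat_lit 3) (nat_lit 4) (nat_lit 401) (nat_lit 190) (nat_lit 189))))) (XT.nd (nat_lit 40326) (nat_lit 0) (nat_lit 0) (XT.nd (nat_lit 78) (nat_lit 0) (nat_lit 0) (XT.lf (nat_lit 0) (nat_lit 15643434840) (nat_lit 76) (nat_lit 35588755175) (nat_lit 76) (nat_lit 35291451706) (nat_lit 2) (nat_lit 4) (nat_lit 3) (nat_lit 5) (nat_lit 3) (nat_lit 4) (nat_lit 402) (nat_lit 190) (nat_lit 188)) (XT.nd (nat_lit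 78) (nat_lit 0) (nat_lit 0) (XT.lf (nat_lit 0) (nat_lit 20333748297) (nat_lit 76) (nat_lit 34577590972) (nat_lit 76) (nat_lit 34138098270) (nat_lit 2) (nat_lit 4) (nat_lit 3) (nat_lit 5) (nat_lit 3) (nat_lit 4) (nat_lit 403) (nat_lit 190) (nat_lit 187)) (XT.lf (nat_lit 0) (nat_lit 25084849870) (nat_lit 76) (nat_lit 33572510808) (nat_lit 76) (nat_lit 32994970305) (nat_lit 2) (nat_lit 4) (nat_lit 3) (nat_lit 5) (nat_lit 3) (nat_lit 4) (nat_lit 404) (nat_lit 190) (nat_lit 186)))) (XT.nd (nat_lit 78) (nat_lit 76) (nat_lit 0) (XT.lf (nat_lit 0) (nat_lit 18662405995) (nat_lit 152) (nat_lit 1248586310) (nat_lit 0) (nat_lit 18662405995) (nat_lit 3) (nat_lit 5) (nat_lit 5) (nat_lit 4) (nat_lit 3) (nat_lit 4) (nat_lit 398) (nat_lit 191) (nat_lit 191)) (XT.nd (nat_lit 78) (nat_lit 0) (nat_lit 0) (XT.lf (nat_lit 0) (nat_lit 1896483978) (nat_lit 76) (nat_lit 38822992663) (nat_lit 76) (nat_lit 38667618648)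 (nat_lit 2) (nat_lit 4) (nat_lit 3) (nat_lit 5) (nat_lit 3) (nat_lit 4) (nat_lit 399) (nat_lit 191) (nat_lit 190)) (XT.lf (nat_lit 0) (nat_lit 6385807716) (nat_lit 76) (nat_lit 37807853900) (nat_lit 76) (nat_lit 37501631326) (nat_lit 2) (nat_lit 4) (nat_lit 3) (nat_lit 5) (nat_lit 3) (nat_lit 4) (nat_lit 400) (nat_lit 191) (nat_lit 189)))))) (XT.nd (nat_lit 40404) (nat_lit 0) (nat_lit 0) (XT.nd (nat_lit 234) (nat_lit 0) (nat_lit 0) (XT.nd (nat_lit 78) (nat_lit 0) (nat_lit 0) (XT.lf (nat_lit 0) (nat_lit 10925022672) (nat_lit 76) (nat_lit 36800897853) (nat_lit 76) (nat_lit 36348220369) (nat_lit 2) (nat_lit 4) (nat_lit 3) (nat_lit 5) (nat_lit 3) (nat_lit 4) (nat_lit 401) (nat_lit 191) (nat_lit 188)) (XT.nd (nat_lit 78) (nat_lit 0) (nat_lit 0) (XT.lf (nat_lit 0) (nat_lit 15518095150) (nat_lit 76) (nat_lit 35801244658) (nat_lit 76) (nat_lit 35206377940) (nat_lit 2) (nat_lit 4) (nat_lit 3) (nat_lit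 5) (nat_lit 3) (nat_lit 4) (nat_lit 402) (nat_lit 191) (nat_lit 187)) (XT.lf (nat_lit 0) (nat_lit 20169038515) (nat_lit 76) (nat_lit 34808020831) (nat_lit 76) (nat_lit 34075106314) (nat_lit 2) (nat_lit 4) (nat_lit 3) (nat_lit 5) (nat_lit 3) (nat_lit 4) (nat_lit 403) (nat_lit 191) (nat_lit 186)))) (XT.nd (nat_lit 40014) (nat_lit 0) (nat_lit 76) (XT.lf (nat_lit 0) (nat_lit 24881916697) (nat_lit 76) (nat_lit 33820358508) (nat_lit 76) (nat_lit 32953417000) (nat_lit 2) (nat_lit 4) (nat_lit 3) (nat_lit 5) (nat_lit 3) (nat_lit 4) (nat_lit 404) (nat_lit 191) (nat_lit 185)) (XT.nd (nat_lit 78) (nat_lit 0) (nat_lit 0) (XT.lf (nat_lit 0) (nat_lit 15454207760) (nat_lit 152) (nat_lit 5522848907) (nat_lit 0) (nat_lit 15454207760) (nat_lit 3) (nat_lit 5) (nat_lit 5) (nat_lit 4) (nat_lit 3) (nat_lit 4) (nat_lit 396) (nat_lit 192) (nat_lit 192)) (XT.lf (nat_lit 0) (nat_lit 34160058817) (nat_lit 152) (nat_lit 6812557269)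 (nat_lit 0) (nat_lit 34000023582) (nat_lit 3) (nat_lit 5) (nat_lit 5) (nat_lit 4) (nat_lit 3) (nat_lit 4) (nat_lit 397) (nat_lit 192) (nat_lit 191))))) (XT.nd (nat_lit 234) (nat_lit 0) (nat_lit 0) (XT.nd (nat_lit 78) (nat_lit 76) (nat_lit 0) (XT.lf (nat_lit 0) (nat_lit 37461153840) (nat_lit 152) (nat_lit 2540619331) (nat_lit 0) (nat_lit 37145744589) (nat_lit 3) (nat_lit 5) (nat_lit 5) (nat_lit 4) (nat_lit 3) (nat_lit 4) (nat_lit 398) (nat_lit 192) (nat_lit 190)) (XT.nd (nat_lit 78) (nat_lit 0) (nat_lit 0) (XT.lf (nat_lit 0) (nat_lit 1809151829) (nat_lit 76) (nat_lit 39022823884) (nat_lit 76) (nat_lit 38556566076) (nat_lit 2) (nat_lit 4) (nat_lit 3) (nat_lit 5) (nat_lit 3) (nat_lit 4) (nat_lit 399) (nat_lit 192) (nat_lit 189)) (XT.lf (nat_lit 0) (nat_lit 6256707836) (nat_lit 76) (nat_lit 38026718066) (nat_lit 76) (nat_lit 37414005347) (nat_lit 2) (nat_lit 4) (nat_lit 3) (nat_lit 5) (nat_lit 3)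 (nat_lit 4) (nat_lit 400) (nat_lit 192) (nat_lit 188)))) (XT.nd (nat_lit 78) (nat_lit 0) (nat_lit 0) (XT.lf (nat_lit 0) (nat_lit 10755371597) (nat_lit 76) (nat_lit 37038240607) (nat_lit 76) (nat_lit 36283338654) (nat_lit 2) (nat_lit 4) (nat_lit 3) (nat_lit 5) (nat_lit 3) (nat_lit 4) (nat_lit 401) (nat_lit 192) (nat_lit 187)) (XT.nd (nat_lit 78) (nat_lit 0) (nat_lit 0) (XT.lf (nat_lit 0) (nat_lit 15309073982) (nat_lit 76) (nat_lit 36056527789) (nat_lit 76) (nat_lit 35163578036) (nat_lit 2) (nat_lit 4) (nat_lit 3) (nat_lit 5) (nat_lit 3) (nat_lit 4) (nat_lit 402) (nat_lit 192) (nat_lit 186)) (XT.lf (nat_lit 0) (nat_lit 19921793956) (nat_lit 76) (nat_lit 35080721804) (nat_lit 76) (nat_lit 34053745061) (nat_lit 2) (nat_lit 4) (nat_lit 3) (nat_lit 5) (nat_lit 3) (nat_lit 4) (nat_lit 403) (nat_lit 192) (nat_lit 185))))))) (XT.nd (nat_lit 80340) (nat_lit 0) (nat_lit 0) (XT.nd (nat_lit 40248) (nat_lit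 0) (nat_lit 0) (XT.nd (nat_lit 40014) (nat_lit 0) (nat_lit 76) (XT.nd (nat_lit 39858) (nat_lit 0) (nat_lit 76) (XT.lf (nat_lit 0) (nat_lit 24597562051) (nat_lit 76) (nat_lit 34109970006) (nat_lit 76) (nat_lit 32952869971) (nat_lit 2) (nat_lit 4) (nat_lit 3) (nat_lit 5) (nat_lit 3) (nat_lit 4) (nat_lit 404) (nat_lit 192) (nat_lit 184)) (XT.nd (nat_lit 78) (nat_lit 0) (nat_lit 0) (XT.lf (nat_lit 0) (nat_lit 12366066235) (nat_lit 152) (nat_lit 9682129443) (nat_lit 0) (nat_lit 12366066235) (nat_lit 3) (nat_lit 5) (nat_lit 5) (nat_lit 4) (nat_lit 3) (nat_lit 4) (nat_lit 394) (nat_lit 193) (nat_lit 193)) (XT.lf (nat_lit 0) (nat_lit 27868219000) (nat_lit 152) (nat_lit 15243739829) (nat_lit 0) (nat_lit 27703382708) (nat_lit 3) (nat_lit 5) (nat_lit 5) (nat_lit 4) (nat_lit 3) (nat_lit 4) (nat_lit 395) (nat_lit 193) (nat_lit 192)))) (XT.nd (nat_lit 78) (nat_lit 0) (nat_lit 0) (XT.lf (nat_lit 0) (nat_lit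 31048847626) (nat_lit 152) (nat_lit 11090447927) (nat_lit 0) (nat_lit 30723976098) (nat_lit 3) (nat_lit 5) (nat_lit 5) (nat_lit 4) (nat_lit 3) (nat_lit 4) (nat_lit 396) (nat_lit 193) (nat_lit 191)) (XT.nd (nat_lit 78) (nat_lit 0) (nat_lit 0) (XT.lf (nat_lit 0) (nat_lit 34276797537) (nat_lit 152) (nat_lit 6900754093) (nat_lit 0) (nat_lit 33796551994) (nat_lit 3) (nat_lit 5) (nat_lit 5) (nat_lit 4) (nat_lit 3) (nat_lit 4) (nat_lit 397) (nat_lit 193) (nat_lit 190)) (XT.lf (nat_lit 0) (nat_lit 37554889272) (nat_lit 152) (nat_lit 2670997428) (nat_lit 0) (nat_lit 36923795171) (nat_lit 3) (nat_lit 5) (nat_lit 5) (nat_lit 4) (nat_lit 3) (nat_lit 4) (nat_lit 398) (nat_lit 193) (nat_lit 189))))) (XT.nd (nat_lit 234) (nat_lit 0) (nat_lit 0) (XT.nd (nat_lit 78) (nat_lit 0) (nat_lit 0) (XT.lf (nat_lit 0) (nat_lit 1634411221) (nat_lit 76) (nat_lit 39267286921) (nat_lit 76) (nat_lit 38489737909) (nat_lit 2)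 (nat_lit 4) (nat_lit 3) (nat_lit 5) (nat_lit 3) (nat_lit 4) (nat_lit 399) (nat_lit 193) (nat_lit 188)) (XT.nd (nat_lit 78) (nat_lit 0) (nat_lit 0) (XT.lf (nat_lit 0) (nat_lit 6041416033) (nat_lit 76) (nat_lit 38289659691) (nat_lit 76) (nat_lit 37369921446) (nat_lit 2) (nat_lit 4) (nat_lit 3) (nat_lit 5) (nat_lit 3) (nat_lit 4) (nat_lit 400) (nat_lit 193) (nat_lit 187)) (XT.lf (nat_lit 0) (nat_lit 10500709701) (nat_lit 76) (nat_lit 37319122609) (nat_lit 76) (nat_lit 36261336563) (nat_lit 2) (nat_lit 4) (nat_lit 3) (nat_lit 5) (nat_lit 3) (nat_lit 4) (nat_lit 401) (nat_lit 193) (nat_lit 186)))) (XT.nd (nat_lit 78) (nat_lit 0) (nat_lit 0) (XT.lf (nat_lit 0) (nat_lit 15016188696) (nat_lit 76) (nat_lit 36354827632) (nat_lit 76) (nat_lit 35163014596) (nat_lit 2) (nat_lit 4) (nat_lit 3) (nat_lit 5) (nat_lit 3) (nat_lit 4) (nat_lit 402) (nat_lit 193) (nat_lit 185)) (XT.nd (nat_lit 78) (nat_lit 0) (nat_lit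 0) (XT.lf (nat_lit 0) (nat_lit 19591798582) (nat_lit 76) (nat_lit 35395932172) (nat_lit 76) (nat_lit 34073995845) (nat_lit 2) (nat_lit 4) (nat_lit 3) (nat_lit 5) (nat_lit 3) (nat_lit 4) (nat_lit 403) (nat_lit 193) (nat_lit 184)) (XT.lf (nat_lit 0) (nat_lit 24231537464) (nat_lit 76) (nat_lit 34441598361) (nat_lit 76) (nat_lit 32993328741) (nat_lit 2) (nat_lit 4) (nat_lit 3) (nat_lit 5) (nat_lit 3) (nat_lit 4) (nat_lit 404) (nat_lit 193) (nat_lit 183)))))) (XT.nd (nat_lit 468) (nat_lit 76) (nat_lit 0) (XT.nd (nat_lit 234) (nat_lit 0) (nat_lit 0) (XT.nd (nat_lit 78) (nat_lit 0) (nat_lit 0) (XT.lf (nat_lit 0) (nat_lit 9389166463) (nat_lit 152) (nat_lit 13736939701) (nat_lit 0) (nat_lit 9389166463) (nat_lit 3) (nat_lit 5) (nat_lit 5) (nat_lit 4) (nat_lit 3) (nat_lit 4) (nat_lit 392) (nat_lit 194) (nat_lit 194)) (XT.nd (nat_lit 78) (nat_lit 0) (nat_lit 0) (XT.lf (nat_lit 0) (nat_lit 21807629146) (nat_lit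 152) (nat_lit 23455605555) (nat_lit 0) (nat_lit 21637847765) (nat_lit 3) (nat_lit 5) (nat_lit 5) (nat_lit 4) (nat_lit 3) (nat_lit 4) (nat_lit 393) (nat_lit 194) (nat_lit 193)) (XT.lf (nat_lit 0) (nat_lit 24876777538) (nat_lit 152) (nat_lit 19410351503) (nat_lit 0) (nat_lit 24542159864) (nat_lit 3) (nat_lit 5) (nat_lit 5) (nat_lit 4) (nat_lit 3) (nat_lit 4) (nat_lit 394) (nat_lit 194) (nat_lit 192)))) (XT.nd (nat_lit 78) (nat_lit 0) (nat_lit 0) (XT.lf (nat_lit 0) (nat_lit 27988459881) (nat_lit 152) (nat_lit 15334582557) (nat_lit 0) (nat_lit 27493806972) (nat_lit 3) (nat_lit 5) (nat_lit 5) (nat_lit 4) (nat_lit 3) (nat_lit 4) (nat_lit 395) (nat_lit 194) (nat_lit 191)) (XT.nd (nat_lit 78) (nat_lit 0) (nat_lit 0) (XT.lf (nat_lit 0) (nat_lit 31145395120) (nat_lit 152) (nat_lit 11224737367) (nat_lit 0) (nat_lit 30495368196) (nat_lit 3) (nat_lit 5) (nat_lit 5) (nat_lit 4) (nat_lit 3) (nat_lit 4) (nat_lit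 396) (nat_lit 194) (nat_lit 190)) (XT.lf (nat_lit 0) (nat_lit 34350341744) (nat_lit 152) (nat_lit 7077224806) (nat_lit 0) (nat_lit 33549466262) (nat_lit 3) (nat_lit 5) (nat_lit 5) (nat_lit 4) (nat_lit 3) (nat_lit 4) (nat_lit 397) (nat_lit 194) (nat_lit 189))))) (XT.nd (nat_lit 234) (nat_lit 0) (nat_lit 0) (XT.nd (nat_lit 78) (nat_lit 76) (nat_lit 0) (XT.lf (nat_lit 0) (nat_lit 37606100190) (nat_lit 152) (nat_lit 2888420833) (nat_lit 0) (nat_lit 36658769797) (nat_lit 3) (nat_lit 5) (nat_lit 5) (nat_lit 4) (nat_lit 3) (nat_lit 4) (nat_lit 398) (nat_lit 194) (nat_lit 188)) (XT.nd (nat_lit 78) (nat_lit 0) (nat_lit 0) (XT.lf (nat_lit 0) (nat_lit 1372109469) (nat_lit 76) (nat_lit 39556595383) (nat_lit 76) (nat_lit 38467075756) (nat_lit 2) (nat_lit 4) (nat_lit 3) (nat_lit 5) (nat_lit 3) (nat_lit 4) (nat_lit 399) (nat_lit 194) (nat_lit 187)) (XT.lf (nat_lit 0) (nat_lit 5739744188) (nat_lit 76) (nat_lit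 38596908530) (nat_lit 76) (nat_lit 37369341103) (nat_lit 2) (nat_lit 4) (nat_lit 3) (nat_lit 5) (nat_lit 3) (nat_lit 4) (nat_lit 400) (nat_lit 194) (nat_lit 186)))) (XT.nd (nat_lit 78) (nat_lit 0) (nat_lit 0) (XT.lf (nat_lit 0) (nat_lit 10160814465) (nat_lit 76) (nat_lit 37643789288) (nat_lit 76) (nat_lit 36282194872) (nat_lit 2) (nat_lit 4) (nat_lit 3) (nat_lit 5) (nat_lit 3) (nat_lit 4) (nat_lit 401) (nat_lit 194) (nat_lit 185)) (XT.nd (nat_lit 78) (nat_lit 0) (nat_lit 0) (XT.lf (nat_lit 0) (nat_lit 14639183372) (nat_lit 76) (nat_lit 36696404837) (nat_lit 76) (nat_lit 35204687129) (nat_lit 2) (nat_lit 4) (nat_lit 3) (nat_lit 5) (nat_lit 3) (nat_lit 4) (nat_lit 402) (nat_lit 194) (nat_lit 184)) (XT.lf (nat_lit 0) (nat_lit 19178764046) (nat_lit 76) (nat_lit 35753927364) (nat_lit 76) (nat_lit 34135876363) (nat_lit 2) (nat_lit 4) (nat_lit 3) (nat_lit 5) (nat_lit 3) (nat_lit 4) (nat_lit 403) (nat_lit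 194) (nat_lit 183))))))))
noncomputable def xc1 : XT := (XT.nd (nat_lit 80574) (nat_lit 0) (nat_lit 0) (XT.nd (nat_lit 40326) (nat_lit 0) (nat_lit 0) (XT.nd (nat_lit 39858) (nat_lit 0) (nat_lit 0) (XT.nd (nat_lit 39624) (nat_lit 0) (nat_lit 76) (XT.nd (nat_lit 39546) (nat_lit 0) (nat_lit 76) (XT.lf (nat_lit 0) (nat_lit 23783523112) (nat_lit 76) (nat_lit 34815533344) (nat_lit 76) (nat_lit 33074828661) (nat_lit 2) (nat_lit 4) (nat_lit 3) (nat_lit 5) (nat_lit 3) (nat_lit 4) (nat_lit 404) (nat_lit 194) (nat_lit 182)) (XT.lf (nat_lit 0) (nat_lit 6515141806) (nat_lit 152) (nat_lit 17697305385) (nat_lit 0) (nat_lit 6515141806) (nat_lit 3) (nat_lit 5) (nat_lit 5) (nat_lit 4) (nat_lit 3) (nat_lit 4) (nat_lit 390) (nat_lit 195) (nat_lit 195))) (XT.nd (nat_lit 78) (nat_lit 0) (nat_lit 0) (XT.lf (nat_lit 0) (nat_lit 15961116741) (nat_lit 152) (nat_lit 31468684158) (nat_lit 0) (nat_lit 15786241918) (nat_lit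 3) (nat_lit 5) (nat_lit 5) (nat_lit 4) (nat_lit 3) (nat_lit 4) (nat_lit 391) (nat_lit 195) (nat_lit 194)) (XT.nd (nat_lit 78) (nat_lit 0) (nat_lit 0) (XT.lf (nat_lit 0) (nat_lit 18927317346) (nat_lit 152) (nat_lit 27521354797) (nat_lit 0) (nat_lit 18582661142) (nat_lit 3) (nat_lit 5) (nat_lit 5) (nat_lit 4) (nat_lit 3) (nat_lit 4) (nat_lit 392) (nat_lit 195) (nat_lit 193)) (XT.lf (nat_lit 0) (nat_lit 21931477254) (nat_lit 152) (nat_lit 23549173565) (nat_lit 0) (nat_lit 21421984757) (nat_lit 3) (nat_lit 5) (nat_lit 5) (nat_lit 4) (nat_lit 3) (nat_lit 4) (nat_lit 393) (nat_lit 195) (nat_lit 192))))) (XT.nd (nat_lit 234) (nat_lit 76) (nat_lit 0) (XT.nd (nat_lit 78) (nat_lit 0) (nat_lit 0) (XT.lf (nat_lit 0) (nat_lit 24976221458) (nat_lit 152) (nat_lit 19548669626) (nat_lit 0) (nat_lit 24306693726) (nat_lit 3) (nat_lit 5) (nat_lit 5) (nat_lit 4) (nat_lit 3) (nat_lit 4) (nat_lit 394) (nat_lit 195)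 (nat_lit 191)) (XT.nd (nat_lit 78) (nat_lit 0) (nat_lit 0) (XT.lf (nat_lit 0) (nat_lit 28064210414) (nat_lit 152) (nat_lit 15516347391) (nat_lit 0) (nat_lit 27239308668) (nat_lit 3) (nat_lit 5) (nat_lit 5) (nat_lit 4) (nat_lit 3) (nat_lit 4) (nat_lit 395) (nat_lit 195) (nat_lit 190)) (XT.lf (nat_lit 0) (nat_lit 31198142367) (nat_lit 152) (nat_lit 11448683474) (nat_lit 0) (nat_lit 30222392062) (nat_lit 3) (nat_lit 5) (nat_lit 5) (nat_lit 4) (nat_lit 3) (nat_lit 4) (nat_lit 396) (nat_lit 195) (nat_lit 189)))) (XT.nd (nat_lit 78) (nat_lit 76) (nat_lit 0) (XT.lf (nat_lit 0) (nat_lit 34380755702) (nat_lit 152) (nat_lit 7342123605) (nat_lit 0) (nat_lit 33258550486) (nat_lit 3) (nat_lit 5) (nat_lit 5) (nat_lit 4) (nat_lit 3) (nat_lit 4) (nat_lit 397) (nat_lit 195) (nat_lit 188)) (XT.nd (nat_lit 78) (nat_lit 76) (nat_lit 0) (XT.lf (nat_lit 0) (nat_lit 37614831344) (nat_lit 152) (nat_lit 3193079527) (nat_lit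 0) (nat_lit 36350436894) (nat_lit 3) (nat_lit 5) (nat_lit 5) (nat_lit 4) (nat_lit 3) (nat_lit 4) (nat_lit 398) (nat_lit 195) (nat_lit 187)) (XT.lf (nat_lit 0) (nat_lit 1022017376) (nat_lit 76) (nat_lit 39891002063) (nat_lit 76) (nat_lit 38488559814) (nat_lit 2) (nat_lit 4) (nat_lit 3) (nat_lit 5) (nat_lit 3) (nat_lit 4) (nat_lit 399) (nat_lit 195) (nat_lit 186)))))) (XT.nd (nat_lit 39780) (nat_lit 0) (nat_lit 76) (XT.nd (nat_lit 234) (nat_lit 0) (nat_lit 0) (XT.nd (nat_lit 78) (nat_lit 0) (nat_lit 0) (XT.lf (nat_lit 0) (nat_lit 5351428705) (nat_lit 76) (nat_lit 38948733051) (nat_lit 76) (nat_lit 37412263811) (nat_lit 2) (nat_lit 4) (nat_lit 3) (nat_lit 5) (nat_lit 3) (nat_lit 4) (nat_lit 400) (nat_lit 195) (nat_lit 185)) (XT.nd (nat_lit 78) (nat_lit 0) (nat_lit 0) (XT.lf (nat_lit 0) (nat_lit 9735388894) (nat_lit 76) (nat_lit 38012524335) (nat_lit 76) (nat_lit 36345931804) (nat_lit 2) (nat_lit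 4) (nat_lit 3) (nat_lit 5) (nat_lit 3) (nat_lit 4) (nat_lit 401) (nat_lit 195) (nat_lit 184)) (XT.lf (nat_lit 0) (nat_lit 14177728589) (nat_lit 76) (nat_lit 37081557870) (nat_lit 76) (nat_lit 35288632046) (nat_lit 2) (nat_lit 4) (nat_lit 3) (nat_lit 5) (nat_lit 3) (nat_lit 4) (nat_lit 402) (nat_lit 195) (nat_lit 183)))) (XT.nd (nat_lit 78) (nat_lit 0) (nat_lit 0) (XT.lf (nat_lit 0) (nat_lit 18682329446) (nat_lit 76) (nat_lit 36155020189) (nat_lit 76) (nat_lit 34239440683) (nat_lit 2) (nat_lit 4) (nat_lit 3) (nat_lit 5) (nat_lit 3) (nat_lit 4) (nat_lit 403) (nat_lit 195) (nat_lit 182)) (XT.nd (nat_lit 39390) (nat_lit 0) (nat_lit 76) (XT.lf (nat_lit 0) (nat_lit 23253127523) (nat_lit 76) (nat_lit 35232101696) (nat_lit 76) (nat_lit 33197440945) (nat_lit 2) (nat_lit 4) (nat_lit 3) (nat_lit 5) (nat_lit 3) (nat_lit 4) (nat_lit 404) (nat_lit 195) (nat_lit 181)) (XT.lf (nat_lit 0) (nat_lit 3736046480)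 (nat_lit 152) (nat_lit 21572797544) (nat_lit 0) (nat_lit 3736046480) (nat_lit 3) (nat_lit 5) (nat_lit 5) (nat_lit 4) (nat_lit 3) (nat_lit 4) (nat_lit 388) (nat_lit 196) (nat_lit 196))))) (XT.nd (nat_lit 234) (nat_lit 0) (nat_lit 0) (XT.nd (nat_lit 78) (nat_lit 0) (nat_lit 0) (XT.lf (nat_lit 0) (nat_lit 10312378107) (nat_lit 152) (nat_lit 39302565057) (nat_lit 0) (nat_lit 10132257039) (nat_lit 3) (nat_lit 5) (nat_lit 5) (nat_lit 4) (nat_lit 3) (nat_lit 4) (nat_lit 389) (nat_lit 196) (nat_lit 195)) (XT.nd (nat_lit 78) (nat_lit 0) (nat_lit 0) (XT.lf (nat_lit 0) (nat_lit 13183737566) (nat_lit 152) (nat_lit 35443510427) (nat_lit 0) (nat_lit 12828741676) (nat_lit 3) (nat_lit 5) (nat_lit 5) (nat_lit 4) (nat_lit 3) (nat_lit 4) (nat_lit 390) (nat_lit 196) (nat_lit 194)) (XT.lf (nat_lit 0) (nat_lit 16088680291) (nat_lit 152) (nat_lit 31565059208) (nat_lit 0) (nat_lit 15563903020) (nat_lit 3) (nat_lit 5)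 (nat_lit 5) (nat_lit 4) (nat_lit 3) (nat_lit 4) (nat_lit 391) (nat_lit 196) (nat_lit 193)))) (XT.nd (nat_lit 78) (nat_lit 0) (nat_lit 0) (XT.lf (nat_lit 0) (nat_lit 19029744583) (nat_lit 152) (nat_lit 27663822463) (nat_lit 0) (nat_lit 18340131020) (nat_lit 3) (nat_lit 5) (nat_lit 5) (nat_lit 4) (nat_lit 3) (nat_lit 4) (nat_lit 392) (nat_lit 196) (nat_lit 192)) (XT.nd (nat_lit 78) (nat_lit 0) (nat_lit 0) (XT.lf (nat_lit 0) (nat_lit 22009500303) (nat_lit 152) (nat_lit 23736391344) (nat_lit 0) (nat_lit 21159851504) (nat_lit 3) (nat_lit 5) (nat_lit 5) (nat_lit 4) (nat_lit 3) (nat_lit 4) (nat_lit 393) (nat_lit 196) (nat_lit 191)) (XT.lf (nat_lit 0) (nat_lit 25030551121) (nat_lit 152) (nat_lit 19779334116) (nat_lit 0) (nat_lit 24025528307) (nat_lit 3) (nat_lit 5) (nat_lit 5) (nat_lit 4) (nat_lit 3) (nat_lit 4) (nat_lit 394) (nat_lit 196) (nat_lit 190))))))) (XT.nd (nat_lit 40092) (nat_lit 0) (nat_lit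 0) (XT.nd (nat_lit 468) (nat_lit 0) (nat_lit 0) (XT.nd (nat_lit 234) (nat_lit 76) (nat_lit 0) (XT.nd (nat_lit 78) (nat_lit 0) (nat_lit 0) (XT.lf (nat_lit 0) (nat_lit 28095536791) (nat_lit 152) (nat_lit 15789193155) (nat_lit 0) (nat_lit 26939665419) (nat_lit 3) (nat_lit 5) (nat_lit 5) (nat_lit 4) (nat_lit 3) (nat_lit 4) (nat_lit 395) (nat_lit 196) (nat_lit 189)) (XT.nd (nat_lit 78) (nat_lit 0) (nat_lit 0) (XT.lf (nat_lit 0) (nat_lit 31207135455) (nat_lit 152) (nat_lit 11762481930) (nat_lit 0) (nat_lit 29904809171) (nat_lit 3) (nat_lit 5) (nat_lit 5) (nat_lit 4) (nat_lit 3) (nat_lit 4) (nat_lit 396) (nat_lit 196) (nat_lit 188)) (XT.lf (nat_lit 0) (nat_lit 34368065985) (nat_lit 152) (nat_lit 7695681956) (nat_lit 0) (nat_lit 32923550468) (nat_lit 3) (nat_lit 5) (nat_lit 5) (nat_lit 4) (nat_lit 3) (nat_lit 4) (nat_lit 397) (nat_lit 196) (nat_lit 187)))) (XT.nd (nat_lit 78) (nat_lit 76) (nat_lit 0)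 (XT.lf (nat_lit 0) (nat_lit 37581090360) (nat_lit 152) (nat_lit 3585239718) (nat_lit 0) (nat_lit 35998527044) (nat_lit 3) (nat_lit 5) (nat_lit 5) (nat_lit 4) (nat_lit 3) (nat_lit 4) (nat_lit 398) (nat_lit 196) (nat_lit 186)) (XT.nd (nat_lit 78) (nat_lit 0) (nat_lit 0) (XT.lf (nat_lit 0) (nat_lit 583829038) (nat_lit 76) (nat_lit 40270799161) (nat_lit 76) (nat_lit 38554208855) (nat_lit 2) (nat_lit 4) (nat_lit 3) (nat_lit 5) (nat_lit 3) (nat_lit 4) (nat_lit 399) (nat_lit 196) (nat_lit 185)) (XT.lf (nat_lit 0) (nat_lit 4876130278) (nat_lit 76) (nat_lit 39345440675) (nat_lit 76) (nat_lit 37498727077) (nat_lit 2) (nat_lit 4) (nat_lit 3) (nat_lit 5) (nat_lit 3) (nat_lit 4) (nat_lit 400) (nat_lit 196) (nat_lit 184))))) (XT.nd (nat_lit 234) (nat_lit 0) (nat_lit 0) (XT.nd (nat_lit 78) (nat_lit 0) (nat_lit 0) (XT.lf (nat_lit 0) (nat_lit 9224061255) (nat_lit 76) (nat_lit 38425649945) (nat_lit 76) (nat_lit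 36452603054) (nat_lit 2) (nat_lit 4) (nat_lit 3) (nat_lit 5) (nat_lit 3) (nat_lit 4) (nat_lit 401) (nat_lit 196) (nat_lit 183)) (XT.nd (nat_lit 78) (nat_lit 0) (nat_lit 0) (XT.lf (nat_lit 0) (nat_lit 13631421133) (nat_lit 76) (nat_lit 37510623272) (nat_lit 76) (nat_lit 35414922699) (nat_lit 2) (nat_lit 4) (nat_lit 3) (nat_lit 5) (nat_lit 3) (nat_lit 4) (nat_lit 402) (nat_lit 196) (nat_lit 182)) (XT.lf (nat_lit 0) (nat_lit 18102061002) (nat_lit 76) (nat_lit 36599561117) (nat_lit 76) (nat_lit 34384779299) (nat_lit 2) (nat_lit 4) (nat_lit 3) (nat_lit 5) (nat_lit 3) (nat_lit 4) (nat_lit 403) (nat_lit 196) (nat_lit 181)))) (XT.nd (nat_lit 39234) (nat_lit 0) (nat_lit 76) (XT.lf (nat_lit 0) (nat_lit 22639887247) (nat_lit 76) (nat_lit 35691667407) (nat_lit 76) (nat_lit 33361272730) (nat_lit 2) (nat_lit 4) (nat_lit 3) (nat_lit 5) (nat_lit 3) (nat_lit 4) (nat_lit 404) (nat_lit 196) (nat_lit 180)) (XT.nd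 (nat_lit 78) (nat_lit 0) (nat_lit 0) (XT.lf (nat_lit 0) (nat_lit 1044329608) (nat_lit 152) (nat_lit 25372562296) (nat_lit 0) (nat_lit 1044329608) (nat_lit 3) (nat_lit 5) (nat_lit 5) (nat_lit 4) (nat_lit 3) (nat_lit 4) (nat_lit 386) (nat_lit 197) (nat_lit 197)) (XT.lf (nat_lit 0) (nat_lit 4845925021) (nat_lit 152) (nat_lit 46975958509) (nat_lit 0) (nat_lit 4660400322) (nat_lit 3) (nat_lit 5) (nat_lit 5) (nat_lit 4) (nat_lit 3) (nat_lit 4) (nat_lit 387) (nat_lit 197) (nat_lit 196)))))) (XT.nd (nat_lit 468) (nat_lit 76) (nat_lit 0) (XT.nd (nat_lit 234) (nat_lit 0) (nat_lit 0) (XT.nd (nat_lit 78) (nat_lit 0) (nat_lit 0) (XT.lf (nat_lit 0) (nat_lit 7630150531) (nat_lit 152) (nat_lit 43195961735) (nat_lit 0) (nat_lit 7264504764) (nat_lit 3) (nat_lit 5) (nat_lit 5) (nat_lit 4) (nat_lit 3) (nat_lit 4) (nat_lit 388) (nat_lit 197) (nat_lit 195)) (XT.nd (nat_lit 78) (nat_lit 0) (nat_lit 0) (XT.lf (nat_lit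 0) (nat_lit 10443768564) (nat_lit 152) (nat_lit 39401831359) (nat_lit 0) (nat_lit 9903247974) (nat_lit 3) (nat_lit 5) (nat_lit 5) (nat_lit 4) (nat_lit 3) (nat_lit 4) (nat_lit 389) (nat_lit 197) (nat_lit 194)) (XT.lf (nat_lit 0) (nat_lit 13289237620) (nat_lit 152) (nat_lit 35590252123) (nat_lit 0) (nat_lit 12578935649) (nat_lit 3) (nat_lit 5) (nat_lit 5) (nat_lit 4) (nat_lit 3) (nat_lit 4) (nat_lit 390) (nat_lit 197) (nat_lit 193)))) (XT.nd (nat_lit 78) (nat_lit 0) (nat_lit 0) (XT.lf (nat_lit 0) (nat_lit 16169044033) (nat_lit 152) (nat_lit 31757893521) (nat_lit 0) (nat_lit 15293905770) (nat_lit 3) (nat_lit 5) (nat_lit 5) (nat_lit 4) (nat_lit 3) (nat_lit 4) (nat_lit 391) (nat_lit 197) (nat_lit 192)) (XT.nd (nat_lit 78) (nat_lit 0) (nat_lit 0) (XT.lf (nat_lit 0) (nat_lit 19085704137) (nat_lit 152) (nat_lit 27901406888) (nat_lit 0) (nat_lit 18050530638) (nat_lit 3) (nat_lit 5) (nat_lit 5) (nat_lit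 4) (nat_lit 3) (nat_lit 4) (nat_lit 392) (nat_lit 197) (nat_lit 191)) (XT.lf (nat_lit 0) (nat_lit 22041766471) (nat_lit 152) (nat_lit 24017422481) (nat_lit 0) (nat_lit 20851218958) (nat_lit 3) (nat_lit 5) (nat_lit 5) (nat_lit 4) (nat_lit 3) (nat_lit 4) (nat_lit 393) (nat_lit 197) (nat_lit 190))))) (XT.nd (nat_lit 234) (nat_lit 76) (nat_lit 0) (XT.nd (nat_lit 78) (nat_lit 0) (nat_lit 0) (XT.lf (nat_lit 0) (nat_lit 25039814002) (nat_lit 152) (nat_lit 20102546525) (nat_lit 0) (nat_lit 23698417930) (nat_lit 3) (nat_lit 5) (nat_lit 5) (nat_lit 4) (nat_lit 3) (nat_lit 4) (nat_lit 394) (nat_lit 197) (nat_lit 189)) (XT.nd (nat_lit 78) (nat_lit 0) (nat_lit 0) (XT.lf (nat_lit 0) (nat_lit 28082466383) (nat_lit 152) (nat_lit 16153358256) (nat_lit 0) (nat_lit 26594615400) (nat_lit 3) (nat_lit 5) (nat_lit 5) (nat_lit 4) (nat_lit 3) (nat_lit 4) (nat_lit 395) (nat_lit 197) (nat_lit 188)) (XT.lf (nat_lit 0) (nat_lit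 31172382242) (nat_lit 152) (nat_lit 12166406927) (nat_lit 0) (nat_lit 29542342026) (nat_lit 3) (nat_lit 5) (nat_lit 5) (nat_lit 4) (nat_lit 3) (nat_lit 4) (nat_lit 396) (nat_lit 197) (nat_lit 187)))) (XT.nd (nat_lit 78) (nat_lit 76) (nat_lit 0) (XT.lf (nat_lit 0) (nat_lit 34312261506) (nat_lit 152) (nat_lit 8138208793) (nat_lit 0) (nat_lit 32544173490) (nat_lit 3) (nat_lit 5) (nat_lit 5) (nat_lit 4) (nat_lit 3) (nat_lit 4) (nat_lit 397) (nat_lit 197) (nat_lit 186)) (XT.nd (nat_lit 78) (nat_lit 76) (nat_lit 0) (XT.lf (nat_lit 0) (nat_lit 37504847758) (nat_lit 152) (nat_lit 4065244070) (nat_lit 0) (nat_lit 35602732752) (nat_lit 3) (nat_lit 5) (nat_lit 5) (nat_lit 4) (nat_lit 3) (nat_lit 4) (nat_lit 398) (nat_lit 197) (nat_lit 185)) (XT.lf (nat_lit 0) (nat_lit 57161570) (nat_lit 76) (nat_lit 40696318540) (nat_lit 76) (nat_lit 38664080242) (nat_lit 2) (nat_lit 4) (nat_lit 3) (nat_lit 5) (nat_lit 3)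 (nat_lit 4) (nat_lit 399) (nat_lit 197) (nat_lit 184))))))))
noncomputable def xc2 : XT := (XT.nd (nat_lit 40794) (nat_lit 0) (nat_lit 0) (XT.nd (nat_lit 39858) (nat_lit 0) (nat_lit 0) (XT.nd (nat_lit 39390) (nat_lit 0) (nat_lit 76) (XT.nd (nat_lit 156) (nat_lit 0) (nat_lit 0) (XT.nd (nat_lit 78) (nat_lit 0) (nat_lit 0) (XT.lf (nat_lit 0) (nat_lit 4313433598) (nat_lit 76) (nat_lit 39787378039) (nat_lit 76) (nat_lit 37628806449) (nat_lit 2) (nat_lit 4) (nat_lit 3) (nat_lit 5) (nat_lit 3) (nat_lit 4) (nat_lit 400) (nat_lit 197) (nat_lit 183)) (XT.lf (nat_lit 0) (nat_lit 8626384758) (nat_lit 76) (nat_lit 38883527102) (nat_lit 76) (nat_lit 36602301829) (nat_lit 2) (nat_lit 4) (nat_lit 3) (nat_lit 5) (nat_lit 3) (nat_lit 4) (nat_lit 401) (nat_lit 197) (nat_lit 182))) (XT.nd (nat_lit 78) (nat_lit 0) (nat_lit 0) (XT.lf (nat_lit 0) (nat_lit 12999783649) (nat_lit 76) (nat_lit 37983975955) (nat_lit 76)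 (nat_lit 35583669438) (nat_lit 2) (nat_lit 4) (nat_lit 3) (nat_lit 5) (nat_lit 3) (nat_lit 4) (nat_lit 402) (nat_lit 197) (nat_lit 181)) (XT.nd (nat_lit 78) (nat_lit 0) (nat_lit 0) (XT.lf (nat_lit 0) (nat_lit 17437451685) (nat_lit 76) (nat_lit 37087938583) (nat_lit 76) (nat_lit 34572019207) (nat_lit 2) (nat_lit 4) (nat_lit 3) (nat_lit 5) (nat_lit 3) (nat_lit 4) (nat_lit 403) (nat_lit 197) (nat_lit 180)) (XT.lf (nat_lit 0) (nat_lit 21943266442) (nat_lit 76) (nat_lit 36194632041) (nat_lit 76) (nat_lit 33566467171) (nat_lit 2) (nat_lit 4) (nat_lit 3) (nat_lit 5) (nat_lit 3) (nat_lit 4) (nat_lit 404) (nat_lit 197) (nat_lit 179))))) (XT.nd (nat_lit 234) (nat_lit 0) (nat_lit 0) (XT.nd (nat_lit 78) (nat_lit 152) (nat_lit 0) (XT.lf (nat_lit 0) (nat_lit 22865504135) (nat_lit 76) (nat_lit 1551824678) (nat_lit 76) (nat_lit 1551824678) (nat_lit 5) (nat_lit 4) (nat_lit 6) (nat_lit 5) (nat_lit 6) (nat_lit 4)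 (nat_lit 384) (nat_lit 198) (nat_lit 198)) (XT.nd (nat_lit 78) (nat_lit 152) (nat_lit 0) (XT.lf (nat_lit 0) (nat_lit 52322828931) (nat_lit 76) (nat_lit 641544945) (nat_lit 76) (nat_lit 444721791) (nat_lit 5) (nat_lit 4) (nat_lit 6) (nat_lit 5) (nat_lit 6) (nat_lit 4) (nat_lit 385) (nat_lit 198) (nat_lit 197)) (XT.lf (nat_lit 0) (nat_lit 2251458514) (nat_lit 152) (nat_lit 50797002238) (nat_lit 0) (nat_lit 1874843374) (nat_lit 3) (nat_lit 5) (nat_lit 5) (nat_lit 4) (nat_lit 3) (nat_lit 4) (nat_lit 386) (nat_lit 198) (nat_lit 196)))) (XT.nd (nat_lit 78) (nat_lit 0) (nat_lit 0) (XT.lf (nat_lit 0) (nat_lit 4981257192) (nat_lit 152) (nat_lit 47078202800) (nat_lit 0) (nat_lit 4424520985) (nat_lit 3) (nat_lit 5) (nat_lit 5) (nat_lit 4) (nat_lit 3) (nat_lit 4) (nat_lit 387) (nat_lit 198) (nat_lit 195)) (XT.nd (nat_lit 78) (nat_lit 0) (nat_lit 0) (XT.lf (nat_lit 0) (nat_lit 7738815587) (nat_lit 152) (nat_lit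 43347105682) (nat_lit 0) (nat_lit 7007204557) (nat_lit 3) (nat_lit 5) (nat_lit 5) (nat_lit 4) (nat_lit 3) (nat_lit 4) (nat_lit 388) (nat_lit 198) (nat_lit 194)) (XT.lf (nat_lit 0) (nat_lit 10526543217) (nat_lit 152) (nat_lit 39600450701) (nat_lit 0) (nat_lit 9625150806) (nat_lit 3) (nat_lit 5) (nat_lit 5) (nat_lit 4) (nat_lit 3) (nat_lit 4) (nat_lit 389) (nat_lit 198) (nat_lit 193)))))) (XT.nd (nat_lit 468) (nat_lit 76) (nat_lit 0) (XT.nd (nat_lit 234) (nat_lit 0) (nat_lit 0) (XT.nd (nat_lit 78) (nat_lit 0) (nat_lit 0) (XT.lf (nat_lit 0) (nat_lit 13346875960) (nat_lit 152) (nat_lit 35834964081) (nat_lit 0) (nat_lit 12280647257) (nat_lit 3) (nat_lit 5) (nat_lit 5) (nat_lit 4) (nat_lit 3) (nat_lit 4) (nat_lit 390) (nat_lit 198) (nat_lit 192)) (XT.nd (nat_lit 78) (nat_lit 0) (nat_lit 0) (XT.lf (nat_lit 0) (nat_lit 16202278185) (nat_lit 152) (nat_lit 32047355591) (nat_lit 0) (nat_lit 14976014247)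 (nat_lit 3) (nat_lit 5) (nat_lit 5) (nat_lit 4) (nat_lit 3) (nat_lit 4) (nat_lit 391) (nat_lit 198) (nat_lit 191)) (XT.lf (nat_lit 0) (nat_lit 19095244904) (nat_lit 152) (nat_lit 28234315670) (nat_lit 0) (nat_lit 17713606950) (nat_lit 3) (nat_lit 5) (nat_lit 5) (nat_lit 4) (nat_lit 3) (nat_lit 4) (nat_lit 392) (nat_lit 198) (nat_lit 190)))) (XT.nd (nat_lit 78) (nat_lit 0) (nat_lit 0) (XT.lf (nat_lit 0) (nat_lit 22028303951) (nat_lit 152) (nat_lit 24392512535) (nat_lit 0) (nat_lit 20495817439) (nat_lit 3) (nat_lit 5) (nat_lit 5) (nat_lit 4) (nat_lit 3) (nat_lit 4) (nat_lit 393) (nat_lit 198) (nat_lit 189)) (XT.nd (nat_lit 78) (nat_lit 0) (nat_lit 0) (XT.lf (nat_lit 0) (nat_lit 25004018193) (nat_lit 152) (nat_lit 20518589272) (nat_lit 0) (nat_lit 23325076770) (nat_lit 3) (nat_lit 5) (nat_lit 5) (nat_lit 4) (nat_lit 3) (nat_lit 4) (nat_lit 394) (nat_lit 198) (nat_lit 188)) (XT.lf (nat_lit 0) (nat_lit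 28024987769) (nat_lit 152) (nat_lit 16609160898) (nat_lit 0) (nat_lit 26203857113) (nat_lit 3) (nat_lit 5) (nat_lit 5) (nat_lit 4) (nat_lit 3) (nat_lit 4) (nat_lit 395) (nat_lit 198) (nat_lit 187))))) (XT.nd (nat_lit 234) (nat_lit 76) (nat_lit 0) (XT.nd (nat_lit 78) (nat_lit 0) (nat_lit 0) (XT.lf (nat_lit 0) (nat_lit 31093852362) (nat_lit 152) (nat_lit 12660811409) (nat_lit 0) (nat_lit 29134673905) (nat_lit 3) (nat_lit 5) (nat_lit 5) (nat_lit 4) (nat_lit 3) (nat_lit 4) (nat_lit 396) (nat_lit 198) (nat_lit 186)) (XT.nd (nat_lit 78) (nat_lit 0) (nat_lit 0) (XT.lf (nat_lit 0) (nat_lit 34213293503) (nat_lit 152) (nat_lit 8670090790) (nat_lit 0) (nat_lit 32120088056) (nat_lit 3) (nat_lit 5) (nat_lit 5) (nat_lit 4) (nat_lit 3) (nat_lit 4) (nat_lit 397) (nat_lit 198) (nat_lit 185)) (XT.lf (nat_lit 0) (nat_lit 37386036918) (nat_lit 152) (nat_lit 4633512004) (nat_lit 0) (nat_lit 35162708180) (nat_lit 3)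 (nat_lit 5) (nat_lit 5) (nat_lit 4) (nat_lit 3) (nat_lit 4) (nat_lit 398) (nat_lit 198) (nat_lit 184)))) (XT.nd (nat_lit 78) (nat_lit 76) (nat_lit 0) (XT.lf (nat_lit 0) (nat_lit 40614854907) (nat_lit 152) (nat_lit 547547943) (nat_lit 0) (nat_lit 38265192876) (nat_lit 3) (nat_lit 5) (nat_lit 5) (nat_lit 4) (nat_lit 3) (nat_lit 4) (nat_lit 399) (nat_lit 198) (nat_lit 183)) (XT.nd (nat_lit 78) (nat_lit 0) (nat_lit 0) (XT.lf (nat_lit 0) (nat_lit 3662846989) (nat_lit 76) (nat_lit 40274931303) (nat_lit 76) (nat_lit 37802615590) (nat_lit 2) (nat_lit 4) (nat_lit 3) (nat_lit 5) (nat_lit 3) (nat_lit 4) (nat_lit 400) (nat_lit 198) (nat_lit 182)) (XT.lf (nat_lit 0) (nat_lit 7941837162) (nat_lit 76) (nat_lit 39386555892) (nat_lit 76) (nat_lit 36795158934) (nat_lit 2) (nat_lit 4) (nat_lit 3) (nat_lit 5) (nat_lit 3) (nat_lit 4) (nat_lit 401) (nat_lit 198) (nat_lit 181))))))) (XT.nd (nat_lit 39780) (nat_lit 0)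 (nat_lit 0) (XT.nd (nat_lit 39312) (nat_lit 0) (nat_lit 76) (XT.nd (nat_lit 39078) (nat_lit 0) (nat_lit 228) (XT.nd (nat_lit 78) (nat_lit 0) (nat_lit 0) (XT.lf (nat_lit 0) (nat_lit 12282264219) (nat_lit 76) (nat_lit 38502029528) (nat_lit 76) (nat_lit 35795019711) (nat_lit 2) (nat_lit 4) (nat_lit 3) (nat_lit 5) (nat_lit 3) (nat_lit 4) (nat_lit 402) (nat_lit 198) (nat_lit 180)) (XT.nd (nat_lit 78) (nat_lit 0) (nat_lit 0) (XT.lf (nat_lit 0) (nat_lit 16687920768) (nat_lit 76) (nat_lit 37620579324) (nat_lit 76) (nat_lit 34801324013) (nat_lit 2) (nat_lit 4) (nat_lit 3) (nat_lit 5) (nat_lit 3) (nat_lit 4) (nat_lit 403) (nat_lit 198) (nat_lit 179)) (XT.lf (nat_lit 0) (nat_lit 21162656410) (nat_lit 76) (nat_lit 36741435081) (nat_lit 76) (nat_lit 33813203562) (nat_lit 2) (nat_lit 4) (nat_lit 3) (nat_lit 5) (nat_lit 3) (nat_lit 4) (nat_lit 404) (nat_lit 198) (nat_lit 178)))) (XT.nd (nat_lit 78) (nat_lit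 0) (nat_lit 0) (XT.lf (nat_lit 0) (nat_lit 16433900493) (nat_lit 76) (nat_lit 4065094938) (nat_lit 76) (nat_lit 4065094938) (nat_lit 5) (nat_lit 4) (nat_lit 6) (nat_lit 5) (nat_lit 6) (nat_lit 4) (nat_lit 382) (nat_lit 199) (nat_lit 199)) (XT.nd (nat_lit 78) (nat_lit 0) (nat_lit 0) (XT.lf (nat_lit 0) (nat_lit 39230322140) (nat_lit 76) (nat_lit 5742225262) (nat_lit 76) (nat_lit 5539497413) (nat_lit 5) (nat_lit 4) (nat_lit 6) (nat_lit 5) (nat_lit 6) (nat_lit 4) (nat_lit 383) (nat_lit 199) (nat_lit 198)) (XT.lf (nat_lit 0) (nat_lit 45679832875) (nat_lit 76) (nat_lit 3329440794) (nat_lit 76) (nat_lit 2929889793) (nat_lit 5) (nat_lit 4) (nat_lit 6) (nat_lit 5) (nat_lit 6) (nat_lit 4) (nat_lit 384) (nat_lit 199) (nat_lit 197))))) (XT.nd (nat_lit 234) (nat_lit 0) (nat_lit 0) (XT.nd (nat_lit 78) (nat_lit 152) (nat_lit 0) (XT.lf (nat_lit 0) (nat_lit 52221968685) (nat_lit 76) (nat_lit 889728215) (nat_lit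 76) (nat_lit 299086773) (nat_lit 5) (nat_lit 4) (nat_lit 6) (nat_lit 5) (nat_lit 6) (nat_lit 4) (nat_lit 385) (nat_lit 199) (nat_lit 196)) (XT.nd (nat_lit 78) (nat_lit 0) (nat_lit 0) (XT.lf (nat_lit 0) (nat_lit 2363383522) (nat_lit 152) (nat_lit 50952680504) (nat_lit 0) (nat_lit 1609824161) (nat_lit 3) (nat_lit 5) (nat_lit 5) (nat_lit 4) (nat_lit 3) (nat_lit 4) (nat_lit 386) (nat_lit 199) (nat_lit 195)) (XT.lf (nat_lit 0) (nat_lit 5066515085) (nat_lit 152) (nat_lit 47282780723) (nat_lit 0) (nat_lit 4138080901) (nat_lit 3) (nat_lit 5) (nat_lit 5) (nat_lit 4) (nat_lit 3) (nat_lit 4) (nat_lit 387) (nat_lit 199) (nat_lit 194)))) (XT.nd (nat_lit 78) (nat_lit 0) (nat_lit 0) (XT.lf (nat_lit 0) (nat_lit 7798183077) (nat_lit 152) (nat_lit 43599158999) (nat_lit 0) (nat_lit 6699967513) (nat_lit 3) (nat_lit 5) (nat_lit 5) (nat_lit 4) (nat_lit 3) (nat_lit 4) (nat_lit 388) (nat_lit 199) (nat_lit 193)) (XT.nd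 (nat_lit 78) (nat_lit 0) (nat_lit 0) (XT.lf (nat_lit 0) (nat_lit 10560774394) (nat_lit 152) (nat_lit 39898596634) (nat_lit 0) (nat_lit 9297722537) (nat_lit 3) (nat_lit 5) (nat_lit 5) (nat_lit 4) (nat_lit 3) (nat_lit 4) (nat_lit 389) (nat_lit 199) (nat_lit 192)) (XT.lf (nat_lit 0) (nat_lit 13356702950) (nat_lit 152) (nat_lit 36177860126) (nat_lit 0) (nat_lit 11933615858) (nat_lit 3) (nat_lit 5) (nat_lit 5) (nat_lit 4) (nat_lit 3) (nat_lit 4) (nat_lit 390) (nat_lit 199) (nat_lit 191)))))) (XT.nd (nat_lit 468) (nat_lit 76) (nat_lit 0) (XT.nd (nat_lit 234) (nat_lit 0) (nat_lit 0) (XT.nd (nat_lit 78) (nat_lit 0) (nat_lit 0) (XT.lf (nat_lit 0) (nat_lit 16188411789) (nat_lit 152) (nat_lit 32433698347) (nat_lit 0) (nat_lit 14609950682) (nat_lit 3) (nat_lit 5) (nat_lit 5) (nat_lit 4) (nat_lit 3) (nat_lit 4) (nat_lit 391) (nat_lit 199) (nat_lit 190)) (XT.nd (nat_lit 78) (nat_lit 0) (nat_lit 0) (XT.lf (nat_lit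 0) (nat_lit 19058375220) (nat_lit 152) (nat_lit 28662839699) (nat_lit 0) (nat_lit 17329065555) (nat_lit 3) (nat_lit 5) (nat_lit 5) (nat_lit 4) (nat_lit 3) (nat_lit 4) (nat_lit 392) (nat_lit 199) (nat_lit 189)) (XT.lf (nat_lit 0) (nat_lit 21969100979) (nat_lit 152) (nat_lit 24861989257) (nat_lit 0) (nat_lit 20093336402) (nat_lit 3) (nat_lit 5) (nat_lit 5) (nat_lit 4) (nat_lit 3) (nat_lit 4) (nat_lit 393) (nat_lit 199) (nat_lit 188)))) (XT.nd (nat_lit 78) (nat_lit 0) (nat_lit 0) (XT.lf (nat_lit 0) (nat_lit 24923132416) (nat_lit 152) (nat_lit 21027825889) (nat_lit 0) (nat_lit 22905178606) (nat_lit 3) (nat_lit 5) (nat_lit 5) (nat_lit 4) (nat_lit 3) (nat_lit 4) (nat_lit 394) (nat_lit 199) (nat_lit 187)) (XT.nd (nat_lit 78) (nat_lit 0) (nat_lit 0) (XT.lf (nat_lit 0) (nat_lit 27923050726) (nat_lit 152) (nat_lit 17156999356) (nat_lit 0) (nat_lit 25767049116) (nat_lit 3) (nat_lit 5) (nat_lit 5) (nat_lit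 4) (nat_lit 3) (nat_lit 4) (nat_lit 395) (nat_lit 199) (nat_lit 186)) (XT.lf (nat_lit 0) (nat_lit 30971477196) (nat_lit 152) (nat_lit 13246127381) (nat_lit 0) (nat_lit 28681448596) (nat_lit 3) (nat_lit 5) (nat_lit 5) (nat_lit 4) (nat_lit 3) (nat_lit 4) (nat_lit 396) (nat_lit 199) (nat_lit 185))))) (XT.nd (nat_lit 234) (nat_lit 76) (nat_lit 0) (XT.nd (nat_lit 78) (nat_lit 0) (nat_lit 0) (XT.lf (nat_lit 0) (nat_lit 34071075500) (nat_lit 152) (nat_lit 9291792699) (nat_lit 0) (nat_lit 31650923608) (nat_lit 3) (nat_lit 5) (nat_lit 5) (nat_lit 4) (nat_lit 3) (nat_lit 4) (nat_lit 397) (nat_lit 199) (nat_lit 184)) (XT.nd (nat_lit 78) (nat_lit 0) (nat_lit 0) (XT.lf (nat_lit 0) (nat_lit 37224554023) (nat_lit 152) (nat_lit 5290540065) (nat_lit 0) (nat_lit 34678068839) (nat_lit 3) (nat_lit 5) (nat_lit 5) (nat_lit 4) (nat_lit 3) (nat_lit 4) (nat_lit 398) (nat_lit 199) (nat_lit 183)) (XT.lf (nat_lit 0) (nat_lit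 40434668234) (nat_lit 152) (nat_lit 1238873239) (nat_lit 0) (nat_lit 37765529368) (nat_lit 3) (nat_lit 5) (nat_lit 5) (nat_lit 4) (nat_lit 3) (nat_lit 4) (nat_lit 399) (nat_lit 199) (nat_lit 182)))) (XT.nd (nat_lit 78) (nat_lit 0) (nat_lit 0) (XT.lf (nat_lit 0) (nat_lit 2923801977) (nat_lit 76) (nat_lit 40808526482) (nat_lit 76) (nat_lit 38020306371) (nat_lit 2) (nat_lit 4) (nat_lit 3) (nat_lit 5) (nat_lit 3) (nat_lit 4) (nat_lit 400) (nat_lit 199) (nat_lit 181)) (XT.nd (nat_lit 78) (nat_lit 0) (nat_lit 0) (XT.lf (nat_lit 0) (nat_lit 7169820317) (nat_lit 76) (nat_lit 39935175855) (nat_lit 76) (nat_lit 37031342884) (nat_lit 2) (nat_lit 4) (nat_lit 3) (nat_lit 5) (nat_lit 3) (nat_lit 4) (nat_lit 401) (nat_lit 199) (nat_lit 180)) (XT.lf (nat_lit 0) (nat_lit 11478235887) (nat_lit 76) (nat_lit 39065236659) (nat_lit 76) (nat_lit 36049158194) (nat_lit 2) (nat_lit 4) (nat_lit 3) (nat_lit 5) (nat_lit 3)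 (nat_lit 4) (nat_lit 402) (nat_lit 199) (nat_lit 179))))))))
noncomputable def xc3 : XT := (XT.nd (nat_lit 40560) (nat_lit 0) (nat_lit 0) (XT.nd (nat_lit 39624) (nat_lit 0) (nat_lit 0) (XT.nd (nat_lit 39156) (nat_lit 0) (nat_lit 76) (XT.nd (nat_lit 38922) (nat_lit 0) (nat_lit 228) (XT.nd (nat_lit 78) (nat_lit 0) (nat_lit 0) (XT.lf (nat_lit 0) (nat_lit 15852813320) (nat_lit 76) (nat_lit 38197948754) (nat_lit 76) (nat_lit 35072894081) (nat_lit 2) (nat_lit 4) (nat_lit 3) (nat_lit 5) (nat_lit 3) (nat_lit 4) (nat_lit 403) (nat_lit 199) (nat_lit 178)) (XT.nd (nat_lit 38766) (nat_lit 0) (nat_lit 228) (XT.lf (nat_lit 0) (nat_lit 20297375065) (nat_lit 76) (nat_lit 37332554315) (nat_lit 76) (nat_lit 34101697499) (nat_lit 2) (nat_lit 4) (nat_lit 3) (nat_lit 5) (nat_lit 3) (nat_lit 4) (nat_lit 404) (nat_lit 199) (nat_lit 177)) (XT.lf (nat_lit 0) (nat_lit 10217926306) (nat_lit 76) (nat_lit 6512163743) (nat_lit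 76) (nat_lit 6512163743) (nat_lit 5) (nat_lit 4) (nat_lit 6) (nat_lit 5) (nat_lit 6) (nat_lit 4) (nat_lit 380) (nat_lit 200) (nat_lit 200)))) (XT.nd (nat_lit 78) (nat_lit 0) (nat_lit 0) (XT.lf (nat_lit 0) (nat_lit 26586709928) (nat_lit 76) (nat_lit 10704230891) (nat_lit 76) (nat_lit 10495421207) (nat_lit 5) (nat_lit 4) (nat_lit 6) (nat_lit 5) (nat_lit 6) (nat_lit 4) (nat_lit 381) (nat_lit 200) (nat_lit 199)) (XT.nd (nat_lit 78) (nat_lit 0) (nat_lit 0) (XT.lf (nat_lit 0) (nat_lit 32815090328) (nat_lit 76) (nat_lit 8362755056) (nat_lit 76) (nat_lit 7951217524) (nat_lit 5) (nat_lit 4) (nat_lit 6) (nat_lit 5) (nat_lit 6) (nat_lit 4) (nat_lit 382) (nat_lit 200) (nat_lit 198)) (XT.lf (nat_lit 0) (nat_lit 39126436086) (nat_lit 76) (nat_lit 5997854030) (nat_lit 76) (nat_lit 5389493345) (nat_lit 5) (nat_lit 4) (nat_lit 6) (nat_lit 5) (nat_lit 6) (nat_lit 4) (nat_lit 383) (nat_lit 200) (nat_lit 197)))))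 (XT.nd (nat_lit 234) (nat_lit 0) (nat_lit 0) (XT.nd (nat_lit 78) (nat_lit 152) (nat_lit 0) (XT.lf (nat_lit 0) (nat_lit 45526261970) (nat_lit 76) (nat_lit 3607461397) (nat_lit 76) (nat_lit 2808010271) (nat_lit 5) (nat_lit 4) (nat_lit 6) (nat_lit 5) (nat_lit 6) (nat_lit 4) (nat_lit 384) (nat_lit 200) (nat_lit 196)) (XT.nd (nat_lit 78) (nat_lit 152) (nat_lit 0) (XT.lf (nat_lit 0) (nat_lit 52020160060) (nat_lit 76) (nat_lit 1189488462) (nat_lit 76) (nat_lit 204512637) (nat_lit 5) (nat_lit 4) (nat_lit 6) (nat_lit 5) (nat_lit 6) (nat_lit 4) (nat_lit 385) (nat_lit 200) (nat_lit 195)) (XT.lf (nat_lit 0) (nat_lit 2424532037) (nat_lit 152) (nat_lit 51212295420) (nat_lit 0) (nat_lit 1293370005) (nat_lit 3) (nat_lit 5) (nat_lit 5) (nat_lit 4) (nat_lit 3) (nat_lit 4) (nat_lit 386) (nat_lit 200) (nat_lit 194)))) (XT.nd (nat_lit 78) (nat_lit 0) (nat_lit 0) (XT.lf (nat_lit 0) (nat_lit 5101773197) (nat_lit 152)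 (nat_lit 47589871033) (nat_lit 0) (nat_lit 3800829785) (nat_lit 3) (nat_lit 5) (nat_lit 5) (nat_lit 4) (nat_lit 3) (nat_lit 4) (nat_lit 387) (nat_lit 200) (nat_lit 193)) (XT.nd (nat_lit 78) (nat_lit 0) (nat_lit 0) (XT.lf (nat_lit 0) (nat_lit 7808304877) (nat_lit 152) (nat_lit 43952341925) (nat_lit 0) (nat_lit 6342525172) (nat_lit 3) (nat_lit 5) (nat_lit 5) (nat_lit 4) (nat_lit 3) (nat_lit 4) (nat_lit 388) (nat_lit 200) (nat_lit 192)) (XT.lf (nat_lit 0) (nat_lit 10546492006) (nat_lit 152) (nat_lit 40296529673) (nat_lit 0) (nat_lit 8920677066) (nat_lit 3) (nat_lit 5) (nat_lit 5) (nat_lit 4) (nat_lit 3) (nat_lit 4) (nat_lit 389) (nat_lit 200) (nat_lit 191)))))) (XT.nd (nat_lit 468) (nat_lit 76) (nat_lit 0) (XT.nd (nat_lit 234) (nat_lit 0) (nat_lit 0) (XT.nd (nat_lit 78) (nat_lit 0) (nat_lit 0) (XT.lf (nat_lit 0) (nat_lit 13318727176) (nat_lit 152) (nat_lit 36619239876) (nat_lit 0) (nat_lit 11537538221)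 (nat_lit 3) (nat_lit 5) (nat_lit 5) (nat_lit 4) (nat_lit 3) (nat_lit 4) (nat_lit 390) (nat_lit 200) (nat_lit 190)) (XT.nd (nat_lit 78) (nat_lit 0) (nat_lit 0) (XT.lf (nat_lit 0) (nat_lit 16127432728) (nat_lit 152) (nat_lit 32917259370) (nat_lit 0) (nat_lit 14195395215) (nat_lit 3) (nat_lit 5) (nat_lit 5) (nat_lit 4) (nat_lit 3) (nat_lit 4) (nat_lit 391) (nat_lit 200) (nat_lit 189)) (XT.lf (nat_lit 0) (nat_lit 18975062871) (nat_lit 152) (nat_lit 29187353415) (nat_lit 0) (nat_lit 16896570446) (nat_lit 3) (nat_lit 5) (nat_lit 5) (nat_lit 4) (nat_lit 3) (nat_lit 4) (nat_lit 392) (nat_lit 200) (nat_lit 188)))) (XT.nd (nat_lit 78) (nat_lit 0) (nat_lit 0) (XT.lf (nat_lit 0) (nat_lit 21864105824) (nat_lit 152) (nat_lit 25426262868) (nat_lit 0) (nat_lit 19643424166) (nat_lit 3) (nat_lit 5) (nat_lit 5) (nat_lit 4) (nat_lit 3) (nat_lit 4) (nat_lit 393) (nat_lit 200) (nat_lit 187)) (XT.nd (nat_lit 78) (nat_lit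 0) (nat_lit 0) (XT.lf (nat_lit 0) (nat_lit 24797085996) (nat_lit 152) (nat_lit 21630701340) (nat_lit 0) (nat_lit 22438356537) (nat_lit 3) (nat_lit 5) (nat_lit 5) (nat_lit 4) (nat_lit 3) (nat_lit 4) (nat_lit 394) (nat_lit 200) (nat_lit 186)) (XT.lf (nat_lit 0) (nat_lit 27776566183) (nat_lit 152) (nat_lit 17797352321) (nat_lit 0) (nat_lit 25283809734) (nat_lit 3) (nat_lit 5) (nat_lit 5) (nat_lit 4) (nat_lit 3) (nat_lit 4) (nat_lit 395) (nat_lit 200) (nat_lit 185))))) (XT.nd (nat_lit 234) (nat_lit 76) (nat_lit 0) (XT.nd (nat_lit 78) (nat_lit 0) (nat_lit 0) (XT.lf (nat_lit 0) (nat_lit 30805149815) (nat_lit 152) (nat_lit 13922866283) (nat_lit 0) (nat_lit 28182270075) (nat_lit 3) (nat_lit 5) (nat_lit 5) (nat_lit 4) (nat_lit 3) (nat_lit 4) (nat_lit 396) (nat_lit 200) (nat_lit 184)) (XT.nd (nat_lit 78) (nat_lit 0) (nat_lit 0) (XT.lf (nat_lit 0) (nat_lit 33885483227) (nat_lit 152) (nat_lit 10003857753)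 (nat_lit 0) (nat_lit 31136270195) (nat_lit 3) (nat_lit 5) (nat_lit 5) (nat_lit 4) (nat_lit 3) (nat_lit 4) (nat_lit 397) (nat_lit 200) (nat_lit 183)) (XT.lf (nat_lit 0) (nat_lit 37020257974) (nat_lit 152) (nat_lit 6036902354) (nat_lit 0) (nat_lit 34148391259) (nat_lit 3) (nat_lit 5) (nat_lit 5) (nat_lit 4) (nat_lit 3) (nat_lit 4) (nat_lit 398) (nat_lit 200) (nat_lit 182)))) (XT.nd (nat_lit 78) (nat_lit 76) (nat_lit 0) (XT.lf (nat_lit 0) (nat_lit 40212213177) (nat_lit 152) (nat_lit 2018533815) (nat_lit 0) (nat_lit 37221265218) (nat_lit 3) (nat_lit 5) (nat_lit 5) (nat_lit 4) (nat_lit 3) (nat_lit 4) (nat_lit 399) (nat_lit 200) (nat_lit 181)) (XT.nd (nat_lit 78) (nat_lit 0) (nat_lit 0) (XT.lf (nat_lit 0) (nat_lit 2095652794) (nat_lit 76) (nat_lit 41388629827) (nat_lit 76) (nat_lit 38282069009) (nat_lit 2) (nat_lit 4) (nat_lit 3) (nat_lit 5) (nat_lit 3) (nat_lit 4) (nat_lit 400) (nat_lit 200) (nat_lit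 180)) (XT.lf (nat_lit 0) (nat_lit 6309659646) (nat_lit 76) (nat_lit 40529866367) (nat_lit 76) (nat_lit 37311060055) (nat_lit 2) (nat_lit 4) (nat_lit 3) (nat_lit 5) (nat_lit 3) (nat_lit 4) (nat_lit 401) (nat_lit 200) (nat_lit 179))))))) (XT.nd (nat_lit 39468) (nat_lit 0) (nat_lit 76) (XT.nd (nat_lit 39000) (nat_lit 0) (nat_lit 76) (XT.nd (nat_lit 38766) (nat_lit 0) (nat_lit 228) (XT.nd (nat_lit 78) (nat_lit 0) (nat_lit 0) (XT.lf (nat_lit 0) (nat_lit 10586996101) (nat_lit 76) (nat_lit 39674089470) (nat_lit 76) (nat_lit 36346306950) (nat_lit 2) (nat_lit 4) (nat_lit 3) (nat_lit 5) (nat_lit 3) (nat_lit 4) (nat_lit 402) (nat_lit 200) (nat_lit 178)) (XT.nd (nat_lit 78) (nat_lit 0) (nat_lit 0) (XT.lf (nat_lit 0) (nat_lit 14931399637) (nat_lit 76) (nat_lit 38820551370) (nat_lit 76) (nat_lit 35386966706) (nat_lit 2) (nat_lit 4) (nat_lit 3) (nat_lit 5) (nat_lit 3) (nat_lit 4) (nat_lit 403) (nat_lit 200)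 (nat_lit 177)) (XT.lf (nat_lit 0) (nat_lit 19346666336) (nat_lit 76) (nat_lit 37968506257) (nat_lit 76) (nat_lit 34432201065) (nat_lit 2) (nat_lit 4) (nat_lit 3) (nat_lit 5) (nat_lit 3) (nat_lit 4) (nat_lit 404) (nat_lit 200) (nat_lit 176)))) (XT.nd (nat_lit 78) (nat_lit 0) (nat_lit 0) (XT.lf (nat_lit 0) (nat_lit 4200596433) (nat_lit 76) (nat_lit 8899173444) (nat_lit 76) (nat_lit 8899173444) (nat_lit 5) (nat_lit 4) (nat_lit 6) (nat_lit 5) (nat_lit 6) (nat_lit 4) (nat_lit 378) (nat_lit 201) (nat_lit 201)) (XT.nd (nat_lit 78) (nat_lit 0) (nat_lit 0) (XT.lf (nat_lit 0) (nat_lit 14357143843) (nat_lit 76) (nat_lit 15540146084) (nat_lit 76) (nat_lit 15325072110) (nat_lit 5) (nat_lit 4) (nat_lit 6) (nat_lit 5) (nat_lit 6) (nat_lit 4) (nat_lit 379) (nat_lit 201) (nat_lit 200)) (XT.lf (nat_lit 0) (nat_lit 20381560634) (nat_lit 76) (nat_lit 13263869621) (nat_lit 76) (nat_lit 12839985964) (nat_lit 5) (nat_lit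 4) (nat_lit 6) (nat_lit 5) (nat_lit 6) (nat_lit 4) (nat_lit 380) (nat_lit 201) (nat_lit 199))))) (XT.nd (nat_lit 234) (nat_lit 152) (nat_lit 0) (XT.nd (nat_lit 78) (nat_lit 0) (nat_lit 0) (XT.lf (nat_lit 0) (nat_lit 26479707292) (nat_lit 76) (nat_lit 10967528523) (nat_lit 76) (nat_lit 10340917017) (nat_lit 5) (nat_lit 4) (nat_lit 6) (nat_lit 5) (nat_lit 6) (nat_lit 4) (nat_lit 381) (nat_lit 201) (nat_lit 198)) (XT.nd (nat_lit 78) (nat_lit 0) (nat_lit 0) (XT.lf (nat_lit 0) (nat_lit 32656912296) (nat_lit 76) (nat_lit 8649116276) (nat_lit 76) (nat_lit 7825681617) (nat_lit 5) (nat_lit 4) (nat_lit 6) (nat_lit 5) (nat_lit 6) (nat_lit 4) (nat_lit 382) (nat_lit 201) (nat_lit 197)) (XT.lf (nat_lit 0) (nat_lit 38918573203) (nat_lit 76) (nat_lit 6306607084) (nat_lit 76) (nat_lit 5292081985) (nat_lit 5) (nat_lit 4) (nat_lit 6) (nat_lit 5) (nat_lit 6) (nat_lit 4) (nat_lit 383) (nat_lit 201) (nat_lit 196))))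 (XT.nd (nat_lit 78) (nat_lit 152) (nat_lit 0) (XT.lf (nat_lit 0) (nat_lit 45270161368) (nat_lit 76) (nat_lit 3937954095) (nat_lit 76) (nat_lit 2737904296) (nat_lit 5) (nat_lit 4) (nat_lit 6) (nat_lit 5) (nat_lit 6) (nat_lit 4) (nat_lit 384) (nat_lit 201) (nat_lit 195)) (XT.nd (nat_lit 78) (nat_lit 152) (nat_lit 0) (XT.lf (nat_lit 0) (nat_lit 51717226722) (nat_lit 76) (nat_lit 1541087611) (nat_lit 76) (nat_lit 160916744) (nat_lit 5) (nat_lit 4) (nat_lit 6) (nat_lit 5) (nat_lit 6) (nat_lit 4) (nat_lit 385) (nat_lit 201) (nat_lit 194)) (XT.lf (nat_lit 0) (nat_lit 2434957490) (nat_lit 152) (nat_lit 51576073834) (nat_lit 0) (nat_lit 925204394) (nat_lit 3) (nat_lit 5) (nat_lit 5) (nat_lit 4) (nat_lit 3) (nat_lit 4) (nat_lit 386) (nat_lit 201) (nat_lit 193)))))) (XT.nd (nat_lit 468) (nat_lit 0) (nat_lit 0) (XT.nd (nat_lit 234) (nat_lit 0) (nat_lit 0) (XT.nd (nat_lit 78) (nat_lit 0) (nat_lit 0) (XT.lf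 (nat_lit 0) (nat_lit 5087062338) (nat_lit 152) (nat_lit 47999742063) (nat_lit 0) (nat_lit 3412472949) (nat_lit 3) (nat_lit 5) (nat_lit 5) (nat_lit 4) (nat_lit 3) (nat_lit 4) (nat_lit 387) (nat_lit 201) (nat_lit 192)) (XT.nd (nat_lit 78) (nat_lit 0) (nat_lit 0) (XT.lf (nat_lit 0) (nat_lit 7769189830) (nat_lit 152) (nat_lit 44406963068) (nat_lit 0) (nat_lit 5934565206) (nat_lit 3) (nat_lit 5) (nat_lit 5) (nat_lit 4) (nat_lit 3) (nat_lit 4) (nat_lit 388) (nat_lit 201) (nat_lit 191)) (XT.lf (nat_lit 0) (nat_lit 10483683573) (nat_lit 152) (nat_lit 40794597527) (nat_lit 0) (nat_lit 8493684934) (nat_lit 3) (nat_lit 5) (nat_lit 5) (nat_lit 4) (nat_lit 3) (nat_lit 4) (nat_lit 389) (nat_lit 201) (nat_lit 190)))) (XT.nd (nat_lit 78) (nat_lit 0) (nat_lit 0) (XT.lf (nat_lit 0) (nat_lit 13232915456) (nat_lit 152) (nat_lit 37159489003) (nat_lit 0) (nat_lit 11092068259) (nat_lit 3) (nat_lit 5) (nat_lit 5) (nat_lit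 4) (nat_lit 3) (nat_lit 4) (nat_lit 390) (nat_lit 201) (nat_lit 189)) (XT.nd (nat_lit 78) (nat_lit 0) (nat_lit 0) (XT.lf (nat_lit 0) (nat_lit 16019287719) (nat_lit 152) (nat_lit 33498461190) (nat_lit 0) (nat_lit 13731985611) (nat_lit 3) (nat_lit 5) (nat_lit 5) (nat_lit 4) (nat_lit 3) (nat_lit 4) (nat_lit 391) (nat_lit 201) (nat_lit 188)) (XT.lf (nat_lit 0) (nat_lit 18845235057) (nat_lit 152) (nat_lit 29808315129) (nat_lit 0) (nat_lit 16415743715) (nat_lit 3) (nat_lit 5) (nat_lit 5) (nat_lit 4) (nat_lit 3) (nat_lit 4) (nat_lit 392) (nat_lit 201) (nat_lit 187))))) (XT.nd (nat_lit 234) (nat_lit 0) (nat_lit 0) (XT.nd (nat_lit 78) (nat_lit 0) (nat_lit 0) (XT.lf (nat_lit 0) (nat_lit 21713226744) (nat_lit 152) (nat_lit 26085826422) (nat_lit 0) (nat_lit 19145687603) (nat_lit 3) (nat_lit 5) (nat_lit 5) (nat_lit 4) (nat_lit 3) (nat_lit 4) (nat_lit 393) (nat_lit 201) (nat_lit 186)) (XT.nd (nat_lit 78) (nat_lit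 0) (nat_lit 0) (XT.lf (nat_lit 0) (nat_lit 24625768793) (nat_lit 152) (nat_lit 22327742409) (nat_lit 0) (nat_lit 21924202661) (nat_lit 3) (nat_lit 5) (nat_lit 5) (nat_lit 4) (nat_lit 3) (nat_lit 4) (nat_lit 394) (nat_lit 201) (nat_lit 185)) (XT.lf (nat_lit 0) (nat_lit 27585406142) (nat_lit 152) (nat_lit 18530779327) (nat_lit 0) (nat_lit 24753716719) (nat_lit 3) (nat_lit 5) (nat_lit 5) (nat_lit 4) (nat_lit 3) (nat_lit 4) (nat_lit 395) (nat_lit 201) (nat_lit 184)))) (XT.nd (nat_lit 78) (nat_lit 0) (nat_lit 0) (XT.lf (nat_lit 0) (nat_lit 30594724884) (nat_lit 152) (nat_lit 14691619442) (nat_lit 0) (nat_lit 27636702168) (nat_lit 3) (nat_lit 5) (nat_lit 5) (nat_lit 4) (nat_lit 3) (nat_lit 4) (nat_lit 396) (nat_lit 201) (nat_lit 183)) (XT.nd (nat_lit 78) (nat_lit 0) (nat_lit 0) (XT.lf (nat_lit 0) (nat_lit 33656354518) (nat_lit 152) (nat_lit 10806908146) (nat_lit 0) (nat_lit 30575678120) (nat_lit 3)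 (nat_lit 5) (nat_lit 5) (nat_lit 4) (nat_lit 3) (nat_lit 4) (nat_lit 397) (nat_lit 201) (nat_lit 182)) (XT.lf (nat_lit 0) (nat_lit 36772970257) (nat_lit 152) (nat_lit 6873251034) (nat_lit 0) (nat_lit 33573212614) (nat_lit 3) (nat_lit 5) (nat_lit 5) (nat_lit 4) (nat_lit 3) (nat_lit 4) (nat_lit 398) (nat_lit 201) (nat_lit 181))))))))
noncomputable def xc4 : XT := (XT.nd (nat_lit 40170) (nat_lit 0) (nat_lit 0) (XT.nd (nat_lit 39234) (nat_lit 0) (nat_lit 76) (XT.nd (nat_lit 390) (nat_lit 0) (nat_lit 0) (XT.nd (nat_lit 156) (nat_lit 0) (nat_lit 0) (XT.nd (nat_lit 78) (nat_lit 76) (nat_lit 0) (XT.lf (nat_lit 0) (nat_lit 39947295357) (nat_lit 152) (nat_lit 2887210928) (nat_lit 0) (nat_lit 36631924855) (nat_lit 3) (nat_lit 5) (nat_lit 5) (nat_lit 4) (nat_lit 3) (nat_lit 4) (nat_lit 399) (nat_lit 201) (nat_lit 180)) (XT.lf (nat_lit 0) (nat_lit 1177675815) (nat_lit 76) (nat_lit 42015748223) (nat_lit 76)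 (nat_lit 38588132227) (nat_lit 2) (nat_lit 4) (nat_lit 3) (nat_lit 5) (nat_lit 3) (nat_lit 4) (nat_lit 400) (nat_lit 201) (nat_lit 179))) (XT.nd (nat_lit 78) (nat_lit 0) (nat_lit 0) (XT.lf (nat_lit 0) (nat_lit 5360603553) (nat_lit 76) (nat_lit 41171147062) (nat_lit 76) (nat_lit 37634554858) (nat_lit 2) (nat_lit 4) (nat_lit 3) (nat_lit 5) (nat_lit 3) (nat_lit 4) (nat_lit 401) (nat_lit 201) (nat_lit 178)) (XT.nd (nat_lit 78) (nat_lit 0) (nat_lit 0) (XT.lf (nat_lit 0) (nat_lit 9607766110) (nat_lit 76) (nat_lit 40329119970) (nat_lit 76) (nat_lit 36686725622) (nat_lit 2) (nat_lit 4) (nat_lit 3) (nat_lit 5) (nat_lit 3) (nat_lit 4) (nat_lit 402) (nat_lit 201) (nat_lit 177)) (XT.lf (nat_lit 0) (nat_lit 13922874600) (nat_lit 76) (nat_lit 39488931195) (nat_lit 76) (nat_lit 35743816319) (nat_lit 2) (nat_lit 4) (nat_lit 3) (nat_lit 5) (nat_lit 3) (nat_lit 4) (nat_lit 403) (nat_lit 201) (nat_lit 176))))) (XT.nd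 (nat_lit 38610) (nat_lit 0) (nat_lit 228) (XT.nd (nat_lit 38454) (nat_lit 0) (nat_lit 228) (XT.lf (nat_lit 0) (nat_lit 18309699506) (nat_lit 76) (nat_lit 38649846591) (nat_lit 76) (nat_lit 34805003048) (nat_lit 2) (nat_lit 4) (nat_lit 3) (nat_lit 5) (nat_lit 3) (nat_lit 4) (nat_lit 404) (nat_lit 201) (nat_lit 175)) (XT.nd (nat_lit 78) (nat_lit 76) (nat_lit 0) (XT.lf (nat_lit 0) (nat_lit 9613455889) (nat_lit 152) (nat_lit 1602347602) (nat_lit 0) (nat_lit 9613455889) (nat_lit 6) (nat_lit 5) (nat_lit 8) (nat_lit 4) (nat_lit 6) (nat_lit 4) (nat_lit 376) (nat_lit 202) (nat_lit 202)) (XT.lf (nat_lit 0) (nat_lit 2508503476) (nat_lit 76) (nat_lit 20261971416) (nat_lit 76) (nat_lit 20040445223) (nat_lit 5) (nat_lit 4) (nat_lit 6) (nat_lit 5) (nat_lit 6) (nat_lit 4) (nat_lit 377) (nat_lit 202) (nat_lit 201)))) (XT.nd (nat_lit 78) (nat_lit 0) (nat_lit 0) (XT.lf (nat_lit 0) (nat_lit 8345272129) (nat_lit 76)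 (nat_lit 18045075289) (nat_lit 76) (nat_lit 17608475121) (nat_lit 5) (nat_lit 4) (nat_lit 6) (nat_lit 5) (nat_lit 6) (nat_lit 4) (nat_lit 378) (nat_lit 202) (nat_lit 200)) (XT.nd (nat_lit 78) (nat_lit 0) (nat_lit 0) (XT.lf (nat_lit 0) (nat_lit 14246931128) (nat_lit 76) (nat_lit 15811342644) (nat_lit 76) (nat_lit 15165932793) (nat_lit 5) (nat_lit 4) (nat_lit 6) (nat_lit 5) (nat_lit 6) (nat_lit 4) (nat_lit 379) (nat_lit 202) (nat_lit 199)) (XT.lf (nat_lit 0) (nat_lit 20218637261) (nat_lit 76) (nat_lit 13558821678) (nat_lit 76) (nat_lit 12710683979) (nat_lit 5) (nat_lit 4) (nat_lit 6) (nat_lit 5) (nat_lit 6) (nat_lit 4) (nat_lit 380) (nat_lit 202) (nat_lit 198)))))) (XT.nd (nat_lit 468) (nat_lit 0) (nat_lit 0) (XT.nd (nat_lit 234) (nat_lit 152) (nat_lit 0) (XT.nd (nat_lit 78) (nat_lit 0) (nat_lit 0) (XT.lf (nat_lit 0) (nat_lit 26265608523) (nat_lit 76) (nat_lit 11285544168) (nat_lit 76) (nat_lit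 10240583316) (nat_lit 5) (nat_lit 4) (nat_lit 6) (nat_lit 5) (nat_lit 6) (nat_lit 4) (nat_lit 381) (nat_lit 202) (nat_lit 197)) (XT.nd (nat_lit 78) (nat_lit 0) (nat_lit 0) (XT.lf (nat_lit 0) (nat_lit 32393128676) (nat_lit 76) (nat_lit 8989523755) (nat_lit 76) (nat_lit 7753472462) (nat_lit 5) (nat_lit 4) (nat_lit 6) (nat_lit 5) (nat_lit 6) (nat_lit 4) (nat_lit 382) (nat_lit 202) (nat_lit 196)) (XT.lf (nat_lit 0) (nat_lit 38606551864) (nat_lit 76) (nat_lit 6668754208) (nat_lit 76) (nat_lit 5247178216) (nat_lit 5) (nat_lit 4) (nat_lit 6) (nat_lit 5) (nat_lit 6) (nat_lit 4) (nat_lit 383) (nat_lit 202) (nat_lit 195)))) (XT.nd (nat_lit 78) (nat_lit 152) (nat_lit 0) (XT.lf (nat_lit 0) (nat_lit 44911307292) (nat_lit 76) (nat_lit 4321207669) (nat_lit 76) (nat_lit 2719510610) (nat_lit 5) (nat_lit 4) (nat_lit 6) (nat_lit 5) (nat_lit 6) (nat_lit 4) (nat_lit 384) (nat_lit 202) (nat_lit 194)) (XT.nd (nat_lit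 78) (nat_lit 152) (nat_lit 0) (XT.lf (nat_lit 0) (nat_lit 51312903969) (nat_lit 76) (nat_lit 1944832885) (nat_lit 76) (nat_lit 168261003) (nat_lit 5) (nat_lit 4) (nat_lit 6) (nat_lit 5) (nat_lit 6) (nat_lit 4) (nat_lit 385) (nat_lit 202) (nat_lit 193)) (XT.lf (nat_lit 0) (nat_lit 2394668992) (nat_lit 152) (nat_lit 52044333611) (nat_lit 0) (nat_lit 505005629) (nat_lit 3) (nat_lit 5) (nat_lit 5) (nat_lit 4) (nat_lit 3) (nat_lit 4) (nat_lit 386) (nat_lit 202) (nat_lit 192))))) (XT.nd (nat_lit 234) (nat_lit 0) (nat_lit 0) (XT.nd (nat_lit 78) (nat_lit 0) (nat_lit 0) (XT.lf (nat_lit 0) (nat_lit 5022369652) (nat_lit 152) (nat_lit 48512751953) (nat_lit 0) (nat_lit 2972671054) (nat_lit 3) (nat_lit 5) (nat_lit 5) (nat_lit 4) (nat_lit 3) (nat_lit 4) (nat_lit 387) (nat_lit 202) (nat_lit 191)) (XT.nd (nat_lit 78) (nat_lit 0) (nat_lit 0) (XT.lf (nat_lit 0) (nat_lit 7680803758) (nat_lit 152) (nat_lit 44963419669)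 (nat_lit 0) (nat_lit 5475731145) (nat_lit 3) (nat_lit 5) (nat_lit 5) (nat_lit 4) (nat_lit 3) (nat_lit 4) (nat_lit 388) (nat_lit 202) (nat_lit 190)) (XT.lf (nat_lit 0) (nat_lit 10372294214) (nat_lit 152) (nat_lit 41393235400) (nat_lit 0) (nat_lit 8016373043) (nat_lit 3) (nat_lit 5) (nat_lit 5) (nat_lit 4) (nat_lit 3) (nat_lit 4) (nat_lit 389) (nat_lit 202) (nat_lit 189)))) (XT.nd (nat_lit 78) (nat_lit 0) (nat_lit 0) (XT.lf (nat_lit 0) (nat_lit 13099192808) (nat_lit 152) (nat_lit 37799079569) (nat_lit 0) (nat_lit 10596816726) (nat_lit 3) (nat_lit 5) (nat_lit 5) (nat_lit 4) (nat_lit 3) (nat_lit 4) (nat_lit 390) (nat_lit 202) (nat_lit 188)) (XT.nd (nat_lit 78) (nat_lit 0) (nat_lit 0) (XT.lf (nat_lit 0) (nat_lit 15863882267) (nat_lit 152) (nat_lit 34177811651) (nat_lit 0) (nat_lit 13219316951) (nat_lit 3) (nat_lit 5) (nat_lit 5) (nat_lit 4) (nat_lit 3) (nat_lit 4) (nat_lit 391) (nat_lit 202) (nat_lit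 187)) (XT.lf (nat_lit 0) (nat_lit 18668778339) (nat_lit 152) (nat_lit 30526267431) (nat_lit 0) (nat_lit 15886165223) (nat_lit 3) (nat_lit 5) (nat_lit 5) (nat_lit 4) (nat_lit 3) (nat_lit 4) (nat_lit 392) (nat_lit 202) (nat_lit 186))))))) (XT.nd (nat_lit 39156) (nat_lit 0) (nat_lit 228) (XT.nd (nat_lit 468) (nat_lit 76) (nat_lit 0) (XT.nd (nat_lit 234) (nat_lit 0) (nat_lit 0) (XT.nd (nat_lit 78) (nat_lit 0) (nat_lit 0) (XT.lf (nat_lit 0) (nat_lit 21516331903) (nat_lit 152) (nat_lit 26841256239) (nat_lit 0) (nat_lit 18599691797) (nat_lit 3) (nat_lit 5) (nat_lit 5) (nat_lit 4) (nat_lit 3) (nat_lit 4) (nat_lit 393) (nat_lit 202) (nat_lit 185)) (XT.nd (nat_lit 78) (nat_lit 0) (nat_lit 0) (XT.lf (nat_lit 0) (nat_lit 24409031114) (nat_lit 152) (nat_lit 23119558162) (nat_lit 0) (nat_lit 21362267716) (nat_lit 3) (nat_lit 5) (nat_lit 5) (nat_lit 4) (nat_lit 3) (nat_lit 4) (nat_lit 394) (nat_lit 202) (nat_lit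 184)) (XT.lf (nat_lit 0) (nat_lit 27349403572) (nat_lit 152) (nat_lit 19357921232) (nat_lit 0) (nat_lit 24176306882) (nat_lit 3) (nat_lit 5) (nat_lit 5) (nat_lit 4) (nat_lit 3) (nat_lit 4) (nat_lit 395) (nat_lit 202) (nat_lit 183)))) (XT.nd (nat_lit 78) (nat_lit 0) (nat_lit 0) (XT.lf (nat_lit 0) (nat_lit 30340018536) (nat_lit 152) (nat_lit 15553058582) (nat_lit 0) (nat_lit 27044268163) (nat_lit 3) (nat_lit 5) (nat_lit 5) (nat_lit 4) (nat_lit 3) (nat_lit 4) (nat_lit 396) (nat_lit 202) (nat_lit 182)) (XT.nd (nat_lit 78) (nat_lit 0) (nat_lit 0) (XT.lf (nat_lit 0) (nat_lit 33383489163) (nat_lit 152) (nat_lit 11701645573) (nat_lit 0) (nat_lit 29968657546) (nat_lit 3) (nat_lit 5) (nat_lit 5) (nat_lit 4) (nat_lit 3) (nat_lit 4) (nat_lit 397) (nat_lit 202) (nat_lit 181)) (XT.lf (nat_lit 0) (nat_lit 36482474798) (nat_lit 152) (nat_lit 7800316894) (nat_lit 0) (nat_lit 32952030322) (nat_lit 3) (nat_lit 5)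 (nat_lit 5) (nat_lit 4) (nat_lit 3) (nat_lit 4) (nat_lit 398) (nat_lit 202) (nat_lit 180))))) (XT.nd (nat_lit 234) (nat_lit 0) (nat_lit 0) (XT.nd (nat_lit 78) (nat_lit 76) (nat_lit 0) (XT.lf (nat_lit 0) (nat_lit 39639683291) (nat_lit 152) (nat_lit 3845663616) (nat_lit 0) (nat_lit 35996993321) (nat_lit 3) (nat_lit 5) (nat_lit 5) (nat_lit 4) (nat_lit 3) (nat_lit 4) (nat_lit 399) (nat_lit 202) (nat_lit 179)) (XT.nd (nat_lit 78) (nat_lit 0) (nat_lit 0) (XT.lf (nat_lit 0) (nat_lit 169068924) (nat_lit 76) (nat_lit 42690429638) (nat_lit 76) (nat_lit 38938763459) (nat_lit 2) (nat_lit 4) (nat_lit 3) (nat_lit 5) (nat_lit 3) (nat_lit 4) (nat_lit 400) (nat_lit 202) (nat_lit 178)) (XT.lf (nat_lit 0) (nat_lit 4321822764) (nat_lit 76) (nat_lit 41859578281) (nat_lit 76) (nat_lit 38002109959) (nat_lit 2) (nat_lit 4) (nat_lit 3) (nat_lit 5) (nat_lit 3) (nat_lit 4) (nat_lit 401) (nat_lit 202) (nat_lit 177)))) (XT.nd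 (nat_lit 78) (nat_lit 0) (nat_lit 0) (XT.lf (nat_lit 0) (nat_lit 8539690275) (nat_lit 76) (nat_lit 41030900514) (nat_lit 76) (nat_lit 37070711665) (nat_lit 2) (nat_lit 4) (nat_lit 3) (nat_lit 5) (nat_lit 3) (nat_lit 4) (nat_lit 402) (nat_lit 202) (nat_lit 176)) (XT.nd (nat_lit 78) (nat_lit 0) (nat_lit 0) (XT.lf (nat_lit 0) (nat_lit 12826356973) (nat_lit 76) (nat_lit 40203672249) (nat_lit 76) (nat_lit 36143754731) (nat_lit 2) (nat_lit 4) (nat_lit 3) (nat_lit 5) (nat_lit 3) (nat_lit 4) (nat_lit 403) (nat_lit 202) (nat_lit 175)) (XT.lf (nat_lit 0) (nat_lit 17185568488) (nat_lit 76) (nat_lit 39377170665) (nat_lit 76) (nat_lit 35220429198) (nat_lit 2) (nat_lit 4) (nat_lit 3) (nat_lit 5) (nat_lit 3) (nat_lit 4) (nat_lit 404) (nat_lit 202) (nat_lit 174)))))) (XT.nd (nat_lit 468) (nat_lit 0) (nat_lit 0) (XT.nd (nat_lit 234) (nat_lit 76) (nat_lit 0) (XT.nd (nat_lit 78) (nat_lit 0) (nat_lit 0) (XT.lf (nat_lit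 0) (nat_lit 6284443202) (nat_lit 152) (nat_lit 7159451962) (nat_lit 0) (nat_lit 6284443202) (nat_lit 6) (nat_lit 5) (nat_lit 8) (nat_lit 4) (nat_lit 6) (nat_lit 4) (nat_lit 374) (nat_lit 203) (nat_lit 203)) (XT.nd (nat_lit 78) (nat_lit 0) (nat_lit 0) (XT.lf (nat_lit 0) (nat_lit 15976874760) (nat_lit 152) (nat_lit 8815269757) (nat_lit 0) (nat_lit 15748702781) (nat_lit 6) (nat_lit 5) (nat_lit 8) (nat_lit 4) (nat_lit 6) (nat_lit 4) (nat_lit 375) (nat_lit 203) (nat_lit 202)) (XT.lf (nat_lit 0) (nat_lit 19423997342) (nat_lit 152) (nat_lit 3261169611) (nat_lit 0) (nat_lit 18974299170) (nat_lit 6) (nat_lit 5) (nat_lit 8) (nat_lit 4) (nat_lit 6) (nat_lit 4) (nat_lit 376) (nat_lit 203) (nat_lit 201)))) (XT.nd (nat_lit 78) (nat_lit 0) (nat_lit 0) (XT.lf (nat_lit 0) (nat_lit 2394984379) (nat_lit 76) (nat_lit 20541303874) (nat_lit 76) (nat_lit 19876531727) (nat_lit 5) (nat_lit 4) (nat_lit 6) (nat_lit 5) (nat_lit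 6) (nat_lit 4) (nat_lit 377) (nat_lit 203) (nat_lit 200)) (XT.nd (nat_lit 78) (nat_lit 0) (nat_lit 0) (XT.lf (nat_lit 0) (nat_lit 8177461055) (nat_lit 76) (nat_lit 18348875907) (nat_lit 76) (nat_lit 17475294077) (nat_lit 5) (nat_lit 4) (nat_lit 6) (nat_lit 5) (nat_lit 6) (nat_lit 4) (nat_lit 378) (nat_lit 203) (nat_lit 199)) (XT.lf (nat_lit 0) (nat_lit 14026409396) (nat_lit 76) (nat_lit 16138898759) (nat_lit 76) (nat_lit 15062589081) (nat_lit 5) (nat_lit 4) (nat_lit 6) (nat_lit 5) (nat_lit 6) (nat_lit 4) (nat_lit 379) (nat_lit 203) (nat_lit 198))))) (XT.nd (nat_lit 234) (nat_lit 0) (nat_lit 0) (XT.nd (nat_lit 78) (nat_lit 0) (nat_lit 0) (XT.lf (nat_lit 0) (nat_lit 19946940132) (nat_lit 76) (nat_lit 13909441382) (nat_lit 76) (nat_lit 12636308550) (nat_lit 5) (nat_lit 4) (nat_lit 6) (nat_lit 5) (nat_lit 6) (nat_lit 4) (nat_lit 380) (nat_lit 203) (nat_lit 197)) (XT.nd (nat_lit 78) (nat_lit 0) (nat_lit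 0) (XT.lf (nat_lit 0) (nat_lit 25944226544) (nat_lit 76) (nat_lit 11658555706) (nat_lit 76) (nat_lit 10194332433) (nat_lit 5) (nat_lit 4) (nat_lit 6) (nat_lit 5) (nat_lit 6) (nat_lit 4) (nat_lit 381) (nat_lit 203) (nat_lit 196)) (XT.lf (nat_lit 0) (nat_lit 32023508978) (nat_lit 76) (nat_lit 9384274937) (nat_lit 76) (nat_lit 7734526965) (nat_lit 5) (nat_lit 4) (nat_lit 6) (nat_lit 5) (nat_lit 6) (nat_lit 4) (nat_lit 382) (nat_lit 203) (nat_lit 195)))) (XT.nd (nat_lit 78) (nat_lit 0) (nat_lit 0) (XT.lf (nat_lit 0) (nat_lit 38190099429) (nat_lit 76) (nat_lit 7084611840) (nat_lit 76) (nat_lit 5254742802) (nat_lit 5) (nat_lit 4) (nat_lit 6) (nat_lit 5) (nat_lit 6) (nat_lit 4) (nat_lit 383) (nat_lit 203) (nat_lit 194)) (XT.nd (nat_lit 78) (nat_lit 0) (nat_lit 0) (XT.lf (nat_lit 0) (nat_lit 44449386180) (nat_lit 76) (nat_lit 4757557002) (nat_lit 76) (nat_lit 2752813140) (nat_lit 5) (nat_lit 4) (nat_lit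 6) (nat_lit 5) (nat_lit 6) (nat_lit 4) (nat_lit 384) (nat_lit 203) (nat_lit 193)) (XT.lf (nat_lit 0) (nat_lit 50806838511) (nat_lit 76) (nat_lit 2401077072) (nat_lit 76) (nat_lit 226551829) (nat_lit 5) (nat_lit 4) (nat_lit 6) (nat_lit 5) (nat_lit 6) (nat_lit 4) (nat_lit 385) (nat_lit 203) (nat_lit 192))))))))
noncomputable def xc5 : XT := (XT.nd (nat_lit 39858) (nat_lit 0) (nat_lit 76) (XT.nd (nat_lit 858) (nat_lit 76) (nat_lit 0) (XT.nd (nat_lit 390) (nat_lit 0) (nat_lit 0) (XT.nd (nat_lit 156) (nat_lit 0) (nat_lit 0) (XT.nd (nat_lit 78) (nat_lit 0) (nat_lit 0) (XT.lf (nat_lit 0) (nat_lit 2303631338) (nat_lit 152) (nat_lit 52617483909) (nat_lit 0) (nat_lit 32406546) (nat_lit 3) (nat_lit 5) (nat_lit 5) (nat_lit 4) (nat_lit 3) (nat_lit 4) (nat_lit 386) (nat_lit 203) (nat_lit 191)) (XT.lf (nat_lit 0) (nat_lit 4907638612) (nat_lit 152) (nat_lit 49129348962) (nat_lit 0) (nat_lit 2481039805) (nat_lit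 3) (nat_lit 5) (nat_lit 5) (nat_lit 4) (nat_lit 3) (nat_lit 4) (nat_lit 387) (nat_lit 203) (nat_lit 190))) (XT.nd (nat_lit 78) (nat_lit 0) (nat_lit 0) (XT.lf (nat_lit 0) (nat_lit 7543069431) (nat_lit 152) (nat_lit 45622197952) (nat_lit 0) (nat_lit 4965622066) (nat_lit 3) (nat_lit 5) (nat_lit 5) (nat_lit 4) (nat_lit 3) (nat_lit 4) (nat_lit 388) (nat_lit 203) (nat_lit 189)) (XT.nd (nat_lit 78) (nat_lit 0) (nat_lit 0) (XT.lf (nat_lit 0) (nat_lit 10212226599) (nat_lit 152) (nat_lit 42092966375) (nat_lit 0) (nat_lit 7488324323) (nat_lit 3) (nat_lit 5) (nat_lit 5) (nat_lit 4) (nat_lit 3) (nat_lit 4) (nat_lit 389) (nat_lit 203) (nat_lit 188)) (XT.lf (nat_lit 0) (nat_lit 12917442388) (nat_lit 152) (nat_lit 38538570440) (nat_lit 0) (nat_lit 10051350879) (nat_lit 3) (nat_lit 5) (nat_lit 5) (nat_lit 4) (nat_lit 3) (nat_lit 4) (nat_lit 390) (nat_lit 203) (nat_lit 187))))) (XT.nd (nat_lit 234) (nat_lit 0)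 (nat_lit 0) (XT.nd (nat_lit 78) (nat_lit 0) (nat_lit 0) (XT.lf (nat_lit 0) (nat_lit 15661080580) (nat_lit 152) (nat_lit 34955904362) (nat_lit 0) (nat_lit 12656941271) (nat_lit 3) (nat_lit 5) (nat_lit 5) (nat_lit 4) (nat_lit 3) (nat_lit 4) (nat_lit 391) (nat_lit 203) (nat_lit 186)) (XT.nd (nat_lit 78) (nat_lit 0) (nat_lit 0) (XT.lf (nat_lit 0) (nat_lit 18445538529) (nat_lit 152) (nat_lit 31341837656) (nat_lit 0) (nat_lit 15307372230) (nat_lit 3) (nat_lit 5) (nat_lit 5) (nat_lit 4) (nat_lit 3) (nat_lit 4) (nat_lit 392) (nat_lit 203) (nat_lit 185)) (XT.lf (nat_lit 0) (nat_lit 21273249256) (nat_lit 152) (nat_lit 27693212401) (nat_lit 0) (nat_lit 18004959665) (nat_lit 3) (nat_lit 5) (nat_lit 5) (nat_lit 4) (nat_lit 3) (nat_lit 4) (nat_lit 393) (nat_lit 203) (nat_lit 184)))) (XT.nd (nat_lit 78) (nat_lit 0) (nat_lit 0) (XT.lf (nat_lit 0) (nat_lit 24146683575) (nat_lit 152) (nat_lit 24006840477) (nat_lit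 0) (nat_lit 20752060692) (nat_lit 3) (nat_lit 5) (nat_lit 5) (nat_lit 4) (nat_lit 3) (nat_lit 4) (nat_lit 394) (nat_lit 203) (nat_lit 183)) (XT.nd (nat_lit 78) (nat_lit 0) (nat_lit 0) (XT.lf (nat_lit 0) (nat_lit 27068352256) (nat_lit 152) (nat_lit 20279500782) (nat_lit 0) (nat_lit 23551075691) (nat_lit 3) (nat_lit 5) (nat_lit 5) (nat_lit 4) (nat_lit 3) (nat_lit 4) (nat_lit 395) (nat_lit 203) (nat_lit 182)) (XT.lf (nat_lit 0) (nat_lit 30040808212) (nat_lit 152) (nat_lit 16507936417) (nat_lit 0) (nat_lit 26404450402) (nat_lit 3) (nat_lit 5) (nat_lit 5) (nat_lit 4) (nat_lit 3) (nat_lit 4) (nat_lit 396) (nat_lit 203) (nat_lit 181)))))) (XT.nd (nat_lit 468) (nat_lit 0) (nat_lit 0) (XT.nd (nat_lit 234) (nat_lit 76) (nat_lit 0) (XT.nd (nat_lit 78) (nat_lit 0) (nat_lit 0) (XT.lf (nat_lit 0) (nat_lit 33066648736) (nat_lit 152) (nat_lit 12688851842) (nat_lit 0) (nat_lit 29314678066) (nat_lit 3) (nat_lit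 5) (nat_lit 5) (nat_lit 4) (nat_lit 3) (nat_lit 4) (nat_lit 397) (nat_lit 203) (nat_lit 180)) (XT.nd (nat_lit 78) (nat_lit 0) (nat_lit 0) (XT.lf (nat_lit 0) (nat_lit 36148517764) (nat_lit 152) (nat_lit 8818909992) (nat_lit 0) (nat_lit 32284301600) (nat_lit 3) (nat_lit 5) (nat_lit 5) (nat_lit 4) (nat_lit 3) (nat_lit 4) (nat_lit 398) (nat_lit 203) (nat_lit 179)) (XT.lf (nat_lit 0) (nat_lit 39289108193) (nat_lit 152) (nat_lit 4894729363) (nat_lit 0) (nat_lit 35315915821) (nat_lit 3) (nat_lit 5) (nat_lit 5) (nat_lit 4) (nat_lit 3) (nat_lit 4) (nat_lit 399) (nat_lit 203) (nat_lit 178)))) (XT.nd (nat_lit 78) (nat_lit 76) (nat_lit 0) (XT.lf (nat_lit 0) (nat_lit 42491164228) (nat_lit 152) (nat_lit 912881061) (nat_lit 0) (nat_lit 38412169713) (nat_lit 3) (nat_lit 5) (nat_lit 5) (nat_lit 4) (nat_lit 3) (nat_lit 4) (nat_lit 400) (nat_lit 203) (nat_lit 177)) (XT.nd (nat_lit 78) (nat_lit 0) (nat_lit 0) (XT.lf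 (nat_lit 0) (nat_lit 3192409608) (nat_lit 76) (nat_lit 42595761567) (nat_lit 76) (nat_lit 38414046524) (nat_lit 2) (nat_lit 4) (nat_lit 3) (nat_lit 5) (nat_lit 3) (nat_lit 4) (nat_lit 401) (nat_lit 203) (nat_lit 176)) (XT.lf (nat_lit 0) (nat_lit 7381835327) (nat_lit 76) (nat_lit 41780044310) (nat_lit 76) (nat_lit 37498600599) (nat_lit 2) (nat_lit 4) (nat_lit 3) (nat_lit 5) (nat_lit 3) (nat_lit 4) (nat_lit 402) (nat_lit 203) (nat_lit 175))))) (XT.nd (nat_lit 38298) (nat_lit 0) (nat_lit 304) (XT.nd (nat_lit 78) (nat_lit 0) (nat_lit 0) (XT.lf (nat_lit 0) (nat_lit 11640888633) (nat_lit 76) (nat_lit 40965399064) (nat_lit 76) (nat_lit 36587131404) (nat_lit 2) (nat_lit 4) (nat_lit 3) (nat_lit 5) (nat_lit 3) (nat_lit 4) (nat_lit 403) (nat_lit 203) (nat_lit 174)) (XT.nd (nat_lit 38142) (nat_lit 0) (nat_lit 304) (XT.lf (nat_lit 0) (nat_lit 15973291031) (nat_lit 76) (nat_lit 40151114003) (nat_lit 76) (nat_lit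 35678842508) (nat_lit 2) (nat_lit 4) (nat_lit 3) (nat_lit 5) (nat_lit 3) (nat_lit 4) (nat_lit 404) (nat_lit 203) (nat_lit 173)) (XT.lf (nat_lit 0) (nat_lit 3063214631) (nat_lit 152) (nat_lit 12567028370) (nat_lit 0) (nat_lit 3063214631) (nat_lit 6) (nat_lit 5) (nat_lit 8) (nat_lit 4) (nat_lit 6) (nat_lit 4) (nat_lit 372) (nat_lit 204) (nat_lit 204)))) (XT.nd (nat_lit 78) (nat_lit 0) (nat_lit 0) (XT.lf (nat_lit 0) (nat_lit 9432071557) (nat_lit 152) (nat_lit 19776881117) (nat_lit 0) (nat_lit 9197054419) (nat_lit 6) (nat_lit 5) (nat_lit 8) (nat_lit 4) (nat_lit 6) (nat_lit 4) (nat_lit 373) (nat_lit 204) (nat_lit 203)) (XT.nd (nat_lit 78) (nat_lit 0) (nat_lit 0) (XT.lf (nat_lit 0) (nat_lit 12771884533) (nat_lit 152) (nat_lit 14377072565) (nat_lit 0) (nat_lit 12308695416) (nat_lit 6) (nat_lit 5) (nat_lit 8) (nat_lit 4) (nat_lit 6) (nat_lit 4) (nat_lit 374) (nat_lit 204) (nat_lit 202)) (XT.lf (nat_lit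 0) (nat_lit 16148786473) (nat_lit 152) (nat_lit 8929912805) (nat_lit 0) (nat_lit 15464071162) (nat_lit 6) (nat_lit 5) (nat_lit 8) (nat_lit 4) (nat_lit 6) (nat_lit 4) (nat_lit 375) (nat_lit 204) (nat_lit 201))))))) (XT.nd (nat_lit 936) (nat_lit 0) (nat_lit 0) (XT.nd (nat_lit 468) (nat_lit 152) (nat_lit 0) (XT.nd (nat_lit 234) (nat_lit 0) (nat_lit 0) (XT.nd (nat_lit 78) (nat_lit 76) (nat_lit 0) (XT.lf (nat_lit 0) (nat_lit 19565728069) (nat_lit 152) (nat_lit 3430642181) (nat_lit 0) (nat_lit 18665938784) (nat_lit 6) (nat_lit 5) (nat_lit 8) (nat_lit 4) (nat_lit 6) (nat_lit 4) (nat_lit 376) (nat_lit 204) (nat_lit 200)) (XT.nd (nat_lit 78) (nat_lit 0) (nat_lit 0) (XT.lf (nat_lit 0) (nat_lit 2167846995) (nat_lit 76) (nat_lit 20878686672) (nat_lit 76) (nat_lit 19770087704) (nat_lit 5) (nat_lit 4) (nat_lit 6) (nat_lit 5) (nat_lit 6) (nat_lit 4) (nat_lit 377) (nat_lit 204) (nat_lit 199)) (XT.lf (nat_lit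 0) (nat_lit 7897613013) (nat_lit 76) (nat_lit 18710014202) (nat_lit 76) (nat_lit 17398687385) (nat_lit 5) (nat_lit 4) (nat_lit 6) (nat_lit 5) (nat_lit 6) (nat_lit 4) (nat_lit 378) (nat_lit 204) (nat_lit 198)))) (XT.nd (nat_lit 78) (nat_lit 0) (nat_lit 0) (XT.lf (nat_lit 0) (nat_lit 13695385957) (nat_lit 76) (nat_lit 16523100643) (nat_lit 76) (nat_lit 15014950672) (nat_lit 5) (nat_lit 4) (nat_lit 6) (nat_lit 5) (nat_lit 6) (nat_lit 4) (nat_lit 379) (nat_lit 204) (nat_lit 197)) (XT.nd (nat_lit 78) (nat_lit 0) (nat_lit 0) (XT.lf (nat_lit 0) (nat_lit 19566231843) (nat_lit 76) (nat_lit 14316035099) (nat_lit 76) (nat_lit 12616794688) (nat_lit 5) (nat_lit 4) (nat_lit 6) (nat_lit 5) (nat_lit 6) (nat_lit 4) (nat_lit 380) (nat_lit 204) (nat_lit 196)) (XT.lf (nat_lit 0) (nat_lit 25515280535) (nat_lit 76) (nat_lit 12086889067) (nat_lit 76) (nat_lit 10202123957) (nat_lit 5) (nat_lit 4) (nat_lit 6) (nat_lit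 5) (nat_lit 6) (nat_lit 4) (nat_lit 381) (nat_lit 204) (nat_lit 195))))) (XT.nd (nat_lit 234) (nat_lit 152) (nat_lit 0) (XT.nd (nat_lit 78) (nat_lit 0) (nat_lit 0) (XT.lf (nat_lit 0) (nat_lit 31547730233) (nat_lit 76) (nat_lit 9833714749) (nat_lit 76) (nat_lit 7768828572) (nat_lit 5) (nat_lit 4) (nat_lit 6) (nat_lit 5) (nat_lit 6) (nat_lit 4) (nat_lit 382) (nat_lit 204) (nat_lit 194)) (XT.nd (nat_lit 78) (nat_lit 0) (nat_lit 0) (XT.lf (nat_lit 0) (nat_lit 37668852007) (nat_lit 76) (nat_lit 7554543353) (nat_lit 76) (nat_lit 5314782353) (nat_lit 5) (nat_lit 4) (nat_lit 6) (nat_lit 5) (nat_lit 6) (nat_lit 4) (nat_lit 383) (nat_lit 204) (nat_lit 193)) (XT.lf (nat_lit 0) (nat_lit 43883994412) (nat_lit 76) (nat_lit 5247383368) (nat_lit 76) (nat_lit 2837840987) (nat_lit 5) (nat_lit 4) (nat_lit 6) (nat_lit 5) (nat_lit 6) (nat_lit 4) (nat_lit 384) (nat_lit 204) (nat_lit 192)))) (XT.nd (nat_lit 78) (nat_lit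 152) (nat_lit 0) (XT.lf (nat_lit 0) (nat_lit 50198588154) (nat_lit 76) (nat_lit 2910218831) (nat_lit 76) (nat_lit 335840157) (nat_lit 5) (nat_lit 4) (nat_lit 6) (nat_lit 5) (nat_lit 6) (nat_lit 4) (nat_lit 385) (nat_lit 204) (nat_lit 191)) (XT.nd (nat_lit 78) (nat_lit 0) (nat_lit 0) (XT.lf (nat_lit 0) (nat_lit 1663780785) (nat_lit 76) (nat_lit 502817586) (nat_lit 152) (nat_lit 52798041345) (nat_lit 3) (nat_lit 5) (nat_lit 4) (nat_lit 5) (nat_lit 5) (nat_lit 4) (nat_lit 386) (nat_lit 204) (nat_lit 190)) (XT.lf (nat_lit 0) (nat_lit 4742768968) (nat_lit 152) (nat_lit 49850071867) (nat_lit 0) (nat_lit 1937149624) (nat_lit 3) (nat_lit 5) (nat_lit 5) (nat_lit 4) (nat_lit 3) (nat_lit 4) (nat_lit 387) (nat_lit 204) (nat_lit 189)))))) (XT.nd (nat_lit 468) (nat_lit 0) (nat_lit 0) (XT.nd (nat_lit 234) (nat_lit 0) (nat_lit 0) (XT.nd (nat_lit 78) (nat_lit 0) (nat_lit 0) (XT.lf (nat_lit 0) (nat_lit 7355866498)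 (nat_lit 152) (nat_lit 46383873548) (nat_lit 0) (nat_lit 4403792243) (nat_lit 3) (nat_lit 5) (nat_lit 5) (nat_lit 4) (nat_lit 3) (nat_lit 4) (nat_lit 388) (nat_lit 204) (nat_lit 188)) (XT.nd (nat_lit 78) (nat_lit 0) (nat_lit 0) (XT.lf (nat_lit 0) (nat_lit 10003340861) (nat_lit 152) (nat_lit 42894401868) (nat_lit 0) (nat_lit 6909077373) (nat_lit 3) (nat_lit 5) (nat_lit 5) (nat_lit 4) (nat_lit 3) (nat_lit 4) (nat_lit 389) (nat_lit 204) (nat_lit 187)) (XT.lf (nat_lit 0) (nat_lit 12687505384) (nat_lit 152) (nat_lit 39378607772) (nat_lit 0) (nat_lit 9455194096) (nat_lit 3) (nat_lit 5) (nat_lit 5) (nat_lit 4) (nat_lit 3) (nat_lit 4) (nat_lit 390) (nat_lit 204) (nat_lit 186)))) (XT.nd (nat_lit 78) (nat_lit 0) (nat_lit 0) (XT.lf (nat_lit 0) (nat_lit 15410705454) (nat_lit 152) (nat_lit 35833419209) (nat_lit 0) (nat_lit 12044367175) (nat_lit 3) (nat_lit 5) (nat_lit 5) (nat_lit 4) (nat_lit 3) (nat_lit 4)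 (nat_lit 391) (nat_lit 204) (nat_lit 185)) (XT.nd (nat_lit 78) (nat_lit 0) (nat_lit 0) (XT.lf (nat_lit 0) (nat_lit 18175320565) (nat_lit 152) (nat_lit 32255738440) (nat_lit 0) (nat_lit 14678858995) (nat_lit 3) (nat_lit 5) (nat_lit 5) (nat_lit 4) (nat_lit 3) (nat_lit 4) (nat_lit 392) (nat_lit 204) (nat_lit 184)) (XT.lf (nat_lit 0) (nat_lit 20983766400) (nat_lit 152) (nat_lit 28642439337) (nat_lit 0) (nat_lit 17360971538) (nat_lit 3) (nat_lit 5) (nat_lit 5) (nat_lit 4) (nat_lit 3) (nat_lit 4) (nat_lit 393) (nat_lit 204) (nat_lit 183))))) (XT.nd (nat_lit 234) (nat_lit 0) (nat_lit 0) (XT.nd (nat_lit 78) (nat_lit 0) (nat_lit 0) (XT.lf (nat_lit 0) (nat_lit 23838496942) (nat_lit 152) (nat_lit 24990364647) (nat_lit 0) (nat_lit 20093048398) (nat_lit 3) (nat_lit 5) (nat_lit 5) (nat_lit 4) (nat_lit 3) (nat_lit 4) (nat_lit 394) (nat_lit 204) (nat_lit 182)) (XT.nd (nat_lit 78) (nat_lit 0) (nat_lit 0) (XT.lf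 (nat_lit 0) (nat_lit 26742006616) (nat_lit 152) (nat_lit 21296323239) (nat_lit 0) (nat_lit 22877476826) (nat_lit 3) (nat_lit 5) (nat_lit 5) (nat_lit 4) (nat_lit 3) (nat_lit 4) (nat_lit 395) (nat_lit 204) (nat_lit 181)) (XT.lf (nat_lit 0) (nat_lit 29696832468) (nat_lit 152) (nat_lit 17557087308) (nat_lit 0) (nat_lit 25716689819) (nat_lit 3) (nat_lit 5) (nat_lit 5) (nat_lit 4) (nat_lit 3) (nat_lit 4) (nat_lit 396) (nat_lit 204) (nat_lit 180)))) (XT.nd (nat_lit 78) (nat_lit 0) (nat_lit 0) (XT.lf (nat_lit 0) (nat_lit 32705556385) (nat_lit 152) (nat_lit 13769389561) (nat_lit 0) (nat_lit 28613168242) (nat_lit 3) (nat_lit 5) (nat_lit 5) (nat_lit 4) (nat_lit 3) (nat_lit 4) (nat_lit 397) (nat_lit 204) (nat_lit 179)) (XT.nd (nat_lit 78) (nat_lit 0) (nat_lit 0) (XT.lf (nat_lit 0) (nat_lit 35770807349) (nat_lit 152) (nat_lit 9929920360) (nat_lit 0) (nat_lit 31569442998) (nat_lit 3) (nat_lit 5) (nat_lit 5)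 (nat_lit 4) (nat_lit 3) (nat_lit 4) (nat_lit 398) (nat_lit 204) (nat_lit 178)) (XT.lf (nat_lit 0) (nat_lit 38895263735) (nat_lit 152) (nat_lit 6035324828) (nat_lit 0) (nat_lit 34588097241) (nat_lit 3) (nat_lit 5) (nat_lit 5) (nat_lit 4) (nat_lit 3) (nat_lit 4) (nat_lit 399) (nat_lit 204) (nat_lit 177))))))))
noncomputable def xc6 : XT := (XT.nd (nat_lit 39702) (nat_lit 0) (nat_lit 0) (XT.nd (nat_lit 38766) (nat_lit 0) (nat_lit 76) (XT.nd (nat_lit 38298) (nat_lit 0) (nat_lit 304) (XT.nd (nat_lit 156) (nat_lit 0) (nat_lit 0) (XT.nd (nat_lit 78) (nat_lit 76) (nat_lit 0) (XT.lf (nat_lit 0) (nat_lit 42081655651) (nat_lit 152) (nat_lit 2082199920) (nat_lit 0) (nat_lit 37671768629) (nat_lit 3) (nat_lit 5) (nat_lit 5) (nat_lit 4) (nat_lit 3) (nat_lit 4) (nat_lit 400) (nat_lit 204) (nat_lit 176)) (XT.lf (nat_lit 0) (nat_lit 1971377219) (nat_lit 76) (nat_lit 43380340187) (nat_lit 76) (nat_lit 38870724497)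 (nat_lit 2) (nat_lit 4) (nat_lit 3) (nat_lit 5) (nat_lit 3) (nat_lit 4) (nat_lit 401) (nat_lit 204) (nat_lit 175))) (XT.nd (nat_lit 78) (nat_lit 0) (nat_lit 0) (XT.lf (nat_lit 0) (nat_lit 6133189546) (nat_lit 76) (nat_lit 42577205948) (nat_lit 76) (nat_lit 37970766309) (nat_lit 2) (nat_lit 4) (nat_lit 3) (nat_lit 5) (nat_lit 3) (nat_lit 4) (nat_lit 402) (nat_lit 204) (nat_lit 174)) (XT.nd (nat_lit 78) (nat_lit 0) (nat_lit 0) (XT.lf (nat_lit 0) (nat_lit 10365433736) (nat_lit 76) (nat_lit 41774777226) (nat_lit 76) (nat_lit 37074333752) (nat_lit 2) (nat_lit 4) (nat_lit 3) (nat_lit 5) (nat_lit 3) (nat_lit 4) (nat_lit 403) (nat_lit 204) (nat_lit 173)) (XT.lf (nat_lit 0) (nat_lit 14671807865) (nat_lit 76) (nat_lit 40972352867) (nat_lit 76) (nat_lit 36180643535) (nat_lit 2) (nat_lit 4) (nat_lit 3) (nat_lit 5) (nat_lit 3) (nat_lit 4) (nat_lit 404) (nat_lit 204) (nat_lit 172))))) (XT.nd (nat_lit 234) (nat_lit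 0) (nat_lit 0) (XT.nd (nat_lit 78) (nat_lit 152) (nat_lit 0) (XT.lf (nat_lit 0) (nat_lit 17604165372) (nat_lit 76) (nat_lit 58338903) (nat_lit 76) (nat_lit 58338903) (nat_lit 8) (nat_lit 4) (nat_lit 9) (nat_lit 5) (nat_lit 9) (nat_lit 4) (nat_lit 370) (nat_lit 205) (nat_lit 205)) (XT.nd (nat_lit 78) (nat_lit 0) (nat_lit 0) (XT.lf (nat_lit 0) (nat_lit 3094136875) (nat_lit 152) (nat_lit 30453280460) (nat_lit 0) (nat_lit 2852069223) (nat_lit 6) (nat_lit 5) (nat_lit 8) (nat_lit 4) (nat_lit 6) (nat_lit 4) (nat_lit 371) (nat_lit 205) (nat_lit 204)) (XT.lf (nat_lit 0) (nat_lit 6335517336) (nat_lit 152) (nat_lit 25193970439) (nat_lit 0) (nat_lit 5858432544) (nat_lit 6) (nat_lit 5) (nat_lit 8) (nat_lit 4) (nat_lit 6) (nat_lit 4) (nat_lit 372) (nat_lit 205) (nat_lit 203)))) (XT.nd (nat_lit 78) (nat_lit 0) (nat_lit 0) (XT.lf (nat_lit 0) (nat_lit 9609140622) (nat_lit 152) (nat_lit 19894963457) (nat_lit 0)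 (nat_lit 8903883852) (nat_lit 6) (nat_lit 5) (nat_lit 8) (nat_lit 4) (nat_lit 6) (nat_lit 4) (nat_lit 373) (nat_lit 205) (nat_lit 202)) (XT.nd (nat_lit 78) (nat_lit 0) (nat_lit 0) (XT.lf (nat_lit 0) (nat_lit 12917867182) (nat_lit 152) (nat_lit 14551629313) (nat_lit 0) (nat_lit 11991084218) (nat_lit 6) (nat_lit 5) (nat_lit 8) (nat_lit 4) (nat_lit 6) (nat_lit 4) (nat_lit 374) (nat_lit 205) (nat_lit 201)) (XT.lf (nat_lit 0) (nat_lit 16264588135) (nat_lit 152) (nat_lit 9159299074) (nat_lit 0) (nat_lit 15122731197) (nat_lit 6) (nat_lit 5) (nat_lit 8) (nat_lit 4) (nat_lit 6) (nat_lit 4) (nat_lit 375) (nat_lit 205) (nat_lit 200)))))) (XT.nd (nat_lit 468) (nat_lit 152) (nat_lit 0) (XT.nd (nat_lit 234) (nat_lit 0) (nat_lit 0) (XT.nd (nat_lit 78) (nat_lit 76) (nat_lit 0) (XT.lf (nat_lit 0) (nat_lit 19652227801) (nat_lit 152) (nat_lit 3713260997) (nat_lit 0) (nat_lit 18301561180) (nat_lit 6) (nat_lit 5)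 (nat_lit 8) (nat_lit 4) (nat_lit 6) (nat_lit 4) (nat_lit 376) (nat_lit 205) (nat_lit 199)) (XT.nd (nat_lit 78) (nat_lit 0) (nat_lit 0) (XT.lf (nat_lit 0) (nat_lit 1826892853) (nat_lit 76) (nat_lit 21274414612) (nat_lit 76) (nat_lit 19721020143) (nat_lit 5) (nat_lit 4) (nat_lit 6) (nat_lit 5) (nat_lit 6) (nat_lit 4) (nat_lit 377) (nat_lit 205) (nat_lit 198)) (XT.lf (nat_lit 0) (nat_lit 7505483475) (nat_lit 76) (nat_lit 19128805731) (nat_lit 76) (nat_lit 17378588108) (nat_lit 5) (nat_lit 4) (nat_lit 6) (nat_lit 5) (nat_lit 6) (nat_lit 4) (nat_lit 378) (nat_lit 205) (nat_lit 197)))) (XT.nd (nat_lit 78) (nat_lit 0) (nat_lit 0) (XT.lf (nat_lit 0) (nat_lit 13253571568) (nat_lit 76) (nat_lit 16964284005) (nat_lit 76) (nat_lit 15022975942) (nat_lit 5) (nat_lit 4) (nat_lit 6) (nat_lit 5) (nat_lit 6) (nat_lit 4) (nat_lit 379) (nat_lit 205) (nat_lit 196)) (XT.nd (nat_lit 78) (nat_lit 0) (nat_lit 0) (XT.lf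 (nat_lit 0) (nat_lit 19076179735) (nat_lit 76) (nat_lit 14778958106) (nat_lit 76) (nat_lit 12652125343) (nat_lit 5) (nat_lit 4) (nat_lit 6) (nat_lit 5) (nat_lit 6) (nat_lit 4) (nat_lit 380) (nat_lit 205) (nat_lit 195)) (XT.lf (nat_lit 0) (nat_lit 24978395691) (nat_lit 76) (nat_lit 12570918525) (nat_lit 76) (nat_lit 10263964695) (nat_lit 5) (nat_lit 4) (nat_lit 6) (nat_lit 5) (nat_lit 6) (nat_lit 4) (nat_lit 381) (nat_lit 205) (nat_lit 194))))) (XT.nd (nat_lit 234) (nat_lit 152) (nat_lit 0) (XT.nd (nat_lit 78) (nat_lit 0) (nat_lit 0) (XT.lf (nat_lit 0) (nat_lit 30965376711) (nat_lit 76) (nat_lit 10338235907) (nat_lit 76) (nat_lit 7856407254) (nat_lit 5) (nat_lit 4) (nat_lit 6) (nat_lit 5) (nat_lit 6) (nat_lit 4) (nat_lit 382) (nat_lit 205) (nat_lit 193)) (XT.nd (nat_lit 78) (nat_lit 0) (nat_lit 0) (XT.lf (nat_lit 0) (nat_lit 37042354139) (nat_lit 76) (nat_lit 8078959364) (nat_lit 76) (nat_lit 5427349330)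 (nat_lit 5) (nat_lit 4) (nat_lit 6) (nat_lit 5) (nat_lit 6) (nat_lit 4) (nat_lit 383) (nat_lit 205) (nat_lit 192)) (XT.lf (nat_lit 0) (nat_lit 43214637955) (nat_lit 76) (nat_lit 5791114772) (nat_lit 76) (nat_lit 2974668446) (nat_lit 5) (nat_lit 4) (nat_lit 6) (nat_lit 5) (nat_lit 6) (nat_lit 4) (nat_lit 384) (nat_lit 205) (nat_lit 191)))) (XT.nd (nat_lit 78) (nat_lit 152) (nat_lit 0) (XT.lf (nat_lit 0) (nat_lit 49487621417) (nat_lit 76) (nat_lit 3472703043) (nat_lit 76) (nat_lit 496221481) (nat_lit 5) (nat_lit 4) (nat_lit 6) (nat_lit 5) (nat_lit 6) (nat_lit 4) (nat_lit 385) (nat_lit 205) (nat_lit 190)) (XT.nd (nat_lit 78) (nat_lit 0) (nat_lit 0) (XT.lf (nat_lit 0) (nat_lit 886433465) (nat_lit 76) (nat_lit 1093019264) (nat_lit 152) (nat_lit 52998038911) (nat_lit 3) (nat_lit 5) (nat_lit 4) (nat_lit 5) (nat_lit 5) (nat_lit 4) (nat_lit 386) (nat_lit 205) (nat_lit 189)) (XT.lf (nat_lit 0) (nat_lit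 4527616658) (nat_lit 152) (nat_lit 50675550424) (nat_lit 0) (nat_lit 1340525265) (nat_lit 3) (nat_lit 5) (nat_lit 5) (nat_lit 4) (nat_lit 3) (nat_lit 4) (nat_lit 387) (nat_lit 205) (nat_lit 188))))))) (XT.nd (nat_lit 936) (nat_lit 76) (nat_lit 0) (XT.nd (nat_lit 468) (nat_lit 0) (nat_lit 0) (XT.nd (nat_lit 234) (nat_lit 0) (nat_lit 0) (XT.nd (nat_lit 78) (nat_lit 0) (nat_lit 0) (XT.lf (nat_lit 0) (nat_lit 7119031384) (nat_lit 152) (nat_lit 47249112000) (nat_lit 0) (nat_lit 3789750757) (nat_lit 3) (nat_lit 5) (nat_lit 5) (nat_lit 4) (nat_lit 3) (nat_lit 4) (nat_lit 388) (nat_lit 205) (nat_lit 187)) (XT.nd (nat_lit 78) (nat_lit 0) (nat_lit 0) (XT.lf (nat_lit 0) (nat_lit 9745454481) (nat_lit 152) (nat_lit 43798242160) (nat_lit 0) (nat_lit 6278126054) (nat_lit 3) (nat_lit 5) (nat_lit 5) (nat_lit 4) (nat_lit 3) (nat_lit 4) (nat_lit 389) (nat_lit 205) (nat_lit 186)) (XT.lf (nat_lit 0) (nat_lit 12409180881)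 (nat_lit 152) (nat_lit 40319925579) (nat_lit 0) (nat_lit 8807825464) (nat_lit 3) (nat_lit 5) (nat_lit 5) (nat_lit 4) (nat_lit 3) (nat_lit 4) (nat_lit 390) (nat_lit 205) (nat_lit 185)))) (XT.nd (nat_lit 78) (nat_lit 0) (nat_lit 0) (XT.lf (nat_lit 0) (nat_lit 15112538112) (nat_lit 152) (nat_lit 36811122953) (nat_lit 0) (nat_lit 11381059404) (nat_lit 3) (nat_lit 5) (nat_lit 5) (nat_lit 4) (nat_lit 3) (nat_lit 4) (nat_lit 391) (nat_lit 205) (nat_lit 184)) (XT.nd (nat_lit 78) (nat_lit 0) (nat_lit 0) (XT.lf (nat_lit 0) (nat_lit 17857888333) (nat_lit 152) (nat_lit 33268768336) (nat_lit 0) (nat_lit 14000076331) (nat_lit 3) (nat_lit 5) (nat_lit 5) (nat_lit 4) (nat_lit 3) (nat_lit 4) (nat_lit 392) (nat_lit 205) (nat_lit 183)) (XT.lf (nat_lit 0) (nat_lit 20647630391) (nat_lit 152) (nat_lit 29689766467) (nat_lit 0) (nat_lit 16667164707) (nat_lit 3) (nat_lit 5) (nat_lit 5) (nat_lit 4) (nat_lit 3) (nat_lit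 4) (nat_lit 393) (nat_lit 205) (nat_lit 182))))) (XT.nd (nat_lit 234) (nat_lit 0) (nat_lit 0) (XT.nd (nat_lit 78) (nat_lit 0) (nat_lit 0) (XT.lf (nat_lit 0) (nat_lit 23484201925) (nat_lit 152) (nat_lit 26070990065) (nat_lit 0) (nat_lit 19384654997) (nat_lit 3) (nat_lit 5) (nat_lit 5) (nat_lit 4) (nat_lit 3) (nat_lit 4) (nat_lit 394) (nat_lit 205) (nat_lit 181)) (XT.nd (nat_lit 78) (nat_lit 0) (nat_lit 0) (XT.lf (nat_lit 0) (nat_lit 26370081494) (nat_lit 152) (nat_lit 22409277090) (nat_lit 0) (nat_lit 22154921707) (nat_lit 3) (nat_lit 5) (nat_lit 5) (nat_lit 4) (nat_lit 3) (nat_lit 4) (nat_lit 395) (nat_lit 205) (nat_lit 180)) (XT.lf (nat_lit 0) (nat_lit 29307790740) (nat_lit 152) (nat_lit 18701427987) (nat_lit 0) (nat_lit 24980385459) (nat_lit 3) (nat_lit 5) (nat_lit 5) (nat_lit 4) (nat_lit 3) (nat_lit 4) (nat_lit 396) (nat_lit 205) (nat_lit 179)))) (XT.nd (nat_lit 78) (nat_lit 0) (nat_lit 0)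 (XT.lf (nat_lit 0) (nat_lit 32299896593) (nat_lit 152) (nat_lit 14944202890) (nat_lit 0) (nat_lit 27863515104) (nat_lit 3) (nat_lit 5) (nat_lit 5) (nat_lit 4) (nat_lit 3) (nat_lit 4) (nat_lit 397) (nat_lit 205) (nat_lit 178)) (XT.nd (nat_lit 78) (nat_lit 0) (nat_lit 0) (XT.lf (nat_lit 0) (nat_lit 35349013515) (nat_lit 152) (nat_lit 11134318785) (nat_lit 0) (nat_lit 30806829882) (nat_lit 3) (nat_lit 5) (nat_lit 5) (nat_lit 4) (nat_lit 3) (nat_lit 4) (nat_lit 398) (nat_lit 205) (nat_lit 177)) (XT.lf (nat_lit 0) (nat_lit 38457805782) (nat_lit 152) (nat_lit 7268446647) (nat_lit 0) (nat_lit 33812901621) (nat_lit 3) (nat_lit 5) (nat_lit 5) (nat_lit 4) (nat_lit 3) (nat_lit 4) (nat_lit 399) (nat_lit 205) (nat_lit 176)))))) (XT.nd (nat_lit 38220) (nat_lit 0) (nat_lit 304) (XT.nd (nat_lit 234) (nat_lit 0) (nat_lit 0) (XT.nd (nat_lit 78) (nat_lit 76) (nat_lit 0) (XT.lf (nat_lit 0) (nat_lit 41628989814) (nat_lit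 152) (nat_lit 3343208530) (nat_lit 0) (nat_lit 36884356986) (nat_lit 3) (nat_lit 5) (nat_lit 5) (nat_lit 4) (nat_lit 3) (nat_lit 4) (nat_lit 400) (nat_lit 205) (nat_lit 175)) (XT.nd (nat_lit 78) (nat_lit 0) (nat_lit 0) (XT.lf (nat_lit 0) (nat_lit 657658674) (nat_lit 76) (nat_lit 44213999693) (nat_lit 76) (nat_lit 39372542915) (nat_lit 2) (nat_lit 4) (nat_lit 3) (nat_lit 5) (nat_lit 3) (nat_lit 4) (nat_lit 401) (nat_lit 205) (nat_lit 174)) (XT.lf (nat_lit 0) (nat_lit 4792661885) (nat_lit 76) (nat_lit 43423081979) (nat_lit 76) (nat_lit 38487621366) (nat_lit 2) (nat_lit 4) (nat_lit 3) (nat_lit 5) (nat_lit 3) (nat_lit 4) (nat_lit 402) (nat_lit 205) (nat_lit 173)))) (XT.nd (nat_lit 78) (nat_lit 0) (nat_lit 0) (XT.lf (nat_lit 0) (nat_lit 8998877805) (nat_lit 76) (nat_lit 42632513958) (nat_lit 76) (nat_lit 37605787488) (nat_lit 2) (nat_lit 4) (nat_lit 3) (nat_lit 5) (nat_lit 3) (nat_lit 4) (nat_lit 403)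 (nat_lit 205) (nat_lit 172)) (XT.nd (nat_lit 37830) (nat_lit 0) (nat_lit 456) (XT.lf (nat_lit 0) (nat_lit 13279981770) (nat_lit 76) (nat_lit 41841604845) (nat_lit 76) (nat_lit 36726270744) (nat_lit 2) (nat_lit 4) (nat_lit 3) (nat_lit 5) (nat_lit 3) (nat_lit 4) (nat_lit 404) (nat_lit 205) (nat_lit 171)) (XT.lf (nat_lit 0) (nat_lit 10683792788) (nat_lit 76) (nat_lit 3059917058) (nat_lit 76) (nat_lit 3059917058) (nat_lit 8) (nat_lit 4) (nat_lit 9) (nat_lit 5) (nat_lit 9) (nat_lit 4) (nat_lit 368) (nat_lit 206) (nat_lit 206))))) (XT.nd (nat_lit 234) (nat_lit 0) (nat_lit 0) (XT.nd (nat_lit 78) (nat_lit 152) (nat_lit 0) (XT.lf (nat_lit 0) (nat_lit 28215663707) (nat_lit 76) (nat_lit 3275776811) (nat_lit 76) (nat_lit 3018967239) (nat_lit 8) (nat_lit 4) (nat_lit 9) (nat_lit 5) (nat_lit 9) (nat_lit 4) (nat_lit 369) (nat_lit 206) (nat_lit 205)) (XT.nd (nat_lit 78) (nat_lit 76) (nat_lit 0) (XT.lf (nat_lit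 0) (nat_lit 104276002) (nat_lit 152) (nat_lit 294458970) (nat_lit 76) (nat_lit 35043920752) (nat_lit 7) (nat_lit 5) (nat_lit 9) (nat_lit 5) (nat_lit 8) (nat_lit 4) (nat_lit 370) (nat_lit 206) (nat_lit 204)) (XT.lf (nat_lit 0) (nat_lit 3276518012) (nat_lit 152) (nat_lit 30574905270) (nat_lit 0) (nat_lit 2550103538) (nat_lit 6) (nat_lit 5) (nat_lit 8) (nat_lit 4) (nat_lit 6) (nat_lit 4) (nat_lit 371) (nat_lit 206) (nat_lit 203)))) (XT.nd (nat_lit 78) (nat_lit 0) (nat_lit 0) (XT.lf (nat_lit 0) (nat_lit 6485879463) (nat_lit 152) (nat_lit 25373763889) (nat_lit 0) (nat_lit 5531293011) (nat_lit 6) (nat_lit 5) (nat_lit 8) (nat_lit 4) (nat_lit 6) (nat_lit 4) (nat_lit 372) (nat_lit 206) (nat_lit 202)) (XT.nd (nat_lit 78) (nat_lit 0) (nat_lit 0) (XT.lf (nat_lit 0) (nat_lit 9728416333) (nat_lit 152) (nat_lit 20131231314) (nat_lit 0) (nat_lit 8552303688) (nat_lit 6) (nat_lit 5) (nat_lit 8) (nat_lit 4) (nat_lit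 6) (nat_lit 4) (nat_lit 373) (nat_lit 206) (nat_lit 201)) (XT.lf (nat_lit 0) (nat_lit 13006961906) (nat_lit 152) (nat_lit 14842726692) (nat_lit 0) (nat_lit 11615775286) (nat_lit 6) (nat_lit 5) (nat_lit 8) (nat_lit 4) (nat_lit 6) (nat_lit 4) (nat_lit 374) (nat_lit 206) (nat_lit 200))))))))
noncomputable def xc7 : XT := (XT.nd (nat_lit 1872) (nat_lit 76) (nat_lit 0) (XT.nd (nat_lit 936) (nat_lit 0) (nat_lit 0) (XT.nd (nat_lit 468) (nat_lit 152) (nat_lit 0) (XT.nd (nat_lit 234) (nat_lit 0) (nat_lit 0) (XT.nd (nat_lit 78) (nat_lit 76) (nat_lit 0) (XT.lf (nat_lit 0) (nat_lit 16324380931) (nat_lit 152) (nat_lit 9503628999) (nat_lit 0) (nat_lit 14724384627) (nat_lit 6) (nat_lit 5) (nat_lit 8) (nat_lit 4) (nat_lit 6) (nat_lit 4) (nat_lit 375) (nat_lit 206) (nat_lit 199)) (XT.nd (nat_lit 78) (nat_lit 76) (nat_lit 0) (XT.lf (nat_lit 0) (nat_lit 19683572122) (nat_lit 152) (nat_lit 4109273005) (nat_lit 0)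 (nat_lit 17880847971) (nat_lit 6) (nat_lit 5) (nat_lit 8) (nat_lit 4) (nat_lit 6) (nat_lit 4) (nat_lit 376) (nat_lit 206) (nat_lit 198)) (XT.lf (nat_lit 0) (nat_lit 1371824033) (nat_lit 76) (nat_lit 21728833476) (nat_lit 76) (nat_lit 19729286170) (nat_lit 5) (nat_lit 4) (nat_lit 6) (nat_lit 5) (nat_lit 6) (nat_lit 4) (nat_lit 377) (nat_lit 206) (nat_lit 197)))) (XT.nd (nat_lit 78) (nat_lit 0) (nat_lit 0) (XT.lf (nat_lit 0) (nat_lit 7000729804) (nat_lit 76) (nat_lit 19605616428) (nat_lit 76) (nat_lit 17414978682) (nat_lit 5) (nat_lit 4) (nat_lit 6) (nat_lit 5) (nat_lit 6) (nat_lit 4) (nat_lit 378) (nat_lit 206) (nat_lit 196)) (XT.nd (nat_lit 78) (nat_lit 0) (nat_lit 0) (XT.lf (nat_lit 0) (nat_lit 12700580178) (nat_lit 76) (nat_lit 17462834346) (nat_lit 76) (nat_lit 15086671901) (nat_lit 5) (nat_lit 4) (nat_lit 6) (nat_lit 5) (nat_lit 6) (nat_lit 4) (nat_lit 379) (nat_lit 206) (nat_lit 195)) (XT.lf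 (nat_lit 0) (nat_lit 18476355608) (nat_lit 76) (nat_lit 15298614898) (nat_lit 76) (nat_lit 12742331386) (nat_lit 5) (nat_lit 4) (nat_lit 6) (nat_lit 5) (nat_lit 6) (nat_lit 4) (nat_lit 380) (nat_lit 206) (nat_lit 194))))) (XT.nd (nat_lit 234) (nat_lit 152) (nat_lit 0) (XT.nd (nat_lit 78) (nat_lit 0) (nat_lit 0) (XT.lf (nat_lit 0) (nat_lit 24333102887) (nat_lit 76) (nat_lit 13111067017) (nat_lit 76) (nat_lit 10379908682) (nat_lit 5) (nat_lit 4) (nat_lit 6) (nat_lit 5) (nat_lit 6) (nat_lit 4) (nat_lit 381) (nat_lit 206) (nat_lit 193)) (XT.nd (nat_lit 78) (nat_lit 0) (nat_lit 0) (XT.lf (nat_lit 0) (nat_lit 30275939561) (nat_lit 76) (nat_lit 10898279253) (nat_lit 76) (nat_lit 7997339536) (nat_lit 5) (nat_lit 4) (nat_lit 6) (nat_lit 5) (nat_lit 6) (nat_lit 4) (nat_lit 382) (nat_lit 206) (nat_lit 192)) (XT.lf (nat_lit 0) (nat_lit 36310058401) (nat_lit 76) (nat_lit 8658318103) (nat_lit 76) (nat_lit 5592542094)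 (nat_lit 5) (nat_lit 4) (nat_lit 6) (nat_lit 5) (nat_lit 6) (nat_lit 4) (nat_lit 383) (nat_lit 206) (nat_lit 191)))) (XT.nd (nat_lit 78) (nat_lit 152) (nat_lit 0) (XT.lf (nat_lit 0) (nat_lit 42440731936) (nat_lit 76) (nat_lit 6389226319) (nat_lit 76) (nat_lit 3163415075) (nat_lit 5) (nat_lit 4) (nat_lit 6) (nat_lit 5) (nat_lit 6) (nat_lit 4) (nat_lit 384) (nat_lit 206) (nat_lit 190)) (XT.nd (nat_lit 78) (nat_lit 152) (nat_lit 0) (XT.lf (nat_lit 0) (nat_lit 48673317068) (nat_lit 76) (nat_lit 4089021199) (nat_lit 76) (nat_lit 707835940) (nat_lit 5) (nat_lit 4) (nat_lit 6) (nat_lit 5) (nat_lit 6) (nat_lit 4) (nat_lit 385) (nat_lit 206) (nat_lit 189)) (XT.lf (nat_lit 0) (nat_lit 3643933) (nat_lit 76) (nat_lit 1738069243) (nat_lit 152) (nat_lit 53250385152) (nat_lit 3) (nat_lit 5) (nat_lit 4) (nat_lit 5) (nat_lit 5) (nat_lit 4) (nat_lit 386) (nat_lit 206) (nat_lit 188)))))) (XT.nd (nat_lit 468) (nat_lit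 0) (nat_lit 0) (XT.nd (nat_lit 234) (nat_lit 0) (nat_lit 0) (XT.nd (nat_lit 78) (nat_lit 0) (nat_lit 0) (XT.lf (nat_lit 0) (nat_lit 4261993686) (nat_lit 152) (nat_lit 51606505925) (nat_lit 0) (nat_lit 690645406) (nat_lit 3) (nat_lit 5) (nat_lit 5) (nat_lit 4) (nat_lit 3) (nat_lit 4) (nat_lit 387) (nat_lit 206) (nat_lit 187)) (XT.nd (nat_lit 78) (nat_lit 0) (nat_lit 0) (XT.lf (nat_lit 0) (nat_lit 6832357145) (nat_lit 152) (nat_lit 48218669342) (nat_lit 0) (nat_lit 3122961066) (nat_lit 3) (nat_lit 5) (nat_lit 5) (nat_lit 4) (nat_lit 3) (nat_lit 4) (nat_lit 388) (nat_lit 206) (nat_lit 186)) (XT.lf (nat_lit 0) (nat_lit 9438342119) (nat_lit 152) (nat_lit 44805277016) (nat_lit 0) (nat_lit 5594919050) (nat_lit 3) (nat_lit 5) (nat_lit 5) (nat_lit 4) (nat_lit 3) (nat_lit 4) (nat_lit 389) (nat_lit 206) (nat_lit 185)))) (XT.nd (nat_lit 78) (nat_lit 0) (nat_lit 0) (XT.lf (nat_lit 0) (nat_lit 12082225682)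 (nat_lit 152) (nat_lit 41363346372) (nat_lit 0) (nat_lit 8108679321) (nat_lit 3) (nat_lit 5) (nat_lit 5) (nat_lit 4) (nat_lit 3) (nat_lit 4) (nat_lit 390) (nat_lit 206) (nat_lit 184)) (XT.nd (nat_lit 78) (nat_lit 0) (nat_lit 0) (XT.lf (nat_lit 0) (nat_lit 14766318023) (nat_lit 152) (nat_lit 37889869897) (nat_lit 0) (nat_lit 10666438369) (nat_lit 3) (nat_lit 5) (nat_lit 5) (nat_lit 4) (nat_lit 3) (nat_lit 4) (nat_lit 391) (nat_lit 206) (nat_lit 183)) (XT.lf (nat_lit 0) (nat_lit 17492964465) (nat_lit 152) (nat_lit 34381812516) (nat_lit 0) (nat_lit 13270431129) (nat_lit 3) (nat_lit 5) (nat_lit 5) (nat_lit 4) (nat_lit 3) (nat_lit 4) (nat_lit 392) (nat_lit 206) (nat_lit 182))))) (XT.nd (nat_lit 234) (nat_lit 0) (nat_lit 0) (XT.nd (nat_lit 78) (nat_lit 0) (nat_lit 0) (XT.lf (nat_lit 0) (nat_lit 20264547516) (nat_lit 152) (nat_lit 30836108934) (nat_lit 0) (nat_lit 15922932935) (nat_lit 3) (nat_lit 5)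 (nat_lit 5) (nat_lit 4) (nat_lit 3) (nat_lit 4) (nat_lit 393) (nat_lit 206) (nat_lit 181)) (XT.nd (nat_lit 78) (nat_lit 0) (nat_lit 0) (XT.lf (nat_lit 0) (nat_lit 23083488946) (nat_lit 152) (nat_lit 27249660965) (nat_lit 0) (nat_lit 18626261506) (nat_lit 3) (nat_lit 5) (nat_lit 5) (nat_lit 4) (nat_lit 3) (nat_lit 4) (nat_lit 394) (nat_lit 206) (nat_lit 180)) (XT.lf (nat_lit 0) (nat_lit 25952251909) (nat_lit 152) (nat_lit 23619334818) (nat_lit 0) (nat_lit 21382778975) (nat_lit 3) (nat_lit 5) (nat_lit 5) (nat_lit 4) (nat_lit 3) (nat_lit 4) (nat_lit 395) (nat_lit 206) (nat_lit 179)))) (XT.nd (nat_lit 78) (nat_lit 0) (nat_lit 0) (XT.lf (nat_lit 0) (nat_lit 28873343091) (nat_lit 152) (nat_lit 19941958365) (nat_lit 0) (nat_lit 24194893949) (nat_lit 3) (nat_lit 5) (nat_lit 5) (nat_lit 4) (nat_lit 3) (nat_lit 4) (nat_lit 396) (nat_lit 206) (nat_lit 178)) (XT.nd (nat_lit 78) (nat_lit 0) (nat_lit 0) (XT.lf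 (nat_lit 0) (nat_lit 31849314901) (nat_lit 152) (nat_lit 16214318364) (nat_lit 0) (nat_lit 27065063615) (nat_lit 3) (nat_lit 5) (nat_lit 5) (nat_lit 4) (nat_lit 3) (nat_lit 4) (nat_lit 397) (nat_lit 206) (nat_lit 177)) (XT.lf (nat_lit 0) (nat_lit 34882767703) (nat_lit 152) (nat_lit 12433157653) (nat_lit 0) (nat_lit 29995795889) (nat_lit 3) (nat_lit 5) (nat_lit 5) (nat_lit 4) (nat_lit 3) (nat_lit 4) (nat_lit 398) (nat_lit 206) (nat_lit 176))))))) (XT.nd (nat_lit 38532) (nat_lit 0) (nat_lit 228) (XT.nd (nat_lit 38064) (nat_lit 0) (nat_lit 304) (XT.nd (nat_lit 234) (nat_lit 76) (nat_lit 0) (XT.nd (nat_lit 78) (nat_lit 0) (nat_lit 0) (XT.lf (nat_lit 0) (nat_lit 37976352087) (nat_lit 152) (nat_lit 8595172306) (nat_lit 0) (nat_lit 32989651606) (nat_lit 3) (nat_lit 5) (nat_lit 5) (nat_lit 4) (nat_lit 3) (nat_lit 4) (nat_lit 399) (nat_lit 206) (nat_lit 175)) (XT.nd (nat_lit 78) (nat_lit 0) (nat_lit 0)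 (XT.lf (nat_lit 0) (nat_lit 41132771185) (nat_lit 152) (nat_lit 4697008743) (nat_lit 0) (nat_lit 36049246754) (nat_lit 3) (nat_lit 5) (nat_lit 5) (nat_lit 4) (nat_lit 3) (nat_lit 4) (nat_lit 400) (nat_lit 206) (nat_lit 174)) (XT.lf (nat_lit 0) (nat_lit 44354783033) (nat_lit 152) (nat_lit 735260802) (nat_lit 0) (nat_lit 39177254768) (nat_lit 3) (nat_lit 5) (nat_lit 5) (nat_lit 4) (nat_lit 3) (nat_lit 4) (nat_lit 401) (nat_lit 206) (nat_lit 173)))) (XT.nd (nat_lit 78) (nat_lit 0) (nat_lit 0) (XT.lf (nat_lit 0) (nat_lit 3359081007) (nat_lit 76) (nat_lit 44318411516) (nat_lit 76) (nat_lit 39049617392) (nat_lit 2) (nat_lit 4) (nat_lit 3) (nat_lit 5) (nat_lit 3) (nat_lit 4) (nat_lit 402) (nat_lit 206) (nat_lit 172)) (XT.nd (nat_lit 78) (nat_lit 0) (nat_lit 0) (XT.lf (nat_lit 0) (nat_lit 7540026763) (nat_lit 76) (nat_lit 43539358740) (nat_lit 76) (nat_lit 38181956987) (nat_lit 2) (nat_lit 4) (nat_lit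 3) (nat_lit 5) (nat_lit 3) (nat_lit 4) (nat_lit 403) (nat_lit 206) (nat_lit 171)) (XT.lf (nat_lit 0) (nat_lit 11796596587) (nat_lit 76) (nat_lit 42759629477) (nat_lit 76) (nat_lit 37316200899) (nat_lit 2) (nat_lit 4) (nat_lit 3) (nat_lit 5) (nat_lit 3) (nat_lit 4) (nat_lit 404) (nat_lit 206) (nat_lit 170))))) (XT.nd (nat_lit 234) (nat_lit 152) (nat_lit 0) (XT.nd (nat_lit 78) (nat_lit 0) (nat_lit 0) (XT.lf (nat_lit 0) (nat_lit 3983383257) (nat_lit 76) (nat_lit 5979340160) (nat_lit 76) (nat_lit 5979340160) (nat_lit 8) (nat_lit 4) (nat_lit 9) (nat_lit 5) (nat_lit 9) (nat_lit 4) (nat_lit 366) (nat_lit 207) (nat_lit 207)) (XT.nd (nat_lit 78) (nat_lit 0) (nat_lit 0) (XT.lf (nat_lit 0) (nat_lit 14599031589) (nat_lit 76) (nat_lit 9198958830) (nat_lit 76) (nat_lit 8934444970) (nat_lit 8) (nat_lit 4) (nat_lit 9) (nat_lit 5) (nat_lit 9) (nat_lit 4) (nat_lit 367) (nat_lit 207) (nat_lit 206)) (XT.lf (nat_lit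 0) (nat_lit 21306732140) (nat_lit 76) (nat_lit 6411437570) (nat_lit 76) (nat_lit 5890114137) (nat_lit 8) (nat_lit 4) (nat_lit 9) (nat_lit 5) (nat_lit 9) (nat_lit 4) (nat_lit 368) (nat_lit 207) (nat_lit 205)))) (XT.nd (nat_lit 78) (nat_lit 152) (nat_lit 0) (XT.lf (nat_lit 0) (nat_lit 28095729264) (nat_lit 76) (nat_lit 3593680840) (nat_lit 76) (nat_lit 2823027725) (nat_lit 8) (nat_lit 4) (nat_lit 9) (nat_lit 5) (nat_lit 9) (nat_lit 4) (nat_lit 369) (nat_lit 207) (nat_lit 204)) (XT.nd (nat_lit 78) (nat_lit 76) (nat_lit 0) (XT.lf (nat_lit 0) (nat_lit 264235440) (nat_lit 152) (nat_lit 476322822) (nat_lit 76) (nat_lit 34705051393) (nat_lit 7) (nat_lit 5) (nat_lit 9) (nat_lit 5) (nat_lit 8) (nat_lit 4) (nat_lit 370) (nat_lit 207) (nat_lit 203)) (XT.lf (nat_lit 0) (nat_lit 3399371995) (nat_lit 152) (nat_lit 30818261163) (nat_lit 0) (nat_lit 2187975969) (nat_lit 6) (nat_lit 5) (nat_lit 8) (nat_lit 4) (nat_lit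 6) (nat_lit 4) (nat_lit 371) (nat_lit 207) (nat_lit 202)))))) (XT.nd (nat_lit 468) (nat_lit 0) (nat_lit 0) (XT.nd (nat_lit 234) (nat_lit 76) (nat_lit 0) (XT.nd (nat_lit 78) (nat_lit 0) (nat_lit 0) (XT.lf (nat_lit 0) (nat_lit 6577647030) (nat_lit 152) (nat_lit 25673594190) (nat_lit 0) (nat_lit 5144724811) (nat_lit 6) (nat_lit 5) (nat_lit 8) (nat_lit 4) (nat_lit 6) (nat_lit 4) (nat_lit 372) (nat_lit 207) (nat_lit 201)) (XT.nd (nat_lit 78) (nat_lit 0) (nat_lit 0) (XT.lf (nat_lit 0) (nat_lit 9790002913) (nat_lit 152) (nat_lit 20485891137) (nat_lit 0) (nat_lit 8142006720) (nat_lit 6) (nat_lit 5) (nat_lit 8) (nat_lit 4) (nat_lit 6) (nat_lit 4) (nat_lit 373) (nat_lit 207) (nat_lit 200)) (XT.lf (nat_lit 0) (nat_lit 13039246557) (nat_lit 152) (nat_lit 15250619061) (nat_lit 0) (nat_lit 11182440681) (nat_lit 6) (nat_lit 5) (nat_lit 8) (nat_lit 4) (nat_lit 6) (nat_lit 4) (nat_lit 374) (nat_lit 207) (nat_lit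 199)))) (XT.nd (nat_lit 78) (nat_lit 76) (nat_lit 0) (XT.lf (nat_lit 0) (nat_lit 16328217107) (nat_lit 152) (nat_lit 9963203452) (nat_lit 0) (nat_lit 14268683382) (nat_lit 6) (nat_lit 5) (nat_lit 8) (nat_lit 4) (nat_lit 6) (nat_lit 4) (nat_lit 375) (nat_lit 207) (nat_lit 198)) (XT.nd (nat_lit 78) (nat_lit 76) (nat_lit 0) (XT.lf (nat_lit 0) (nat_lit 19659788420) (nat_lit 152) (nat_lit 4619024237) (nat_lit 0) (nat_lit 17403431542) (nat_lit 6) (nat_lit 5) (nat_lit 8) (nat_lit 4) (nat_lit 6) (nat_lit 4) (nat_lit 376) (nat_lit 207) (nat_lit 197)) (XT.lf (nat_lit 0) (nat_lit 802242901) (nat_lit 76) (nat_lit 22242340327) (nat_lit 76) (nat_lit 19794893009) (nat_lit 5) (nat_lit 4) (nat_lit 6) (nat_lit 5) (nat_lit 6) (nat_lit 4) (nat_lit 377) (nat_lit 207) (nat_lit 196))))) (XT.nd (nat_lit 234) (nat_lit 0) (nat_lit 0) (XT.nd (nat_lit 78) (nat_lit 0) (nat_lit 0) (XT.lf (nat_lit 0) (nat_lit 6382910953) (nat_lit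 76) (nat_lit 20140862923) (nat_lit 76) (nat_lit 17507890906) (nat_lit 5) (nat_lit 4) (nat_lit 6) (nat_lit 5) (nat_lit 6) (nat_lit 4) (nat_lit 378) (nat_lit 207) (nat_lit 195)) (XT.nd (nat_lit 78) (nat_lit 0) (nat_lit 0) (XT.lf (nat_lit 0) (nat_lit 12035928591) (nat_lit 76) (nat_lit 18019187293) (nat_lit 76) (nat_lit 15206094208) (nat_lit 5) (nat_lit 4) (nat_lit 6) (nat_lit 5) (nat_lit 6) (nat_lit 4) (nat_lit 379) (nat_lit 207) (nat_lit 194)) (XT.lf (nat_lit 0) (nat_lit 17766235343) (nat_lit 76) (nat_lit 15875459544) (nat_lit 76) (nat_lit 12887491637) (nat_lit 5) (nat_lit 4) (nat_lit 6) (nat_lit 5) (nat_lit 6) (nat_lit 4) (nat_lit 380) (nat_lit 207) (nat_lit 193)))) (XT.nd (nat_lit 78) (nat_lit 0) (nat_lit 0) (XT.lf (nat_lit 0) (nat_lit 23578838276) (nat_lit 76) (nat_lit 13707806517) (nat_lit 76) (nat_lit 10550057228) (nat_lit 5) (nat_lit 4) (nat_lit 6) (nat_lit 5) (nat_lit 6) (nat_lit 4) (nat_lit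 381) (nat_lit 207) (nat_lit 192)) (XT.nd (nat_lit 78) (nat_lit 0) (nat_lit 0) (XT.lf (nat_lit 0) (nat_lit 29478816362) (nat_lit 76) (nat_lit 11514334146) (nat_lit 76) (nat_lit 8191748564) (nat_lit 5) (nat_lit 4) (nat_lit 6) (nat_lit 5) (nat_lit 6) (nat_lit 4) (nat_lit 382) (nat_lit 207) (nat_lit 191)) (XT.lf (nat_lit 0) (nat_lit 35471324921) (nat_lit 76) (nat_lit 9293125804) (nat_lit 76) (nat_lit 5810504987) (nat_lit 5) (nat_lit 4) (nat_lit 6) (nat_lit 5) (nat_lit 6) (nat_lit 4) (nat_lit 383) (nat_lit 207) (nat_lit 190))))))))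
noncomputable def xc8 : XT := (XT.nd (nat_lit 39234) (nat_lit 0) (nat_lit 76) (XT.nd (nat_lit 858) (nat_lit 76) (nat_lit 0) (XT.nd (nat_lit 390) (nat_lit 0) (nat_lit 0) (XT.nd (nat_lit 156) (nat_lit 152) (nat_lit 0) (XT.nd (nat_lit 78) (nat_lit 0) (nat_lit 0) (XT.lf (nat_lit 0) (nat_lit 41561600126) (nat_lit 76) (nat_lit 7042240630) (nat_lit 76) (nat_lit 3404245798) (nat_lit 5) (nat_lit 4) (nat_lit 6) (nat_lit 5) (nat_lit 6) (nat_lit 4) (nat_lit 384) (nat_lit 207) (nat_lit 189)) (XT.lf (nat_lit 0) (nat_lit 47754963578) (nat_lit 76) (nat_lit 4759711831) (nat_lit 76) (nat_lit 970868441) (nat_lit 5) (nat_lit 4) (nat_lit 6) (nat_lit 5) (nat_lit 6) (nat_lit 4) (nat_lit 385) (nat_lit 207) (nat_lit 188))) (XT.nd (nat_lit 78) (nat_lit 76) (nat_lit 0) (XT.lf (nat_lit 0) (nat_lit 1462643855) (nat_lit 152) (nat_lit 966131273) (nat_lit 76) (nat_lit 52579413261) (nat_lit 4) (nat_lit 5) (nat_lit 6) (nat_lit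 5) (nat_lit 5) (nat_lit 4) (nat_lit 386) (nat_lit 207) (nat_lit 187)) (XT.nd (nat_lit 78) (nat_lit 0) (nat_lit 0) (XT.lf (nat_lit 0) (nat_lit 3932478288) (nat_lit 76) (nat_lit 13317683) (nat_lit 152) (nat_lit 52630562161) (nat_lit 3) (nat_lit 5) (nat_lit 4) (nat_lit 5) (nat_lit 5) (nat_lit 4) (nat_lit 387) (nat_lit 207) (nat_lit 186)) (XT.lf (nat_lit 0) (nat_lit 6495593291) (nat_lit 152) (nat_lit 49293392758) (nat_lit 0) (nat_lit 2402840539) (nat_lit 3) (nat_lit 5) (nat_lit 5) (nat_lit 4) (nat_lit 3) (nat_lit 4) (nat_lit 388) (nat_lit 207) (nat_lit 185))))) (XT.nd (nat_lit 234) (nat_lit 0) (nat_lit 0) (XT.nd (nat_lit 78) (nat_lit 0) (nat_lit 0) (XT.lf (nat_lit 0) (nat_lit 9081735427) (nat_lit 152) (nat_lit 45916386369) (nat_lit 0) (nat_lit 4858859383) (nat_lit 3) (nat_lit 5) (nat_lit 5) (nat_lit 4) (nat_lit 3) (nat_lit 4) (nat_lit 389) (nat_lit 207) (nat_lit 184)) (XT.nd (nat_lit 78) (nat_lit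 0) (nat_lit 0) (XT.lf (nat_lit 0) (nat_lit 11706354098) (nat_lit 152) (nat_lit 42509781877) (nat_lit 0) (nat_lit 7357144762) (nat_lit 3) (nat_lit 5) (nat_lit 5) (nat_lit 4) (nat_lit 3) (nat_lit 4) (nat_lit 390) (nat_lit 207) (nat_lit 183)) (XT.lf (nat_lit 0) (nat_lit 14371742661) (nat_lit 152) (nat_lit 39070602638) (nat_lit 0) (nat_lit 9899879643) (nat_lit 3) (nat_lit 5) (nat_lit 5) (nat_lit 4) (nat_lit 3) (nat_lit 4) (nat_lit 391) (nat_lit 207) (nat_lit 182)))) (XT.nd (nat_lit 78) (nat_lit 0) (nat_lit 0) (XT.lf (nat_lit 0) (nat_lit 17080230096) (nat_lit 152) (nat_lit 35595843542) (nat_lit 0) (nat_lit 12489285833) (nat_lit 3) (nat_lit 5) (nat_lit 5) (nat_lit 4) (nat_lit 3) (nat_lit 4) (nat_lit 392) (nat_lit 207) (nat_lit 181)) (XT.nd (nat_lit 78) (nat_lit 0) (nat_lit 0) (XT.lf (nat_lit 0) (nat_lit 19834183043) (nat_lit 152) (nat_lit 32082468394) (nat_lit 0) (nat_lit 15127625921) (nat_lit 3) (nat_lit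 5) (nat_lit 5) (nat_lit 4) (nat_lit 3) (nat_lit 4) (nat_lit 393) (nat_lit 207) (nat_lit 180)) (XT.lf (nat_lit 0) (nat_lit 22636007867) (nat_lit 152) (nat_lit 28527407253) (nat_lit 0) (nat_lit 17817205251) (nat_lit 3) (nat_lit 5) (nat_lit 5) (nat_lit 4) (nat_lit 3) (nat_lit 4) (nat_lit 394) (nat_lit 207) (nat_lit 179)))))) (XT.nd (nat_lit 468) (nat_lit 76) (nat_lit 0) (XT.nd (nat_lit 234) (nat_lit 0) (nat_lit 0) (XT.nd (nat_lit 78) (nat_lit 0) (nat_lit 0) (XT.lf (nat_lit 0) (nat_lit 25488152766) (nat_lit 152) (nat_lit 24927553756) (nat_lit 0) (nat_lit 20560373942) (nat_lit 3) (nat_lit 5) (nat_lit 5) (nat_lit 4) (nat_lit 3) (nat_lit 4) (nat_lit 395) (nat_lit 207) (nat_lit 178)) (XT.nd (nat_lit 78) (nat_lit 0) (nat_lit 0) (XT.lf (nat_lit 0) (nat_lit 28393109905) (nat_lit 152) (nat_lit 21279762399) (nat_lit 0) (nat_lit 23359528937) (nat_lit 3) (nat_lit 5) (nat_lit 5) (nat_lit 4) (nat_lit 3) (nat_lit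 4) (nat_lit 396) (nat_lit 207) (nat_lit 177)) (XT.lf (nat_lit 0) (nat_lit 31353417595) (nat_lit 152) (nat_lit 17580845792) (nat_lit 0) (nat_lit 26217116100) (nat_lit 3) (nat_lit 5) (nat_lit 5) (nat_lit 4) (nat_lit 3) (nat_lit 4) (nat_lit 397) (nat_lit 207) (nat_lit 176)))) (XT.nd (nat_lit 78) (nat_lit 0) (nat_lit 0) (XT.lf (nat_lit 0) (nat_lit 34371662515) (nat_lit 152) (nat_lit 13827571872) (nat_lit 0) (nat_lit 29135632351) (nat_lit 3) (nat_lit 5) (nat_lit 5) (nat_lit 4) (nat_lit 3) (nat_lit 4) (nat_lit 398) (nat_lit 207) (nat_lit 175)) (XT.nd (nat_lit 78) (nat_lit 0) (nat_lit 0) (XT.lf (nat_lit 0) (nat_lit 37450481964) (nat_lit 152) (nat_lit 10016661079) (nat_lit 0) (nat_lit 32117627851) (nat_lit 3) (nat_lit 5) (nat_lit 5) (nat_lit 4) (nat_lit 3) (nat_lit 4) (nat_lit 399) (nat_lit 207) (nat_lit 174)) (XT.lf (nat_lit 0) (nat_lit 40592566174) (nat_lit 152) (nat_lit 6144783491) (nat_lit 0) (nat_lit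 35165708227) (nat_lit 3) (nat_lit 5) (nat_lit 5) (nat_lit 4) (nat_lit 3) (nat_lit 4) (nat_lit 400) (nat_lit 207) (nat_lit 173))))) (XT.nd (nat_lit 234) (nat_lit 0) (nat_lit 0) (XT.nd (nat_lit 78) (nat_lit 76) (nat_lit 0) (XT.lf (nat_lit 0) (nat_lit 43800660655) (nat_lit 152) (nat_lit 2208555914) (nat_lit 0) (nat_lit 38282536849) (nat_lit 3) (nat_lit 5) (nat_lit 5) (nat_lit 4) (nat_lit 3) (nat_lit 4) (nat_lit 401) (nat_lit 207) (nat_lit 172)) (XT.nd (nat_lit 78) (nat_lit 0) (nat_lit 0) (XT.lf (nat_lit 0) (nat_lit 1831194269) (nat_lit 76) (nat_lit 45263976886) (nat_lit 76) (nat_lit 39657245451) (nat_lit 2) (nat_lit 4) (nat_lit 3) (nat_lit 5) (nat_lit 3) (nat_lit 4) (nat_lit 402) (nat_lit 207) (nat_lit 171)) (XT.lf (nat_lit 0) (nat_lit 5987605885) (nat_lit 76) (nat_lit 44496103961) (nat_lit 76) (nat_lit 38803345700) (nat_lit 2) (nat_lit 4) (nat_lit 3) (nat_lit 5) (nat_lit 3) (nat_lit 4) (nat_lit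 403) (nat_lit 207) (nat_lit 170)))) (XT.nd (nat_lit 37518) (nat_lit 0) (nat_lit 456) (XT.lf (nat_lit 0) (nat_lit 10220356156) (nat_lit 76) (nat_lit 43727228920) (nat_lit 76) (nat_lit 37950949470) (nat_lit 2) (nat_lit 4) (nat_lit 3) (nat_lit 5) (nat_lit 3) (nat_lit 4) (nat_lit 404) (nat_lit 207) (nat_lit 169)) (XT.nd (nat_lit 78) (nat_lit 76) (nat_lit 0) (XT.lf (nat_lit 0) (nat_lit 6333195641) (nat_lit 152) (nat_lit 2465931959) (nat_lit 0) (nat_lit 6333195641) (nat_lit 9) (nat_lit 5) (nat_lit 11) (nat_lit 4) (nat_lit 9) (nat_lit 4) (nat_lit 364) (nat_lit 208) (nat_lit 208)) (XT.lf (nat_lit 0) (nat_lit 1404141731) (nat_lit 76) (nat_lit 14965462721) (nat_lit 76) (nat_lit 14693013445) (nat_lit 8) (nat_lit 4) (nat_lit 9) (nat_lit 5) (nat_lit 9) (nat_lit 4) (nat_lit 365) (nat_lit 208) (nat_lit 207))))))) (XT.nd (nat_lit 936) (nat_lit 152) (nat_lit 0) (XT.nd (nat_lit 468) (nat_lit 76) (nat_lit 0) (XT.nd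 (nat_lit 234) (nat_lit 152) (nat_lit 0) (XT.nd (nat_lit 78) (nat_lit 0) (nat_lit 0) (XT.lf (nat_lit 0) (nat_lit 7904087474) (nat_lit 76) (nat_lit 12259031876) (nat_lit 76) (nat_lit 11722068740) (nat_lit 8) (nat_lit 4) (nat_lit 9) (nat_lit 5) (nat_lit 9) (nat_lit 4) (nat_lit 366) (nat_lit 208) (nat_lit 206)) (XT.nd (nat_lit 78) (nat_lit 0) (nat_lit 0) (XT.lf (nat_lit 0) (nat_lit 14475499112) (nat_lit 76) (nat_lit 9526399979) (nat_lit 76) (nat_lit 8732627271) (nat_lit 8) (nat_lit 4) (nat_lit 9) (nat_lit 5) (nat_lit 9) (nat_lit 4) (nat_lit 367) (nat_lit 208) (nat_lit 205)) (XT.lf (nat_lit 0) (nat_lit 21124118656) (nat_lit 76) (nat_lit 6765179294) (nat_lit 76) (nat_lit 5722076904) (nat_lit 8) (nat_lit 4) (nat_lit 9) (nat_lit 5) (nat_lit 9) (nat_lit 4) (nat_lit 368) (nat_lit 208) (nat_lit 204)))) (XT.nd (nat_lit 78) (nat_lit 152) (nat_lit 0) (XT.lf (nat_lit 0) (nat_lit 27855755579) (nat_lit 76) (nat_lit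 3972957104) (nat_lit 76) (nat_lit 2687787061) (nat_lit 8) (nat_lit 4) (nat_lit 9) (nat_lit 5) (nat_lit 9) (nat_lit 4) (nat_lit 369) (nat_lit 208) (nat_lit 203)) (XT.nd (nat_lit 78) (nat_lit 76) (nat_lit 0) (XT.lf (nat_lit 0) (nat_lit 365617082) (nat_lit 152) (nat_lit 777984504) (nat_lit 76) (nat_lit 34306982796) (nat_lit 7) (nat_lit 5) (nat_lit 9) (nat_lit 5) (nat_lit 8) (nat_lit 4) (nat_lit 370) (nat_lit 208) (nat_lit 202)) (XT.lf (nat_lit 0) (nat_lit 3462806172) (nat_lit 152) (nat_lit 31183560781) (nat_lit 0) (nat_lit 1765370093) (nat_lit 6) (nat_lit 5) (nat_lit 8) (nat_lit 4) (nat_lit 6) (nat_lit 4) (nat_lit 371) (nat_lit 208) (nat_lit 201))))) (XT.nd (nat_lit 234) (nat_lit 76) (nat_lit 0) (XT.nd (nat_lit 78) (nat_lit 0) (nat_lit 0) (XT.lf (nat_lit 0) (nat_lit 6610900220) (nat_lit 152) (nat_lit 26093723329) (nat_lit 0) (nat_lit 4698390168) (nat_lit 6) (nat_lit 5) (nat_lit 8) (nat_lit 4) (nat_lit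 6) (nat_lit 4) (nat_lit 372) (nat_lit 208) (nat_lit 200)) (XT.nd (nat_lit 78) (nat_lit 0) (nat_lit 0) (XT.lf (nat_lit 0) (nat_lit 9793954174) (nat_lit 152) (nat_lit 20959252823) (nat_lit 0) (nat_lit 7672634438) (nat_lit 6) (nat_lit 5) (nat_lit 8) (nat_lit 4) (nat_lit 6) (nat_lit 4) (nat_lit 373) (nat_lit 208) (nat_lit 199)) (XT.lf (nat_lit 0) (nat_lit 13014749344) (nat_lit 152) (nat_lit 15775662830) (nat_lit 0) (nat_lit 10690701759) (nat_lit 6) (nat_lit 5) (nat_lit 8) (nat_lit 4) (nat_lit 6) (nat_lit 4) (nat_lit 374) (nat_lit 208) (nat_lit 198)))) (XT.nd (nat_lit 78) (nat_lit 76) (nat_lit 0) (XT.lf (nat_lit 0) (nat_lit 16276100015) (nat_lit 152) (nat_lit 10538424001) (nat_lit 0) (nat_lit 13755229277) (nat_lit 6) (nat_lit 5) (nat_lit 8) (nat_lit 4) (nat_lit 6) (nat_lit 4) (nat_lit 375) (nat_lit 208) (nat_lit 197)) (XT.nd (nat_lit 78) (nat_lit 76) (nat_lit 0) (XT.lf (nat_lit 0) (nat_lit 19580855913)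 (nat_lit 152) (nat_lit 5242960106) (nat_lit 0) (nat_lit 16868894735) (nat_lit 6) (nat_lit 5) (nat_lit 8) (nat_lit 4) (nat_lit 6) (nat_lit 4) (nat_lit 376) (nat_lit 208) (nat_lit 196)) (XT.lf (nat_lit 0) (nat_lit 117651765) (nat_lit 76) (nat_lit 22815383862) (nat_lit 76) (nat_lit 19917897984) (nat_lit 5) (nat_lit 4) (nat_lit 6) (nat_lit 5) (nat_lit 6) (nat_lit 4) (nat_lit 377) (nat_lit 208) (nat_lit 195)))))) (XT.nd (nat_lit 468) (nat_lit 152) (nat_lit 0) (XT.nd (nat_lit 234) (nat_lit 0) (nat_lit 0) (XT.nd (nat_lit 78) (nat_lit 0) (nat_lit 0) (XT.lf (nat_lit 0) (nat_lit 5651487081) (nat_lit 76) (nat_lit 20735012909) (nat_lit 76) (nat_lit 17657405964) (nat_lit 5) (nat_lit 4) (nat_lit 6) (nat_lit 5) (nat_lit 6) (nat_lit 4) (nat_lit 378) (nat_lit 208) (nat_lit 194)) (XT.nd (nat_lit 78) (nat_lit 0) (nat_lit 0) (XT.lf (nat_lit 0) (nat_lit 11259036041) (nat_lit 76) (nat_lit 18633828979) (nat_lit 76)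 (nat_lit 15381347211) (nat_lit 5) (nat_lit 4) (nat_lit 6) (nat_lit 5) (nat_lit 6) (nat_lit 4) (nat_lit 379) (nat_lit 208) (nat_lit 193)) (XT.lf (nat_lit 0) (nat_lit 16945198448) (nat_lit 76) (nat_lit 16509996084) (nat_lit 76) (nat_lit 13087732935) (nat_lit 5) (nat_lit 4) (nat_lit 6) (nat_lit 5) (nat_lit 6) (nat_lit 4) (nat_lit 380) (nat_lit 208) (nat_lit 192)))) (XT.nd (nat_lit 78) (nat_lit 0) (nat_lit 0) (XT.lf (nat_lit 0) (nat_lit 22714942792) (nat_lit 76) (nat_lit 14361658449) (nat_lit 76) (nat_lit 10774559008) (nat_lit 5) (nat_lit 4) (nat_lit 6) (nat_lit 5) (nat_lit 6) (nat_lit 4) (nat_lit 381) (nat_lit 208) (nat_lit 191)) (XT.nd (nat_lit 78) (nat_lit 0) (nat_lit 0) (XT.lf (nat_lit 0) (nat_lit 28573310597) (nat_lit 76) (nat_lit 12186938886) (nat_lit 76) (nat_lit 8439804210) (nat_lit 5) (nat_lit 4) (nat_lit 6) (nat_lit 5) (nat_lit 6) (nat_lit 4) (nat_lit 382) (nat_lit 208) (nat_lit 190)) (XT.lf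 (nat_lit 0) (nat_lit 34525420826) (nat_lit 76) (nat_lit 9983937154) (nat_lit 76) (nat_lit 6081428463) (nat_lit 5) (nat_lit 4) (nat_lit 6) (nat_lit 5) (nat_lit 6) (nat_lit 4) (nat_lit 383) (nat_lit 208) (nat_lit 189))))) (XT.nd (nat_lit 234) (nat_lit 76) (nat_lit 0) (XT.nd (nat_lit 78) (nat_lit 76) (nat_lit 0) (XT.lf (nat_lit 0) (nat_lit 40576474352) (nat_lit 76) (nat_lit 7750728300) (nat_lit 76) (nat_lit 3697371051) (nat_lit 5) (nat_lit 4) (nat_lit 6) (nat_lit 5) (nat_lit 6) (nat_lit 4) (nat_lit 384) (nat_lit 208) (nat_lit 188)) (XT.nd (nat_lit 78) (nat_lit 76) (nat_lit 0) (XT.lf (nat_lit 0) (nat_lit 46731758502) (nat_lit 76) (nat_lit 5485360977) (nat_lit 76) (nat_lit 1285548816) (nat_lit 5) (nat_lit 4) (nat_lit 6) (nat_lit 5) (nat_lit 6) (nat_lit 4) (nat_lit 385) (nat_lit 208) (nat_lit 187)) (XT.lf (nat_lit 0) (nat_lit 1133585090) (nat_lit 152) (nat_lit 2040823660) (nat_lit 76) (nat_lit 51851619604)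 (nat_lit 4) (nat_lit 5) (nat_lit 6) (nat_lit 5) (nat_lit 5) (nat_lit 4) (nat_lit 386) (nat_lit 208) (nat_lit 186)))) (XT.nd (nat_lit 78) (nat_lit 0) (nat_lit 0) (XT.lf (nat_lit 0) (nat_lit 2799376197) (nat_lit 76) (nat_lit 786547641) (nat_lit 152) (nat_lit 53009207597) (nat_lit 3) (nat_lit 5) (nat_lit 4) (nat_lit 5) (nat_lit 5) (nat_lit 4) (nat_lit 387) (nat_lit 208) (nat_lit 185)) (XT.nd (nat_lit 78) (nat_lit 0) (nat_lit 0) (XT.lf (nat_lit 0) (nat_lit 6108445559) (nat_lit 152) (nat_lit 50474221329) (nat_lit 0) (nat_lit 1628759943) (nat_lit 3) (nat_lit 5) (nat_lit 5) (nat_lit 4) (nat_lit 3) (nat_lit 4) (nat_lit 388) (nat_lit 208) (nat_lit 184)) (XT.lf (nat_lit 0) (nat_lit 8675322805) (nat_lit 152) (nat_lit 47132541092) (nat_lit 0) (nat_lit 4069303896) (nat_lit 3) (nat_lit 5) (nat_lit 5) (nat_lit 4) (nat_lit 3) (nat_lit 4) (nat_lit 389) (nat_lit 208) (nat_lit 183))))))))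
noncomputable def xc9 : XT := (XT.nd (nat_lit 39078) (nat_lit 0) (nat_lit 76) (XT.nd (nat_lit 858) (nat_lit 76) (nat_lit 0) (XT.nd (nat_lit 390) (nat_lit 0) (nat_lit 0) (XT.nd (nat_lit 156) (nat_lit 0) (nat_lit 0) (XT.nd (nat_lit 78) (nat_lit 0) (nat_lit 0) (XT.lf (nat_lit 0) (nat_lit 11281237699) (nat_lit 152) (nat_lit 43760233835) (nat_lit 0) (nat_lit 6552565108) (nat_lit 3) (nat_lit 5) (nat_lit 5) (nat_lit 4) (nat_lit 3) (nat_lit 4) (nat_lit 390) (nat_lit 208) (nat_lit 182)) (XT.lf (nat_lit 0) (nat_lit 13928467254) (nat_lit 152) (nat_lit 40354352882) (nat_lit 0) (nat_lit 9080713419) (nat_lit 3) (nat_lit 5) (nat_lit 5) (nat_lit 4) (nat_lit 3) (nat_lit 4) (nat_lit 391) (nat_lit 208) (nat_lit 181))) (XT.nd (nat_lit 78) (nat_lit 0) (nat_lit 0) (XT.lf (nat_lit 0) (nat_lit 16619324585) (nat_lit 152) (nat_lit 36911922220) (nat_lit 0) (nat_lit 11655957890) (nat_lit 3) (nat_lit 5) (nat_lit 5) (nat_lit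 4) (nat_lit 3) (nat_lit 4) (nat_lit 392) (nat_lit 208) (nat_lit 180)) (XT.nd (nat_lit 78) (nat_lit 0) (nat_lit 0) (XT.lf (nat_lit 0) (nat_lit 19356160925) (nat_lit 152) (nat_lit 33429933900) (nat_lit 0) (nat_lit 14280548736) (nat_lit 3) (nat_lit 5) (nat_lit 5) (nat_lit 4) (nat_lit 3) (nat_lit 4) (nat_lit 393) (nat_lit 208) (nat_lit 179)) (XT.lf (nat_lit 0) (nat_lit 22141367685) (nat_lit 152) (nat_lit 29905345408) (nat_lit 0) (nat_lit 16956779289) (nat_lit 3) (nat_lit 5) (nat_lit 5) (nat_lit 4) (nat_lit 3) (nat_lit 4) (nat_lit 394) (nat_lit 208) (nat_lit 178))))) (XT.nd (nat_lit 234) (nat_lit 0) (nat_lit 0) (XT.nd (nat_lit 78) (nat_lit 0) (nat_lit 0) (XT.lf (nat_lit 0) (nat_lit 24977378541) (nat_lit 152) (nat_lit 26335077007) (nat_lit 0) (nat_lit 19686988001) (nat_lit 3) (nat_lit 5) (nat_lit 5) (nat_lit 4) (nat_lit 3) (nat_lit 4) (nat_lit 395) (nat_lit 208) (nat_lit 177)) (XT.nd (nat_lit 78) (nat_lit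 0) (nat_lit 0) (XT.lf (nat_lit 0) (nat_lit 27866671561) (nat_lit 152) (nat_lit 22716009045) (nat_lit 0) (nat_lit 22473560492) (nat_lit 3) (nat_lit 5) (nat_lit 5) (nat_lit 4) (nat_lit 3) (nat_lit 4) (nat_lit 396) (nat_lit 208) (nat_lit 176)) (XT.lf (nat_lit 0) (nat_lit 30811771369) (nat_lit 152) (nat_lit 19044979229) (nat_lit 0) (nat_lit 25318931633) (nat_lit 3) (nat_lit 5) (nat_lit 5) (nat_lit 4) (nat_lit 3) (nat_lit 4) (nat_lit 397) (nat_lit 208) (nat_lit 175)))) (XT.nd (nat_lit 78) (nat_lit 0) (nat_lit 0) (XT.lf (nat_lit 0) (nat_lit 33815251353) (nat_lit 152) (nat_lit 15318779862) (nat_lit 0) (nat_lit 28225587668) (nat_lit 3) (nat_lit 5) (nat_lit 5) (nat_lit 4) (nat_lit 3) (nat_lit 4) (nat_lit 398) (nat_lit 208) (nat_lit 174)) (XT.nd (nat_lit 78) (nat_lit 0) (nat_lit 0) (XT.lf (nat_lit 0) (nat_lit 36879735915) (nat_lit 152) (nat_lit 11534155044) (nat_lit 0) (nat_lit 31196068395) (nat_lit 3)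 (nat_lit 5) (nat_lit 5) (nat_lit 4) (nat_lit 3) (nat_lit 4) (nat_lit 399) (nat_lit 208) (nat_lit 173)) (XT.lf (nat_lit 0) (nat_lit 40007902757) (nat_lit 152) (nat_lit 7687797820) (nat_lit 0) (nat_lit 34232969379) (nat_lit 3) (nat_lit 5) (nat_lit 5) (nat_lit 4) (nat_lit 3) (nat_lit 4) (nat_lit 400) (nat_lit 208) (nat_lit 172)))))) (XT.nd (nat_lit 37752) (nat_lit 0) (nat_lit 456) (XT.nd (nat_lit 234) (nat_lit 0) (nat_lit 0) (XT.nd (nat_lit 78) (nat_lit 76) (nat_lit 0) (XT.lf (nat_lit 0) (nat_lit 43202485231) (nat_lit 152) (nat_lit 3776347295) (nat_lit 0) (nat_lit 37338944223) (nat_lit 3) (nat_lit 5) (nat_lit 5) (nat_lit 4) (nat_lit 3) (nat_lit 4) (nat_lit 401) (nat_lit 208) (nat_lit 171)) (XT.nd (nat_lit 78) (nat_lit 0) (nat_lit 0) (XT.lf (nat_lit 0) (nat_lit 207666625) (nat_lit 76) (nat_lit 46260604313) (nat_lit 76) (nat_lit 40311036480) (nat_lit 2) (nat_lit 4) (nat_lit 3) (nat_lit 5) (nat_lit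 3) (nat_lit 4) (nat_lit 402) (nat_lit 208) (nat_lit 170)) (XT.lf (nat_lit 0) (nat_lit 4340258687) (nat_lit 76) (nat_lit 45503585610) (nat_lit 76) (nat_lit 39470496588) (nat_lit 2) (nat_lit 4) (nat_lit 3) (nat_lit 5) (nat_lit 3) (nat_lit 4) (nat_lit 403) (nat_lit 208) (nat_lit 169)))) (XT.nd (nat_lit 37362) (nat_lit 0) (nat_lit 532) (XT.lf (nat_lit 0) (nat_lit 8549883179) (nat_lit 76) (nat_lit 44745248649) (nat_lit 76) (nat_lit 38631071094) (nat_lit 2) (nat_lit 4) (nat_lit 3) (nat_lit 5) (nat_lit 3) (nat_lit 4) (nat_lit 404) (nat_lit 208) (nat_lit 168)) (XT.nd (nat_lit 78) (nat_lit 0) (nat_lit 0) (XT.lf (nat_lit 0) (nat_lit 2857464260) (nat_lit 152) (nat_lit 8656183510) (nat_lit 0) (nat_lit 2857464260) (nat_lit 9) (nat_lit 5) (nat_lit 11) (nat_lit 4) (nat_lit 9) (nat_lit 4) (nat_lit 362) (nat_lit 209) (nat_lit 209)) (XT.lf (nat_lit 0) (nat_lit 9295392056) (nat_lit 152) (nat_lit 11181479476) (nat_lit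 0) (nat_lit 9014769302) (nat_lit 9) (nat_lit 5) (nat_lit 11) (nat_lit 4) (nat_lit 9) (nat_lit 4) (nat_lit 363) (nat_lit 209) (nat_lit 208))))) (XT.nd (nat_lit 234) (nat_lit 0) (nat_lit 0) (XT.nd (nat_lit 78) (nat_lit 76) (nat_lit 0) (XT.lf (nat_lit 0) (nat_lit 12911814559) (nat_lit 152) (nat_lit 4995163542) (nat_lit 0) (nat_lit 12358742529) (nat_lit 9) (nat_lit 5) (nat_lit 11) (nat_lit 4) (nat_lit 9) (nat_lit 4) (nat_lit 364) (nat_lit 209) (nat_lit 207)) (XT.nd (nat_lit 78) (nat_lit 0) (nat_lit 0) (XT.lf (nat_lit 0) (nat_lit 1276903280) (nat_lit 76) (nat_lit 15302727104) (nat_lit 76) (nat_lit 14485141215) (nat_lit 8) (nat_lit 4) (nat_lit 9) (nat_lit 5) (nat_lit 9) (nat_lit 4) (nat_lit 365) (nat_lit 209) (nat_lit 206)) (XT.lf (nat_lit 0) (nat_lit 7715995586) (nat_lit 76) (nat_lit 12623385852) (nat_lit 76) (nat_lit 11548990390) (nat_lit 8) (nat_lit 4) (nat_lit 9) (nat_lit 5) (nat_lit 9) (nat_lit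 4) (nat_lit 366) (nat_lit 209) (nat_lit 205)))) (XT.nd (nat_lit 78) (nat_lit 0) (nat_lit 0) (XT.lf (nat_lit 0) (nat_lit 14228326218) (nat_lit 76) (nat_lit 9917054531) (nat_lit 76) (nat_lit 8593329387) (nat_lit 8) (nat_lit 4) (nat_lit 9) (nat_lit 5) (nat_lit 9) (nat_lit 4) (nat_lit 367) (nat_lit 209) (nat_lit 204)) (XT.nd (nat_lit 78) (nat_lit 0) (nat_lit 0) (XT.lf (nat_lit 0) (nat_lit 20819585561) (nat_lit 76) (nat_lit 7181368386) (nat_lit 76) (nat_lit 5615575589) (nat_lit 8) (nat_lit 4) (nat_lit 9) (nat_lit 5) (nat_lit 9) (nat_lit 4) (nat_lit 368) (nat_lit 209) (nat_lit 203)) (XT.lf (nat_lit 0) (nat_lit 27495532969) (nat_lit 76) (nat_lit 4413937010) (nat_lit 76) (nat_lit 2613127075) (nat_lit 8) (nat_lit 4) (nat_lit 9) (nat_lit 5) (nat_lit 9) (nat_lit 4) (nat_lit 369) (nat_lit 209) (nat_lit 202))))))) (XT.nd (nat_lit 936) (nat_lit 152) (nat_lit 0) (XT.nd (nat_lit 468) (nat_lit 76) (nat_lit 0)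 (XT.nd (nat_lit 234) (nat_lit 0) (nat_lit 0) (XT.nd (nat_lit 78) (nat_lit 76) (nat_lit 0) (XT.lf (nat_lit 0) (nat_lit 408509513) (nat_lit 152) (nat_lit 1199707602) (nat_lit 76) (nat_lit 33849367134) (nat_lit 7) (nat_lit 5) (nat_lit 9) (nat_lit 5) (nat_lit 8) (nat_lit 4) (nat_lit 370) (nat_lit 209) (nat_lit 201)) (XT.nd (nat_lit 78) (nat_lit 0) (nat_lit 0) (XT.lf (nat_lit 0) (nat_lit 3466875971) (nat_lit 152) (nat_lit 31671123317) (nat_lit 0) (nat_lit 1281916643) (nat_lit 6) (nat_lit 5) (nat_lit 8) (nat_lit 4) (nat_lit 6) (nat_lit 4) (nat_lit 371) (nat_lit 209) (nat_lit 200)) (XT.lf (nat_lit 0) (nat_lit 6585668090) (nat_lit 152) (nat_lit 26634518412) (nat_lit 0) (nat_lit 4191899079) (nat_lit 6) (nat_lit 5) (nat_lit 8) (nat_lit 4) (nat_lit 6) (nat_lit 4) (nat_lit 372) (nat_lit 209) (nat_lit 199)))) (XT.nd (nat_lit 78) (nat_lit 0) (nat_lit 0) (XT.lf (nat_lit 0) (nat_lit 9740273570) (nat_lit 152)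 (nat_lit 21551729988) (nat_lit 0) (nat_lit 7143776710) (nat_lit 6) (nat_lit 5) (nat_lit 8) (nat_lit 4) (nat_lit 6) (nat_lit 4) (nat_lit 373) (nat_lit 209) (nat_lit 198)) (XT.nd (nat_lit 78) (nat_lit 0) (nat_lit 0) (XT.lf (nat_lit 0) (nat_lit 12933448861) (nat_lit 152) (nat_lit 16418316775) (nat_lit 0) (nat_lit 10140128848) (nat_lit 6) (nat_lit 5) (nat_lit 8) (nat_lit 4) (nat_lit 6) (nat_lit 4) (nat_lit 374) (nat_lit 209) (nat_lit 197)) (XT.lf (nat_lit 0) (nat_lit 16167984117) (nat_lit 152) (nat_lit 11229793266) (nat_lit 0) (nat_lit 13183573663) (nat_lit 6) (nat_lit 5) (nat_lit 8) (nat_lit 4) (nat_lit 6) (nat_lit 4) (nat_lit 375) (nat_lit 209) (nat_lit 196))))) (XT.nd (nat_lit 234) (nat_lit 0) (nat_lit 0) (XT.nd (nat_lit 78) (nat_lit 76) (nat_lit 0) (XT.lf (nat_lit 0) (nat_lit 19446705630) (nat_lit 152) (nat_lit 5981625799) (nat_lit 0) (nat_lit 16276770477) (nat_lit 6) (nat_lit 5) (nat_lit 8) (nat_lit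 4) (nat_lit 6) (nat_lit 4) (nat_lit 376) (nat_lit 209) (nat_lit 195)) (XT.nd (nat_lit 78) (nat_lit 76) (nat_lit 0) (XT.lf (nat_lit 0) (nat_lit 22772478303) (nat_lit 152) (nat_lit 669228598) (nat_lit 0) (nat_lit 19422422083) (nat_lit 6) (nat_lit 5) (nat_lit 8) (nat_lit 4) (nat_lit 6) (nat_lit 4) (nat_lit 377) (nat_lit 209) (nat_lit 194)) (XT.lf (nat_lit 0) (nat_lit 4805819078) (nat_lit 76) (nat_lit 21388585545) (nat_lit 76) (nat_lit 17863654502) (nat_lit 5) (nat_lit 4) (nat_lit 6) (nat_lit 5) (nat_lit 6) (nat_lit 4) (nat_lit 378) (nat_lit 209) (nat_lit 193)))) (XT.nd (nat_lit 78) (nat_lit 0) (nat_lit 0) (XT.lf (nat_lit 0) (nat_lit 10369223693) (nat_lit 76) (nat_lit 19307296469) (nat_lit 76) (nat_lit 15612584044) (nat_lit 5) (nat_lit 4) (nat_lit 6) (nat_lit 5) (nat_lit 6) (nat_lit 4) (nat_lit 379) (nat_lit 209) (nat_lit 192)) (XT.nd (nat_lit 78) (nat_lit 0) (nat_lit 0) (XT.lf (nat_lit 0) (nat_lit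 16012527511) (nat_lit 76) (nat_lit 17202778967) (nat_lit 76) (nat_lit 13343230250) (nat_lit 5) (nat_lit 4) (nat_lit 6) (nat_lit 5) (nat_lit 6) (nat_lit 4) (nat_lit 380) (nat_lit 209) (nat_lit 191)) (XT.lf (nat_lit 0) (nat_lit 21740661574) (nat_lit 76) (nat_lit 15073194140) (nat_lit 76) (nat_lit 11053610188) (nat_lit 5) (nat_lit 4) (nat_lit 6) (nat_lit 5) (nat_lit 6) (nat_lit 4) (nat_lit 381) (nat_lit 209) (nat_lit 190)))))) (XT.nd (nat_lit 468) (nat_lit 0) (nat_lit 0) (XT.nd (nat_lit 234) (nat_lit 152) (nat_lit 0) (XT.nd (nat_lit 78) (nat_lit 0) (nat_lit 0) (XT.lf (nat_lit 0) (nat_lit 27558631049) (nat_lit 76) (nat_lit 12916681187) (nat_lit 76) (nat_lit 8741723220) (nat_lit 5) (nat_lit 4) (nat_lit 6) (nat_lit 5) (nat_lit 6) (nat_lit 4) (nat_lit 382) (nat_lit 209) (nat_lit 189)) (XT.nd (nat_lit 78) (nat_lit 0) (nat_lit 0) (XT.lf (nat_lit 0) (nat_lit 33471519598) (nat_lit 76) (nat_lit 10731355775)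 (nat_lit 76) (nat_lit 6405549250) (nat_lit 5) (nat_lit 4) (nat_lit 6) (nat_lit 5) (nat_lit 6) (nat_lit 4) (nat_lit 383) (nat_lit 209) (nat_lit 188)) (XT.lf (nat_lit 0) (nat_lit 39484493823) (nat_lit 76) (nat_lit 8515308397) (nat_lit 76) (nat_lit 4043046961) (nat_lit 5) (nat_lit 4) (nat_lit 6) (nat_lit 5) (nat_lit 6) (nat_lit 4) (nat_lit 384) (nat_lit 209) (nat_lit 187)))) (XT.nd (nat_lit 78) (nat_lit 152) (nat_lit 0) (XT.lf (nat_lit 0) (nat_lit 45602807778) (nat_lit 76) (nat_lit 6266602701) (nat_lit 76) (nat_lit 1652152031) (nat_lit 5) (nat_lit 4) (nat_lit 6) (nat_lit 5) (nat_lit 6) (nat_lit 4) (nat_lit 385) (nat_lit 209) (nat_lit 186)) (XT.nd (nat_lit 78) (nat_lit 76) (nat_lit 0) (XT.lf (nat_lit 0) (nat_lit 754214326) (nat_lit 152) (nat_lit 3221443386) (nat_lit 76) (nat_lit 51069977151) (nat_lit 4) (nat_lit 5) (nat_lit 6) (nat_lit 5) (nat_lit 5) (nat_lit 4) (nat_lit 386) (nat_lit 209) (nat_lit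 185)) (XT.lf (nat_lit 0) (nat_lit 1559316893) (nat_lit 76) (nat_lit 1615974906) (nat_lit 152) (nat_lit 53440392658) (nat_lit 3) (nat_lit 5) (nat_lit 4) (nat_lit 5) (nat_lit 5) (nat_lit 4) (nat_lit 387) (nat_lit 209) (nat_lit 184))))) (XT.nd (nat_lit 234) (nat_lit 0) (nat_lit 0) (XT.nd (nat_lit 78) (nat_lit 0) (nat_lit 0) (XT.lf (nat_lit 0) (nat_lit 5670575668) (nat_lit 152) (nat_lit 51762186845) (nat_lit 0) (nat_lit 800042899) (nat_lit 3) (nat_lit 5) (nat_lit 5) (nat_lit 4) (nat_lit 3) (nat_lit 4) (nat_lit 388) (nat_lit 209) (nat_lit 183)) (XT.nd (nat_lit 78) (nat_lit 0) (nat_lit 0) (XT.lf (nat_lit 0) (nat_lit 8218749135) (nat_lit 152) (nat_lit 48454803843) (nat_lit 0) (nat_lit 3225562685) (nat_lit 3) (nat_lit 5) (nat_lit 5) (nat_lit 4) (nat_lit 3) (nat_lit 4) (nat_lit 389) (nat_lit 209) (nat_lit 182)) (XT.lf (nat_lit 0) (nat_lit 10806505022) (nat_lit 152) (nat_lit 45115794873) (nat_lit 0) (nat_lit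 5694237326) (nat_lit 3) (nat_lit 5) (nat_lit 5) (nat_lit 4) (nat_lit 3) (nat_lit 4) (nat_lit 390) (nat_lit 209) (nat_lit 181)))) (XT.nd (nat_lit 78) (nat_lit 0) (nat_lit 0) (XT.lf (nat_lit 0) (nat_lit 13436104473) (nat_lit 152) (nat_lit 41742242353) (nat_lit 0) (nat_lit 8208223919) (nat_lit 3) (nat_lit 5) (nat_lit 5) (nat_lit 4) (nat_lit 3) (nat_lit 4) (nat_lit 391) (nat_lit 209) (nat_lit 180)) (XT.nd (nat_lit 78) (nat_lit 0) (nat_lit 0) (XT.lf (nat_lit 0) (nat_lit 16109845198) (nat_lit 152) (nat_lit 38331198520) (nat_lit 0) (nat_lit 10769719149) (nat_lit 3) (nat_lit 5) (nat_lit 5) (nat_lit 4) (nat_lit 3) (nat_lit 4) (nat_lit 392) (nat_lit 209) (nat_lit 179)) (XT.lf (nat_lit 0) (nat_lit 18830063474) (nat_lit 152) (nat_lit 34879682849) (nat_lit 0) (nat_lit 13380961217) (nat_lit 3) (nat_lit 5) (nat_lit 5) (nat_lit 4) (nat_lit 3) (nat_lit 4) (nat_lit 393) (nat_lit 209) (nat_lit 178))))))))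
noncomputable def xc10 : XT := (XT.nd (nat_lit 38922) (nat_lit 0) (nat_lit 76) (XT.nd (nat_lit 37986) (nat_lit 0) (nat_lit 304) (XT.nd (nat_lit 390) (nat_lit 76) (nat_lit 0) (XT.nd (nat_lit 156) (nat_lit 0) (nat_lit 0) (XT.nd (nat_lit 78) (nat_lit 0) (nat_lit 0) (XT.lf (nat_lit 0) (nat_lit 21599136191) (nat_lit 152) (nat_lit 31384679454) (nat_lit 0) (nat_lit 16044231791) (nat_lit 3) (nat_lit 5) (nat_lit 5) (nat_lit 4) (nat_lit 3) (nat_lit 4) (nat_lit 394) (nat_lit 209) (nat_lit 177)) (XT.lf (nat_lit 0) (nat_lit 24419482928) (nat_lit 152) (nat_lit 27843134447) (nat_lit 0) (nat_lit 18761858000) (nat_lit 3) (nat_lit 5) (nat_lit 5) (nat_lit 4) (nat_lit 3) (nat_lit 4) (nat_lit 395) (nat_lit 209) (nat_lit 176))) (XT.nd (nat_lit 78) (nat_lit 0) (nat_lit 0) (XT.lf (nat_lit 0) (nat_lit 27293568065) (nat_lit 152) (nat_lit 24251953275) (nat_lit 0) (nat_lit 21536214469) (nat_lit 3) (nat_lit 5) (nat_lit 5)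 (nat_lit 4) (nat_lit 3) (nat_lit 4) (nat_lit 396) (nat_lit 209) (nat_lit 175)) (XT.nd (nat_lit 78) (nat_lit 0) (nat_lit 0) (XT.lf (nat_lit 0) (nat_lit 30223902938) (nat_lit 152) (nat_lit 20607998013) (nat_lit 0) (nat_lit 24369725392) (nat_lit 3) (nat_lit 5) (nat_lit 5) (nat_lit 4) (nat_lit 3) (nat_lit 4) (nat_lit 397) (nat_lit 209) (nat_lit 174)) (XT.lf (nat_lit 0) (nat_lit 33213048034) (nat_lit 152) (nat_lit 16908084621) (nat_lit 0) (nat_lit 27264866654) (nat_lit 3) (nat_lit 5) (nat_lit 5) (nat_lit 4) (nat_lit 3) (nat_lit 4) (nat_lit 398) (nat_lit 209) (nat_lit 173))))) (XT.nd (nat_lit 234) (nat_lit 76) (nat_lit 0) (XT.nd (nat_lit 78) (nat_lit 0) (nat_lit 0) (XT.lf (nat_lit 0) (nat_lit 36263615228) (nat_lit 152) (nat_lit 13148980167) (nat_lit 0) (nat_lit 30224167990) (nat_lit 3) (nat_lit 5) (nat_lit 5) (nat_lit 4) (nat_lit 3) (nat_lit 4) (nat_lit 399) (nat_lit 209) (nat_lit 172)) (XT.nd (nat_lit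 78) (nat_lit 0) (nat_lit 0) (XT.lf (nat_lit 0) (nat_lit 39378270064) (nat_lit 152) (nat_lit 9327399995) (nat_lit 0) (nat_lit 33250215196) (nat_lit 3) (nat_lit 5) (nat_lit 5) (nat_lit 4) (nat_lit 3) (nat_lit 4) (nat_lit 400) (nat_lit 209) (nat_lit 171)) (XT.lf (nat_lit 0) (nat_lit 42559734085) (nat_lit 152) (nat_lit 5440004861) (nat_lit 0) (nat_lit 36345652392) (nat_lit 3) (nat_lit 5) (nat_lit 5) (nat_lit 4) (nat_lit 3) (nat_lit 4) (nat_lit 401) (nat_lit 209) (nat_lit 170)))) (XT.nd (nat_lit 78) (nat_lit 76) (nat_lit 0) (XT.lf (nat_lit 0) (nat_lit 45810787210) (nat_lit 152) (nat_lit 1483398012) (nat_lit 0) (nat_lit 39513184328) (nat_lit 3) (nat_lit 5) (nat_lit 5) (nat_lit 4) (nat_lit 3) (nat_lit 4) (nat_lit 402) (nat_lit 209) (nat_lit 169)) (XT.nd (nat_lit 78) (nat_lit 0) (nat_lit 0) (XT.lf (nat_lit 0) (nat_lit 2596545741) (nat_lit 76) (nat_lit 46562684012) (nat_lit 76) (nat_lit 40183992597) (nat_lit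 2) (nat_lit 4) (nat_lit 3) (nat_lit 5) (nat_lit 3) (nat_lit 4) (nat_lit 403) (nat_lit 209) (nat_lit 168)) (XT.lf (nat_lit 0) (nat_lit 6783718018) (nat_lit 76) (nat_lit 45814578197) (nat_lit 76) (nat_lit 39357160051) (nat_lit 2) (nat_lit 4) (nat_lit 3) (nat_lit 5) (nat_lit 3) (nat_lit 4) (nat_lit 404) (nat_lit 209) (nat_lit 167)))))) (XT.nd (nat_lit 468) (nat_lit 152) (nat_lit 0) (XT.nd (nat_lit 234) (nat_lit 76) (nat_lit 0) (XT.nd (nat_lit 78) (nat_lit 152) (nat_lit 0) (XT.lf (nat_lit 0) (nat_lit 12642045882) (nat_lit 76) (nat_lit 507090623) (nat_lit 76) (nat_lit 507090623) (nat_lit 11) (nat_lit 4) (nat_lit 12) (nat_lit 5) (nat_lit 12) (nat_lit 4) (nat_lit 360) (nat_lit 210) (nat_lit 210)) (XT.nd (nat_lit 78) (nat_lit 0) (nat_lit 0) (XT.lf (nat_lit 0) (nat_lit 2456336826) (nat_lit 152) (nat_lit 23393183263) (nat_lit 0) (nat_lit 2167295390) (nat_lit 9) (nat_lit 5) (nat_lit 11) (nat_lit 4) (nat_lit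 9) (nat_lit 4) (nat_lit 361) (nat_lit 210) (nat_lit 209)) (XT.lf (nat_lit 0) (nat_lit 5967714494) (nat_lit 152) (nat_lit 17377565634) (nat_lit 0) (nat_lit 5398050304) (nat_lit 9) (nat_lit 5) (nat_lit 11) (nat_lit 4) (nat_lit 9) (nat_lit 4) (nat_lit 362) (nat_lit 210) (nat_lit 208)))) (XT.nd (nat_lit 78) (nat_lit 76) (nat_lit 0) (XT.lf (nat_lit 0) (nat_lit 9512978553) (nat_lit 152) (nat_lit 11309977713) (nat_lit 0) (nat_lit 8670865087) (nat_lit 9) (nat_lit 5) (nat_lit 11) (nat_lit 4) (nat_lit 9) (nat_lit 4) (nat_lit 363) (nat_lit 210) (nat_lit 207)) (XT.nd (nat_lit 78) (nat_lit 76) (nat_lit 0) (XT.lf (nat_lit 0) (nat_lit 13095226806) (nat_lit 152) (nat_lit 5185117726) (nat_lit 0) (nat_lit 11988599480) (nat_lit 9) (nat_lit 5) (nat_lit 11) (nat_lit 4) (nat_lit 9) (nat_lit 4) (nat_lit 364) (nat_lit 210) (nat_lit 206)) (XT.lf (nat_lit 0) (nat_lit 1022315198) (nat_lit 76) (nat_lit 15705101293) (nat_lit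 76) (nat_lit 14341664394) (nat_lit 8) (nat_lit 4) (nat_lit 9) (nat_lit 5) (nat_lit 9) (nat_lit 4) (nat_lit 365) (nat_lit 210) (nat_lit 205))))) (XT.nd (nat_lit 234) (nat_lit 152) (nat_lit 0) (XT.nd (nat_lit 78) (nat_lit 0) (nat_lit 0) (XT.lf (nat_lit 0) (nat_lit 7402326498) (nat_lit 76) (nat_lit 13052060617) (nat_lit 76) (nat_lit 11439294035) (nat_lit 8) (nat_lit 4) (nat_lit 9) (nat_lit 5) (nat_lit 9) (nat_lit 4) (nat_lit 366) (nat_lit 210) (nat_lit 204)) (XT.nd (nat_lit 78) (nat_lit 0) (nat_lit 0) (XT.lf (nat_lit 0) (nat_lit 13857296929) (nat_lit 76) (nat_lit 10371263835) (nat_lit 76) (nat_lit 8516429601) (nat_lit 8) (nat_lit 4) (nat_lit 9) (nat_lit 5) (nat_lit 9) (nat_lit 4) (nat_lit 367) (nat_lit 210) (nat_lit 203)) (XT.lf (nat_lit 0) (nat_lit 20392866757) (nat_lit 76) (nat_lit 7660368504) (nat_lit 76) (nat_lit 5570517132) (nat_lit 8) (nat_lit 4) (nat_lit 9) (nat_lit 5) (nat_lit 9) (nat_lit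 4) (nat_lit 368) (nat_lit 210) (nat_lit 202)))) (XT.nd (nat_lit 78) (nat_lit 152) (nat_lit 0) (XT.lf (nat_lit 0) (nat_lit 27014746674) (nat_lit 76) (nat_lit 4917005881) (nat_lit 76) (nat_lit 2598982530) (nat_lit 8) (nat_lit 4) (nat_lit 9) (nat_lit 5) (nat_lit 9) (nat_lit 4) (nat_lit 369) (nat_lit 210) (nat_lit 201)) (XT.nd (nat_lit 78) (nat_lit 76) (nat_lit 0) (XT.lf (nat_lit 0) (nat_lit 392950212) (nat_lit 152) (nat_lit 1741860613) (nat_lit 76) (nat_lit 33331804550) (nat_lit 7) (nat_lit 5) (nat_lit 9) (nat_lit 5) (nat_lit 8) (nat_lit 4) (nat_lit 370) (nat_lit 210) (nat_lit 200)) (XT.lf (nat_lit 0) (nat_lit 3411584948) (nat_lit 152) (nat_lit 32281374797) (nat_lit 0) (nat_lit 737193183) (nat_lit 6) (nat_lit 5) (nat_lit 8) (nat_lit 4) (nat_lit 6) (nat_lit 4) (nat_lit 371) (nat_lit 210) (nat_lit 199))))))) (XT.nd (nat_lit 936) (nat_lit 152) (nat_lit 0) (XT.nd (nat_lit 468) (nat_lit 76) (nat_lit 0)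 (XT.nd (nat_lit 234) (nat_lit 0) (nat_lit 0) (XT.nd (nat_lit 78) (nat_lit 0) (nat_lit 0) (XT.lf (nat_lit 0) (nat_lit 6501928593) (nat_lit 152) (nat_lit 27296451975) (nat_lit 0) (nat_lit 3624808979) (nat_lit 6) (nat_lit 5) (nat_lit 8) (nat_lit 4) (nat_lit 6) (nat_lit 4) (nat_lit 372) (nat_lit 210) (nat_lit 198)) (XT.nd (nat_lit 78) (nat_lit 0) (nat_lit 0) (XT.lf (nat_lit 0) (nat_lit 9628914195) (nat_lit 152) (nat_lit 22263840332) (nat_lit 0) (nat_lit 6554971427) (nat_lit 6) (nat_lit 5) (nat_lit 8) (nat_lit 4) (nat_lit 6) (nat_lit 4) (nat_lit 373) (nat_lit 210) (nat_lit 197)) (XT.lf (nat_lit 0) (nat_lit 12795274070) (nat_lit 152) (nat_lit 17179142439) (nat_lit 0) (nat_lit 9530240862) (nat_lit 6) (nat_lit 5) (nat_lit 8) (nat_lit 4) (nat_lit 6) (nat_lit 4) (nat_lit 374) (nat_lit 210) (nat_lit 196)))) (XT.nd (nat_lit 78) (nat_lit 0) (nat_lit 0) (XT.lf (nat_lit 0) (nat_lit 16003774941) (nat_lit 152)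 (nat_lit 12037915357) (nat_lit 0) (nat_lit 12553217034) (nat_lit 6) (nat_lit 5) (nat_lit 8) (nat_lit 4) (nat_lit 6) (nat_lit 4) (nat_lit 375) (nat_lit 210) (nat_lit 195)) (XT.nd (nat_lit 78) (nat_lit 0) (nat_lit 0) (XT.lf (nat_lit 0) (nat_lit 19257220353) (nat_lit 152) (nat_lit 6835666752) (nat_lit 0) (nat_lit 15626541379) (nat_lit 6) (nat_lit 5) (nat_lit 8) (nat_lit 4) (nat_lit 6) (nat_lit 4) (nat_lit 376) (nat_lit 210) (nat_lit 194)) (XT.lf (nat_lit 0) (nat_lit 22558453122) (nat_lit 152) (nat_lit 1567850970) (nat_lit 0) (nat_lit 18752899325) (nat_lit 6) (nat_lit 5) (nat_lit 8) (nat_lit 4) (nat_lit 6) (nat_lit 4) (nat_lit 377) (nat_lit 210) (nat_lit 193))))) (XT.nd (nat_lit 234) (nat_lit 0) (nat_lit 0) (XT.nd (nat_lit 78) (nat_lit 0) (nat_lit 0) (XT.lf (nat_lit 0) (nat_lit 3845168013) (nat_lit 76) (nat_lit 22102151914) (nat_lit 76) (nat_lit 18126816736) (nat_lit 5) (nat_lit 4) (nat_lit 6) (nat_lit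 5) (nat_lit 6) (nat_lit 4) (nat_lit 378) (nat_lit 210) (nat_lit 192)) (XT.nd (nat_lit 78) (nat_lit 0) (nat_lit 0) (XT.lf (nat_lit 0) (nat_lit 9365714039) (nat_lit 76) (nat_lit 20040178230) (nat_lit 76) (nat_lit 15900006760) (nat_lit 5) (nat_lit 4) (nat_lit 6) (nat_lit 5) (nat_lit 6) (nat_lit 4) (nat_lit 379) (nat_lit 210) (nat_lit 191)) (XT.lf (nat_lit 0) (nat_lit 14967407576) (nat_lit 76) (nat_lit 17954413537) (nat_lit 76) (nat_lit 13654206830) (nat_lit 5) (nat_lit 4) (nat_lit 6) (nat_lit 5) (nat_lit 6) (nat_lit 4) (nat_lit 380) (nat_lit 210) (nat_lit 190)))) (XT.nd (nat_lit 78) (nat_lit 0) (nat_lit 0) (XT.lf (nat_lit 0) (nat_lit 20655143310) (nat_lit 76) (nat_lit 15843035320) (nat_lit 76) (nat_lit 11387454599) (nat_lit 5) (nat_lit 4) (nat_lit 6) (nat_lit 5) (nat_lit 6) (nat_lit 4) (nat_lit 381) (nat_lit 210) (nat_lit 189)) (XT.nd (nat_lit 78) (nat_lit 0) (nat_lit 0) (XT.lf (nat_lit 0) (nat_lit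 26433891105) (nat_lit 76) (nat_lit 13704198687) (nat_lit 76) (nat_lit 9097769407) (nat_lit 5) (nat_lit 4) (nat_lit 6) (nat_lit 5) (nat_lit 6) (nat_lit 4) (nat_lit 382) (nat_lit 210) (nat_lit 188)) (XT.lf (nat_lit 0) (nat_lit 32308700353) (nat_lit 76) (nat_lit 11536034751) (nat_lit 76) (nat_lit 6783150561) (nat_lit 5) (nat_lit 4) (nat_lit 6) (nat_lit 5) (nat_lit 6) (nat_lit 4) (nat_lit 383) (nat_lit 210) (nat_lit 187)))))) (XT.nd (nat_lit 468) (nat_lit 0) (nat_lit 0) (XT.nd (nat_lit 234) (nat_lit 76) (nat_lit 0) (XT.nd (nat_lit 78) (nat_lit 76) (nat_lit 0) (XT.lf (nat_lit 0) (nat_lit 38284704382) (nat_lit 76) (nat_lit 9336649000) (nat_lit 76) (nat_lit 4441575576) (nat_lit 5) (nat_lit 4) (nat_lit 6) (nat_lit 5) (nat_lit 6) (nat_lit 4) (nat_lit 384) (nat_lit 210) (nat_lit 186)) (XT.nd (nat_lit 78) (nat_lit 76) (nat_lit 0) (XT.lf (nat_lit 0) (nat_lit 44367124945) (nat_lit 76) (nat_lit 7104119641)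 (nat_lit 76) (nat_lit 2070998417) (nat_lit 5) (nat_lit 4) (nat_lit 6) (nat_lit 5) (nat_lit 6) (nat_lit 4) (nat_lit 385) (nat_lit 210) (nat_lit 185)) (XT.lf (nat_lit 0) (nat_lit 324200076) (nat_lit 152) (nat_lit 4509022059) (nat_lit 76) (nat_lit 50233802915) (nat_lit 4) (nat_lit 5) (nat_lit 6) (nat_lit 5) (nat_lit 5) (nat_lit 4) (nat_lit 386) (nat_lit 210) (nat_lit 184)))) (XT.nd (nat_lit 78) (nat_lit 0) (nat_lit 0) (XT.lf (nat_lit 0) (nat_lit 211216830) (nat_lit 76) (nat_lit 2502324221) (nat_lit 152) (nat_lit 53924494108) (nat_lit 3) (nat_lit 5) (nat_lit 4) (nat_lit 5) (nat_lit 5) (nat_lit 4) (nat_lit 387) (nat_lit 210) (nat_lit 183)) (XT.nd (nat_lit 78) (nat_lit 0) (nat_lit 0) (XT.lf (nat_lit 0) (nat_lit 5096717710) (nat_lit 76) (nat_lit 85707170) (nat_lit 152) (nat_lit 53073531413) (nat_lit 3) (nat_lit 5) (nat_lit 4) (nat_lit 5) (nat_lit 5) (nat_lit 4) (nat_lit 388) (nat_lit 210) (nat_lit 182))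 (XT.lf (nat_lit 0) (nat_lit 7711615471) (nat_lit 152) (nat_lit 49884329999) (nat_lit 0) (nat_lit 2326898500) (nat_lit 3) (nat_lit 5) (nat_lit 5) (nat_lit 4) (nat_lit 3) (nat_lit 4) (nat_lit 389) (nat_lit 210) (nat_lit 181))))) (XT.nd (nat_lit 234) (nat_lit 0) (nat_lit 0) (XT.nd (nat_lit 78) (nat_lit 0) (nat_lit 0) (XT.lf (nat_lit 0) (nat_lit 10281741253) (nat_lit 152) (nat_lit 46577649462) (nat_lit 0) (nat_lit 4781411423) (nat_lit 3) (nat_lit 5) (nat_lit 5) (nat_lit 4) (nat_lit 3) (nat_lit 4) (nat_lit 390) (nat_lit 210) (nat_lit 180)) (XT.nd (nat_lit 78) (nat_lit 0) (nat_lit 0) (XT.lf (nat_lit 0) (nat_lit 12894224099) (nat_lit 152) (nat_lit 43235483770) (nat_lit 0) (nat_lit 7281648774) (nat_lit 3) (nat_lit 5) (nat_lit 5) (nat_lit 4) (nat_lit 3) (nat_lit 4) (nat_lit 391) (nat_lit 210) (nat_lit 179)) (XT.lf (nat_lit 0) (nat_lit 15551346759) (nat_lit 152) (nat_lit 39854912586) (nat_lit 0) (nat_lit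 9829795226) (nat_lit 3) (nat_lit 5) (nat_lit 5) (nat_lit 4) (nat_lit 3) (nat_lit 4) (nat_lit 392) (nat_lit 210) (nat_lit 178)))) (XT.nd (nat_lit 78) (nat_lit 0) (nat_lit 0) (XT.lf (nat_lit 0) (nat_lit 18255430992) (nat_lit 152) (nat_lit 36432982012) (nat_lit 0) (nat_lit 12428077316) (nat_lit 3) (nat_lit 5) (nat_lit 5) (nat_lit 4) (nat_lit 3) (nat_lit 4) (nat_lit 393) (nat_lit 210) (nat_lit 177)) (XT.nd (nat_lit 78) (nat_lit 0) (nat_lit 0) (XT.lf (nat_lit 0) (nat_lit 21008839590) (nat_lit 152) (nat_lit 32966702011) (nat_lit 0) (nat_lit 15078765386) (nat_lit 3) (nat_lit 5) (nat_lit 5) (nat_lit 4) (nat_lit 3) (nat_lit 4) (nat_lit 394) (nat_lit 210) (nat_lit 176)) (XT.lf (nat_lit 0) (nat_lit 23813978444) (nat_lit 152) (nat_lit 29453043795) (nat_lit 0) (nat_lit 17784175572) (nat_lit 3) (nat_lit 5) (nat_lit 5) (nat_lit 4) (nat_lit 3) (nat_lit 4) (nat_lit 395) (nat_lit 210) (nat_lit 175))))))))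
noncomputable def xc11 : XT := (XT.nd (nat_lit 38844) (nat_lit 0) (nat_lit 76) (XT.nd (nat_lit 37908) (nat_lit 0) (nat_lit 304) (XT.nd (nat_lit 468) (nat_lit 76) (nat_lit 0) (XT.nd (nat_lit 234) (nat_lit 0) (nat_lit 0) (XT.nd (nat_lit 78) (nat_lit 0) (nat_lit 0) (XT.lf (nat_lit 0) (nat_lit 26673298646) (nat_lit 152) (nat_lit 25888937177) (nat_lit 0) (nat_lit 20546671825) (nat_lit 3) (nat_lit 5) (nat_lit 5) (nat_lit 4) (nat_lit 3) (nat_lit 4) (nat_lit 396) (nat_lit 210) (nat_lit 174)) (XT.nd (nat_lit 78) (nat_lit 0) (nat_lit 0) (XT.lf (nat_lit 0) (nat_lit 29589298631) (nat_lit 152) (nat_lit 22271267889) (nat_lit 0) (nat_lit 23368667975) (nat_lit 3) (nat_lit 5) (nat_lit 5) (nat_lit 4) (nat_lit 3) (nat_lit 4) (nat_lit 397) (nat_lit 210) (nat_lit 173)) (XT.lf (nat_lit 0) (nat_lit 32564526360) (nat_lit 152) (nat_lit 18596874862) (nat_lit 0) (nat_lit 26252629846) (nat_lit 3) (nat_lit 5) (nat_lit 5)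 (nat_lit 4) (nat_lit 3) (nat_lit 4) (nat_lit 398) (nat_lit 210) (nat_lit 172)))) (XT.nd (nat_lit 78) (nat_lit 0) (nat_lit 0) (XT.lf (nat_lit 0) (nat_lit 35601581547) (nat_lit 152) (nat_lit 14862547460) (nat_lit 0) (nat_lit 29201077404) (nat_lit 3) (nat_lit 5) (nat_lit 5) (nat_lit 4) (nat_lit 3) (nat_lit 4) (nat_lit 399) (nat_lit 210) (nat_lit 171)) (XT.nd (nat_lit 78) (nat_lit 0) (nat_lit 0) (XT.lf (nat_lit 0) (nat_lit 38703117930) (nat_lit 152) (nat_lit 11065022679) (nat_lit 0) (nat_lit 32216586961) (nat_lit 3) (nat_lit 5) (nat_lit 5) (nat_lit 4) (nat_lit 3) (nat_lit 4) (nat_lit 400) (nat_lit 210) (nat_lit 170)) (XT.lf (nat_lit 0) (nat_lit 41871845588) (nat_lit 152) (nat_lit 7200982293) (nat_lit 0) (nat_lit 35301793430) (nat_lit 3) (nat_lit 5) (nat_lit 5) (nat_lit 4) (nat_lit 3) (nat_lit 4) (nat_lit 401) (nat_lit 210) (nat_lit 169))))) (XT.nd (nat_lit 37206) (nat_lit 0) (nat_lit 684) (XT.nd (nat_lit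 78) (nat_lit 76) (nat_lit 0) (XT.lf (nat_lit 0) (nat_lit 45110533313) (nat_lit 152) (nat_lit 3267049956) (nat_lit 0) (nat_lit 38459392622) (nat_lit 3) (nat_lit 5) (nat_lit 5) (nat_lit 4) (nat_lit 3) (nat_lit 4) (nat_lit 402) (nat_lit 210) (nat_lit 168)) (XT.nd (nat_lit 78) (nat_lit 0) (nat_lit 0) (XT.lf (nat_lit 0) (nat_lit 754943412) (nat_lit 76) (nat_lit 47674324592) (nat_lit 76) (nat_lit 40944457170) (nat_lit 2) (nat_lit 4) (nat_lit 3) (nat_lit 5) (nat_lit 3) (nat_lit 4) (nat_lit 403) (nat_lit 210) (nat_lit 167)) (XT.lf (nat_lit 0) (nat_lit 4920317423) (nat_lit 76) (nat_lit 46936151930) (nat_lit 76) (nat_lit 40129850788) (nat_lit 2) (nat_lit 4) (nat_lit 3) (nat_lit 5) (nat_lit 3) (nat_lit 4) (nat_lit 404) (nat_lit 210) (nat_lit 166)))) (XT.nd (nat_lit 78) (nat_lit 0) (nat_lit 0) (XT.lf (nat_lit 0) (nat_lit 5487818276) (nat_lit 76) (nat_lit 3747323631) (nat_lit 76) (nat_lit 3747323631) (nat_lit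 11) (nat_lit 4) (nat_lit 12) (nat_lit 5) (nat_lit 12) (nat_lit 4) (nat_lit 358) (nat_lit 211) (nat_lit 211)) (XT.nd (nat_lit 78) (nat_lit 0) (nat_lit 0) (XT.lf (nat_lit 0) (nat_lit 18056744785) (nat_lit 76) (nat_lit 4439038044) (nat_lit 76) (nat_lit 4132393984) (nat_lit 11) (nat_lit 4) (nat_lit 12) (nat_lit 5) (nat_lit 12) (nat_lit 4) (nat_lit 359) (nat_lit 211) (nat_lit 210)) (XT.lf (nat_lit 0) (nat_lit 25219825258) (nat_lit 76) (nat_lit 1349043517) (nat_lit 76) (nat_lit 744686777) (nat_lit 11) (nat_lit 4) (nat_lit 12) (nat_lit 5) (nat_lit 12) (nat_lit 4) (nat_lit 360) (nat_lit 211) (nat_lit 209)))))) (XT.nd (nat_lit 468) (nat_lit 152) (nat_lit 0) (XT.nd (nat_lit 234) (nat_lit 76) (nat_lit 0) (XT.nd (nat_lit 78) (nat_lit 0) (nat_lit 0) (XT.lf (nat_lit 0) (nat_lit 2680450918) (nat_lit 152) (nat_lit 23525536448) (nat_lit 0) (nat_lit 1813074048) (nat_lit 9) (nat_lit 5) (nat_lit 11) (nat_lit 4) (nat_lit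 9) (nat_lit 4) (nat_lit 361) (nat_lit 211) (nat_lit 208)) (XT.nd (nat_lit 78) (nat_lit 0) (nat_lit 0) (XT.lf (nat_lit 0) (nat_lit 6156629109) (nat_lit 152) (nat_lit 17573218443) (nat_lit 0) (nat_lit 5016802963) (nat_lit 9) (nat_lit 5) (nat_lit 11) (nat_lit 4) (nat_lit 9) (nat_lit 4) (nat_lit 362) (nat_lit 211) (nat_lit 207)) (XT.lf (nat_lit 0) (nat_lit 9667718917) (nat_lit 152) (nat_lit 11567086469) (nat_lit 0) (nat_lit 8263378912) (nat_lit 9) (nat_lit 5) (nat_lit 11) (nat_lit 4) (nat_lit 9) (nat_lit 4) (nat_lit 363) (nat_lit 211) (nat_lit 206)))) (XT.nd (nat_lit 78) (nat_lit 76) (nat_lit 0) (XT.lf (nat_lit 0) (nat_lit 13216788286) (nat_lit 152) (nat_lit 5501892449) (nat_lit 0) (nat_lit 11555638708) (nat_lit 9) (nat_lit 5) (nat_lit 11) (nat_lit 4) (nat_lit 9) (nat_lit 4) (nat_lit 364) (nat_lit 211) (nat_lit 205)) (XT.nd (nat_lit 78) (nat_lit 0) (nat_lit 0) (XT.lf (nat_lit 0) (nat_lit 640155031)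 (nat_lit 76) (nat_lit 16172936875) (nat_lit 76) (nat_lit 14262457615) (nat_lit 8) (nat_lit 4) (nat_lit 9) (nat_lit 5) (nat_lit 9) (nat_lit 4) (nat_lit 365) (nat_lit 211) (nat_lit 204)) (XT.lf (nat_lit 0) (nat_lit 6962806129) (nat_lit 76) (nat_lit 13545430739) (nat_lit 76) (nat_lit 11392883825) (nat_lit 8) (nat_lit 4) (nat_lit 9) (nat_lit 5) (nat_lit 9) (nat_lit 4) (nat_lit 366) (nat_lit 211) (nat_lit 203))))) (XT.nd (nat_lit 234) (nat_lit 152) (nat_lit 0) (XT.nd (nat_lit 78) (nat_lit 0) (nat_lit 0) (XT.lf (nat_lit 0) (nat_lit 13362087045) (nat_lit 76) (nat_lit 10889424772) (nat_lit 76) (nat_lit 8501860720) (nat_lit 8) (nat_lit 4) (nat_lit 9) (nat_lit 5) (nat_lit 9) (nat_lit 4) (nat_lit 367) (nat_lit 211) (nat_lit 202)) (XT.nd (nat_lit 78) (nat_lit 0) (nat_lit 0) (XT.lf (nat_lit 0) (nat_lit 19843589383) (nat_lit 76) (nat_lit 8202598194) (nat_lit 76) (nat_lit 5586862163) (nat_lit 8) (nat_lit 4)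 (nat_lit 9) (nat_lit 5) (nat_lit 9) (nat_lit 4) (nat_lit 368) (nat_lit 211) (nat_lit 201)) (XT.lf (nat_lit 0) (nat_lit 26412976591) (nat_lit 76) (nat_lit 5482603291) (nat_lit 76) (nat_lit 2645341067) (nat_lit 8) (nat_lit 4) (nat_lit 9) (nat_lit 5) (nat_lit 9) (nat_lit 4) (nat_lit 369) (nat_lit 211) (nat_lit 200)))) (XT.nd (nat_lit 78) (nat_lit 76) (nat_lit 0) (XT.lf (nat_lit 0) (nat_lit 318925583) (nat_lit 152) (nat_lit 2404917263) (nat_lit 76) (nat_lit 32753842803) (nat_lit 7) (nat_lit 5) (nat_lit 9) (nat_lit 5) (nat_lit 8) (nat_lit 4) (nat_lit 370) (nat_lit 211) (nat_lit 199)) (XT.nd (nat_lit 78) (nat_lit 0) (nat_lit 0) (XT.lf (nat_lit 0) (nat_lit 3296884792) (nat_lit 152) (nat_lit 33014848451) (nat_lit 0) (nat_lit 130723741) (nat_lit 6) (nat_lit 5) (nat_lit 8) (nat_lit 4) (nat_lit 6) (nat_lit 4) (nat_lit 371) (nat_lit 211) (nat_lit 198)) (XT.lf (nat_lit 0) (nat_lit 6359608558) (nat_lit 152)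 (nat_lit 28080102409) (nat_lit 0) (nat_lit 2996624354) (nat_lit 6) (nat_lit 5) (nat_lit 8) (nat_lit 4) (nat_lit 6) (nat_lit 4) (nat_lit 372) (nat_lit 211) (nat_lit 197))))))) (XT.nd (nat_lit 936) (nat_lit 152) (nat_lit 0) (XT.nd (nat_lit 468) (nat_lit 0) (nat_lit 0) (XT.nd (nat_lit 234) (nat_lit 76) (nat_lit 0) (XT.nd (nat_lit 78) (nat_lit 0) (nat_lit 0) (XT.lf (nat_lit 0) (nat_lit 9459778744) (nat_lit 152) (nat_lit 23096206086) (nat_lit 0) (nat_lit 5905704099) (nat_lit 6) (nat_lit 5) (nat_lit 8) (nat_lit 4) (nat_lit 6) (nat_lit 4) (nat_lit 373) (nat_lit 211) (nat_lit 196)) (XT.nd (nat_lit 78) (nat_lit 0) (nat_lit 0) (XT.lf (nat_lit 0) (nat_lit 12600104235) (nat_lit 152) (nat_lit 18058804621) (nat_lit 0) (nat_lit 8860504891) (nat_lit 6) (nat_lit 5) (nat_lit 8) (nat_lit 4) (nat_lit 6) (nat_lit 4) (nat_lit 374) (nat_lit 211) (nat_lit 195)) (XT.lf (nat_lit 0) (nat_lit 15783329005) (nat_lit 152) (nat_lit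 12963496400) (nat_lit 0) (nat_lit 11863608594) (nat_lit 6) (nat_lit 5) (nat_lit 8) (nat_lit 4) (nat_lit 6) (nat_lit 4) (nat_lit 375) (nat_lit 211) (nat_lit 194)))) (XT.nd (nat_lit 78) (nat_lit 76) (nat_lit 0) (XT.lf (nat_lit 0) (nat_lit 19012234513) (nat_lit 152) (nat_lit 7805829214) (nat_lit 0) (nat_lit 14917639279) (nat_lit 6) (nat_lit 5) (nat_lit 8) (nat_lit 4) (nat_lit 6) (nat_lit 4) (nat_lit 376) (nat_lit 211) (nat_lit 193)) (XT.nd (nat_lit 78) (nat_lit 76) (nat_lit 0) (XT.lf (nat_lit 0) (nat_lit 22289642132) (nat_lit 152) (nat_lit 2581296363) (nat_lit 0) (nat_lit 18025265517) (nat_lit 6) (nat_lit 5) (nat_lit 8) (nat_lit 4) (nat_lit 6) (nat_lit 4) (nat_lit 377) (nat_lit 211) (nat_lit 192)) (XT.lf (nat_lit 0) (nat_lit 2768694480) (nat_lit 76) (nat_lit 22876335521) (nat_lit 76) (nat_lit 18447122614) (nat_lit 5) (nat_lit 4) (nat_lit 6) (nat_lit 5) (nat_lit 6) (nat_lit 4) (nat_lit 378) (nat_lit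 211) (nat_lit 191))))) (XT.nd (nat_lit 234) (nat_lit 0) (nat_lit 0) (XT.nd (nat_lit 78) (nat_lit 0) (nat_lit 0) (XT.lf (nat_lit 0) (nat_lit 8247630226) (nat_lit 76) (nat_lit 20833114645) (nat_lit 76) (nat_lit 16243866503) (nat_lit 5) (nat_lit 4) (nat_lit 6) (nat_lit 5) (nat_lit 6) (nat_lit 4) (nat_lit 379) (nat_lit 211) (nat_lit 190)) (XT.nd (nat_lit 78) (nat_lit 0) (nat_lit 0) (XT.lf (nat_lit 0) (nat_lit 13808925433) (nat_lit 76) (nat_lit 18765556561) (nat_lit 76) (nat_lit 14020934404) (nat_lit 5) (nat_lit 4) (nat_lit 6) (nat_lit 5) (nat_lit 6) (nat_lit 4) (nat_lit 380) (nat_lit 211) (nat_lit 189)) (XT.lf (nat_lit 0) (nat_lit 19457439487) (nat_lit 76) (nat_lit 16671854665) (nat_lit 76) (nat_lit 11776383949) (nat_lit 5) (nat_lit 4) (nat_lit 6) (nat_lit 5) (nat_lit 6) (nat_lit 4) (nat_lit 381) (nat_lit 211) (nat_lit 188)))) (XT.nd (nat_lit 78) (nat_lit 0) (nat_lit 0) (XT.lf (nat_lit 0) (nat_lit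 25198107981) (nat_lit 76) (nat_lit 14550179508) (nat_lit 76) (nat_lit 9508253881) (nat_lit 5) (nat_lit 4) (nat_lit 6) (nat_lit 5) (nat_lit 6) (nat_lit 4) (nat_lit 382) (nat_lit 211) (nat_lit 187)) (XT.nd (nat_lit 78) (nat_lit 0) (nat_lit 0) (XT.lf (nat_lit 0) (nat_lit 31035947034) (nat_lit 76) (nat_lit 12398677199) (nat_lit 76) (nat_lit 7214562339) (nat_lit 5) (nat_lit 4) (nat_lit 6) (nat_lit 5) (nat_lit 6) (nat_lit 4) (nat_lit 383) (nat_lit 211) (nat_lit 186)) (XT.lf (nat_lit 0) (nat_lit 36976057670) (nat_lit 76) (nat_lit 10215467786) (nat_lit 76) (nat_lit 4893305125) (nat_lit 5) (nat_lit 4) (nat_lit 6) (nat_lit 5) (nat_lit 6) (nat_lit 4) (nat_lit 384) (nat_lit 211) (nat_lit 185)))))) (XT.nd (nat_lit 468) (nat_lit 0) (nat_lit 0) (XT.nd (nat_lit 234) (nat_lit 76) (nat_lit 0) (XT.nd (nat_lit 78) (nat_lit 76) (nat_lit 0) (XT.lf (nat_lit 0) (nat_lit 43023630278) (nat_lit 76) (nat_lit 7998643608)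 (nat_lit 76) (nat_lit 2542453958) (nat_lit 5) (nat_lit 4) (nat_lit 6) (nat_lit 5) (nat_lit 6) (nat_lit 4) (nat_lit 385) (nat_lit 211) (nat_lit 184)) (XT.nd (nat_lit 78) (nat_lit 76) (nat_lit 0) (XT.lf (nat_lit 0) (nat_lit 49183949143) (nat_lit 76) (nat_lit 5746267637) (nat_lit 76) (nat_lit 159954694) (nat_lit 5) (nat_lit 4) (nat_lit 6) (nat_lit 5) (nat_lit 6) (nat_lit 4) (nat_lit 386) (nat_lit 211) (nat_lit 183)) (XT.lf (nat_lit 0) (nat_lit 2212246418) (nat_lit 152) (nat_lit 1221786005) (nat_lit 76) (nat_lit 53227811300) (nat_lit 4) (nat_lit 5) (nat_lit 6) (nat_lit 5) (nat_lit 5) (nat_lit 4) (nat_lit 387) (nat_lit 211) (nat_lit 182)))) (XT.nd (nat_lit 78) (nat_lit 0) (nat_lit 0) (XT.lf (nat_lit 0) (nat_lit 3606506063) (nat_lit 76) (nat_lit 1044629887) (nat_lit 152) (nat_lit 53629536675) (nat_lit 3) (nat_lit 5) (nat_lit 4) (nat_lit 5) (nat_lit 5) (nat_lit 4) (nat_lit 388) (nat_lit 211) (nat_lit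 181)) (XT.nd (nat_lit 78) (nat_lit 0) (nat_lit 0) (XT.lf (nat_lit 0) (nat_lit 7153478685) (nat_lit 152) (nat_lit 51422368659) (nat_lit 0) (nat_lit 1372526101) (nat_lit 3) (nat_lit 5) (nat_lit 5) (nat_lit 4) (nat_lit 3) (nat_lit 4) (nat_lit 389) (nat_lit 211) (nat_lit 180)) (XT.lf (nat_lit 0) (nat_lit 9706487861) (nat_lit 152) (nat_lit 48147074950) (nat_lit 0) (nat_lit 3813289783) (nat_lit 3) (nat_lit 5) (nat_lit 5) (nat_lit 4) (nat_lit 3) (nat_lit 4) (nat_lit 390) (nat_lit 211) (nat_lit 179))))) (XT.nd (nat_lit 234) (nat_lit 0) (nat_lit 0) (XT.nd (nat_lit 78) (nat_lit 0) (nat_lit 0) (XT.lf (nat_lit 0) (nat_lit 12302352642) (nat_lit 152) (nat_lit 44835381908) (nat_lit 0) (nat_lit 6300178356) (nat_lit 3) (nat_lit 5) (nat_lit 5) (nat_lit 4) (nat_lit 3) (nat_lit 4) (nat_lit 391) (nat_lit 211) (nat_lit 178)) (XT.nd (nat_lit 78) (nat_lit 0) (nat_lit 0) (XT.lf (nat_lit 0) (nat_lit 14943341260) (nat_lit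 152) (nat_lit 41484395820) (nat_lit 0) (nat_lit 8835364830) (nat_lit 3) (nat_lit 5) (nat_lit 5) (nat_lit 4) (nat_lit 3) (nat_lit 4) (nat_lit 392) (nat_lit 211) (nat_lit 177)) (XT.lf (nat_lit 0) (nat_lit 17631761374) (nat_lit 152) (nat_lit 38091188640) (nat_lit 0) (nat_lit 11421064416) (nat_lit 3) (nat_lit 5) (nat_lit 5) (nat_lit 4) (nat_lit 3) (nat_lit 4) (nat_lit 393) (nat_lit 211) (nat_lit 176)))) (XT.nd (nat_lit 78) (nat_lit 0) (nat_lit 0) (XT.lf (nat_lit 0) (nat_lit 20369962089) (nat_lit 152) (nat_lit 34652795430) (nat_lit 0) (nat_lit 14059536463) (nat_lit 3) (nat_lit 5) (nat_lit 5) (nat_lit 4) (nat_lit 3) (nat_lit 4) (nat_lit 394) (nat_lit 211) (nat_lit 175)) (XT.nd (nat_lit 78) (nat_lit 0) (nat_lit 0) (XT.lf (nat_lit 0) (nat_lit 23160336008) (nat_lit 152) (nat_lit 31166211768) (nat_lit 0) (nat_lit 16753086433) (nat_lit 3) (nat_lit 5) (nat_lit 5) (nat_lit 4) (nat_lit 3) (nat_lit 4) (nat_lit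 395) (nat_lit 211) (nat_lit 174)) (XT.lf (nat_lit 0) (nat_lit 26005321322) (nat_lit 152) (nat_lit 27628391125) (nat_lit 0) (nat_lit 19504067912) (nat_lit 3) (nat_lit 5) (nat_lit 5) (nat_lit 4) (nat_lit 3) (nat_lit 4) (nat_lit 396) (nat_lit 211) (nat_lit 173))))))))
noncomputable def xc12 : XT := (XT.nd (nat_lit 38610) (nat_lit 0) (nat_lit 76) (XT.nd (nat_lit 37674) (nat_lit 0) (nat_lit 380) (XT.nd (nat_lit 390) (nat_lit 76) (nat_lit 0) (XT.nd (nat_lit 156) (nat_lit 0) (nat_lit 0) (XT.nd (nat_lit 78) (nat_lit 0) (nat_lit 0) (XT.lf (nat_lit 0) (nat_lit 28907403940) (nat_lit 152) (nat_lit 24036242201) (nat_lit 0) (nat_lit 22314884672) (nat_lit 3) (nat_lit 5) (nat_lit 5) (nat_lit 4) (nat_lit 3) (nat_lit 4) (nat_lit 397) (nat_lit 211) (nat_lit 172)) (XT.lf (nat_lit 0) (nat_lit 31869119662) (nat_lit 152) (nat_lit 20386626226) (nat_lit 0) (nat_lit 25187992764) (nat_lit 3) (nat_lit 5) (nat_lit 5) (nat_lit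 4) (nat_lit 3) (nat_lit 4) (nat_lit 398) (nat_lit 211) (nat_lit 171))) (XT.nd (nat_lit 78) (nat_lit 0) (nat_lit 0) (XT.lf (nat_lit 0) (nat_lit 34893056396) (nat_lit 152) (nat_lit 16676354214) (nat_lit 0) (nat_lit 28125902673) (nat_lit 3) (nat_lit 5) (nat_lit 5) (nat_lit 4) (nat_lit 3) (nat_lit 4) (nat_lit 399) (nat_lit 211) (nat_lit 170)) (XT.nd (nat_lit 78) (nat_lit 0) (nat_lit 0) (XT.lf (nat_lit 0) (nat_lit 37981856416) (nat_lit 152) (nat_lit 12902184181) (nat_lit 0) (nat_lit 31131181504) (nat_lit 3) (nat_lit 5) (nat_lit 5) (nat_lit 4) (nat_lit 3) (nat_lit 4) (nat_lit 400) (nat_lit 211) (nat_lit 169)) (XT.lf (nat_lit 0) (nat_lit 41138218674) (nat_lit 152) (nat_lit 9060818308) (nat_lit 0) (nat_lit 34206455229) (nat_lit 3) (nat_lit 5) (nat_lit 5) (nat_lit 4) (nat_lit 3) (nat_lit 4) (nat_lit 401) (nat_lit 211) (nat_lit 168))))) (XT.nd (nat_lit 37050) (nat_lit 0) (nat_lit 684) (XT.nd (nat_lit 78)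 (nat_lit 76) (nat_lit 0) (XT.lf (nat_lit 0) (nat_lit 44364901156) (nat_lit 152) (nat_lit 5148900062) (nat_lit 0) (nat_lit 37354410979) (nat_lit 3) (nat_lit 5) (nat_lit 5) (nat_lit 4) (nat_lit 3) (nat_lit 4) (nat_lit 402) (nat_lit 211) (nat_lit 167)) (XT.nd (nat_lit 78) (nat_lit 76) (nat_lit 0) (XT.lf (nat_lit 0) (nat_lit 47664723293) (nat_lit 152) (nat_lit 1163011261) (nat_lit 0) (nat_lit 40577799397) (nat_lit 3) (nat_lit 5) (nat_lit 5) (nat_lit 4) (nat_lit 3) (nat_lit 4) (nat_lit 403) (nat_lit 211) (nat_lit 166)) (XT.lf (nat_lit 0) (nat_lit 2958053180) (nat_lit 76) (nat_lit 48110949862) (nat_lit 76) (nat_lit 40949818471) (nat_lit 2) (nat_lit 4) (nat_lit 3) (nat_lit 5) (nat_lit 3) (nat_lit 4) (nat_lit 404) (nat_lit 211) (nat_lit 165)))) (XT.nd (nat_lit 78) (nat_lit 76) (nat_lit 0) (XT.lf (nat_lit 0) (nat_lit 5464975866) (nat_lit 152) (nat_lit 1420315998) (nat_lit 0) (nat_lit 5464975866) (nat_lit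 12) (nat_lit 5) (nat_lit 14) (nat_lit 4) (nat_lit 12) (nat_lit 4) (nat_lit 356) (nat_lit 212) (nat_lit 212)) (XT.nd (nat_lit 78) (nat_lit 0) (nat_lit 0) (XT.lf (nat_lit 0) (nat_lit 3970313182) (nat_lit 76) (nat_lit 10834384504) (nat_lit 76) (nat_lit 10518541122) (nat_lit 11) (nat_lit 4) (nat_lit 12) (nat_lit 5) (nat_lit 12) (nat_lit 4) (nat_lit 357) (nat_lit 212) (nat_lit 211)) (XT.lf (nat_lit 0) (nat_lit 10909442051) (nat_lit 76) (nat_lit 7839555401) (nat_lit 76) (nat_lit 7217067959) (nat_lit 11) (nat_lit 4) (nat_lit 12) (nat_lit 5) (nat_lit 12) (nat_lit 4) (nat_lit 358) (nat_lit 212) (nat_lit 210)))))) (XT.nd (nat_lit 468) (nat_lit 152) (nat_lit 0) (XT.nd (nat_lit 234) (nat_lit 0) (nat_lit 0) (XT.nd (nat_lit 78) (nat_lit 152) (nat_lit 0) (XT.lf (nat_lit 0) (nat_lit 17926283778) (nat_lit 76) (nat_lit 4812164394) (nat_lit 76) (nat_lit 3891964272) (nat_lit 11) (nat_lit 4) (nat_lit 12) (nat_lit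 5) (nat_lit 12) (nat_lit 4) (nat_lit 359) (nat_lit 212) (nat_lit 209)) (XT.nd (nat_lit 78) (nat_lit 152) (nat_lit 0) (XT.lf (nat_lit 0) (nat_lit 25026969584) (nat_lit 76) (nat_lit 1749566189) (nat_lit 76) (nat_lit 540324631) (nat_lit 11) (nat_lit 4) (nat_lit 12) (nat_lit 5) (nat_lit 12) (nat_lit 4) (nat_lit 360) (nat_lit 212) (nat_lit 208)) (XT.lf (nat_lit 0) (nat_lit 2839833493) (nat_lit 152) (nat_lit 23790358466) (nat_lit 0) (nat_lit 1393363287) (nat_lit 9) (nat_lit 5) (nat_lit 11) (nat_lit 4) (nat_lit 9) (nat_lit 4) (nat_lit 361) (nat_lit 212) (nat_lit 207)))) (XT.nd (nat_lit 78) (nat_lit 0) (nat_lit 0) (XT.lf (nat_lit 0) (nat_lit 6281837434) (nat_lit 152) (nat_lit 17899496408) (nat_lit 0) (nat_lit 4570853368) (nat_lit 9) (nat_lit 5) (nat_lit 11) (nat_lit 4) (nat_lit 9) (nat_lit 4) (nat_lit 362) (nat_lit 212) (nat_lit 206)) (XT.nd (nat_lit 78) (nat_lit 0) (nat_lit 0) (XT.lf (nat_lit 0) (nat_lit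 9759748359) (nat_lit 152) (nat_lit 11953030401) (nat_lit 0) (nat_lit 7791954720) (nat_lit 9) (nat_lit 5) (nat_lit 11) (nat_lit 4) (nat_lit 9) (nat_lit 4) (nat_lit 363) (nat_lit 212) (nat_lit 205)) (XT.lf (nat_lit 0) (nat_lit 13276605220) (nat_lit 152) (nat_lit 5945764504) (nat_lit 0) (nat_lit 11059481899) (nat_lit 9) (nat_lit 5) (nat_lit 11) (nat_lit 4) (nat_lit 9) (nat_lit 4) (nat_lit 364) (nat_lit 212) (nat_lit 204))))) (XT.nd (nat_lit 234) (nat_lit 76) (nat_lit 0) (XT.nd (nat_lit 78) (nat_lit 0) (nat_lit 0) (XT.lf (nat_lit 0) (nat_lit 130088850) (nat_lit 76) (nat_lit 16706642640) (nat_lit 76) (nat_lit 14247451667) (nat_lit 8) (nat_lit 4) (nat_lit 9) (nat_lit 5) (nat_lit 9) (nat_lit 4) (nat_lit 365) (nat_lit 212) (nat_lit 203)) (XT.nd (nat_lit 78) (nat_lit 0) (nat_lit 0) (XT.lf (nat_lit 0) (nat_lit 6397050434) (nat_lit 76) (nat_lit 14103927319) (nat_lit 76) (nat_lit 11409719207) (nat_lit 8)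 (nat_lit 4) (nat_lit 9) (nat_lit 5) (nat_lit 9) (nat_lit 4) (nat_lit 366) (nat_lit 212) (nat_lit 202)) (XT.lf (nat_lit 0) (nat_lit 12742263859) (nat_lit 76) (nat_lit 11471990104) (nat_lit 76) (nat_lit 8549610013) (nat_lit 8) (nat_lit 4) (nat_lit 9) (nat_lit 5) (nat_lit 9) (nat_lit 4) (nat_lit 367) (nat_lit 212) (nat_lit 201)))) (XT.nd (nat_lit 78) (nat_lit 76) (nat_lit 0) (XT.lf (nat_lit 0) (nat_lit 19171273488) (nat_lit 76) (nat_lit 8808531247) (nat_lit 76) (nat_lit 5664624962) (nat_lit 8) (nat_lit 4) (nat_lit 9) (nat_lit 5) (nat_lit 9) (nat_lit 4) (nat_lit 368) (nat_lit 212) (nat_lit 200)) (XT.nd (nat_lit 78) (nat_lit 76) (nat_lit 0) (XT.lf (nat_lit 0) (nat_lit 25689696900) (nat_lit 76) (nat_lit 6111223452) (nat_lit 76) (nat_lit 2752243193) (nat_lit 8) (nat_lit 4) (nat_lit 9) (nat_lit 5) (nat_lit 9) (nat_lit 4) (nat_lit 369) (nat_lit 212) (nat_lit 199)) (XT.lf (nat_lit 0) (nat_lit 186370946)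 (nat_lit 152) (nat_lit 3189456921) (nat_lit 76) (nat_lit 32114976880) (nat_lit 7) (nat_lit 5) (nat_lit 9) (nat_lit 5) (nat_lit 8) (nat_lit 4) (nat_lit 370) (nat_lit 212) (nat_lit 198))))))) (XT.nd (nat_lit 936) (nat_lit 152) (nat_lit 0) (XT.nd (nat_lit 468) (nat_lit 76) (nat_lit 0) (XT.nd (nat_lit 234) (nat_lit 0) (nat_lit 0) (XT.nd (nat_lit 78) (nat_lit 0) (nat_lit 0) (XT.lf (nat_lit 0) (nat_lit 2579220708) (nat_lit 76) (nat_lit 548729290) (nat_lit 152) (nat_lit 33328730609) (nat_lit 6) (nat_lit 5) (nat_lit 7) (nat_lit 5) (nat_lit 8) (nat_lit 4) (nat_lit 371) (nat_lit 212) (nat_lit 197)) (XT.nd (nat_lit 78) (nat_lit 0) (nat_lit 0) (XT.lf (nat_lit 0) (nat_lit 6158583628) (nat_lit 152) (nat_lit 28986154456) (nat_lit 0) (nat_lit 2306796304) (nat_lit 6) (nat_lit 5) (nat_lit 8) (nat_lit 4) (nat_lit 6) (nat_lit 4) (nat_lit 372) (nat_lit 212) (nat_lit 196)) (XT.lf (nat_lit 0) (nat_lit 9232719429) (nat_lit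 152) (nat_lit 24049554560) (nat_lit 0) (nat_lit 5195407406) (nat_lit 6) (nat_lit 5) (nat_lit 8) (nat_lit 4) (nat_lit 6) (nat_lit 4) (nat_lit 373) (nat_lit 212) (nat_lit 195)))) (XT.nd (nat_lit 78) (nat_lit 0) (nat_lit 0) (XT.lf (nat_lit 0) (nat_lit 12347768819) (nat_lit 152) (nat_lit 19058071957) (nat_lit 0) (nat_lit 8130335728) (nat_lit 6) (nat_lit 5) (nat_lit 8) (nat_lit 4) (nat_lit 6) (nat_lit 4) (nat_lit 374) (nat_lit 212) (nat_lit 194)) (XT.nd (nat_lit 78) (nat_lit 0) (nat_lit 0) (XT.lf (nat_lit 0) (nat_lit 15506453685) (nat_lit 152) (nat_lit 14007345155) (nat_lit 0) (nat_lit 11114145772) (nat_lit 6) (nat_lit 5) (nat_lit 8) (nat_lit 4) (nat_lit 6) (nat_lit 4) (nat_lit 375) (nat_lit 212) (nat_lit 193)) (XT.lf (nat_lit 0) (nat_lit 18711534043) (nat_lit 152) (nat_lit 8892960901) (nat_lit 0) (nat_lit 14149444749) (nat_lit 6) (nat_lit 5) (nat_lit 8) (nat_lit 4) (nat_lit 6) (nat_lit 4) (nat_lit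 376) (nat_lit 212) (nat_lit 192))))) (XT.nd (nat_lit 234) (nat_lit 0) (nat_lit 0) (XT.nd (nat_lit 78) (nat_lit 76) (nat_lit 0) (XT.lf (nat_lit 0) (nat_lit 21965810449) (nat_lit 152) (nat_lit 3710450312) (nat_lit 0) (nat_lit 17238884862) (nat_lit 6) (nat_lit 5) (nat_lit 8) (nat_lit 4) (nat_lit 6) (nat_lit 4) (nat_lit 377) (nat_lit 212) (nat_lit 191)) (XT.nd (nat_lit 78) (nat_lit 0) (nat_lit 0) (XT.lf (nat_lit 0) (nat_lit 1575457873) (nat_lit 76) (nat_lit 23711812837) (nat_lit 76) (nat_lit 18824852014) (nat_lit 5) (nat_lit 4) (nat_lit 6) (nat_lit 5) (nat_lit 6) (nat_lit 4) (nat_lit 378) (nat_lit 212) (nat_lit 190)) (XT.lf (nat_lit 0) (nat_lit 7013995289) (nat_lit 76) (nat_lit 21686798571) (nat_lit 76) (nat_lit 16644463734) (nat_lit 5) (nat_lit 4) (nat_lit 6) (nat_lit 5) (nat_lit 6) (nat_lit 4) (nat_lit 379) (nat_lit 212) (nat_lit 189)))) (XT.nd (nat_lit 78) (nat_lit 0) (nat_lit 0) (XT.lf (nat_lit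 0) (nat_lit 12536068816) (nat_lit 76) (nat_lit 19636916807) (nat_lit 76) (nat_lit 14443733412) (nat_lit 5) (nat_lit 4) (nat_lit 6) (nat_lit 5) (nat_lit 6) (nat_lit 4) (nat_lit 380) (nat_lit 212) (nat_lit 188)) (XT.nd (nat_lit 78) (nat_lit 0) (nat_lit 0) (XT.lf (nat_lit 0) (nat_lit 18146503568) (nat_lit 76) (nat_lit 17560376387) (nat_lit 76) (nat_lit 12220738080) (nat_lit 5) (nat_lit 4) (nat_lit 6) (nat_lit 5) (nat_lit 6) (nat_lit 4) (nat_lit 381) (nat_lit 212) (nat_lit 187)) (XT.lf (nat_lit 0) (nat_lit 23850201868) (nat_lit 76) (nat_lit 15455362857) (nat_lit 76) (nat_lit 9973535317) (nat_lit 5) (nat_lit 4) (nat_lit 6) (nat_lit 5) (nat_lit 6) (nat_lit 4) (nat_lit 382) (nat_lit 212) (nat_lit 186)))))) (XT.nd (nat_lit 468) (nat_lit 0) (nat_lit 0) (XT.nd (nat_lit 234) (nat_lit 152) (nat_lit 0) (XT.nd (nat_lit 78) (nat_lit 0) (nat_lit 0) (XT.lf (nat_lit 0) (nat_lit 29652147527) (nat_lit 76) (nat_lit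 13320036885) (nat_lit 76) (nat_lit 7700161545) (nat_lit 5) (nat_lit 4) (nat_lit 6) (nat_lit 5) (nat_lit 6) (nat_lit 4) (nat_lit 383) (nat_lit 212) (nat_lit 185)) (XT.nd (nat_lit 78) (nat_lit 0) (nat_lit 0) (XT.lf (nat_lit 0) (nat_lit 35557410209) (nat_lit 76) (nat_lit 11152532653) (nat_lit 76) (nat_lit 5398630323) (nat_lit 5) (nat_lit 4) (nat_lit 6) (nat_lit 5) (nat_lit 6) (nat_lit 4) (nat_lit 384) (nat_lit 212) (nat_lit 184)) (XT.lf (nat_lit 0) (nat_lit 41571149851) (nat_lit 76) (nat_lit 8950956225) (nat_lit 76) (nat_lit 3066930603) (nat_lit 5) (nat_lit 4) (nat_lit 6) (nat_lit 5) (nat_lit 6) (nat_lit 4) (nat_lit 385) (nat_lit 212) (nat_lit 183)))) (XT.nd (nat_lit 78) (nat_lit 152) (nat_lit 0) (XT.lf (nat_lit 0) (nat_lit 47698621177) (nat_lit 76) (nat_lit 6713383893) (nat_lit 76) (nat_lit 703024979) (nat_lit 5) (nat_lit 4) (nat_lit 6) (nat_lit 5) (nat_lit 6) (nat_lit 4) (nat_lit 386) (nat_lit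 212) (nat_lit 182)) (XT.nd (nat_lit 78) (nat_lit 76) (nat_lit 0) (XT.lf (nat_lit 0) (nat_lit 1662073575) (nat_lit 152) (nat_lit 2759003237) (nat_lit 76) (nat_lit 52266321029) (nat_lit 4) (nat_lit 5) (nat_lit 6) (nat_lit 5) (nat_lit 5) (nat_lit 4) (nat_lit 387) (nat_lit 212) (nat_lit 181)) (XT.lf (nat_lit 0) (nat_lit 2006760366) (nat_lit 76) (nat_lit 2061640721) (nat_lit 152) (nat_lit 54238810224) (nat_lit 3) (nat_lit 5) (nat_lit 4) (nat_lit 5) (nat_lit 5) (nat_lit 4) (nat_lit 388) (nat_lit 212) (nat_lit 180))))) (XT.nd (nat_lit 234) (nat_lit 0) (nat_lit 0) (XT.nd (nat_lit 78) (nat_lit 0) (nat_lit 0) (XT.lf (nat_lit 0) (nat_lit 6543851085) (nat_lit 152) (nat_lit 53070263740) (nat_lit 0) (nat_lit 361611570) (nat_lit 3) (nat_lit 5) (nat_lit 5) (nat_lit 4) (nat_lit 3) (nat_lit 4) (nat_lit 389) (nat_lit 212) (nat_lit 179)) (XT.nd (nat_lit 78) (nat_lit 0) (nat_lit 0) (XT.lf (nat_lit 0) (nat_lit 9080242197)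 (nat_lit 152) (nat_lit 49825442681) (nat_lit 0) (nat_lit 2789026474) (nat_lit 3) (nat_lit 5) (nat_lit 5) (nat_lit 4) (nat_lit 3) (nat_lit 4) (nat_lit 390) (nat_lit 212) (nat_lit 178)) (XT.lf (nat_lit 0) (nat_lit 11659972935) (nat_lit 152) (nat_lit 46543334735) (nat_lit 0) (nat_lit 5262955069) (nat_lit 3) (nat_lit 5) (nat_lit 5) (nat_lit 4) (nat_lit 3) (nat_lit 4) (nat_lit 391) (nat_lit 212) (nat_lit 177)))) (XT.nd (nat_lit 78) (nat_lit 0) (nat_lit 0) (XT.lf (nat_lit 0) (nat_lit 14285297433) (nat_lit 152) (nat_lit 43221072041) (nat_lit 0) (nat_lit 7785559039) (nat_lit 3) (nat_lit 5) (nat_lit 5) (nat_lit 4) (nat_lit 3) (nat_lit 4) (nat_lit 392) (nat_lit 212) (nat_lit 176)) (XT.nd (nat_lit 78) (nat_lit 0) (nat_lit 0) (XT.lf (nat_lit 0) (nat_lit 16958509665) (nat_lit 152) (nat_lit 39855751652) (nat_lit 0) (nat_lit 10359042602) (nat_lit 3) (nat_lit 5) (nat_lit 5) (nat_lit 4) (nat_lit 3) (nat_lit 4)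 (nat_lit 393) (nat_lit 212) (nat_lit 175)) (XT.lf (nat_lit 0) (nat_lit 19681945445) (nat_lit 152) (nat_lit 36444432996) (nat_lit 0) (nat_lit 12985654433) (nat_lit 3) (nat_lit 5) (nat_lit 5) (nat_lit 4) (nat_lit 3) (nat_lit 4) (nat_lit 394) (nat_lit 212) (nat_lit 174))))))))
noncomputable def xc13 : XT := (XT.nd (nat_lit 38532) (nat_lit 0) (nat_lit 76) (XT.nd (nat_lit 37596) (nat_lit 0) (nat_lit 456) (XT.nd (nat_lit 468) (nat_lit 76) (nat_lit 0) (XT.nd (nat_lit 234) (nat_lit 0) (nat_lit 0) (XT.nd (nat_lit 78) (nat_lit 0) (nat_lit 0) (XT.lf (nat_lit 0) (nat_lit 22457984476) (nat_lit 152) (nat_lit 32984135309) (nat_lit 0) (nat_lit 15667689630) (nat_lit 3) (nat_lit 5) (nat_lit 5) (nat_lit 4) (nat_lit 3) (nat_lit 4) (nat_lit 395) (nat_lit 212) (nat_lit 173)) (XT.nd (nat_lit 78) (nat_lit 0) (nat_lit 0) (XT.lf (nat_lit 0) (nat_lit 25289052423) (nat_lit 152) (nat_lit 29471835029) (nat_lit 0) (nat_lit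 18407491718) (nat_lit 3) (nat_lit 5) (nat_lit 5) (nat_lit 4) (nat_lit 3) (nat_lit 4) (nat_lit 396) (nat_lit 212) (nat_lit 172)) (XT.lf (nat_lit 0) (nat_lit 28177623033) (nat_lit 152) (nat_lit 25904463158) (nat_lit 0) (nat_lit 21207454699) (nat_lit 3) (nat_lit 5) (nat_lit 5) (nat_lit 4) (nat_lit 3) (nat_lit 4) (nat_lit 397) (nat_lit 212) (nat_lit 171)))) (XT.nd (nat_lit 78) (nat_lit 0) (nat_lit 0) (XT.lf (nat_lit 0) (nat_lit 31126220303) (nat_lit 152) (nat_lit 22278902574) (nat_lit 0) (nat_lit 24070025143) (nat_lit 3) (nat_lit 5) (nat_lit 5) (nat_lit 4) (nat_lit 3) (nat_lit 4) (nat_lit 398) (nat_lit 212) (nat_lit 170)) (XT.nd (nat_lit 78) (nat_lit 0) (nat_lit 0) (XT.lf (nat_lit 0) (nat_lit 34137420674) (nat_lit 152) (nat_lit 18591985310) (nat_lit 0) (nat_lit 26997704326) (nat_lit 3) (nat_lit 5) (nat_lit 5) (nat_lit 4) (nat_lit 3) (nat_lit 4) (nat_lit 399) (nat_lit 212) (nat_lit 169)) (XT.lf (nat_lit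 0) (nat_lit 37213855294) (nat_lit 152) (nat_lit 14840489790) (nat_lit 0) (nat_lit 29993050412) (nat_lit 3) (nat_lit 5) (nat_lit 5) (nat_lit 4) (nat_lit 3) (nat_lit 4) (nat_lit 400) (nat_lit 212) (nat_lit 168))))) (XT.nd (nat_lit 234) (nat_lit 76) (nat_lit 0) (XT.nd (nat_lit 78) (nat_lit 0) (nat_lit 0) (XT.lf (nat_lit 0) (nat_lit 40358212308) (nat_lit 152) (nat_lit 11021138007) (nat_lit 0) (nat_lit 33058680696) (nat_lit 3) (nat_lit 5) (nat_lit 5) (nat_lit 4) (nat_lit 3) (nat_lit 4) (nat_lit 401) (nat_lit 212) (nat_lit 167)) (XT.nd (nat_lit 78) (nat_lit 0) (nat_lit 0) (XT.lf (nat_lit 0) (nat_lit 43573239214) (nat_lit 152) (nat_lit 7130592664) (nat_lit 0) (nat_lit 36197273882) (nat_lit 3) (nat_lit 5) (nat_lit 5) (nat_lit 4) (nat_lit 3) (nat_lit 4) (nat_lit 402) (nat_lit 212) (nat_lit 166)) (XT.lf (nat_lit 0) (nat_lit 46861745259) (nat_lit 152) (nat_lit 3165454254) (nat_lit 0) (nat_lit 39411572432)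 (nat_lit 3) (nat_lit 5) (nat_lit 5) (nat_lit 4) (nat_lit 3) (nat_lit 4) (nat_lit 403) (nat_lit 212) (nat_lit 165)))) (XT.nd (nat_lit 36738) (nat_lit 0) (nat_lit 760) (XT.lf (nat_lit 0) (nat_lit 895210690) (nat_lit 76) (nat_lit 49339998516) (nat_lit 76) (nat_lit 41817779577) (nat_lit 2) (nat_lit 4) (nat_lit 3) (nat_lit 5) (nat_lit 3) (nat_lit 4) (nat_lit 404) (nat_lit 212) (nat_lit 164)) (XT.nd (nat_lit 78) (nat_lit 0) (nat_lit 0) (XT.lf (nat_lit 0) (nat_lit 1865247638) (nat_lit 152) (nat_lit 8025720378) (nat_lit 0) (nat_lit 1865247638) (nat_lit 12) (nat_lit 5) (nat_lit 14) (nat_lit 4) (nat_lit 12) (nat_lit 4) (nat_lit 354) (nat_lit 213) (nat_lit 213)) (XT.lf (nat_lit 0) (nat_lit 7456352928) (nat_lit 152) (nat_lit 9509734279) (nat_lit 0) (nat_lit 7131034245) (nat_lit 12) (nat_lit 5) (nat_lit 14) (nat_lit 4) (nat_lit 12) (nat_lit 4) (nat_lit 355) (nat_lit 213) (nat_lit 212)))))) (XT.nd (nat_lit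 468) (nat_lit 76) (nat_lit 0) (XT.nd (nat_lit 234) (nat_lit 152) (nat_lit 0) (XT.nd (nat_lit 78) (nat_lit 76) (nat_lit 0) (XT.lf (nat_lit 0) (nat_lit 11217682171) (nat_lit 152) (nat_lit 2907481889) (nat_lit 0) (nat_lit 10576520106) (nat_lit 12) (nat_lit 5) (nat_lit 14) (nat_lit 4) (nat_lit 12) (nat_lit 4) (nat_lit 356) (nat_lit 213) (nat_lit 211)) (XT.nd (nat_lit 78) (nat_lit 0) (nat_lit 0) (XT.lf (nat_lit 0) (nat_lit 3835938344) (nat_lit 76) (nat_lit 11218704645) (nat_lit 76) (nat_lit 10270898520) (nat_lit 11) (nat_lit 4) (nat_lit 12) (nat_lit 5) (nat_lit 12) (nat_lit 4) (nat_lit 357) (nat_lit 213) (nat_lit 210)) (XT.lf (nat_lit 0) (nat_lit 10710800707) (nat_lit 76) (nat_lit 8252093753) (nat_lit 76) (nat_lit 7006574948) (nat_lit 11) (nat_lit 4) (nat_lit 12) (nat_lit 5) (nat_lit 12) (nat_lit 4) (nat_lit 358) (nat_lit 213) (nat_lit 209)))) (XT.nd (nat_lit 78) (nat_lit 152) (nat_lit 0) (XT.lf (nat_lit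 0) (nat_lit 17665247768) (nat_lit 76) (nat_lit 5252099067) (nat_lit 76) (nat_lit 3717538826) (nat_lit 11) (nat_lit 4) (nat_lit 12) (nat_lit 5) (nat_lit 12) (nat_lit 4) (nat_lit 359) (nat_lit 213) (nat_lit 208)) (XT.nd (nat_lit 78) (nat_lit 152) (nat_lit 0) (XT.lf (nat_lit 0) (nat_lit 24705356228) (nat_lit 76) (nat_lit 2216099232) (nat_lit 76) (nat_lit 400916237) (nat_lit 11) (nat_lit 4) (nat_lit 12) (nat_lit 5) (nat_lit 12) (nat_lit 4) (nat_lit 360) (nat_lit 213) (nat_lit 207)) (XT.lf (nat_lit 0) (nat_lit 2934623818) (nat_lit 152) (nat_lit 24187880716) (nat_lit 0) (nat_lit 907796370) (nat_lit 9) (nat_lit 5) (nat_lit 11) (nat_lit 4) (nat_lit 9) (nat_lit 4) (nat_lit 361) (nat_lit 213) (nat_lit 206))))) (XT.nd (nat_lit 234) (nat_lit 76) (nat_lit 0) (XT.nd (nat_lit 78) (nat_lit 0) (nat_lit 0) (XT.lf (nat_lit 0) (nat_lit 6343448875) (nat_lit 152) (nat_lit 18356684625) (nat_lit 0) (nat_lit 4059811855)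 (nat_lit 9) (nat_lit 5) (nat_lit 11) (nat_lit 4) (nat_lit 9) (nat_lit 4) (nat_lit 362) (nat_lit 213) (nat_lit 205)) (XT.nd (nat_lit 78) (nat_lit 0) (nat_lit 0) (XT.lf (nat_lit 0) (nat_lit 9789147292) (nat_lit 152) (nat_lit 12468146741) (nat_lit 0) (nat_lit 7256180589) (nat_lit 9) (nat_lit 5) (nat_lit 11) (nat_lit 4) (nat_lit 9) (nat_lit 4) (nat_lit 363) (nat_lit 213) (nat_lit 204)) (XT.lf (nat_lit 0) (nat_lit 13274729872) (nat_lit 152) (nat_lit 6517121741) (nat_lit 0) (nat_lit 10499695517) (nat_lit 9) (nat_lit 5) (nat_lit 11) (nat_lit 4) (nat_lit 9) (nat_lit 4) (nat_lit 364) (nat_lit 213) (nat_lit 203)))) (XT.nd (nat_lit 78) (nat_lit 76) (nat_lit 0) (XT.lf (nat_lit 0) (nat_lit 16803242272) (nat_lit 152) (nat_lit 498409700) (nat_lit 0) (nat_lit 13793190778) (nat_lit 9) (nat_lit 5) (nat_lit 11) (nat_lit 4) (nat_lit 9) (nat_lit 4) (nat_lit 365) (nat_lit 213) (nat_lit 202)) (XT.nd (nat_lit 78) (nat_lit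 0) (nat_lit 0) (XT.lf (nat_lit 0) (nat_lit 5704565062) (nat_lit 76) (nat_lit 14728038363) (nat_lit 76) (nat_lit 11489814890) (nat_lit 8) (nat_lit 4) (nat_lit 9) (nat_lit 5) (nat_lit 9) (nat_lit 4) (nat_lit 366) (nat_lit 213) (nat_lit 201)) (XT.lf (nat_lit 0) (nat_lit 11997285778) (nat_lit 76) (nat_lit 12119468870) (nat_lit 76) (nat_lit 8659719203) (nat_lit 8) (nat_lit 4) (nat_lit 9) (nat_lit 5) (nat_lit 9) (nat_lit 4) (nat_lit 367) (nat_lit 213) (nat_lit 200))))))) (XT.nd (nat_lit 936) (nat_lit 152) (nat_lit 0) (XT.nd (nat_lit 468) (nat_lit 76) (nat_lit 0) (XT.nd (nat_lit 234) (nat_lit 152) (nat_lit 0) (XT.nd (nat_lit 78) (nat_lit 0) (nat_lit 0) (XT.lf (nat_lit 0) (nat_lit 18375331611) (nat_lit 76) (nat_lit 9478697120) (nat_lit 76) (nat_lit 5803873479) (nat_lit 8) (nat_lit 4) (nat_lit 9) (nat_lit 5) (nat_lit 9) (nat_lit 4) (nat_lit 368) (nat_lit 213) (nat_lit 199)) (XT.nd (nat_lit 78) (nat_lit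 0) (nat_lit 0) (XT.lf (nat_lit 0) (nat_lit 24844275611) (nat_lit 76) (nat_lit 6803415643) (nat_lit 76) (nat_lit 2919782319) (nat_lit 8) (nat_lit 4) (nat_lit 9) (nat_lit 5) (nat_lit 9) (nat_lit 4) (nat_lit 369) (nat_lit 213) (nat_lit 198)) (XT.lf (nat_lit 0) (nat_lit 31409770253) (nat_lit 76) (nat_lit 4091286814) (nat_lit 76) (nat_lit 4925642) (nat_lit 8) (nat_lit 4) (nat_lit 9) (nat_lit 5) (nat_lit 9) (nat_lit 4) (nat_lit 370) (nat_lit 213) (nat_lit 197)))) (XT.nd (nat_lit 78) (nat_lit 0) (nat_lit 0) (XT.lf (nat_lit 0) (nat_lit 1606356238) (nat_lit 76) (nat_lit 1294895270) (nat_lit 152) (nat_lit 33571686161) (nat_lit 6) (nat_lit 5) (nat_lit 7) (nat_lit 5) (nat_lit 8) (nat_lit 4) (nat_lit 371) (nat_lit 213) (nat_lit 196)) (XT.nd (nat_lit 78) (nat_lit 0) (nat_lit 0) (XT.lf (nat_lit 0) (nat_lit 5898678150) (nat_lit 152) (nat_lit 30015399812) (nat_lit 0) (nat_lit 1554722067) (nat_lit 6) (nat_lit 5)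 (nat_lit 8) (nat_lit 4) (nat_lit 6) (nat_lit 4) (nat_lit 372) (nat_lit 213) (nat_lit 195)) (XT.lf (nat_lit 0) (nat_lit 8947537850) (nat_lit 152) (nat_lit 25124718778) (nat_lit 0) (nat_lit 4423460699) (nat_lit 6) (nat_lit 5) (nat_lit 8) (nat_lit 4) (nat_lit 6) (nat_lit 4) (nat_lit 373) (nat_lit 213) (nat_lit 194))))) (XT.nd (nat_lit 234) (nat_lit 76) (nat_lit 0) (XT.nd (nat_lit 78) (nat_lit 0) (nat_lit 0) (XT.lf (nat_lit 0) (nat_lit 12038047336) (nat_lit 152) (nat_lit 20177817593) (nat_lit 0) (nat_lit 7339095362) (nat_lit 6) (nat_lit 5) (nat_lit 8) (nat_lit 4) (nat_lit 6) (nat_lit 4) (nat_lit 374) (nat_lit 213) (nat_lit 193)) (XT.nd (nat_lit 78) (nat_lit 0) (nat_lit 0) (XT.lf (nat_lit 0) (nat_lit 15172907052) (nat_lit 152) (nat_lit 15170373723) (nat_lit 0) (nat_lit 10304173697) (nat_lit 6) (nat_lit 5) (nat_lit 8) (nat_lit 4) (nat_lit 6) (nat_lit 4) (nat_lit 375) (nat_lit 213) (nat_lit 192)) (XT.lf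 (nat_lit 0) (nat_lit 18354856197) (nat_lit 152) (nat_lit 10098011732) (nat_lit 0) (nat_lit 13321286550) (nat_lit 6) (nat_lit 5) (nat_lit 8) (nat_lit 4) (nat_lit 6) (nat_lit 4) (nat_lit 376) (nat_lit 213) (nat_lit 191)))) (XT.nd (nat_lit 78) (nat_lit 76) (nat_lit 0) (XT.lf (nat_lit 0) (nat_lit 21586675114) (nat_lit 152) (nat_lit 4956299457) (nat_lit 0) (nat_lit 16393070232) (nat_lit 6) (nat_lit 5) (nat_lit 8) (nat_lit 4) (nat_lit 6) (nat_lit 4) (nat_lit 377) (nat_lit 213) (nat_lit 190)) (XT.nd (nat_lit 78) (nat_lit 0) (nat_lit 0) (XT.lf (nat_lit 0) (nat_lit 264415557) (nat_lit 76) (nat_lit 24609313890) (nat_lit 76) (nat_lit 19260334993) (nat_lit 5) (nat_lit 4) (nat_lit 6) (nat_lit 5) (nat_lit 6) (nat_lit 4) (nat_lit 378) (nat_lit 213) (nat_lit 189)) (XT.lf (nat_lit 0) (nat_lit 5663731293) (nat_lit 76) (nat_lit 22601975944) (nat_lit 76) (nat_lit 17102148489) (nat_lit 5) (nat_lit 4) (nat_lit 6) (nat_lit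 5) (nat_lit 6) (nat_lit 4) (nat_lit 379) (nat_lit 213) (nat_lit 188)))))) (XT.nd (nat_lit 468) (nat_lit 152) (nat_lit 0) (XT.nd (nat_lit 234) (nat_lit 0) (nat_lit 0) (XT.nd (nat_lit 78) (nat_lit 0) (nat_lit 0) (XT.lf (nat_lit 0) (nat_lit 11147725519) (nat_lit 76) (nat_lit 20569255657) (nat_lit 76) (nat_lit 14922973290) (nat_lit 5) (nat_lit 4) (nat_lit 6) (nat_lit 5) (nat_lit 6) (nat_lit 4) (nat_lit 380) (nat_lit 213) (nat_lit 187)) (XT.nd (nat_lit 78) (nat_lit 0) (nat_lit 0) (XT.lf (nat_lit 0) (nat_lit 16721190077) (nat_lit 76) (nat_lit 18509376863) (nat_lit 76) (nat_lit 12720905263) (nat_lit 5) (nat_lit 4) (nat_lit 6) (nat_lit 5) (nat_lit 6) (nat_lit 4) (nat_lit 381) (nat_lit 213) (nat_lit 186)) (XT.lf (nat_lit 0) (nat_lit 22388994982) (nat_lit 76) (nat_lit 16420539671) (nat_lit 76) (nat_lit 10494020270) (nat_lit 5) (nat_lit 4) (nat_lit 6) (nat_lit 5) (nat_lit 6) (nat_lit 4) (nat_lit 382) (nat_lit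 213) (nat_lit 185)))) (XT.nd (nat_lit 78) (nat_lit 0) (nat_lit 0) (XT.lf (nat_lit 0) (nat_lit 28156092688) (nat_lit 76) (nat_lit 14300918881) (nat_lit 76) (nat_lit 8240372490) (nat_lit 5) (nat_lit 4) (nat_lit 6) (nat_lit 5) (nat_lit 6) (nat_lit 4) (nat_lit 383) (nat_lit 213) (nat_lit 184)) (XT.nd (nat_lit 78) (nat_lit 0) (nat_lit 0) (XT.lf (nat_lit 0) (nat_lit 34027522404) (nat_lit 76) (nat_lit 12148662398) (nat_lit 76) (nat_lit 5957992716) (nat_lit 5) (nat_lit 4) (nat_lit 6) (nat_lit 5) (nat_lit 6) (nat_lit 4) (nat_lit 384) (nat_lit 213) (nat_lit 183)) (XT.lf (nat_lit 0) (nat_lit 40008414506) (nat_lit 76) (nat_lit 9961889610) (nat_lit 76) (nat_lit 3644886635) (nat_lit 5) (nat_lit 4) (nat_lit 6) (nat_lit 5) (nat_lit 6) (nat_lit 4) (nat_lit 385) (nat_lit 213) (nat_lit 182))))) (XT.nd (nat_lit 234) (nat_lit 0) (nat_lit 0) (XT.nd (nat_lit 78) (nat_lit 152) (nat_lit 0) (XT.lf (nat_lit 0) (nat_lit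 46103995017) (nat_lit 76) (nat_lit 7738689744) (nat_lit 76) (nat_lit 1299033087) (nat_lit 5) (nat_lit 4) (nat_lit 6) (nat_lit 5) (nat_lit 6) (nat_lit 4) (nat_lit 386) (nat_lit 213) (nat_lit 181)) (XT.nd (nat_lit 78) (nat_lit 76) (nat_lit 0) (XT.lf (nat_lit 0) (nat_lit 1060511445) (nat_lit 152) (nat_lit 4405899666) (nat_lit 76) (nat_lit 51248369640) (nat_lit 4) (nat_lit 5) (nat_lit 6) (nat_lit 5) (nat_lit 5) (nat_lit 4) (nat_lit 387) (nat_lit 213) (nat_lit 180)) (XT.lf (nat_lit 0) (nat_lit 296082781) (nat_lit 76) (nat_lit 3137628322) (nat_lit 152) (nat_lit 54901884436) (nat_lit 3) (nat_lit 5) (nat_lit 4) (nat_lit 5) (nat_lit 5) (nat_lit 4) (nat_lit 388) (nat_lit 213) (nat_lit 179)))) (XT.nd (nat_lit 78) (nat_lit 0) (nat_lit 0) (XT.lf (nat_lit 0) (nat_lit 5168335000) (nat_lit 76) (nat_lit 720793696) (nat_lit 152) (nat_lit 54115590165) (nat_lit 3) (nat_lit 5) (nat_lit 4) (nat_lit 5) (nat_lit 5) (nat_lit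 4) (nat_lit 389) (nat_lit 213) (nat_lit 178)) (XT.nd (nat_lit 78) (nat_lit 0) (nat_lit 0) (XT.lf (nat_lit 0) (nat_lit 8402457056) (nat_lit 152) (nat_lit 51614219189) (nat_lit 0) (nat_lit 1707726509) (nat_lit 3) (nat_lit 5) (nat_lit 5) (nat_lit 4) (nat_lit 3) (nat_lit 4) (nat_lit 390) (nat_lit 213) (nat_lit 177)) (XT.lf (nat_lit 0) (nat_lit 10966523675) (nat_lit 152) (nat_lit 48360834638) (nat_lit 0) (nat_lit 4169072601) (nat_lit 3) (nat_lit 5) (nat_lit 5) (nat_lit 4) (nat_lit 3) (nat_lit 4) (nat_lit 391) (nat_lit 213) (nat_lit 176))))))))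
noncomputable def xc14 : XT := (XT.nd (nat_lit 38298) (nat_lit 0) (nat_lit 152) (XT.nd (nat_lit 858) (nat_lit 0) (nat_lit 0) (XT.nd (nat_lit 390) (nat_lit 0) (nat_lit 0) (XT.nd (nat_lit 156) (nat_lit 0) (nat_lit 0) (XT.nd (nat_lit 78) (nat_lit 0) (nat_lit 0) (XT.lf (nat_lit 0) (nat_lit 13576640290) (nat_lit 152) (nat_lit 45066458735) (nat_lit 0) (nat_lit 6679460548) (nat_lit 3) (nat_lit 5) (nat_lit 5) (nat_lit 4) (nat_lit 3) (nat_lit 4) (nat_lit 392) (nat_lit 213) (nat_lit 175)) (XT.lf (nat_lit 0) (nat_lit 16235087587) (nat_lit 152) (nat_lit 41728212899) (nat_lit 0) (nat_lit 9241083895) (nat_lit 3) (nat_lit 5) (nat_lit 5) (nat_lit 4) (nat_lit 3) (nat_lit 4) (nat_lit 393) (nat_lit 213) (nat_lit 174))) (XT.nd (nat_lit 78) (nat_lit 0) (nat_lit 0) (XT.lf (nat_lit 0) (nat_lit 18944188479) (nat_lit 152) (nat_lit 38343180218) (nat_lit 0) (nat_lit 11856180953) (nat_lit 3) (nat_lit 5) (nat_lit 5) (nat_lit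 4) (nat_lit 3) (nat_lit 4) (nat_lit 394) (nat_lit 213) (nat_lit 173)) (XT.nd (nat_lit 78) (nat_lit 0) (nat_lit 0) (XT.lf (nat_lit 0) (nat_lit 21706310143) (nat_lit 152) (nat_lit 34908402894) (nat_lit 0) (nat_lit 14527036758) (nat_lit 3) (nat_lit 5) (nat_lit 5) (nat_lit 4) (nat_lit 3) (nat_lit 4) (nat_lit 395) (nat_lit 213) (nat_lit 172)) (XT.lf (nat_lit 0) (nat_lit 24523866082) (nat_lit 152) (nat_lit 31420879668) (nat_lit 0) (nat_lit 17255985068) (nat_lit 3) (nat_lit 5) (nat_lit 5) (nat_lit 4) (nat_lit 3) (nat_lit 4) (nat_lit 396) (nat_lit 213) (nat_lit 171))))) (XT.nd (nat_lit 234) (nat_lit 0) (nat_lit 0) (XT.nd (nat_lit 78) (nat_lit 0) (nat_lit 0) (XT.lf (nat_lit 0) (nat_lit 27399318240) (nat_lit 152) (nat_lit 27877563187) (nat_lit 0) (nat_lit 20045410401) (nat_lit 3) (nat_lit 5) (nat_lit 5) (nat_lit 4) (nat_lit 3) (nat_lit 4) (nat_lit 397) (nat_lit 213) (nat_lit 170)) (XT.nd (nat_lit 78) (nat_lit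 0) (nat_lit 0) (XT.lf (nat_lit 0) (nat_lit 30335179147) (nat_lit 152) (nat_lit 24275357351) (nat_lit 0) (nat_lit 22897750119) (nat_lit 3) (nat_lit 5) (nat_lit 5) (nat_lit 4) (nat_lit 3) (nat_lit 4) (nat_lit 398) (nat_lit 213) (nat_lit 169)) (XT.lf (nat_lit 0) (nat_lit 33334014118) (nat_lit 152) (nat_lit 20611114600) (nat_lit 0) (nat_lit 25815496556) (nat_lit 3) (nat_lit 5) (nat_lit 5) (nat_lit 4) (nat_lit 3) (nat_lit 4) (nat_lit 399) (nat_lit 213) (nat_lit 168)))) (XT.nd (nat_lit 78) (nat_lit 0) (nat_lit 0) (XT.lf (nat_lit 0) (nat_lit 36398443494) (nat_lit 152) (nat_lit 16881633170) (nat_lit 0) (nat_lit 28801199202) (nat_lit 3) (nat_lit 5) (nat_lit 5) (nat_lit 4) (nat_lit 3) (nat_lit 4) (nat_lit 400) (nat_lit 213) (nat_lit 167)) (XT.nd (nat_lit 78) (nat_lit 0) (nat_lit 0) (XT.lf (nat_lit 0) (nat_lit 39531144933) (nat_lit 152) (nat_lit 13083654290) (nat_lit 0) (nat_lit 31857466921) (nat_lit 3)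 (nat_lit 5) (nat_lit 5) (nat_lit 4) (nat_lit 3) (nat_lit 4) (nat_lit 401) (nat_lit 213) (nat_lit 166)) (XT.lf (nat_lit 0) (nat_lit 42734855746) (nat_lit 152) (nat_lit 9213859338) (nat_lit 0) (nat_lit 34986970239) (nat_lit 3) (nat_lit 5) (nat_lit 5) (nat_lit 4) (nat_lit 3) (nat_lit 4) (nat_lit 402) (nat_lit 213) (nat_lit 165)))))) (XT.nd (nat_lit 36972) (nat_lit 0) (nat_lit 456) (XT.nd (nat_lit 36738) (nat_lit 0) (nat_lit 684) (XT.nd (nat_lit 78) (nat_lit 0) (nat_lit 0) (XT.lf (nat_lit 0) (nat_lit 46012375292) (nat_lit 152) (nat_lit 5268866939) (nat_lit 0) (nat_lit 38192443674) (nat_lit 3) (nat_lit 5) (nat_lit 5) (nat_lit 4) (nat_lit 3) (nat_lit 4) (nat_lit 403) (nat_lit 213) (nat_lit 164)) (XT.nd (nat_lit 36582) (nat_lit 0) (nat_lit 836) (XT.lf (nat_lit 0) (nat_lit 49366567424) (nat_lit 152) (nat_lit 1245230013) (nat_lit 0) (nat_lit 41476688124) (nat_lit 3) (nat_lit 5) (nat_lit 5) (nat_lit 4)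 (nat_lit 3) (nat_lit 4) (nat_lit 404) (nat_lit 213) (nat_lit 163)) (XT.lf (nat_lit 0) (nat_lit 7976872867) (nat_lit 152) (nat_lit 1610476637) (nat_lit 152) (nat_lit 1610476637) (nat_lit 14) (nat_lit 4) (nat_lit 16) (nat_lit 5) (nat_lit 16) (nat_lit 4) (nat_lit 352) (nat_lit 214) (nat_lit 214)))) (XT.nd (nat_lit 78) (nat_lit 0) (nat_lit 0) (XT.lf (nat_lit 0) (nat_lit 371931858) (nat_lit 152) (nat_lit 22538317375) (nat_lit 0) (nat_lit 36853614) (nat_lit 12) (nat_lit 5) (nat_lit 14) (nat_lit 4) (nat_lit 12) (nat_lit 4) (nat_lit 353) (nat_lit 214) (nat_lit 213)) (XT.nd (nat_lit 78) (nat_lit 0) (nat_lit 0) (XT.lf (nat_lit 0) (nat_lit 4026857628) (nat_lit 152) (nat_lit 16120296146) (nat_lit 0) (nat_lit 3366460701) (nat_lit 12) (nat_lit 5) (nat_lit 14) (nat_lit 4) (nat_lit 12) (nat_lit 4) (nat_lit 354) (nat_lit 214) (nat_lit 212)) (XT.lf (nat_lit 0) (nat_lit 7715127034) (nat_lit 152) (nat_lit 9645439561)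 (nat_lit 0) (nat_lit 6738886725) (nat_lit 12) (nat_lit 5) (nat_lit 14) (nat_lit 4) (nat_lit 12) (nat_lit 4) (nat_lit 355) (nat_lit 214) (nat_lit 211))))) (XT.nd (nat_lit 234) (nat_lit 152) (nat_lit 0) (XT.nd (nat_lit 78) (nat_lit 76) (nat_lit 0) (XT.lf (nat_lit 0) (nat_lit 11439962835) (nat_lit 152) (nat_lit 3108089979) (nat_lit 0) (nat_lit 10157078466) (nat_lit 12) (nat_lit 5) (nat_lit 14) (nat_lit 4) (nat_lit 12) (nat_lit 4) (nat_lit 356) (nat_lit 214) (nat_lit 210)) (XT.nd (nat_lit 78) (nat_lit 0) (nat_lit 0) (XT.lf (nat_lit 0) (nat_lit 3567071254) (nat_lit 76) (nat_lit 11671837358) (nat_lit 76) (nat_lit 10091240310) (nat_lit 11) (nat_lit 4) (nat_lit 12) (nat_lit 5) (nat_lit 12) (nat_lit 4) (nat_lit 357) (nat_lit 214) (nat_lit 209)) (XT.lf (nat_lit 0) (nat_lit 10379538950) (nat_lit 76) (nat_lit 8732622788) (nat_lit 76) (nat_lit 6862984303) (nat_lit 11) (nat_lit 4) (nat_lit 12) (nat_lit 5) (nat_lit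 12) (nat_lit 4) (nat_lit 358) (nat_lit 214) (nat_lit 208)))) (XT.nd (nat_lit 78) (nat_lit 152) (nat_lit 0) (XT.lf (nat_lit 0) (nat_lit 17273408665) (nat_lit 76) (nat_lit 5759226472) (nat_lit 76) (nat_lit 3608965233) (nat_lit 11) (nat_lit 4) (nat_lit 12) (nat_lit 5) (nat_lit 12) (nat_lit 4) (nat_lit 359) (nat_lit 214) (nat_lit 207)) (XT.nd (nat_lit 78) (nat_lit 152) (nat_lit 0) (XT.lf (nat_lit 0) (nat_lit 24254704169) (nat_lit 76) (nat_lit 2749050298) (nat_lit 76) (nat_lit 326339783) (nat_lit 11) (nat_lit 4) (nat_lit 12) (nat_lit 5) (nat_lit 12) (nat_lit 4) (nat_lit 360) (nat_lit 214) (nat_lit 206)) (XT.lf (nat_lit 0) (nat_lit 2964904719) (nat_lit 152) (nat_lit 24718450547) (nat_lit 0) (nat_lit 355949015) (nat_lit 9) (nat_lit 5) (nat_lit 11) (nat_lit 4) (nat_lit 9) (nat_lit 4) (nat_lit 361) (nat_lit 214) (nat_lit 205))))))) (XT.nd (nat_lit 936) (nat_lit 76) (nat_lit 0) (XT.nd (nat_lit 468) (nat_lit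 152) (nat_lit 0) (XT.nd (nat_lit 234) (nat_lit 76) (nat_lit 0) (XT.nd (nat_lit 78) (nat_lit 0) (nat_lit 0) (XT.lf (nat_lit 0) (nat_lit 6341517267) (nat_lit 152) (nat_lit 18945182579) (nat_lit 0) (nat_lit 3483231881) (nat_lit 9) (nat_lit 5) (nat_lit 11) (nat_lit 4) (nat_lit 9) (nat_lit 4) (nat_lit 362) (nat_lit 214) (nat_lit 204)) (XT.nd (nat_lit 78) (nat_lit 0) (nat_lit 0) (XT.lf (nat_lit 0) (nat_lit 9755941404) (nat_lit 152) (nat_lit 13112885591) (nat_lit 0) (nat_lit 6655588365) (nat_lit 9) (nat_lit 5) (nat_lit 11) (nat_lit 4) (nat_lit 9) (nat_lit 4) (nat_lit 363) (nat_lit 214) (nat_lit 203)) (XT.lf (nat_lit 0) (nat_lit 13211160606) (nat_lit 152) (nat_lit 7216463404) (nat_lit 0) (nat_lit 9875790429) (nat_lit 9) (nat_lit 5) (nat_lit 11) (nat_lit 4) (nat_lit 9) (nat_lit 4) (nat_lit 364) (nat_lit 214) (nat_lit 202)))) (XT.nd (nat_lit 78) (nat_lit 76) (nat_lit 0) (XT.lf (nat_lit 0) (nat_lit 16710193998)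 (nat_lit 152) (nat_lit 1250763801) (nat_lit 0) (nat_lit 13146651841) (nat_lit 9) (nat_lit 5) (nat_lit 11) (nat_lit 4) (nat_lit 9) (nat_lit 4) (nat_lit 365) (nat_lit 214) (nat_lit 201)) (XT.nd (nat_lit 78) (nat_lit 0) (nat_lit 0) (XT.lf (nat_lit 0) (nat_lit 4884744929) (nat_lit 76) (nat_lit 15418309212) (nat_lit 76) (nat_lit 11633240863) (nat_lit 8) (nat_lit 4) (nat_lit 9) (nat_lit 5) (nat_lit 9) (nat_lit 4) (nat_lit 366) (nat_lit 214) (nat_lit 200)) (XT.lf (nat_lit 0) (nat_lit 11126501850) (nat_lit 76) (nat_lit 12832426826) (nat_lit 76) (nat_lit 8832284503) (nat_lit 8) (nat_lit 4) (nat_lit 9) (nat_lit 5) (nat_lit 9) (nat_lit 4) (nat_lit 367) (nat_lit 214) (nat_lit 199))))) (XT.nd (nat_lit 234) (nat_lit 152) (nat_lit 0) (XT.nd (nat_lit 78) (nat_lit 0) (nat_lit 0) (XT.lf (nat_lit 0) (nat_lit 17455068270) (nat_lit 76) (nat_lit 10213681394) (nat_lit 76) (nat_lit 6004729387) (nat_lit 8) (nat_lit 4)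 (nat_lit 9) (nat_lit 5) (nat_lit 9) (nat_lit 4) (nat_lit 368) (nat_lit 214) (nat_lit 198)) (XT.nd (nat_lit 78) (nat_lit 0) (nat_lit 0) (XT.lf (nat_lit 0) (nat_lit 23875974005) (nat_lit 76) (nat_lit 7559784692) (nat_lit 76) (nat_lit 3148104837) (nat_lit 8) (nat_lit 4) (nat_lit 9) (nat_lit 5) (nat_lit 9) (nat_lit 4) (nat_lit 369) (nat_lit 214) (nat_lit 197)) (XT.lf (nat_lit 0) (nat_lit 30394829554) (nat_lit 76) (nat_lit 4868417781) (nat_lit 76) (nat_lit 259914772) (nat_lit 8) (nat_lit 4) (nat_lit 9) (nat_lit 5) (nat_lit 9) (nat_lit 4) (nat_lit 370) (nat_lit 214) (nat_lit 196)))) (XT.nd (nat_lit 78) (nat_lit 0) (nat_lit 0) (XT.lf (nat_lit 0) (nat_lit 509485101) (nat_lit 76) (nat_lit 2105824529) (nat_lit 152) (nat_lit 33875971194) (nat_lit 6) (nat_lit 5) (nat_lit 7) (nat_lit 5) (nat_lit 8) (nat_lit 4) (nat_lit 371) (nat_lit 214) (nat_lit 195)) (XT.nd (nat_lit 78) (nat_lit 0) (nat_lit 0) (XT.lf (nat_lit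 0) (nat_lit 5579665022) (nat_lit 152) (nat_lit 31168737818) (nat_lit 0) (nat_lit 739744489) (nat_lit 6) (nat_lit 5) (nat_lit 8) (nat_lit 4) (nat_lit 6) (nat_lit 4) (nat_lit 372) (nat_lit 214) (nat_lit 194)) (XT.lf (nat_lit 0) (nat_lit 8603984818) (nat_lit 152) (nat_lit 26322638203) (nat_lit 0) (nat_lit 3589189462) (nat_lit 6) (nat_lit 5) (nat_lit 8) (nat_lit 4) (nat_lit 6) (nat_lit 4) (nat_lit 373) (nat_lit 214) (nat_lit 193)))))) (XT.nd (nat_lit 468) (nat_lit 0) (nat_lit 0) (XT.nd (nat_lit 234) (nat_lit 76) (nat_lit 0) (XT.nd (nat_lit 78) (nat_lit 0) (nat_lit 0) (XT.lf (nat_lit 0) (nat_lit 11670669154) (nat_lit 152) (nat_lit 21419019949) (nat_lit 0) (nat_lit 6486092417) (nat_lit 6) (nat_lit 5) (nat_lit 8) (nat_lit 4) (nat_lit 6) (nat_lit 4) (nat_lit 374) (nat_lit 214) (nat_lit 192)) (XT.nd (nat_lit 78) (nat_lit 0) (nat_lit 0) (XT.lf (nat_lit 0) (nat_lit 14782397657) (nat_lit 152) (nat_lit 16453598342)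 (nat_lit 0) (nat_lit 9432984628) (nat_lit 6) (nat_lit 5) (nat_lit 8) (nat_lit 4) (nat_lit 6) (nat_lit 4) (nat_lit 375) (nat_lit 214) (nat_lit 191)) (XT.lf (nat_lit 0) (nat_lit 17941889313) (nat_lit 152) (nat_lit 11422034665) (nat_lit 0) (nat_lit 12432441049) (nat_lit 6) (nat_lit 5) (nat_lit 8) (nat_lit 4) (nat_lit 6) (nat_lit 4) (nat_lit 376) (nat_lit 214) (nat_lit 190)))) (XT.nd (nat_lit 78) (nat_lit 76) (nat_lit 0) (XT.lf (nat_lit 0) (nat_lit 21151904844) (nat_lit 152) (nat_lit 6319932404) (nat_lit 0) (nat_lit 15487082564) (nat_lit 6) (nat_lit 5) (nat_lit 8) (nat_lit 4) (nat_lit 6) (nat_lit 4) (nat_lit 377) (nat_lit 214) (nat_lit 189)) (XT.nd (nat_lit 78) (nat_lit 76) (nat_lit 0) (XT.lf (nat_lit 0) (nat_lit 24415249116) (nat_lit 152) (nat_lit 1142833412) (nat_lit 0) (nat_lit 18599578279) (nat_lit 6) (nat_lit 5) (nat_lit 8) (nat_lit 4) (nat_lit 6) (nat_lit 4) (nat_lit 378) (nat_lit 214) (nat_lit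 188)) (XT.lf (nat_lit 0) (nat_lit 4195658396) (nat_lit 76) (nat_lit 23579446435) (nat_lit 76) (nat_lit 17617320687) (nat_lit 5) (nat_lit 4) (nat_lit 6) (nat_lit 5) (nat_lit 6) (nat_lit 4) (nat_lit 379) (nat_lit 214) (nat_lit 187))))) (XT.nd (nat_lit 234) (nat_lit 0) (nat_lit 0) (XT.nd (nat_lit 78) (nat_lit 0) (nat_lit 0) (XT.lf (nat_lit 0) (nat_lit 9642682428) (nat_lit 76) (nat_lit 21563387775) (nat_lit 76) (nat_lit 15459072792) (nat_lit 5) (nat_lit 4) (nat_lit 6) (nat_lit 5) (nat_lit 6) (nat_lit 4) (nat_lit 380) (nat_lit 214) (nat_lit 186)) (XT.nd (nat_lit 78) (nat_lit 0) (nat_lit 0) (XT.lf (nat_lit 0) (nat_lit 15180253592) (nat_lit 76) (nat_lit 19519685319) (nat_lit 76) (nat_lit 13277322536) (nat_lit 5) (nat_lit 4) (nat_lit 6) (nat_lit 5) (nat_lit 6) (nat_lit 4) (nat_lit 381) (nat_lit 214) (nat_lit 185)) (XT.lf (nat_lit 0) (nat_lit 20813210543) (nat_lit 76) (nat_lit 17446553307) (nat_lit 76)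 (nat_lit 11070163535) (nat_lit 5) (nat_lit 4) (nat_lit 6) (nat_lit 5) (nat_lit 6) (nat_lit 4) (nat_lit 382) (nat_lit 214) (nat_lit 184)))) (XT.nd (nat_lit 78) (nat_lit 0) (nat_lit 0) (XT.lf (nat_lit 0) (nat_lit 26546475282) (nat_lit 76) (nat_lit 15342180267) (nat_lit 76) (nat_lit 8835667203) (nat_lit 5) (nat_lit 4) (nat_lit 6) (nat_lit 5) (nat_lit 6) (nat_lit 4) (nat_lit 383) (nat_lit 214) (nat_lit 183)) (XT.nd (nat_lit 78) (nat_lit 0) (nat_lit 0) (XT.lf (nat_lit 0) (nat_lit 32385057459) (nat_lit 76) (nat_lit 13204727424) (nat_lit 76) (nat_lit 6571881067) (nat_lit 5) (nat_lit 4) (nat_lit 6) (nat_lit 5) (nat_lit 6) (nat_lit 4) (nat_lit 384) (nat_lit 214) (nat_lit 182)) (XT.lf (nat_lit 0) (nat_lit 38334058746) (nat_lit 76) (nat_lit 11032327101) (nat_lit 76) (nat_lit 4276827063) (nat_lit 5) (nat_lit 4) (nat_lit 6) (nat_lit 5) (nat_lit 6) (nat_lit 4) (nat_lit 385) (nat_lit 214) (nat_lit 181))))))))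
noncomputable def xc15 : XT := (XT.nd (nat_lit 38220) (nat_lit 0) (nat_lit 228) (XT.nd (nat_lit 936) (nat_lit 0) (nat_lit 0) (XT.nd (nat_lit 468) (nat_lit 0) (nat_lit 0) (XT.nd (nat_lit 234) (nat_lit 76) (nat_lit 0) (XT.nd (nat_lit 78) (nat_lit 76) (nat_lit 0) (XT.lf (nat_lit 0) (nat_lit 44398677301) (nat_lit 76) (nat_lit 8823081086) (nat_lit 76) (nat_lit 1948499803) (nat_lit 5) (nat_lit 4) (nat_lit 6) (nat_lit 5) (nat_lit 6) (nat_lit 4) (nat_lit 386) (nat_lit 214) (nat_lit 180)) (XT.nd (nat_lit 78) (nat_lit 0) (nat_lit 0) (XT.lf (nat_lit 0) (nat_lit 407034391) (nat_lit 152) (nat_lit 6163914327) (nat_lit 76) (nat_lit 50173067664) (nat_lit 4) (nat_lit 5) (nat_lit 6) (nat_lit 5) (nat_lit 5) (nat_lit 4) (nat_lit 387) (nat_lit 214) (nat_lit 179)) (XT.lf (nat_lit 0) (nat_lit 2761190082) (nat_lit 152) (nat_lit 1497223768) (nat_lit 76) (nat_lit 54106995904) (nat_lit 4) (nat_lit 5) (nat_lit 6) (nat_lit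 5) (nat_lit 5) (nat_lit 4) (nat_lit 388) (nat_lit 214) (nat_lit 178)))) (XT.nd (nat_lit 78) (nat_lit 0) (nat_lit 0) (XT.lf (nat_lit 0) (nat_lit 3316005870) (nat_lit 76) (nat_lit 1869916156) (nat_lit 152) (nat_lit 54849538673) (nat_lit 3) (nat_lit 5) (nat_lit 4) (nat_lit 5) (nat_lit 5) (nat_lit 4) (nat_lit 389) (nat_lit 214) (nat_lit 177)) (XT.nd (nat_lit 78) (nat_lit 0) (nat_lit 0) (XT.lf (nat_lit 0) (nat_lit 7672540198) (nat_lit 152) (nat_lit 53514967483) (nat_lit 0) (nat_lit 568445064) (nat_lit 3) (nat_lit 5) (nat_lit 5) (nat_lit 4) (nat_lit 3) (nat_lit 4) (nat_lit 390) (nat_lit 214) (nat_lit 176)) (XT.lf (nat_lit 0) (nat_lit 10221398934) (nat_lit 152) (nat_lit 50289469722) (nat_lit 0) (nat_lit 3017575132) (nat_lit 3) (nat_lit 5) (nat_lit 5) (nat_lit 4) (nat_lit 3) (nat_lit 4) (nat_lit 391) (nat_lit 214) (nat_lit 175))))) (XT.nd (nat_lit 234) (nat_lit 0) (nat_lit 0) (XT.nd (nat_lit 78) (nat_lit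 0) (nat_lit 0) (XT.lf (nat_lit 0) (nat_lit 12816750615) (nat_lit 152) (nat_lit 47022168373) (nat_lit 0) (nat_lit 5516102864) (nat_lit 3) (nat_lit 5) (nat_lit 5) (nat_lit 4) (nat_lit 3) (nat_lit 4) (nat_lit 392) (nat_lit 214) (nat_lit 174)) (XT.nd (nat_lit 78) (nat_lit 0) (nat_lit 0) (XT.lf (nat_lit 0) (nat_lit 15460863023) (nat_lit 152) (nat_lit 43710208513) (nat_lit 0) (nat_lit 8066211438) (nat_lit 3) (nat_lit 5) (nat_lit 5) (nat_lit 4) (nat_lit 3) (nat_lit 4) (nat_lit 393) (nat_lit 214) (nat_lit 173)) (XT.lf (nat_lit 0) (nat_lit 18156046548) (nat_lit 152) (nat_lit 40350696195) (nat_lit 0) (nat_lit 10670129104) (nat_lit 3) (nat_lit 5) (nat_lit 5) (nat_lit 4) (nat_lit 3) (nat_lit 4) (nat_lit 394) (nat_lit 214) (nat_lit 172)))) (XT.nd (nat_lit 78) (nat_lit 0) (nat_lit 0) (XT.lf (nat_lit 0) (nat_lit 20904656205) (nat_lit 152) (nat_lit 36940695924) (nat_lit 0) (nat_lit 13330131131) (nat_lit 3) (nat_lit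 5) (nat_lit 5) (nat_lit 4) (nat_lit 3) (nat_lit 4) (nat_lit 395) (nat_lit 214) (nat_lit 171)) (XT.nd (nat_lit 78) (nat_lit 0) (nat_lit 0) (XT.lf (nat_lit 0) (nat_lit 23709093692) (nat_lit 152) (nat_lit 33477228088) (nat_lit 0) (nat_lit 16048541793) (nat_lit 3) (nat_lit 5) (nat_lit 5) (nat_lit 4) (nat_lit 3) (nat_lit 4) (nat_lit 396) (nat_lit 214) (nat_lit 170)) (XT.lf (nat_lit 0) (nat_lit 26571809487) (nat_lit 152) (nat_lit 29957266355) (nat_lit 0) (nat_lit 18827736399) (nat_lit 3) (nat_lit 5) (nat_lit 5) (nat_lit 4) (nat_lit 3) (nat_lit 4) (nat_lit 397) (nat_lit 214) (nat_lit 169)))))) (XT.nd (nat_lit 468) (nat_lit 0) (nat_lit 0) (XT.nd (nat_lit 234) (nat_lit 0) (nat_lit 0) (XT.nd (nat_lit 78) (nat_lit 0) (nat_lit 0) (XT.lf (nat_lit 0) (nat_lit 29495304993) (nat_lit 152) (nat_lit 26377735032) (nat_lit 0) (nat_lit 21670143372) (nat_lit 3) (nat_lit 5) (nat_lit 5) (nat_lit 4) (nat_lit 3) (nat_lit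 4) (nat_lit 398) (nat_lit 214) (nat_lit 168)) (XT.nd (nat_lit 78) (nat_lit 0) (nat_lit 0) (XT.lf (nat_lit 0) (nat_lit 32482134721) (nat_lit 152) (nat_lit 22735506371) (nat_lit 0) (nat_lit 24578246368) (nat_lit 3) (nat_lit 5) (nat_lit 5) (nat_lit 4) (nat_lit 3) (nat_lit 4) (nat_lit 399) (nat_lit 214) (nat_lit 167)) (XT.lf (nat_lit 0) (nat_lit 35534908522) (nat_lit 152) (nat_lit 19027397844) (nat_lit 0) (nat_lit 27554586449) (nat_lit 3) (nat_lit 5) (nat_lit 5) (nat_lit 4) (nat_lit 3) (nat_lit 4) (nat_lit 400) (nat_lit 214) (nat_lit 166)))) (XT.nd (nat_lit 78) (nat_lit 0) (nat_lit 0) (XT.lf (nat_lit 0) (nat_lit 38656293867) (nat_lit 152) (nat_lit 15250169355) (nat_lit 0) (nat_lit 30601764300) (nat_lit 3) (nat_lit 5) (nat_lit 5) (nat_lit 4) (nat_lit 3) (nat_lit 4) (nat_lit 401) (nat_lit 214) (nat_lit 165)) (XT.nd (nat_lit 78) (nat_lit 0) (nat_lit 0) (XT.lf (nat_lit 0) (nat_lit 41849018182) (nat_lit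 152) (nat_lit 11400520414) (nat_lit 0) (nat_lit 33722442504) (nat_lit 3) (nat_lit 5) (nat_lit 5) (nat_lit 4) (nat_lit 3) (nat_lit 4) (nat_lit 402) (nat_lit 214) (nat_lit 164)) (XT.lf (nat_lit 0) (nat_lit 45115871226) (nat_lit 152) (nat_lit 7475087249) (nat_lit 0) (nat_lit 36919347866) (nat_lit 3) (nat_lit 5) (nat_lit 5) (nat_lit 4) (nat_lit 3) (nat_lit 4) (nat_lit 403) (nat_lit 214) (nat_lit 163))))) (XT.nd (nat_lit 36582) (nat_lit 0) (nat_lit 684) (XT.nd (nat_lit 36426) (nat_lit 0) (nat_lit 836) (XT.lf (nat_lit 0) (nat_lit 48459707529) (nat_lit 152) (nat_lit 3470439871) (nat_lit 0) (nat_lit 40195273799) (nat_lit 3) (nat_lit 5) (nat_lit 5) (nat_lit 4) (nat_lit 3) (nat_lit 4) (nat_lit 404) (nat_lit 214) (nat_lit 162)) (XT.nd (nat_lit 78) (nat_lit 0) (nat_lit 0) (XT.lf (nat_lit 0) (nat_lit 732913872) (nat_lit 152) (nat_lit 4969985545) (nat_lit 152) (nat_lit 4969985545) (nat_lit 14) (nat_lit 4) (nat_lit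 16) (nat_lit 5) (nat_lit 16) (nat_lit 4) (nat_lit 350) (nat_lit 215) (nat_lit 215)) (XT.lf (nat_lit 0) (nat_lit 8637154834) (nat_lit 152) (nat_lit 6790342597) (nat_lit 152) (nat_lit 6434858088) (nat_lit 14) (nat_lit 4) (nat_lit 16) (nat_lit 5) (nat_lit 16) (nat_lit 4) (nat_lit 351) (nat_lit 215) (nat_lit 214)))) (XT.nd (nat_lit 78) (nat_lit 152) (nat_lit 0) (XT.lf (nat_lit 0) (nat_lit 15885904956) (nat_lit 152) (nat_lit 3605770341) (nat_lit 152) (nat_lit 2905155241) (nat_lit 14) (nat_lit 4) (nat_lit 16) (nat_lit 5) (nat_lit 16) (nat_lit 4) (nat_lit 352) (nat_lit 215) (nat_lit 213)) (XT.nd (nat_lit 78) (nat_lit 0) (nat_lit 0) (XT.lf (nat_lit 0) (nat_lit 267704288) (nat_lit 76) (nat_lit 374363510) (nat_lit 152) (nat_lit 22307328916) (nat_lit 12) (nat_lit 5) (nat_lit 13) (nat_lit 5) (nat_lit 14) (nat_lit 4) (nat_lit 353) (nat_lit 215) (nat_lit 212)) (XT.lf (nat_lit 0) (nat_lit 4255806713) (nat_lit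 152) (nat_lit 16326922478) (nat_lit 0) (nat_lit 2934435812) (nat_lit 12) (nat_lit 5) (nat_lit 14) (nat_lit 4) (nat_lit 12) (nat_lit 4) (nat_lit 354) (nat_lit 215) (nat_lit 211))))))) (XT.nd (nat_lit 936) (nat_lit 152) (nat_lit 0) (XT.nd (nat_lit 468) (nat_lit 228) (nat_lit 0) (XT.nd (nat_lit 234) (nat_lit 0) (nat_lit 0) (XT.nd (nat_lit 78) (nat_lit 76) (nat_lit 0) (XT.lf (nat_lit 0) (nat_lit 7907582676) (nat_lit 152) (nat_lit 9916968702) (nat_lit 0) (nat_lit 6279567716) (nat_lit 12) (nat_lit 5) (nat_lit 14) (nat_lit 4) (nat_lit 12) (nat_lit 4) (nat_lit 355) (nat_lit 215) (nat_lit 210)) (XT.nd (nat_lit 78) (nat_lit 76) (nat_lit 0) (XT.lf (nat_lit 0) (nat_lit 11596987951) (nat_lit 152) (nat_lit 3442631555) (nat_lit 0) (nat_lit 9671260311) (nat_lit 12) (nat_lit 5) (nat_lit 14) (nat_lit 4) (nat_lit 12) (nat_lit 4) (nat_lit 356) (nat_lit 215) (nat_lit 209)) (XT.lf (nat_lit 0) (nat_lit 3163476979) (nat_lit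 76) (nat_lit 12194178586) (nat_lit 76) (nat_lit 9979409509) (nat_lit 11) (nat_lit 4) (nat_lit 12) (nat_lit 5) (nat_lit 12) (nat_lit 4) (nat_lit 357) (nat_lit 215) (nat_lit 208)))) (XT.nd (nat_lit 78) (nat_lit 0) (nat_lit 0) (XT.lf (nat_lit 0) (nat_lit 9915367329) (nat_lit 76) (nat_lit 9281562386) (nat_lit 76) (nat_lit 6786170555) (nat_lit 11) (nat_lit 4) (nat_lit 12) (nat_lit 5) (nat_lit 12) (nat_lit 4) (nat_lit 358) (nat_lit 215) (nat_lit 207)) (XT.nd (nat_lit 78) (nat_lit 0) (nat_lit 0) (XT.lf (nat_lit 0) (nat_lit 16750424087) (nat_lit 76) (nat_lit 6333989731) (nat_lit 76) (nat_lit 3566148625) (nat_lit 11) (nat_lit 4) (nat_lit 12) (nat_lit 5) (nat_lit 12) (nat_lit 4) (nat_lit 359) (nat_lit 215) (nat_lit 206)) (XT.lf (nat_lit 0) (nat_lit 23674619632) (nat_lit 76) (nat_lit 3348885071) (nat_lit 76) (nat_lit 316530105) (nat_lit 11) (nat_lit 4) (nat_lit 12) (nat_lit 5) (nat_lit 12) (nat_lit 4) (nat_lit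 360) (nat_lit 215) (nat_lit 205))))) (XT.nd (nat_lit 234) (nat_lit 76) (nat_lit 0) (XT.nd (nat_lit 78) (nat_lit 0) (nat_lit 0) (XT.lf (nat_lit 0) (nat_lit 2665389319) (nat_lit 76) (nat_lit 267888442) (nat_lit 152) (nat_lit 25117218227) (nat_lit 9) (nat_lit 5) (nat_lit 10) (nat_lit 5) (nat_lit 11) (nat_lit 4) (nat_lit 361) (nat_lit 215) (nat_lit 204)) (XT.nd (nat_lit 78) (nat_lit 0) (nat_lit 0) (XT.lf (nat_lit 0) (nat_lit 6276040923) (nat_lit 152) (nat_lit 19665504491) (nat_lit 0) (nat_lit 2840609641) (nat_lit 9) (nat_lit 5) (nat_lit 11) (nat_lit 4) (nat_lit 9) (nat_lit 4) (nat_lit 362) (nat_lit 215) (nat_lit 203)) (XT.lf (nat_lit 0) (nat_lit 9660101681) (nat_lit 152) (nat_lit 13887810316) (nat_lit 0) (nat_lit 5989653260) (nat_lit 9) (nat_lit 5) (nat_lit 11) (nat_lit 4) (nat_lit 9) (nat_lit 4) (nat_lit 363) (nat_lit 215) (nat_lit 202)))) (XT.nd (nat_lit 78) (nat_lit 76) (nat_lit 0) (XT.lf (nat_lit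 0) (nat_lit 13085841875) (nat_lit 152) (nat_lit 8044400567) (nat_lit 0) (nat_lit 9187221475) (nat_lit 9) (nat_lit 5) (nat_lit 11) (nat_lit 4) (nat_lit 9) (nat_lit 4) (nat_lit 364) (nat_lit 215) (nat_lit 201)) (XT.nd (nat_lit 78) (nat_lit 76) (nat_lit 0) (XT.lf (nat_lit 0) (nat_lit 16556254870) (nat_lit 152) (nat_lit 2130169352) (nat_lit 0) (nat_lit 12436108277) (nat_lit 9) (nat_lit 5) (nat_lit 11) (nat_lit 4) (nat_lit 9) (nat_lit 4) (nat_lit 365) (nat_lit 215) (nat_lit 200)) (XT.lf (nat_lit 0) (nat_lit 3936873688) (nat_lit 76) (nat_lit 16175343015) (nat_lit 76) (nat_lit 11840122448) (nat_lit 8) (nat_lit 4) (nat_lit 9) (nat_lit 5) (nat_lit 9) (nat_lit 4) (nat_lit 366) (nat_lit 215) (nat_lit 199)))))) (XT.nd (nat_lit 468) (nat_lit 0) (nat_lit 0) (XT.nd (nat_lit 234) (nat_lit 152) (nat_lit 0) (XT.nd (nat_lit 78) (nat_lit 0) (nat_lit 0) (XT.lf (nat_lit 0) (nat_lit 10129151196) (nat_lit 76) (nat_lit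 13611486947) (nat_lit 76) (nat_lit 9067456696) (nat_lit 8) (nat_lit 4) (nat_lit 9) (nat_lit 5) (nat_lit 9) (nat_lit 4) (nat_lit 367) (nat_lit 215) (nat_lit 198)) (XT.nd (nat_lit 78) (nat_lit 0) (nat_lit 0) (XT.lf (nat_lit 0) (nat_lit 16409679351) (nat_lit 76) (nat_lit 11014126290) (nat_lit 76) (nat_lit 6267368191) (nat_lit 8) (nat_lit 4) (nat_lit 9) (nat_lit 5) (nat_lit 9) (nat_lit 4) (nat_lit 368) (nat_lit 215) (nat_lit 197)) (XT.lf (nat_lit 0) (nat_lit 22783945993) (nat_lit 76) (nat_lit 8380991505) (nat_lit 76) (nat_lit 3437410252) (nat_lit 8) (nat_lit 4) (nat_lit 9) (nat_lit 5) (nat_lit 9) (nat_lit 4) (nat_lit 369) (nat_lit 215) (nat_lit 196)))) (XT.nd (nat_lit 78) (nat_lit 152) (nat_lit 0) (XT.lf (nat_lit 0) (nat_lit 29257520871) (nat_lit 76) (nat_lit 5709781795) (nat_lit 76) (nat_lit 575110102) (nat_lit 8) (nat_lit 4) (nat_lit 9) (nat_lit 5) (nat_lit 9) (nat_lit 4) (nat_lit 370) (nat_lit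 215) (nat_lit 195)) (XT.nd (nat_lit 78) (nat_lit 76) (nat_lit 0) (XT.lf (nat_lit 0) (nat_lit 2276722066) (nat_lit 152) (nat_lit 698450598) (nat_lit 76) (nat_lit 33536348010) (nat_lit 7) (nat_lit 5) (nat_lit 9) (nat_lit 5) (nat_lit 8) (nat_lit 4) (nat_lit 371) (nat_lit 215) (nat_lit 194)) (XT.lf (nat_lit 0) (nat_lit 5061014853) (nat_lit 76) (nat_lit 141611901) (nat_lit 152) (nat_lit 32306925603) (nat_lit 6) (nat_lit 5) (nat_lit 7) (nat_lit 5) (nat_lit 8) (nat_lit 4) (nat_lit 372) (nat_lit 215) (nat_lit 193))))) (XT.nd (nat_lit 234) (nat_lit 0) (nat_lit 0) (XT.nd (nat_lit 78) (nat_lit 0) (nat_lit 0) (XT.lf (nat_lit 0) (nat_lit 8201760141) (nat_lit 152) (nat_lit 27644359560) (nat_lit 0) (nat_lit 2691864721) (nat_lit 6) (nat_lit 5) (nat_lit 8) (nat_lit 4) (nat_lit 6) (nat_lit 4) (nat_lit 373) (nat_lit 215) (nat_lit 192)) (XT.nd (nat_lit 78) (nat_lit 0) (nat_lit 0) (XT.lf (nat_lit 0) (nat_lit 11245313264)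 (nat_lit 152) (nat_lit 22782763570) (nat_lit 0) (nat_lit 5570581551) (nat_lit 6) (nat_lit 5) (nat_lit 8) (nat_lit 4) (nat_lit 6) (nat_lit 4) (nat_lit 374) (nat_lit 215) (nat_lit 191)) (XT.lf (nat_lit 0) (nat_lit 14334584278) (nat_lit 152) (nat_lit 17858140277) (nat_lit 0) (nat_lit 8499817330) (nat_lit 6) (nat_lit 5) (nat_lit 8) (nat_lit 4) (nat_lit 6) (nat_lit 4) (nat_lit 375) (nat_lit 215) (nat_lit 190)))) (XT.nd (nat_lit 78) (nat_lit 0) (nat_lit 0) (XT.lf (nat_lit 0) (nat_lit 17472272547) (nat_lit 152) (nat_lit 12866186613) (nat_lit 0) (nat_lit 11482131585) (nat_lit 6) (nat_lit 5) (nat_lit 8) (nat_lit 4) (nat_lit 6) (nat_lit 4) (nat_lit 376) (nat_lit 215) (nat_lit 189)) (XT.nd (nat_lit 78) (nat_lit 0) (nat_lit 0) (XT.lf (nat_lit 0) (nat_lit 20661119741) (nat_lit 152) (nat_lit 7802540675) (nat_lit 0) (nat_lit 14520130220) (nat_lit 6) (nat_lit 5) (nat_lit 8) (nat_lit 4) (nat_lit 6) (nat_lit 4)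 (nat_lit 377) (nat_lit 215) (nat_lit 188)) (XT.lf (nat_lit 0) (nat_lit 23903912230) (nat_lit 152) (nat_lit 2662777920) (nat_lit 0) (nat_lit 17616467798) (nat_lit 6) (nat_lit 5) (nat_lit 8) (nat_lit 4) (nat_lit 6) (nat_lit 4) (nat_lit 378) (nat_lit 215) (nat_lit 187))))))))
noncomputable def xc16 : XT := (XT.nd (nat_lit 1794) (nat_lit 0) (nat_lit 0) (XT.nd (nat_lit 858) (nat_lit 0) (nat_lit 0) (XT.nd (nat_lit 390) (nat_lit 152) (nat_lit 0) (XT.nd (nat_lit 156) (nat_lit 0) (nat_lit 0) (XT.nd (nat_lit 78) (nat_lit 0) (nat_lit 0) (XT.lf (nat_lit 0) (nat_lit 2608493817) (nat_lit 76) (nat_lit 24620064144) (nat_lit 76) (nat_lit 18190430478) (nat_lit 5) (nat_lit 4) (nat_lit 6) (nat_lit 5) (nat_lit 6) (nat_lit 4) (nat_lit 379) (nat_lit 215) (nat_lit 186)) (XT.lf (nat_lit 0) (nat_lit 8019624455) (nat_lit 76) (nat_lit 22620181821) (nat_lit 76) (nat_lit 16052500355) (nat_lit 5) (nat_lit 4) (nat_lit 6) (nat_lit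 5) (nat_lit 6) (nat_lit 4) (nat_lit 380) (nat_lit 215) (nat_lit 185))) (XT.nd (nat_lit 78) (nat_lit 0) (nat_lit 0) (XT.lf (nat_lit 0) (nat_lit 13522347664) (nat_lit 76) (nat_lit 20592184546) (nat_lit 76) (nat_lit 13890476090) (nat_lit 5) (nat_lit 4) (nat_lit 6) (nat_lit 5) (nat_lit 6) (nat_lit 4) (nat_lit 381) (nat_lit 215) (nat_lit 184)) (XT.nd (nat_lit 78) (nat_lit 0) (nat_lit 0) (XT.lf (nat_lit 0) (nat_lit 19121471650) (nat_lit 76) (nat_lit 18534300284) (nat_lit 76) (nat_lit 11702468537) (nat_lit 5) (nat_lit 4) (nat_lit 6) (nat_lit 5) (nat_lit 6) (nat_lit 4) (nat_lit 382) (nat_lit 215) (nat_lit 183)) (XT.lf (nat_lit 0) (nat_lit 24821888850) (nat_lit 76) (nat_lit 16444730883) (nat_lit 76) (nat_lit 9486565843) (nat_lit 5) (nat_lit 4) (nat_lit 6) (nat_lit 5) (nat_lit 6) (nat_lit 4) (nat_lit 383) (nat_lit 215) (nat_lit 182))))) (XT.nd (nat_lit 234) (nat_lit 152) (nat_lit 0) (XT.nd (nat_lit 78)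 (nat_lit 0) (nat_lit 0) (XT.lf (nat_lit 0) (nat_lit 30628580212) (nat_lit 76) (nat_lit 14321650506) (nat_lit 76) (nat_lit 7240831784) (nat_lit 5) (nat_lit 4) (nat_lit 6) (nat_lit 5) (nat_lit 6) (nat_lit 4) (nat_lit 384) (nat_lit 215) (nat_lit 181)) (XT.nd (nat_lit 78) (nat_lit 0) (nat_lit 0) (XT.lf (nat_lit 0) (nat_lit 36546619543) (nat_lit 76) (nat_lit 12163204034) (nat_lit 76) (nat_lit 4963304068) (nat_lit 5) (nat_lit 4) (nat_lit 6) (nat_lit 5) (nat_lit 6) (nat_lit 4) (nat_lit 385) (nat_lit 215) (nat_lit 180)) (XT.lf (nat_lit 0) (nat_lit 42581177946) (nat_lit 76) (nat_lit 9967505446) (nat_lit 76) (nat_lit 2651992621) (nat_lit 5) (nat_lit 4) (nat_lit 6) (nat_lit 5) (nat_lit 6) (nat_lit 4) (nat_lit 386) (nat_lit 215) (nat_lit 179)))) (XT.nd (nat_lit 78) (nat_lit 152) (nat_lit 0) (XT.lf (nat_lit 0) (nat_lit 48737528336) (nat_lit 76) (nat_lit 7732636171) (nat_lit 76) (nat_lit 304877851) (nat_lit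 5) (nat_lit 4) (nat_lit 6) (nat_lit 5) (nat_lit 6) (nat_lit 4) (nat_lit 387) (nat_lit 215) (nat_lit 178)) (XT.nd (nat_lit 78) (nat_lit 76) (nat_lit 0) (XT.lf (nat_lit 0) (nat_lit 2039501048) (nat_lit 152) (nat_lit 3396547399) (nat_lit 76) (nat_lit 52960954038) (nat_lit 4) (nat_lit 5) (nat_lit 6) (nat_lit 5) (nat_lit 5) (nat_lit 4) (nat_lit 388) (nat_lit 215) (nat_lit 177)) (XT.lf (nat_lit 0) (nat_lit 1350508292) (nat_lit 76) (nat_lit 3079563118) (nat_lit 152) (nat_lit 55638013715) (nat_lit 3) (nat_lit 5) (nat_lit 4) (nat_lit 5) (nat_lit 5) (nat_lit 4) (nat_lit 389) (nat_lit 215) (nat_lit 176)))))) (XT.nd (nat_lit 468) (nat_lit 0) (nat_lit 0) (XT.nd (nat_lit 234) (nat_lit 0) (nat_lit 0) (XT.nd (nat_lit 78) (nat_lit 0) (nat_lit 0) (XT.lf (nat_lit 0) (nat_lit 6253680602) (nat_lit 76) (nat_lit 642347871) (nat_lit 152) (nat_lit 54893175180) (nat_lit 3) (nat_lit 5) (nat_lit 4) (nat_lit 5) (nat_lit 5)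 (nat_lit 4) (nat_lit 390) (nat_lit 215) (nat_lit 175)) (XT.nd (nat_lit 78) (nat_lit 0) (nat_lit 0) (XT.lf (nat_lit 0) (nat_lit 9423947634) (nat_lit 152) (nat_lit 52330925204) (nat_lit 0) (nat_lit 1807456501) (nat_lit 3) (nat_lit 5) (nat_lit 5) (nat_lit 4) (nat_lit 3) (nat_lit 4) (nat_lit 391) (nat_lit 215) (nat_lit 174)) (XT.lf (nat_lit 0) (nat_lit 12004964427) (nat_lit 152) (nat_lit 49089909830) (nat_lit 0) (nat_lit 4294469459) (nat_lit 3) (nat_lit 5) (nat_lit 5) (nat_lit 4) (nat_lit 3) (nat_lit 4) (nat_lit 392) (nat_lit 215) (nat_lit 173)))) (XT.nd (nat_lit 78) (nat_lit 0) (nat_lit 0) (XT.lf (nat_lit 0) (nat_lit 14635159468) (nat_lit 152) (nat_lit 45803470333) (nat_lit 0) (nat_lit 6833398642) (nat_lit 3) (nat_lit 5) (nat_lit 5) (nat_lit 4) (nat_lit 3) (nat_lit 4) (nat_lit 393) (nat_lit 215) (nat_lit 172)) (XT.nd (nat_lit 78) (nat_lit 0) (nat_lit 0) (XT.lf (nat_lit 0) (nat_lit 17316830986) (nat_lit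 152) (nat_lit 42468735068) (nat_lit 0) (nat_lit 9426462530) (nat_lit 3) (nat_lit 5) (nat_lit 5) (nat_lit 4) (nat_lit 3) (nat_lit 4) (nat_lit 394) (nat_lit 215) (nat_lit 171)) (XT.lf (nat_lit 0) (nat_lit 20052322190) (nat_lit 152) (nat_lit 39082790188) (nat_lit 0) (nat_lit 12075926909) (nat_lit 3) (nat_lit 5) (nat_lit 5) (nat_lit 4) (nat_lit 3) (nat_lit 4) (nat_lit 395) (nat_lit 215) (nat_lit 170))))) (XT.nd (nat_lit 234) (nat_lit 0) (nat_lit 0) (XT.nd (nat_lit 78) (nat_lit 0) (nat_lit 0) (XT.lf (nat_lit 0) (nat_lit 22844023314) (nat_lit 152) (nat_lit 35642677099) (nat_lit 0) (nat_lit 14784106844) (nat_lit 3) (nat_lit 5) (nat_lit 5) (nat_lit 4) (nat_lit 3) (nat_lit 4) (nat_lit 396) (nat_lit 215) (nat_lit 169)) (XT.nd (nat_lit 78) (nat_lit 0) (nat_lit 0) (XT.lf (nat_lit 0) (nat_lit 25694373708) (nat_lit 152) (nat_lit 32145389880) (nat_lit 0) (nat_lit 17553368705) (nat_lit 3) (nat_lit 5) (nat_lit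 5) (nat_lit 4) (nat_lit 3) (nat_lit 4) (nat_lit 397) (nat_lit 215) (nat_lit 168)) (XT.lf (nat_lit 0) (nat_lit 28605863971) (nat_lit 152) (nat_lit 28587872646) (nat_lit 0) (nat_lit 20386132237) (nat_lit 3) (nat_lit 5) (nat_lit 5) (nat_lit 4) (nat_lit 3) (nat_lit 4) (nat_lit 398) (nat_lit 215) (nat_lit 167)))) (XT.nd (nat_lit 78) (nat_lit 0) (nat_lit 0) (XT.lf (nat_lit 0) (nat_lit 31581038123) (nat_lit 152) (nat_lit 24967016889) (nat_lit 0) (nat_lit 23284872669) (nat_lit 3) (nat_lit 5) (nat_lit 5) (nat_lit 4) (nat_lit 3) (nat_lit 4) (nat_lit 399) (nat_lit 215) (nat_lit 166)) (XT.nd (nat_lit 78) (nat_lit 0) (nat_lit 0) (XT.lf (nat_lit 0) (nat_lit 34622495831) (nat_lit 152) (nat_lit 21279658753) (nat_lit 0) (nat_lit 26252122882) (nat_lit 3) (nat_lit 5) (nat_lit 5) (nat_lit 4) (nat_lit 3) (nat_lit 4) (nat_lit 400) (nat_lit 215) (nat_lit 165)) (XT.lf (nat_lit 0) (nat_lit 37732894679) (nat_lit 152) (nat_lit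 17522576275) (nat_lit 0) (nat_lit 29290475618) (nat_lit 3) (nat_lit 5) (nat_lit 5) (nat_lit 4) (nat_lit 3) (nat_lit 4) (nat_lit 401) (nat_lit 215) (nat_lit 164))))))) (XT.nd (nat_lit 37128) (nat_lit 0) (nat_lit 380) (XT.nd (nat_lit 36660) (nat_lit 0) (nat_lit 684) (XT.nd (nat_lit 36426) (nat_lit 0) (nat_lit 836) (XT.nd (nat_lit 78) (nat_lit 0) (nat_lit 0) (XT.lf (nat_lit 0) (nat_lit 40914952491) (nat_lit 152) (nat_lit 13692486568) (nat_lit 0) (nat_lit 32402585749) (nat_lit 3) (nat_lit 5) (nat_lit 5) (nat_lit 4) (nat_lit 3) (nat_lit 4) (nat_lit 402) (nat_lit 215) (nat_lit 163)) (XT.nd (nat_lit 78) (nat_lit 0) (nat_lit 0) (XT.lf (nat_lit 0) (nat_lit 44171449706) (nat_lit 152) (nat_lit 9786042950) (nat_lit 0) (nat_lit 35591172594) (nat_lit 3) (nat_lit 5) (nat_lit 5) (nat_lit 4) (nat_lit 3) (nat_lit 4) (nat_lit 403) (nat_lit 215) (nat_lit 162)) (XT.lf (nat_lit 0) (nat_lit 47505231807) (nat_lit 152)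 (nat_lit 5799832026) (nat_lit 0) (nat_lit 38859022297) (nat_lit 3) (nat_lit 5) (nat_lit 5) (nat_lit 4) (nat_lit 3) (nat_lit 4) (nat_lit 404) (nat_lit 215) (nat_lit 161)))) (XT.nd (nat_lit 78) (nat_lit 152) (nat_lit 0) (XT.lf (nat_lit 0) (nat_lit 2001957606) (nat_lit 152) (nat_lit 6175881703) (nat_lit 0) (nat_lit 2001957606) (nat_lit 16) (nat_lit 5) (nat_lit 18) (nat_lit 4) (nat_lit 16) (nat_lit 4) (nat_lit 348) (nat_lit 216) (nat_lit 216)) (XT.nd (nat_lit 78) (nat_lit 152) (nat_lit 0) (XT.lf (nat_lit 0) (nat_lit 7843375195) (nat_lit 152) (nat_lit 5524396206) (nat_lit 0) (nat_lit 7477226151) (nat_lit 16) (nat_lit 5) (nat_lit 18) (nat_lit 4) (nat_lit 16) (nat_lit 4) (nat_lit 349) (nat_lit 216) (nat_lit 215)) (XT.lf (nat_lit 0) (nat_lit 1395951741) (nat_lit 152) (nat_lit 10336332670) (nat_lit 152) (nat_lit 9614699117) (nat_lit 14) (nat_lit 4) (nat_lit 16) (nat_lit 5) (nat_lit 16) (nat_lit 4) (nat_lit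 350) (nat_lit 216) (nat_lit 214))))) (XT.nd (nat_lit 234) (nat_lit 76) (nat_lit 0) (XT.nd (nat_lit 78) (nat_lit 76) (nat_lit 0) (XT.lf (nat_lit 0) (nat_lit 8499438053) (nat_lit 152) (nat_lit 7216036734) (nat_lit 152) (nat_lit 6149272590) (nat_lit 14) (nat_lit 4) (nat_lit 16) (nat_lit 5) (nat_lit 16) (nat_lit 4) (nat_lit 351) (nat_lit 216) (nat_lit 213)) (XT.nd (nat_lit 78) (nat_lit 76) (nat_lit 0) (XT.lf (nat_lit 0) (nat_lit 15682323340) (nat_lit 152) (nat_lit 4059942691) (nat_lit 152) (nat_lit 2658100303) (nat_lit 14) (nat_lit 4) (nat_lit 16) (nat_lit 5) (nat_lit 16) (nat_lit 4) (nat_lit 352) (nat_lit 216) (nat_lit 212)) (XT.lf (nat_lit 0) (nat_lit 845050129) (nat_lit 228) (nat_lit 11709309) (nat_lit 76) (nat_lit 22097300433) (nat_lit 13) (nat_lit 5) (nat_lit 16) (nat_lit 5) (nat_lit 14) (nat_lit 4) (nat_lit 353) (nat_lit 216) (nat_lit 211)))) (XT.nd (nat_lit 78) (nat_lit 0) (nat_lit 0) (XT.lf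 (nat_lit 0) (nat_lit 4417542582) (nat_lit 152) (nat_lit 16671500301) (nat_lit 0) (nat_lit 2434043113) (nat_lit 12) (nat_lit 5) (nat_lit 14) (nat_lit 4) (nat_lit 12) (nat_lit 4) (nat_lit 354) (nat_lit 216) (nat_lit 210)) (XT.nd (nat_lit 78) (nat_lit 0) (nat_lit 0) (XT.lf (nat_lit 0) (nat_lit 8033888020) (nat_lit 152) (nat_lit 10324558960) (nat_lit 0) (nat_lit 5752675871) (nat_lit 12) (nat_lit 5) (nat_lit 14) (nat_lit 4) (nat_lit 12) (nat_lit 4) (nat_lit 355) (nat_lit 216) (nat_lit 209)) (XT.lf (nat_lit 0) (nat_lit 11688894726) (nat_lit 152) (nat_lit 3911398935) (nat_lit 0) (nat_lit 9118641140) (nat_lit 12) (nat_lit 5) (nat_lit 14) (nat_lit 4) (nat_lit 12) (nat_lit 4) (nat_lit 356) (nat_lit 216) (nat_lit 208)))))) (XT.nd (nat_lit 468) (nat_lit 76) (nat_lit 0) (XT.nd (nat_lit 234) (nat_lit 152) (nat_lit 0) (XT.nd (nat_lit 78) (nat_lit 0) (nat_lit 0) (XT.lf (nat_lit 0) (nat_lit 2624802863) (nat_lit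 76) (nat_lit 12786184742) (nat_lit 76) (nat_lit 9935308403) (nat_lit 11) (nat_lit 4) (nat_lit 12) (nat_lit 5) (nat_lit 12) (nat_lit 4) (nat_lit 357) (nat_lit 216) (nat_lit 207)) (XT.nd (nat_lit 78) (nat_lit 0) (nat_lit 0) (XT.lf (nat_lit 0) (nat_lit 9317880256) (nat_lit 76) (nat_lit 9899392202) (nat_lit 76) (nat_lit 6776066587) (nat_lit 11) (nat_lit 4) (nat_lit 12) (nat_lit 5) (nat_lit 12) (nat_lit 4) (nat_lit 358) (nat_lit 216) (nat_lit 206)) (XT.lf (nat_lit 0) (nat_lit 16095837056) (nat_lit 76) (nat_lit 6976891062) (nat_lit 76) (nat_lit 3589051587) (nat_lit 11) (nat_lit 4) (nat_lit 12) (nat_lit 5) (nat_lit 12) (nat_lit 4) (nat_lit 359) (nat_lit 216) (nat_lit 205)))) (XT.nd (nat_lit 78) (nat_lit 152) (nat_lit 0) (XT.lf (nat_lit 0) (nat_lit 22964595749) (nat_lit 76) (nat_lit 4016127680) (nat_lit 76) (nat_lit 371478632) (nat_lit 11) (nat_lit 4) (nat_lit 12) (nat_lit 5) (nat_lit 12) (nat_lit 4)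 (nat_lit 360) (nat_lit 216) (nat_lit 204)) (XT.nd (nat_lit 78) (nat_lit 0) (nat_lit 0) (XT.lf (nat_lit 0) (nat_lit 1873834869) (nat_lit 76) (nat_lit 967452617) (nat_lit 152) (nat_lit 25222551157) (nat_lit 9) (nat_lit 5) (nat_lit 10) (nat_lit 5) (nat_lit 11) (nat_lit 4) (nat_lit 361) (nat_lit 216) (nat_lit 203)) (XT.lf (nat_lit 0) (nat_lit 6146962630) (nat_lit 152) (nat_lit 20518279770) (nat_lit 0) (nat_lit 2131383618) (nat_lit 9) (nat_lit 5) (nat_lit 11) (nat_lit 4) (nat_lit 9) (nat_lit 4) (nat_lit 362) (nat_lit 216) (nat_lit 202))))) (XT.nd (nat_lit 234) (nat_lit 76) (nat_lit 0) (XT.nd (nat_lit 78) (nat_lit 0) (nat_lit 0) (XT.lf (nat_lit 0) (nat_lit 9501544380) (nat_lit 152) (nat_lit 14793598034) (nat_lit 0) (nat_lit 5257793389) (nat_lit 9) (nat_lit 5) (nat_lit 11) (nat_lit 4) (nat_lit 9) (nat_lit 4) (nat_lit 363) (nat_lit 216) (nat_lit 201)) (XT.nd (nat_lit 78) (nat_lit 0) (nat_lit 0) (XT.lf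 (nat_lit 0) (nat_lit 12898664178) (nat_lit 152) (nat_lit 9001656672) (nat_lit 0) (nat_lit 8433386993) (nat_lit 9) (nat_lit 5) (nat_lit 11) (nat_lit 4) (nat_lit 9) (nat_lit 4) (nat_lit 364) (nat_lit 216) (nat_lit 200)) (XT.lf (nat_lit 0) (nat_lit 16341290380) (nat_lit 152) (nat_lit 3137394766) (nat_lit 0) (nat_lit 11660939221) (nat_lit 9) (nat_lit 5) (nat_lit 11) (nat_lit 4) (nat_lit 9) (nat_lit 4) (nat_lit 365) (nat_lit 216) (nat_lit 199)))) (XT.nd (nat_lit 78) (nat_lit 0) (nat_lit 0) (XT.lf (nat_lit 0) (nat_lit 2860123101) (nat_lit 76) (nat_lit 16999801258) (nat_lit 76) (nat_lit 12110640416) (nat_lit 8) (nat_lit 4) (nat_lit 9) (nat_lit 5) (nat_lit 9) (nat_lit 4) (nat_lit 366) (nat_lit 216) (nat_lit 198)) (XT.nd (nat_lit 78) (nat_lit 0) (nat_lit 0) (XT.lf (nat_lit 0) (nat_lit 9004362344) (nat_lit 76) (nat_lit 14457329965) (nat_lit 76) (nat_lit 9365441274) (nat_lit 8) (nat_lit 4) (nat_lit 9) (nat_lit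 5) (nat_lit 9) (nat_lit 4) (nat_lit 367) (nat_lit 216) (nat_lit 197)) (XT.lf (nat_lit 0) (nat_lit 15238251407) (nat_lit 76) (nat_lit 11880731225) (nat_lit 76) (nat_lit 6592019381) (nat_lit 8) (nat_lit 4) (nat_lit 9) (nat_lit 5) (nat_lit 9) (nat_lit 4) (nat_lit 368) (nat_lit 216) (nat_lit 196))))))))
noncomputable def xc17 : XT := (XT.nd (nat_lit 1794) (nat_lit 0) (nat_lit 0) (XT.nd (nat_lit 858) (nat_lit 152) (nat_lit 0) (XT.nd (nat_lit 390) (nat_lit 76) (nat_lit 0) (XT.nd (nat_lit 156) (nat_lit 152) (nat_lit 0) (XT.nd (nat_lit 78) (nat_lit 0) (nat_lit 0) (XT.lf (nat_lit 0) (nat_lit 21567237377) (nat_lit 76) (nat_lit 9267753641) (nat_lit 76) (nat_lit 3787951356) (nat_lit 8) (nat_lit 4) (nat_lit 9) (nat_lit 5) (nat_lit 9) (nat_lit 4) (nat_lit 369) (nat_lit 216) (nat_lit 195)) (XT.lf (nat_lit 0) (nat_lit 27996850437) (nat_lit 76) (nat_lit 6616114029) (nat_lit 76) (nat_lit 950787045) (nat_lit 8)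 (nat_lit 4) (nat_lit 9) (nat_lit 5) (nat_lit 9) (nat_lit 4) (nat_lit 370) (nat_lit 216) (nat_lit 194))) (XT.nd (nat_lit 78) (nat_lit 76) (nat_lit 0) (XT.lf (nat_lit 0) (nat_lit 1884448410) (nat_lit 152) (nat_lit 2020017778) (nat_lit 76) (nat_lit 32629231050) (nat_lit 7) (nat_lit 5) (nat_lit 9) (nat_lit 5) (nat_lit 8) (nat_lit 4) (nat_lit 371) (nat_lit 216) (nat_lit 193)) (XT.nd (nat_lit 78) (nat_lit 0) (nat_lit 0) (XT.lf (nat_lit 0) (nat_lit 3670399884) (nat_lit 76) (nat_lit 1103355169) (nat_lit 152) (nat_lit 32759083130) (nat_lit 6) (nat_lit 5) (nat_lit 7) (nat_lit 5) (nat_lit 8) (nat_lit 4) (nat_lit 372) (nat_lit 216) (nat_lit 192)) (XT.lf (nat_lit 0) (nat_lit 7740512361) (nat_lit 152) (nat_lit 29091037753) (nat_lit 0) (nat_lit 1730702404) (nat_lit 6) (nat_lit 5) (nat_lit 8) (nat_lit 4) (nat_lit 6) (nat_lit 4) (nat_lit 373) (nat_lit 216) (nat_lit 191))))) (XT.nd (nat_lit 234) (nat_lit 76) (nat_lit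 0) (XT.nd (nat_lit 78) (nat_lit 0) (nat_lit 0) (XT.lf (nat_lit 0) (nat_lit 10761607995) (nat_lit 152) (nat_lit 24270240077) (nat_lit 0) (nat_lit 4591762803) (nat_lit 6) (nat_lit 5) (nat_lit 8) (nat_lit 4) (nat_lit 6) (nat_lit 4) (nat_lit 374) (nat_lit 216) (nat_lit 190)) (XT.nd (nat_lit 78) (nat_lit 0) (nat_lit 0) (XT.lf (nat_lit 0) (nat_lit 13829075622) (nat_lit 152) (nat_lit 19385226797) (nat_lit 0) (nat_lit 7503856416) (nat_lit 6) (nat_lit 5) (nat_lit 8) (nat_lit 4) (nat_lit 6) (nat_lit 4) (nat_lit 375) (nat_lit 216) (nat_lit 189)) (XT.lf (nat_lit 0) (nat_lit 16945595555) (nat_lit 152) (nat_lit 14431729456) (nat_lit 0) (nat_lit 10469527790) (nat_lit 6) (nat_lit 5) (nat_lit 8) (nat_lit 4) (nat_lit 6) (nat_lit 4) (nat_lit 376) (nat_lit 216) (nat_lit 188)))) (XT.nd (nat_lit 78) (nat_lit 76) (nat_lit 0) (XT.lf (nat_lit 0) (nat_lit 20113890965) (nat_lit 152) (nat_lit 9405419756) (nat_lit 0) (nat_lit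 13491368289) (nat_lit 6) (nat_lit 5) (nat_lit 8) (nat_lit 4) (nat_lit 6) (nat_lit 4) (nat_lit 377) (nat_lit 216) (nat_lit 187)) (XT.nd (nat_lit 78) (nat_lit 76) (nat_lit 0) (XT.lf (nat_lit 0) (nat_lit 23336730266) (nat_lit 152) (nat_lit 4301905774) (nat_lit 0) (nat_lit 16572018357) (nat_lit 6) (nat_lit 5) (nat_lit 8) (nat_lit 4) (nat_lit 6) (nat_lit 4) (nat_lit 378) (nat_lit 216) (nat_lit 186)) (XT.lf (nat_lit 0) (nat_lit 900850711) (nat_lit 76) (nat_lit 25724738348) (nat_lit 76) (nat_lit 18821978639) (nat_lit 5) (nat_lit 4) (nat_lit 6) (nat_lit 5) (nat_lit 6) (nat_lit 4) (nat_lit 379) (nat_lit 216) (nat_lit 185)))))) (XT.nd (nat_lit 468) (nat_lit 152) (nat_lit 0) (XT.nd (nat_lit 234) (nat_lit 0) (nat_lit 0) (XT.nd (nat_lit 78) (nat_lit 0) (nat_lit 0) (XT.lf (nat_lit 0) (nat_lit 6277133395) (nat_lit 76) (nat_lit 23740561207) (nat_lit 76) (nat_lit 16703774507) (nat_lit 5) (nat_lit 4) (nat_lit 6)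 (nat_lit 5) (nat_lit 6) (nat_lit 4) (nat_lit 380) (nat_lit 216) (nat_lit 184)) (XT.nd (nat_lit 78) (nat_lit 0) (nat_lit 0) (XT.lf (nat_lit 0) (nat_lit 11746023639) (nat_lit 76) (nat_lit 21727811681) (nat_lit 76) (nat_lit 14560901690) (nat_lit 5) (nat_lit 4) (nat_lit 6) (nat_lit 5) (nat_lit 6) (nat_lit 4) (nat_lit 381) (nat_lit 216) (nat_lit 183)) (XT.lf (nat_lit 0) (nat_lit 17312300085) (nat_lit 76) (nat_lit 19684731059) (nat_lit 76) (nat_lit 12391487775) (nat_lit 5) (nat_lit 4) (nat_lit 6) (nat_lit 5) (nat_lit 6) (nat_lit 4) (nat_lit 382) (nat_lit 216) (nat_lit 182)))) (XT.nd (nat_lit 78) (nat_lit 0) (nat_lit 0) (XT.lf (nat_lit 0) (nat_lit 22980826470) (nat_lit 76) (nat_lit 17609534124) (nat_lit 76) (nat_lit 10193637158) (nat_lit 5) (nat_lit 4) (nat_lit 6) (nat_lit 5) (nat_lit 6) (nat_lit 4) (nat_lit 383) (nat_lit 216) (nat_lit 181)) (XT.nd (nat_lit 78) (nat_lit 0) (nat_lit 0) (XT.lf (nat_lit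 0) (nat_lit 28756555875) (nat_lit 76) (nat_lit 15500407598) (nat_lit 76) (nat_lit 7965429387) (nat_lit 5) (nat_lit 4) (nat_lit 6) (nat_lit 5) (nat_lit 6) (nat_lit 4) (nat_lit 384) (nat_lit 216) (nat_lit 180)) (XT.lf (nat_lit 0) (nat_lit 34644535055) (nat_lit 76) (nat_lit 13355508553) (nat_lit 76) (nat_lit 5704917484) (nat_lit 5) (nat_lit 4) (nat_lit 6) (nat_lit 5) (nat_lit 6) (nat_lit 4) (nat_lit 385) (nat_lit 216) (nat_lit 179))))) (XT.nd (nat_lit 234) (nat_lit 76) (nat_lit 0) (XT.nd (nat_lit 78) (nat_lit 76) (nat_lit 0) (XT.lf (nat_lit 0) (nat_lit 40649908844) (nat_lit 76) (nat_lit 11172962808) (nat_lit 76) (nat_lit 3410126244) (nat_lit 5) (nat_lit 4) (nat_lit 6) (nat_lit 5) (nat_lit 6) (nat_lit 4) (nat_lit 386) (nat_lit 216) (nat_lit 178)) (XT.nd (nat_lit 78) (nat_lit 76) (nat_lit 0) (XT.lf (nat_lit 0) (nat_lit 46777924658) (nat_lit 76) (nat_lit 8950863282) (nat_lit 76) (nat_lit 1079050510)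 (nat_lit 5) (nat_lit 4) (nat_lit 6) (nat_lit 5) (nat_lit 6) (nat_lit 4) (nat_lit 387) (nat_lit 216) (nat_lit 177)) (XT.lf (nat_lit 0) (nat_lit 1265167269) (nat_lit 152) (nat_lit 5409325358) (nat_lit 76) (nat_lit 51755994095) (nat_lit 4) (nat_lit 5) (nat_lit 6) (nat_lit 5) (nat_lit 5) (nat_lit 4) (nat_lit 388) (nat_lit 216) (nat_lit 176)))) (XT.nd (nat_lit 78) (nat_lit 76) (nat_lit 0) (XT.lf (nat_lit 0) (nat_lit 3627932403) (nat_lit 152) (nat_lit 715632663) (nat_lit 76) (nat_lit 55758845100) (nat_lit 4) (nat_lit 5) (nat_lit 6) (nat_lit 5) (nat_lit 5) (nat_lit 4) (nat_lit 389) (nat_lit 216) (nat_lit 175)) (XT.nd (nat_lit 78) (nat_lit 0) (nat_lit 0) (XT.lf (nat_lit 0) (nat_lit 4146552237) (nat_lit 76) (nat_lit 1925672564) (nat_lit 152) (nat_lit 55751960289) (nat_lit 3) (nat_lit 5) (nat_lit 4) (nat_lit 5) (nat_lit 5) (nat_lit 4) (nat_lit 390) (nat_lit 216) (nat_lit 174)) (XT.lf (nat_lit 0) (nat_lit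 8573472972) (nat_lit 152) (nat_lit 54486984879) (nat_lit 0) (nat_lit 537659321) (nat_lit 3) (nat_lit 5) (nat_lit 5) (nat_lit 4) (nat_lit 3) (nat_lit 4) (nat_lit 391) (nat_lit 216) (nat_lit 173))))))) (XT.nd (nat_lit 936) (nat_lit 0) (nat_lit 0) (XT.nd (nat_lit 468) (nat_lit 0) (nat_lit 0) (XT.nd (nat_lit 234) (nat_lit 0) (nat_lit 0) (XT.nd (nat_lit 78) (nat_lit 0) (nat_lit 0) (XT.lf (nat_lit 0) (nat_lit 11140572398) (nat_lit 152) (nat_lit 51271489869) (nat_lit 0) (nat_lit 3013492888) (nat_lit 3) (nat_lit 5) (nat_lit 5) (nat_lit 4) (nat_lit 3) (nat_lit 4) (nat_lit 392) (nat_lit 216) (nat_lit 172)) (XT.nd (nat_lit 78) (nat_lit 0) (nat_lit 0) (XT.lf (nat_lit 0) (nat_lit 13757255432) (nat_lit 152) (nat_lit 48009827425) (nat_lit 0) (nat_lit 5541568293) (nat_lit 3) (nat_lit 5) (nat_lit 5) (nat_lit 4) (nat_lit 3) (nat_lit 4) (nat_lit 393) (nat_lit 216) (nat_lit 171)) (XT.lf (nat_lit 0) (nat_lit 16425808497)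 (nat_lit 152) (nat_lit 44699147550) (nat_lit 0) (nat_lit 8124094533) (nat_lit 3) (nat_lit 5) (nat_lit 5) (nat_lit 4) (nat_lit 3) (nat_lit 4) (nat_lit 394) (nat_lit 216) (nat_lit 170)))) (XT.nd (nat_lit 78) (nat_lit 0) (nat_lit 0) (XT.lf (nat_lit 0) (nat_lit 19148563338) (nat_lit 152) (nat_lit 41336557418) (nat_lit 0) (nat_lit 10763328185) (nat_lit 3) (nat_lit 5) (nat_lit 5) (nat_lit 4) (nat_lit 3) (nat_lit 4) (nat_lit 395) (nat_lit 216) (nat_lit 169)) (XT.nd (nat_lit 78) (nat_lit 0) (nat_lit 0) (XT.lf (nat_lit 0) (nat_lit 21927899061) (nat_lit 152) (nat_lit 37919118842) (nat_lit 0) (nat_lit 13461575375) (nat_lit 3) (nat_lit 5) (nat_lit 5) (nat_lit 4) (nat_lit 3) (nat_lit 4) (nat_lit 396) (nat_lit 216) (nat_lit 168)) (XT.lf (nat_lit 0) (nat_lit 24766244213) (nat_lit 152) (nat_lit 34443845713) (nat_lit 0) (nat_lit 16221193795) (nat_lit 3) (nat_lit 5) (nat_lit 5) (nat_lit 4) (nat_lit 3) (nat_lit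 4) (nat_lit 397) (nat_lit 216) (nat_lit 167))))) (XT.nd (nat_lit 234) (nat_lit 0) (nat_lit 0) (XT.nd (nat_lit 78) (nat_lit 0) (nat_lit 0) (XT.lf (nat_lit 0) (nat_lit 27666078900) (nat_lit 152) (nat_lit 30907701382) (nat_lit 0) (nat_lit 19044594763) (nat_lit 3) (nat_lit 5) (nat_lit 5) (nat_lit 4) (nat_lit 3) (nat_lit 4) (nat_lit 398) (nat_lit 216) (nat_lit 166)) (XT.nd (nat_lit 78) (nat_lit 0) (nat_lit 0) (XT.lf (nat_lit 0) (nat_lit 30629936959) (nat_lit 152) (nat_lit 27307596016) (nat_lit 0) (nat_lit 21934245327) (nat_lit 3) (nat_lit 5) (nat_lit 5) (nat_lit 4) (nat_lit 3) (nat_lit 4) (nat_lit 399) (nat_lit 216) (nat_lit 165)) (XT.lf (nat_lit 0) (nat_lit 33660408169) (nat_lit 152) (nat_lit 23640383891) (nat_lit 0) (nat_lit 24892670425) (nat_lit 3) (nat_lit 5) (nat_lit 5) (nat_lit 4) (nat_lit 3) (nat_lit 4) (nat_lit 400) (nat_lit 216) (nat_lit 164)))) (XT.nd (nat_lit 78) (nat_lit 0) (nat_lit 0)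 (XT.lf (nat_lit 0) (nat_lit 36760140513) (nat_lit 152) (nat_lit 19902860647) (nat_lit 0) (nat_lit 27922455088) (nat_lit 3) (nat_lit 5) (nat_lit 5) (nat_lit 4) (nat_lit 3) (nat_lit 4) (nat_lit 401) (nat_lit 216) (nat_lit 163)) (XT.nd (nat_lit 78) (nat_lit 0) (nat_lit 0) (XT.lf (nat_lit 0) (nat_lit 39931842497) (nat_lit 152) (nat_lit 16091760487) (nat_lit 0) (nat_lit 31026246702) (nat_lit 3) (nat_lit 5) (nat_lit 5) (nat_lit 4) (nat_lit 3) (nat_lit 4) (nat_lit 402) (nat_lit 216) (nat_lit 162)) (XT.lf (nat_lit 0) (nat_lit 43178285510) (nat_lit 152) (nat_lit 12203753324) (nat_lit 0) (nat_lit 34206757317) (nat_lit 3) (nat_lit 5) (nat_lit 5) (nat_lit 4) (nat_lit 3) (nat_lit 4) (nat_lit 403) (nat_lit 216) (nat_lit 161)))))) (XT.nd (nat_lit 36504) (nat_lit 0) (nat_lit 684) (XT.nd (nat_lit 36270) (nat_lit 0) (nat_lit 836) (XT.nd (nat_lit 36114) (nat_lit 0) (nat_lit 988) (XT.lf (nat_lit 0) (nat_lit 46502306250)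 (nat_lit 152) (nat_lit 8235441869) (nat_lit 0) (nat_lit 37466766020) (nat_lit 3) (nat_lit 5) (nat_lit 5) (nat_lit 4) (nat_lit 3) (nat_lit 4) (nat_lit 404) (nat_lit 216) (nat_lit 160)) (XT.nd (nat_lit 78) (nat_lit 152) (nat_lit 0) (XT.lf (nat_lit 0) (nat_lit 6585757296) (nat_lit 152) (nat_lit 1565403109) (nat_lit 152) (nat_lit 1565403109) (nat_lit 18) (nat_lit 4) (nat_lit 20) (nat_lit 5) (nat_lit 20) (nat_lit 4) (nat_lit 346) (nat_lit 217) (nat_lit 217)) (XT.lf (nat_lit 0) (nat_lit 574264371) (nat_lit 152) (nat_lit 19119355565) (nat_lit 0) (nat_lit 197130855) (nat_lit 16) (nat_lit 5) (nat_lit 18) (nat_lit 4) (nat_lit 16) (nat_lit 4) (nat_lit 347) (nat_lit 217) (nat_lit 216)))) (XT.nd (nat_lit 78) (nat_lit 152) (nat_lit 0) (XT.lf (nat_lit 0) (nat_lit 4340887198) (nat_lit 152) (nat_lit 12422331250) (nat_lit 0) (nat_lit 3597604639) (nat_lit 16) (nat_lit 5) (nat_lit 18) (nat_lit 4) (nat_lit 16) (nat_lit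 4) (nat_lit 348) (nat_lit 217) (nat_lit 215)) (XT.nd (nat_lit 78) (nat_lit 152) (nat_lit 0) (XT.lf (nat_lit 0) (nat_lit 8141355404) (nat_lit 152) (nat_lit 5663476520) (nat_lit 0) (nat_lit 7042588335) (nat_lit 16) (nat_lit 5) (nat_lit 18) (nat_lit 4) (nat_lit 16) (nat_lit 4) (nat_lit 349) (nat_lit 217) (nat_lit 214)) (XT.lf (nat_lit 0) (nat_lit 1186262677) (nat_lit 152) (nat_lit 10804130191) (nat_lit 152) (nat_lit 9360232531) (nat_lit 14) (nat_lit 4) (nat_lit 16) (nat_lit 5) (nat_lit 16) (nat_lit 4) (nat_lit 350) (nat_lit 217) (nat_lit 213))))) (XT.nd (nat_lit 234) (nat_lit 76) (nat_lit 0) (XT.nd (nat_lit 78) (nat_lit 76) (nat_lit 0) (XT.lf (nat_lit 0) (nat_lit 8223884154) (nat_lit 152) (nat_lit 7712312467) (nat_lit 152) (nat_lit 5933336563) (nat_lit 14) (nat_lit 4) (nat_lit 16) (nat_lit 5) (nat_lit 16) (nat_lit 4) (nat_lit 351) (nat_lit 217) (nat_lit 212)) (XT.nd (nat_lit 78) (nat_lit 76) (nat_lit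 0) (XT.lf (nat_lit 0) (nat_lit 15342823001) (nat_lit 152) (nat_lit 4583867172) (nat_lit 152) (nat_lit 2479572586) (nat_lit 14) (nat_lit 4) (nat_lit 16) (nat_lit 5) (nat_lit 16) (nat_lit 4) (nat_lit 352) (nat_lit 217) (nat_lit 211)) (XT.lf (nat_lit 0) (nat_lit 984484089) (nat_lit 228) (nat_lit 421635267) (nat_lit 76) (nat_lit 21554874200) (nat_lit 13) (nat_lit 5) (nat_lit 16) (nat_lit 5) (nat_lit 14) (nat_lit 4) (nat_lit 353) (nat_lit 217) (nat_lit 210)))) (XT.nd (nat_lit 78) (nat_lit 0) (nat_lit 0) (XT.lf (nat_lit 0) (nat_lit 4512206560) (nat_lit 152) (nat_lit 17154330703) (nat_lit 0) (nat_lit 1864845367) (nat_lit 12) (nat_lit 5) (nat_lit 14) (nat_lit 4) (nat_lit 12) (nat_lit 4) (nat_lit 354) (nat_lit 217) (nat_lit 209)) (XT.nd (nat_lit 78) (nat_lit 0) (nat_lit 0) (XT.lf (nat_lit 0) (nat_lit 8094153429) (nat_lit 152) (nat_lit 10868566483) (nat_lit 0) (nat_lit 5157750799) (nat_lit 12) (nat_lit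 5) (nat_lit 14) (nat_lit 4) (nat_lit 12) (nat_lit 4) (nat_lit 355) (nat_lit 217) (nat_lit 208)) (XT.lf (nat_lit 0) (nat_lit 11715763465) (nat_lit 152) (nat_lit 4514801721) (nat_lit 0) (nat_lit 8498738082) (nat_lit 12) (nat_lit 5) (nat_lit 14) (nat_lit 4) (nat_lit 12) (nat_lit 4) (nat_lit 356) (nat_lit 217) (nat_lit 207))))))))
noncomputable def xc18 : XT := (XT.nd (nat_lit 1794) (nat_lit 228) (nat_lit 0) (XT.nd (nat_lit 858) (nat_lit 152) (nat_lit 0) (XT.nd (nat_lit 390) (nat_lit 76) (nat_lit 0) (XT.nd (nat_lit 156) (nat_lit 152) (nat_lit 0) (XT.nd (nat_lit 78) (nat_lit 0) (nat_lit 0) (XT.lf (nat_lit 0) (nat_lit 1950578221) (nat_lit 76) (nat_lit 13448373113) (nat_lit 76) (nat_lit 9958898454) (nat_lit 11) (nat_lit 4) (nat_lit 12) (nat_lit 5) (nat_lit 12) (nat_lit 4) (nat_lit 357) (nat_lit 217) (nat_lit 206)) (XT.lf (nat_lit 0) (nat_lit 8586555656) (nat_lit 76) (nat_lit 10586652089) (nat_lit 76)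 (nat_lit 6832663570) (nat_lit 11) (nat_lit 4) (nat_lit 12) (nat_lit 5) (nat_lit 12) (nat_lit 4) (nat_lit 358) (nat_lit 217) (nat_lit 205))) (XT.nd (nat_lit 78) (nat_lit 152) (nat_lit 0) (XT.lf (nat_lit 0) (nat_lit 15309075603) (nat_lit 76) (nat_lit 7688492225) (nat_lit 76) (nat_lit 3677694134) (nat_lit 11) (nat_lit 4) (nat_lit 12) (nat_lit 5) (nat_lit 12) (nat_lit 4) (nat_lit 359) (nat_lit 217) (nat_lit 204)) (XT.nd (nat_lit 78) (nat_lit 152) (nat_lit 0) (XT.lf (nat_lit 0) (nat_lit 22124012108) (nat_lit 76) (nat_lit 4751361150) (nat_lit 76) (nat_lit 491233377) (nat_lit 11) (nat_lit 4) (nat_lit 12) (nat_lit 5) (nat_lit 12) (nat_lit 4) (nat_lit 360) (nat_lit 217) (nat_lit 203)) (XT.lf (nat_lit 0) (nat_lit 949093121) (nat_lit 76) (nat_lit 1736270695) (nat_lit 152) (nat_lit 25394084779) (nat_lit 9) (nat_lit 5) (nat_lit 10) (nat_lit 5) (nat_lit 11) (nat_lit 4) (nat_lit 361) (nat_lit 217) (nat_lit 202)))))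 (XT.nd (nat_lit 234) (nat_lit 76) (nat_lit 0) (XT.nd (nat_lit 78) (nat_lit 0) (nat_lit 0) (XT.lf (nat_lit 0) (nat_lit 5954169602) (nat_lit 152) (nat_lit 21504253558) (nat_lit 0) (nat_lit 1354934102) (nat_lit 9) (nat_lit 5) (nat_lit 11) (nat_lit 4) (nat_lit 9) (nat_lit 4) (nat_lit 362) (nat_lit 217) (nat_lit 201)) (XT.nd (nat_lit 78) (nat_lit 0) (nat_lit 0) (XT.lf (nat_lit 0) (nat_lit 9280130955) (nat_lit 152) (nat_lit 15831040209) (nat_lit 0) (nat_lit 4459369262) (nat_lit 9) (nat_lit 5) (nat_lit 11) (nat_lit 4) (nat_lit 9) (nat_lit 4) (nat_lit 363) (nat_lit 217) (nat_lit 200)) (XT.lf (nat_lit 0) (nat_lit 12649463960) (nat_lit 152) (nat_lit 10089068156) (nat_lit 0) (nat_lit 7613628292) (nat_lit 9) (nat_lit 5) (nat_lit 11) (nat_lit 4) (nat_lit 9) (nat_lit 4) (nat_lit 364) (nat_lit 217) (nat_lit 199)))) (XT.nd (nat_lit 78) (nat_lit 76) (nat_lit 0) (XT.lf (nat_lit 0) (nat_lit 16065112693) (nat_lit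 152) (nat_lit 4273320141) (nat_lit 0) (nat_lit 10820467342) (nat_lit 9) (nat_lit 5) (nat_lit 11) (nat_lit 4) (nat_lit 9) (nat_lit 4) (nat_lit 365) (nat_lit 217) (nat_lit 198)) (XT.nd (nat_lit 78) (nat_lit 0) (nat_lit 0) (XT.lf (nat_lit 0) (nat_lit 1653552319) (nat_lit 76) (nat_lit 17892404340) (nat_lit 76) (nat_lit 12445031141) (nat_lit 8) (nat_lit 4) (nat_lit 9) (nat_lit 5) (nat_lit 9) (nat_lit 4) (nat_lit 366) (nat_lit 217) (nat_lit 197)) (XT.lf (nat_lit 0) (nat_lit 7751152469) (nat_lit 76) (nat_lit 15370694964) (nat_lit 76) (nat_lit 9726498611) (nat_lit 8) (nat_lit 4) (nat_lit 9) (nat_lit 5) (nat_lit 9) (nat_lit 4) (nat_lit 367) (nat_lit 217) (nat_lit 196)))))) (XT.nd (nat_lit 468) (nat_lit 0) (nat_lit 0) (XT.nd (nat_lit 234) (nat_lit 152) (nat_lit 0) (XT.nd (nat_lit 78) (nat_lit 0) (nat_lit 0) (XT.lf (nat_lit 0) (nat_lit 13939760860) (nat_lit 76) (nat_lit 12814253425) (nat_lit 76) (nat_lit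 6978966632) (nat_lit 8) (nat_lit 4) (nat_lit 9) (nat_lit 5) (nat_lit 9) (nat_lit 4) (nat_lit 368) (nat_lit 217) (nat_lit 195)) (XT.nd (nat_lit 78) (nat_lit 0) (nat_lit 0) (XT.lf (nat_lit 0) (nat_lit 20224785013) (nat_lit 76) (nat_lit 10220845940) (nat_lit 76) (nat_lit 4200034447) (nat_lit 8) (nat_lit 4) (nat_lit 9) (nat_lit 5) (nat_lit 9) (nat_lit 4) (nat_lit 369) (nat_lit 217) (nat_lit 194)) (XT.lf (nat_lit 0) (nat_lit 26611716696) (nat_lit 76) (nat_lit 7588206423) (nat_lit 76) (nat_lit 1387273863) (nat_lit 8) (nat_lit 4) (nat_lit 9) (nat_lit 5) (nat_lit 9) (nat_lit 4) (nat_lit 370) (nat_lit 217) (nat_lit 193)))) (XT.nd (nat_lit 78) (nat_lit 76) (nat_lit 0) (XT.lf (nat_lit 0) (nat_lit 1433248417) (nat_lit 152) (nat_lit 3466313095) (nat_lit 76) (nat_lit 31658415308) (nat_lit 7) (nat_lit 5) (nat_lit 9) (nat_lit 5) (nat_lit 8) (nat_lit 4) (nat_lit 371) (nat_lit 217) (nat_lit 192)) (XT.nd (nat_lit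 78) (nat_lit 0) (nat_lit 0) (XT.lf (nat_lit 0) (nat_lit 2153819472) (nat_lit 76) (nat_lit 2131603304) (nat_lit 152) (nat_lit 33272819947) (nat_lit 6) (nat_lit 5) (nat_lit 7) (nat_lit 5) (nat_lit 8) (nat_lit 4) (nat_lit 372) (nat_lit 217) (nat_lit 191)) (XT.lf (nat_lit 0) (nat_lit 7219838445) (nat_lit 152) (nat_lit 30663936869) (nat_lit 0) (nat_lit 704862662) (nat_lit 6) (nat_lit 5) (nat_lit 8) (nat_lit 4) (nat_lit 6) (nat_lit 4) (nat_lit 373) (nat_lit 217) (nat_lit 190))))) (XT.nd (nat_lit 234) (nat_lit 0) (nat_lit 0) (XT.nd (nat_lit 78) (nat_lit 0) (nat_lit 0) (XT.lf (nat_lit 0) (nat_lit 10219130692) (nat_lit 152) (nat_lit 25882749206) (nat_lit 0) (nat_lit 3548780895) (nat_lit 6) (nat_lit 5) (nat_lit 8) (nat_lit 4) (nat_lit 6) (nat_lit 4) (nat_lit 374) (nat_lit 217) (nat_lit 189)) (XT.nd (nat_lit 78) (nat_lit 0) (nat_lit 0) (XT.lf (nat_lit 0) (nat_lit 13265429983) (nat_lit 152) (nat_lit 21036192250)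 (nat_lit 0) (nat_lit 6444231627) (nat_lit 6) (nat_lit 5) (nat_lit 8) (nat_lit 4) (nat_lit 6) (nat_lit 4) (nat_lit 375) (nat_lit 217) (nat_lit 188)) (XT.lf (nat_lit 0) (nat_lit 16361398132) (nat_lit 152) (nat_lit 16120031146) (nat_lit 0) (nat_lit 9393744865) (nat_lit 6) (nat_lit 5) (nat_lit 8) (nat_lit 4) (nat_lit 6) (nat_lit 4) (nat_lit 376) (nat_lit 217) (nat_lit 187)))) (XT.nd (nat_lit 78) (nat_lit 0) (nat_lit 0) (XT.lf (nat_lit 0) (nat_lit 19509740355) (nat_lit 152) (nat_lit 11129970218) (nat_lit 0) (nat_lit 12399897854) (nat_lit 6) (nat_lit 5) (nat_lit 8) (nat_lit 4) (nat_lit 6) (nat_lit 4) (nat_lit 377) (nat_lit 217) (nat_lit 186)) (XT.nd (nat_lit 78) (nat_lit 0) (nat_lit 0) (XT.lf (nat_lit 0) (nat_lit 22713207629) (nat_lit 152) (nat_lit 6061649220) (nat_lit 0) (nat_lit 15465317329) (nat_lit 6) (nat_lit 5) (nat_lit 8) (nat_lit 4) (nat_lit 6) (nat_lit 4) (nat_lit 378) (nat_lit 217) (nat_lit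 185)) (XT.lf (nat_lit 0) (nat_lit 25974599102) (nat_lit 152) (nat_lit 910639522) (nat_lit 0) (nat_lit 18592681811) (nat_lit 6) (nat_lit 5) (nat_lit 8) (nat_lit 4) (nat_lit 6) (nat_lit 4) (nat_lit 379) (nat_lit 217) (nat_lit 184))))))) (XT.nd (nat_lit 936) (nat_lit 0) (nat_lit 0) (XT.nd (nat_lit 468) (nat_lit 152) (nat_lit 0) (XT.nd (nat_lit 234) (nat_lit 0) (nat_lit 0) (XT.nd (nat_lit 78) (nat_lit 0) (nat_lit 0) (XT.lf (nat_lit 0) (nat_lit 4413686683) (nat_lit 76) (nat_lit 24925504905) (nat_lit 76) (nat_lit 17413464323) (nat_lit 5) (nat_lit 4) (nat_lit 6) (nat_lit 5) (nat_lit 6) (nat_lit 4) (nat_lit 380) (nat_lit 217) (nat_lit 183)) (XT.nd (nat_lit 78) (nat_lit 0) (nat_lit 0) (XT.lf (nat_lit 0) (nat_lit 9849729388) (nat_lit 76) (nat_lit 22927559019) (nat_lit 76) (nat_lit 15289185145) (nat_lit 5) (nat_lit 4) (nat_lit 6) (nat_lit 5) (nat_lit 6) (nat_lit 4) (nat_lit 381) (nat_lit 217) (nat_lit 182))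 (XT.lf (nat_lit 0) (nat_lit 15384115019) (nat_lit 76) (nat_lit 20898850863) (nat_lit 76) (nat_lit 13137823306) (nat_lit 5) (nat_lit 4) (nat_lit 6) (nat_lit 5) (nat_lit 6) (nat_lit 4) (nat_lit 382) (nat_lit 217) (nat_lit 181)))) (XT.nd (nat_lit 78) (nat_lit 0) (nat_lit 0) (XT.lf (nat_lit 0) (nat_lit 21021679448) (nat_lit 76) (nat_lit 18837607779) (nat_lit 76) (nat_lit 10957498977) (nat_lit 5) (nat_lit 4) (nat_lit 6) (nat_lit 5) (nat_lit 6) (nat_lit 4) (nat_lit 383) (nat_lit 217) (nat_lit 180)) (XT.nd (nat_lit 78) (nat_lit 0) (nat_lit 0) (XT.lf (nat_lit 0) (nat_lit 26767348701) (nat_lit 76) (nat_lit 16742028680) (nat_lit 76) (nat_lit 8746307019) (nat_lit 5) (nat_lit 4) (nat_lit 6) (nat_lit 5) (nat_lit 6) (nat_lit 4) (nat_lit 384) (nat_lit 217) (nat_lit 179)) (XT.lf (nat_lit 0) (nat_lit 32626143267) (nat_lit 76) (nat_lit 14610282478) (nat_lit 76) (nat_lit 6502315323) (nat_lit 5) (nat_lit 4) (nat_lit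 6) (nat_lit 5) (nat_lit 6) (nat_lit 4) (nat_lit 385) (nat_lit 217) (nat_lit 178))))) (XT.nd (nat_lit 234) (nat_lit 76) (nat_lit 0) (XT.nd (nat_lit 78) (nat_lit 76) (nat_lit 0) (XT.lf (nat_lit 0) (nat_lit 38603182480) (nat_lit 76) (nat_lit 12440506482) (nat_lit 76) (nat_lit 4223563119) (nat_lit 5) (nat_lit 4) (nat_lit 6) (nat_lit 5) (nat_lit 6) (nat_lit 4) (nat_lit 386) (nat_lit 217) (nat_lit 177)) (XT.nd (nat_lit 78) (nat_lit 76) (nat_lit 0) (XT.lf (nat_lit 0) (nat_lit 44703688997) (nat_lit 76) (nat_lit 10230804772) (nat_lit 76) (nat_lit 1908059265) (nat_lit 5) (nat_lit 4) (nat_lit 6) (nat_lit 5) (nat_lit 6) (nat_lit 4) (nat_lit 387) (nat_lit 217) (nat_lit 176)) (XT.lf (nat_lit 0) (nat_lit 437512144) (nat_lit 152) (nat_lit 7537316380) (nat_lit 76) (nat_lit 50491063197) (nat_lit 4) (nat_lit 5) (nat_lit 6) (nat_lit 5) (nat_lit 5) (nat_lit 4) (nat_lit 388) (nat_lit 217) (nat_lit 175)))) (XT.nd (nat_lit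 78) (nat_lit 76) (nat_lit 0) (XT.lf (nat_lit 0) (nat_lit 2785885709) (nat_lit 152) (nat_lit 2869846712) (nat_lit 76) (nat_lit 54482520948) (nat_lit 4) (nat_lit 5) (nat_lit 6) (nat_lit 5) (nat_lit 5) (nat_lit 4) (nat_lit 389) (nat_lit 217) (nat_lit 174)) (XT.nd (nat_lit 78) (nat_lit 0) (nat_lit 0) (XT.lf (nat_lit 0) (nat_lit 1923499166) (nat_lit 76) (nat_lit 3271337196) (nat_lit 152) (nat_lit 56666258449) (nat_lit 3) (nat_lit 5) (nat_lit 4) (nat_lit 5) (nat_lit 5) (nat_lit 4) (nat_lit 390) (nat_lit 217) (nat_lit 173)) (XT.lf (nat_lit 0) (nat_lit 6868298880) (nat_lit 76) (nat_lit 808706718) (nat_lit 152) (nat_lit 55958599748) (nat_lit 3) (nat_lit 5) (nat_lit 4) (nat_lit 5) (nat_lit 5) (nat_lit 4) (nat_lit 391) (nat_lit 217) (nat_lit 172)))))) (XT.nd (nat_lit 468) (nat_lit 0) (nat_lit 0) (XT.nd (nat_lit 234) (nat_lit 0) (nat_lit 0) (XT.nd (nat_lit 78) (nat_lit 0) (nat_lit 0) (XT.lf (nat_lit 0) (nat_lit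 10222819233) (nat_lit 152) (nat_lit 53568814725) (nat_lit 0) (nat_lit 1672053851) (nat_lit 3) (nat_lit 5) (nat_lit 5) (nat_lit 4) (nat_lit 3) (nat_lit 4) (nat_lit 392) (nat_lit 217) (nat_lit 171)) (XT.nd (nat_lit 78) (nat_lit 0) (nat_lit 0) (XT.lf (nat_lit 0) (nat_lit 12826383814) (nat_lit 152) (nat_lit 50331207672) (nat_lit 0) (nat_lit 4189591606) (nat_lit 3) (nat_lit 5) (nat_lit 5) (nat_lit 4) (nat_lit 3) (nat_lit 4) (nat_lit 393) (nat_lit 217) (nat_lit 170)) (XT.lf (nat_lit 0) (nat_lit 15482200517) (nat_lit 152) (nat_lit 47043882545) (nat_lit 0) (nat_lit 6761887120) (nat_lit 3) (nat_lit 5) (nat_lit 5) (nat_lit 4) (nat_lit 3) (nat_lit 4) (nat_lit 394) (nat_lit 217) (nat_lit 169)))) (XT.nd (nat_lit 78) (nat_lit 0) (nat_lit 0) (XT.lf (nat_lit 0) (nat_lit 18192589958) (nat_lit 152) (nat_lit 43703966926) (nat_lit 0) (nat_lit 9391188027) (nat_lit 3) (nat_lit 5) (nat_lit 5) (nat_lit 4) (nat_lit 3)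 (nat_lit 4) (nat_lit 395) (nat_lit 217) (nat_lit 168)) (XT.nd (nat_lit 78) (nat_lit 0) (nat_lit 0) (XT.lf (nat_lit 0) (nat_lit 20959920438) (nat_lit 152) (nat_lit 40308542440) (nat_lit 0) (nat_lit 12079791776) (nat_lit 3) (nat_lit 5) (nat_lit 5) (nat_lit 4) (nat_lit 3) (nat_lit 4) (nat_lit 396) (nat_lit 217) (nat_lit 167)) (XT.lf (nat_lit 0) (nat_lit 23786610014) (nat_lit 152) (nat_lit 36854642214) (nat_lit 0) (nat_lit 14830047632) (nat_lit 3) (nat_lit 5) (nat_lit 5) (nat_lit 4) (nat_lit 3) (nat_lit 4) (nat_lit 397) (nat_lit 217) (nat_lit 166))))) (XT.nd (nat_lit 234) (nat_lit 0) (nat_lit 0) (XT.nd (nat_lit 78) (nat_lit 0) (nat_lit 0) (XT.lf (nat_lit 0) (nat_lit 26675128608) (nat_lit 152) (nat_lit 33339248274) (nat_lit 0) (nat_lit 17644358732) (nat_lit 3) (nat_lit 5) (nat_lit 5) (nat_lit 4) (nat_lit 3) (nat_lit 4) (nat_lit 398) (nat_lit 217) (nat_lit 165)) (XT.nd (nat_lit 78) (nat_lit 0) (nat_lit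 0) (XT.lf (nat_lit 0) (nat_lit 29628000169) (nat_lit 152) (nat_lit 29759288919) (nat_lit 0) (nat_lit 20525184181) (nat_lit 3) (nat_lit 5) (nat_lit 5) (nat_lit 4) (nat_lit 3) (nat_lit 4) (nat_lit 399) (nat_lit 217) (nat_lit 164)) (XT.lf (nat_lit 0) (nat_lit 32647804875) (nat_lit 152) (nat_lit 26111636028) (nat_lit 0) (nat_lit 23475041206) (nat_lit 3) (nat_lit 5) (nat_lit 5) (nat_lit 4) (nat_lit 3) (nat_lit 4) (nat_lit 400) (nat_lit 217) (nat_lit 163)))) (XT.nd (nat_lit 78) (nat_lit 0) (nat_lit 0) (XT.lf (nat_lit 0) (nat_lit 35737181392) (nat_lit 152) (nat_lit 22393102331) (nat_lit 0) (nat_lit 26496507353) (nat_lit 3) (nat_lit 5) (nat_lit 5) (nat_lit 4) (nat_lit 3) (nat_lit 4) (nat_lit 401) (nat_lit 217) (nat_lit 162)) (XT.nd (nat_lit 78) (nat_lit 0) (nat_lit 0) (XT.lf (nat_lit 0) (nat_lit 38898829173) (nat_lit 152) (nat_lit 18600438625) (nat_lit 0) (nat_lit 29592222736) (nat_lit 3) (nat_lit 5)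 (nat_lit 5) (nat_lit 4) (nat_lit 3) (nat_lit 4) (nat_lit 402) (nat_lit 217) (nat_lit 161)) (XT.lf (nat_lit 0) (nat_lit 42135510825) (nat_lit 152) (nat_lit 14730330932) (nat_lit 0) (nat_lit 32764892351) (nat_lit 3) (nat_lit 5) (nat_lit 5) (nat_lit 4) (nat_lit 3) (nat_lit 4) (nat_lit 403) (nat_lit 217) (nat_lit 160))))))))
noncomputable def xc19 : XT := (XT.nd (nat_lit 37752) (nat_lit 0) (nat_lit 76) (XT.nd (nat_lit 36816) (nat_lit 0) (nat_lit 380) (XT.nd (nat_lit 36348) (nat_lit 0) (nat_lit 684) (XT.nd (nat_lit 36114) (nat_lit 0) (nat_lit 988) (XT.nd (nat_lit 35958) (nat_lit 0) (nat_lit 1140) (XT.lf (nat_lit 0) (nat_lit 45450054515) (nat_lit 152) (nat_lit 10779397603) (nat_lit 0) (nat_lit 36017288433) (nat_lit 3) (nat_lit 5) (nat_lit 5) (nat_lit 4) (nat_lit 3) (nat_lit 4) (nat_lit 404) (nat_lit 217) (nat_lit 159)) (XT.nd (nat_lit 78) (nat_lit 152) (nat_lit 0) (XT.lf (nat_lit 0) (nat_lit 4275950453)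 (nat_lit 152) (nat_lit 729186748) (nat_lit 0) (nat_lit 4275950453) (nat_lit 20) (nat_lit 5) (nat_lit 22) (nat_lit 4) (nat_lit 20) (nat_lit 4) (nat_lit 344) (nat_lit 218) (nat_lit 218)) (XT.lf (nat_lit 0) (nat_lit 5769001629) (nat_lit 152) (nat_lit 6810955552) (nat_lit 152) (nat_lit 6410854605) (nat_lit 18) (nat_lit 4) (nat_lit 20) (nat_lit 5) (nat_lit 20) (nat_lit 4) (nat_lit 345) (nat_lit 218) (nat_lit 217)))) (XT.nd (nat_lit 78) (nat_lit 152) (nat_lit 0) (XT.lf (nat_lit 0) (nat_lit 13102020765) (nat_lit 152) (nat_lit 3560439734) (nat_lit 152) (nat_lit 2771891267) (nat_lit 18) (nat_lit 4) (nat_lit 20) (nat_lit 5) (nat_lit 20) (nat_lit 4) (nat_lit 346) (nat_lit 218) (nat_lit 216)) (XT.nd (nat_lit 78) (nat_lit 0) (nat_lit 0) (XT.lf (nat_lit 0) (nat_lit 628107868) (nat_lit 76) (nat_lit 255532452) (nat_lit 152) (nat_lit 19009532171) (nat_lit 16) (nat_lit 5) (nat_lit 17) (nat_lit 5) (nat_lit 18) (nat_lit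 4) (nat_lit 347) (nat_lit 218) (nat_lit 215)) (XT.lf (nat_lit 0) (nat_lit 4608815037) (nat_lit 152) (nat_lit 12634096444) (nat_lit 0) (nat_lit 3121600448) (nat_lit 16) (nat_lit 5) (nat_lit 18) (nat_lit 4) (nat_lit 16) (nat_lit 4) (nat_lit 348) (nat_lit 218) (nat_lit 214))))) (XT.nd (nat_lit 234) (nat_lit 152) (nat_lit 0) (XT.nd (nat_lit 78) (nat_lit 152) (nat_lit 0) (XT.lf (nat_lit 0) (nat_lit 8371427149) (nat_lit 152) (nat_lit 5941758675) (nat_lit 0) (nat_lit 6539081969) (nat_lit 16) (nat_lit 5) (nat_lit 18) (nat_lit 4) (nat_lit 16) (nat_lit 4) (nat_lit 349) (nat_lit 218) (nat_lit 213)) (XT.nd (nat_lit 78) (nat_lit 0) (nat_lit 0) (XT.lf (nat_lit 0) (nat_lit 836577328) (nat_lit 152) (nat_lit 11343772407) (nat_lit 152) (nat_lit 9176348982) (nat_lit 14) (nat_lit 4) (nat_lit 16) (nat_lit 5) (nat_lit 16) (nat_lit 4) (nat_lit 350) (nat_lit 218) (nat_lit 212)) (XT.lf (nat_lit 0) (nat_lit 7810252364)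 (nat_lit 152) (nat_lit 8279603432) (nat_lit 152) (nat_lit 5786861325) (nat_lit 14) (nat_lit 4) (nat_lit 16) (nat_lit 5) (nat_lit 16) (nat_lit 4) (nat_lit 351) (nat_lit 218) (nat_lit 211)))) (XT.nd (nat_lit 78) (nat_lit 152) (nat_lit 0) (XT.lf (nat_lit 0) (nat_lit 14867107287) (nat_lit 152) (nat_lit 5178001584) (nat_lit 152) (nat_lit 2369416095) (nat_lit 14) (nat_lit 4) (nat_lit 16) (nat_lit 5) (nat_lit 16) (nat_lit 4) (nat_lit 352) (nat_lit 218) (nat_lit 210)) (XT.nd (nat_lit 78) (nat_lit 76) (nat_lit 0) (XT.lf (nat_lit 0) (nat_lit 1057918177) (nat_lit 228) (nat_lit 967655648) (nat_lit 76) (nat_lit 20944707204) (nat_lit 13) (nat_lit 5) (nat_lit 16) (nat_lit 5) (nat_lit 14) (nat_lit 4) (nat_lit 353) (nat_lit 218) (nat_lit 209)) (XT.lf (nat_lit 0) (nat_lit 4539881362) (nat_lit 152) (nat_lit 17775835572) (nat_lit 0) (nat_lit 1226345217) (nat_lit 12) (nat_lit 5) (nat_lit 14) (nat_lit 4) (nat_lit 12)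 (nat_lit 4) (nat_lit 354) (nat_lit 218) (nat_lit 208)))))) (XT.nd (nat_lit 468) (nat_lit 228) (nat_lit 0) (XT.nd (nat_lit 234) (nat_lit 0) (nat_lit 0) (XT.nd (nat_lit 78) (nat_lit 76) (nat_lit 0) (XT.lf (nat_lit 0) (nat_lit 8088431561) (nat_lit 152) (nat_lit 11549466616) (nat_lit 0) (nat_lit 4494272663) (nat_lit 12) (nat_lit 5) (nat_lit 14) (nat_lit 4) (nat_lit 12) (nat_lit 4) (nat_lit 355) (nat_lit 218) (nat_lit 207)) (XT.nd (nat_lit 78) (nat_lit 76) (nat_lit 0) (XT.lf (nat_lit 0) (nat_lit 11677617648) (nat_lit 152) (nat_lit 5253367159) (nat_lit 0) (nat_lit 7811009473) (nat_lit 12) (nat_lit 5) (nat_lit 14) (nat_lit 4) (nat_lit 12) (nat_lit 4) (nat_lit 356) (nat_lit 218) (nat_lit 206)) (XT.lf (nat_lit 0) (nat_lit 1140213924) (nat_lit 76) (nat_lit 14181322311) (nat_lit 76) (nat_lit 10050200277) (nat_lit 11) (nat_lit 4) (nat_lit 12) (nat_lit 5) (nat_lit 12) (nat_lit 4) (nat_lit 357) (nat_lit 218)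 (nat_lit 205)))) (XT.nd (nat_lit 78) (nat_lit 0) (nat_lit 0) (XT.lf (nat_lit 0) (nat_lit 7720754507) (nat_lit 76) (nat_lit 11343942564) (nat_lit 76) (nat_lit 6956010957) (nat_lit 11) (nat_lit 4) (nat_lit 12) (nat_lit 5) (nat_lit 12) (nat_lit 4) (nat_lit 358) (nat_lit 218) (nat_lit 204)) (XT.nd (nat_lit 78) (nat_lit 0) (nat_lit 0) (XT.lf (nat_lit 0) (nat_lit 14389452266) (nat_lit 76) (nat_lit 8469415008) (nat_lit 76) (nat_lit 3832153718) (nat_lit 11) (nat_lit 4) (nat_lit 12) (nat_lit 5) (nat_lit 12) (nat_lit 4) (nat_lit 359) (nat_lit 218) (nat_lit 203)) (XT.lf (nat_lit 0) (nat_lit 21152134221) (nat_lit 76) (nat_lit 5555227921) (nat_lit 76) (nat_lit 675898979) (nat_lit 11) (nat_lit 4) (nat_lit 12) (nat_lit 5) (nat_lit 12) (nat_lit 4) (nat_lit 360) (nat_lit 218) (nat_lit 202))))) (XT.nd (nat_lit 234) (nat_lit 76) (nat_lit 0) (XT.nd (nat_lit 78) (nat_lit 76) (nat_lit 0) (XT.lf (nat_lit 0) (nat_lit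 2466424471) (nat_lit 152) (nat_lit 107504403) (nat_lit 76) (nat_lit 25523378988) (nat_lit 10) (nat_lit 5) (nat_lit 12) (nat_lit 5) (nat_lit 11) (nat_lit 4) (nat_lit 361) (nat_lit 218) (nat_lit 201)) (XT.nd (nat_lit 78) (nat_lit 0) (nat_lit 0) (XT.lf (nat_lit 0) (nat_lit 5697493377) (nat_lit 152) (nat_lit 22624287386) (nat_lit 0) (nat_lit 510582640) (nat_lit 9) (nat_lit 5) (nat_lit 11) (nat_lit 4) (nat_lit 9) (nat_lit 4) (nat_lit 362) (nat_lit 218) (nat_lit 200)) (XT.lf (nat_lit 0) (nat_lit 8995667938) (nat_lit 152) (nat_lit 17001043346) (nat_lit 0) (nat_lit 3593683226) (nat_lit 9) (nat_lit 5) (nat_lit 11) (nat_lit 4) (nat_lit 9) (nat_lit 4) (nat_lit 363) (nat_lit 218) (nat_lit 199)))) (XT.nd (nat_lit 78) (nat_lit 76) (nat_lit 0) (XT.lf (nat_lit 0) (nat_lit 12338023474) (nat_lit 152) (nat_lit 11307585184) (nat_lit 0) (nat_lit 6727229079) (nat_lit 9) (nat_lit 5) (nat_lit 11) (nat_lit 4) (nat_lit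 9) (nat_lit 4) (nat_lit 364) (nat_lit 218) (nat_lit 198)) (XT.nd (nat_lit 78) (nat_lit 76) (nat_lit 0) (XT.lf (nat_lit 0) (nat_lit 15727480491) (nat_lit 152) (nat_lit 5538938034) (nat_lit 0) (nat_lit 9913958247) (nat_lit 9) (nat_lit 5) (nat_lit 11) (nat_lit 4) (nat_lit 9) (nat_lit 4) (nat_lit 365) (nat_lit 218) (nat_lit 197)) (XT.lf (nat_lit 0) (nat_lit 316107056) (nat_lit 76) (nat_lit 18853932207) (nat_lit 76) (nat_lit 12843586810) (nat_lit 8) (nat_lit 4) (nat_lit 9) (nat_lit 5) (nat_lit 9) (nat_lit 4) (nat_lit 366) (nat_lit 218) (nat_lit 196))))))) (XT.nd (nat_lit 936) (nat_lit 152) (nat_lit 0) (XT.nd (nat_lit 468) (nat_lit 0) (nat_lit 0) (XT.nd (nat_lit 234) (nat_lit 152) (nat_lit 0) (XT.nd (nat_lit 78) (nat_lit 0) (nat_lit 0) (XT.lf (nat_lit 0) (nat_lit 6368426534) (nat_lit 76) (nat_lit 16352380032) (nat_lit 76) (nat_lit 10150944195) (nat_lit 8) (nat_lit 4) (nat_lit 9) (nat_lit 5) (nat_lit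 9) (nat_lit 4) (nat_lit 367) (nat_lit 218) (nat_lit 195)) (XT.nd (nat_lit 78) (nat_lit 0) (nat_lit 0) (XT.lf (nat_lit 0) (nat_lit 12513073107) (nat_lit 76) (nat_lit 13815508592) (nat_lit 76) (nat_lit 7428548055) (nat_lit 8) (nat_lit 4) (nat_lit 9) (nat_lit 5) (nat_lit 9) (nat_lit 4) (nat_lit 368) (nat_lit 218) (nat_lit 194)) (XT.lf (nat_lit 0) (nat_lit 18755415884) (nat_lit 76) (nat_lit 11241101201) (nat_lit 76) (nat_lit 4674019597) (nat_lit 8) (nat_lit 4) (nat_lit 9) (nat_lit 5) (nat_lit 9) (nat_lit 4) (nat_lit 369) (nat_lit 218) (nat_lit 193)))) (XT.nd (nat_lit 78) (nat_lit 152) (nat_lit 0) (XT.lf (nat_lit 0) (nat_lit 25100909338) (nat_lit 76) (nat_lit 8626908379) (nat_lit 76) (nat_lit 1884951953) (nat_lit 8) (nat_lit 4) (nat_lit 9) (nat_lit 5) (nat_lit 9) (nat_lit 4) (nat_lit 370) (nat_lit 218) (nat_lit 192)) (XT.nd (nat_lit 78) (nat_lit 76) (nat_lit 0) (XT.lf (nat_lit 0) (nat_lit 922727834)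 (nat_lit 152) (nat_lit 5038600303) (nat_lit 76) (nat_lit 30623052499) (nat_lit 7) (nat_lit 5) (nat_lit 9) (nat_lit 5) (nat_lit 8) (nat_lit 4) (nat_lit 371) (nat_lit 218) (nat_lit 191)) (XT.lf (nat_lit 0) (nat_lit 509948450) (nat_lit 76) (nat_lit 3227254776) (nat_lit 152) (nat_lit 33848584949) (nat_lit 6) (nat_lit 5) (nat_lit 7) (nat_lit 5) (nat_lit 8) (nat_lit 4) (nat_lit 372) (nat_lit 218) (nat_lit 190))))) (XT.nd (nat_lit 234) (nat_lit 0) (nat_lit 0) (XT.nd (nat_lit 78) (nat_lit 0) (nat_lit 0) (XT.lf (nat_lit 0) (nat_lit 6248829162) (nat_lit 76) (nat_lit 394243989) (nat_lit 152) (nat_lit 31973977010) (nat_lit 6) (nat_lit 5) (nat_lit 7) (nat_lit 5) (nat_lit 8) (nat_lit 4) (nat_lit 373) (nat_lit 218) (nat_lit 189)) (XT.nd (nat_lit 78) (nat_lit 0) (nat_lit 0) (XT.lf (nat_lit 0) (nat_lit 9617407347) (nat_lit 152) (nat_lit 27621699946) (nat_lit 0) (nat_lit 2440724482) (nat_lit 6) (nat_lit 5) (nat_lit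 8) (nat_lit 4) (nat_lit 6) (nat_lit 4) (nat_lit 374) (nat_lit 218) (nat_lit 188)) (XT.lf (nat_lit 0) (nat_lit 12643154854) (nat_lit 152) (nat_lit 22812479226) (nat_lit 0) (nat_lit 5320017079) (nat_lit 6) (nat_lit 5) (nat_lit 8) (nat_lit 4) (nat_lit 6) (nat_lit 4) (nat_lit 375) (nat_lit 218) (nat_lit 187)))) (XT.nd (nat_lit 78) (nat_lit 0) (nat_lit 0) (XT.lf (nat_lit 0) (nat_lit 15719169816) (nat_lit 152) (nat_lit 17932566896) (nat_lit 0) (nat_lit 8253842806) (nat_lit 6) (nat_lit 5) (nat_lit 8) (nat_lit 4) (nat_lit 6) (nat_lit 4) (nat_lit 376) (nat_lit 218) (nat_lit 186)) (XT.nd (nat_lit 78) (nat_lit 0) (nat_lit 0) (XT.lf (nat_lit 0) (nat_lit 18848140011) (nat_lit 152) (nat_lit 12977698952) (nat_lit 0) (nat_lit 11244765202) (nat_lit 6) (nat_lit 5) (nat_lit 8) (nat_lit 4) (nat_lit 6) (nat_lit 4) (nat_lit 377) (nat_lit 218) (nat_lit 185)) (XT.lf (nat_lit 0) (nat_lit 22032799493) (nat_lit 152) (nat_lit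 7943545900) (nat_lit 0) (nat_lit 14295397693) (nat_lit 6) (nat_lit 5) (nat_lit 8) (nat_lit 4) (nat_lit 6) (nat_lit 4) (nat_lit 378) (nat_lit 218) (nat_lit 184)))))) (XT.nd (nat_lit 468) (nat_lit 76) (nat_lit 0) (XT.nd (nat_lit 234) (nat_lit 0) (nat_lit 0) (XT.nd (nat_lit 78) (nat_lit 76) (nat_lit 0) (XT.lf (nat_lit 0) (nat_lit 25275930972) (nat_lit 152) (nat_lit 2825708964) (nat_lit 0) (nat_lit 17408405881) (nat_lit 6) (nat_lit 5) (nat_lit 8) (nat_lit 4) (nat_lit 6) (nat_lit 4) (nat_lit 379) (nat_lit 218) (nat_lit 183)) (XT.nd (nat_lit 78) (nat_lit 0) (nat_lit 0) (XT.lf (nat_lit 0) (nat_lit 2427656065) (nat_lit 76) (nat_lit 26176048303) (nat_lit 76) (nat_lit 18182189920) (nat_lit 5) (nat_lit 4) (nat_lit 6) (nat_lit 5) (nat_lit 6) (nat_lit 4) (nat_lit 380) (nat_lit 218) (nat_lit 182)) (XT.lf (nat_lit 0) (nat_lit 7831807954) (nat_lit 76) (nat_lit 24192474884) (nat_lit 76) (nat_lit 16075962818) (nat_lit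 5) (nat_lit 4) (nat_lit 6) (nat_lit 5) (nat_lit 6) (nat_lit 4) (nat_lit 381) (nat_lit 218) (nat_lit 181)))) (XT.nd (nat_lit 78) (nat_lit 0) (nat_lit 0) (XT.lf (nat_lit 0) (nat_lit 13335231629) (nat_lit 76) (nat_lit 22177720578) (nat_lit 76) (nat_lit 13942127267) (nat_lit 5) (nat_lit 4) (nat_lit 6) (nat_lit 5) (nat_lit 6) (nat_lit 4) (nat_lit 382) (nat_lit 218) (nat_lit 180)) (XT.nd (nat_lit 78) (nat_lit 0) (nat_lit 0) (XT.lf (nat_lit 0) (nat_lit 18942735906) (nat_lit 76) (nat_lit 20130024921) (nat_lit 76) (nat_lit 11778818751) (nat_lit 5) (nat_lit 4) (nat_lit 6) (nat_lit 5) (nat_lit 6) (nat_lit 4) (nat_lit 383) (nat_lit 218) (nat_lit 179)) (XT.lf (nat_lit 0) (nat_lit 24659220546) (nat_lit 76) (nat_lit 18047598665) (nat_lit 76) (nat_lit 9584147001) (nat_lit 5) (nat_lit 4) (nat_lit 6) (nat_lit 5) (nat_lit 6) (nat_lit 4) (nat_lit 384) (nat_lit 218) (nat_lit 178))))) (XT.nd (nat_lit 234) (nat_lit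 76) (nat_lit 0) (XT.nd (nat_lit 78) (nat_lit 0) (nat_lit 0) (XT.lf (nat_lit 0) (nat_lit 30489680536) (nat_lit 76) (nat_lit 15928622213) (nat_lit 76) (nat_lit 7356194341) (nat_lit 5) (nat_lit 4) (nat_lit 6) (nat_lit 5) (nat_lit 6) (nat_lit 4) (nat_lit 385) (nat_lit 218) (nat_lit 177)) (XT.nd (nat_lit 78) (nat_lit 0) (nat_lit 0) (XT.lf (nat_lit 0) (nat_lit 36439210452) (nat_lit 76) (nat_lit 13771244032) (nat_lit 76) (nat_lit 5093014017) (nat_lit 5) (nat_lit 4) (nat_lit 6) (nat_lit 5) (nat_lit 6) (nat_lit 4) (nat_lit 386) (nat_lit 218) (nat_lit 176)) (XT.lf (nat_lit 0) (nat_lit 42513008914) (nat_lit 76) (nat_lit 11573579036) (nat_lit 76) (nat_lit 2792628493) (nat_lit 5) (nat_lit 4) (nat_lit 6) (nat_lit 5) (nat_lit 6) (nat_lit 4) (nat_lit 387) (nat_lit 218) (nat_lit 175)))) (XT.nd (nat_lit 78) (nat_lit 76) (nat_lit 0) (XT.lf (nat_lit 0) (nat_lit 48716383122) (nat_lit 76) (nat_lit 9333706934) (nat_lit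 76) (nat_lit 453027723) (nat_lit 5) (nat_lit 4) (nat_lit 6) (nat_lit 5) (nat_lit 6) (nat_lit 4) (nat_lit 388) (nat_lit 218) (nat_lit 174)) (XT.nd (nat_lit 78) (nat_lit 0) (nat_lit 0) (XT.lf (nat_lit 0) (nat_lit 1890213646) (nat_lit 152) (nat_lit 5140369458) (nat_lit 76) (nat_lit 53145452404) (nat_lit 4) (nat_lit 5) (nat_lit 6) (nat_lit 5) (nat_lit 5) (nat_lit 4) (nat_lit 389) (nat_lit 218) (nat_lit 173)) (XT.lf (nat_lit 0) (nat_lit 4267109015) (nat_lit 152) (nat_lit 409275693) (nat_lit 76) (nat_lit 57223459986) (nat_lit 4) (nat_lit 5) (nat_lit 6) (nat_lit 5) (nat_lit 5) (nat_lit 4) (nat_lit 390) (nat_lit 218) (nat_lit 172))))))))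
noncomputable def xc20 : XT := (XT.nd (nat_lit 37518) (nat_lit 0) (nat_lit 228) (XT.nd (nat_lit 858) (nat_lit 0) (nat_lit 0) (XT.nd (nat_lit 390) (nat_lit 0) (nat_lit 0) (XT.nd (nat_lit 156) (nat_lit 0) (nat_lit 0) (XT.nd (nat_lit 78) (nat_lit 0) (nat_lit 0) (XT.lf (nat_lit 0) (nat_lit 4502903244) (nat_lit 76) (nat_lit 2228956902) (nat_lit 152) (nat_lit 56943023533) (nat_lit 3) (nat_lit 5) (nat_lit 4) (nat_lit 5) (nat_lit 5) (nat_lit 4) (nat_lit 391) (nat_lit 218) (nat_lit 171)) (XT.lf (nat_lit 0) (nat_lit 9250903014) (nat_lit 152) (nat_lit 55983891770) (nat_lit 0) (nat_lit 268980215) (nat_lit 3) (nat_lit 5) (nat_lit 5) (nat_lit 4) (nat_lit 3) (nat_lit 4) (nat_lit 392) (nat_lit 218) (nat_lit 170))) (XT.nd (nat_lit 78) (nat_lit 0) (nat_lit 0) (XT.lf (nat_lit 0) (nat_lit 11841731233) (nat_lit 152) (nat_lit 52769639465) (nat_lit 0) (nat_lit 2776287244) (nat_lit 3) (nat_lit 5) (nat_lit 5) (nat_lit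 4) (nat_lit 3) (nat_lit 4) (nat_lit 393) (nat_lit 218) (nat_lit 169)) (XT.nd (nat_lit 78) (nat_lit 0) (nat_lit 0) (XT.lf (nat_lit 0) (nat_lit 14485182535) (nat_lit 152) (nat_lit 49504988851) (nat_lit 0) (nat_lit 5338650013) (nat_lit 3) (nat_lit 5) (nat_lit 5) (nat_lit 4) (nat_lit 3) (nat_lit 4) (nat_lit 394) (nat_lit 218) (nat_lit 168)) (XT.lf (nat_lit 0) (nat_lit 17183566732) (nat_lit 152) (nat_lit 46187087322) (nat_lit 0) (nat_lit 7958307480) (nat_lit 3) (nat_lit 5) (nat_lit 5) (nat_lit 4) (nat_lit 3) (nat_lit 4) (nat_lit 395) (nat_lit 218) (nat_lit 167))))) (XT.nd (nat_lit 234) (nat_lit 0) (nat_lit 0) (XT.nd (nat_lit 78) (nat_lit 0) (nat_lit 0) (XT.lf (nat_lit 0) (nat_lit 19939241637) (nat_lit 152) (nat_lit 42813035739) (nat_lit 0) (nat_lit 10637548664) (nat_lit 3) (nat_lit 5) (nat_lit 5) (nat_lit 4) (nat_lit 3) (nat_lit 4) (nat_lit 396) (nat_lit 218) (nat_lit 166)) (XT.nd (nat_lit 78) (nat_lit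 0) (nat_lit 0) (XT.lf (nat_lit 0) (nat_lit 22754615120) (nat_lit 152) (nat_lit 39379885904) (nat_lit 0) (nat_lit 13378714652) (nat_lit 3) (nat_lit 5) (nat_lit 5) (nat_lit 4) (nat_lit 3) (nat_lit 4) (nat_lit 397) (nat_lit 218) (nat_lit 165)) (XT.lf (nat_lit 0) (nat_lit 25632147216) (nat_lit 152) (nat_lit 35884637976) (nat_lit 0) (nat_lit 16184200637) (nat_lit 3) (nat_lit 5) (nat_lit 5) (nat_lit 4) (nat_lit 3) (nat_lit 4) (nat_lit 398) (nat_lit 218) (nat_lit 164)))) (XT.nd (nat_lit 78) (nat_lit 0) (nat_lit 0) (XT.lf (nat_lit 0) (nat_lit 28574352273) (nat_lit 152) (nat_lit 32324237854) (nat_lit 0) (nat_lit 19056458013) (nat_lit 3) (nat_lit 5) (nat_lit 5) (nat_lit 4) (nat_lit 3) (nat_lit 4) (nat_lit 399) (nat_lit 218) (nat_lit 163)) (XT.nd (nat_lit 78) (nat_lit 0) (nat_lit 0) (XT.lf (nat_lit 0) (nat_lit 31583801152) (nat_lit 152) (nat_lit 28695574510) (nat_lit 0) (nat_lit 21997996522) (nat_lit 3)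 (nat_lit 5) (nat_lit 5) (nat_lit 4) (nat_lit 3) (nat_lit 4) (nat_lit 400) (nat_lit 218) (nat_lit 162)) (XT.lf (nat_lit 0) (nat_lit 34663123466) (nat_lit 152) (nat_lit 24995477268) (nat_lit 0) (nat_lit 25011386438) (nat_lit 3) (nat_lit 5) (nat_lit 5) (nat_lit 4) (nat_lit 3) (nat_lit 4) (nat_lit 401) (nat_lit 218) (nat_lit 161)))))) (XT.nd (nat_lit 36192) (nat_lit 0) (nat_lit 836) (XT.nd (nat_lit 35958) (nat_lit 0) (nat_lit 1292) (XT.nd (nat_lit 78) (nat_lit 0) (nat_lit 0) (XT.lf (nat_lit 0) (nat_lit 37815009886) (nat_lit 152) (nat_lit 21220713031) (nat_lit 0) (nat_lit 28099260821) (nat_lit 3) (nat_lit 5) (nat_lit 5) (nat_lit 4) (nat_lit 3) (nat_lit 4) (nat_lit 402) (nat_lit 218) (nat_lit 160)) (XT.nd (nat_lit 78) (nat_lit 0) (nat_lit 0) (XT.lf (nat_lit 0) (nat_lit 41042214488) (nat_lit 152) (nat_lit 17367983464) (nat_lit 0) (nat_lit 31264317815) (nat_lit 3) (nat_lit 5) (nat_lit 5) (nat_lit 4) (nat_lit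 3) (nat_lit 4) (nat_lit 403) (nat_lit 218) (nat_lit 159)) (XT.lf (nat_lit 0) (nat_lit 44347557159) (nat_lit 152) (nat_lit 13433922102) (nat_lit 0) (nat_lit 34509323001) (nat_lit 3) (nat_lit 5) (nat_lit 5) (nat_lit 4) (nat_lit 3) (nat_lit 4) (nat_lit 404) (nat_lit 218) (nat_lit 158)))) (XT.nd (nat_lit 78) (nat_lit 0) (nat_lit 0) (XT.lf (nat_lit 0) (nat_lit 582436859) (nat_lit 152) (nat_lit 7707561137) (nat_lit 0) (nat_lit 582436859) (nat_lit 20) (nat_lit 5) (nat_lit 22) (nat_lit 4) (nat_lit 20) (nat_lit 4) (nat_lit 342) (nat_lit 219) (nat_lit 219)) (XT.nd (nat_lit 78) (nat_lit 0) (nat_lit 0) (XT.lf (nat_lit 0) (nat_lit 5027345327) (nat_lit 152) (nat_lit 8504267042) (nat_lit 0) (nat_lit 4615241352) (nat_lit 20) (nat_lit 5) (nat_lit 22) (nat_lit 4) (nat_lit 20) (nat_lit 4) (nat_lit 343) (nat_lit 219) (nat_lit 218)) (XT.lf (nat_lit 0) (nat_lit 8923532842) (nat_lit 152) (nat_lit 1528555381) (nat_lit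 0) (nat_lit 8111327921) (nat_lit 20) (nat_lit 5) (nat_lit 22) (nat_lit 4) (nat_lit 20) (nat_lit 4) (nat_lit 344) (nat_lit 219) (nat_lit 217))))) (XT.nd (nat_lit 234) (nat_lit 152) (nat_lit 0) (XT.nd (nat_lit 78) (nat_lit 152) (nat_lit 0) (XT.lf (nat_lit 0) (nat_lit 5627929159) (nat_lit 152) (nat_lit 7283010640) (nat_lit 152) (nat_lit 6082358198) (nat_lit 18) (nat_lit 4) (nat_lit 20) (nat_lit 5) (nat_lit 20) (nat_lit 4) (nat_lit 345) (nat_lit 219) (nat_lit 216)) (XT.nd (nat_lit 78) (nat_lit 152) (nat_lit 0) (XT.lf (nat_lit 0) (nat_lit 12893478559) (nat_lit 152) (nat_lit 4061167219) (nat_lit 152) (nat_lit 2483381261) (nat_lit 18) (nat_lit 4) (nat_lit 20) (nat_lit 5) (nat_lit 20) (nat_lit 4) (nat_lit 346) (nat_lit 219) (nat_lit 215)) (XT.lf (nat_lit 0) (nat_lit 341233248) (nat_lit 76) (nat_lit 784465397) (nat_lit 152) (nat_lit 18772314273) (nat_lit 16) (nat_lit 5) (nat_lit 17) (nat_lit 5) (nat_lit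 18) (nat_lit 4) (nat_lit 347) (nat_lit 219) (nat_lit 214)))) (XT.nd (nat_lit 78) (nat_lit 152) (nat_lit 0) (XT.lf (nat_lit 0) (nat_lit 4807932841) (nat_lit 152) (nat_lit 12987244025) (nat_lit 0) (nat_lit 2575486714) (nat_lit 16) (nat_lit 5) (nat_lit 18) (nat_lit 4) (nat_lit 16) (nat_lit 4) (nat_lit 348) (nat_lit 219) (nat_lit 213)) (XT.nd (nat_lit 78) (nat_lit 152) (nat_lit 0) (XT.lf (nat_lit 0) (nat_lit 8533791464) (nat_lit 152) (nat_lit 6359485830) (nat_lit 0) (nat_lit 5966267093) (nat_lit 16) (nat_lit 5) (nat_lit 18) (nat_lit 4) (nat_lit 16) (nat_lit 4) (nat_lit 349) (nat_lit 219) (nat_lit 212)) (XT.lf (nat_lit 0) (nat_lit 346590142) (nat_lit 152) (nat_lit 11955730851) (nat_lit 152) (nat_lit 9062887797) (nat_lit 14) (nat_lit 4) (nat_lit 16) (nat_lit 5) (nat_lit 16) (nat_lit 4) (nat_lit 350) (nat_lit 219) (nat_lit 211))))))) (XT.nd (nat_lit 936) (nat_lit 228) (nat_lit 0) (XT.nd (nat_lit 468)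 (nat_lit 228) (nat_lit 0) (XT.nd (nat_lit 234) (nat_lit 76) (nat_lit 0) (XT.nd (nat_lit 78) (nat_lit 76) (nat_lit 0) (XT.lf (nat_lit 0) (nat_lit 7258181256) (nat_lit 152) (nat_lit 8918405323) (nat_lit 152) (nat_lit 5709718886) (nat_lit 14) (nat_lit 4) (nat_lit 16) (nat_lit 5) (nat_lit 16) (nat_lit 4) (nat_lit 351) (nat_lit 219) (nat_lit 210)) (XT.nd (nat_lit 78) (nat_lit 76) (nat_lit 0) (XT.lf (nat_lit 0) (nat_lit 14254760525) (nat_lit 152) (nat_lit 5842865073) (nat_lit 152) (nat_lit 2327534577) (nat_lit 14) (nat_lit 4) (nat_lit 16) (nat_lit 5) (nat_lit 16) (nat_lit 4) (nat_lit 352) (nat_lit 219) (nat_lit 209)) (XT.lf (nat_lit 0) (nat_lit 1065416560) (nat_lit 228) (nat_lit 1650247557) (nat_lit 76) (nat_lit 20266266289) (nat_lit 13) (nat_lit 5) (nat_lit 16) (nat_lit 5) (nat_lit 14) (nat_lit 4) (nat_lit 353) (nat_lit 219) (nat_lit 208)))) (XT.nd (nat_lit 78) (nat_lit 0) (nat_lit 0) (XT.lf (nat_lit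 0) (nat_lit 4500591170) (nat_lit 152) (nat_lit 18536557974) (nat_lit 0) (nat_lit 517984750) (nat_lit 12) (nat_lit 5) (nat_lit 14) (nat_lit 4) (nat_lit 12) (nat_lit 4) (nat_lit 354) (nat_lit 219) (nat_lit 207)) (XT.nd (nat_lit 78) (nat_lit 0) (nat_lit 0) (XT.lf (nat_lit 0) (nat_lit 8016717419) (nat_lit 152) (nat_lit 12367854322) (nat_lit 0) (nat_lit 3761661723) (nat_lit 12) (nat_lit 5) (nat_lit 14) (nat_lit 4) (nat_lit 12) (nat_lit 4) (nat_lit 355) (nat_lit 219) (nat_lit 206)) (XT.lf (nat_lit 0) (nat_lit 11574423942) (nat_lit 152) (nat_lit 6127740597) (nat_lit 0) (nat_lit 7054854386) (nat_lit 12) (nat_lit 5) (nat_lit 14) (nat_lit 4) (nat_lit 12) (nat_lit 4) (nat_lit 356) (nat_lit 219) (nat_lit 205))))) (XT.nd (nat_lit 234) (nat_lit 152) (nat_lit 0) (XT.nd (nat_lit 78) (nat_lit 0) (nat_lit 0) (XT.lf (nat_lit 0) (nat_lit 193001888) (nat_lit 76) (nat_lit 14985672777) (nat_lit 76) (nat_lit 10209293649)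 (nat_lit 11) (nat_lit 4) (nat_lit 12) (nat_lit 5) (nat_lit 12) (nat_lit 4) (nat_lit 357) (nat_lit 219) (nat_lit 204)) (XT.nd (nat_lit 78) (nat_lit 0) (nat_lit 0) (XT.lf (nat_lit 0) (nat_lit 6719720283) (nat_lit 76) (nat_lit 12171925337) (nat_lit 76) (nat_lit 7146216527) (nat_lit 11) (nat_lit 4) (nat_lit 12) (nat_lit 5) (nat_lit 12) (nat_lit 4) (nat_lit 358) (nat_lit 219) (nat_lit 203)) (XT.lf (nat_lit 0) (nat_lit 13336163492) (nat_lit 76) (nat_lit 9320341769) (nat_lit 76) (nat_lit 4052565306) (nat_lit 11) (nat_lit 4) (nat_lit 12) (nat_lit 5) (nat_lit 12) (nat_lit 4) (nat_lit 359) (nat_lit 219) (nat_lit 202)))) (XT.nd (nat_lit 78) (nat_lit 152) (nat_lit 0) (XT.lf (nat_lit 0) (nat_lit 20048112873) (nat_lit 76) (nat_lit 6428430398) (nat_lit 76) (nat_lit 925636797) (nat_lit 11) (nat_lit 4) (nat_lit 12) (nat_lit 5) (nat_lit 12) (nat_lit 4) (nat_lit 360) (nat_lit 219) (nat_lit 201)) (XT.nd (nat_lit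 78) (nat_lit 76) (nat_lit 0) (XT.lf (nat_lit 0) (nat_lit 2193643461) (nat_lit 152) (nat_lit 1277869352) (nat_lit 76) (nat_lit 24645638278) (nat_lit 10) (nat_lit 5) (nat_lit 12) (nat_lit 5) (nat_lit 11) (nat_lit 4) (nat_lit 361) (nat_lit 219) (nat_lit 200)) (XT.lf (nat_lit 0) (nat_lit 4970237590) (nat_lit 76) (nat_lit 410417268) (nat_lit 152) (nat_lit 23472887838) (nat_lit 9) (nat_lit 5) (nat_lit 10) (nat_lit 5) (nat_lit 11) (nat_lit 4) (nat_lit 362) (nat_lit 219) (nat_lit 199)))))) (XT.nd (nat_lit 468) (nat_lit 152) (nat_lit 0) (XT.nd (nat_lit 234) (nat_lit 76) (nat_lit 0) (XT.nd (nat_lit 78) (nat_lit 0) (nat_lit 0) (XT.lf (nat_lit 0) (nat_lit 8647906769) (nat_lit 152) (nat_lit 18304629776) (nat_lit 0) (nat_lit 2659978858) (nat_lit 9) (nat_lit 5) (nat_lit 11) (nat_lit 4) (nat_lit 9) (nat_lit 4) (nat_lit 363) (nat_lit 219) (nat_lit 198)) (XT.nd (nat_lit 78) (nat_lit 0) (nat_lit 0) (XT.lf (nat_lit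 0) (nat_lit 11964070588) (nat_lit 152) (nat_lit 12658272479) (nat_lit 0) (nat_lit 5773414829) (nat_lit 9) (nat_lit 5) (nat_lit 11) (nat_lit 4) (nat_lit 9) (nat_lit 4) (nat_lit 364) (nat_lit 219) (nat_lit 197)) (XT.lf (nat_lit 0) (nat_lit 15328098753) (nat_lit 152) (nat_lit 6935354325) (nat_lit 0) (nat_lit 8940619841) (nat_lit 9) (nat_lit 5) (nat_lit 11) (nat_lit 4) (nat_lit 9) (nat_lit 4) (nat_lit 365) (nat_lit 219) (nat_lit 196)))) (XT.nd (nat_lit 78) (nat_lit 76) (nat_lit 0) (XT.lf (nat_lit 0) (nat_lit 18742930706) (nat_lit 152) (nat_lit 1130874705) (nat_lit 0) (nat_lit 12164361353) (nat_lit 9) (nat_lit 5) (nat_lit 11) (nat_lit 4) (nat_lit 9) (nat_lit 4) (nat_lit 366) (nat_lit 219) (nat_lit 195)) (XT.nd (nat_lit 78) (nat_lit 0) (nat_lit 0) (XT.lf (nat_lit 0) (nat_lit 4854976331) (nat_lit 76) (nat_lit 17403242952) (nat_lit 76) (nat_lit 10639148900) (nat_lit 8) (nat_lit 4) (nat_lit 9) (nat_lit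 5) (nat_lit 9) (nat_lit 4) (nat_lit 367) (nat_lit 219) (nat_lit 194)) (XT.lf (nat_lit 0) (nat_lit 10956941528) (nat_lit 76) (nat_lit 14885371607) (nat_lit 76) (nat_lit 7941156487) (nat_lit 8) (nat_lit 4) (nat_lit 9) (nat_lit 5) (nat_lit 9) (nat_lit 4) (nat_lit 368) (nat_lit 219) (nat_lit 193))))) (XT.nd (nat_lit 234) (nat_lit 76) (nat_lit 0) (XT.nd (nat_lit 78) (nat_lit 76) (nat_lit 0) (XT.lf (nat_lit 0) (nat_lit 17157846075) (nat_lit 76) (nat_lit 12329410911) (nat_lit 76) (nat_lit 5210320969) (nat_lit 8) (nat_lit 4) (nat_lit 9) (nat_lit 5) (nat_lit 9) (nat_lit 4) (nat_lit 369) (nat_lit 219) (nat_lit 192)) (XT.nd (nat_lit 78) (nat_lit 76) (nat_lit 0) (XT.lf (nat_lit 0) (nat_lit 23463108238) (nat_lit 76) (nat_lit 9733127501) (nat_lit 76) (nat_lit 2444256178) (nat_lit 8) (nat_lit 4) (nat_lit 9) (nat_lit 5) (nat_lit 9) (nat_lit 4) (nat_lit 370) (nat_lit 219) (nat_lit 191)) (XT.lf (nat_lit 0) (nat_lit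 352440576) (nat_lit 152) (nat_lit 6738253244) (nat_lit 76) (nat_lit 29522237935) (nat_lit 7) (nat_lit 5) (nat_lit 9) (nat_lit 5) (nat_lit 8) (nat_lit 4) (nat_lit 371) (nat_lit 219) (nat_lit 190)))) (XT.nd (nat_lit 78) (nat_lit 76) (nat_lit 0) (XT.lf (nat_lit 0) (nat_lit 3140754738) (nat_lit 152) (nat_lit 1238010731) (nat_lit 76) (nat_lit 33236369021) (nat_lit 7) (nat_lit 5) (nat_lit 9) (nat_lit 5) (nat_lit 8) (nat_lit 4) (nat_lit 372) (nat_lit 219) (nat_lit 189)) (XT.nd (nat_lit 78) (nat_lit 0) (nat_lit 0) (XT.lf (nat_lit 0) (nat_lit 4438251861) (nat_lit 76) (nat_lit 1575230270) (nat_lit 152) (nat_lit 32633918677) (nat_lit 6) (nat_lit 5) (nat_lit 7) (nat_lit 5) (nat_lit 8) (nat_lit 4) (nat_lit 373) (nat_lit 219) (nat_lit 188)) (XT.lf (nat_lit 0) (nat_lit 8955912181) (nat_lit 152) (nat_lit 29488611768) (nat_lit 0) (nat_lit 1266625361) (nat_lit 6) (nat_lit 5) (nat_lit 8) (nat_lit 4) (nat_lit 6)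 (nat_lit 4) (nat_lit 374) (nat_lit 219) (nat_lit 187))))))))
noncomputable def xc21 : XT := (XT.nd (nat_lit 1794) (nat_lit 0) (nat_lit 0) (XT.nd (nat_lit 858) (nat_lit 152) (nat_lit 0) (XT.nd (nat_lit 390) (nat_lit 76) (nat_lit 0) (XT.nd (nat_lit 156) (nat_lit 0) (nat_lit 0) (XT.nd (nat_lit 78) (nat_lit 0) (nat_lit 0) (XT.lf (nat_lit 0) (nat_lit 11961706501) (nat_lit 152) (nat_lit 24715639822) (nat_lit 0) (nat_lit 4130230447) (nat_lit 6) (nat_lit 5) (nat_lit 8) (nat_lit 4) (nat_lit 6) (nat_lit 4) (nat_lit 375) (nat_lit 219) (nat_lit 186)) (XT.lf (nat_lit 0) (nat_lit 15018349435) (nat_lit 152) (nat_lit 19870920475) (nat_lit 0) (nat_lit 7048825582) (nat_lit 6) (nat_lit 5) (nat_lit 8) (nat_lit 4) (nat_lit 6) (nat_lit 4) (nat_lit 376) (nat_lit 219) (nat_lit 185))) (XT.nd (nat_lit 78) (nat_lit 0) (nat_lit 0) (XT.lf (nat_lit 0) (nat_lit 18128511837) (nat_lit 152) (nat_lit 14950220477) (nat_lit 0) (nat_lit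 10024960994) (nat_lit 6) (nat_lit 5) (nat_lit 8) (nat_lit 4) (nat_lit 6) (nat_lit 4) (nat_lit 377) (nat_lit 219) (nat_lit 184)) (XT.nd (nat_lit 78) (nat_lit 0) (nat_lit 0) (XT.lf (nat_lit 0) (nat_lit 21294911325) (nat_lit 152) (nat_lit 9949240187) (nat_lit 0) (nat_lit 13061237190) (nat_lit 6) (nat_lit 5) (nat_lit 8) (nat_lit 4) (nat_lit 6) (nat_lit 4) (nat_lit 378) (nat_lit 219) (nat_lit 183)) (XT.lf (nat_lit 0) (nat_lit 24520314656) (nat_lit 152) (nat_lit 4863609817) (nat_lit 0) (nat_lit 16160307228) (nat_lit 6) (nat_lit 5) (nat_lit 8) (nat_lit 4) (nat_lit 6) (nat_lit 4) (nat_lit 379) (nat_lit 219) (nat_lit 182))))) (XT.nd (nat_lit 234) (nat_lit 0) (nat_lit 0) (XT.nd (nat_lit 78) (nat_lit 0) (nat_lit 0) (XT.lf (nat_lit 0) (nat_lit 317306174) (nat_lit 76) (nat_lit 27493284109) (nat_lit 76) (nat_lit 19010622999) (nat_lit 5) (nat_lit 4) (nat_lit 6) (nat_lit 5) (nat_lit 6) (nat_lit 4) (nat_lit 380)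 (nat_lit 219) (nat_lit 181)) (XT.nd (nat_lit 78) (nat_lit 0) (nat_lit 0) (XT.lf (nat_lit 0) (nat_lit 5690496107) (nat_lit 76) (nat_lit 25523664540) (nat_lit 76) (nat_lit 16921922185) (nat_lit 5) (nat_lit 4) (nat_lit 6) (nat_lit 5) (nat_lit 6) (nat_lit 4) (nat_lit 381) (nat_lit 219) (nat_lit 180)) (XT.lf (nat_lit 0) (nat_lit 11163859630) (nat_lit 76) (nat_lit 23522457662) (nat_lit 76) (nat_lit 14805102448) (nat_lit 5) (nat_lit 4) (nat_lit 6) (nat_lit 5) (nat_lit 6) (nat_lit 4) (nat_lit 382) (nat_lit 219) (nat_lit 179)))) (XT.nd (nat_lit 78) (nat_lit 0) (nat_lit 0) (XT.lf (nat_lit 0) (nat_lit 16742179293) (nat_lit 76) (nat_lit 21487914848) (nat_lit 76) (nat_lit 12658314140) (nat_lit 5) (nat_lit 4) (nat_lit 6) (nat_lit 5) (nat_lit 6) (nat_lit 4) (nat_lit 383) (nat_lit 219) (nat_lit 178)) (XT.nd (nat_lit 78) (nat_lit 0) (nat_lit 0) (XT.lf (nat_lit 0) (nat_lit 22430329357) (nat_lit 76) (nat_lit 19418258341)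 (nat_lit 76) (nat_lit 10479681425) (nat_lit 5) (nat_lit 4) (nat_lit 6) (nat_lit 5) (nat_lit 6) (nat_lit 4) (nat_lit 384) (nat_lit 219) (nat_lit 177)) (XT.lf (nat_lit 0) (nat_lit 28233280050) (nat_lit 76) (nat_lit 17311679704) (nat_lit 76) (nat_lit 8267300645) (nat_lit 5) (nat_lit 4) (nat_lit 6) (nat_lit 5) (nat_lit 6) (nat_lit 4) (nat_lit 385) (nat_lit 219) (nat_lit 176)))))) (XT.nd (nat_lit 468) (nat_lit 0) (nat_lit 0) (XT.nd (nat_lit 234) (nat_lit 152) (nat_lit 0) (XT.nd (nat_lit 78) (nat_lit 0) (nat_lit 0) (XT.lf (nat_lit 0) (nat_lit 34156101911) (nat_lit 76) (nat_lit 15166338238) (nat_lit 76) (nat_lit 6019238651) (nat_lit 5) (nat_lit 4) (nat_lit 6) (nat_lit 5) (nat_lit 6) (nat_lit 4) (nat_lit 386) (nat_lit 219) (nat_lit 175)) (XT.nd (nat_lit 78) (nat_lit 0) (nat_lit 0) (XT.lf (nat_lit 0) (nat_lit 40203970221) (nat_lit 76) (nat_lit 12980359372) (nat_lit 76) (nat_lit 3733531117) (nat_lit 5)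 (nat_lit 4) (nat_lit 6) (nat_lit 5) (nat_lit 6) (nat_lit 4) (nat_lit 387) (nat_lit 219) (nat_lit 174)) (XT.lf (nat_lit 0) (nat_lit 46382169526) (nat_lit 76) (nat_lit 10751833027) (nat_lit 76) (nat_lit 1408180822) (nat_lit 5) (nat_lit 4) (nat_lit 6) (nat_lit 5) (nat_lit 6) (nat_lit 4) (nat_lit 388) (nat_lit 219) (nat_lit 173)))) (XT.nd (nat_lit 78) (nat_lit 76) (nat_lit 0) (XT.lf (nat_lit 0) (nat_lit 940133589) (nat_lit 152) (nat_lit 7529184853) (nat_lit 76) (nat_lit 51746471157) (nat_lit 4) (nat_lit 5) (nat_lit 6) (nat_lit 5) (nat_lit 5) (nat_lit 4) (nat_lit 389) (nat_lit 219) (nat_lit 172)) (XT.nd (nat_lit 78) (nat_lit 76) (nat_lit 0) (XT.lf (nat_lit 0) (nat_lit 3303858633) (nat_lit 152) (nat_lit 2822088871) (nat_lit 76) (nat_lit 55814052296) (nat_lit 4) (nat_lit 5) (nat_lit 6) (nat_lit 5) (nat_lit 5) (nat_lit 4) (nat_lit 390) (nat_lit 219) (nat_lit 171)) (XT.lf (nat_lit 0) (nat_lit 2018307841)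 (nat_lit 76) (nat_lit 3713631748) (nat_lit 152) (nat_lit 57984205036) (nat_lit 3) (nat_lit 5) (nat_lit 4) (nat_lit 5) (nat_lit 5) (nat_lit 4) (nat_lit 391) (nat_lit 219) (nat_lit 170))))) (XT.nd (nat_lit 234) (nat_lit 0) (nat_lit 0) (XT.nd (nat_lit 78) (nat_lit 0) (nat_lit 0) (XT.lf (nat_lit 0) (nat_lit 7014933600) (nat_lit 76) (nat_lit 1220775735) (nat_lit 152) (nat_lit 57309790373) (nat_lit 3) (nat_lit 5) (nat_lit 4) (nat_lit 5) (nat_lit 5) (nat_lit 4) (nat_lit 392) (nat_lit 219) (nat_lit 169)) (XT.nd (nat_lit 78) (nat_lit 0) (nat_lit 0) (XT.lf (nat_lit 0) (nat_lit 10802437311) (nat_lit 152) (nat_lit 55327253473) (nat_lit 0) (nat_lit 1300420280) (nat_lit 3) (nat_lit 5) (nat_lit 5) (nat_lit 4) (nat_lit 3) (nat_lit 4) (nat_lit 393) (nat_lit 219) (nat_lit 168)) (XT.lf (nat_lit 0) (nat_lit 13433883370) (nat_lit 152) (nat_lit 52084616949) (nat_lit 0) (nat_lit 3853139608) (nat_lit 3) (nat_lit 5) (nat_lit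 5) (nat_lit 4) (nat_lit 3) (nat_lit 4) (nat_lit 394) (nat_lit 219) (nat_lit 167)))) (XT.nd (nat_lit 78) (nat_lit 0) (nat_lit 0) (XT.lf (nat_lit 0) (nat_lit 16120611991) (nat_lit 152) (nat_lit 48788088323) (nat_lit 0) (nat_lit 6463434510) (nat_lit 3) (nat_lit 5) (nat_lit 5) (nat_lit 4) (nat_lit 3) (nat_lit 4) (nat_lit 395) (nat_lit 219) (nat_lit 166)) (XT.nd (nat_lit 78) (nat_lit 0) (nat_lit 0) (XT.lf (nat_lit 0) (nat_lit 18864970803) (nat_lit 152) (nat_lit 45434787132) (nat_lit 0) (nat_lit 9133585827) (nat_lit 3) (nat_lit 5) (nat_lit 5) (nat_lit 4) (nat_lit 3) (nat_lit 4) (nat_lit 396) (nat_lit 219) (nat_lit 165)) (XT.lf (nat_lit 0) (nat_lit 21669357787) (nat_lit 152) (nat_lit 42021783307) (nat_lit 0) (nat_lit 11865926700) (nat_lit 3) (nat_lit 5) (nat_lit 5) (nat_lit 4) (nat_lit 3) (nat_lit 4) (nat_lit 397) (nat_lit 219) (nat_lit 164))))))) (XT.nd (nat_lit 36504) (nat_lit 0) (nat_lit 684) (XT.nd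 (nat_lit 468) (nat_lit 0) (nat_lit 0) (XT.nd (nat_lit 234) (nat_lit 0) (nat_lit 0) (XT.nd (nat_lit 78) (nat_lit 0) (nat_lit 0) (XT.lf (nat_lit 0) (nat_lit 24536223380) (nat_lit 152) (nat_lit 38546094613) (nat_lit 0) (nat_lit 14662844612) (nat_lit 3) (nat_lit 5) (nat_lit 5) (nat_lit 4) (nat_lit 3) (nat_lit 4) (nat_lit 398) (nat_lit 219) (nat_lit 163)) (XT.nd (nat_lit 78) (nat_lit 0) (nat_lit 0) (XT.lf (nat_lit 0) (nat_lit 27468072610) (nat_lit 152) (nat_lit 35004684039) (nat_lit 0) (nat_lit 17526783471) (nat_lit 3) (nat_lit 5) (nat_lit 5) (nat_lit 4) (nat_lit 3) (nat_lit 4) (nat_lit 399) (nat_lit 219) (nat_lit 162)) (XT.lf (nat_lit 0) (nat_lit 30467467286) (nat_lit 152) (nat_lit 31394457149) (nat_lit 0) (nat_lit 20460245749) (nat_lit 3) (nat_lit 5) (nat_lit 5) (nat_lit 4) (nat_lit 3) (nat_lit 4) (nat_lit 400) (nat_lit 219) (nat_lit 161)))) (XT.nd (nat_lit 78) (nat_lit 0) (nat_lit 0) (XT.lf (nat_lit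 0) (nat_lit 33537028239) (nat_lit 152) (nat_lit 27712259376) (nat_lit 0) (nat_lit 23465794665) (nat_lit 3) (nat_lit 5) (nat_lit 5) (nat_lit 4) (nat_lit 3) (nat_lit 4) (nat_lit 401) (nat_lit 219) (nat_lit 160)) (XT.nd (nat_lit 78) (nat_lit 0) (nat_lit 0) (XT.lf (nat_lit 0) (nat_lit 36679437610) (nat_lit 152) (nat_lit 23954873266) (nat_lit 0) (nat_lit 26546056427) (nat_lit 3) (nat_lit 5) (nat_lit 5) (nat_lit 4) (nat_lit 3) (nat_lit 4) (nat_lit 402) (nat_lit 219) (nat_lit 159)) (XT.lf (nat_lit 0) (nat_lit 39897441192) (nat_lit 152) (nat_lit 20119015665) (nat_lit 0) (nat_lit 29703722526) (nat_lit 3) (nat_lit 5) (nat_lit 5) (nat_lit 4) (nat_lit 3) (nat_lit 4) (nat_lit 403) (nat_lit 219) (nat_lit 158))))) (XT.nd (nat_lit 35802) (nat_lit 0) (nat_lit 1292) (XT.nd (nat_lit 35646) (nat_lit 0) (nat_lit 1444) (XT.lf (nat_lit 0) (nat_lit 43193850835) (nat_lit 152) (nat_lit 16201334854) (nat_lit 0) (nat_lit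 32941552087) (nat_lit 3) (nat_lit 5) (nat_lit 5) (nat_lit 4) (nat_lit 3) (nat_lit 4) (nat_lit 404) (nat_lit 219) (nat_lit 157)) (XT.nd (nat_lit 78) (nat_lit 0) (nat_lit 0) (XT.lf (nat_lit 0) (nat_lit 2541364262) (nat_lit 152) (nat_lit 2973059409) (nat_lit 152) (nat_lit 2973059409) (nat_lit 22) (nat_lit 4) (nat_lit 24) (nat_lit 5) (nat_lit 24) (nat_lit 4) (nat_lit 340) (nat_lit 220) (nat_lit 220)) (XT.lf (nat_lit 0) (nat_lit 12492357563) (nat_lit 152) (nat_lit 2649555106) (nat_lit 152) (nat_lit 2212353998) (nat_lit 22) (nat_lit 4) (nat_lit 24) (nat_lit 5) (nat_lit 24) (nat_lit 4) (nat_lit 341) (nat_lit 220) (nat_lit 219)))) (XT.nd (nat_lit 78) (nat_lit 0) (nat_lit 0) (XT.lf (nat_lit 0) (nat_lit 1547654612) (nat_lit 152) (nat_lit 15487409616) (nat_lit 0) (nat_lit 711083543) (nat_lit 20) (nat_lit 5) (nat_lit 22) (nat_lit 4) (nat_lit 20) (nat_lit 4) (nat_lit 342) (nat_lit 220) (nat_lit 218)) (XT.nd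 (nat_lit 78) (nat_lit 0) (nat_lit 0) (XT.lf (nat_lit 0) (nat_lit 5369654180) (nat_lit 152) (nat_lit 8646736270) (nat_lit 0) (nat_lit 4132982165) (nat_lit 20) (nat_lit 5) (nat_lit 22) (nat_lit 4) (nat_lit 20) (nat_lit 4) (nat_lit 343) (nat_lit 220) (nat_lit 217)) (XT.lf (nat_lit 0) (nat_lit 9226548454) (nat_lit 152) (nat_lit 1739162362) (nat_lit 0) (nat_lit 7601428917) (nat_lit 20) (nat_lit 5) (nat_lit 22) (nat_lit 4) (nat_lit 20) (nat_lit 4) (nat_lit 344) (nat_lit 220) (nat_lit 216)))))) (XT.nd (nat_lit 468) (nat_lit 304) (nat_lit 0) (XT.nd (nat_lit 234) (nat_lit 76) (nat_lit 0) (XT.nd (nat_lit 78) (nat_lit 76) (nat_lit 0) (XT.lf (nat_lit 0) (nat_lit 5345660950) (nat_lit 152) (nat_lit 7827432346) (nat_lit 152) (nat_lit 5825179294) (nat_lit 18) (nat_lit 4) (nat_lit 20) (nat_lit 5) (nat_lit 20) (nat_lit 4) (nat_lit 345) (nat_lit 220) (nat_lit 215)) (XT.nd (nat_lit 78) (nat_lit 76) (nat_lit 0) (XT.lf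 (nat_lit 0) (nat_lit 12545705752) (nat_lit 152) (nat_lit 4633426203) (nat_lit 152) (nat_lit 2265024107) (nat_lit 18) (nat_lit 4) (nat_lit 20) (nat_lit 5) (nat_lit 20) (nat_lit 4) (nat_lit 346) (nat_lit 220) (nat_lit 214)) (XT.lf (nat_lit 0) (nat_lit 1299559191) (nat_lit 228) (nat_lit 85781446) (nat_lit 76) (nat_lit 18519968413) (nat_lit 17) (nat_lit 5) (nat_lit 20) (nat_lit 5) (nat_lit 18) (nat_lit 4) (nat_lit 347) (nat_lit 220) (nat_lit 213)))) (XT.nd (nat_lit 78) (nat_lit 0) (nat_lit 0) (XT.lf (nat_lit 0) (nat_lit 4938414596) (nat_lit 152) (nat_lit 13482082568) (nat_lit 0) (nat_lit 1958786250) (nat_lit 16) (nat_lit 5) (nat_lit 18) (nat_lit 4) (nat_lit 16) (nat_lit 4) (nat_lit 348) (nat_lit 220) (nat_lit 212)) (XT.nd (nat_lit 78) (nat_lit 0) (nat_lit 0) (XT.lf (nat_lit 0) (nat_lit 8628590220) (nat_lit 152) (nat_lit 6917022989) (nat_lit 0) (nat_lit 5323643191) (nat_lit 16) (nat_lit 5) (nat_lit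 18) (nat_lit 4) (nat_lit 16) (nat_lit 4) (nat_lit 349) (nat_lit 220) (nat_lit 211)) (XT.lf (nat_lit 0) (nat_lit 12359144425) (nat_lit 152) (nat_lit 278582680) (nat_lit 0) (nat_lit 8738354014) (nat_lit 16) (nat_lit 5) (nat_lit 18) (nat_lit 4) (nat_lit 16) (nat_lit 4) (nat_lit 350) (nat_lit 220) (nat_lit 210))))) (XT.nd (nat_lit 234) (nat_lit 76) (nat_lit 0) (XT.nd (nat_lit 78) (nat_lit 76) (nat_lit 0) (XT.lf (nat_lit 0) (nat_lit 6567188437) (nat_lit 152) (nat_lit 9629276314) (nat_lit 152) (nat_lit 5701841843) (nat_lit 14) (nat_lit 4) (nat_lit 16) (nat_lit 5) (nat_lit 16) (nat_lit 4) (nat_lit 351) (nat_lit 220) (nat_lit 209)) (XT.nd (nat_lit 78) (nat_lit 76) (nat_lit 0) (XT.lf (nat_lit 0) (nat_lit 13505247655) (nat_lit 152) (nat_lit 6579038587) (nat_lit 152) (nat_lit 2353891436) (nat_lit 14) (nat_lit 4) (nat_lit 16) (nat_lit 5) (nat_lit 16) (nat_lit 4) (nat_lit 352) (nat_lit 220) (nat_lit 208))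 (XT.lf (nat_lit 0) (nat_lit 1006985789) (nat_lit 228) (nat_lit 2470007435) (nat_lit 76) (nat_lit 19518958641) (nat_lit 13) (nat_lit 5) (nat_lit 16) (nat_lit 5) (nat_lit 14) (nat_lit 4) (nat_lit 353) (nat_lit 220) (nat_lit 207)))) (XT.nd (nat_lit 78) (nat_lit 0) (nat_lit 0) (XT.lf (nat_lit 0) (nat_lit 4130812539) (nat_lit 76) (nat_lit 266046514) (nat_lit 152) (nat_lit 19173673502) (nat_lit 12) (nat_lit 5) (nat_lit 13) (nat_lit 5) (nat_lit 14) (nat_lit 4) (nat_lit 354) (nat_lit 220) (nat_lit 206)) (XT.nd (nat_lit 78) (nat_lit 0) (nat_lit 0) (XT.lf (nat_lit 0) (nat_lit 7878948338) (nat_lit 152) (nat_lit 13324444695) (nat_lit 0) (nat_lit 2959277836) (nat_lit 12) (nat_lit 5) (nat_lit 14) (nat_lit 4) (nat_lit 12) (nat_lit 4) (nat_lit 355) (nat_lit 220) (nat_lit 205)) (XT.lf (nat_lit 0) (nat_lit 11406092178) (nat_lit 152) (nat_lit 7138686051) (nat_lit 0) (nat_lit 6229612103) (nat_lit 12) (nat_lit 5)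 (nat_lit 14) (nat_lit 4) (nat_lit 12) (nat_lit 4) (nat_lit 356) (nat_lit 220) (nat_lit 204))))))))
noncomputable def xc22 : XT := (XT.nd (nat_lit 1794) (nat_lit 228) (nat_lit 0) (XT.nd (nat_lit 858) (nat_lit 152) (nat_lit 0) (XT.nd (nat_lit 390) (nat_lit 152) (nat_lit 0) (XT.nd (nat_lit 156) (nat_lit 76) (nat_lit 0) (XT.nd (nat_lit 78) (nat_lit 76) (nat_lit 0) (XT.lf (nat_lit 0) (nat_lit 14978815142) (nat_lit 152) (nat_lit 874481649) (nat_lit 0) (nat_lit 9553005385) (nat_lit 12) (nat_lit 5) (nat_lit 14) (nat_lit 4) (nat_lit 12) (nat_lit 4) (nat_lit 357) (nat_lit 220) (nat_lit 203)) (XT.lf (nat_lit 0) (nat_lit 5582578295) (nat_lit 76) (nat_lit 13071323889) (nat_lit 76) (nat_lit 7403446480) (nat_lit 11) (nat_lit 4) (nat_lit 12) (nat_lit 5) (nat_lit 12) (nat_lit 4) (nat_lit 358) (nat_lit 220) (nat_lit 202))) (XT.nd (nat_lit 78) (nat_lit 76) (nat_lit 0) (XT.lf (nat_lit 0) (nat_lit 12148288930) (nat_lit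 76) (nat_lit 10242016038) (nat_lit 76) (nat_lit 4339121490) (nat_lit 11) (nat_lit 4) (nat_lit 12) (nat_lit 5) (nat_lit 12) (nat_lit 4) (nat_lit 359) (nat_lit 220) (nat_lit 201)) (XT.nd (nat_lit 78) (nat_lit 76) (nat_lit 0) (XT.lf (nat_lit 0) (nat_lit 18810983386) (nat_lit 76) (nat_lit 7371731576) (nat_lit 76) (nat_lit 1240665049) (nat_lit 11) (nat_lit 4) (nat_lit 12) (nat_lit 5) (nat_lit 12) (nat_lit 4) (nat_lit 360) (nat_lit 220) (nat_lit 200)) (XT.lf (nat_lit 0) (nat_lit 1857659171) (nat_lit 152) (nat_lit 2581544602) (nat_lit 76) (nat_lit 23700065547) (nat_lit 10) (nat_lit 5) (nat_lit 12) (nat_lit 5) (nat_lit 11) (nat_lit 4) (nat_lit 361) (nat_lit 220) (nat_lit 199))))) (XT.nd (nat_lit 234) (nat_lit 76) (nat_lit 0) (XT.nd (nat_lit 78) (nat_lit 0) (nat_lit 0) (XT.lf (nat_lit 0) (nat_lit 3592716838) (nat_lit 76) (nat_lit 1412398202) (nat_lit 152) (nat_lit 23871746472) (nat_lit 9) (nat_lit 5) (nat_lit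 10) (nat_lit 5) (nat_lit 11) (nat_lit 4) (nat_lit 362) (nat_lit 220) (nat_lit 198)) (XT.nd (nat_lit 78) (nat_lit 0) (nat_lit 0) (XT.lf (nat_lit 0) (nat_lit 8236543580) (nat_lit 152) (nat_lit 19742938556) (nat_lit 0) (nat_lit 1657440300) (nat_lit 9) (nat_lit 5) (nat_lit 11) (nat_lit 4) (nat_lit 9) (nat_lit 4) (nat_lit 363) (nat_lit 220) (nat_lit 197)) (XT.lf (nat_lit 0) (nat_lit 11527278547) (nat_lit 152) (nat_lit 14142310255) (nat_lit 0) (nat_lit 4751352114) (nat_lit 9) (nat_lit 5) (nat_lit 11) (nat_lit 4) (nat_lit 9) (nat_lit 4) (nat_lit 364) (nat_lit 220) (nat_lit 196)))) (XT.nd (nat_lit 78) (nat_lit 76) (nat_lit 0) (XT.lf (nat_lit 0) (nat_lit 14866618507) (nat_lit 152) (nat_lit 8463789184) (nat_lit 0) (nat_lit 7899601633) (nat_lit 9) (nat_lit 5) (nat_lit 11) (nat_lit 4) (nat_lit 9) (nat_lit 4) (nat_lit 365) (nat_lit 220) (nat_lit 195)) (XT.nd (nat_lit 78) (nat_lit 76) (nat_lit 0) (XT.lf (nat_lit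 0) (nat_lit 18257481328) (nat_lit 152) (nat_lit 2702413527) (nat_lit 0) (nat_lit 11104939755) (nat_lit 9) (nat_lit 5) (nat_lit 11) (nat_lit 4) (nat_lit 9) (nat_lit 4) (nat_lit 366) (nat_lit 220) (nat_lit 194)) (XT.lf (nat_lit 0) (nat_lit 3209479428) (nat_lit 76) (nat_lit 18524201953) (nat_lit 76) (nat_lit 11191539312) (nat_lit 8) (nat_lit 4) (nat_lit 9) (nat_lit 5) (nat_lit 9) (nat_lit 4) (nat_lit 367) (nat_lit 220) (nat_lit 193)))))) (XT.nd (nat_lit 468) (nat_lit 0) (nat_lit 0) (XT.nd (nat_lit 234) (nat_lit 152) (nat_lit 0) (XT.nd (nat_lit 78) (nat_lit 0) (nat_lit 0) (XT.lf (nat_lit 0) (nat_lit 9270006396) (nat_lit 76) (nat_lit 16024777302) (nat_lit 76) (nat_lit 8517239839) (nat_lit 8) (nat_lit 4) (nat_lit 9) (nat_lit 5) (nat_lit 9) (nat_lit 4) (nat_lit 368) (nat_lit 220) (nat_lit 192)) (XT.nd (nat_lit 78) (nat_lit 0) (nat_lit 0) (XT.lf (nat_lit 0) (nat_lit 15430679652) (nat_lit 76) (nat_lit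 13486726018) (nat_lit 76) (nat_lit 5809407174) (nat_lit 8) (nat_lit 4) (nat_lit 9) (nat_lit 5) (nat_lit 9) (nat_lit 4) (nat_lit 369) (nat_lit 220) (nat_lit 191)) (XT.lf (nat_lit 0) (nat_lit 21696882310) (nat_lit 76) (nat_lit 10907830387) (nat_lit 76) (nat_lit 3065675251) (nat_lit 8) (nat_lit 4) (nat_lit 9) (nat_lit 5) (nat_lit 9) (nat_lit 4) (nat_lit 370) (nat_lit 220) (nat_lit 190)))) (XT.nd (nat_lit 78) (nat_lit 152) (nat_lit 0) (XT.lf (nat_lit 0) (nat_lit 28074089692) (nat_lit 76) (nat_lit 8285837005) (nat_lit 76) (nat_lit 283646633) (nat_lit 8) (nat_lit 4) (nat_lit 9) (nat_lit 5) (nat_lit 9) (nat_lit 4) (nat_lit 371) (nat_lit 220) (nat_lit 189)) (XT.nd (nat_lit 78) (nat_lit 76) (nat_lit 0) (XT.lf (nat_lit 0) (nat_lit 2489562404) (nat_lit 152) (nat_lit 3103752705) (nat_lit 76) (nat_lit 32053172012) (nat_lit 7) (nat_lit 5) (nat_lit 9) (nat_lit 5) (nat_lit 8) (nat_lit 4) (nat_lit 372) (nat_lit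 220) (nat_lit 188)) (XT.lf (nat_lit 0) (nat_lit 2498504878) (nat_lit 76) (nat_lit 2825099960) (nat_lit 152) (nat_lit 33356318913) (nat_lit 6) (nat_lit 5) (nat_lit 7) (nat_lit 5) (nat_lit 8) (nat_lit 4) (nat_lit 373) (nat_lit 220) (nat_lit 187))))) (XT.nd (nat_lit 234) (nat_lit 0) (nat_lit 0) (XT.nd (nat_lit 78) (nat_lit 0) (nat_lit 0) (XT.lf (nat_lit 0) (nat_lit 8234067189) (nat_lit 152) (nat_lit 31485115955) (nat_lit 0) (nat_lit 25457620) (nat_lit 6) (nat_lit 5) (nat_lit 8) (nat_lit 4) (nat_lit 6) (nat_lit 4) (nat_lit 374) (nat_lit 220) (nat_lit 186)) (XT.nd (nat_lit 78) (nat_lit 0) (nat_lit 0) (XT.lf (nat_lit 0) (nat_lit 11220489482) (nat_lit 152) (nat_lit 26747336993) (nat_lit 0) (nat_lit 2873832113) (nat_lit 6) (nat_lit 5) (nat_lit 8) (nat_lit 4) (nat_lit 6) (nat_lit 4) (nat_lit 375) (nat_lit 220) (nat_lit 185)) (XT.lf (nat_lit 0) (nat_lit 14258324623) (nat_lit 152) (nat_lit 21936785592) (nat_lit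 0) (nat_lit 5777640264) (nat_lit 6) (nat_lit 5) (nat_lit 8) (nat_lit 4) (nat_lit 6) (nat_lit 4) (nat_lit 376) (nat_lit 220) (nat_lit 184)))) (XT.nd (nat_lit 78) (nat_lit 0) (nat_lit 0) (XT.lf (nat_lit 0) (nat_lit 17350227032) (nat_lit 152) (nat_lit 17049258356) (nat_lit 0) (nat_lit 8739419381) (nat_lit 6) (nat_lit 5) (nat_lit 8) (nat_lit 4) (nat_lit 6) (nat_lit 4) (nat_lit 377) (nat_lit 220) (nat_lit 183)) (XT.nd (nat_lit 78) (nat_lit 0) (nat_lit 0) (XT.lf (nat_lit 0) (nat_lit 20498898371) (nat_lit 152) (nat_lit 12080484632) (nat_lit 0) (nat_lit 11761757428) (nat_lit 6) (nat_lit 5) (nat_lit 8) (nat_lit 4) (nat_lit 6) (nat_lit 4) (nat_lit 378) (nat_lit 220) (nat_lit 182)) (XT.lf (nat_lit 0) (nat_lit 23707089906) (nat_lit 152) (nat_lit 7026122772) (nat_lit 0) (nat_lit 14847295281) (nat_lit 6) (nat_lit 5) (nat_lit 8) (nat_lit 4) (nat_lit 6) (nat_lit 4) (nat_lit 379) (nat_lit 220) (nat_lit 181)))))))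 (XT.nd (nat_lit 936) (nat_lit 76) (nat_lit 0) (XT.nd (nat_lit 468) (nat_lit 76) (nat_lit 0) (XT.nd (nat_lit 234) (nat_lit 0) (nat_lit 0) (XT.nd (nat_lit 78) (nat_lit 76) (nat_lit 0) (XT.lf (nat_lit 0) (nat_lit 26977604912) (nat_lit 152) (nat_lit 1881756344) (nat_lit 0) (nat_lit 17998729042) (nat_lit 6) (nat_lit 5) (nat_lit 8) (nat_lit 4) (nat_lit 6) (nat_lit 4) (nat_lit 380) (nat_lit 220) (nat_lit 180)) (XT.nd (nat_lit 78) (nat_lit 0) (nat_lit 0) (XT.lf (nat_lit 0) (nat_lit 3423922796) (nat_lit 76) (nat_lit 26922291165) (nat_lit 76) (nat_lit 17827802435) (nat_lit 5) (nat_lit 4) (nat_lit 6) (nat_lit 5) (nat_lit 6) (nat_lit 4) (nat_lit 381) (nat_lit 220) (nat_lit 179)) (XT.lf (nat_lit 0) (nat_lit 8868101705) (nat_lit 76) (nat_lit 24934237129) (nat_lit 76) (nat_lit 15727502905) (nat_lit 5) (nat_lit 4) (nat_lit 6) (nat_lit 5) (nat_lit 6) (nat_lit 4) (nat_lit 382) (nat_lit 220) (nat_lit 178)))) (XT.nd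 (nat_lit 78) (nat_lit 0) (nat_lit 0) (XT.lf (nat_lit 0) (nat_lit 14418086793) (nat_lit 76) (nat_lit 22912464064) (nat_lit 76) (nat_lit 13596753633) (nat_lit 5) (nat_lit 4) (nat_lit 6) (nat_lit 5) (nat_lit 6) (nat_lit 4) (nat_lit 383) (nat_lit 220) (nat_lit 177)) (XT.nd (nat_lit 78) (nat_lit 0) (nat_lit 0) (XT.lf (nat_lit 0) (nat_lit 20078727560) (nat_lit 76) (nat_lit 20855205373) (nat_lit 76) (nat_lit 11433692798) (nat_lit 5) (nat_lit 4) (nat_lit 6) (nat_lit 5) (nat_lit 6) (nat_lit 4) (nat_lit 384) (nat_lit 220) (nat_lit 176)) (XT.lf (nat_lit 0) (nat_lit 25854970197) (nat_lit 76) (nat_lit 18760663450) (nat_lit 76) (nat_lit 9236430347) (nat_lit 5) (nat_lit 4) (nat_lit 6) (nat_lit 5) (nat_lit 6) (nat_lit 4) (nat_lit 385) (nat_lit 220) (nat_lit 175))))) (XT.nd (nat_lit 234) (nat_lit 76) (nat_lit 0) (XT.nd (nat_lit 78) (nat_lit 0) (nat_lit 0) (XT.lf (nat_lit 0) (nat_lit 31751861907) (nat_lit 76) (nat_lit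 16627008114) (nat_lit 76) (nat_lit 7003046343) (nat_lit 5) (nat_lit 4) (nat_lit 6) (nat_lit 5) (nat_lit 6) (nat_lit 4) (nat_lit 386) (nat_lit 220) (nat_lit 174)) (XT.nd (nat_lit 78) (nat_lit 0) (nat_lit 0) (XT.lf (nat_lit 0) (nat_lit 37774555313) (nat_lit 76) (nat_lit 14452375005) (nat_lit 76) (nat_lit 4731589285) (nat_lit 5) (nat_lit 4) (nat_lit 6) (nat_lit 5) (nat_lit 6) (nat_lit 4) (nat_lit 387) (nat_lit 220) (nat_lit 173)) (XT.lf (nat_lit 0) (nat_lit 43928312963) (nat_lit 76) (nat_lit 12234863959) (nat_lit 76) (nat_lit 2420074404) (nat_lit 5) (nat_lit 4) (nat_lit 6) (nat_lit 5) (nat_lit 6) (nat_lit 4) (nat_lit 388) (nat_lit 220) (nat_lit 172)))) (XT.nd (nat_lit 78) (nat_lit 76) (nat_lit 0) (XT.lf (nat_lit 0) (nat_lit 50218511928) (nat_lit 76) (nat_lit 9972537344) (nat_lit 76) (nat_lit 66481931) (nat_lit 5) (nat_lit 4) (nat_lit 6) (nat_lit 5) (nat_lit 6) (nat_lit 4) (nat_lit 389) (nat_lit 220)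 (nat_lit 171)) (XT.nd (nat_lit 78) (nat_lit 0) (nat_lit 0) (XT.lf (nat_lit 0) (nat_lit 2285753691) (nat_lit 152) (nat_lit 5354583048) (nat_lit 76) (nat_lit 54341813174) (nat_lit 4) (nat_lit 5) (nat_lit 6) (nat_lit 5) (nat_lit 5) (nat_lit 4) (nat_lit 390) (nat_lit 220) (nat_lit 170)) (XT.lf (nat_lit 0) (nat_lit 4682019144) (nat_lit 152) (nat_lit 576191003) (nat_lit 76) (nat_lit 58501044625) (nat_lit 4) (nat_lit 5) (nat_lit 6) (nat_lit 5) (nat_lit 5) (nat_lit 4) (nat_lit 391) (nat_lit 220) (nat_lit 169)))))) (XT.nd (nat_lit 468) (nat_lit 0) (nat_lit 0) (XT.nd (nat_lit 234) (nat_lit 0) (nat_lit 0) (XT.nd (nat_lit 78) (nat_lit 0) (nat_lit 0) (XT.lf (nat_lit 0) (nat_lit 4386568978) (nat_lit 76) (nat_lit 2781302959) (nat_lit 152) (nat_lit 58421280832) (nat_lit 3) (nat_lit 5) (nat_lit 4) (nat_lit 5) (nat_lit 5) (nat_lit 4) (nat_lit 392) (nat_lit 220) (nat_lit 168)) (XT.nd (nat_lit 78) (nat_lit 0) (nat_lit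 0) (XT.lf (nat_lit 0) (nat_lit 9465878600) (nat_lit 76) (nat_lit 244061394) (nat_lit 152) (nat_lit 57764569176) (nat_lit 3) (nat_lit 5) (nat_lit 4) (nat_lit 5) (nat_lit 5) (nat_lit 4) (nat_lit 393) (nat_lit 220) (nat_lit 167)) (XT.lf (nat_lit 0) (nat_lit 12327384410) (nat_lit 152) (nat_lit 54785020883) (nat_lit 0) (nat_lit 2304057885) (nat_lit 3) (nat_lit 5) (nat_lit 5) (nat_lit 4) (nat_lit 3) (nat_lit 4) (nat_lit 394) (nat_lit 220) (nat_lit 166)))) (XT.nd (nat_lit 78) (nat_lit 0) (nat_lit 0) (XT.lf (nat_lit 0) (nat_lit 15002796939) (nat_lit 152) (nat_lit 51509242648) (nat_lit 0) (nat_lit 4905262919) (nat_lit 3) (nat_lit 5) (nat_lit 5) (nat_lit 4) (nat_lit 3) (nat_lit 4) (nat_lit 395) (nat_lit 220) (nat_lit 165)) (XT.nd (nat_lit 78) (nat_lit 0) (nat_lit 0) (XT.lf (nat_lit 0) (nat_lit 17736169252) (nat_lit 152) (nat_lit 48176087468) (nat_lit 0) (nat_lit 7566589121) (nat_lit 3) (nat_lit 5) (nat_lit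 5) (nat_lit 4) (nat_lit 3) (nat_lit 4) (nat_lit 396) (nat_lit 220) (nat_lit 164)) (XT.lf (nat_lit 0) (nat_lit 20529889734) (nat_lit 152) (nat_lit 44782642877) (nat_lit 0) (nat_lit 10290361921) (nat_lit 3) (nat_lit 5) (nat_lit 5) (nat_lit 4) (nat_lit 3) (nat_lit 4) (nat_lit 397) (nat_lit 220) (nat_lit 163))))) (XT.nd (nat_lit 234) (nat_lit 0) (nat_lit 0) (XT.nd (nat_lit 78) (nat_lit 0) (nat_lit 0) (XT.lf (nat_lit 0) (nat_lit 23386399499) (nat_lit 152) (nat_lit 41325943730) (nat_lit 0) (nat_lit 13078961316) (nat_lit 3) (nat_lit 5) (nat_lit 5) (nat_lit 4) (nat_lit 3) (nat_lit 4) (nat_lit 398) (nat_lit 220) (nat_lit 162)) (XT.nd (nat_lit 78) (nat_lit 0) (nat_lit 0) (XT.lf (nat_lit 0) (nat_lit 26308194526) (nat_lit 152) (nat_lit 37802969610) (nat_lit 0) (nat_lit 15934823945) (nat_lit 3) (nat_lit 5) (nat_lit 5) (nat_lit 4) (nat_lit 3) (nat_lit 4) (nat_lit 399) (nat_lit 220) (nat_lit 161)) (XT.lf (nat_lit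 0) (nat_lit 29297827841) (nat_lit 152) (nat_lit 34210642190) (nat_lit 0) (nat_lit 18860445223) (nat_lit 3) (nat_lit 5) (nat_lit 5) (nat_lit 4) (nat_lit 3) (nat_lit 4) (nat_lit 400) (nat_lit 220) (nat_lit 160)))) (XT.nd (nat_lit 78) (nat_lit 0) (nat_lit 0) (XT.lf (nat_lit 0) (nat_lit 32357911744) (nat_lit 152) (nat_lit 30545822543) (nat_lit 0) (nat_lit 21858381518) (nat_lit 3) (nat_lit 5) (nat_lit 5) (nat_lit 4) (nat_lit 3) (nat_lit 4) (nat_lit 401) (nat_lit 220) (nat_lit 159)) (XT.nd (nat_lit 78) (nat_lit 0) (nat_lit 0) (XT.lf (nat_lit 0) (nat_lit 35491120096) (nat_lit 152) (nat_lit 26805308400) (nat_lit 0) (nat_lit 24931252385) (nat_lit 3) (nat_lit 5) (nat_lit 5) (nat_lit 4) (nat_lit 3) (nat_lit 4) (nat_lit 402) (nat_lit 220) (nat_lit 158)) (XT.lf (nat_lit 0) (nat_lit 38700190650) (nat_lit 152) (nat_lit 22985831349) (nat_lit 0) (nat_lit 28081742858) (nat_lit 3) (nat_lit 5) (nat_lit 5) (nat_lit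 4) (nat_lit 3) (nat_lit 4) (nat_lit 403) (nat_lit 220) (nat_lit 157))))))))
noncomputable def xc23 : XT := (XT.nd (nat_lit 37284) (nat_lit 0) (nat_lit 152) (XT.nd (nat_lit 36348) (nat_lit 0) (nat_lit 608) (XT.nd (nat_lit 35880) (nat_lit 0) (nat_lit 988) (XT.nd (nat_lit 35646) (nat_lit 0) (nat_lit 1292) (XT.nd (nat_lit 35490) (nat_lit 0) (nat_lit 1596) (XT.lf (nat_lit 0) (nat_lit 41987927450) (nat_lit 152) (nat_lit 19084053985) (nat_lit 0) (nat_lit 31312605792) (nat_lit 3) (nat_lit 5) (nat_lit 5) (nat_lit 4) (nat_lit 3) (nat_lit 4) (nat_lit 404) (nat_lit 220) (nat_lit 156)) (XT.nd (nat_lit 78) (nat_lit 0) (nat_lit 0) (XT.lf (nat_lit 0) (nat_lit 1748516147) (nat_lit 152) (nat_lit 4629310551) (nat_lit 0) (nat_lit 1748516147) (nat_lit 24) (nat_lit 5) (nat_lit 26) (nat_lit 4) (nat_lit 24) (nat_lit 4) (nat_lit 338) (nat_lit 221) (nat_lit 221)) (XT.lf (nat_lit 0) (nat_lit 7425756223) (nat_lit 152) (nat_lit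 2207379610) (nat_lit 0) (nat_lit 6975439083) (nat_lit 24) (nat_lit 5) (nat_lit 26) (nat_lit 4) (nat_lit 24) (nat_lit 4) (nat_lit 339) (nat_lit 221) (nat_lit 220)))) (XT.nd (nat_lit 78) (nat_lit 152) (nat_lit 0) (XT.lf (nat_lit 0) (nat_lit 5011580023) (nat_lit 152) (nat_lit 6426089195) (nat_lit 152) (nat_lit 5538570948) (nat_lit 22) (nat_lit 4) (nat_lit 24) (nat_lit 5) (nat_lit 24) (nat_lit 4) (nat_lit 340) (nat_lit 221) (nat_lit 219)) (XT.nd (nat_lit 78) (nat_lit 152) (nat_lit 0) (XT.lf (nat_lit 0) (nat_lit 12352132846) (nat_lit 152) (nat_lit 3158315033) (nat_lit 152) (nat_lit 1846329691) (nat_lit 22) (nat_lit 4) (nat_lit 24) (nat_lit 5) (nat_lit 24) (nat_lit 4) (nat_lit 341) (nat_lit 221) (nat_lit 218)) (XT.lf (nat_lit 0) (nat_lit 1859760691) (nat_lit 152) (nat_lit 15704334806) (nat_lit 0) (nat_lit 185887569) (nat_lit 20) (nat_lit 5) (nat_lit 22) (nat_lit 4) (nat_lit 20) (nat_lit 4) (nat_lit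 342) (nat_lit 221) (nat_lit 217))))) (XT.nd (nat_lit 234) (nat_lit 152) (nat_lit 0) (XT.nd (nat_lit 78) (nat_lit 152) (nat_lit 0) (XT.lf (nat_lit 0) (nat_lit 5642467017) (nat_lit 152) (nat_lit 8931799213) (nat_lit 0) (nat_lit 3580146374) (nat_lit 20) (nat_lit 5) (nat_lit 22) (nat_lit 4) (nat_lit 20) (nat_lit 4) (nat_lit 343) (nat_lit 221) (nat_lit 216)) (XT.nd (nat_lit 78) (nat_lit 152) (nat_lit 0) (XT.lf (nat_lit 0) (nat_lit 9461212512) (nat_lit 152) (nat_lit 2090378463) (nat_lit 0) (nat_lit 7021758353) (nat_lit 20) (nat_lit 5) (nat_lit 22) (nat_lit 4) (nat_lit 20) (nat_lit 4) (nat_lit 344) (nat_lit 221) (nat_lit 215)) (XT.lf (nat_lit 0) (nat_lit 4921950362) (nat_lit 152) (nat_lit 8444696378) (nat_lit 152) (nat_lit 5639093174) (nat_lit 18) (nat_lit 4) (nat_lit 20) (nat_lit 5) (nat_lit 20) (nat_lit 4) (nat_lit 345) (nat_lit 221) (nat_lit 214)))) (XT.nd (nat_lit 78) (nat_lit 152) (nat_lit 0) (XT.lf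 (nat_lit 0) (nat_lit 12058398467) (nat_lit 152) (nat_lit 5277716718) (nat_lit 152) (nat_lit 2116629006) (nat_lit 18) (nat_lit 4) (nat_lit 20) (nat_lit 5) (nat_lit 20) (nat_lit 4) (nat_lit 346) (nat_lit 221) (nat_lit 213)) (XT.nd (nat_lit 78) (nat_lit 76) (nat_lit 0) (XT.lf (nat_lit 0) (nat_lit 1409179412) (nat_lit 228) (nat_lit 645584095) (nat_lit 76) (nat_lit 17860189591) (nat_lit 17) (nat_lit 5) (nat_lit 20) (nat_lit 5) (nat_lit 18) (nat_lit 4) (nat_lit 347) (nat_lit 221) (nat_lit 212)) (XT.lf (nat_lit 0) (nat_lit 5000374316) (nat_lit 152) (nat_lit 14119044457) (nat_lit 0) (nat_lit 1270960192) (nat_lit 16) (nat_lit 5) (nat_lit 18) (nat_lit 4) (nat_lit 16) (nat_lit 4) (nat_lit 348) (nat_lit 221) (nat_lit 211)))))) (XT.nd (nat_lit 468) (nat_lit 76) (nat_lit 0) (XT.nd (nat_lit 234) (nat_lit 152) (nat_lit 0) (XT.nd (nat_lit 78) (nat_lit 152) (nat_lit 0) (XT.lf (nat_lit 0) (nat_lit 8655906251) (nat_lit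 152) (nat_lit 7614857320) (nat_lit 0) (nat_lit 4610648746) (nat_lit 16) (nat_lit 5) (nat_lit 18) (nat_lit 4) (nat_lit 16) (nat_lit 4) (nat_lit 349) (nat_lit 221) (nat_lit 210)) (XT.nd (nat_lit 78) (nat_lit 152) (nat_lit 0) (XT.lf (nat_lit 0) (nat_lit 12352825807) (nat_lit 152) (nat_lit 1035516470) (nat_lit 0) (nat_lit 8000924242) (nat_lit 16) (nat_lit 5) (nat_lit 18) (nat_lit 4) (nat_lit 16) (nat_lit 4) (nat_lit 350) (nat_lit 221) (nat_lit 209)) (XT.lf (nat_lit 0) (nat_lit 5736670129) (nat_lit 152) (nat_lit 10412837556) (nat_lit 152) (nat_lit 5763223311) (nat_lit 14) (nat_lit 4) (nat_lit 16) (nat_lit 5) (nat_lit 16) (nat_lit 4) (nat_lit 351) (nat_lit 221) (nat_lit 208)))) (XT.nd (nat_lit 78) (nat_lit 152) (nat_lit 0) (XT.lf (nat_lit 0) (nat_lit 12617913762) (nat_lit 152) (nat_lit 7387165384) (nat_lit 152) (nat_lit 2448509703) (nat_lit 14) (nat_lit 4) (nat_lit 16) (nat_lit 5) (nat_lit 16) (nat_lit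 4) (nat_lit 352) (nat_lit 221) (nat_lit 207)) (XT.nd (nat_lit 78) (nat_lit 76) (nat_lit 0) (XT.lf (nat_lit 0) (nat_lit 882574808) (nat_lit 228) (nat_lit 3427651575) (nat_lit 76) (nat_lit 18702131275) (nat_lit 13) (nat_lit 5) (nat_lit 16) (nat_lit 5) (nat_lit 14) (nat_lit 4) (nat_lit 353) (nat_lit 221) (nat_lit 206)) (XT.lf (nat_lit 0) (nat_lit 3098847942) (nat_lit 76) (nat_lit 1132962724) (nat_lit 152) (nat_lit 19356364438) (nat_lit 12) (nat_lit 5) (nat_lit 13) (nat_lit 5) (nat_lit 14) (nat_lit 4) (nat_lit 354) (nat_lit 221) (nat_lit 205))))) (XT.nd (nat_lit 234) (nat_lit 76) (nat_lit 0) (XT.nd (nat_lit 78) (nat_lit 0) (nat_lit 0) (XT.lf (nat_lit 0) (nat_lit 7675003938) (nat_lit 152) (nat_lit 14420073593) (nat_lit 0) (nat_lit 2086419889) (nat_lit 12) (nat_lit 5) (nat_lit 14) (nat_lit 4) (nat_lit 12) (nat_lit 4) (nat_lit 355) (nat_lit 221) (nat_lit 204)) (XT.nd (nat_lit 78) (nat_lit 0) (nat_lit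 0) (XT.lf (nat_lit 0) (nat_lit 11172475270) (nat_lit 152) (nat_lit 8287086870) (nat_lit 0) (nat_lit 5334561538) (nat_lit 12) (nat_lit 5) (nat_lit 14) (nat_lit 4) (nat_lit 12) (nat_lit 4) (nat_lit 356) (nat_lit 221) (nat_lit 203)) (XT.lf (nat_lit 0) (nat_lit 14716389974) (nat_lit 152) (nat_lit 2074117345) (nat_lit 0) (nat_lit 8636408589) (nat_lit 12) (nat_lit 5) (nat_lit 14) (nat_lit 4) (nat_lit 12) (nat_lit 4) (nat_lit 357) (nat_lit 221) (nat_lit 202)))) (XT.nd (nat_lit 78) (nat_lit 0) (nat_lit 0) (XT.lf (nat_lit 0) (nat_lit 4308334923) (nat_lit 76) (nat_lit 14042924102) (nat_lit 76) (nat_lit 7727925579) (nat_lit 11) (nat_lit 4) (nat_lit 12) (nat_lit 5) (nat_lit 12) (nat_lit 4) (nat_lit 358) (nat_lit 221) (nat_lit 201)) (XT.nd (nat_lit 78) (nat_lit 0) (nat_lit 0) (XT.lf (nat_lit 0) (nat_lit 10824790633) (nat_lit 76) (nat_lit 11235243160) (nat_lit 76) (nat_lit 4692072657) (nat_lit 11) (nat_lit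 4) (nat_lit 12) (nat_lit 5) (nat_lit 12) (nat_lit 4) (nat_lit 359) (nat_lit 221) (nat_lit 200)) (XT.lf (nat_lit 0) (nat_lit 17439664772) (nat_lit 76) (nat_lit 8385955697) (nat_lit 76) (nat_lit 1621259002) (nat_lit 11) (nat_lit 4) (nat_lit 12) (nat_lit 5) (nat_lit 12) (nat_lit 4) (nat_lit 360) (nat_lit 221) (nat_lit 199))))))) (XT.nd (nat_lit 936) (nat_lit 152) (nat_lit 0) (XT.nd (nat_lit 468) (nat_lit 152) (nat_lit 0) (XT.nd (nat_lit 234) (nat_lit 0) (nat_lit 0) (XT.nd (nat_lit 78) (nat_lit 76) (nat_lit 0) (XT.lf (nat_lit 0) (nat_lit 1458178021) (nat_lit 152) (nat_lit 4019669286) (nat_lit 76) (nat_lit 22685834568) (nat_lit 10) (nat_lit 5) (nat_lit 12) (nat_lit 5) (nat_lit 11) (nat_lit 4) (nat_lit 361) (nat_lit 221) (nat_lit 198)) (XT.nd (nat_lit 78) (nat_lit 0) (nat_lit 0) (XT.lf (nat_lit 0) (nat_lit 2079465984) (nat_lit 76) (nat_lit 2486074083) (nat_lit 152) (nat_lit 24336950330) (nat_lit 9)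 (nat_lit 5) (nat_lit 10) (nat_lit 5) (nat_lit 11) (nat_lit 4) (nat_lit 362) (nat_lit 221) (nat_lit 197)) (XT.lf (nat_lit 0) (nat_lit 7761218926) (nat_lit 152) (nat_lit 21317226460) (nat_lit 0) (nat_lit 585191546) (nat_lit 9) (nat_lit 5) (nat_lit 11) (nat_lit 4) (nat_lit 9) (nat_lit 4) (nat_lit 363) (nat_lit 221) (nat_lit 196)))) (XT.nd (nat_lit 78) (nat_lit 0) (nat_lit 0) (XT.lf (nat_lit 0) (nat_lit 11027265688) (nat_lit 152) (nat_lit 15760995242) (nat_lit 0) (nat_lit 3660147868) (nat_lit 9) (nat_lit 5) (nat_lit 11) (nat_lit 4) (nat_lit 9) (nat_lit 4) (nat_lit 364) (nat_lit 221) (nat_lit 195)) (XT.nd (nat_lit 78) (nat_lit 0) (nat_lit 0) (XT.lf (nat_lit 0) (nat_lit 14342636516) (nat_lit 152) (nat_lit 10125578135) (nat_lit 0) (nat_lit 6789993997) (nat_lit 9) (nat_lit 5) (nat_lit 11) (nat_lit 4) (nat_lit 9) (nat_lit 4) (nat_lit 365) (nat_lit 221) (nat_lit 194)) (XT.lf (nat_lit 0) (nat_lit 17710228336)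 (nat_lit 152) (nat_lit 4406050988) (nat_lit 0) (nat_lit 9977464749) (nat_lit 9) (nat_lit 5) (nat_lit 11) (nat_lit 4) (nat_lit 9) (nat_lit 4) (nat_lit 366) (nat_lit 221) (nat_lit 193))))) (XT.nd (nat_lit 234) (nat_lit 76) (nat_lit 0) (XT.nd (nat_lit 78) (nat_lit 0) (nat_lit 0) (XT.lf (nat_lit 0) (nat_lit 1430498012) (nat_lit 76) (nat_lit 19716236514) (nat_lit 76) (nat_lit 11808598104) (nat_lit 8) (nat_lit 4) (nat_lit 9) (nat_lit 5) (nat_lit 9) (nat_lit 4) (nat_lit 367) (nat_lit 221) (nat_lit 192)) (XT.nd (nat_lit 78) (nat_lit 0) (nat_lit 0) (XT.lf (nat_lit 0) (nat_lit 7450793689) (nat_lit 76) (nat_lit 17234721275) (nat_lit 76) (nat_lit 9157301484) (nat_lit 8) (nat_lit 4) (nat_lit 9) (nat_lit 5) (nat_lit 9) (nat_lit 4) (nat_lit 368) (nat_lit 221) (nat_lit 191)) (XT.lf (nat_lit 0) (nat_lit 13572407440) (nat_lit 76) (nat_lit 14714057770) (nat_lit 76) (nat_lit 6471801687) (nat_lit 8) (nat_lit 4) (nat_lit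 9) (nat_lit 5) (nat_lit 9) (nat_lit 4) (nat_lit 369) (nat_lit 221) (nat_lit 190)))) (XT.nd (nat_lit 78) (nat_lit 76) (nat_lit 0) (XT.lf (nat_lit 0) (nat_lit 19800688248) (nat_lit 76) (nat_lit 12152043478) (nat_lit 76) (nat_lit 3749752159) (nat_lit 8) (nat_lit 4) (nat_lit 9) (nat_lit 5) (nat_lit 9) (nat_lit 4) (nat_lit 370) (nat_lit 221) (nat_lit 189)) (XT.nd (nat_lit 78) (nat_lit 76) (nat_lit 0) (XT.lf (nat_lit 0) (nat_lit 26141078300) (nat_lit 76) (nat_lit 9546439744) (nat_lit 76) (nat_lit 988774411) (nat_lit 8) (nat_lit 4) (nat_lit 9) (nat_lit 5) (nat_lit 9) (nat_lit 4) (nat_lit 371) (nat_lit 221) (nat_lit 188)) (XT.lf (nat_lit 0) (nat_lit 1778155285) (nat_lit 152) (nat_lit 5098858661) (nat_lit 76) (nat_lit 30803006575) (nat_lit 7) (nat_lit 5) (nat_lit 9) (nat_lit 5) (nat_lit 8) (nat_lit 4) (nat_lit 372) (nat_lit 221) (nat_lit 187)))))) (XT.nd (nat_lit 468) (nat_lit 76) (nat_lit 0) (XT.nd (nat_lit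 234) (nat_lit 0) (nat_lit 0) (XT.nd (nat_lit 78) (nat_lit 0) (nat_lit 0) (XT.lf (nat_lit 0) (nat_lit 427893290) (nat_lit 76) (nat_lit 4144945179) (nat_lit 152) (nat_lit 34141808940) (nat_lit 6) (nat_lit 5) (nat_lit 7) (nat_lit 5) (nat_lit 8) (nat_lit 4) (nat_lit 373) (nat_lit 221) (nat_lit 186)) (XT.nd (nat_lit 78) (nat_lit 0) (nat_lit 0) (XT.lf (nat_lit 0) (nat_lit 6154413874) (nat_lit 76) (nat_lit 1309414653) (nat_lit 152) (nat_lit 32316129267) (nat_lit 6) (nat_lit 5) (nat_lit 7) (nat_lit 5) (nat_lit 8) (nat_lit 4) (nat_lit 374) (nat_lit 221) (nat_lit 185)) (XT.lf (nat_lit 0) (nat_lit 10418856132) (nat_lit 152) (nat_lit 28909346008) (nat_lit 0) (nat_lit 1549724252) (nat_lit 6) (nat_lit 5) (nat_lit 8) (nat_lit 4) (nat_lit 6) (nat_lit 4) (nat_lit 375) (nat_lit 221) (nat_lit 184)))) (XT.nd (nat_lit 78) (nat_lit 0) (nat_lit 0) (XT.lf (nat_lit 0) (nat_lit 13438431280) (nat_lit 152) (nat_lit 24131967370)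 (nat_lit 0) (nat_lit 4439176109) (nat_lit 6) (nat_lit 5) (nat_lit 8) (nat_lit 4) (nat_lit 6) (nat_lit 4) (nat_lit 376) (nat_lit 221) (nat_lit 183)) (XT.nd (nat_lit 78) (nat_lit 0) (nat_lit 0) (XT.lf (nat_lit 0) (nat_lit 16512605540) (nat_lit 152) (nat_lit 19276646700) (nat_lit 0) (nat_lit 7387017076) (nat_lit 6) (nat_lit 5) (nat_lit 8) (nat_lit 4) (nat_lit 6) (nat_lit 4) (nat_lit 377) (nat_lit 221) (nat_lit 182)) (XT.lf (nat_lit 0) (nat_lit 19644065084) (nat_lit 152) (nat_lit 14339141486) (nat_lit 0) (nat_lit 10395822938) (nat_lit 6) (nat_lit 5) (nat_lit 8) (nat_lit 4) (nat_lit 6) (nat_lit 4) (nat_lit 378) (nat_lit 221) (nat_lit 181))))) (XT.nd (nat_lit 234) (nat_lit 0) (nat_lit 0) (XT.nd (nat_lit 78) (nat_lit 76) (nat_lit 0) (XT.lf (nat_lit 0) (nat_lit 22835546139) (nat_lit 152) (nat_lit 9315137403) (nat_lit 0) (nat_lit 13468222748) (nat_lit 6) (nat_lit 5) (nat_lit 8) (nat_lit 4) (nat_lit 6)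 (nat_lit 4) (nat_lit 379) (nat_lit 221) (nat_lit 180)) (XT.nd (nat_lit 78) (nat_lit 76) (nat_lit 0) (XT.lf (nat_lit 0) (nat_lit 26089837377) (nat_lit 152) (nat_lit 4200244545) (nat_lit 0) (nat_lit 16606901127) (nat_lit 6) (nat_lit 5) (nat_lit 8) (nat_lit 4) (nat_lit 6) (nat_lit 4) (nat_lit 380) (nat_lit 221) (nat_lit 179)) (XT.lf (nat_lit 0) (nat_lit 1030107520) (nat_lit 76) (nat_lit 28389576858) (nat_lit 76) (nat_lit 18794395113) (nat_lit 5) (nat_lit 4) (nat_lit 6) (nat_lit 5) (nat_lit 6) (nat_lit 4) (nat_lit 381) (nat_lit 221) (nat_lit 178)))) (XT.nd (nat_lit 78) (nat_lit 0) (nat_lit 0) (XT.lf (nat_lit 0) (nat_lit 6445951854) (nat_lit 76) (nat_lit 26414292572) (nat_lit 76) (nat_lit 16710134619) (nat_lit 5) (nat_lit 4) (nat_lit 6) (nat_lit 5) (nat_lit 6) (nat_lit 4) (nat_lit 382) (nat_lit 221) (nat_lit 177)) (XT.nd (nat_lit 78) (nat_lit 0) (nat_lit 0) (XT.lf (nat_lit 0) (nat_lit 11968427644)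 (nat_lit 76) (nat_lit 24404917323) (nat_lit 76) (nat_lit 14594957227) (nat_lit 5) (nat_lit 4) (nat_lit 6) (nat_lit 5) (nat_lit 6) (nat_lit 4) (nat_lit 383) (nat_lit 221) (nat_lit 176)) (XT.lf (nat_lit 0) (nat_lit 17602360355) (nat_lit 76) (nat_lit 22359695345) (nat_lit 76) (nat_lit 12447014721) (nat_lit 5) (nat_lit 4) (nat_lit 6) (nat_lit 5) (nat_lit 6) (nat_lit 4) (nat_lit 384) (nat_lit 221) (nat_lit 175))))))))
noncomputable def xc24 : XT := (XT.nd (nat_lit 37050) (nat_lit 0) (nat_lit 456) (XT.nd (nat_lit 858) (nat_lit 0) (nat_lit 0) (XT.nd (nat_lit 390) (nat_lit 152) (nat_lit 0) (XT.nd (nat_lit 156) (nat_lit 0) (nat_lit 0) (XT.nd (nat_lit 78) (nat_lit 0) (nat_lit 0) (XT.lf (nat_lit 0) (nat_lit 23352672841) (nat_lit 76) (nat_lit 20276839553) (nat_lit 76) (nat_lit 10264430261) (nat_lit 5) (nat_lit 4) (nat_lit 6) (nat_lit 5) (nat_lit 6) (nat_lit 4) (nat_lit 385) (nat_lit 221) (nat_lit 174)) (XT.lf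 (nat_lit 0) (nat_lit 29224389647) (nat_lit 76) (nat_lit 18154529974) (nat_lit 76) (nat_lit 8045296733) (nat_lit 5) (nat_lit 4) (nat_lit 6) (nat_lit 5) (nat_lit 6) (nat_lit 4) (nat_lit 386) (nat_lit 221) (nat_lit 173))) (XT.nd (nat_lit 78) (nat_lit 0) (nat_lit 0) (XT.lf (nat_lit 0) (nat_lit 35222641400) (nat_lit 76) (nat_lit 15990912163) (nat_lit 76) (nat_lit 5787675088) (nat_lit 5) (nat_lit 4) (nat_lit 6) (nat_lit 5) (nat_lit 6) (nat_lit 4) (nat_lit 387) (nat_lit 221) (nat_lit 172)) (XT.nd (nat_lit 78) (nat_lit 0) (nat_lit 0) (XT.lf (nat_lit 0) (nat_lit 41352669288) (nat_lit 76) (nat_lit 13784095581) (nat_lit 76) (nat_lit 3489592648) (nat_lit 5) (nat_lit 4) (nat_lit 6) (nat_lit 5) (nat_lit 6) (nat_lit 4) (nat_lit 388) (nat_lit 221) (nat_lit 171)) (XT.lf (nat_lit 0) (nat_lit 47619829649) (nat_lit 76) (nat_lit 11532151942) (nat_lit 76) (nat_lit 1149041378) (nat_lit 5) (nat_lit 4) (nat_lit 6) (nat_lit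 5) (nat_lit 6) (nat_lit 4) (nat_lit 389) (nat_lit 221) (nat_lit 170))))) (XT.nd (nat_lit 234) (nat_lit 0) (nat_lit 0) (XT.nd (nat_lit 78) (nat_lit 76) (nat_lit 0) (XT.lf (nat_lit 0) (nat_lit 1211904584) (nat_lit 152) (nat_lit 8008971082) (nat_lit 76) (nat_lit 52805456198) (nat_lit 4) (nat_lit 5) (nat_lit 6) (nat_lit 5) (nat_lit 5) (nat_lit 4) (nat_lit 390) (nat_lit 221) (nat_lit 169)) (XT.nd (nat_lit 78) (nat_lit 76) (nat_lit 0) (XT.lf (nat_lit 0) (nat_lit 3596117324) (nat_lit 152) (nat_lit 3252540409) (nat_lit 76) (nat_lit 56955145977) (nat_lit 4) (nat_lit 5) (nat_lit 6) (nat_lit 5) (nat_lit 5) (nat_lit 4) (nat_lit 391) (nat_lit 221) (nat_lit 168)) (XT.lf (nat_lit 0) (nat_lit 1635208907) (nat_lit 76) (nat_lit 4408611791) (nat_lit 152) (nat_lit 59591030741) (nat_lit 3) (nat_lit 5) (nat_lit 4) (nat_lit 5) (nat_lit 5) (nat_lit 4) (nat_lit 392) (nat_lit 221) (nat_lit 167)))) (XT.nd (nat_lit 78) (nat_lit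 0) (nat_lit 0) (XT.lf (nat_lit 0) (nat_lit 6693405845) (nat_lit 76) (nat_lit 1880919123) (nat_lit 152) (nat_lit 58946234880) (nat_lit 3) (nat_lit 5) (nat_lit 4) (nat_lit 5) (nat_lit 5) (nat_lit 4) (nat_lit 393) (nat_lit 221) (nat_lit 166)) (XT.nd (nat_lit 78) (nat_lit 0) (nat_lit 0) (XT.lf (nat_lit 0) (nat_lit 11164718814) (nat_lit 152) (nat_lit 57608560229) (nat_lit 0) (nat_lit 690051278) (nat_lit 3) (nat_lit 5) (nat_lit 5) (nat_lit 4) (nat_lit 3) (nat_lit 4) (nat_lit 394) (nat_lit 221) (nat_lit 165)) (XT.lf (nat_lit 0) (nat_lit 13829144844) (nat_lit 152) (nat_lit 54352928005) (nat_lit 0) (nat_lit 3282431197) (nat_lit 3) (nat_lit 5) (nat_lit 5) (nat_lit 4) (nat_lit 3) (nat_lit 4) (nat_lit 395) (nat_lit 221) (nat_lit 164)))))) (XT.nd (nat_lit 468) (nat_lit 0) (nat_lit 0) (XT.nd (nat_lit 234) (nat_lit 0) (nat_lit 0) (XT.nd (nat_lit 78) (nat_lit 0) (nat_lit 0) (XT.lf (nat_lit 0) (nat_lit 16551850654)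 (nat_lit 152) (nat_lit 51039332059) (nat_lit 0) (nat_lit 5935189326) (nat_lit 3) (nat_lit 5) (nat_lit 5) (nat_lit 4) (nat_lit 3) (nat_lit 4) (nat_lit 396) (nat_lit 221) (nat_lit 163)) (XT.nd (nat_lit 78) (nat_lit 0) (nat_lit 0) (XT.lf (nat_lit 0) (nat_lit 19335215308) (nat_lit 152) (nat_lit 47664877016) (nat_lit 0) (nat_lit 8650643610) (nat_lit 3) (nat_lit 5) (nat_lit 5) (nat_lit 4) (nat_lit 3) (nat_lit 4) (nat_lit 397) (nat_lit 221) (nat_lit 162)) (XT.lf (nat_lit 0) (nat_lit 22181670871) (nat_lit 152) (nat_lit 44226614322) (nat_lit 0) (nat_lit 11431166774) (nat_lit 3) (nat_lit 5) (nat_lit 5) (nat_lit 4) (nat_lit 3) (nat_lit 4) (nat_lit 398) (nat_lit 221) (nat_lit 161)))) (XT.nd (nat_lit 78) (nat_lit 0) (nat_lit 0) (XT.lf (nat_lit 0) (nat_lit 25093704537) (nat_lit 152) (nat_lit 40721539672) (nat_lit 0) (nat_lit 14279188404) (nat_lit 3) (nat_lit 5) (nat_lit 5) (nat_lit 4) (nat_lit 3) (nat_lit 4)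 (nat_lit 399) (nat_lit 221) (nat_lit 160)) (XT.nd (nat_lit 78) (nat_lit 0) (nat_lit 0) (XT.lf (nat_lit 0) (nat_lit 28073860802) (nat_lit 152) (nat_lit 37146590378) (nat_lit 0) (nat_lit 17197197060) (nat_lit 3) (nat_lit 5) (nat_lit 5) (nat_lit 4) (nat_lit 3) (nat_lit 4) (nat_lit 400) (nat_lit 221) (nat_lit 159)) (XT.lf (nat_lit 0) (nat_lit 31124743686) (nat_lit 152) (nat_lit 33498642698) (nat_lit 0) (nat_lit 20187742460) (nat_lit 3) (nat_lit 5) (nat_lit 5) (nat_lit 4) (nat_lit 3) (nat_lit 4) (nat_lit 401) (nat_lit 221) (nat_lit 158))))) (XT.nd (nat_lit 35490) (nat_lit 0) (nat_lit 1596) (XT.nd (nat_lit 78) (nat_lit 0) (nat_lit 0) (XT.lf (nat_lit 0) (nat_lit 34249019009) (nat_lit 152) (nat_lit 29774509105) (nat_lit 0) (nat_lit 23253437701) (nat_lit 3) (nat_lit 5) (nat_lit 5) (nat_lit 4) (nat_lit 3) (nat_lit 4) (nat_lit 402) (nat_lit 221) (nat_lit 157)) (XT.nd (nat_lit 78) (nat_lit 0) (nat_lit 0)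 (XT.lf (nat_lit 0) (nat_lit 37449416720) (nat_lit 152) (nat_lit 25970935502) (nat_lit 0) (nat_lit 26396961547) (nat_lit 3) (nat_lit 5) (nat_lit 5) (nat_lit 4) (nat_lit 3) (nat_lit 4) (nat_lit 403) (nat_lit 221) (nat_lit 156)) (XT.lf (nat_lit 0) (nat_lit 40728733284) (nat_lit 152) (nat_lit 22084598378) (nat_lit 0) (nat_lit 29621060765) (nat_lit 3) (nat_lit 5) (nat_lit 5) (nat_lit 4) (nat_lit 3) (nat_lit 4) (nat_lit 404) (nat_lit 221) (nat_lit 155)))) (XT.nd (nat_lit 78) (nat_lit 152) (nat_lit 0) (XT.lf (nat_lit 0) (nat_lit 4061753541) (nat_lit 152) (nat_lit 1862535030) (nat_lit 152) (nat_lit 1862535030) (nat_lit 26) (nat_lit 4) (nat_lit 28) (nat_lit 5) (nat_lit 28) (nat_lit 4) (nat_lit 336) (nat_lit 222) (nat_lit 222)) (XT.nd (nat_lit 78) (nat_lit 76) (nat_lit 0) (XT.lf (nat_lit 0) (nat_lit 70911945) (nat_lit 228) (nat_lit 333790204) (nat_lit 76) (nat_lit 15504788746) (nat_lit 25) (nat_lit 5) (nat_lit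 28) (nat_lit 5) (nat_lit 26) (nat_lit 4) (nat_lit 337) (nat_lit 222) (nat_lit 221)) (XT.lf (nat_lit 0) (nat_lit 3918823266) (nat_lit 152) (nat_lit 9330474044) (nat_lit 0) (nat_lit 3004679471) (nat_lit 24) (nat_lit 5) (nat_lit 26) (nat_lit 4) (nat_lit 24) (nat_lit 4) (nat_lit 338) (nat_lit 222) (nat_lit 220))))))) (XT.nd (nat_lit 936) (nat_lit 532) (nat_lit 0) (XT.nd (nat_lit 468) (nat_lit 304) (nat_lit 0) (XT.nd (nat_lit 234) (nat_lit 152) (nat_lit 0) (XT.nd (nat_lit 78) (nat_lit 152) (nat_lit 0) (XT.lf (nat_lit 0) (nat_lit 7806735853) (nat_lit 152) (nat_lit 2348992690) (nat_lit 0) (nat_lit 6455390951) (nat_lit 24) (nat_lit 5) (nat_lit 26) (nat_lit 4) (nat_lit 24) (nat_lit 4) (nat_lit 339) (nat_lit 222) (nat_lit 219)) (XT.nd (nat_lit 78) (nat_lit 0) (nat_lit 0) (XT.lf (nat_lit 0) (nat_lit 4798072349) (nat_lit 152) (nat_lit 6978901470) (nat_lit 152) (nat_lit 5203089474) (nat_lit 22) (nat_lit 4)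 (nat_lit 24) (nat_lit 5) (nat_lit 24) (nat_lit 4) (nat_lit 340) (nat_lit 222) (nat_lit 218)) (XT.lf (nat_lit 0) (nat_lit 12071560885) (nat_lit 152) (nat_lit 3739078327) (nat_lit 152) (nat_lit 1551162356) (nat_lit 22) (nat_lit 4) (nat_lit 24) (nat_lit 5) (nat_lit 24) (nat_lit 4) (nat_lit 341) (nat_lit 222) (nat_lit 217)))) (XT.nd (nat_lit 78) (nat_lit 0) (nat_lit 0) (XT.lf (nat_lit 0) (nat_lit 1686139517) (nat_lit 76) (nat_lit 419356263) (nat_lit 152) (nat_lit 15650762236) (nat_lit 20) (nat_lit 5) (nat_lit 21) (nat_lit 5) (nat_lit 22) (nat_lit 4) (nat_lit 342) (nat_lit 222) (nat_lit 216)) (XT.nd (nat_lit 78) (nat_lit 0) (nat_lit 0) (XT.lf (nat_lit 0) (nat_lit 5846022218) (nat_lit 152) (nat_lit 9359704956) (nat_lit 0) (nat_lit 2956250919) (nat_lit 20) (nat_lit 5) (nat_lit 22) (nat_lit 4) (nat_lit 20) (nat_lit 4) (nat_lit 343) (nat_lit 222) (nat_lit 215)) (XT.lf (nat_lit 0) (nat_lit 9627730063) (nat_lit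 152) (nat_lit 2582510573) (nat_lit 0) (nat_lit 6371809719) (nat_lit 20) (nat_lit 5) (nat_lit 22) (nat_lit 4) (nat_lit 20) (nat_lit 4) (nat_lit 344) (nat_lit 222) (nat_lit 214))))) (XT.nd (nat_lit 234) (nat_lit 76) (nat_lit 0) (XT.nd (nat_lit 78) (nat_lit 76) (nat_lit 0) (XT.lf (nat_lit 0) (nat_lit 4356427161) (nat_lit 152) (nat_lit 9135342092) (nat_lit 152) (nat_lit 5523937239) (nat_lit 18) (nat_lit 4) (nat_lit 20) (nat_lit 5) (nat_lit 20) (nat_lit 4) (nat_lit 345) (nat_lit 222) (nat_lit 213)) (XT.nd (nat_lit 78) (nat_lit 76) (nat_lit 0) (XT.lf (nat_lit 0) (nat_lit 11431130900) (nat_lit 152) (nat_lit 5994601736) (nat_lit 152) (nat_lit 2038066293) (nat_lit 18) (nat_lit 4) (nat_lit 20) (nat_lit 5) (nat_lit 20) (nat_lit 4) (nat_lit 346) (nat_lit 222) (nat_lit 212)) (XT.lf (nat_lit 0) (nat_lit 1451374951) (nat_lit 228) (nat_lit 1345322535) (nat_lit 76) (nat_lit 17130354406) (nat_lit 17) (nat_lit 5)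 (nat_lit 20) (nat_lit 5) (nat_lit 18) (nat_lit 4) (nat_lit 347) (nat_lit 222) (nat_lit 211)))) (XT.nd (nat_lit 78) (nat_lit 0) (nat_lit 0) (XT.lf (nat_lit 0) (nat_lit 4993866140) (nat_lit 152) (nat_lit 14898686261) (nat_lit 0) (nat_lit 511407527) (nat_lit 16) (nat_lit 5) (nat_lit 18) (nat_lit 4) (nat_lit 16) (nat_lit 4) (nat_lit 348) (nat_lit 222) (nat_lit 210)) (XT.nd (nat_lit 78) (nat_lit 0) (nat_lit 0) (XT.lf (nat_lit 0) (nat_lit 8615763426) (nat_lit 152) (nat_lit 8453598582) (nat_lit 0) (nat_lit 3826660754) (nat_lit 16) (nat_lit 5) (nat_lit 18) (nat_lit 4) (nat_lit 16) (nat_lit 4) (nat_lit 349) (nat_lit 222) (nat_lit 209)) (XT.lf (nat_lit 0) (nat_lit 12280027983) (nat_lit 152) (nat_lit 1931635847) (nat_lit 0) (nat_lit 7193212631) (nat_lit 16) (nat_lit 5) (nat_lit 18) (nat_lit 4) (nat_lit 16) (nat_lit 4) (nat_lit 350) (nat_lit 222) (nat_lit 208)))))) (XT.nd (nat_lit 468) (nat_lit 228) (nat_lit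 0) (XT.nd (nat_lit 234) (nat_lit 76) (nat_lit 0) (XT.nd (nat_lit 78) (nat_lit 76) (nat_lit 0) (XT.lf (nat_lit 0) (nat_lit 4765900635) (nat_lit 152) (nat_lit 11269773713) (nat_lit 152) (nat_lit 5893916925) (nat_lit 14) (nat_lit 4) (nat_lit 16) (nat_lit 5) (nat_lit 16) (nat_lit 4) (nat_lit 351) (nat_lit 222) (nat_lit 207)) (XT.nd (nat_lit 78) (nat_lit 76) (nat_lit 0) (XT.lf (nat_lit 0) (nat_lit 11591983506) (nat_lit 152) (nat_lit 8267951596) (nat_lit 152) (nat_lit 2611472053) (nat_lit 14) (nat_lit 4) (nat_lit 16) (nat_lit 5) (nat_lit 16) (nat_lit 4) (nat_lit 352) (nat_lit 222) (nat_lit 206)) (XT.lf (nat_lit 0) (nat_lit 692074908) (nat_lit 228) (nat_lit 4524016754) (nat_lit 76) (nat_lit 17815070457) (nat_lit 13) (nat_lit 5) (nat_lit 16) (nat_lit 5) (nat_lit 14) (nat_lit 4) (nat_lit 353) (nat_lit 222) (nat_lit 205)))) (XT.nd (nat_lit 78) (nat_lit 0) (nat_lit 0) (XT.lf (nat_lit 0) (nat_lit 1927011042)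 (nat_lit 76) (nat_lit 2073212465) (nat_lit 152) (nat_lit 19608005798) (nat_lit 12) (nat_lit 5) (nat_lit 13) (nat_lit 5) (nat_lit 14) (nat_lit 4) (nat_lit 354) (nat_lit 222) (nat_lit 204)) (XT.nd (nat_lit 78) (nat_lit 0) (nat_lit 0) (XT.lf (nat_lit 0) (nat_lit 7404706015) (nat_lit 152) (nat_lit 15655698359) (nat_lit 0) (nat_lit 1142325189) (nat_lit 12) (nat_lit 5) (nat_lit 14) (nat_lit 4) (nat_lit 12) (nat_lit 4) (nat_lit 355) (nat_lit 222) (nat_lit 203)) (XT.lf (nat_lit 0) (nat_lit 10873369087) (nat_lit 152) (nat_lit 9573946513) (nat_lit 0) (nat_lit 4368920608) (nat_lit 12) (nat_lit 5) (nat_lit 14) (nat_lit 4) (nat_lit 12) (nat_lit 4) (nat_lit 356) (nat_lit 222) (nat_lit 202))))) (XT.nd (nat_lit 234) (nat_lit 152) (nat_lit 0) (XT.nd (nat_lit 78) (nat_lit 76) (nat_lit 0) (XT.lf (nat_lit 0) (nat_lit 14389314607) (nat_lit 152) (nat_lit 3410719586) (nat_lit 0) (nat_lit 7649848989) (nat_lit 12) (nat_lit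 5) (nat_lit 14) (nat_lit 4) (nat_lit 12) (nat_lit 4) (nat_lit 357) (nat_lit 222) (nat_lit 201)) (XT.nd (nat_lit 78) (nat_lit 0) (nat_lit 0) (XT.lf (nat_lit 0) (nat_lit 2895876751) (nat_lit 76) (nat_lit 15087574947) (nat_lit 76) (nat_lit 8119937350) (nat_lit 11) (nat_lit 4) (nat_lit 12) (nat_lit 5) (nat_lit 12) (nat_lit 4) (nat_lit 358) (nat_lit 222) (nat_lit 200)) (XT.lf (nat_lit 0) (nat_lit 9364512145) (nat_lit 76) (nat_lit 12300891003) (nat_lit 76) (nat_lit 5111727214) (nat_lit 11) (nat_lit 4) (nat_lit 12) (nat_lit 5) (nat_lit 12) (nat_lit 4) (nat_lit 359) (nat_lit 222) (nat_lit 199)))) (XT.nd (nat_lit 78) (nat_lit 152) (nat_lit 0) (XT.lf (nat_lit 0) (nat_lit 15932958793) (nat_lit 76) (nat_lit 9471988977) (nat_lit 76) (nat_lit 2067751213) (nat_lit 11) (nat_lit 4) (nat_lit 12) (nat_lit 5) (nat_lit 12) (nat_lit 4) (nat_lit 360) (nat_lit 222) (nat_lit 198)) (XT.nd (nat_lit 78) (nat_lit 76) (nat_lit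 0) (XT.lf (nat_lit 0) (nat_lit 994850950) (nat_lit 152) (nat_lit 5593500017) (nat_lit 76) (nat_lit 21602059120) (nat_lit 10) (nat_lit 5) (nat_lit 12) (nat_lit 5) (nat_lit 11) (nat_lit 4) (nat_lit 361) (nat_lit 222) (nat_lit 197)) (XT.lf (nat_lit 0) (nat_lit 429162772) (nat_lit 76) (nat_lit 3632383073) (nat_lit 152) (nat_lit 24868905899) (nat_lit 9) (nat_lit 5) (nat_lit 10) (nat_lit 5) (nat_lit 11) (nat_lit 4) (nat_lit 362) (nat_lit 222) (nat_lit 196))))))))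
noncomputable def xc25 : XT := (XT.nd (nat_lit 1794) (nat_lit 152) (nat_lit 0) (XT.nd (nat_lit 858) (nat_lit 152) (nat_lit 0) (XT.nd (nat_lit 390) (nat_lit 152) (nat_lit 0) (XT.nd (nat_lit 156) (nat_lit 0) (nat_lit 0) (XT.nd (nat_lit 78) (nat_lit 0) (nat_lit 0) (XT.lf (nat_lit 0) (nat_lit 6658181436) (nat_lit 76) (nat_lit 568803728) (nat_lit 152) (nat_lit 22465533041) (nat_lit 9) (nat_lit 5) (nat_lit 10) (nat_lit 5) (nat_lit 11) (nat_lit 4) (nat_lit 363) (nat_lit 222) (nat_lit 195)) (XT.lf (nat_lit 0) (nat_lit 10463595106) (nat_lit 152) (nat_lit 17515741826) (nat_lit 0) (nat_lit 2498848612) (nat_lit 9) (nat_lit 5) (nat_lit 11) (nat_lit 4) (nat_lit 9) (nat_lit 4) (nat_lit 364) (nat_lit 222) (nat_lit 194))) (XT.nd (nat_lit 78) (nat_lit 0) (nat_lit 0) (XT.lf (nat_lit 0) (nat_lit 13755694933) (nat_lit 152) (nat_lit 11922173228) (nat_lit 0) (nat_lit 5610827371) (nat_lit 9) (nat_lit 5) (nat_lit 11)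 (nat_lit 4) (nat_lit 9) (nat_lit 4) (nat_lit 365) (nat_lit 222) (nat_lit 193)) (XT.nd (nat_lit 78) (nat_lit 0) (nat_lit 0) (XT.lf (nat_lit 0) (nat_lit 17100693548) (nat_lit 152) (nat_lit 6243275701) (nat_lit 0) (nat_lit 8780951163) (nat_lit 9) (nat_lit 5) (nat_lit 11) (nat_lit 4) (nat_lit 9) (nat_lit 4) (nat_lit 366) (nat_lit 222) (nat_lit 192)) (XT.lf (nat_lit 0) (nat_lit 20501513765) (nat_lit 152) (nat_lit 474087102) (nat_lit 0) (nat_lit 12011989999) (nat_lit 9) (nat_lit 5) (nat_lit 11) (nat_lit 4) (nat_lit 9) (nat_lit 4) (nat_lit 367) (nat_lit 222) (nat_lit 191))))) (XT.nd (nat_lit 234) (nat_lit 76) (nat_lit 0) (XT.nd (nat_lit 78) (nat_lit 0) (nat_lit 0) (XT.lf (nat_lit 0) (nat_lit 5497713805) (nat_lit 76) (nat_lit 18516260758) (nat_lit 76) (nat_lit 9861900700) (nat_lit 8) (nat_lit 4) (nat_lit 9) (nat_lit 5) (nat_lit 9) (nat_lit 4) (nat_lit 368) (nat_lit 222) (nat_lit 190)) (XT.nd (nat_lit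 78) (nat_lit 0) (nat_lit 0) (XT.lf (nat_lit 0) (nat_lit 11581405706) (nat_lit 76) (nat_lit 16012478592) (nat_lit 76) (nat_lit 7198083298) (nat_lit 8) (nat_lit 4) (nat_lit 9) (nat_lit 5) (nat_lit 9) (nat_lit 4) (nat_lit 369) (nat_lit 222) (nat_lit 189)) (XT.lf (nat_lit 0) (nat_lit 17772869184) (nat_lit 76) (nat_lit 13466853949) (nat_lit 76) (nat_lit 4497084640) (nat_lit 8) (nat_lit 4) (nat_lit 9) (nat_lit 5) (nat_lit 9) (nat_lit 4) (nat_lit 370) (nat_lit 222) (nat_lit 188)))) (XT.nd (nat_lit 78) (nat_lit 76) (nat_lit 0) (XT.lf (nat_lit 0) (nat_lit 24077514255) (nat_lit 76) (nat_lit 10877162496) (nat_lit 76) (nat_lit 1756544629) (nat_lit 8) (nat_lit 4) (nat_lit 9) (nat_lit 5) (nat_lit 9) (nat_lit 4) (nat_lit 371) (nat_lit 222) (nat_lit 187)) (XT.nd (nat_lit 78) (nat_lit 0) (nat_lit 0) (XT.lf (nat_lit 0) (nat_lit 1005911763) (nat_lit 152) (nat_lit 7225071897) (nat_lit 76) (nat_lit 29484780333) (nat_lit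 7) (nat_lit 5) (nat_lit 9) (nat_lit 5) (nat_lit 8) (nat_lit 4) (nat_lit 372) (nat_lit 222) (nat_lit 186)) (XT.lf (nat_lit 0) (nat_lit 3777593168) (nat_lit 152) (nat_lit 1740747879) (nat_lit 76) (nat_lit 33232749089) (nat_lit 7) (nat_lit 5) (nat_lit 9) (nat_lit 5) (nat_lit 8) (nat_lit 4) (nat_lit 373) (nat_lit 222) (nat_lit 185)))))) (XT.nd (nat_lit 468) (nat_lit 76) (nat_lit 0) (XT.nd (nat_lit 234) (nat_lit 0) (nat_lit 0) (XT.nd (nat_lit 78) (nat_lit 0) (nat_lit 0) (XT.lf (nat_lit 0) (nat_lit 3917384312) (nat_lit 76) (nat_lit 2715469935) (nat_lit 152) (nat_lit 33184627079) (nat_lit 6) (nat_lit 5) (nat_lit 7) (nat_lit 5) (nat_lit 8) (nat_lit 4) (nat_lit 374) (nat_lit 222) (nat_lit 184)) (XT.nd (nat_lit 78) (nat_lit 0) (nat_lit 0) (XT.lf (nat_lit 0) (nat_lit 9556105995) (nat_lit 152) (nat_lit 31203556002) (nat_lit 0) (nat_lit 156749877) (nat_lit 6) (nat_lit 5) (nat_lit 8) (nat_lit 4) (nat_lit 6)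 (nat_lit 4) (nat_lit 375) (nat_lit 222) (nat_lit 183)) (XT.lf (nat_lit 0) (nat_lit 12557952994) (nat_lit 152) (nat_lit 26458383929) (nat_lit 0) (nat_lit 3032263584) (nat_lit 6) (nat_lit 5) (nat_lit 8) (nat_lit 4) (nat_lit 6) (nat_lit 4) (nat_lit 376) (nat_lit 222) (nat_lit 182)))) (XT.nd (nat_lit 78) (nat_lit 0) (nat_lit 0) (XT.lf (nat_lit 0) (nat_lit 15614915460) (nat_lit 152) (nat_lit 21634331770) (nat_lit 0) (nat_lit 5966572367) (nat_lit 6) (nat_lit 5) (nat_lit 8) (nat_lit 4) (nat_lit 6) (nat_lit 4) (nat_lit 377) (nat_lit 222) (nat_lit 181)) (XT.nd (nat_lit 78) (nat_lit 0) (nat_lit 0) (XT.lf (nat_lit 0) (nat_lit 18729664523) (nat_lit 152) (nat_lit 16727184333) (nat_lit 0) (nat_lit 8962240186) (nat_lit 6) (nat_lit 5) (nat_lit 8) (nat_lit 4) (nat_lit 6) (nat_lit 4) (nat_lit 378) (nat_lit 222) (nat_lit 180)) (XT.lf (nat_lit 0) (nat_lit 21904921810) (nat_lit 152) (nat_lit 11732653820) (nat_lit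 0) (nat_lit 12021884614) (nat_lit 6) (nat_lit 5) (nat_lit 8) (nat_lit 4) (nat_lit 6) (nat_lit 4) (nat_lit 379) (nat_lit 222) (nat_lit 179))))) (XT.nd (nat_lit 234) (nat_lit 0) (nat_lit 0) (XT.nd (nat_lit 78) (nat_lit 76) (nat_lit 0) (XT.lf (nat_lit 0) (nat_lit 25143461818) (nat_lit 152) (nat_lit 6646376078) (nat_lit 0) (nat_lit 15148179127) (nat_lit 6) (nat_lit 5) (nat_lit 8) (nat_lit 4) (nat_lit 6) (nat_lit 4) (nat_lit 380) (nat_lit 222) (nat_lit 178)) (XT.nd (nat_lit 78) (nat_lit 76) (nat_lit 0) (XT.lf (nat_lit 0) (nat_lit 28448114338) (nat_lit 152) (nat_lit 1463906787) (nat_lit 0) (nat_lit 18343855439) (nat_lit 6) (nat_lit 5) (nat_lit 8) (nat_lit 4) (nat_lit 6) (nat_lit 4) (nat_lit 381) (nat_lit 222) (nat_lit 177)) (XT.lf (nat_lit 0) (nat_lit 3895293633) (nat_lit 76) (nat_lit 27963917243) (nat_lit 76) (nat_lit 17753856201) (nat_lit 5) (nat_lit 4) (nat_lit 6) (nat_lit 5) (nat_lit 6) (nat_lit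 4) (nat_lit 382) (nat_lit 222) (nat_lit 176)))) (XT.nd (nat_lit 78) (nat_lit 0) (nat_lit 0) (XT.lf (nat_lit 0) (nat_lit 9391061368) (nat_lit 76) (nat_lit 25966578708) (nat_lit 76) (nat_lit 15653797138) (nat_lit 5) (nat_lit 4) (nat_lit 6) (nat_lit 5) (nat_lit 6) (nat_lit 4) (nat_lit 383) (nat_lit 222) (nat_lit 175)) (XT.nd (nat_lit 78) (nat_lit 0) (nat_lit 0) (XT.lf (nat_lit 0) (nat_lit 14999063928) (nat_lit 76) (nat_lit 23933042861) (nat_lit 76) (nat_lit 13520532623) (nat_lit 5) (nat_lit 4) (nat_lit 6) (nat_lit 5) (nat_lit 6) (nat_lit 4) (nat_lit 384) (nat_lit 222) (nat_lit 174)) (XT.lf (nat_lit 0) (nat_lit 20724201511) (nat_lit 76) (nat_lit 21861532826) (nat_lit 76) (nat_lit 11352198638) (nat_lit 5) (nat_lit 4) (nat_lit 6) (nat_lit 5) (nat_lit 6) (nat_lit 4) (nat_lit 385) (nat_lit 222) (nat_lit 173))))))) (XT.nd (nat_lit 936) (nat_lit 0) (nat_lit 0) (XT.nd (nat_lit 468) (nat_lit 76) (nat_lit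 0) (XT.nd (nat_lit 234) (nat_lit 76) (nat_lit 0) (XT.nd (nat_lit 78) (nat_lit 0) (nat_lit 0) (XT.lf (nat_lit 0) (nat_lit 26571476662) (nat_lit 76) (nat_lit 19750238545) (nat_lit 76) (nat_lit 9146900523) (nat_lit 5) (nat_lit 4) (nat_lit 6) (nat_lit 5) (nat_lit 6) (nat_lit 4) (nat_lit 386) (nat_lit 222) (nat_lit 172)) (XT.nd (nat_lit 78) (nat_lit 0) (nat_lit 0) (XT.lf (nat_lit 0) (nat_lit 32545998653) (nat_lit 76) (nat_lit 17597315199) (nat_lit 76) (nat_lit 6902711319) (nat_lit 5) (nat_lit 4) (nat_lit 6) (nat_lit 5) (nat_lit 6) (nat_lit 4) (nat_lit 387) (nat_lit 222) (nat_lit 171)) (XT.lf (nat_lit 0) (nat_lit 38652987939) (nat_lit 76) (nat_lit 15400881592) (nat_lit 76) (nat_lit 4617670082) (nat_lit 5) (nat_lit 4) (nat_lit 6) (nat_lit 5) (nat_lit 6) (nat_lit 4) (nat_lit 388) (nat_lit 222) (nat_lit 170)))) (XT.nd (nat_lit 78) (nat_lit 76) (nat_lit 0) (XT.lf (nat_lit 0) (nat_lit 44897780724) (nat_lit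 76) (nat_lit 13159018511) (nat_lit 76) (nat_lit 2289780176) (nat_lit 5) (nat_lit 4) (nat_lit 6) (nat_lit 5) (nat_lit 6) (nat_lit 4) (nat_lit 389) (nat_lit 222) (nat_lit 169)) (XT.nd (nat_lit 78) (nat_lit 0) (nat_lit 0) (XT.lf (nat_lit 0) (nat_lit 81372995) (nat_lit 152) (nat_lit 10787572342) (nat_lit 76) (nat_lit 51203638920) (nat_lit 4) (nat_lit 5) (nat_lit 6) (nat_lit 5) (nat_lit 5) (nat_lit 4) (nat_lit 390) (nat_lit 222) (nat_lit 168)) (XT.lf (nat_lit 0) (nat_lit 2453884072) (nat_lit 152) (nat_lit 6052463389) (nat_lit 76) (nat_lit 55344064940) (nat_lit 4) (nat_lit 5) (nat_lit 6) (nat_lit 5) (nat_lit 5) (nat_lit 4) (nat_lit 391) (nat_lit 222) (nat_lit 167))))) (XT.nd (nat_lit 234) (nat_lit 0) (nat_lit 0) (XT.nd (nat_lit 78) (nat_lit 76) (nat_lit 0) (XT.lf (nat_lit 0) (nat_lit 4874507980) (nat_lit 152) (nat_lit 1217323587) (nat_lit 76) (nat_lit 59590446042) (nat_lit 4) (nat_lit 5) (nat_lit 6)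 (nat_lit 5) (nat_lit 5) (nat_lit 4) (nat_lit 392) (nat_lit 222) (nat_lit 166)) (XT.nd (nat_lit 78) (nat_lit 0) (nat_lit 0) (XT.lf (nat_lit 0) (nat_lit 3796148473) (nat_lit 76) (nat_lit 3585702256) (nat_lit 152) (nat_lit 60186835084) (nat_lit 3) (nat_lit 5) (nat_lit 4) (nat_lit 5) (nat_lit 5) (nat_lit 4) (nat_lit 393) (nat_lit 222) (nat_lit 165)) (XT.lf (nat_lit 0) (nat_lit 8944580155) (nat_lit 76) (nat_lit 1009999232) (nat_lit 152) (nat_lit 59557411656) (nat_lit 3) (nat_lit 5) (nat_lit 4) (nat_lit 5) (nat_lit 5) (nat_lit 4) (nat_lit 394) (nat_lit 222) (nat_lit 164)))) (XT.nd (nat_lit 78) (nat_lit 0) (nat_lit 0) (XT.lf (nat_lit 0) (nat_lit 12598630185) (nat_lit 152) (nat_lit 57321629167) (nat_lit 0) (nat_lit 1593521336) (nat_lit 3) (nat_lit 5) (nat_lit 5) (nat_lit 4) (nat_lit 3) (nat_lit 4) (nat_lit 395) (nat_lit 222) (nat_lit 163)) (XT.nd (nat_lit 78) (nat_lit 0) (nat_lit 0) (XT.lf (nat_lit 0)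 (nat_lit 15310980167) (nat_lit 152) (nat_lit 54027022769) (nat_lit 0) (nat_lit 4237960948) (nat_lit 3) (nat_lit 5) (nat_lit 5) (nat_lit 4) (nat_lit 3) (nat_lit 4) (nat_lit 396) (nat_lit 222) (nat_lit 162)) (XT.lf (nat_lit 0) (nat_lit 18084290619) (nat_lit 152) (nat_lit 50671004179) (nat_lit 0) (nat_lit 6945339001) (nat_lit 3) (nat_lit 5) (nat_lit 5) (nat_lit 4) (nat_lit 3) (nat_lit 4) (nat_lit 397) (nat_lit 222) (nat_lit 161)))))) (XT.nd (nat_lit 468) (nat_lit 0) (nat_lit 0) (XT.nd (nat_lit 234) (nat_lit 0) (nat_lit 0) (XT.nd (nat_lit 78) (nat_lit 0) (nat_lit 0) (XT.lf (nat_lit 0) (nat_lit 20920984820) (nat_lit 152) (nat_lit 47250640956) (nat_lit 0) (nat_lit 9718021166) (nat_lit 3) (nat_lit 5) (nat_lit 5) (nat_lit 4) (nat_lit 3) (nat_lit 4) (nat_lit 398) (nat_lit 222) (nat_lit 160)) (XT.nd (nat_lit 78) (nat_lit 0) (nat_lit 0) (XT.lf (nat_lit 0) (nat_lit 23823541436) (nat_lit 152) (nat_lit 43762944432)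 (nat_lit 0) (nat_lit 12558430174) (nat_lit 3) (nat_lit 5) (nat_lit 5) (nat_lit 4) (nat_lit 3) (nat_lit 4) (nat_lit 399) (nat_lit 222) (nat_lit 159)) (XT.lf (nat_lit 0) (nat_lit 26794496682) (nat_lit 152) (nat_lit 40204867105) (nat_lit 0) (nat_lit 15469047935) (nat_lit 3) (nat_lit 5) (nat_lit 5) (nat_lit 4) (nat_lit 3) (nat_lit 4) (nat_lit 400) (nat_lit 222) (nat_lit 158)))) (XT.nd (nat_lit 78) (nat_lit 0) (nat_lit 0) (XT.lf (nat_lit 0) (nat_lit 29836446538) (nat_lit 152) (nat_lit 36573299975) (nat_lit 0) (nat_lit 18452417709) (nat_lit 3) (nat_lit 5) (nat_lit 5) (nat_lit 4) (nat_lit 3) (nat_lit 4) (nat_lit 401) (nat_lit 222) (nat_lit 157)) (XT.nd (nat_lit 78) (nat_lit 0) (nat_lit 0) (XT.lf (nat_lit 0) (nat_lit 32952049018) (nat_lit 152) (nat_lit 32865069829) (nat_lit 0) (nat_lit 21511146324) (nat_lit 3) (nat_lit 5) (nat_lit 5) (nat_lit 4) (nat_lit 3) (nat_lit 4) (nat_lit 402) (nat_lit 222) (nat_lit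 156)) (XT.lf (nat_lit 0) (nat_lit 36144026493) (nat_lit 152) (nat_lit 29076936466) (nat_lit 0) (nat_lit 24647906453) (nat_lit 3) (nat_lit 5) (nat_lit 5) (nat_lit 4) (nat_lit 3) (nat_lit 4) (nat_lit 403) (nat_lit 222) (nat_lit 155))))) (XT.nd (nat_lit 35334) (nat_lit 0) (nat_lit 1596) (XT.nd (nat_lit 35178) (nat_lit 0) (nat_lit 1748) (XT.lf (nat_lit 0) (nat_lit 39415168070) (nat_lit 152) (nat_lit 25205589866) (nat_lit 0) (nat_lit 27865438957) (nat_lit 3) (nat_lit 5) (nat_lit 5) (nat_lit 4) (nat_lit 3) (nat_lit 4) (nat_lit 404) (nat_lit 222) (nat_lit 154)) (XT.nd (nat_lit 78) (nat_lit 152) (nat_lit 0) (XT.lf (nat_lit 0) (nat_lit 2144818099) (nat_lit 228) (nat_lit 3178064134) (nat_lit 0) (nat_lit 2144818099) (nat_lit 28) (nat_lit 5) (nat_lit 31) (nat_lit 4) (nat_lit 28) (nat_lit 4) (nat_lit 334) (nat_lit 223) (nat_lit 223)) (XT.lf (nat_lit 0) (nat_lit 748374087) (nat_lit 152) (nat_lit 7496901307)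 (nat_lit 152) (nat_lit 7004827609) (nat_lit 26) (nat_lit 4) (nat_lit 28) (nat_lit 5) (nat_lit 28) (nat_lit 4) (nat_lit 335) (nat_lit 223) (nat_lit 222)))) (XT.nd (nat_lit 78) (nat_lit 152) (nat_lit 0) (XT.lf (nat_lit 0) (nat_lit 8052828607) (nat_lit 152) (nat_lit 4245960722) (nat_lit 152) (nat_lit 3276145570) (nat_lit 26) (nat_lit 4) (nat_lit 28) (nat_lit 5) (nat_lit 28) (nat_lit 4) (nat_lit 336) (nat_lit 223) (nat_lit 221)) (XT.nd (nat_lit 78) (nat_lit 76) (nat_lit 0) (XT.lf (nat_lit 0) (nat_lit 470001341) (nat_lit 228) (nat_lit 479539083) (nat_lit 76) (nat_lit 14962370976) (nat_lit 25) (nat_lit 5) (nat_lit 28) (nat_lit 5) (nat_lit 26) (nat_lit 4) (nat_lit 337) (nat_lit 223) (nat_lit 220)) (XT.lf (nat_lit 0) (nat_lit 4270420942) (nat_lit 152) (nat_lit 9546095656) (nat_lit 0) (nat_lit 2441334587) (nat_lit 24) (nat_lit 5) (nat_lit 26) (nat_lit 4) (nat_lit 24) (nat_lit 4) (nat_lit 338) (nat_lit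 223) (nat_lit 219))))))))
noncomputable def xc26 : XT := (XT.nd (nat_lit 1794) (nat_lit 380) (nat_lit 0) (XT.nd (nat_lit 858) (nat_lit 456) (nat_lit 0) (XT.nd (nat_lit 390) (nat_lit 304) (nat_lit 0) (XT.nd (nat_lit 156) (nat_lit 152) (nat_lit 0) (XT.nd (nat_lit 78) (nat_lit 152) (nat_lit 0) (XT.lf (nat_lit 0) (nat_lit 8118710867) (nat_lit 152) (nat_lit 2632342591) (nat_lit 0) (nat_lit 5865157417) (nat_lit 24) (nat_lit 5) (nat_lit 26) (nat_lit 4) (nat_lit 24) (nat_lit 4) (nat_lit 339) (nat_lit 223) (nat_lit 218)) (XT.lf (nat_lit 0) (nat_lit 4442018942) (nat_lit 152) (nat_lit 7605038683) (nat_lit 152) (nat_lit 4939381258) (nat_lit 22) (nat_lit 4) (nat_lit 24) (nat_lit 5) (nat_lit 24) (nat_lit 4) (nat_lit 340) (nat_lit 223) (nat_lit 217))) (XT.nd (nat_lit 78) (nat_lit 152) (nat_lit 0) (XT.lf (nat_lit 0) (nat_lit 11650396521) (nat_lit 152) (nat_lit 4392352452) (nat_lit 152) (nat_lit 1326594081) (nat_lit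 22) (nat_lit 4) (nat_lit 24) (nat_lit 5) (nat_lit 24) (nat_lit 4) (nat_lit 341) (nat_lit 223) (nat_lit 216)) (XT.nd (nat_lit 78) (nat_lit 0) (nat_lit 0) (XT.lf (nat_lit 0) (nat_lit 1181445399) (nat_lit 76) (nat_lit 1102126665) (nat_lit 152) (nat_lit 15481451114) (nat_lit 20) (nat_lit 5) (nat_lit 21) (nat_lit 5) (nat_lit 22) (nat_lit 4) (nat_lit 342) (nat_lit 223) (nat_lit 215)) (XT.lf (nat_lit 0) (nat_lit 5980497646) (nat_lit 152) (nat_lit 9930827396) (nat_lit 0) (nat_lit 2260750648) (nat_lit 20) (nat_lit 5) (nat_lit 22) (nat_lit 4) (nat_lit 20) (nat_lit 4) (nat_lit 343) (nat_lit 223) (nat_lit 214))))) (XT.nd (nat_lit 234) (nat_lit 152) (nat_lit 0) (XT.nd (nat_lit 78) (nat_lit 152) (nat_lit 0) (XT.lf (nat_lit 0) (nat_lit 9726246608) (nat_lit 152) (nat_lit 3215988710) (nat_lit 0) (nat_lit 5651015101) (nat_lit 20) (nat_lit 5) (nat_lit 22) (nat_lit 4) (nat_lit 20) (nat_lit 4) (nat_lit 344) (nat_lit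 223) (nat_lit 213)) (XT.nd (nat_lit 78) (nat_lit 0) (nat_lit 0) (XT.lf (nat_lit 0) (nat_lit 3648597201) (nat_lit 152) (nat_lit 9899972965) (nat_lit 152) (nat_lit 5479610867) (nat_lit 18) (nat_lit 4) (nat_lit 20) (nat_lit 5) (nat_lit 20) (nat_lit 4) (nat_lit 345) (nat_lit 223) (nat_lit 212)) (XT.lf (nat_lit 0) (nat_lit 10663354954) (nat_lit 152) (nat_lit 6784707663) (nat_lit 152) (nat_lit 2029267321) (nat_lit 18) (nat_lit 4) (nat_lit 20) (nat_lit 5) (nat_lit 20) (nat_lit 4) (nat_lit 346) (nat_lit 223) (nat_lit 211)))) (XT.nd (nat_lit 78) (nat_lit 76) (nat_lit 0) (XT.lf (nat_lit 0) (nat_lit 1426182677) (nat_lit 228) (nat_lit 2185608188) (nat_lit 76) (nat_lit 16329825140) (nat_lit 17) (nat_lit 5) (nat_lit 20) (nat_lit 5) (nat_lit 18) (nat_lit 4) (nat_lit 347) (nat_lit 223) (nat_lit 210)) (XT.nd (nat_lit 78) (nat_lit 0) (nat_lit 0) (XT.lf (nat_lit 0) (nat_lit 4595112170) (nat_lit 76) (nat_lit 326914714)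 (nat_lit 152) (nat_lit 15497917008) (nat_lit 16) (nat_lit 5) (nat_lit 17) (nat_lit 5) (nat_lit 18) (nat_lit 4) (nat_lit 348) (nat_lit 223) (nat_lit 209)) (XT.lf (nat_lit 0) (nat_lit 8508126668) (nat_lit 152) (nat_lit 9433979656) (nat_lit 0) (nat_lit 2970994176) (nat_lit 16) (nat_lit 5) (nat_lit 18) (nat_lit 4) (nat_lit 16) (nat_lit 4) (nat_lit 349) (nat_lit 223) (nat_lit 208)))))) (XT.nd (nat_lit 468) (nat_lit 152) (nat_lit 0) (XT.nd (nat_lit 234) (nat_lit 152) (nat_lit 0) (XT.nd (nat_lit 78) (nat_lit 152) (nat_lit 0) (XT.lf (nat_lit 0) (nat_lit 12140687343) (nat_lit 152) (nat_lit 2967723828) (nat_lit 0) (nat_lit 6314513414) (nat_lit 16) (nat_lit 5) (nat_lit 18) (nat_lit 4) (nat_lit 16) (nat_lit 4) (nat_lit 350) (nat_lit 223) (nat_lit 207)) (XT.nd (nat_lit 78) (nat_lit 0) (nat_lit 0) (XT.lf (nat_lit 0) (nat_lit 3654031709) (nat_lit 152) (nat_lit 12200833566) (nat_lit 152) (nat_lit 6094036883)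 (nat_lit 14) (nat_lit 4) (nat_lit 16) (nat_lit 5) (nat_lit 16) (nat_lit 4) (nat_lit 351) (nat_lit 223) (nat_lit 206)) (XT.lf (nat_lit 0) (nat_lit 10426560443) (nat_lit 152) (nat_lit 9222166841) (nat_lit 152) (nat_lit 2842920882) (nat_lit 14) (nat_lit 4) (nat_lit 16) (nat_lit 5) (nat_lit 16) (nat_lit 4) (nat_lit 352) (nat_lit 223) (nat_lit 205)))) (XT.nd (nat_lit 78) (nat_lit 76) (nat_lit 0) (XT.lf (nat_lit 0) (nat_lit 435319633) (nat_lit 228) (nat_lit 5760060962) (nat_lit 76) (nat_lit 16857001085) (nat_lit 13) (nat_lit 5) (nat_lit 16) (nat_lit 5) (nat_lit 14) (nat_lit 4) (nat_lit 353) (nat_lit 223) (nat_lit 204)) (XT.nd (nat_lit 78) (nat_lit 0) (nat_lit 0) (XT.lf (nat_lit 0) (nat_lit 614277903) (nat_lit 76) (nat_lit 3087617315) (nat_lit 152) (nat_lit 19928817460) (nat_lit 12) (nat_lit 5) (nat_lit 13) (nat_lit 5) (nat_lit 14) (nat_lit 4) (nat_lit 354) (nat_lit 223) (nat_lit 203)) (XT.lf (nat_lit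 0) (nat_lit 7067818387) (nat_lit 152) (nat_lit 17032398668) (nat_lit 0) (nat_lit 126168801) (nat_lit 12) (nat_lit 5) (nat_lit 14) (nat_lit 4) (nat_lit 12) (nat_lit 4) (nat_lit 355) (nat_lit 223) (nat_lit 202))))) (XT.nd (nat_lit 234) (nat_lit 76) (nat_lit 0) (XT.nd (nat_lit 78) (nat_lit 76) (nat_lit 0) (XT.lf (nat_lit 0) (nat_lit 10508512274) (nat_lit 152) (nat_lit 11000389420) (nat_lit 0) (nat_lit 3331845550) (nat_lit 12) (nat_lit 5) (nat_lit 14) (nat_lit 4) (nat_lit 12) (nat_lit 4) (nat_lit 356) (nat_lit 223) (nat_lit 201)) (XT.nd (nat_lit 78) (nat_lit 76) (nat_lit 0) (XT.lf (nat_lit 0) (nat_lit 13997303246) (nat_lit 152) (nat_lit 4885456277) (nat_lit 0) (nat_lit 6592464542) (nat_lit 12) (nat_lit 5) (nat_lit 14) (nat_lit 4) (nat_lit 12) (nat_lit 4) (nat_lit 357) (nat_lit 223) (nat_lit 200)) (XT.lf (nat_lit 0) (nat_lit 1343969592) (nat_lit 76) (nat_lit 16206189225) (nat_lit 76) (nat_lit 8579824328)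 (nat_lit 11) (nat_lit 4) (nat_lit 12) (nat_lit 5) (nat_lit 12) (nat_lit 4) (nat_lit 358) (nat_lit 223) (nat_lit 199)))) (XT.nd (nat_lit 78) (nat_lit 76) (nat_lit 0) (XT.lf (nat_lit 0) (nat_lit 7766177494) (nat_lit 76) (nat_lit 13439890718) (nat_lit 76) (nat_lit 5598451847) (nat_lit 11) (nat_lit 4) (nat_lit 12) (nat_lit 5) (nat_lit 12) (nat_lit 4) (nat_lit 359) (nat_lit 223) (nat_lit 198)) (XT.nd (nat_lit 78) (nat_lit 76) (nat_lit 0) (XT.lf (nat_lit 0) (nat_lit 14289548908) (nat_lit 76) (nat_lit 10630780377) (nat_lit 76) (nat_lit 2580531822) (nat_lit 11) (nat_lit 4) (nat_lit 12) (nat_lit 5) (nat_lit 12) (nat_lit 4) (nat_lit 360) (nat_lit 223) (nat_lit 197)) (XT.lf (nat_lit 0) (nat_lit 467273111) (nat_lit 152) (nat_lit 7304411987) (nat_lit 76) (nat_lit 20447792213) (nat_lit 10) (nat_lit 5) (nat_lit 12) (nat_lit 5) (nat_lit 11) (nat_lit 4) (nat_lit 361) (nat_lit 223) (nat_lit 196))))))) (XT.nd (nat_lit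 936) (nat_lit 152) (nat_lit 0) (XT.nd (nat_lit 468) (nat_lit 152) (nat_lit 0) (XT.nd (nat_lit 234) (nat_lit 0) (nat_lit 0) (XT.nd (nat_lit 78) (nat_lit 76) (nat_lit 0) (XT.lf (nat_lit 0) (nat_lit 3505761633) (nat_lit 152) (nat_lit 1333103439) (nat_lit 76) (nat_lit 24121512826) (nat_lit 10) (nat_lit 5) (nat_lit 12) (nat_lit 5) (nat_lit 11) (nat_lit 4) (nat_lit 362) (nat_lit 223) (nat_lit 195)) (XT.nd (nat_lit 78) (nat_lit 0) (nat_lit 0) (XT.lf (nat_lit 0) (nat_lit 4826825492) (nat_lit 76) (nat_lit 1807517112) (nat_lit 152) (nat_lit 23089219873) (nat_lit 9) (nat_lit 5) (nat_lit 10) (nat_lit 5) (nat_lit 11) (nat_lit 4) (nat_lit 363) (nat_lit 223) (nat_lit 194)) (XT.lf (nat_lit 0) (nat_lit 9835774274) (nat_lit 152) (nat_lit 19408083281) (nat_lit 0) (nat_lit 1266439618) (nat_lit 9) (nat_lit 5) (nat_lit 11) (nat_lit 4) (nat_lit 9) (nat_lit 4) (nat_lit 364) (nat_lit 223) (nat_lit 193)))) (XT.nd (nat_lit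 78) (nat_lit 0) (nat_lit 0) (XT.lf (nat_lit 0) (nat_lit 13105280896) (nat_lit 152) (nat_lit 13855144303) (nat_lit 0) (nat_lit 4361071417) (nat_lit 9) (nat_lit 5) (nat_lit 11) (nat_lit 4) (nat_lit 9) (nat_lit 4) (nat_lit 365) (nat_lit 223) (nat_lit 192)) (XT.nd (nat_lit 78) (nat_lit 0) (nat_lit 0) (XT.lf (nat_lit 0) (nat_lit 16428344360) (nat_lit 152) (nat_lit 8215693009) (nat_lit 0) (nat_lit 7514353500) (nat_lit 9) (nat_lit 5) (nat_lit 11) (nat_lit 4) (nat_lit 9) (nat_lit 4) (nat_lit 366) (nat_lit 223) (nat_lit 191)) (XT.lf (nat_lit 0) (nat_lit 19807868314) (nat_lit 152) (nat_lit 2484801724) (nat_lit 0) (nat_lit 10729041162) (nat_lit 9) (nat_lit 5) (nat_lit 11) (nat_lit 4) (nat_lit 9) (nat_lit 4) (nat_lit 367) (nat_lit 223) (nat_lit 190))))) (XT.nd (nat_lit 234) (nat_lit 76) (nat_lit 0) (XT.nd (nat_lit 78) (nat_lit 0) (nat_lit 0) (XT.lf (nat_lit 0) (nat_lit 3409060170) (nat_lit 76) (nat_lit 19870515543)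 (nat_lit 76) (nat_lit 10631653155) (nat_lit 8) (nat_lit 4) (nat_lit 9) (nat_lit 5) (nat_lit 9) (nat_lit 4) (nat_lit 368) (nat_lit 223) (nat_lit 189)) (XT.nd (nat_lit 78) (nat_lit 0) (nat_lit 0) (XT.lf (nat_lit 0) (nat_lit 9455934740) (nat_lit 76) (nat_lit 17383123026) (nat_lit 76) (nat_lit 7988886623) (nat_lit 8) (nat_lit 4) (nat_lit 9) (nat_lit 5) (nat_lit 9) (nat_lit 4) (nat_lit 369) (nat_lit 223) (nat_lit 188)) (XT.lf (nat_lit 0) (nat_lit 15611653237) (nat_lit 76) (nat_lit 14853410664) (nat_lit 76) (nat_lit 5308325703) (nat_lit 8) (nat_lit 4) (nat_lit 9) (nat_lit 5) (nat_lit 9) (nat_lit 4) (nat_lit 370) (nat_lit 223) (nat_lit 187)))) (XT.nd (nat_lit 78) (nat_lit 76) (nat_lit 0) (XT.lf (nat_lit 0) (nat_lit 21881594444) (nat_lit 76) (nat_lit 12279168027) (nat_lit 76) (nat_lit 2587628155) (nat_lit 8) (nat_lit 4) (nat_lit 9) (nat_lit 5) (nat_lit 9) (nat_lit 4) (nat_lit 371) (nat_lit 223) (nat_lit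 186)) (XT.nd (nat_lit 78) (nat_lit 0) (nat_lit 0) (XT.lf (nat_lit 0) (nat_lit 172157063) (nat_lit 152) (nat_lit 9484250267) (nat_lit 76) (nat_lit 28097341437) (nat_lit 7) (nat_lit 5) (nat_lit 9) (nat_lit 5) (nat_lit 8) (nat_lit 4) (nat_lit 372) (nat_lit 223) (nat_lit 185)) (XT.lf (nat_lit 0) (nat_lit 2925500013) (nat_lit 152) (nat_lit 4033011877) (nat_lit 76) (nat_lit 31831122109) (nat_lit 7) (nat_lit 5) (nat_lit 9) (nat_lit 5) (nat_lit 8) (nat_lit 4) (nat_lit 373) (nat_lit 223) (nat_lit 184)))))) (XT.nd (nat_lit 468) (nat_lit 76) (nat_lit 0) (XT.nd (nat_lit 234) (nat_lit 0) (nat_lit 0) (XT.nd (nat_lit 78) (nat_lit 0) (nat_lit 0) (XT.lf (nat_lit 0) (nat_lit 1546738507) (nat_lit 76) (nat_lit 4193430163) (nat_lit 152) (nat_lit 34117082965) (nat_lit 6) (nat_lit 5) (nat_lit 7) (nat_lit 5) (nat_lit 8) (nat_lit 4) (nat_lit 374) (nat_lit 223) (nat_lit 183)) (XT.nd (nat_lit 78) (nat_lit 0) (nat_lit 0)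 (XT.lf (nat_lit 0) (nat_lit 7311985889) (nat_lit 76) (nat_lit 1332306266) (nat_lit 152) (nat_lit 32312472301) (nat_lit 6) (nat_lit 5) (nat_lit 7) (nat_lit 5) (nat_lit 8) (nat_lit 4) (nat_lit 375) (nat_lit 223) (nat_lit 182)) (XT.lf (nat_lit 0) (nat_lit 11616120417) (nat_lit 152) (nat_lit 28918068062) (nat_lit 0) (nat_lit 1555673349) (nat_lit 6) (nat_lit 5) (nat_lit 8) (nat_lit 4) (nat_lit 6) (nat_lit 4) (nat_lit 376) (nat_lit 223) (nat_lit 181)))) (XT.nd (nat_lit 78) (nat_lit 0) (nat_lit 0) (XT.lf (nat_lit 0) (nat_lit 14656372401) (nat_lit 152) (nat_lit 24124373679) (nat_lit 0) (nat_lit 4476844089) (nat_lit 6) (nat_lit 5) (nat_lit 8) (nat_lit 4) (nat_lit 6) (nat_lit 4) (nat_lit 377) (nat_lit 223) (nat_lit 180)) (XT.nd (nat_lit 78) (nat_lit 0) (nat_lit 0) (XT.lf (nat_lit 0) (nat_lit 17754897697) (nat_lit 152) (nat_lit 19246699812) (nat_lit 0) (nat_lit 7459756525) (nat_lit 6) (nat_lit 5) (nat_lit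 8) (nat_lit 4) (nat_lit 6) (nat_lit 4) (nat_lit 378) (nat_lit 223) (nat_lit 179)) (XT.lf (nat_lit 0) (nat_lit 20914403754) (nat_lit 152) (nat_lit 14280784416) (nat_lit 0) (nat_lit 10507017088) (nat_lit 6) (nat_lit 5) (nat_lit 8) (nat_lit 4) (nat_lit 6) (nat_lit 4) (nat_lit 379) (nat_lit 223) (nat_lit 178))))) (XT.nd (nat_lit 234) (nat_lit 0) (nat_lit 0) (XT.nd (nat_lit 78) (nat_lit 76) (nat_lit 0) (XT.lf (nat_lit 0) (nat_lit 24137651304) (nat_lit 152) (nat_lit 9222288341) (nat_lit 0) (nat_lit 13621288430) (nat_lit 6) (nat_lit 5) (nat_lit 8) (nat_lit 4) (nat_lit 6) (nat_lit 4) (nat_lit 380) (nat_lit 223) (nat_lit 177)) (XT.nd (nat_lit 78) (nat_lit 76) (nat_lit 0) (XT.lf (nat_lit 0) (nat_lit 27427456779) (nat_lit 152) (nat_lit 4066791541) (nat_lit 0) (nat_lit 16805291761) (nat_lit 6) (nat_lit 5) (nat_lit 8) (nat_lit 4) (nat_lit 6) (nat_lit 4) (nat_lit 381) (nat_lit 223) (nat_lit 176)) (XT.lf (nat_lit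 0) (nat_lit 1213898313) (nat_lit 76) (nat_lit 29584465184) (nat_lit 76) (nat_lit 18859579639) (nat_lit 5) (nat_lit 4) (nat_lit 6) (nat_lit 5) (nat_lit 6) (nat_lit 4) (nat_lit 382) (nat_lit 223) (nat_lit 175)))) (XT.nd (nat_lit 78) (nat_lit 0) (nat_lit 0) (XT.lf (nat_lit 0) (nat_lit 6683735897) (nat_lit 76) (nat_lit 27598812779) (nat_lit 76) (nat_lit 16774198566) (nat_lit 5) (nat_lit 4) (nat_lit 6) (nat_lit 5) (nat_lit 6) (nat_lit 4) (nat_lit 383) (nat_lit 223) (nat_lit 174)) (XT.nd (nat_lit 78) (nat_lit 0) (nat_lit 0) (XT.lf (nat_lit 0) (nat_lit 12266563554) (nat_lit 76) (nat_lit 25576622689) (nat_lit 76) (nat_lit 14655184527) (nat_lit 5) (nat_lit 4) (nat_lit 6) (nat_lit 5) (nat_lit 6) (nat_lit 4) (nat_lit 384) (nat_lit 223) (nat_lit 173)) (XT.lf (nat_lit 0) (nat_lit 17967259482) (nat_lit 76) (nat_lit 23516127952) (nat_lit 76) (nat_lit 12500685956) (nat_lit 5) (nat_lit 4) (nat_lit 6) (nat_lit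 5) (nat_lit 6) (nat_lit 4) (nat_lit 385) (nat_lit 223) (nat_lit 172))))))))
noncomputable def xc27 : XT := (XT.nd (nat_lit 36816) (nat_lit 0) (nat_lit 608) (XT.nd (nat_lit 936) (nat_lit 0) (nat_lit 0) (XT.nd (nat_lit 468) (nat_lit 76) (nat_lit 0) (XT.nd (nat_lit 234) (nat_lit 76) (nat_lit 0) (XT.nd (nat_lit 78) (nat_lit 0) (nat_lit 0) (XT.lf (nat_lit 0) (nat_lit 23790804872) (nat_lit 76) (nat_lit 21415528136) (nat_lit 76) (nat_lit 10308820281) (nat_lit 5) (nat_lit 4) (nat_lit 6) (nat_lit 5) (nat_lit 6) (nat_lit 4) (nat_lit 386) (nat_lit 223) (nat_lit 171)) (XT.nd (nat_lit 78) (nat_lit 0) (nat_lit 0) (XT.lf (nat_lit 0) (nat_lit 29742288259) (nat_lit 76) (nat_lit 19272987766) (nat_lit 76) (nat_lit 8077672281) (nat_lit 5) (nat_lit 4) (nat_lit 6) (nat_lit 5) (nat_lit 6) (nat_lit 4) (nat_lit 387) (nat_lit 223) (nat_lit 170)) (XT.lf (nat_lit 0) (nat_lit 35826909969) (nat_lit 76) (nat_lit 17086634717)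 (nat_lit 76) (nat_lit 5805292407) (nat_lit 5) (nat_lit 4) (nat_lit 6) (nat_lit 5) (nat_lit 6) (nat_lit 4) (nat_lit 388) (nat_lit 223) (nat_lit 169)))) (XT.nd (nat_lit 78) (nat_lit 76) (nat_lit 0) (XT.lf (nat_lit 0) (nat_lit 42049986661) (nat_lit 76) (nat_lit 14854558586) (nat_lit 76) (nat_lit 3489695087) (nat_lit 5) (nat_lit 4) (nat_lit 6) (nat_lit 5) (nat_lit 6) (nat_lit 4) (nat_lit 389) (nat_lit 223) (nat_lit 168)) (XT.nd (nat_lit 78) (nat_lit 76) (nat_lit 0) (XT.lf (nat_lit 0) (nat_lit 48416955975) (nat_lit 76) (nat_lit 12574809014) (nat_lit 76) (nat_lit 1128856981) (nat_lit 5) (nat_lit 4) (nat_lit 6) (nat_lit 5) (nat_lit 6) (nat_lit 4) (nat_lit 390) (nat_lit 223) (nat_lit 167)) (XT.lf (nat_lit 0) (nat_lit 1254321322) (nat_lit 152) (nat_lit 8978406478) (nat_lit 76) (nat_lit 53666393773) (nat_lit 4) (nat_lit 5) (nat_lit 6) (nat_lit 5) (nat_lit 5) (nat_lit 4) (nat_lit 391) (nat_lit 223) (nat_lit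 166))))) (XT.nd (nat_lit 234) (nat_lit 0) (nat_lit 0) (XT.nd (nat_lit 78) (nat_lit 76) (nat_lit 0) (XT.lf (nat_lit 0) (nat_lit 3663915291) (nat_lit 152) (nat_lit 4163364442) (nat_lit 76) (nat_lit 57904042894) (nat_lit 4) (nat_lit 5) (nat_lit 6) (nat_lit 5) (nat_lit 5) (nat_lit 4) (nat_lit 392) (nat_lit 223) (nat_lit 165)) (XT.nd (nat_lit 78) (nat_lit 0) (nat_lit 0) (XT.lf (nat_lit 0) (nat_lit 771574899) (nat_lit 76) (nat_lit 5359900409) (nat_lit 152) (nat_lit 61487453806) (nat_lit 3) (nat_lit 5) (nat_lit 4) (nat_lit 5) (nat_lit 5) (nat_lit 4) (nat_lit 393) (nat_lit 223) (nat_lit 164)) (XT.lf (nat_lit 0) (nat_lit 5900685485) (nat_lit 76) (nat_lit 2792935979) (nat_lit 152) (nat_lit 60868935019) (nat_lit 3) (nat_lit 5) (nat_lit 4) (nat_lit 5) (nat_lit 5) (nat_lit 4) (nat_lit 394) (nat_lit 223) (nat_lit 163)))) (XT.nd (nat_lit 78) (nat_lit 0) (nat_lit 0) (XT.lf (nat_lit 0) (nat_lit 11145589947) (nat_lit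 76) (nat_lit 166185283) (nat_lit 152) (nat_lit 60253352338) (nat_lit 3) (nat_lit 5) (nat_lit 4) (nat_lit 5) (nat_lit 5) (nat_lit 4) (nat_lit 395) (nat_lit 223) (nat_lit 162)) (XT.nd (nat_lit 78) (nat_lit 0) (nat_lit 0) (XT.lf (nat_lit 0) (nat_lit 14012473535) (nat_lit 152) (nat_lit 57141770202) (nat_lit 0) (nat_lit 2473420972) (nat_lit 3) (nat_lit 5) (nat_lit 5) (nat_lit 4) (nat_lit 3) (nat_lit 4) (nat_lit 396) (nat_lit 223) (nat_lit 161)) (XT.lf (nat_lit 0) (nat_lit 16776022625) (nat_lit 152) (nat_lit 53803651082) (nat_lit 0) (nat_lit 5172958025) (nat_lit 3) (nat_lit 5) (nat_lit 5) (nat_lit 4) (nat_lit 3) (nat_lit 4) (nat_lit 397) (nat_lit 223) (nat_lit 160)))))) (XT.nd (nat_lit 468) (nat_lit 0) (nat_lit 0) (XT.nd (nat_lit 234) (nat_lit 0) (nat_lit 0) (XT.nd (nat_lit 78) (nat_lit 0) (nat_lit 0) (XT.lf (nat_lit 0) (nat_lit 19603239777) (nat_lit 152) (nat_lit 50400665985) (nat_lit 0) (nat_lit 7938027568)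 (nat_lit 3) (nat_lit 5) (nat_lit 5) (nat_lit 4) (nat_lit 3) (nat_lit 4) (nat_lit 398) (nat_lit 223) (nat_lit 159)) (XT.nd (nat_lit 78) (nat_lit 0) (nat_lit 0) (XT.lf (nat_lit 0) (nat_lit 22496595374) (nat_lit 152) (nat_lit 46929841427) (nat_lit 0) (nat_lit 10771045681) (nat_lit 3) (nat_lit 5) (nat_lit 5) (nat_lit 4) (nat_lit 3) (nat_lit 4) (nat_lit 399) (nat_lit 223) (nat_lit 158)) (XT.lf (nat_lit 0) (nat_lit 25458617592) (nat_lit 152) (nat_lit 43388144651) (nat_lit 0) (nat_lit 13674487816) (nat_lit 3) (nat_lit 5) (nat_lit 5) (nat_lit 4) (nat_lit 3) (nat_lit 4) (nat_lit 400) (nat_lit 223) (nat_lit 157)))) (XT.nd (nat_lit 78) (nat_lit 0) (nat_lit 0) (XT.lf (nat_lit 0) (nat_lit 28491894604) (nat_lit 152) (nat_lit 39772480968) (nat_lit 0) (nat_lit 16650890963) (nat_lit 3) (nat_lit 5) (nat_lit 5) (nat_lit 4) (nat_lit 3) (nat_lit 4) (nat_lit 401) (nat_lit 223) (nat_lit 156)) (XT.nd (nat_lit 78) (nat_lit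 0) (nat_lit 0) (XT.lf (nat_lit 0) (nat_lit 31599076848) (nat_lit 152) (nat_lit 36079691062) (nat_lit 0) (nat_lit 19702855862) (nat_lit 3) (nat_lit 5) (nat_lit 5) (nat_lit 4) (nat_lit 3) (nat_lit 4) (nat_lit 402) (nat_lit 223) (nat_lit 155)) (XT.lf (nat_lit 0) (nat_lit 34782879337) (nat_lit 152) (nat_lit 32306548223) (nat_lit 0) (nat_lit 22833049278) (nat_lit 3) (nat_lit 5) (nat_lit 5) (nat_lit 4) (nat_lit 3) (nat_lit 4) (nat_lit 403) (nat_lit 223) (nat_lit 154))))) (XT.nd (nat_lit 35178) (nat_lit 0) (nat_lit 1748) (XT.nd (nat_lit 35022) (nat_lit 0) (nat_lit 1900) (XT.lf (nat_lit 0) (nat_lit 38046084034) (nat_lit 152) (nat_lit 28449755530) (nat_lit 0) (nat_lit 26044206331) (nat_lit 3) (nat_lit 5) (nat_lit 5) (nat_lit 4) (nat_lit 3) (nat_lit 4) (nat_lit 404) (nat_lit 223) (nat_lit 153)) (XT.nd (nat_lit 78) (nat_lit 228) (nat_lit 0) (XT.lf (nat_lit 0) (nat_lit 4231013160) (nat_lit 152) (nat_lit 1468431291)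 (nat_lit 152) (nat_lit 1468431291) (nat_lit 31) (nat_lit 4) (nat_lit 33) (nat_lit 5) (nat_lit 33) (nat_lit 4) (nat_lit 332) (nat_lit 224) (nat_lit 224)) (XT.lf (nat_lit 0) (nat_lit 879430325) (nat_lit 228) (nat_lit 13380202788) (nat_lit 0) (nat_lit 372594417) (nat_lit 28) (nat_lit 5) (nat_lit 31) (nat_lit 4) (nat_lit 28) (nat_lit 4) (nat_lit 333) (nat_lit 224) (nat_lit 223)))) (XT.nd (nat_lit 78) (nat_lit 152) (nat_lit 0) (XT.lf (nat_lit 0) (nat_lit 4754054536) (nat_lit 228) (nat_lit 6427506531) (nat_lit 0) (nat_lit 3755144930) (nat_lit 28) (nat_lit 5) (nat_lit 31) (nat_lit 4) (nat_lit 28) (nat_lit 4) (nat_lit 334) (nat_lit 224) (nat_lit 222)) (XT.nd (nat_lit 78) (nat_lit 0) (nat_lit 0) (XT.lf (nat_lit 0) (nat_lit 604896782) (nat_lit 152) (nat_lit 8062235651) (nat_lit 152) (nat_lit 6585584591) (nat_lit 26) (nat_lit 4) (nat_lit 28) (nat_lit 5) (nat_lit 28) (nat_lit 4) (nat_lit 335) (nat_lit 224)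 (nat_lit 221)) (XT.lf (nat_lit 0) (nat_lit 7840731424) (nat_lit 152) (nat_lit 4839272700) (nat_lit 152) (nat_lit 2898794985) (nat_lit 26) (nat_lit 4) (nat_lit 28) (nat_lit 5) (nat_lit 28) (nat_lit 4) (nat_lit 336) (nat_lit 224) (nat_lit 220))))))) (XT.nd (nat_lit 936) (nat_lit 380) (nat_lit 0) (XT.nd (nat_lit 468) (nat_lit 304) (nat_lit 0) (XT.nd (nat_lit 234) (nat_lit 304) (nat_lit 0) (XT.nd (nat_lit 78) (nat_lit 76) (nat_lit 0) (XT.lf (nat_lit 0) (nat_lit 800109853) (nat_lit 228) (nat_lit 766571851) (nat_lit 76) (nat_lit 14350210590) (nat_lit 25) (nat_lit 5) (nat_lit 28) (nat_lit 5) (nat_lit 26) (nat_lit 4) (nat_lit 337) (nat_lit 224) (nat_lit 219)) (XT.nd (nat_lit 78) (nat_lit 0) (nat_lit 0) (XT.lf (nat_lit 0) (nat_lit 4552132544) (nat_lit 152) (nat_lit 9905674343) (nat_lit 0) (nat_lit 1806505397) (nat_lit 24) (nat_lit 5) (nat_lit 26) (nat_lit 4) (nat_lit 24) (nat_lit 4) (nat_lit 338) (nat_lit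 224) (nat_lit 218)) (XT.lf (nat_lit 0) (nat_lit 8361953865) (nat_lit 152) (nat_lit 3057676900) (nat_lit 0) (nat_lit 5204222742) (nat_lit 24) (nat_lit 5) (nat_lit 26) (nat_lit 4) (nat_lit 24) (nat_lit 4) (nat_lit 339) (nat_lit 224) (nat_lit 217)))) (XT.nd (nat_lit 78) (nat_lit 152) (nat_lit 0) (XT.lf (nat_lit 0) (nat_lit 3943108689) (nat_lit 152) (nat_lit 8305047944) (nat_lit 152) (nat_lit 4747215875) (nat_lit 22) (nat_lit 4) (nat_lit 24) (nat_lit 5) (nat_lit 24) (nat_lit 4) (nat_lit 340) (nat_lit 224) (nat_lit 216)) (XT.nd (nat_lit 78) (nat_lit 152) (nat_lit 0) (XT.lf (nat_lit 0) (nat_lit 11088271745) (nat_lit 152) (nat_lit 5118708230) (nat_lit 152) (nat_lit 1172428640) (nat_lit 22) (nat_lit 4) (nat_lit 24) (nat_lit 5) (nat_lit 24) (nat_lit 4) (nat_lit 341) (nat_lit 224) (nat_lit 215)) (XT.lf (nat_lit 0) (nat_lit 533002013) (nat_lit 76) (nat_lit 1859320705) (nat_lit 152) (nat_lit 15384018168)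 (nat_lit 20) (nat_lit 5) (nat_lit 21) (nat_lit 5) (nat_lit 22) (nat_lit 4) (nat_lit 342) (nat_lit 224) (nat_lit 214))))) (XT.nd (nat_lit 234) (nat_lit 152) (nat_lit 0) (XT.nd (nat_lit 78) (nat_lit 152) (nat_lit 0) (XT.lf (nat_lit 0) (nat_lit 6046010805) (nat_lit 152) (nat_lit 10645665574) (nat_lit 0) (nat_lit 1493037844) (nat_lit 20) (nat_lit 5) (nat_lit 22) (nat_lit 4) (nat_lit 20) (nat_lit 4) (nat_lit 343) (nat_lit 224) (nat_lit 213)) (XT.nd (nat_lit 78) (nat_lit 152) (nat_lit 0) (XT.lf (nat_lit 0) (nat_lit 9756848229) (nat_lit 152) (nat_lit 3991366399) (nat_lit 0) (nat_lit 4858744677) (nat_lit 20) (nat_lit 5) (nat_lit 22) (nat_lit 4) (nat_lit 20) (nat_lit 4) (nat_lit 344) (nat_lit 224) (nat_lit 212)) (XT.lf (nat_lit 0) (nat_lit 2797841990) (nat_lit 152) (nat_lit 10739257122) (nat_lit 152) (nat_lit 5506075326) (nat_lit 18) (nat_lit 4) (nat_lit 20) (nat_lit 5) (nat_lit 20) (nat_lit 4) (nat_lit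 345) (nat_lit 224) (nat_lit 211)))) (XT.nd (nat_lit 78) (nat_lit 152) (nat_lit 0) (XT.lf (nat_lit 0) (nat_lit 9754399756) (nat_lit 152) (nat_lit 7648724880) (nat_lit 152) (nat_lit 2090224401) (nat_lit 18) (nat_lit 4) (nat_lit 20) (nat_lit 5) (nat_lit 20) (nat_lit 4) (nat_lit 346) (nat_lit 224) (nat_lit 210)) (XT.nd (nat_lit 78) (nat_lit 76) (nat_lit 0) (XT.lf (nat_lit 0) (nat_lit 1333580578) (nat_lit 228) (nat_lit 3167175285) (nat_lit 76) (nat_lit 15457902299) (nat_lit 17) (nat_lit 5) (nat_lit 20) (nat_lit 5) (nat_lit 18) (nat_lit 4) (nat_lit 347) (nat_lit 224) (nat_lit 209)) (XT.lf (nat_lit 0) (nat_lit 3537391784) (nat_lit 76) (nat_lit 1249987381) (nat_lit 152) (nat_lit 15650888102) (nat_lit 16) (nat_lit 5) (nat_lit 17) (nat_lit 5) (nat_lit 18) (nat_lit 4) (nat_lit 348) (nat_lit 224) (nat_lit 208)))))) (XT.nd (nat_lit 468) (nat_lit 152) (nat_lit 0) (XT.nd (nat_lit 234) (nat_lit 76) (nat_lit 0)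 (XT.nd (nat_lit 78) (nat_lit 152) (nat_lit 0) (XT.lf (nat_lit 0) (nat_lit 8332901926) (nat_lit 152) (nat_lit 10556857184) (nat_lit 0) (nat_lit 2042901343) (nat_lit 16) (nat_lit 5) (nat_lit 18) (nat_lit 4) (nat_lit 16) (nat_lit 4) (nat_lit 349) (nat_lit 224) (nat_lit 207)) (XT.nd (nat_lit 78) (nat_lit 152) (nat_lit 0) (XT.lf (nat_lit 0) (nat_lit 11934682133) (nat_lit 152) (nat_lit 4144685733) (nat_lit 0) (nat_lit 5364058795) (nat_lit 16) (nat_lit 5) (nat_lit 18) (nat_lit 4) (nat_lit 16) (nat_lit 4) (nat_lit 350) (nat_lit 224) (nat_lit 206)) (XT.lf (nat_lit 0) (nat_lit 2400091817) (nat_lit 152) (nat_lit 13206830660) (nat_lit 152) (nat_lit 6363758047) (nat_lit 14) (nat_lit 4) (nat_lit 16) (nat_lit 5) (nat_lit 16) (nat_lit 4) (nat_lit 351) (nat_lit 224) (nat_lit 205)))) (XT.nd (nat_lit 78) (nat_lit 76) (nat_lit 0) (XT.lf (nat_lit 0) (nat_lit 9120626243) (nat_lit 152) (nat_lit 10250644899) (nat_lit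 152) (nat_lit 3143058426) (nat_lit 14) (nat_lit 4) (nat_lit 16) (nat_lit 5) (nat_lit 16) (nat_lit 4) (nat_lit 352) (nat_lit 224) (nat_lit 204)) (XT.nd (nat_lit 78) (nat_lit 0) (nat_lit 0) (XT.lf (nat_lit 0) (nat_lit 112084634) (nat_lit 228) (nat_lit 7136864237) (nat_lit 76) (nat_lit 15827086012) (nat_lit 13) (nat_lit 5) (nat_lit 16) (nat_lit 5) (nat_lit 14) (nat_lit 4) (nat_lit 353) (nat_lit 224) (nat_lit 203)) (XT.lf (nat_lit 0) (nat_lit 3344644512) (nat_lit 228) (nat_lit 824097367) (nat_lit 76) (nat_lit 19486660611) (nat_lit 13) (nat_lit 5) (nat_lit 16) (nat_lit 5) (nat_lit 14) (nat_lit 4) (nat_lit 354) (nat_lit 224) (nat_lit 202))))) (XT.nd (nat_lit 234) (nat_lit 76) (nat_lit 0) (XT.nd (nat_lit 78) (nat_lit 0) (nat_lit 0) (XT.lf (nat_lit 0) (nat_lit 5691385729) (nat_lit 76) (nat_lit 982101516) (nat_lit 152) (nat_lit 17578716503) (nat_lit 12) (nat_lit 5) (nat_lit 13) (nat_lit 5) (nat_lit 14)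 (nat_lit 4) (nat_lit 355) (nat_lit 224) (nat_lit 201)) (XT.nd (nat_lit 78) (nat_lit 0) (nat_lit 0) (XT.lf (nat_lit 0) (nat_lit 10077586025) (nat_lit 152) (nat_lit 12567661996) (nat_lit 0) (nat_lit 2222430181) (nat_lit 12) (nat_lit 5) (nat_lit 14) (nat_lit 4) (nat_lit 12) (nat_lit 4) (nat_lit 356) (nat_lit 224) (nat_lit 200)) (XT.lf (nat_lit 0) (nat_lit 13540013357) (nat_lit 152) (nat_lit 6499616024) (nat_lit 0) (nat_lit 5463331320) (nat_lit 12) (nat_lit 5) (nat_lit 14) (nat_lit 4) (nat_lit 12) (nat_lit 4) (nat_lit 357) (nat_lit 224) (nat_lit 199)))) (XT.nd (nat_lit 78) (nat_lit 76) (nat_lit 0) (XT.lf (nat_lit 0) (nat_lit 17054354105) (nat_lit 152) (nat_lit 341937365) (nat_lit 0) (nat_lit 8762598094) (nat_lit 12) (nat_lit 5) (nat_lit 14) (nat_lit 4) (nat_lit 12) (nat_lit 4) (nat_lit 358) (nat_lit 224) (nat_lit 198)) (XT.nd (nat_lit 78) (nat_lit 0) (nat_lit 0) (XT.lf (nat_lit 0) (nat_lit 6028390078)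 (nat_lit 76) (nat_lit 14653237545) (nat_lit 76) (nat_lit 6152671851) (nat_lit 11) (nat_lit 4) (nat_lit 12) (nat_lit 5) (nat_lit 12) (nat_lit 4) (nat_lit 359) (nat_lit 224) (nat_lit 197)) (XT.lf (nat_lit 0) (nat_lit 12507999129) (nat_lit 76) (nat_lit 11863342433) (nat_lit 76) (nat_lit 3160048890) (nat_lit 11) (nat_lit 4) (nat_lit 12) (nat_lit 5) (nat_lit 12) (nat_lit 4) (nat_lit 360) (nat_lit 224) (nat_lit 196))))))))
noncomputable def xc28 : XT := (XT.nd (nat_lit 1794) (nat_lit 152) (nat_lit 0) (XT.nd (nat_lit 858) (nat_lit 228) (nat_lit 0) (XT.nd (nat_lit 390) (nat_lit 76) (nat_lit 0) (XT.nd (nat_lit 156) (nat_lit 76) (nat_lit 0) (XT.nd (nat_lit 78) (nat_lit 76) (nat_lit 0) (XT.lf (nat_lit 0) (nat_lit 19095746355) (nat_lit 76) (nat_lit 9027621258) (nat_lit 76) (nat_lit 127504561) (nat_lit 11) (nat_lit 4) (nat_lit 12) (nat_lit 5) (nat_lit 12) (nat_lit 4) (nat_lit 361) (nat_lit 224) (nat_lit 195))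 (XT.lf (nat_lit 0) (nat_lit 2890092425) (nat_lit 152) (nat_lit 3224319513) (nat_lit 76) (nat_lit 22878111351) (nat_lit 10) (nat_lit 5) (nat_lit 12) (nat_lit 5) (nat_lit 11) (nat_lit 4) (nat_lit 362) (nat_lit 224) (nat_lit 194))) (XT.nd (nat_lit 78) (nat_lit 0) (nat_lit 0) (XT.lf (nat_lit 0) (nat_lit 2856651714) (nat_lit 76) (nat_lit 3120384517) (nat_lit 152) (nat_lit 23779932761) (nat_lit 9) (nat_lit 5) (nat_lit 10) (nat_lit 5) (nat_lit 11) (nat_lit 4) (nat_lit 363) (nat_lit 224) (nat_lit 193)) (XT.nd (nat_lit 78) (nat_lit 0) (nat_lit 0) (XT.lf (nat_lit 0) (nat_lit 9104713335) (nat_lit 76) (nat_lit 38915353) (nat_lit 152) (nat_lit 21401131833) (nat_lit 9) (nat_lit 5) (nat_lit 10) (nat_lit 5) (nat_lit 11) (nat_lit 4) (nat_lit 364) (nat_lit 224) (nat_lit 192)) (XT.lf (nat_lit 0) (nat_lit 12390826081) (nat_lit 152) (nat_lit 15926180364) (nat_lit 0) (nat_lit 3039634114) (nat_lit 9) (nat_lit 5) (nat_lit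 11) (nat_lit 4) (nat_lit 9) (nat_lit 4) (nat_lit 365) (nat_lit 224) (nat_lit 191))))) (XT.nd (nat_lit 234) (nat_lit 0) (nat_lit 0) (XT.nd (nat_lit 78) (nat_lit 76) (nat_lit 0) (XT.lf (nat_lit 0) (nat_lit 15692593282) (nat_lit 152) (nat_lit 10325026384) (nat_lit 0) (nat_lit 6176565023) (nat_lit 9) (nat_lit 5) (nat_lit 11) (nat_lit 4) (nat_lit 9) (nat_lit 4) (nat_lit 366) (nat_lit 224) (nat_lit 190)) (XT.nd (nat_lit 78) (nat_lit 76) (nat_lit 0) (XT.lf (nat_lit 0) (nat_lit 19051441254) (nat_lit 152) (nat_lit 4631316957) (nat_lit 0) (nat_lit 9375377759) (nat_lit 9) (nat_lit 5) (nat_lit 11) (nat_lit 4) (nat_lit 9) (nat_lit 4) (nat_lit 367) (nat_lit 224) (nat_lit 189)) (XT.lf (nat_lit 0) (nat_lit 1183007745) (nat_lit 76) (nat_lit 21298668959) (nat_lit 76) (nat_lit 11467231450) (nat_lit 8) (nat_lit 4) (nat_lit 9) (nat_lit 5) (nat_lit 9) (nat_lit 4) (nat_lit 368) (nat_lit 224) (nat_lit 188)))) (XT.nd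 (nat_lit 78) (nat_lit 0) (nat_lit 0) (XT.lf (nat_lit 0) (nat_lit 7194137335) (nat_lit 76) (nat_lit 18827188723) (nat_lit 76) (nat_lit 8844902655) (nat_lit 8) (nat_lit 4) (nat_lit 9) (nat_lit 5) (nat_lit 9) (nat_lit 4) (nat_lit 369) (nat_lit 224) (nat_lit 187)) (XT.nd (nat_lit 78) (nat_lit 0) (nat_lit 0) (XT.lf (nat_lit 0) (nat_lit 13315151967) (nat_lit 76) (nat_lit 16312925177) (nat_lit 76) (nat_lit 6184184198) (nat_lit 8) (nat_lit 4) (nat_lit 9) (nat_lit 5) (nat_lit 9) (nat_lit 4) (nat_lit 370) (nat_lit 224) (nat_lit 186)) (XT.lf (nat_lit 0) (nat_lit 19551400101) (nat_lit 76) (nat_lit 13753681391) (nat_lit 76) (nat_lit 3482751179) (nat_lit 8) (nat_lit 4) (nat_lit 9) (nat_lit 5) (nat_lit 9) (nat_lit 4) (nat_lit 371) (nat_lit 224) (nat_lit 185)))))) (XT.nd (nat_lit 468) (nat_lit 76) (nat_lit 0) (XT.nd (nat_lit 234) (nat_lit 76) (nat_lit 0) (XT.nd (nat_lit 78) (nat_lit 76) (nat_lit 0) (XT.lf (nat_lit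 0) (nat_lit 25908330886) (nat_lit 76) (nat_lit 11147221134) (nat_lit 76) (nat_lit 738243121) (nat_lit 8) (nat_lit 4) (nat_lit 9) (nat_lit 5) (nat_lit 9) (nat_lit 4) (nat_lit 372) (nat_lit 224) (nat_lit 184)) (XT.nd (nat_lit 78) (nat_lit 0) (nat_lit 0) (XT.lf (nat_lit 0) (nat_lit 2011701286) (nat_lit 152) (nat_lit 6459251390) (nat_lit 76) (nat_lit 30359483395) (nat_lit 7) (nat_lit 5) (nat_lit 9) (nat_lit 5) (nat_lit 8) (nat_lit 4) (nat_lit 373) (nat_lit 224) (nat_lit 183)) (XT.lf (nat_lit 0) (nat_lit 4794215996) (nat_lit 152) (nat_lit 940869821) (nat_lit 76) (nat_lit 34163940932) (nat_lit 7) (nat_lit 5) (nat_lit 9) (nat_lit 5) (nat_lit 8) (nat_lit 4) (nat_lit 374) (nat_lit 224) (nat_lit 182)))) (XT.nd (nat_lit 78) (nat_lit 0) (nat_lit 0) (XT.lf (nat_lit 0) (nat_lit 4774771777) (nat_lit 76) (nat_lit 2897264362) (nat_lit 152) (nat_lit 33327300706) (nat_lit 6) (nat_lit 5) (nat_lit 7) (nat_lit 5) (nat_lit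 8) (nat_lit 4) (nat_lit 375) (nat_lit 224) (nat_lit 181)) (XT.nd (nat_lit 78) (nat_lit 0) (nat_lit 0) (XT.lf (nat_lit 0) (nat_lit 10612110586) (nat_lit 152) (nat_lit 31513169005) (nat_lit 0) (nat_lit 8115179) (nat_lit 6) (nat_lit 5) (nat_lit 8) (nat_lit 4) (nat_lit 6) (nat_lit 4) (nat_lit 376) (nat_lit 224) (nat_lit 180)) (XT.lf (nat_lit 0) (nat_lit 13636138803) (nat_lit 152) (nat_lit 26748948193) (nat_lit 0) (nat_lit 2916530537) (nat_lit 6) (nat_lit 5) (nat_lit 8) (nat_lit 4) (nat_lit 6) (nat_lit 4) (nat_lit 377) (nat_lit 224) (nat_lit 179))))) (XT.nd (nat_lit 234) (nat_lit 76) (nat_lit 0) (XT.nd (nat_lit 78) (nat_lit 0) (nat_lit 0) (XT.lf (nat_lit 0) (nat_lit 16718912868) (nat_lit 152) (nat_lit 21899889443) (nat_lit 0) (nat_lit 5887059108) (nat_lit 6) (nat_lit 5) (nat_lit 8) (nat_lit 4) (nat_lit 6) (nat_lit 4) (nat_lit 378) (nat_lit 224) (nat_lit 178)) (XT.nd (nat_lit 78) (nat_lit 0) (nat_lit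 0) (XT.lf (nat_lit 0) (nat_lit 19863126467) (nat_lit 152) (nat_lit 16961755713) (nat_lit 0) (nat_lit 8922296499) (nat_lit 6) (nat_lit 5) (nat_lit 8) (nat_lit 4) (nat_lit 6) (nat_lit 4) (nat_lit 379) (nat_lit 224) (nat_lit 177)) (XT.lf (nat_lit 0) (nat_lit 23071526973) (nat_lit 152) (nat_lit 11930232129) (nat_lit 0) (nat_lit 12024894861) (nat_lit 6) (nat_lit 5) (nat_lit 8) (nat_lit 4) (nat_lit 6) (nat_lit 4) (nat_lit 380) (nat_lit 224) (nat_lit 176)))) (XT.nd (nat_lit 78) (nat_lit 76) (nat_lit 0) (XT.lf (nat_lit 0) (nat_lit 26346917840) (nat_lit 152) (nat_lit 6800922214) (nat_lit 0) (nat_lit 15197565200) (nat_lit 6) (nat_lit 5) (nat_lit 8) (nat_lit 4) (nat_lit 6) (nat_lit 4) (nat_lit 381) (nat_lit 224) (nat_lit 175)) (XT.nd (nat_lit 78) (nat_lit 76) (nat_lit 0) (XT.lf (nat_lit 0) (nat_lit 29692161061) (nat_lit 152) (nat_lit 1569344048) (nat_lit 0) (nat_lit 18443079754) (nat_lit 6) (nat_lit 5) (nat_lit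 8) (nat_lit 4) (nat_lit 6) (nat_lit 4) (nat_lit 382) (nat_lit 224) (nat_lit 174)) (XT.lf (nat_lit 0) (nat_lit 3844085607) (nat_lit 76) (nat_lit 29303045760) (nat_lit 76) (nat_lit 17957140503) (nat_lit 5) (nat_lit 4) (nat_lit 6) (nat_lit 5) (nat_lit 6) (nat_lit 4) (nat_lit 383) (nat_lit 224) (nat_lit 173))))))) (XT.nd (nat_lit 936) (nat_lit 0) (nat_lit 0) (XT.nd (nat_lit 468) (nat_lit 152) (nat_lit 0) (XT.nd (nat_lit 234) (nat_lit 0) (nat_lit 0) (XT.nd (nat_lit 78) (nat_lit 0) (nat_lit 0) (XT.lf (nat_lit 0) (nat_lit 9402471610) (nat_lit 76) (nat_lit 27291870968) (nat_lit 76) (nat_lit 15851961877) (nat_lit 5) (nat_lit 4) (nat_lit 6) (nat_lit 5) (nat_lit 6) (nat_lit 4) (nat_lit 384) (nat_lit 224) (nat_lit 172)) (XT.nd (nat_lit 78) (nat_lit 0) (nat_lit 0) (XT.lf (nat_lit 0) (nat_lit 15079437776) (nat_lit 76) (nat_lit 25242070696) (nat_lit 76) (nat_lit 13710895746) (nat_lit 5) (nat_lit 4) (nat_lit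 6) (nat_lit 5) (nat_lit 6) (nat_lit 4) (nat_lit 385) (nat_lit 224) (nat_lit 171)) (XT.lf (nat_lit 0) (nat_lit 20879944563) (nat_lit 76) (nat_lit 23151853855) (nat_lit 76) (nat_lit 11532071276) (nat_lit 5) (nat_lit 4) (nat_lit 6) (nat_lit 5) (nat_lit 6) (nat_lit 4) (nat_lit 386) (nat_lit 224) (nat_lit 170)))) (XT.nd (nat_lit 78) (nat_lit 0) (nat_lit 0) (XT.lf (nat_lit 0) (nat_lit 26809060375) (nat_lit 76) (nat_lit 21019394043) (nat_lit 76) (nat_lit 9313584639) (nat_lit 5) (nat_lit 4) (nat_lit 6) (nat_lit 5) (nat_lit 6) (nat_lit 4) (nat_lit 387) (nat_lit 224) (nat_lit 169)) (XT.nd (nat_lit 78) (nat_lit 0) (nat_lit 0) (XT.lf (nat_lit 0) (nat_lit 32871965991) (nat_lit 76) (nat_lit 18842827944) (nat_lit 76) (nat_lit 7053497351) (nat_lit 5) (nat_lit 4) (nat_lit 6) (nat_lit 5) (nat_lit 6) (nat_lit 4) (nat_lit 388) (nat_lit 224) (nat_lit 168)) (XT.lf (nat_lit 0) (nat_lit 39073959097) (nat_lit 76) (nat_lit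 16620253706) (nat_lit 76) (nat_lit 4749834580) (nat_lit 5) (nat_lit 4) (nat_lit 6) (nat_lit 5) (nat_lit 6) (nat_lit 4) (nat_lit 389) (nat_lit 224) (nat_lit 167))))) (XT.nd (nat_lit 234) (nat_lit 76) (nat_lit 0) (XT.nd (nat_lit 78) (nat_lit 76) (nat_lit 0) (XT.lf (nat_lit 0) (nat_lit 45420458910) (nat_lit 76) (nat_lit 14349729273) (nat_lit 76) (nat_lit 2400583415) (nat_lit 5) (nat_lit 4) (nat_lit 6) (nat_lit 5) (nat_lit 6) (nat_lit 4) (nat_lit 390) (nat_lit 224) (nat_lit 166)) (XT.nd (nat_lit 78) (nat_lit 76) (nat_lit 0) (XT.lf (nat_lit 0) (nat_lit 51917010916) (nat_lit 76) (nat_lit 12029270691) (nat_lit 76) (nat_lit 3691114) (nat_lit 5) (nat_lit 4) (nat_lit 6) (nat_lit 5) (nat_lit 6) (nat_lit 4) (nat_lit 391) (nat_lit 224) (nat_lit 165)) (XT.lf (nat_lit 0) (nat_lit 2395266201) (nat_lit 152) (nat_lit 7237396683) (nat_lit 76) (nat_lit 56149838018) (nat_lit 4) (nat_lit 5) (nat_lit 6) (nat_lit 5)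 (nat_lit 5) (nat_lit 4) (nat_lit 392) (nat_lit 224) (nat_lit 164)))) (XT.nd (nat_lit 78) (nat_lit 76) (nat_lit 0) (XT.lf (nat_lit 0) (nat_lit 4845012593) (nat_lit 152) (nat_lit 2336457618) (nat_lit 76) (nat_lit 60489176251) (nat_lit 4) (nat_lit 5) (nat_lit 6) (nat_lit 5) (nat_lit 5) (nat_lit 4) (nat_lit 393) (nat_lit 224) (nat_lit 163)) (XT.nd (nat_lit 78) (nat_lit 0) (nat_lit 0) (XT.lf (nat_lit 0) (nat_lit 2727394533) (nat_lit 76) (nat_lit 4646583495) (nat_lit 152) (nat_lit 62241295753) (nat_lit 3) (nat_lit 5) (nat_lit 4) (nat_lit 5) (nat_lit 5) (nat_lit 4) (nat_lit 394) (nat_lit 224) (nat_lit 162)) (XT.lf (nat_lit 0) (nat_lit 7954087008) (nat_lit 76) (nat_lit 2028069761) (nat_lit 152) (nat_lit 61635991741) (nat_lit 3) (nat_lit 5) (nat_lit 4) (nat_lit 5) (nat_lit 5) (nat_lit 4) (nat_lit 395) (nat_lit 224) (nat_lit 161)))))) (XT.nd (nat_lit 468) (nat_lit 0) (nat_lit 0) (XT.nd (nat_lit 234) (nat_lit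 0) (nat_lit 0) (XT.nd (nat_lit 78) (nat_lit 0) (nat_lit 0) (XT.lf (nat_lit 0) (nat_lit 12655196141) (nat_lit 152) (nat_lit 60386295981) (nat_lit 0) (nat_lit 640027565) (nat_lit 3) (nat_lit 5) (nat_lit 5) (nat_lit 4) (nat_lit 3) (nat_lit 4) (nat_lit 396) (nat_lit 224) (nat_lit 160)) (XT.nd (nat_lit 78) (nat_lit 0) (nat_lit 0) (XT.lf (nat_lit 0) (nat_lit 15409268181) (nat_lit 152) (nat_lit 57065554987) (nat_lit 0) (nat_lit 3331951997) (nat_lit 3) (nat_lit 5) (nat_lit 5) (nat_lit 4) (nat_lit 3) (nat_lit 4) (nat_lit 397) (nat_lit 224) (nat_lit 159)) (XT.lf (nat_lit 0) (nat_lit 18227284314) (nat_lit 152) (nat_lit 53679441857) (nat_lit 0) (nat_lit 6089630645) (nat_lit 3) (nat_lit 5) (nat_lit 5) (nat_lit 4) (nat_lit 3) (nat_lit 4) (nat_lit 398) (nat_lit 224) (nat_lit 158)))) (XT.nd (nat_lit 78) (nat_lit 0) (nat_lit 0) (XT.lf (nat_lit 0) (nat_lit 21111706882) (nat_lit 152) (nat_lit 50224997850) (nat_lit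 0) (nat_lit 8915473132) (nat_lit 3) (nat_lit 5) (nat_lit 5) (nat_lit 4) (nat_lit 3) (nat_lit 4) (nat_lit 399) (nat_lit 224) (nat_lit 157)) (XT.nd (nat_lit 78) (nat_lit 0) (nat_lit 0) (XT.lf (nat_lit 0) (nat_lit 24065056257) (nat_lit 152) (nat_lit 46699204520) (nat_lit 0) (nat_lit 11811948641) (nat_lit 3) (nat_lit 5) (nat_lit 5) (nat_lit 4) (nat_lit 3) (nat_lit 4) (nat_lit 400) (nat_lit 224) (nat_lit 156)) (XT.lf (nat_lit 0) (nat_lit 27089913033) (nat_lit 152) (nat_lit 43098981078) (nat_lit 0) (nat_lit 14781588072) (nat_lit 3) (nat_lit 5) (nat_lit 5) (nat_lit 4) (nat_lit 3) (nat_lit 4) (nat_lit 401) (nat_lit 224) (nat_lit 155))))) (XT.nd (nat_lit 35022) (nat_lit 0) (nat_lit 2128) (XT.nd (nat_lit 78) (nat_lit 0) (nat_lit 0) (XT.lf (nat_lit 0) (nat_lit 30188920291) (nat_lit 152) (nat_lit 39421181696) (nat_lit 0) (nat_lit 17826986257) (nat_lit 3) (nat_lit 5) (nat_lit 5) (nat_lit 4) (nat_lit 3) (nat_lit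 4) (nat_lit 402) (nat_lit 224) (nat_lit 154)) (XT.nd (nat_lit 78) (nat_lit 0) (nat_lit 0) (XT.lf (nat_lit 0) (nat_lit 33364785900) (nat_lit 152) (nat_lit 35662592764) (nat_lit 0) (nat_lit 20950804222) (nat_lit 3) (nat_lit 5) (nat_lit 5) (nat_lit 4) (nat_lit 3) (nat_lit 4) (nat_lit 403) (nat_lit 224) (nat_lit 153)) (XT.lf (nat_lit 0) (nat_lit 36620284888) (nat_lit 152) (nat_lit 31819930077) (nat_lit 0) (nat_lit 24155771517) (nat_lit 3) (nat_lit 5) (nat_lit 5) (nat_lit 4) (nat_lit 3) (nat_lit 4) (nat_lit 404) (nat_lit 224) (nat_lit 152)))) (XT.nd (nat_lit 78) (nat_lit 152) (nat_lit 0) (XT.lf (nat_lit 0) (nat_lit 1957289677) (nat_lit 228) (nat_lit 2971260472) (nat_lit 0) (nat_lit 1957289677) (nat_lit 33) (nat_lit 5) (nat_lit 36) (nat_lit 4) (nat_lit 33) (nat_lit 4) (nat_lit 330) (nat_lit 225) (nat_lit 225)) (XT.nd (nat_lit 78) (nat_lit 0) (nat_lit 0) (XT.lf (nat_lit 0) (nat_lit 1128908229) (nat_lit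 152) (nat_lit 6729283700) (nat_lit 152) (nat_lit 6191581484) (nat_lit 31) (nat_lit 4) (nat_lit 33) (nat_lit 5) (nat_lit 33) (nat_lit 4) (nat_lit 331) (nat_lit 225) (nat_lit 224)) (XT.lf (nat_lit 0) (nat_lit 8391861457) (nat_lit 152) (nat_lit 3502467943) (nat_lit 152) (nat_lit 2442724741) (nat_lit 31) (nat_lit 4) (nat_lit 33) (nat_lit 5) (nat_lit 33) (nat_lit 4) (nat_lit 332) (nat_lit 225) (nat_lit 223))))))))
noncomputable def xc29 : XT := (XT.nd (nat_lit 1872) (nat_lit 456) (nat_lit 0) (XT.nd (nat_lit 936) (nat_lit 608) (nat_lit 0) (XT.nd (nat_lit 468) (nat_lit 304) (nat_lit 0) (XT.nd (nat_lit 234) (nat_lit 152) (nat_lit 0) (XT.nd (nat_lit 78) (nat_lit 152) (nat_lit 0) (XT.lf (nat_lit 0) (nat_lit 1107700670) (nat_lit 152) (nat_lit 209678531) (nat_lit 228) (nat_lit 13317437686) (nat_lit 28) (nat_lit 5) (nat_lit 30) (nat_lit 5) (nat_lit 31) (nat_lit 4) (nat_lit 333) (nat_lit 225) (nat_lit 222))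 (XT.nd (nat_lit 78) (nat_lit 152) (nat_lit 0) (XT.lf (nat_lit 0) (nat_lit 5148805747) (nat_lit 228) (nat_lit 6641703686) (nat_lit 0) (nat_lit 3150113701) (nat_lit 28) (nat_lit 5) (nat_lit 31) (nat_lit 4) (nat_lit 28) (nat_lit 4) (nat_lit 334) (nat_lit 225) (nat_lit 221)) (XT.lf (nat_lit 0) (nat_lit 317816804) (nat_lit 152) (nat_lit 8701324622) (nat_lit 152) (nat_lit 6238805922) (nat_lit 26) (nat_lit 4) (nat_lit 28) (nat_lit 5) (nat_lit 28) (nat_lit 4) (nat_lit 335) (nat_lit 225) (nat_lit 220)))) (XT.nd (nat_lit 78) (nat_lit 152) (nat_lit 0) (XT.lf (nat_lit 0) (nat_lit 7487030205) (nat_lit 152) (nat_lit 5505524423) (nat_lit 152) (nat_lit 2592688582) (nat_lit 26) (nat_lit 4) (nat_lit 28) (nat_lit 5) (nat_lit 28) (nat_lit 4) (nat_lit 336) (nat_lit 225) (nat_lit 219)) (XT.nd (nat_lit 78) (nat_lit 76) (nat_lit 0) (XT.lf (nat_lit 0) (nat_lit 1061525927) (nat_lit 228) (nat_lit 1195139314) (nat_lit 76)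 (nat_lit 13667772690) (nat_lit 25) (nat_lit 5) (nat_lit 28) (nat_lit 5) (nat_lit 26) (nat_lit 4) (nat_lit 337) (nat_lit 225) (nat_lit 218)) (XT.lf (nat_lit 0) (nat_lit 4764204228) (nat_lit 152) (nat_lit 10409524302) (nat_lit 0) (nat_lit 1099637197) (nat_lit 24) (nat_lit 5) (nat_lit 26) (nat_lit 4) (nat_lit 24) (nat_lit 4) (nat_lit 338) (nat_lit 225) (nat_lit 217))))) (XT.nd (nat_lit 234) (nat_lit 152) (nat_lit 0) (XT.nd (nat_lit 78) (nat_lit 152) (nat_lit 0) (XT.lf (nat_lit 0) (nat_lit 8536677389) (nat_lit 152) (nat_lit 3625367267) (nat_lit 0) (nat_lit 4472009411) (nat_lit 24) (nat_lit 5) (nat_lit 26) (nat_lit 4) (nat_lit 24) (nat_lit 4) (nat_lit 339) (nat_lit 225) (nat_lit 216)) (XT.nd (nat_lit 78) (nat_lit 0) (nat_lit 0) (XT.lf (nat_lit 0) (nat_lit 3300905648) (nat_lit 152) (nat_lit 9079540912) (nat_lit 152) (nat_lit 4626425413) (nat_lit 22) (nat_lit 4) (nat_lit 24) (nat_lit 5) (nat_lit 24)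 (nat_lit 4) (nat_lit 340) (nat_lit 225) (nat_lit 215)) (XT.lf (nat_lit 0) (nat_lit 10384695382) (nat_lit 152) (nat_lit 5918780340) (nat_lit 152) (nat_lit 1088531326) (nat_lit 22) (nat_lit 4) (nat_lit 24) (nat_lit 5) (nat_lit 24) (nat_lit 4) (nat_lit 341) (nat_lit 225) (nat_lit 214)))) (XT.nd (nat_lit 78) (nat_lit 76) (nat_lit 0) (XT.lf (nat_lit 0) (nat_lit 2434339712) (nat_lit 228) (nat_lit 254688442) (nat_lit 76) (nat_lit 15101117964) (nat_lit 21) (nat_lit 5) (nat_lit 24) (nat_lit 5) (nat_lit 22) (nat_lit 4) (nat_lit 342) (nat_lit 225) (nat_lit 213)) (XT.nd (nat_lit 78) (nat_lit 0) (nat_lit 0) (XT.lf (nat_lit 0) (nat_lit 6042618938) (nat_lit 152) (nat_lit 11504844103) (nat_lit 0) (nat_lit 652441688) (nat_lit 20) (nat_lit 5) (nat_lit 22) (nat_lit 4) (nat_lit 20) (nat_lit 4) (nat_lit 343) (nat_lit 225) (nat_lit 212)) (XT.lf (nat_lit 0) (nat_lit 9719561666) (nat_lit 152) (nat_lit 4909321153) (nat_lit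 0) (nat_lit 3994306173) (nat_lit 20) (nat_lit 5) (nat_lit 22) (nat_lit 4) (nat_lit 20) (nat_lit 4) (nat_lit 344) (nat_lit 225) (nat_lit 211)))))) (XT.nd (nat_lit 468) (nat_lit 304) (nat_lit 0) (XT.nd (nat_lit 234) (nat_lit 76) (nat_lit 0) (XT.nd (nat_lit 78) (nat_lit 76) (nat_lit 0) (XT.lf (nat_lit 0) (nat_lit 1803418150) (nat_lit 152) (nat_lit 11653927917) (nat_lit 152) (nat_lit 5603353740) (nat_lit 18) (nat_lit 4) (nat_lit 20) (nat_lit 5) (nat_lit 20) (nat_lit 4) (nat_lit 345) (nat_lit 225) (nat_lit 210)) (XT.nd (nat_lit 78) (nat_lit 76) (nat_lit 0) (XT.lf (nat_lit 0) (nat_lit 8703471074) (nat_lit 152) (nat_lit 8587408356) (nat_lit 152) (nat_lit 2220990797) (nat_lit 18) (nat_lit 4) (nat_lit 20) (nat_lit 5) (nat_lit 20) (nat_lit 4) (nat_lit 346) (nat_lit 225) (nat_lit 209)) (XT.lf (nat_lit 0) (nat_lit 1173487740) (nat_lit 228) (nat_lit 4290881506) (nat_lit 76) (nat_lit 14513824010) (nat_lit 17)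 (nat_lit 5) (nat_lit 20) (nat_lit 5) (nat_lit 18) (nat_lit 4) (nat_lit 347) (nat_lit 225) (nat_lit 208)))) (XT.nd (nat_lit 78) (nat_lit 0) (nat_lit 0) (XT.lf (nat_lit 0) (nat_lit 2336352500) (nat_lit 76) (nat_lit 2248439026) (nat_lit 152) (nat_lit 15874304947) (nat_lit 16) (nat_lit 5) (nat_lit 17) (nat_lit 5) (nat_lit 18) (nat_lit 4) (nat_lit 348) (nat_lit 225) (nat_lit 207)) (XT.nd (nat_lit 78) (nat_lit 0) (nat_lit 0) (XT.lf (nat_lit 0) (nat_lit 8089936091) (nat_lit 152) (nat_lit 11823212323) (nat_lit 0) (nat_lit 1041571300) (nat_lit 16) (nat_lit 5) (nat_lit 18) (nat_lit 4) (nat_lit 16) (nat_lit 4) (nat_lit 349) (nat_lit 225) (nat_lit 206)) (XT.lf (nat_lit 0) (nat_lit 11661832347) (nat_lit 152) (nat_lit 5463549975) (nat_lit 0) (nat_lit 4341018280) (nat_lit 16) (nat_lit 5) (nat_lit 18) (nat_lit 4) (nat_lit 16) (nat_lit 4) (nat_lit 350) (nat_lit 225) (nat_lit 205))))) (XT.nd (nat_lit 234) (nat_lit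 152) (nat_lit 0) (XT.nd (nat_lit 78) (nat_lit 0) (nat_lit 0) (XT.lf (nat_lit 0) (nat_lit 1002985282) (nat_lit 152) (nat_lit 14288644023) (nat_lit 152) (nat_lit 6703316096) (nat_lit 14) (nat_lit 4) (nat_lit 16) (nat_lit 5) (nat_lit 16) (nat_lit 4) (nat_lit 351) (nat_lit 225) (nat_lit 204)) (XT.nd (nat_lit 78) (nat_lit 0) (nat_lit 0) (XT.lf (nat_lit 0) (nat_lit 7673039797) (nat_lit 152) (nat_lit 11354284440) (nat_lit 152) (nat_lit 3512146941) (nat_lit 14) (nat_lit 4) (nat_lit 16) (nat_lit 5) (nat_lit 16) (nat_lit 4) (nat_lit 352) (nat_lit 225) (nat_lit 203)) (XT.lf (nat_lit 0) (nat_lit 14443706414) (nat_lit 152) (nat_lit 8374910712) (nat_lit 152) (nat_lit 283443530) (nat_lit 14) (nat_lit 4) (nat_lit 16) (nat_lit 5) (nat_lit 16) (nat_lit 4) (nat_lit 353) (nat_lit 225) (nat_lit 202)))) (XT.nd (nat_lit 78) (nat_lit 76) (nat_lit 0) (XT.lf (nat_lit 0) (nat_lit 2927355222) (nat_lit 228) (nat_lit 2391003733)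 (nat_lit 76) (nat_lit 18363985479) (nat_lit 13) (nat_lit 5) (nat_lit 16) (nat_lit 5) (nat_lit 14) (nat_lit 4) (nat_lit 354) (nat_lit 225) (nat_lit 201)) (XT.nd (nat_lit 78) (nat_lit 0) (nat_lit 0) (XT.lf (nat_lit 0) (nat_lit 4045625833) (nat_lit 76) (nat_lit 2168254859) (nat_lit 152) (nat_lit 18066549731) (nat_lit 12) (nat_lit 5) (nat_lit 13) (nat_lit 5) (nat_lit 14) (nat_lit 4) (nat_lit 355) (nat_lit 225) (nat_lit 200)) (XT.lf (nat_lit 0) (nat_lit 9580213800) (nat_lit 152) (nat_lit 14277133704) (nat_lit 0) (nat_lit 1039705109) (nat_lit 12) (nat_lit 5) (nat_lit 14) (nat_lit 4) (nat_lit 12) (nat_lit 4) (nat_lit 356) (nat_lit 225) (nat_lit 199))))))) (XT.nd (nat_lit 936) (nat_lit 228) (nat_lit 0) (XT.nd (nat_lit 468) (nat_lit 76) (nat_lit 0) (XT.nd (nat_lit 234) (nat_lit 76) (nat_lit 0) (XT.nd (nat_lit 78) (nat_lit 76) (nat_lit 0) (XT.lf (nat_lit 0) (nat_lit 13017045367) (nat_lit 152) (nat_lit 8254609255)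 (nat_lit 0) (nat_lit 4261462701) (nat_lit 12) (nat_lit 5) (nat_lit 14) (nat_lit 4) (nat_lit 12) (nat_lit 4) (nat_lit 357) (nat_lit 225) (nat_lit 198)) (XT.nd (nat_lit 78) (nat_lit 76) (nat_lit 0) (XT.lf (nat_lit 0) (nat_lit 16506535856) (nat_lit 152) (nat_lit 2141126251) (nat_lit 0) (nat_lit 7542143507) (nat_lit 12) (nat_lit 5) (nat_lit 14) (nat_lit 4) (nat_lit 12) (nat_lit 4) (nat_lit 358) (nat_lit 225) (nat_lit 197)) (XT.lf (nat_lit 0) (nat_lit 4149631442) (nat_lit 76) (nat_lit 15941991692) (nat_lit 76) (nat_lit 6774871494) (nat_lit 11) (nat_lit 4) (nat_lit 12) (nat_lit 5) (nat_lit 12) (nat_lit 4) (nat_lit 359) (nat_lit 225) (nat_lit 196)))) (XT.nd (nat_lit 78) (nat_lit 76) (nat_lit 0) (XT.lf (nat_lit 0) (nat_lit 10586752761) (nat_lit 76) (nat_lit 13170752141) (nat_lit 76) (nat_lit 3806808790) (nat_lit 11) (nat_lit 4) (nat_lit 12) (nat_lit 5) (nat_lit 12) (nat_lit 4) (nat_lit 360) (nat_lit 225)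 (nat_lit 195)) (XT.nd (nat_lit 78) (nat_lit 76) (nat_lit 0) (XT.lf (nat_lit 0) (nat_lit 17133249763) (nat_lit 76) (nat_lit 10353143162) (nat_lit 76) (nat_lit 798109371) (nat_lit 11) (nat_lit 4) (nat_lit 12) (nat_lit 5) (nat_lit 12) (nat_lit 4) (nat_lit 361) (nat_lit 225) (nat_lit 194)) (XT.lf (nat_lit 0) (nat_lit 2209874881) (nat_lit 152) (nat_lit 5254512480) (nat_lit 76) (nat_lit 21562652403) (nat_lit 10) (nat_lit 5) (nat_lit 12) (nat_lit 5) (nat_lit 11) (nat_lit 4) (nat_lit 362) (nat_lit 225) (nat_lit 193))))) (XT.nd (nat_lit 234) (nat_lit 0) (nat_lit 0) (XT.nd (nat_lit 78) (nat_lit 0) (nat_lit 0) (XT.lf (nat_lit 0) (nat_lit 745938589) (nat_lit 76) (nat_lit 4508553108) (nat_lit 152) (nat_lit 24538275238) (nat_lit 9) (nat_lit 5) (nat_lit 10) (nat_lit 5) (nat_lit 11) (nat_lit 4) (nat_lit 363) (nat_lit 225) (nat_lit 192)) (XT.nd (nat_lit 78) (nat_lit 0) (nat_lit 0) (XT.lf (nat_lit 0) (nat_lit 6955053282)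 (nat_lit 76) (nat_lit 1444260837) (nat_lit 152) (nat_lit 22181908766) (nat_lit 9) (nat_lit 5) (nat_lit 10) (nat_lit 5) (nat_lit 11) (nat_lit 4) (nat_lit 364) (nat_lit 225) (nat_lit 191)) (XT.lf (nat_lit 0) (nat_lit 11611706209) (nat_lit 152) (nat_lit 18137091054) (nat_lit 0) (nat_lit 1645360809) (nat_lit 9) (nat_lit 5) (nat_lit 11) (nat_lit 4) (nat_lit 9) (nat_lit 4) (nat_lit 365) (nat_lit 225) (nat_lit 190)))) (XT.nd (nat_lit 78) (nat_lit 0) (nat_lit 0) (XT.lf (nat_lit 0) (nat_lit 14892797427) (nat_lit 152) (nat_lit 12573118932) (nat_lit 0) (nat_lit 4766416792) (nat_lit 9) (nat_lit 5) (nat_lit 11) (nat_lit 4) (nat_lit 9) (nat_lit 4) (nat_lit 366) (nat_lit 225) (nat_lit 189)) (XT.nd (nat_lit 78) (nat_lit 0) (nat_lit 0) (XT.lf (nat_lit 0) (nat_lit 18231571628) (nat_lit 152) (nat_lit 6915508396) (nat_lit 0) (nat_lit 7949816978) (nat_lit 9) (nat_lit 5) (nat_lit 11) (nat_lit 4) (nat_lit 9) (nat_lit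 4) (nat_lit 367) (nat_lit 225) (nat_lit 188)) (XT.lf (nat_lit 0) (nat_lit 21630946187) (nat_lit 152) (nat_lit 1159315903) (nat_lit 0) (nat_lit 11198342979) (nat_lit 9) (nat_lit 5) (nat_lit 11) (nat_lit 4) (nat_lit 9) (nat_lit 4) (nat_lit 368) (nat_lit 225) (nat_lit 187)))))) (XT.nd (nat_lit 468) (nat_lit 76) (nat_lit 0) (XT.nd (nat_lit 234) (nat_lit 76) (nat_lit 0) (XT.nd (nat_lit 78) (nat_lit 0) (nat_lit 0) (XT.lf (nat_lit 0) (nat_lit 4794037161) (nat_lit 76) (nat_lit 20345937488) (nat_lit 76) (nat_lit 9766879369) (nat_lit 8) (nat_lit 4) (nat_lit 9) (nat_lit 5) (nat_lit 9) (nat_lit 4) (nat_lit 369) (nat_lit 225) (nat_lit 186)) (XT.nd (nat_lit 78) (nat_lit 0) (nat_lit 0) (XT.lf (nat_lit 0) (nat_lit 10881358721) (nat_lit 76) (nat_lit 17846672793) (nat_lit 76) (nat_lit 7125425440) (nat_lit 8) (nat_lit 4) (nat_lit 9) (nat_lit 5) (nat_lit 9) (nat_lit 4) (nat_lit 370) (nat_lit 225) (nat_lit 185)) (XT.lf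 (nat_lit 0) (nat_lit 17084895134) (nat_lit 76) (nat_lit 15301990998) (nat_lit 76) (nat_lit 4442695845) (nat_lit 8) (nat_lit 4) (nat_lit 9) (nat_lit 5) (nat_lit 9) (nat_lit 4) (nat_lit 371) (nat_lit 225) (nat_lit 184)))) (XT.nd (nat_lit 78) (nat_lit 76) (nat_lit 0) (XT.lf (nat_lit 0) (nat_lit 23410066966) (nat_lit 76) (nat_lit 12709668596) (nat_lit 76) (nat_lit 1716346453) (nat_lit 8) (nat_lit 4) (nat_lit 9) (nat_lit 5) (nat_lit 9) (nat_lit 4) (nat_lit 372) (nat_lit 225) (nat_lit 183)) (XT.nd (nat_lit 78) (nat_lit 0) (nat_lit 0) (XT.lf (nat_lit 0) (nat_lit 1035398522) (nat_lit 152) (nat_lit 9021586433) (nat_lit 76) (nat_lit 28816547049) (nat_lit 7) (nat_lit 5) (nat_lit 9) (nat_lit 5) (nat_lit 8) (nat_lit 4) (nat_lit 373) (nat_lit 225) (nat_lit 182)) (XT.lf (nat_lit 0) (nat_lit 3801130949) (nat_lit 152) (nat_lit 3533482900) (nat_lit 76) (nat_lit 32608020479) (nat_lit 7) (nat_lit 5) (nat_lit 9) (nat_lit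 5) (nat_lit 8) (nat_lit 4) (nat_lit 374) (nat_lit 225) (nat_lit 181))))) (XT.nd (nat_lit 234) (nat_lit 0) (nat_lit 0) (XT.nd (nat_lit 78) (nat_lit 0) (nat_lit 0) (XT.lf (nat_lit 0) (nat_lit 2100579422) (nat_lit 76) (nat_lit 4536372218) (nat_lit 152) (nat_lit 34407260706) (nat_lit 6) (nat_lit 5) (nat_lit 7) (nat_lit 5) (nat_lit 8) (nat_lit 4) (nat_lit 375) (nat_lit 225) (nat_lit 180)) (XT.nd (nat_lit 78) (nat_lit 0) (nat_lit 0) (XT.lf (nat_lit 0) (nat_lit 7917007403) (nat_lit 76) (nat_lit 1643840407) (nat_lit 152) (nat_lit 32617915516) (nat_lit 6) (nat_lit 5) (nat_lit 7) (nat_lit 5) (nat_lit 8) (nat_lit 4) (nat_lit 376) (nat_lit 225) (nat_lit 179)) (XT.lf (nat_lit 0) (nat_lit 12553323198) (nat_lit 152) (nat_lit 29510348629) (nat_lit 0) (nat_lit 1284268331) (nat_lit 6) (nat_lit 5) (nat_lit 8) (nat_lit 4) (nat_lit 6) (nat_lit 4) (nat_lit 377) (nat_lit 225) (nat_lit 178)))) (XT.nd (nat_lit 78) (nat_lit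 0) (nat_lit 0) (XT.lf (nat_lit 0) (nat_lit 15620804806) (nat_lit 152) (nat_lit 24689071545) (nat_lit 0) (nat_lit 4242773731) (nat_lit 6) (nat_lit 5) (nat_lit 8) (nat_lit 4) (nat_lit 6) (nat_lit 4) (nat_lit 378) (nat_lit 225) (nat_lit 177)) (XT.nd (nat_lit 78) (nat_lit 0) (nat_lit 0) (XT.lf (nat_lit 0) (nat_lit 18750171360) (nat_lit 152) (nat_lit 19777910306) (nat_lit 0) (nat_lit 7266338142) (nat_lit 6) (nat_lit 5) (nat_lit 8) (nat_lit 4) (nat_lit 6) (nat_lit 4) (nat_lit 379) (nat_lit 225) (nat_lit 176)) (XT.lf (nat_lit 0) (nat_lit 21944157258) (nat_lit 152) (nat_lit 14772573608) (nat_lit 0) (nat_lit 10357603511) (nat_lit 6) (nat_lit 5) (nat_lit 8) (nat_lit 4) (nat_lit 6) (nat_lit 4) (nat_lit 380) (nat_lit 225) (nat_lit 175))))))))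
noncomputable def xc30 : XT := (XT.nd (nat_lit 36504) (nat_lit 0) (nat_lit 988) (XT.nd (nat_lit 858) (nat_lit 152) (nat_lit 0) (XT.nd (nat_lit 390) (nat_lit 0) (nat_lit 0) (XT.nd (nat_lit 156) (nat_lit 76) (nat_lit 0) (XT.nd (nat_lit 78) (nat_lit 0) (nat_lit 0) (XT.lf (nat_lit 0) (nat_lit 25205553361) (nat_lit 152) (nat_lit 9668687854) (nat_lit 0) (nat_lit 13519270946) (nat_lit 6) (nat_lit 5) (nat_lit 8) (nat_lit 4) (nat_lit 6) (nat_lit 4) (nat_lit 381) (nat_lit 225) (nat_lit 174)) (XT.lf (nat_lit 0) (nat_lit 28537209432) (nat_lit 152) (nat_lit 4461793338) (nat_lit 0) (nat_lit 16754103069) (nat_lit 6) (nat_lit 5) (nat_lit 8) (nat_lit 4) (nat_lit 6) (nat_lit 4) (nat_lit 382) (nat_lit 225) (nat_lit 173))) (XT.nd (nat_lit 78) (nat_lit 0) (nat_lit 0) (XT.lf (nat_lit 0) (nat_lit 869629251) (nat_lit 76) (nat_lit 31080766785) (nat_lit 76) (nat_lit 19203656588) (nat_lit 5) (nat_lit 4) (nat_lit 6) (nat_lit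 5) (nat_lit 6) (nat_lit 4) (nat_lit 383) (nat_lit 225) (nat_lit 172)) (XT.nd (nat_lit 78) (nat_lit 0) (nat_lit 0) (XT.lf (nat_lit 0) (nat_lit 6404285492) (nat_lit 76) (nat_lit 29080286458) (nat_lit 76) (nat_lit 17111910402) (nat_lit 5) (nat_lit 4) (nat_lit 6) (nat_lit 5) (nat_lit 6) (nat_lit 4) (nat_lit 384) (nat_lit 225) (nat_lit 171)) (XT.lf (nat_lit 0) (nat_lit 12058213055) (nat_lit 76) (nat_lit 27040869161) (nat_lit 76) (nat_lit 14983885475) (nat_lit 5) (nat_lit 4) (nat_lit 6) (nat_lit 5) (nat_lit 6) (nat_lit 4) (nat_lit 385) (nat_lit 225) (nat_lit 170))))) (XT.nd (nat_lit 234) (nat_lit 0) (nat_lit 0) (XT.nd (nat_lit 78) (nat_lit 0) (nat_lit 0) (XT.lf (nat_lit 0) (nat_lit 17836352266) (nat_lit 76) (nat_lit 24960732879) (nat_lit 76) (nat_lit 12817722368) (nat_lit 5) (nat_lit 4) (nat_lit 6) (nat_lit 5) (nat_lit 6) (nat_lit 4) (nat_lit 386) (nat_lit 225) (nat_lit 169)) (XT.nd (nat_lit 78) (nat_lit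 0) (nat_lit 0) (XT.lf (nat_lit 0) (nat_lit 23743751984) (nat_lit 76) (nat_lit 22838060017) (nat_lit 76) (nat_lit 10611528316) (nat_lit 5) (nat_lit 4) (nat_lit 6) (nat_lit 5) (nat_lit 6) (nat_lit 4) (nat_lit 387) (nat_lit 225) (nat_lit 168)) (XT.lf (nat_lit 0) (nat_lit 29785574015) (nat_lit 76) (nat_lit 20670995811) (nat_lit 76) (nat_lit 8363375578) (nat_lit 5) (nat_lit 4) (nat_lit 6) (nat_lit 5) (nat_lit 6) (nat_lit 4) (nat_lit 388) (nat_lit 225) (nat_lit 167)))) (XT.nd (nat_lit 78) (nat_lit 0) (nat_lit 0) (XT.lf (nat_lit 0) (nat_lit 35967097621) (nat_lit 76) (nat_lit 18457646712) (nat_lit 76) (nat_lit 6071299747) (nat_lit 5) (nat_lit 4) (nat_lit 6) (nat_lit 5) (nat_lit 6) (nat_lit 4) (nat_lit 389) (nat_lit 225) (nat_lit 166)) (XT.nd (nat_lit 78) (nat_lit 0) (nat_lit 0) (XT.lf (nat_lit 0) (nat_lit 42293724132) (nat_lit 76) (nat_lit 16196078725) (nat_lit 76) (nat_lit 3733298040) (nat_lit 5) (nat_lit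 4) (nat_lit 6) (nat_lit 5) (nat_lit 6) (nat_lit 4) (nat_lit 390) (nat_lit 225) (nat_lit 165)) (XT.lf (nat_lit 0) (nat_lit 48770981670) (nat_lit 76) (nat_lit 13884315721) (nat_lit 76) (nat_lit 1347327542) (nat_lit 5) (nat_lit 4) (nat_lit 6) (nat_lit 5) (nat_lit 6) (nat_lit 4) (nat_lit 391) (nat_lit 225) (nat_lit 164)))))) (XT.nd (nat_lit 468) (nat_lit 0) (nat_lit 0) (XT.nd (nat_lit 234) (nat_lit 76) (nat_lit 0) (XT.nd (nat_lit 78) (nat_lit 0) (nat_lit 0) (XT.lf (nat_lit 0) (nat_lit 1067452183) (nat_lit 152) (nat_lit 10442106358) (nat_lit 76) (nat_lit 54326298616) (nat_lit 4) (nat_lit 5) (nat_lit 6) (nat_lit 5) (nat_lit 5) (nat_lit 4) (nat_lit 392) (nat_lit 225) (nat_lit 163)) (XT.nd (nat_lit 78) (nat_lit 0) (nat_lit 0) (XT.lf (nat_lit 0) (nat_lit 3507104618) (nat_lit 152) (nat_lit 5559559596) (nat_lit 76) (nat_lit 58657645849) (nat_lit 4) (nat_lit 5) (nat_lit 6) (nat_lit 5) (nat_lit 5) (nat_lit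 4) (nat_lit 393) (nat_lit 225) (nat_lit 162)) (XT.lf (nat_lit 0) (nat_lit 6000052709) (nat_lit 152) (nat_lit 566785340) (nat_lit 76) (nat_lit 63103184247) (nat_lit 4) (nat_lit 5) (nat_lit 6) (nat_lit 5) (nat_lit 5) (nat_lit 4) (nat_lit 394) (nat_lit 225) (nat_lit 161)))) (XT.nd (nat_lit 78) (nat_lit 0) (nat_lit 0) (XT.lf (nat_lit 0) (nat_lit 4630945454) (nat_lit 76) (nat_lit 3962044789) (nat_lit 152) (nat_lit 63080368288) (nat_lit 3) (nat_lit 5) (nat_lit 4) (nat_lit 5) (nat_lit 5) (nat_lit 4) (nat_lit 395) (nat_lit 225) (nat_lit 160)) (XT.nd (nat_lit 78) (nat_lit 0) (nat_lit 0) (XT.lf (nat_lit 0) (nat_lit 9961378633) (nat_lit 76) (nat_lit 1288973785) (nat_lit 152) (nat_lit 62486851748) (nat_lit 3) (nat_lit 5) (nat_lit 4) (nat_lit 5) (nat_lit 5) (nat_lit 4) (nat_lit 396) (nat_lit 225) (nat_lit 159)) (XT.lf (nat_lit 0) (nat_lit 13982833035) (nat_lit 152) (nat_lit 60459566103) (nat_lit 0) (nat_lit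 1420712272) (nat_lit 3) (nat_lit 5) (nat_lit 5) (nat_lit 4) (nat_lit 3) (nat_lit 4) (nat_lit 397) (nat_lit 225) (nat_lit 158))))) (XT.nd (nat_lit 234) (nat_lit 0) (nat_lit 0) (XT.nd (nat_lit 78) (nat_lit 0) (nat_lit 0) (XT.lf (nat_lit 0) (nat_lit 16791916139) (nat_lit 152) (nat_lit 57089833523) (nat_lit 0) (nat_lit 4171215294) (nat_lit 3) (nat_lit 5) (nat_lit 5) (nat_lit 4) (nat_lit 3) (nat_lit 4) (nat_lit 398) (nat_lit 225) (nat_lit 157)) (XT.nd (nat_lit 78) (nat_lit 0) (nat_lit 0) (XT.lf (nat_lit 0) (nat_lit 19667665864) (nat_lit 152) (nat_lit 53651292963) (nat_lit 0) (nat_lit 6990091154) (nat_lit 3) (nat_lit 5) (nat_lit 5) (nat_lit 4) (nat_lit 3) (nat_lit 4) (nat_lit 399) (nat_lit 225) (nat_lit 156)) (XT.lf (nat_lit 0) (nat_lit 22612595003) (nat_lit 152) (nat_lit 50140939873) (nat_lit 0) (nat_lit 9879802948) (nat_lit 3) (nat_lit 5) (nat_lit 5) (nat_lit 4) (nat_lit 3) (nat_lit 4) (nat_lit 400)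 (nat_lit 225) (nat_lit 155)))) (XT.nd (nat_lit 78) (nat_lit 0) (nat_lit 0) (XT.lf (nat_lit 0) (nat_lit 25629276793) (nat_lit 152) (nat_lit 46555706955) (nat_lit 0) (nat_lit 12842875665) (nat_lit 3) (nat_lit 5) (nat_lit 5) (nat_lit 4) (nat_lit 3) (nat_lit 4) (nat_lit 401) (nat_lit 225) (nat_lit 154)) (XT.nd (nat_lit 78) (nat_lit 0) (nat_lit 0) (XT.lf (nat_lit 0) (nat_lit 28720347171) (nat_lit 152) (nat_lit 42892461480) (nat_lit 0) (nat_lit 15881898398) (nat_lit 3) (nat_lit 5) (nat_lit 5) (nat_lit 4) (nat_lit 3) (nat_lit 4) (nat_lit 402) (nat_lit 225) (nat_lit 153)) (XT.lf (nat_lit 0) (nat_lit 31888507071) (nat_lit 152) (nat_lit 39148002554) (nat_lit 0) (nat_lit 18999526605) (nat_lit 3) (nat_lit 5) (nat_lit 5) (nat_lit 4) (nat_lit 3) (nat_lit 4) (nat_lit 403) (nat_lit 225) (nat_lit 152))))))) (XT.nd (nat_lit 936) (nat_lit 608) (nat_lit 0) (XT.nd (nat_lit 468) (nat_lit 304) (nat_lit 0) (XT.nd (nat_lit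 234) (nat_lit 380) (nat_lit 0) (XT.nd (nat_lit 78) (nat_lit 228) (nat_lit 0) (XT.lf (nat_lit 0) (nat_lit 3386792641) (nat_lit 152) (nat_lit 1617003180) (nat_lit 152) (nat_lit 1617003180) (nat_lit 36) (nat_lit 4) (nat_lit 38) (nat_lit 5) (nat_lit 38) (nat_lit 4) (nat_lit 328) (nat_lit 226) (nat_lit 226)) (XT.nd (nat_lit 78) (nat_lit 0) (nat_lit 0) (XT.lf (nat_lit 0) (nat_lit 565776128) (nat_lit 228) (nat_lit 12926253980) (nat_lit 0) (nat_lit 11942846) (nat_lit 33) (nat_lit 5) (nat_lit 36) (nat_lit 4) (nat_lit 33) (nat_lit 4) (nat_lit 329) (nat_lit 226) (nat_lit 225)) (XT.lf (nat_lit 0) (nat_lit 4425577767) (nat_lit 228) (nat_lit 6013380510) (nat_lit 0) (nat_lit 3334042269) (nat_lit 33) (nat_lit 5) (nat_lit 36) (nat_lit 4) (nat_lit 33) (nat_lit 4) (nat_lit 330) (nat_lit 226) (nat_lit 224)))) (XT.nd (nat_lit 78) (nat_lit 228) (nat_lit 0) (XT.lf (nat_lit 0) (nat_lit 986473554) (nat_lit 152) (nat_lit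 7339760365) (nat_lit 152) (nat_lit 5726183882) (nat_lit 31) (nat_lit 4) (nat_lit 33) (nat_lit 5) (nat_lit 33) (nat_lit 4) (nat_lit 331) (nat_lit 226) (nat_lit 223)) (XT.nd (nat_lit 78) (nat_lit 228) (nat_lit 0) (XT.lf (nat_lit 0) (nat_lit 8181305554) (nat_lit 152) (nat_lit 4140035040) (nat_lit 152) (nat_lit 2019622648) (nat_lit 31) (nat_lit 4) (nat_lit 33) (nat_lit 5) (nat_lit 33) (nat_lit 4) (nat_lit 332) (nat_lit 226) (nat_lit 222)) (XT.lf (nat_lit 0) (nat_lit 816516230) (nat_lit 152) (nat_lit 872647473) (nat_lit 228) (nat_lit 12950763961) (nat_lit 28) (nat_lit 5) (nat_lit 30) (nat_lit 5) (nat_lit 31) (nat_lit 4) (nat_lit 333) (nat_lit 226) (nat_lit 221))))) (XT.nd (nat_lit 234) (nat_lit 152) (nat_lit 0) (XT.nd (nat_lit 78) (nat_lit 152) (nat_lit 0) (XT.lf (nat_lit 0) (nat_lit 5474234758) (nat_lit 228) (nat_lit 6998906898) (nat_lit 0) (nat_lit 2474013842) (nat_lit 28) (nat_lit 5) (nat_lit 31)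 (nat_lit 4) (nat_lit 28) (nat_lit 4) (nat_lit 334) (nat_lit 226) (nat_lit 220)) (XT.nd (nat_lit 78) (nat_lit 152) (nat_lit 0) (XT.lf (nat_lit 0) (nat_lit 9302697303) (nat_lit 228) (nat_lit 110909378) (nat_lit 0) (nat_lit 5852159247) (nat_lit 28) (nat_lit 5) (nat_lit 31) (nat_lit 4) (nat_lit 28) (nat_lit 4) (nat_lit 335) (nat_lit 226) (nat_lit 219)) (XT.lf (nat_lit 0) (nat_lit 6991415890) (nat_lit 152) (nat_lit 6245298053) (nat_lit 152) (nat_lit 2357558889) (nat_lit 26) (nat_lit 4) (nat_lit 28) (nat_lit 5) (nat_lit 28) (nat_lit 4) (nat_lit 336) (nat_lit 226) (nat_lit 218)))) (XT.nd (nat_lit 78) (nat_lit 76) (nat_lit 0) (XT.lf (nat_lit 0) (nat_lit 1254477984) (nat_lit 228) (nat_lit 1765615948) (nat_lit 76) (nat_lit 12914460972) (nat_lit 25) (nat_lit 5) (nat_lit 28) (nat_lit 5) (nat_lit 26) (nat_lit 4) (nat_lit 337) (nat_lit 226) (nat_lit 217)) (XT.nd (nat_lit 78) (nat_lit 0) (nat_lit 0) (XT.lf (nat_lit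 0) (nat_lit 4906821298) (nat_lit 152) (nat_lit 11058085789) (nat_lit 0) (nat_lit 320112335) (nat_lit 24) (nat_lit 5) (nat_lit 26) (nat_lit 4) (nat_lit 24) (nat_lit 4) (nat_lit 338) (nat_lit 226) (nat_lit 216)) (XT.lf (nat_lit 0) (nat_lit 8643034110) (nat_lit 152) (nat_lit 4335909733) (nat_lit 0) (nat_lit 3667877626) (nat_lit 24) (nat_lit 5) (nat_lit 26) (nat_lit 4) (nat_lit 24) (nat_lit 4) (nat_lit 339) (nat_lit 226) (nat_lit 215)))))) (XT.nd (nat_lit 468) (nat_lit 152) (nat_lit 0) (XT.nd (nat_lit 234) (nat_lit 228) (nat_lit 0) (XT.nd (nat_lit 78) (nat_lit 76) (nat_lit 0) (XT.lf (nat_lit 0) (nat_lit 2514848671) (nat_lit 152) (nat_lit 9929194327) (nat_lit 152) (nat_lit 4576904327) (nat_lit 22) (nat_lit 4) (nat_lit 24) (nat_lit 5) (nat_lit 24) (nat_lit 4) (nat_lit 340) (nat_lit 226) (nat_lit 214)) (XT.nd (nat_lit 78) (nat_lit 76) (nat_lit 0) (XT.lf (nat_lit 0) (nat_lit 9539052654) (nat_lit 152)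 (nat_lit 6793267875) (nat_lit 152) (nat_lit 1074828830) (nat_lit 22) (nat_lit 4) (nat_lit 24) (nat_lit 5) (nat_lit 24) (nat_lit 4) (nat_lit 341) (nat_lit 226) (nat_lit 213)) (XT.lf (nat_lit 0) (nat_lit 2413678084) (nat_lit 228) (nat_lit 1174157042) (nat_lit 76) (nat_lit 14218495264) (nat_lit 21) (nat_lit 5) (nat_lit 24) (nat_lit 5) (nat_lit 22) (nat_lit 4) (nat_lit 342) (nat_lit 226) (nat_lit 212)))) (XT.nd (nat_lit 78) (nat_lit 152) (nat_lit 0) (XT.lf (nat_lit 0) (nat_lit 5705903374) (nat_lit 76) (nat_lit 266982102) (nat_lit 152) (nat_lit 12244698017) (nat_lit 20) (nat_lit 5) (nat_lit 21) (nat_lit 5) (nat_lit 22) (nat_lit 4) (nat_lit 343) (nat_lit 226) (nat_lit 211)) (XT.nd (nat_lit 78) (nat_lit 152) (nat_lit 0) (XT.lf (nat_lit 0) (nat_lit 9614354338) (nat_lit 152) (nat_lit 5970655069) (nat_lit 0) (nat_lit 3056944253) (nat_lit 20) (nat_lit 5) (nat_lit 22) (nat_lit 4) (nat_lit 20) (nat_lit 4)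 (nat_lit 344) (nat_lit 226) (nat_lit 210)) (XT.lf (nat_lit 0) (nat_lit 664456765) (nat_lit 152) (nat_lit 12644784578) (nat_lit 152) (nat_lit 5771531110) (nat_lit 18) (nat_lit 4) (nat_lit 20) (nat_lit 5) (nat_lit 20) (nat_lit 4) (nat_lit 345) (nat_lit 226) (nat_lit 209))))) (XT.nd (nat_lit 234) (nat_lit 0) (nat_lit 0) (XT.nd (nat_lit 78) (nat_lit 152) (nat_lit 0) (XT.lf (nat_lit 0) (nat_lit 7509650621) (nat_lit 152) (nat_lit 9601578299) (nat_lit 152) (nat_lit 2421680772) (nat_lit 18) (nat_lit 4) (nat_lit 20) (nat_lit 5) (nat_lit 20) (nat_lit 4) (nat_lit 346) (nat_lit 226) (nat_lit 208)) (XT.nd (nat_lit 78) (nat_lit 76) (nat_lit 0) (XT.lf (nat_lit 0) (nat_lit 945764274) (nat_lit 228) (nat_lit 5557708729) (nat_lit 76) (nat_lit 13496765350) (nat_lit 17) (nat_lit 5) (nat_lit 20) (nat_lit 5) (nat_lit 18) (nat_lit 4) (nat_lit 347) (nat_lit 226) (nat_lit 207)) (XT.lf (nat_lit 0) (nat_lit 990944866) (nat_lit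 76) (nat_lit 3323142084) (nat_lit 152) (nat_lit 16168362762) (nat_lit 16) (nat_lit 5) (nat_lit 17) (nat_lit 5) (nat_lit 18) (nat_lit 4) (nat_lit 348) (nat_lit 226) (nat_lit 206)))) (XT.nd (nat_lit 78) (nat_lit 0) (nat_lit 0) (XT.lf (nat_lit 0) (nat_lit 7744803931) (nat_lit 76) (nat_lit 34544999) (nat_lit 152) (nat_lit 13199938664) (nat_lit 16) (nat_lit 5) (nat_lit 17) (nat_lit 5) (nat_lit 18) (nat_lit 4) (nat_lit 349) (nat_lit 226) (nat_lit 205)) (XT.nd (nat_lit 78) (nat_lit 0) (nat_lit 0) (XT.lf (nat_lit 0) (nat_lit 11321899575) (nat_lit 152) (nat_lit 6925468960) (nat_lit 0) (nat_lit 3244497951) (nat_lit 16) (nat_lit 5) (nat_lit 18) (nat_lit 4) (nat_lit 16) (nat_lit 4) (nat_lit 350) (nat_lit 226) (nat_lit 204)) (XT.lf (nat_lit 0) (nat_lit 14913886737) (nat_lit 152) (nat_lit 528000423) (nat_lit 0) (nat_lit 6579675539) (nat_lit 16) (nat_lit 5) (nat_lit 18) (nat_lit 4) (nat_lit 16) (nat_lit 4) (nat_lit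 351) (nat_lit 226) (nat_lit 203))))))))
noncomputable def xc31 : XT := (XT.nd (nat_lit 1872) (nat_lit 304) (nat_lit 0) (XT.nd (nat_lit 936) (nat_lit 228) (nat_lit 0) (XT.nd (nat_lit 468) (nat_lit 152) (nat_lit 0) (XT.nd (nat_lit 234) (nat_lit 76) (nat_lit 0) (XT.nd (nat_lit 78) (nat_lit 76) (nat_lit 0) (XT.lf (nat_lit 0) (nat_lit 6082536225) (nat_lit 152) (nat_lit 12534049810) (nat_lit 152) (nat_lit 3950508931) (nat_lit 14) (nat_lit 4) (nat_lit 16) (nat_lit 5) (nat_lit 16) (nat_lit 4) (nat_lit 352) (nat_lit 226) (nat_lit 202)) (XT.nd (nat_lit 78) (nat_lit 76) (nat_lit 0) (XT.lf (nat_lit 0) (nat_lit 12805620684) (nat_lit 152) (nat_lit 9575249349) (nat_lit 152) (nat_lit 749640817) (nat_lit 14) (nat_lit 4) (nat_lit 16) (nat_lit 5) (nat_lit 16) (nat_lit 4) (nat_lit 353) (nat_lit 226) (nat_lit 201)) (XT.lf (nat_lit 0) (nat_lit 2443757911) (nat_lit 228) (nat_lit 4099797109) (nat_lit 76) (nat_lit 17168184175)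 (nat_lit 13) (nat_lit 5) (nat_lit 16) (nat_lit 5) (nat_lit 14) (nat_lit 4) (nat_lit 354) (nat_lit 226) (nat_lit 200)))) (XT.nd (nat_lit 78) (nat_lit 0) (nat_lit 0) (XT.lf (nat_lit 0) (nat_lit 2256543514) (nat_lit 76) (nat_lit 3430816665) (nat_lit 152) (nat_lit 18623767470) (nat_lit 12) (nat_lit 5) (nat_lit 13) (nat_lit 5) (nat_lit 14) (nat_lit 4) (nat_lit 355) (nat_lit 226) (nat_lit 199)) (XT.nd (nat_lit 78) (nat_lit 0) (nat_lit 0) (XT.lf (nat_lit 0) (nat_lit 8796402949) (nat_lit 76) (nat_lit 221689066) (nat_lit 152) (nat_lit 15910740201) (nat_lit 12) (nat_lit 5) (nat_lit 13) (nat_lit 5) (nat_lit 14) (nat_lit 4) (nat_lit 356) (nat_lit 226) (nat_lit 198)) (XT.lf (nat_lit 0) (nat_lit 12427942313) (nat_lit 152) (nat_lit 10151969462) (nat_lit 0) (nat_lit 2985808510) (nat_lit 12) (nat_lit 5) (nat_lit 14) (nat_lit 4) (nat_lit 12) (nat_lit 4) (nat_lit 357) (nat_lit 226) (nat_lit 197))))) (XT.nd (nat_lit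 234) (nat_lit 76) (nat_lit 0) (XT.nd (nat_lit 78) (nat_lit 76) (nat_lit 0) (XT.lf (nat_lit 0) (nat_lit 15893306338) (nat_lit 152) (nat_lit 4081394860) (nat_lit 0) (nat_lit 6248444687) (nat_lit 12) (nat_lit 5) (nat_lit 14) (nat_lit 4) (nat_lit 12) (nat_lit 4) (nat_lit 358) (nat_lit 226) (nat_lit 196)) (XT.nd (nat_lit 78) (nat_lit 0) (nat_lit 0) (XT.lf (nat_lit 0) (nat_lit 2128259952) (nat_lit 76) (nat_lit 17307279253) (nat_lit 76) (nat_lit 7465594448) (nat_lit 11) (nat_lit 4) (nat_lit 12) (nat_lit 5) (nat_lit 12) (nat_lit 4) (nat_lit 359) (nat_lit 226) (nat_lit 195)) (XT.lf (nat_lit 0) (nat_lit 8524131046) (nat_lit 76) (nat_lit 14554151898) (nat_lit 76) (nat_lit 4521376653) (nat_lit 11) (nat_lit 4) (nat_lit 12) (nat_lit 5) (nat_lit 12) (nat_lit 4) (nat_lit 360) (nat_lit 226) (nat_lit 194)))) (XT.nd (nat_lit 78) (nat_lit 76) (nat_lit 0) (XT.lf (nat_lit 0) (nat_lit 15030579286) (nat_lit 76) (nat_lit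 11754127575) (nat_lit 76) (nat_lit 1535827630) (nat_lit 11) (nat_lit 4) (nat_lit 12) (nat_lit 5) (nat_lit 12) (nat_lit 4) (nat_lit 361) (nat_lit 226) (nat_lit 193)) (XT.nd (nat_lit 78) (nat_lit 0) (nat_lit 0) (XT.lf (nat_lit 0) (nat_lit 1464514638) (nat_lit 152) (nat_lit 7425456296) (nat_lit 76) (nat_lit 20173986553) (nat_lit 10) (nat_lit 5) (nat_lit 12) (nat_lit 5) (nat_lit 11) (nat_lit 4) (nat_lit 362) (nat_lit 226) (nat_lit 192)) (XT.lf (nat_lit 0) (nat_lit 4480565382) (nat_lit 152) (nat_lit 1477748107) (nat_lit 76) (nat_lit 23872239469) (nat_lit 10) (nat_lit 5) (nat_lit 12) (nat_lit 5) (nat_lit 11) (nat_lit 4) (nat_lit 363) (nat_lit 226) (nat_lit 191)))))) (XT.nd (nat_lit 468) (nat_lit 76) (nat_lit 0) (XT.nd (nat_lit 234) (nat_lit 76) (nat_lit 0) (XT.nd (nat_lit 78) (nat_lit 0) (nat_lit 0) (XT.lf (nat_lit 0) (nat_lit 4664143948) (nat_lit 76) (nat_lit 2925620171) (nat_lit 152) (nat_lit 23030324488)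 (nat_lit 9) (nat_lit 5) (nat_lit 10) (nat_lit 5) (nat_lit 11) (nat_lit 4) (nat_lit 364) (nat_lit 226) (nat_lit 190)) (XT.nd (nat_lit 78) (nat_lit 0) (nat_lit 0) (XT.lf (nat_lit 0) (nat_lit 10767240494) (nat_lit 152) (nat_lit 20489808236) (nat_lit 0) (nat_lit 177033204) (nat_lit 9) (nat_lit 5) (nat_lit 11) (nat_lit 4) (nat_lit 9) (nat_lit 4) (nat_lit 365) (nat_lit 226) (nat_lit 189)) (XT.lf (nat_lit 0) (nat_lit 14028257942) (nat_lit 152) (nat_lit 14961935006) (nat_lit 0) (nat_lit 3282676637) (nat_lit 9) (nat_lit 5) (nat_lit 11) (nat_lit 4) (nat_lit 9) (nat_lit 4) (nat_lit 366) (nat_lit 226) (nat_lit 188)))) (XT.nd (nat_lit 78) (nat_lit 76) (nat_lit 0) (XT.lf (nat_lit 0) (nat_lit 17347543045) (nat_lit 152) (nat_lit 9339371938) (nat_lit 0) (nat_lit 6451113183) (nat_lit 9) (nat_lit 5) (nat_lit 11) (nat_lit 4) (nat_lit 9) (nat_lit 4) (nat_lit 367) (nat_lit 226) (nat_lit 187)) (XT.nd (nat_lit 78) (nat_lit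 76) (nat_lit 0) (XT.lf (nat_lit 0) (nat_lit 20727996151) (nat_lit 152) (nat_lit 3617206112) (nat_lit 0) (nat_lit 9685111378) (nat_lit 9) (nat_lit 5) (nat_lit 11) (nat_lit 4) (nat_lit 9) (nat_lit 4) (nat_lit 368) (nat_lit 226) (nat_lit 186)) (XT.lf (nat_lit 0) (nat_lit 2253537046) (nat_lit 76) (nat_lit 21940696383) (nat_lit 76) (nat_lit 10755622376) (nat_lit 8) (nat_lit 4) (nat_lit 9) (nat_lit 5) (nat_lit 9) (nat_lit 4) (nat_lit 369) (nat_lit 226) (nat_lit 185))))) (XT.nd (nat_lit 234) (nat_lit 76) (nat_lit 0) (XT.nd (nat_lit 78) (nat_lit 0) (nat_lit 0) (XT.lf (nat_lit 0) (nat_lit 8308146885) (nat_lit 76) (nat_lit 19455993679) (nat_lit 76) (nat_lit 8132871872) (nat_lit 8) (nat_lit 4) (nat_lit 9) (nat_lit 5) (nat_lit 9) (nat_lit 4) (nat_lit 370) (nat_lit 226) (nat_lit 184)) (XT.nd (nat_lit 78) (nat_lit 0) (nat_lit 0) (XT.lf (nat_lit 0) (nat_lit 14479924345) (nat_lit 76) (nat_lit 16925449740) (nat_lit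 76) (nat_lit 5468300942) (nat_lit 8) (nat_lit 4) (nat_lit 9) (nat_lit 5) (nat_lit 9) (nat_lit 4) (nat_lit 371) (nat_lit 226) (nat_lit 183)) (XT.lf (nat_lit 0) (nat_lit 20774262243) (nat_lit 76) (nat_lit 14346853411) (nat_lit 76) (nat_lit 2759581322) (nat_lit 8) (nat_lit 4) (nat_lit 9) (nat_lit 5) (nat_lit 9) (nat_lit 4) (nat_lit 372) (nat_lit 226) (nat_lit 182)))) (XT.nd (nat_lit 78) (nat_lit 76) (nat_lit 0) (XT.lf (nat_lit 0) (nat_lit 27196660485) (nat_lit 76) (nat_lit 11717951550) (nat_lit 76) (nat_lit 4346168) (nat_lit 8) (nat_lit 4) (nat_lit 9) (nat_lit 5) (nat_lit 9) (nat_lit 4) (nat_lit 373) (nat_lit 226) (nat_lit 181)) (XT.nd (nat_lit 78) (nat_lit 0) (nat_lit 0) (XT.lf (nat_lit 0) (nat_lit 2745177588) (nat_lit 152) (nat_lit 6263548559) (nat_lit 76) (nat_lit 30979832376) (nat_lit 7) (nat_lit 5) (nat_lit 9) (nat_lit 5) (nat_lit 8) (nat_lit 4) (nat_lit 374) (nat_lit 226) (nat_lit 180)) (XT.lf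 (nat_lit 0) (nat_lit 5544987314) (nat_lit 152) (nat_lit 699016059) (nat_lit 76) (nat_lit 34847221205) (nat_lit 7) (nat_lit 5) (nat_lit 9) (nat_lit 5) (nat_lit 8) (nat_lit 4) (nat_lit 375) (nat_lit 226) (nat_lit 179))))))) (XT.nd (nat_lit 936) (nat_lit 152) (nat_lit 0) (XT.nd (nat_lit 468) (nat_lit 76) (nat_lit 0) (XT.nd (nat_lit 234) (nat_lit 0) (nat_lit 0) (XT.nd (nat_lit 78) (nat_lit 0) (nat_lit 0) (XT.lf (nat_lit 0) (nat_lit 5075239982) (nat_lit 76) (nat_lit 3371160584) (nat_lit 152) (nat_lit 33780056963) (nat_lit 6) (nat_lit 5) (nat_lit 7) (nat_lit 5) (nat_lit 8) (nat_lit 4) (nat_lit 376) (nat_lit 226) (nat_lit 178)) (XT.nd (nat_lit 78) (nat_lit 0) (nat_lit 0) (XT.lf (nat_lit 0) (nat_lit 10981355662) (nat_lit 76) (nat_lit 429754842) (nat_lit 152) (nat_lit 31985364084) (nat_lit 6) (nat_lit 5) (nat_lit 7) (nat_lit 5) (nat_lit 8) (nat_lit 4) (nat_lit 377) (nat_lit 226) (nat_lit 177)) (XT.lf (nat_lit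 0) (nat_lit 14459614000) (nat_lit 152) (nat_lit 27616683268) (nat_lit 0) (nat_lit 2525463641) (nat_lit 6) (nat_lit 5) (nat_lit 8) (nat_lit 4) (nat_lit 6) (nat_lit 4) (nat_lit 378) (nat_lit 226) (nat_lit 176)))) (XT.nd (nat_lit 78) (nat_lit 0) (nat_lit 0) (XT.lf (nat_lit 0) (nat_lit 17574565947) (nat_lit 152) (nat_lit 22731708915) (nat_lit 0) (nat_lit 5537695060) (nat_lit 6) (nat_lit 5) (nat_lit 8) (nat_lit 4) (nat_lit 6) (nat_lit 4) (nat_lit 379) (nat_lit 226) (nat_lit 175)) (XT.nd (nat_lit 78) (nat_lit 0) (nat_lit 0) (XT.lf (nat_lit 0) (nat_lit 20754557080) (nat_lit 152) (nat_lit 17751796376) (nat_lit 0) (nat_lit 8617957526) (nat_lit 6) (nat_lit 5) (nat_lit 8) (nat_lit 4) (nat_lit 6) (nat_lit 4) (nat_lit 380) (nat_lit 226) (nat_lit 174)) (XT.lf (nat_lit 0) (nat_lit 24002366033) (nat_lit 152) (nat_lit 12672594273) (nat_lit 0) (nat_lit 11768942529) (nat_lit 6) (nat_lit 5) (nat_lit 8) (nat_lit 4)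 (nat_lit 6) (nat_lit 4) (nat_lit 381) (nat_lit 226) (nat_lit 173))))) (XT.nd (nat_lit 234) (nat_lit 0) (nat_lit 0) (XT.nd (nat_lit 78) (nat_lit 76) (nat_lit 0) (XT.lf (nat_lit 0) (nat_lit 27320830697) (nat_lit 152) (nat_lit 7489664467) (nat_lit 0) (nat_lit 14993403359) (nat_lit 6) (nat_lit 5) (nat_lit 8) (nat_lit 4) (nat_lit 6) (nat_lit 4) (nat_lit 382) (nat_lit 226) (nat_lit 172)) (XT.nd (nat_lit 78) (nat_lit 76) (nat_lit 0) (XT.lf (nat_lit 0) (nat_lit 30712850701) (nat_lit 152) (nat_lit 2198478184) (nat_lit 0) (nat_lit 18294157504) (nat_lit 6) (nat_lit 5) (nat_lit 8) (nat_lit 4) (nat_lit 6) (nat_lit 4) (nat_lit 383) (nat_lit 226) (nat_lit 171)) (XT.lf (nat_lit 0) (nat_lit 3269385426) (nat_lit 76) (nat_lit 30943431853) (nat_lit 76) (nat_lit 18436131027) (nat_lit 5) (nat_lit 4) (nat_lit 6) (nat_lit 5) (nat_lit 6) (nat_lit 4) (nat_lit 384) (nat_lit 226) (nat_lit 170)))) (XT.nd (nat_lit 78) (nat_lit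 0) (nat_lit 0) (XT.lf (nat_lit 0) (nat_lit 8900945413) (nat_lit 76) (nat_lit 28914095114) (nat_lit 76) (nat_lit 16320767463) (nat_lit 5) (nat_lit 4) (nat_lit 6) (nat_lit 5) (nat_lit 6) (nat_lit 4) (nat_lit 385) (nat_lit 226) (nat_lit 169)) (XT.nd (nat_lit 78) (nat_lit 0) (nat_lit 0) (XT.lf (nat_lit 0) (nat_lit 14657368531) (nat_lit 76) (nat_lit 26843745782) (nat_lit 76) (nat_lit 14166896942) (nat_lit 5) (nat_lit 4) (nat_lit 6) (nat_lit 5) (nat_lit 6) (nat_lit 4) (nat_lit 386) (nat_lit 226) (nat_lit 168)) (XT.lf (nat_lit 0) (nat_lit 20543684663) (nat_lit 76) (nat_lit 24730574813) (nat_lit 76) (nat_lit 11972637439) (nat_lit 5) (nat_lit 4) (nat_lit 6) (nat_lit 5) (nat_lit 6) (nat_lit 4) (nat_lit 387) (nat_lit 226) (nat_lit 167)))))) (XT.nd (nat_lit 468) (nat_lit 76) (nat_lit 0) (XT.nd (nat_lit 234) (nat_lit 76) (nat_lit 0) (XT.nd (nat_lit 78) (nat_lit 0) (nat_lit 0) (XT.lf (nat_lit 0) (nat_lit 26565037194)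 (nat_lit 76) (nat_lit 22572735747) (nat_lit 76) (nat_lit 9736071642) (nat_lit 5) (nat_lit 4) (nat_lit 6) (nat_lit 5) (nat_lit 6) (nat_lit 4) (nat_lit 388) (nat_lit 226) (nat_lit 166)) (XT.nd (nat_lit 78) (nat_lit 0) (nat_lit 0) (XT.lf (nat_lit 0) (nat_lit 32726687497) (nat_lit 76) (nat_lit 20368343093) (nat_lit 76) (nat_lit 7455245268) (nat_lit 5) (nat_lit 4) (nat_lit 6) (nat_lit 5) (nat_lit 6) (nat_lit 4) (nat_lit 389) (nat_lit 226) (nat_lit 165)) (XT.lf (nat_lit 0) (nat_lit 39034019541) (nat_lit 76) (nat_lit 18115470684) (nat_lit 76) (nat_lit 5128165364) (nat_lit 5) (nat_lit 4) (nat_lit 6) (nat_lit 5) (nat_lit 6) (nat_lit 4) (nat_lit 390) (nat_lit 226) (nat_lit 164)))) (XT.nd (nat_lit 78) (nat_lit 76) (nat_lit 0) (XT.lf (nat_lit 0) (nat_lit 45492544586) (nat_lit 76) (nat_lit 15812149990) (nat_lit 76) (nat_lit 2752798558) (nat_lit 5) (nat_lit 4) (nat_lit 6) (nat_lit 5) (nat_lit 6) (nat_lit 4)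 (nat_lit 391) (nat_lit 226) (nat_lit 163)) (XT.nd (nat_lit 78) (nat_lit 76) (nat_lit 0) (XT.lf (nat_lit 0) (nat_lit 52107906003) (nat_lit 76) (nat_lit 13456368400) (nat_lit 76) (nat_lit 327069288) (nat_lit 5) (nat_lit 4) (nat_lit 6) (nat_lit 5) (nat_lit 6) (nat_lit 4) (nat_lit 392) (nat_lit 226) (nat_lit 162)) (XT.lf (nat_lit 0) (nat_lit 2109165487) (nat_lit 152) (nat_lit 8915603542) (nat_lit 76) (nat_lit 56755420283) (nat_lit 4) (nat_lit 5) (nat_lit 6) (nat_lit 5) (nat_lit 5) (nat_lit 4) (nat_lit 393) (nat_lit 226) (nat_lit 161))))) (XT.nd (nat_lit 234) (nat_lit 0) (nat_lit 0) (XT.nd (nat_lit 78) (nat_lit 76) (nat_lit 0) (XT.lf (nat_lit 0) (nat_lit 4592599056) (nat_lit 152) (nat_lit 3940165795) (nat_lit 76) (nat_lit 61193426397) (nat_lit 4) (nat_lit 5) (nat_lit 6) (nat_lit 5) (nat_lit 5) (nat_lit 4) (nat_lit 394) (nat_lit 226) (nat_lit 160)) (XT.nd (nat_lit 78) (nat_lit 0) (nat_lit 0) (XT.lf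 (nat_lit 0) (nat_lit 1173261570) (nat_lit 76) (nat_lit 5969800246) (nat_lit 152) (nat_lit 64587744053) (nat_lit 3) (nat_lit 5) (nat_lit 4) (nat_lit 5) (nat_lit 5) (nat_lit 4) (nat_lit 395) (nat_lit 226) (nat_lit 159)) (XT.lf (nat_lit 0) (nat_lit 6487028201) (nat_lit 76) (nat_lit 3304267230) (nat_lit 152) (nat_lit 64003633953) (nat_lit 3) (nat_lit 5) (nat_lit 4) (nat_lit 5) (nat_lit 5) (nat_lit 4) (nat_lit 396) (nat_lit 226) (nat_lit 158)))) (XT.nd (nat_lit 78) (nat_lit 0) (nat_lit 0) (XT.lf (nat_lit 0) (nat_lit 11927360170) (nat_lit 76) (nat_lit 573624647) (nat_lit 152) (nat_lit 63420539453) (nat_lit 3) (nat_lit 5) (nat_lit 4) (nat_lit 5) (nat_lit 5) (nat_lit 4) (nat_lit 397) (nat_lit 226) (nat_lit 157)) (XT.nd (nat_lit 78) (nat_lit 0) (nat_lit 0) (XT.lf (nat_lit 0) (nat_lit 15295881047) (nat_lit 152) (nat_lit 60634820936) (nat_lit 0) (nat_lit 2181105230) (nat_lit 3) (nat_lit 5) (nat_lit 5) (nat_lit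 4) (nat_lit 3) (nat_lit 4) (nat_lit 398) (nat_lit 226) (nat_lit 156)) (XT.lf (nat_lit 0) (nat_lit 18163210537) (nat_lit 152) (nat_lit 57211720616) (nat_lit 0) (nat_lit 4993217375) (nat_lit 3) (nat_lit 5) (nat_lit 5) (nat_lit 4) (nat_lit 3) (nat_lit 4) (nat_lit 399) (nat_lit 226) (nat_lit 155))))))))
noncomputable def xc32 : XT := (XT.nd (nat_lit 36348) (nat_lit 0) (nat_lit 456) (XT.nd (nat_lit 35412) (nat_lit 0) (nat_lit 1292) (XT.nd (nat_lit 34944) (nat_lit 0) (nat_lit 2128) (XT.nd (nat_lit 156) (nat_lit 0) (nat_lit 0) (XT.nd (nat_lit 78) (nat_lit 0) (nat_lit 0) (XT.lf (nat_lit 0) (nat_lit 21099964689) (nat_lit 152) (nat_lit 53716358051) (nat_lit 0) (nat_lit 7876362453) (nat_lit 3) (nat_lit 5) (nat_lit 5) (nat_lit 4) (nat_lit 3) (nat_lit 4) (nat_lit 400) (nat_lit 226) (nat_lit 154)) (XT.lf (nat_lit 0) (nat_lit 24108709599) (nat_lit 152) (nat_lit 50145679039) (nat_lit 0) (nat_lit 10833059720)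 (nat_lit 3) (nat_lit 5) (nat_lit 5) (nat_lit 4) (nat_lit 3) (nat_lit 4) (nat_lit 401) (nat_lit 226) (nat_lit 153))) (XT.nd (nat_lit 78) (nat_lit 0) (nat_lit 0) (XT.lf (nat_lit 0) (nat_lit 27192074268) (nat_lit 152) (nat_lit 46496563571) (nat_lit 0) (nat_lit 13865892695) (nat_lit 3) (nat_lit 5) (nat_lit 5) (nat_lit 4) (nat_lit 3) (nat_lit 4) (nat_lit 402) (nat_lit 226) (nat_lit 152)) (XT.nd (nat_lit 34632) (nat_lit 0) (nat_lit 2660) (XT.lf (nat_lit 0) (nat_lit 30352752898) (nat_lit 152) (nat_lit 42765823099) (nat_lit 0) (nat_lit 16977511429) (nat_lit 3) (nat_lit 5) (nat_lit 5) (nat_lit 4) (nat_lit 3) (nat_lit 4) (nat_lit 403) (nat_lit 226) (nat_lit 151)) (XT.lf (nat_lit 0) (nat_lit 1337571356) (nat_lit 228) (nat_lit 3696446670) (nat_lit 0) (nat_lit 1337571356) (nat_lit 38) (nat_lit 5) (nat_lit 41) (nat_lit 4) (nat_lit 38) (nat_lit 4) (nat_lit 326) (nat_lit 227) (nat_lit 227))))) (XT.nd (nat_lit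 234) (nat_lit 152) (nat_lit 0) (XT.nd (nat_lit 78) (nat_lit 380) (nat_lit 0) (XT.lf (nat_lit 0) (nat_lit 6565876544) (nat_lit 228) (nat_lit 444817306) (nat_lit 0) (nat_lit 5978314815) (nat_lit 38) (nat_lit 5) (nat_lit 41) (nat_lit 4) (nat_lit 38) (nat_lit 4) (nat_lit 327) (nat_lit 227) (nat_lit 226)) (XT.nd (nat_lit 78) (nat_lit 228) (nat_lit 0) (XT.lf (nat_lit 0) (nat_lit 6703981655) (nat_lit 152) (nat_lit 3848472679) (nat_lit 152) (nat_lit 2690462670) (nat_lit 36) (nat_lit 4) (nat_lit 38) (nat_lit 5) (nat_lit 38) (nat_lit 4) (nat_lit 328) (nat_lit 227) (nat_lit 225)) (XT.lf (nat_lit 0) (nat_lit 430368256) (nat_lit 152) (nat_lit 624908367) (nat_lit 228) (nat_lit 12451197533) (nat_lit 33) (nat_lit 5) (nat_lit 35) (nat_lit 5) (nat_lit 36) (nat_lit 4) (nat_lit 329) (nat_lit 227) (nat_lit 224)))) (XT.nd (nat_lit 78) (nat_lit 152) (nat_lit 0) (XT.lf (nat_lit 0) (nat_lit 4867484009) (nat_lit 228) (nat_lit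 6226021124) (nat_lit 0) (nat_lit 2683459246) (nat_lit 33) (nat_lit 5) (nat_lit 36) (nat_lit 4) (nat_lit 33) (nat_lit 4) (nat_lit 330) (nat_lit 227) (nat_lit 223)) (XT.nd (nat_lit 78) (nat_lit 0) (nat_lit 0) (XT.lf (nat_lit 0) (nat_lit 701479747) (nat_lit 152) (nat_lit 8023544907) (nat_lit 152) (nat_lit 5332684235) (nat_lit 31) (nat_lit 4) (nat_lit 33) (nat_lit 5) (nat_lit 33) (nat_lit 4) (nat_lit 331) (nat_lit 227) (nat_lit 222)) (XT.lf (nat_lit 0) (nat_lit 7830174633) (nat_lit 152) (nat_lit 4850120971) (nat_lit 152) (nat_lit 1667186601) (nat_lit 31) (nat_lit 4) (nat_lit 33) (nat_lit 5) (nat_lit 33) (nat_lit 4) (nat_lit 332) (nat_lit 227) (nat_lit 221)))))) (XT.nd (nat_lit 468) (nat_lit 304) (nat_lit 0) (XT.nd (nat_lit 234) (nat_lit 304) (nat_lit 0) (XT.nd (nat_lit 78) (nat_lit 0) (nat_lit 0) (XT.lf (nat_lit 0) (nat_lit 381979465) (nat_lit 152) (nat_lit 1609476342) (nat_lit 228) (nat_lit 12656218108)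 (nat_lit 28) (nat_lit 5) (nat_lit 30) (nat_lit 5) (nat_lit 31) (nat_lit 4) (nat_lit 333) (nat_lit 227) (nat_lit 220)) (XT.nd (nat_lit 78) (nat_lit 0) (nat_lit 0) (XT.lf (nat_lit 0) (nat_lit 5730625925) (nat_lit 228) (nat_lit 7499428285) (nat_lit 0) (nat_lit 1726254587) (nat_lit 28) (nat_lit 5) (nat_lit 31) (nat_lit 4) (nat_lit 28) (nat_lit 4) (nat_lit 334) (nat_lit 227) (nat_lit 219)) (XT.lf (nat_lit 0) (nat_lit 9521401008) (nat_lit 228) (nat_lit 674849426) (nat_lit 0) (nat_lit 5079828563) (nat_lit 28) (nat_lit 5) (nat_lit 31) (nat_lit 4) (nat_lit 28) (nat_lit 4) (nat_lit 335) (nat_lit 227) (nat_lit 218)))) (XT.nd (nat_lit 78) (nat_lit 152) (nat_lit 0) (XT.lf (nat_lit 0) (nat_lit 6353455419) (nat_lit 152) (nat_lit 7059239994) (nat_lit 152) (nat_lit 2193200454) (nat_lit 26) (nat_lit 4) (nat_lit 28) (nat_lit 5) (nat_lit 28) (nat_lit 4) (nat_lit 336) (nat_lit 227) (nat_lit 217)) (XT.nd (nat_lit 78)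 (nat_lit 76) (nat_lit 0) (XT.lf (nat_lit 0) (nat_lit 1379134623) (nat_lit 228) (nat_lit 2478500228) (nat_lit 76) (nat_lit 12089617201) (nat_lit 25) (nat_lit 5) (nat_lit 28) (nat_lit 5) (nat_lit 26) (nat_lit 4) (nat_lit 337) (nat_lit 227) (nat_lit 216)) (XT.lf (nat_lit 0) (nat_lit 4441978312) (nat_lit 76) (nat_lit 543353103) (nat_lit 152) (nat_lit 11313795447) (nat_lit 24) (nat_lit 5) (nat_lit 25) (nat_lit 5) (nat_lit 26) (nat_lit 4) (nat_lit 338) (nat_lit 227) (nat_lit 215))))) (XT.nd (nat_lit 234) (nat_lit 152) (nat_lit 0) (XT.nd (nat_lit 78) (nat_lit 152) (nat_lit 0) (XT.lf (nat_lit 0) (nat_lit 8681116962) (nat_lit 152) (nat_lit 5189925161) (nat_lit 0) (nat_lit 2791124746) (nat_lit 24) (nat_lit 5) (nat_lit 26) (nat_lit 4) (nat_lit 24) (nat_lit 4) (nat_lit 339) (nat_lit 227) (nat_lit 214)) (XT.nd (nat_lit 78) (nat_lit 0) (nat_lit 0) (XT.lf (nat_lit 0) (nat_lit 1584250912) (nat_lit 152) (nat_lit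 10854750607) (nat_lit 152) (nat_lit 4598609347) (nat_lit 22) (nat_lit 4) (nat_lit 24) (nat_lit 5) (nat_lit 24) (nat_lit 4) (nat_lit 340) (nat_lit 227) (nat_lit 213)) (XT.lf (nat_lit 0) (nat_lit 8550604652) (nat_lit 152) (nat_lit 7742934949) (nat_lit 152) (nat_lit 1131309180) (nat_lit 22) (nat_lit 4) (nat_lit 24) (nat_lit 5) (nat_lit 24) (nat_lit 4) (nat_lit 341) (nat_lit 227) (nat_lit 212)))) (XT.nd (nat_lit 78) (nat_lit 76) (nat_lit 0) (XT.lf (nat_lit 0) (nat_lit 2325196239) (nat_lit 228) (nat_lit 2236607993) (nat_lit 76) (nat_lit 13263257315) (nat_lit 21) (nat_lit 5) (nat_lit 24) (nat_lit 5) (nat_lit 22) (nat_lit 4) (nat_lit 342) (nat_lit 227) (nat_lit 211)) (XT.nd (nat_lit 78) (nat_lit 0) (nat_lit 0) (XT.lf (nat_lit 0) (nat_lit 4566018434) (nat_lit 76) (nat_lit 1275288480) (nat_lit 152) (nat_lit 12396322326) (nat_lit 20) (nat_lit 5) (nat_lit 21) (nat_lit 5) (nat_lit 22) (nat_lit 4) (nat_lit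 343) (nat_lit 227) (nat_lit 210)) (XT.lf (nat_lit 0) (nat_lit 9441134317) (nat_lit 152) (nat_lit 7176295527) (nat_lit 0) (nat_lit 2045839863) (nat_lit 20) (nat_lit 5) (nat_lit 22) (nat_lit 4) (nat_lit 20) (nat_lit 4) (nat_lit 344) (nat_lit 227) (nat_lit 209))))))) (XT.nd (nat_lit 936) (nat_lit 228) (nat_lit 0) (XT.nd (nat_lit 468) (nat_lit 304) (nat_lit 0) (XT.nd (nat_lit 234) (nat_lit 76) (nat_lit 0) (XT.nd (nat_lit 78) (nat_lit 228) (nat_lit 0) (XT.lf (nat_lit 0) (nat_lit 13098615709) (nat_lit 152) (nat_lit 607938208) (nat_lit 0) (nat_lit 5396677196) (nat_lit 20) (nat_lit 5) (nat_lit 22) (nat_lit 4) (nat_lit 20) (nat_lit 4) (nat_lit 345) (nat_lit 227) (nat_lit 208)) (XT.nd (nat_lit 78) (nat_lit 76) (nat_lit 0) (XT.lf (nat_lit 0) (nat_lit 6171895251) (nat_lit 152) (nat_lit 10692120877) (nat_lit 152) (nat_lit 2692469684) (nat_lit 18) (nat_lit 4) (nat_lit 20) (nat_lit 5) (nat_lit 20) (nat_lit 4)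 (nat_lit 346) (nat_lit 227) (nat_lit 207)) (XT.lf (nat_lit 0) (nat_lit 650211200) (nat_lit 228) (nat_lit 6968763891) (nat_lit 76) (nat_lit 12405837627) (nat_lit 17) (nat_lit 5) (nat_lit 20) (nat_lit 5) (nat_lit 18) (nat_lit 4) (nat_lit 347) (nat_lit 227) (nat_lit 206)))) (XT.nd (nat_lit 78) (nat_lit 76) (nat_lit 0) (XT.lf (nat_lit 0) (nat_lit 3979835271) (nat_lit 228) (nat_lit 490249783) (nat_lit 76) (nat_lit 16038118145) (nat_lit 17) (nat_lit 5) (nat_lit 20) (nat_lit 5) (nat_lit 18) (nat_lit 4) (nat_lit 348) (nat_lit 227) (nat_lit 205)) (XT.nd (nat_lit 78) (nat_lit 0) (nat_lit 0) (XT.lf (nat_lit 0) (nat_lit 6203547830) (nat_lit 76) (nat_lit 1207936154) (nat_lit 152) (nat_lit 13594583129) (nat_lit 16) (nat_lit 5) (nat_lit 17) (nat_lit 5) (nat_lit 18) (nat_lit 4) (nat_lit 349) (nat_lit 227) (nat_lit 204)) (XT.lf (nat_lit 0) (nat_lit 10914586787) (nat_lit 152) (nat_lit 8531720092) (nat_lit 0) (nat_lit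 2073539681) (nat_lit 16) (nat_lit 5) (nat_lit 18) (nat_lit 4) (nat_lit 16) (nat_lit 4) (nat_lit 350) (nat_lit 227) (nat_lit 203))))) (XT.nd (nat_lit 234) (nat_lit 152) (nat_lit 0) (XT.nd (nat_lit 78) (nat_lit 152) (nat_lit 0) (XT.lf (nat_lit 0) (nat_lit 14479225901) (nat_lit 152) (nat_lit 2182304824) (nat_lit 0) (nat_lit 5388849113) (nat_lit 16) (nat_lit 5) (nat_lit 18) (nat_lit 4) (nat_lit 16) (nat_lit 4) (nat_lit 351) (nat_lit 227) (nat_lit 202)) (XT.nd (nat_lit 78) (nat_lit 0) (nat_lit 0) (XT.lf (nat_lit 0) (nat_lit 4347725765) (nat_lit 152) (nat_lit 13790971872) (nat_lit 152) (nat_lit 4458527432) (nat_lit 14) (nat_lit 4) (nat_lit 16) (nat_lit 5) (nat_lit 16) (nat_lit 4) (nat_lit 352) (nat_lit 227) (nat_lit 201)) (XT.lf (nat_lit 0) (nat_lit 11024613955) (nat_lit 152) (nat_lit 10852145456) (nat_lit 152) (nat_lit 1284683876) (nat_lit 14) (nat_lit 4) (nat_lit 16) (nat_lit 5) (nat_lit 16) (nat_lit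 4) (nat_lit 353) (nat_lit 227) (nat_lit 200)))) (XT.nd (nat_lit 78) (nat_lit 76) (nat_lit 0) (XT.lf (nat_lit 0) (nat_lit 1893430020) (nat_lit 228) (nat_lit 5951970617) (nat_lit 76) (nat_lit 15898211824) (nat_lit 13) (nat_lit 5) (nat_lit 16) (nat_lit 5) (nat_lit 14) (nat_lit 4) (nat_lit 354) (nat_lit 227) (nat_lit 199)) (XT.nd (nat_lit 78) (nat_lit 0) (nat_lit 0) (XT.lf (nat_lit 0) (nat_lit 322575497) (nat_lit 76) (nat_lit 4770890142) (nat_lit 152) (nat_lit 19250856612) (nat_lit 12) (nat_lit 5) (nat_lit 13) (nat_lit 5) (nat_lit 14) (nat_lit 4) (nat_lit 355) (nat_lit 227) (nat_lit 198)) (XT.lf (nat_lit 0) (nat_lit 6818811024) (nat_lit 76) (nat_lit 1580718409) (nat_lit 152) (nat_lit 16563251348) (nat_lit 12) (nat_lit 5) (nat_lit 13) (nat_lit 5) (nat_lit 14) (nat_lit 4) (nat_lit 356) (nat_lit 227) (nat_lit 197)))))) (XT.nd (nat_lit 468) (nat_lit 76) (nat_lit 0) (XT.nd (nat_lit 234) (nat_lit 152) (nat_lit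 0) (XT.nd (nat_lit 78) (nat_lit 0) (nat_lit 0) (XT.lf (nat_lit 0) (nat_lit 11772189445) (nat_lit 152) (nat_lit 12193354532) (nat_lit 0) (nat_lit 1635254096) (nat_lit 12) (nat_lit 5) (nat_lit 14) (nat_lit 4) (nat_lit 12) (nat_lit 4) (nat_lit 357) (nat_lit 227) (nat_lit 196)) (XT.nd (nat_lit 78) (nat_lit 0) (nat_lit 0) (XT.lf (nat_lit 0) (nat_lit 15214129719) (nat_lit 152) (nat_lit 6164438572) (nat_lit 0) (nat_lit 4880371216) (nat_lit 12) (nat_lit 5) (nat_lit 14) (nat_lit 4) (nat_lit 12) (nat_lit 4) (nat_lit 358) (nat_lit 227) (nat_lit 195)) (XT.lf (nat_lit 0) (nat_lit 18713162942) (nat_lit 152) (nat_lit 36759061) (nat_lit 0) (nat_lit 8188313999) (nat_lit 12) (nat_lit 5) (nat_lit 14) (nat_lit 4) (nat_lit 12) (nat_lit 4) (nat_lit 359) (nat_lit 227) (nat_lit 194)))) (XT.nd (nat_lit 78) (nat_lit 76) (nat_lit 0) (XT.lf (nat_lit 0) (nat_lit 6318331692) (nat_lit 76) (nat_lit 16014750500) (nat_lit 76)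 (nat_lit 5304376858) (nat_lit 11) (nat_lit 4) (nat_lit 12) (nat_lit 5) (nat_lit 12) (nat_lit 4) (nat_lit 360) (nat_lit 227) (nat_lit 193)) (XT.nd (nat_lit 78) (nat_lit 76) (nat_lit 0) (XT.lf (nat_lit 0) (nat_lit 12785897639) (nat_lit 76) (nat_lit 13231798659) (nat_lit 76) (nat_lit 2341303949) (nat_lit 11) (nat_lit 4) (nat_lit 12) (nat_lit 5) (nat_lit 12) (nat_lit 4) (nat_lit 361) (nat_lit 227) (nat_lit 192)) (XT.lf (nat_lit 0) (nat_lit 653360409) (nat_lit 152) (nat_lit 9739047900) (nat_lit 76) (nat_lit 18710900404) (nat_lit 10) (nat_lit 5) (nat_lit 12) (nat_lit 5) (nat_lit 11) (nat_lit 4) (nat_lit 362) (nat_lit 227) (nat_lit 191))))) (XT.nd (nat_lit 234) (nat_lit 0) (nat_lit 0) (XT.nd (nat_lit 78) (nat_lit 76) (nat_lit 0) (XT.lf (nat_lit 0) (nat_lit 3648638674) (nat_lit 152) (nat_lit 3828414404) (nat_lit 76) (nat_lit 22393485270) (nat_lit 10) (nat_lit 5) (nat_lit 12) (nat_lit 5) (nat_lit 11) (nat_lit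 4) (nat_lit 363) (nat_lit 227) (nat_lit 190)) (XT.nd (nat_lit 78) (nat_lit 0) (nat_lit 0) (XT.lf (nat_lit 0) (nat_lit 2229983567) (nat_lit 76) (nat_lit 4484287749) (nat_lit 152) (nat_lit 23947120333) (nat_lit 9) (nat_lit 5) (nat_lit 10) (nat_lit 5) (nat_lit 11) (nat_lit 4) (nat_lit 364) (nat_lit 227) (nat_lit 189)) (XT.lf (nat_lit 0) (nat_lit 8476259049) (nat_lit 76) (nat_lit 1393830354) (nat_lit 152) (nat_lit 21605955679) (nat_lit 9) (nat_lit 5) (nat_lit 10) (nat_lit 5) (nat_lit 11) (nat_lit 4) (nat_lit 365) (nat_lit 227) (nat_lit 188)))) (XT.nd (nat_lit 78) (nat_lit 0) (nat_lit 0) (XT.lf (nat_lit 0) (nat_lit 13098219405) (nat_lit 152) (nat_lit 17493561921) (nat_lit 0) (nat_lit 1724048088) (nat_lit 9) (nat_lit 5) (nat_lit 11) (nat_lit 4) (nat_lit 9) (nat_lit 4) (nat_lit 366) (nat_lit 227) (nat_lit 187)) (XT.nd (nat_lit 78) (nat_lit 0) (nat_lit 0) (XT.lf (nat_lit 0) (nat_lit 16398583055) (nat_lit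 152) (nat_lit 11905025520) (nat_lit 0) (nat_lit 4877956827) (nat_lit 9) (nat_lit 5) (nat_lit 11) (nat_lit 4) (nat_lit 9) (nat_lit 4) (nat_lit 367) (nat_lit 227) (nat_lit 186)) (XT.lf (nat_lit 0) (nat_lit 19760665817) (nat_lit 152) (nat_lit 6215895293) (nat_lit 0) (nat_lit 8097850355) (nat_lit 9) (nat_lit 5) (nat_lit 11) (nat_lit 4) (nat_lit 9) (nat_lit 4) (nat_lit 368) (nat_lit 227) (nat_lit 185))))))))
noncomputable def xc33 : XT := (XT.nd (nat_lit 1794) (nat_lit 152) (nat_lit 0) (XT.nd (nat_lit 858) (nat_lit 76) (nat_lit 0) (XT.nd (nat_lit 390) (nat_lit 152) (nat_lit 0) (XT.nd (nat_lit 156) (nat_lit 0) (nat_lit 0) (XT.nd (nat_lit 78) (nat_lit 76) (nat_lit 0) (XT.lf (nat_lit 0) (nat_lit 23187405434) (nat_lit 152) (nat_lit 421200157) (nat_lit 0) (nat_lit 11386542173) (nat_lit 9) (nat_lit 5) (nat_lit 11) (nat_lit 4) (nat_lit 9) (nat_lit 4) (nat_lit 369) (nat_lit 227) (nat_lit 184)) (XT.lf (nat_lit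 0) (nat_lit 5593268019) (nat_lit 76) (nat_lit 21142294038) (nat_lit 76) (nat_lit 9207403787) (nat_lit 8) (nat_lit 4) (nat_lit 9) (nat_lit 5) (nat_lit 9) (nat_lit 4) (nat_lit 370) (nat_lit 227) (nat_lit 183))) (XT.nd (nat_lit 78) (nat_lit 0) (nat_lit 0) (XT.lf (nat_lit 0) (nat_lit 11734211546) (nat_lit 76) (nat_lit 18625476172) (nat_lit 76) (nat_lit 6560462629) (nat_lit 8) (nat_lit 4) (nat_lit 9) (nat_lit 5) (nat_lit 9) (nat_lit 4) (nat_lit 371) (nat_lit 227) (nat_lit 182)) (XT.nd (nat_lit 78) (nat_lit 0) (nat_lit 0) (XT.lf (nat_lit 0) (nat_lit 17998613585) (nat_lit 76) (nat_lit 16060206128) (nat_lit 76) (nat_lit 3868859292) (nat_lit 8) (nat_lit 4) (nat_lit 9) (nat_lit 5) (nat_lit 9) (nat_lit 4) (nat_lit 372) (nat_lit 227) (nat_lit 181)) (XT.lf (nat_lit 0) (nat_lit 24391947887) (nat_lit 76) (nat_lit 13444242407) (nat_lit 76) (nat_lit 1130241889) (nat_lit 8) (nat_lit 4) (nat_lit 9) (nat_lit 5) (nat_lit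 9) (nat_lit 4) (nat_lit 373) (nat_lit 227) (nat_lit 180))))) (XT.nd (nat_lit 234) (nat_lit 0) (nat_lit 0) (XT.nd (nat_lit 78) (nat_lit 76) (nat_lit 0) (XT.lf (nat_lit 0) (nat_lit 1625433236) (nat_lit 152) (nat_lit 9133452291) (nat_lit 76) (nat_lit 29277953933) (nat_lit 7) (nat_lit 5) (nat_lit 9) (nat_lit 5) (nat_lit 8) (nat_lit 4) (nat_lit 374) (nat_lit 227) (nat_lit 179)) (XT.nd (nat_lit 78) (nat_lit 76) (nat_lit 0) (XT.lf (nat_lit 0) (nat_lit 4409884796) (nat_lit 152) (nat_lit 3596628484) (nat_lit 76) (nat_lit 33133460465) (nat_lit 7) (nat_lit 5) (nat_lit 9) (nat_lit 5) (nat_lit 8) (nat_lit 4) (nat_lit 375) (nat_lit 227) (nat_lit 178)) (XT.lf (nat_lit 0) (nat_lit 2092522351) (nat_lit 76) (nat_lit 5175193149) (nat_lit 152) (nat_lit 35008805937) (nat_lit 6) (nat_lit 5) (nat_lit 7) (nat_lit 5) (nat_lit 8) (nat_lit 4) (nat_lit 376) (nat_lit 227) (nat_lit 177)))) (XT.nd (nat_lit 78) (nat_lit 0) (nat_lit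 0) (XT.lf (nat_lit 0) (nat_lit 7972000129) (nat_lit 76) (nat_lit 2245692704) (nat_lit 152) (nat_lit 33229294694) (nat_lit 6) (nat_lit 5) (nat_lit 7) (nat_lit 5) (nat_lit 8) (nat_lit 4) (nat_lit 377) (nat_lit 227) (nat_lit 176)) (XT.nd (nat_lit 78) (nat_lit 0) (nat_lit 0) (XT.lf (nat_lit 0) (nat_lit 13234325817) (nat_lit 152) (nat_lit 30685282720) (nat_lit 0) (nat_lit 733628276) (nat_lit 6) (nat_lit 5) (nat_lit 8) (nat_lit 4) (nat_lit 6) (nat_lit 4) (nat_lit 378) (nat_lit 227) (nat_lit 175)) (XT.lf (nat_lit 0) (nat_lit 16335282999) (nat_lit 152) (nat_lit 25825732527) (nat_lit 0) (nat_lit 3734856790) (nat_lit 6) (nat_lit 5) (nat_lit 8) (nat_lit 4) (nat_lit 6) (nat_lit 4) (nat_lit 379) (nat_lit 227) (nat_lit 174)))))) (XT.nd (nat_lit 468) (nat_lit 0) (nat_lit 0) (XT.nd (nat_lit 234) (nat_lit 76) (nat_lit 0) (XT.nd (nat_lit 78) (nat_lit 0) (nat_lit 0) (XT.lf (nat_lit 0) (nat_lit 19501686983) (nat_lit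 152) (nat_lit 20870503639) (nat_lit 0) (nat_lit 6804436824) (nat_lit 6) (nat_lit 5) (nat_lit 8) (nat_lit 4) (nat_lit 6) (nat_lit 4) (nat_lit 380) (nat_lit 227) (nat_lit 173)) (XT.nd (nat_lit 78) (nat_lit 0) (nat_lit 0) (XT.lf (nat_lit 0) (nat_lit 22736304528) (nat_lit 152) (nat_lit 15815266245) (nat_lit 0) (nat_lit 9945050535) (nat_lit 6) (nat_lit 5) (nat_lit 8) (nat_lit 4) (nat_lit 6) (nat_lit 4) (nat_lit 381) (nat_lit 227) (nat_lit 172)) (XT.lf (nat_lit 0) (nat_lit 26041962000) (nat_lit 152) (nat_lit 10655603148) (nat_lit 0) (nat_lit 13159442149) (nat_lit 6) (nat_lit 5) (nat_lit 8) (nat_lit 4) (nat_lit 6) (nat_lit 4) (nat_lit 382) (nat_lit 227) (nat_lit 171)))) (XT.nd (nat_lit 78) (nat_lit 76) (nat_lit 0) (XT.lf (nat_lit 0) (nat_lit 29421547837) (nat_lit 152) (nat_lit 5387005902) (nat_lit 0) (nat_lit 16450420356) (nat_lit 6) (nat_lit 5) (nat_lit 8) (nat_lit 4) (nat_lit 6) (nat_lit 4) (nat_lit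 383) (nat_lit 227) (nat_lit 170)) (XT.nd (nat_lit 78) (nat_lit 76) (nat_lit 0) (XT.lf (nat_lit 0) (nat_lit 32878015076) (nat_lit 152) (nat_lit 4870881) (nat_lit 0) (nat_lit 19820860770) (nat_lit 6) (nat_lit 5) (nat_lit 8) (nat_lit 4) (nat_lit 6) (nat_lit 4) (nat_lit 384) (nat_lit 227) (nat_lit 169)) (XT.lf (nat_lit 0) (nat_lit 5604876072) (nat_lit 76) (nat_lit 30863385355) (nat_lit 76) (nat_lit 17722709860) (nat_lit 5) (nat_lit 4) (nat_lit 6) (nat_lit 5) (nat_lit 6) (nat_lit 4) (nat_lit 385) (nat_lit 227) (nat_lit 168))))) (XT.nd (nat_lit 234) (nat_lit 0) (nat_lit 0) (XT.nd (nat_lit 78) (nat_lit 0) (nat_lit 0) (XT.lf (nat_lit 0) (nat_lit 11340215605) (nat_lit 76) (nat_lit 28802537915) (nat_lit 76) (nat_lit 15580773887) (nat_lit 5) (nat_lit 4) (nat_lit 6) (nat_lit 5) (nat_lit 6) (nat_lit 4) (nat_lit 386) (nat_lit 227) (nat_lit 167)) (XT.nd (nat_lit 78) (nat_lit 0) (nat_lit 0) (XT.lf (nat_lit 0)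 (nat_lit 17206062236) (nat_lit 76) (nat_lit 26698592085) (nat_lit 76) (nat_lit 13398101326) (nat_lit 5) (nat_lit 4) (nat_lit 6) (nat_lit 5) (nat_lit 6) (nat_lit 4) (nat_lit 387) (nat_lit 227) (nat_lit 166)) (XT.lf (nat_lit 0) (nat_lit 23207541465) (nat_lit 76) (nat_lit 24549709464) (nat_lit 76) (nat_lit 11172784985) (nat_lit 5) (nat_lit 4) (nat_lit 6) (nat_lit 5) (nat_lit 6) (nat_lit 4) (nat_lit 388) (nat_lit 227) (nat_lit 165)))) (XT.nd (nat_lit 78) (nat_lit 0) (nat_lit 0) (XT.lf (nat_lit 0) (nat_lit 29349897301) (nat_lit 76) (nat_lit 22354012389) (nat_lit 76) (nat_lit 8902880415) (nat_lit 5) (nat_lit 4) (nat_lit 6) (nat_lit 5) (nat_lit 6) (nat_lit 4) (nat_lit 389) (nat_lit 227) (nat_lit 164)) (XT.nd (nat_lit 78) (nat_lit 0) (nat_lit 0) (XT.lf (nat_lit 0) (nat_lit 35638496853) (nat_lit 76) (nat_lit 20109582289) (nat_lit 76) (nat_lit 6586404203) (nat_lit 5) (nat_lit 4) (nat_lit 6) (nat_lit 5)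 (nat_lit 6) (nat_lit 4) (nat_lit 390) (nat_lit 227) (nat_lit 163)) (XT.lf (nat_lit 0) (nat_lit 42078835011) (nat_lit 76) (nat_lit 17814458011) (nat_lit 76) (nat_lit 4221332245) (nat_lit 5) (nat_lit 4) (nat_lit 6) (nat_lit 5) (nat_lit 6) (nat_lit 4) (nat_lit 391) (nat_lit 227) (nat_lit 162))))))) (XT.nd (nat_lit 35334) (nat_lit 0) (nat_lit 1900) (XT.nd (nat_lit 468) (nat_lit 0) (nat_lit 0) (XT.nd (nat_lit 234) (nat_lit 76) (nat_lit 0) (XT.nd (nat_lit 78) (nat_lit 76) (nat_lit 0) (XT.lf (nat_lit 0) (nat_lit 48676539257) (nat_lit 76) (nat_lit 15466634108) (nat_lit 76) (nat_lit 1805597971) (nat_lit 5) (nat_lit 4) (nat_lit 6) (nat_lit 5) (nat_lit 6) (nat_lit 4) (nat_lit 392) (nat_lit 227) (nat_lit 161)) (XT.nd (nat_lit 78) (nat_lit 0) (nat_lit 0) (XT.lf (nat_lit 0) (nat_lit 649973701) (nat_lit 152) (nat_lit 12407521920) (nat_lit 76) (nat_lit 54780837414) (nat_lit 4) (nat_lit 5) (nat_lit 6) (nat_lit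 5) (nat_lit 5) (nat_lit 4) (nat_lit 393) (nat_lit 227) (nat_lit 160)) (XT.lf (nat_lit 0) (nat_lit 3124169869) (nat_lit 152) (nat_lit 7448915736) (nat_lit 76) (nat_lit 59211530632) (nat_lit 4) (nat_lit 5) (nat_lit 6) (nat_lit 5) (nat_lit 5) (nat_lit 4) (nat_lit 394) (nat_lit 227) (nat_lit 159)))) (XT.nd (nat_lit 78) (nat_lit 76) (nat_lit 0) (XT.lf (nat_lit 0) (nat_lit 5654386170) (nat_lit 152) (nat_lit 2374724253) (nat_lit 76) (nat_lit 63760731850) (nat_lit 4) (nat_lit 5) (nat_lit 6) (nat_lit 5) (nat_lit 5) (nat_lit 4) (nat_lit 395) (nat_lit 227) (nat_lit 158)) (XT.nd (nat_lit 78) (nat_lit 0) (nat_lit 0) (XT.lf (nat_lit 0) (nat_lit 2875599595) (nat_lit 76) (nat_lit 5394875902) (nat_lit 152) (nat_lit 65584458526) (nat_lit 3) (nat_lit 5) (nat_lit 4) (nat_lit 5) (nat_lit 5) (nat_lit 4) (nat_lit 396) (nat_lit 227) (nat_lit 157)) (XT.lf (nat_lit 0) (nat_lit 8300221744) (nat_lit 76) (nat_lit 2671338595)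 (nat_lit 152) (nat_lit 65010230497) (nat_lit 3) (nat_lit 5) (nat_lit 4) (nat_lit 5) (nat_lit 5) (nat_lit 4) (nat_lit 397) (nat_lit 227) (nat_lit 156))))) (XT.nd (nat_lit 234) (nat_lit 0) (nat_lit 0) (XT.nd (nat_lit 78) (nat_lit 0) (nat_lit 0) (XT.lf (nat_lit 0) (nat_lit 13737871824) (nat_lit 152) (nat_lit 64317501659) (nat_lit 0) (nat_lit 117561521) (nat_lit 3) (nat_lit 5) (nat_lit 5) (nat_lit 4) (nat_lit 3) (nat_lit 4) (nat_lit 398) (nat_lit 227) (nat_lit 155)) (XT.nd (nat_lit 78) (nat_lit 0) (nat_lit 0) (XT.lf (nat_lit 0) (nat_lit 16597026327) (nat_lit 152) (nat_lit 60909391863) (nat_lit 0) (nat_lit 2923106951) (nat_lit 3) (nat_lit 5) (nat_lit 5) (nat_lit 4) (nat_lit 3) (nat_lit 4) (nat_lit 399) (nat_lit 227) (nat_lit 154)) (XT.lf (nat_lit 0) (nat_lit 19525843599) (nat_lit 152) (nat_lit 57428583204) (nat_lit 0) (nat_lit 5799876580) (nat_lit 3) (nat_lit 5) (nat_lit 5) (nat_lit 4) (nat_lit 3)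 (nat_lit 4) (nat_lit 400) (nat_lit 227) (nat_lit 153)))) (XT.nd (nat_lit 78) (nat_lit 0) (nat_lit 0) (XT.lf (nat_lit 0) (nat_lit 22526882801) (nat_lit 152) (nat_lit 53872034200) (nat_lit 0) (nat_lit 8750384088) (nat_lit 3) (nat_lit 5) (nat_lit 5) (nat_lit 4) (nat_lit 3) (nat_lit 4) (nat_lit 401) (nat_lit 227) (nat_lit 152)) (XT.nd (nat_lit 78) (nat_lit 0) (nat_lit 0) (XT.lf (nat_lit 0) (nat_lit 25602766199) (nat_lit 152) (nat_lit 50236637185) (nat_lit 0) (nat_lit 11777207590) (nat_lit 3) (nat_lit 5) (nat_lit 5) (nat_lit 4) (nat_lit 3) (nat_lit 4) (nat_lit 402) (nat_lit 227) (nat_lit 151)) (XT.lf (nat_lit 0) (nat_lit 28756181459) (nat_lit 152) (nat_lit 46519215599) (nat_lit 0) (nat_lit 14882991883) (nat_lit 3) (nat_lit 5) (nat_lit 5) (nat_lit 4) (nat_lit 3) (nat_lit 4) (nat_lit 403) (nat_lit 227) (nat_lit 150)))))) (XT.nd (nat_lit 468) (nat_lit 380) (nat_lit 0) (XT.nd (nat_lit 234) (nat_lit 380)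 (nat_lit 0) (XT.nd (nat_lit 78) (nat_lit 228) (nat_lit 0) (XT.lf (nat_lit 0) (nat_lit 1804109858) (nat_lit 228) (nat_lit 2166508142) (nat_lit 228) (nat_lit 2166508142) (nat_lit 41) (nat_lit 4) (nat_lit 44) (nat_lit 5) (nat_lit 44) (nat_lit 4) (nat_lit 324) (nat_lit 228) (nat_lit 228)) (XT.nd (nat_lit 78) (nat_lit 228) (nat_lit 0) (XT.lf (nat_lit 0) (nat_lit 10753482003) (nat_lit 228) (nat_lit 1187991007) (nat_lit 228) (nat_lit 564646769) (nat_lit 41) (nat_lit 4) (nat_lit 44) (nat_lit 5) (nat_lit 44) (nat_lit 4) (nat_lit 325) (nat_lit 228) (nat_lit 227)) (XT.lf (nat_lit 0) (nat_lit 3237040429) (nat_lit 228) (nat_lit 7463186114) (nat_lit 0) (nat_lit 2044290120) (nat_lit 38) (nat_lit 5) (nat_lit 41) (nat_lit 4) (nat_lit 38) (nat_lit 4) (nat_lit 326) (nat_lit 228) (nat_lit 226)))) (XT.nd (nat_lit 78) (nat_lit 380) (nat_lit 0) (XT.lf (nat_lit 0) (nat_lit 7085744296) (nat_lit 228) (nat_lit 583355489)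 (nat_lit 0) (nat_lit 5322545706) (nat_lit 38) (nat_lit 5) (nat_lit 41) (nat_lit 4) (nat_lit 38) (nat_lit 4) (nat_lit 327) (nat_lit 228) (nat_lit 225)) (XT.nd (nat_lit 78) (nat_lit 228) (nat_lit 0) (XT.lf (nat_lit 0) (nat_lit 6495109952) (nat_lit 152) (nat_lit 4534398540) (nat_lit 152) (nat_lit 2217366668) (nat_lit 36) (nat_lit 4) (nat_lit 38) (nat_lit 5) (nat_lit 38) (nat_lit 4) (nat_lit 328) (nat_lit 228) (nat_lit 224)) (XT.lf (nat_lit 0) (nat_lit 140889393) (nat_lit 152) (nat_lit 1334787197) (nat_lit 228) (nat_lit 12035958020) (nat_lit 33) (nat_lit 5) (nat_lit 35) (nat_lit 5) (nat_lit 36) (nat_lit 4) (nat_lit 329) (nat_lit 228) (nat_lit 223))))) (XT.nd (nat_lit 234) (nat_lit 228) (nat_lit 0) (XT.nd (nat_lit 78) (nat_lit 152) (nat_lit 0) (XT.lf (nat_lit 0) (nat_lit 5240684214) (nat_lit 228) (nat_lit 6580628589) (nat_lit 0) (nat_lit 1962261813) (nat_lit 33) (nat_lit 5) (nat_lit 36) (nat_lit 4)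 (nat_lit 33) (nat_lit 4) (nat_lit 330) (nat_lit 228) (nat_lit 222)) (XT.nd (nat_lit 78) (nat_lit 0) (nat_lit 0) (XT.lf (nat_lit 0) (nat_lit 273677784) (nat_lit 152) (nat_lit 8781234806) (nat_lit 152) (nat_lit 5010738708) (nat_lit 31) (nat_lit 4) (nat_lit 33) (nat_lit 5) (nat_lit 33) (nat_lit 4) (nat_lit 331) (nat_lit 228) (nat_lit 221)) (XT.lf (nat_lit 0) (nat_lit 7338161880) (nat_lit 152) (nat_lit 5633346201) (nat_lit 152) (nat_lit 1385108648) (nat_lit 31) (nat_lit 4) (nat_lit 33) (nat_lit 5) (nat_lit 33) (nat_lit 4) (nat_lit 332) (nat_lit 228) (nat_lit 220)))) (XT.nd (nat_lit 78) (nat_lit 152) (nat_lit 0) (XT.lf (nat_lit 0) (nat_lit 2226406502) (nat_lit 228) (nat_lit 192459007) (nat_lit 76) (nat_lit 12239140292) (nat_lit 30) (nat_lit 5) (nat_lit 33) (nat_lit 5) (nat_lit 31) (nat_lit 4) (nat_lit 333) (nat_lit 228) (nat_lit 219)) (XT.nd (nat_lit 78) (nat_lit 0) (nat_lit 0) (XT.lf (nat_lit 0) (nat_lit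 5918203280) (nat_lit 228) (nat_lit 8143705196) (nat_lit 0) (nat_lit 906182554) (nat_lit 28) (nat_lit 5) (nat_lit 31) (nat_lit 4) (nat_lit 28) (nat_lit 4) (nat_lit 334) (nat_lit 228) (nat_lit 218)) (XT.lf (nat_lit 0) (nat_lit 9672388594) (nat_lit 228) (nat_lit 1380697853) (nat_lit 0) (nat_lit 4235900774) (nat_lit 28) (nat_lit 5) (nat_lit 31) (nat_lit 4) (nat_lit 28) (nat_lit 4) (nat_lit 335) (nat_lit 228) (nat_lit 217))))))))
noncomputable def xc34 : XT := (XT.nd (nat_lit 1794) (nat_lit 456) (nat_lit 0) (XT.nd (nat_lit 858) (nat_lit 456) (nat_lit 0) (XT.nd (nat_lit 390) (nat_lit 304) (nat_lit 0) (XT.nd (nat_lit 156) (nat_lit 228) (nat_lit 0) (XT.nd (nat_lit 78) (nat_lit 76) (nat_lit 0) (XT.lf (nat_lit 0) (nat_lit 5572591351) (nat_lit 152) (nat_lit 7948061457) (nat_lit 152) (nat_lit 2099469662) (nat_lit 26) (nat_lit 4) (nat_lit 28) (nat_lit 5) (nat_lit 28) (nat_lit 4) (nat_lit 336) (nat_lit 228)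 (nat_lit 216)) (XT.lf (nat_lit 0) (nat_lit 1435604767) (nat_lit 228) (nat_lit 3334415062) (nat_lit 76) (nat_lit 11192520640) (nat_lit 25) (nat_lit 5) (nat_lit 28) (nat_lit 5) (nat_lit 26) (nat_lit 4) (nat_lit 337) (nat_lit 228) (nat_lit 215))) (XT.nd (nat_lit 78) (nat_lit 152) (nat_lit 0) (XT.lf (nat_lit 0) (nat_lit 3509693410) (nat_lit 76) (nat_lit 1488746822) (nat_lit 152) (nat_lit 11317301030) (nat_lit 24) (nat_lit 5) (nat_lit 25) (nat_lit 5) (nat_lit 26) (nat_lit 4) (nat_lit 338) (nat_lit 228) (nat_lit 214)) (XT.nd (nat_lit 78) (nat_lit 152) (nat_lit 0) (XT.lf (nat_lit 0) (nat_lit 8650959220) (nat_lit 152) (nat_lit 6188159777) (nat_lit 0) (nat_lit 1840984679) (nat_lit 24) (nat_lit 5) (nat_lit 26) (nat_lit 4) (nat_lit 24) (nat_lit 4) (nat_lit 339) (nat_lit 228) (nat_lit 213)) (XT.lf (nat_lit 0) (nat_lit 508299226) (nat_lit 152) (nat_lit 11857018489) (nat_lit 152) (nat_lit 4691559438) (nat_lit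 22) (nat_lit 4) (nat_lit 24) (nat_lit 5) (nat_lit 24) (nat_lit 4) (nat_lit 340) (nat_lit 228) (nat_lit 212))))) (XT.nd (nat_lit 234) (nat_lit 152) (nat_lit 0) (XT.nd (nat_lit 78) (nat_lit 152) (nat_lit 0) (XT.lf (nat_lit 0) (nat_lit 7418487683) (nat_lit 152) (nat_lit 8768611370) (nat_lit 152) (nat_lit 1258021728) (nat_lit 22) (nat_lit 4) (nat_lit 24) (nat_lit 5) (nat_lit 24) (nat_lit 4) (nat_lit 341) (nat_lit 228) (nat_lit 211)) (XT.nd (nat_lit 78) (nat_lit 76) (nat_lit 0) (XT.lf (nat_lit 0) (nat_lit 2168816864) (nat_lit 228) (nat_lit 3442969650) (nat_lit 76) (nat_lit 12234569444) (nat_lit 21) (nat_lit 5) (nat_lit 24) (nat_lit 5) (nat_lit 22) (nat_lit 4) (nat_lit 342) (nat_lit 228) (nat_lit 210)) (XT.lf (nat_lit 0) (nat_lit 3280998172) (nat_lit 76) (nat_lit 2360373621) (nat_lit 152) (nat_lit 12618879588) (nat_lit 20) (nat_lit 5) (nat_lit 21) (nat_lit 5) (nat_lit 22) (nat_lit 4) (nat_lit 343) (nat_lit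 228) (nat_lit 209)))) (XT.nd (nat_lit 78) (nat_lit 152) (nat_lit 0) (XT.lf (nat_lit 0) (nat_lit 9199750244) (nat_lit 152) (nat_lit 8527295999) (nat_lit 0) (nat_lit 960109515) (nat_lit 20) (nat_lit 5) (nat_lit 22) (nat_lit 4) (nat_lit 20) (nat_lit 4) (nat_lit 344) (nat_lit 228) (nat_lit 208)) (XT.nd (nat_lit 78) (nat_lit 152) (nat_lit 0) (XT.lf (nat_lit 0) (nat_lit 12827116638) (nat_lit 152) (nat_lit 2011160594) (nat_lit 0) (nat_lit 4289763229) (nat_lit 20) (nat_lit 5) (nat_lit 22) (nat_lit 4) (nat_lit 20) (nat_lit 4) (nat_lit 345) (nat_lit 228) (nat_lit 207)) (XT.lf (nat_lit 0) (nat_lit 4689036054) (nat_lit 152) (nat_lit 11859988990) (nat_lit 152) (nat_lit 3033594145) (nat_lit 18) (nat_lit 4) (nat_lit 20) (nat_lit 5) (nat_lit 20) (nat_lit 4) (nat_lit 346) (nat_lit 228) (nat_lit 206)))))) (XT.nd (nat_lit 468) (nat_lit 152) (nat_lit 0) (XT.nd (nat_lit 234) (nat_lit 152) (nat_lit 0) (XT.nd (nat_lit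 78) (nat_lit 76) (nat_lit 0) (XT.lf (nat_lit 0) (nat_lit 286570268) (nat_lit 228) (nat_lit 8525279954) (nat_lit 76) (nat_lit 11240087603) (nat_lit 17) (nat_lit 5) (nat_lit 20) (nat_lit 5) (nat_lit 18) (nat_lit 4) (nat_lit 347) (nat_lit 228) (nat_lit 205)) (XT.nd (nat_lit 78) (nat_lit 76) (nat_lit 0) (XT.lf (nat_lit 0) (nat_lit 3587871001) (nat_lit 228) (nat_lit 2096088742) (nat_lit 76) (nat_lit 14852235896) (nat_lit 17) (nat_lit 5) (nat_lit 20) (nat_lit 5) (nat_lit 18) (nat_lit 4) (nat_lit 348) (nat_lit 228) (nat_lit 204)) (XT.lf (nat_lit 0) (nat_lit 4516910188) (nat_lit 76) (nat_lit 2458898148) (nat_lit 152) (nat_lit 14059579680) (nat_lit 16) (nat_lit 5) (nat_lit 17) (nat_lit 5) (nat_lit 18) (nat_lit 4) (nat_lit 349) (nat_lit 228) (nat_lit 203)))) (XT.nd (nat_lit 78) (nat_lit 152) (nat_lit 0) (XT.lf (nat_lit 0) (nat_lit 10439538079) (nat_lit 152) (nat_lit 10283706893) (nat_lit 0) (nat_lit 827120305)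 (nat_lit 16) (nat_lit 5) (nat_lit 18) (nat_lit 4) (nat_lit 16) (nat_lit 4) (nat_lit 350) (nat_lit 228) (nat_lit 202)) (XT.nd (nat_lit 78) (nat_lit 152) (nat_lit 0) (XT.lf (nat_lit 0) (nat_lit 13977625690) (nat_lit 152) (nat_lit 3980945283) (nat_lit 0) (nat_lit 4123140264) (nat_lit 16) (nat_lit 5) (nat_lit 18) (nat_lit 4) (nat_lit 16) (nat_lit 4) (nat_lit 351) (nat_lit 228) (nat_lit 201)) (XT.lf (nat_lit 0) (nat_lit 2467092565) (nat_lit 152) (nat_lit 15126148907) (nat_lit 152) (nat_lit 5036646342) (nat_lit 14) (nat_lit 4) (nat_lit 16) (nat_lit 5) (nat_lit 16) (nat_lit 4) (nat_lit 352) (nat_lit 228) (nat_lit 200))))) (XT.nd (nat_lit 234) (nat_lit 76) (nat_lit 0) (XT.nd (nat_lit 78) (nat_lit 76) (nat_lit 0) (XT.lf (nat_lit 0) (nat_lit 9099130008) (nat_lit 152) (nat_lit 12206714767) (nat_lit 152) (nat_lit 1889040223) (nat_lit 14) (nat_lit 4) (nat_lit 16) (nat_lit 5) (nat_lit 16) (nat_lit 4) (nat_lit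 353) (nat_lit 228) (nat_lit 199)) (XT.nd (nat_lit 78) (nat_lit 0) (nat_lit 0) (XT.lf (nat_lit 0) (nat_lit 1275890678) (nat_lit 228) (nat_lit 7949142660) (nat_lit 76) (nat_lit 14552958740) (nat_lit 13) (nat_lit 5) (nat_lit 16) (nat_lit 5) (nat_lit 14) (nat_lit 4) (nat_lit 354) (nat_lit 228) (nat_lit 198)) (XT.lf (nat_lit 0) (nat_lit 4448576802) (nat_lit 228) (nat_lit 1723663803) (nat_lit 76) (nat_lit 18207295669) (nat_lit 13) (nat_lit 5) (nat_lit 16) (nat_lit 5) (nat_lit 14) (nat_lit 4) (nat_lit 355) (nat_lit 228) (nat_lit 197)))) (XT.nd (nat_lit 78) (nat_lit 0) (nat_lit 0) (XT.lf (nat_lit 0) (nat_lit 4695914126) (nat_lit 76) (nat_lit 3017878248) (nat_lit 152) (nat_lit 17285441391) (nat_lit 12) (nat_lit 5) (nat_lit 13) (nat_lit 5) (nat_lit 14) (nat_lit 4) (nat_lit 356) (nat_lit 228) (nat_lit 196)) (XT.nd (nat_lit 78) (nat_lit 0) (nat_lit 0) (XT.lf (nat_lit 0) (nat_lit 11049213775) (nat_lit 152)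 (nat_lit 14380548198) (nat_lit 0) (nat_lit 208619364) (nat_lit 12) (nat_lit 5) (nat_lit 14) (nat_lit 4) (nat_lit 12) (nat_lit 4) (nat_lit 357) (nat_lit 228) (nat_lit 195)) (XT.lf (nat_lit 0) (nat_lit 14468412542) (nat_lit 152) (nat_lit 8392077523) (nat_lit 0) (nat_lit 3436727691) (nat_lit 12) (nat_lit 5) (nat_lit 14) (nat_lit 4) (nat_lit 12) (nat_lit 4) (nat_lit 358) (nat_lit 228) (nat_lit 194))))))) (XT.nd (nat_lit 936) (nat_lit 152) (nat_lit 0) (XT.nd (nat_lit 468) (nat_lit 152) (nat_lit 0) (XT.nd (nat_lit 234) (nat_lit 76) (nat_lit 0) (XT.nd (nat_lit 78) (nat_lit 76) (nat_lit 0) (XT.lf (nat_lit 0) (nat_lit 17945366633) (nat_lit 152) (nat_lit 2303665278) (nat_lit 0) (nat_lit 6728157082) (nat_lit 12) (nat_lit 5) (nat_lit 14) (nat_lit 4) (nat_lit 12) (nat_lit 4) (nat_lit 359) (nat_lit 228) (nat_lit 193)) (XT.nd (nat_lit 78) (nat_lit 0) (nat_lit 0) (XT.lf (nat_lit 0) (nat_lit 3967427304) (nat_lit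 76) (nat_lit 17553824198) (nat_lit 76) (nat_lit 6156493580) (nat_lit 11) (nat_lit 4) (nat_lit 12) (nat_lit 5) (nat_lit 12) (nat_lit 4) (nat_lit 360) (nat_lit 228) (nat_lit 192)) (XT.lf (nat_lit 0) (nat_lit 10397243451) (nat_lit 76) (nat_lit 14787447582) (nat_lit 76) (nat_lit 3215242141) (nat_lit 11) (nat_lit 4) (nat_lit 12) (nat_lit 5) (nat_lit 12) (nat_lit 4) (nat_lit 361) (nat_lit 228) (nat_lit 191)))) (XT.nd (nat_lit 78) (nat_lit 76) (nat_lit 0) (XT.lf (nat_lit 0) (nat_lit 16945553994) (nat_lit 76) (nat_lit 11970747343) (nat_lit 76) (nat_lit 228760521) (nat_lit 11) (nat_lit 4) (nat_lit 12) (nat_lit 5) (nat_lit 12) (nat_lit 4) (nat_lit 362) (nat_lit 228) (nat_lit 190)) (XT.nd (nat_lit 78) (nat_lit 0) (nat_lit 0) (XT.lf (nat_lit 0) (nat_lit 2750814228) (nat_lit 152) (nat_lit 6322670230) (nat_lit 76) (nat_lit 20839488698) (nat_lit 10) (nat_lit 5) (nat_lit 12) (nat_lit 5) (nat_lit 11) (nat_lit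 4) (nat_lit 363) (nat_lit 228) (nat_lit 189)) (XT.lf (nat_lit 0) (nat_lit 5775430850) (nat_lit 152) (nat_lit 342733722) (nat_lit 76) (nat_lit 24586902723) (nat_lit 10) (nat_lit 5) (nat_lit 12) (nat_lit 5) (nat_lit 11) (nat_lit 4) (nat_lit 364) (nat_lit 228) (nat_lit 188))))) (XT.nd (nat_lit 234) (nat_lit 76) (nat_lit 0) (XT.nd (nat_lit 78) (nat_lit 0) (nat_lit 0) (XT.lf (nat_lit 0) (nat_lit 5862116844) (nat_lit 76) (nat_lit 3046429564) (nat_lit 152) (nat_lit 22611865454) (nat_lit 9) (nat_lit 5) (nat_lit 10) (nat_lit 5) (nat_lit 11) (nat_lit 4) (nat_lit 365) (nat_lit 228) (nat_lit 187)) (XT.nd (nat_lit 78) (nat_lit 0) (nat_lit 0) (XT.lf (nat_lit 0) (nat_lit 12101869160) (nat_lit 152) (nat_lit 20170211778) (nat_lit 0) (nat_lit 89169235) (nat_lit 9) (nat_lit 5) (nat_lit 11) (nat_lit 4) (nat_lit 9) (nat_lit 4) (nat_lit 366) (nat_lit 228) (nat_lit 186)) (XT.lf (nat_lit 0) (nat_lit 15383862467) (nat_lit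 152) (nat_lit 14614710976) (nat_lit 0) (nat_lit 3228973308) (nat_lit 9) (nat_lit 5) (nat_lit 11) (nat_lit 4) (nat_lit 9) (nat_lit 4) (nat_lit 367) (nat_lit 228) (nat_lit 185)))) (XT.nd (nat_lit 78) (nat_lit 76) (nat_lit 0) (XT.lf (nat_lit 0) (nat_lit 18728109944) (nat_lit 152) (nat_lit 8957654147) (nat_lit 0) (nat_lit 6435172985) (nat_lit 9) (nat_lit 5) (nat_lit 11) (nat_lit 4) (nat_lit 9) (nat_lit 4) (nat_lit 368) (nat_lit 228) (nat_lit 184)) (XT.nd (nat_lit 78) (nat_lit 76) (nat_lit 0) (XT.lf (nat_lit 0) (nat_lit 22137533751) (nat_lit 152) (nat_lit 3194098232) (nat_lit 0) (nat_lit 9710569802) (nat_lit 9) (nat_lit 5) (nat_lit 11) (nat_lit 4) (nat_lit 9) (nat_lit 4) (nat_lit 369) (nat_lit 228) (nat_lit 183)) (XT.lf (nat_lit 0) (nat_lit 2734349902) (nat_lit 76) (nat_lit 22907047336) (nat_lit 76) (nat_lit 10349960096) (nat_lit 8) (nat_lit 4) (nat_lit 9) (nat_lit 5) (nat_lit 9) (nat_lit 4) (nat_lit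 370) (nat_lit 228) (nat_lit 182)))))) (XT.nd (nat_lit 468) (nat_lit 76) (nat_lit 0) (XT.nd (nat_lit 234) (nat_lit 76) (nat_lit 0) (XT.nd (nat_lit 78) (nat_lit 0) (nat_lit 0) (XT.lf (nat_lit 0) (nat_lit 8845357569) (nat_lit 76) (nat_lit 20403555755) (nat_lit 76) (nat_lit 7720135222) (nat_lit 8) (nat_lit 4) (nat_lit 9) (nat_lit 5) (nat_lit 9) (nat_lit 4) (nat_lit 371) (nat_lit 228) (nat_lit 181)) (XT.nd (nat_lit 78) (nat_lit 0) (nat_lit 0) (XT.lf (nat_lit 0) (nat_lit 15080695668) (nat_lit 76) (nat_lit 17851223851) (nat_lit 76) (nat_lit 5045149636) (nat_lit 8) (nat_lit 4) (nat_lit 9) (nat_lit 5) (nat_lit 9) (nat_lit 4) (nat_lit 372) (nat_lit 228) (nat_lit 180)) (XT.lf (nat_lit 0) (nat_lit 21445812552) (nat_lit 76) (nat_lit 15247821432) (nat_lit 76) (nat_lit 2322665971) (nat_lit 8) (nat_lit 4) (nat_lit 9) (nat_lit 5) (nat_lit 9) (nat_lit 4) (nat_lit 373) (nat_lit 228) (nat_lit 179)))) (XT.nd (nat_lit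 78) (nat_lit 0) (nat_lit 0) (XT.lf (nat_lit 0) (nat_lit 440919477) (nat_lit 152) (nat_lit 12145701780) (nat_lit 76) (nat_lit 27500898074) (nat_lit 7) (nat_lit 5) (nat_lit 9) (nat_lit 5) (nat_lit 8) (nat_lit 4) (nat_lit 374) (nat_lit 228) (nat_lit 178)) (XT.nd (nat_lit 78) (nat_lit 0) (nat_lit 0) (XT.lf (nat_lit 0) (nat_lit 3210460195) (nat_lit 152) (nat_lit 6635779615) (nat_lit 76) (nat_lit 31344868394) (nat_lit 7) (nat_lit 5) (nat_lit 9) (nat_lit 5) (nat_lit 8) (nat_lit 4) (nat_lit 375) (nat_lit 228) (nat_lit 177)) (XT.lf (nat_lit 0) (nat_lit 6033699750) (nat_lit 152) (nat_lit 1013579528) (nat_lit 76) (nat_lit 35281421407) (nat_lit 7) (nat_lit 5) (nat_lit 9) (nat_lit 5) (nat_lit 8) (nat_lit 4) (nat_lit 376) (nat_lit 228) (nat_lit 176))))) (XT.nd (nat_lit 234) (nat_lit 0) (nat_lit 0) (XT.nd (nat_lit 78) (nat_lit 0) (nat_lit 0) (XT.lf (nat_lit 0) (nat_lit 4819863990) (nat_lit 76) (nat_lit 4139572539)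 (nat_lit 152) (nat_lit 34540464311) (nat_lit 6) (nat_lit 5) (nat_lit 7) (nat_lit 5) (nat_lit 8) (nat_lit 4) (nat_lit 377) (nat_lit 228) (nat_lit 175)) (XT.nd (nat_lit 78) (nat_lit 0) (nat_lit 0) (XT.lf (nat_lit 0) (nat_lit 10798117385) (nat_lit 76) (nat_lit 1156872801) (nat_lit 152) (nat_lit 32751798968) (nat_lit 6) (nat_lit 5) (nat_lit 7) (nat_lit 5) (nat_lit 8) (nat_lit 4) (nat_lit 378) (nat_lit 228) (nat_lit 174)) (XT.lf (nat_lit 0) (nat_lit 15031239649) (nat_lit 152) (nat_lit 29062684658) (nat_lit 0) (nat_lit 1856248037) (nat_lit 6) (nat_lit 5) (nat_lit 8) (nat_lit 4) (nat_lit 6) (nat_lit 4) (nat_lit 379) (nat_lit 228) (nat_lit 173)))) (XT.nd (nat_lit 78) (nat_lit 0) (nat_lit 0) (XT.lf (nat_lit 0) (nat_lit 18184452225) (nat_lit 152) (nat_lit 24131420480) (nat_lit 0) (nat_lit 4915456778) (nat_lit 6) (nat_lit 5) (nat_lit 8) (nat_lit 4) (nat_lit 6) (nat_lit 4) (nat_lit 380) (nat_lit 228) (nat_lit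 172)) (XT.nd (nat_lit 78) (nat_lit 0) (nat_lit 0) (XT.lf (nat_lit 0) (nat_lit 21406262578) (nat_lit 152) (nat_lit 19099449795) (nat_lit 0) (nat_lit 8046001273) (nat_lit 6) (nat_lit 5) (nat_lit 8) (nat_lit 4) (nat_lit 6) (nat_lit 4) (nat_lit 381) (nat_lit 228) (nat_lit 171)) (XT.lf (nat_lit 0) (nat_lit 24699485883) (nat_lit 152) (nat_lit 13962375734) (nat_lit 0) (nat_lit 11250616948) (nat_lit 6) (nat_lit 5) (nat_lit 8) (nat_lit 4) (nat_lit 6) (nat_lit 4) (nat_lit 382) (nat_lit 228) (nat_lit 170))))))))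
noncomputable def xc35 : XT := (XT.nd (nat_lit 36114) (nat_lit 0) (nat_lit 1064) (XT.nd (nat_lit 936) (nat_lit 76) (nat_lit 0) (XT.nd (nat_lit 468) (nat_lit 76) (nat_lit 0) (XT.nd (nat_lit 234) (nat_lit 0) (nat_lit 0) (XT.nd (nat_lit 78) (nat_lit 76) (nat_lit 0) (XT.lf (nat_lit 0) (nat_lit 28066999713) (nat_lit 152) (nat_lit 8715709593) (nat_lit 0) (nat_lit 14532103954) (nat_lit 6) (nat_lit 5) (nat_lit 8) (nat_lit 4) (nat_lit 6) (nat_lit 4) (nat_lit 383) (nat_lit 228) (nat_lit 169)) (XT.nd (nat_lit 78) (nat_lit 76) (nat_lit 0) (XT.lf (nat_lit 0) (nat_lit 31511746557) (nat_lit 152) (nat_lit 3354866905) (nat_lit 0) (nat_lit 17893329608) (nat_lit 6) (nat_lit 5) (nat_lit 8) (nat_lit 4) (nat_lit 6) (nat_lit 4) (nat_lit 384) (nat_lit 228) (nat_lit 168)) (XT.lf (nat_lit 0) (nat_lit 2167124973) (nat_lit 76) (nat_lit 32890443145) (nat_lit 76) (nat_lit 19190937663) (nat_lit 5) (nat_lit 4) (nat_lit 6) (nat_lit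 5) (nat_lit 6) (nat_lit 4) (nat_lit 385) (nat_lit 228) (nat_lit 167)))) (XT.nd (nat_lit 78) (nat_lit 0) (nat_lit 0) (XT.lf (nat_lit 0) (nat_lit 7881995004) (nat_lit 76) (nat_lit 30838820845) (nat_lit 76) (nat_lit 17060588631) (nat_lit 5) (nat_lit 4) (nat_lit 6) (nat_lit 5) (nat_lit 6) (nat_lit 4) (nat_lit 386) (nat_lit 228) (nat_lit 166)) (XT.nd (nat_lit 78) (nat_lit 0) (nat_lit 0) (XT.lf (nat_lit 0) (nat_lit 13727968334) (nat_lit 76) (nat_lit 28743831460) (nat_lit 76) (nat_lit 14889165527) (nat_lit 5) (nat_lit 4) (nat_lit 6) (nat_lit 5) (nat_lit 6) (nat_lit 4) (nat_lit 387) (nat_lit 228) (nat_lit 165)) (XT.lf (nat_lit 0) (nat_lit 19710153096) (nat_lit 76) (nat_lit 26603644418) (nat_lit 76) (nat_lit 12674770990) (nat_lit 5) (nat_lit 4) (nat_lit 6) (nat_lit 5) (nat_lit 6) (nat_lit 4) (nat_lit 388) (nat_lit 228) (nat_lit 164))))) (XT.nd (nat_lit 234) (nat_lit 76) (nat_lit 0) (XT.nd (nat_lit 78)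 (nat_lit 0) (nat_lit 0) (XT.lf (nat_lit 0) (nat_lit 25833776439) (nat_lit 76) (nat_lit 24416389652) (nat_lit 76) (nat_lit 10415470112) (nat_lit 5) (nat_lit 4) (nat_lit 6) (nat_lit 5) (nat_lit 6) (nat_lit 4) (nat_lit 389) (nat_lit 228) (nat_lit 163)) (XT.nd (nat_lit 78) (nat_lit 0) (nat_lit 0) (XT.lf (nat_lit 0) (nat_lit 32104189104) (nat_lit 76) (nat_lit 22180155968) (nat_lit 76) (nat_lit 8109288747) (nat_lit 5) (nat_lit 4) (nat_lit 6) (nat_lit 5) (nat_lit 6) (nat_lit 4) (nat_lit 390) (nat_lit 228) (nat_lit 162)) (XT.lf (nat_lit 0) (nat_lit 38526870092) (nat_lit 76) (nat_lit 19892989376) (nat_lit 76) (nat_lit 5754211785) (nat_lit 5) (nat_lit 4) (nat_lit 6) (nat_lit 5) (nat_lit 6) (nat_lit 4) (nat_lit 391) (nat_lit 228) (nat_lit 161)))) (XT.nd (nat_lit 78) (nat_lit 76) (nat_lit 0) (XT.lf (nat_lit 0) (nat_lit 45107431453) (nat_lit 76) (nat_lit 17552891381) (nat_lit 76) (nat_lit 3348181392) (nat_lit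 5) (nat_lit 4) (nat_lit 6) (nat_lit 5) (nat_lit 6) (nat_lit 4) (nat_lit 392) (nat_lit 228) (nat_lit 160)) (XT.nd (nat_lit 78) (nat_lit 76) (nat_lit 0) (XT.lf (nat_lit 0) (nat_lit 51851623194) (nat_lit 76) (nat_lit 15157817237) (nat_lit 76) (nat_lit 889095211) (nat_lit 5) (nat_lit 4) (nat_lit 6) (nat_lit 5) (nat_lit 6) (nat_lit 4) (nat_lit 393) (nat_lit 228) (nat_lit 159)) (XT.lf (nat_lit 0) (nat_lit 1593482055) (nat_lit 152) (nat_lit 11096101061) (nat_lit 76) (nat_lit 57155765198) (nat_lit 4) (nat_lit 5) (nat_lit 6) (nat_lit 5) (nat_lit 5) (nat_lit 4) (nat_lit 394) (nat_lit 228) (nat_lit 158)))))) (XT.nd (nat_lit 468) (nat_lit 0) (nat_lit 0) (XT.nd (nat_lit 234) (nat_lit 0) (nat_lit 0) (XT.nd (nat_lit 78) (nat_lit 76) (nat_lit 0) (XT.lf (nat_lit 0) (nat_lit 4114991220) (nat_lit 152) (nat_lit 6037774940) (nat_lit 76) (nat_lit 61698073309) (nat_lit 4) (nat_lit 5) (nat_lit 6) (nat_lit 5) (nat_lit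 5) (nat_lit 4) (nat_lit 395) (nat_lit 228) (nat_lit 157)) (XT.nd (nat_lit 78) (nat_lit 76) (nat_lit 0) (XT.lf (nat_lit 0) (nat_lit 6694984994) (nat_lit 152) (nat_lit 858967662) (nat_lit 76) (nat_lit 66363065222) (nat_lit 4) (nat_lit 5) (nat_lit 6) (nat_lit 5) (nat_lit 5) (nat_lit 4) (nat_lit 396) (nat_lit 228) (nat_lit 156)) (XT.lf (nat_lit 0) (nat_lit 4533307094) (nat_lit 76) (nat_lit 4845987565) (nat_lit 152) (nat_lit 66665086968) (nat_lit 3) (nat_lit 5) (nat_lit 4) (nat_lit 5) (nat_lit 5) (nat_lit 4) (nat_lit 397) (nat_lit 228) (nat_lit 155)))) (XT.nd (nat_lit 78) (nat_lit 0) (nat_lit 0) (XT.lf (nat_lit 0) (nat_lit 10074897825) (nat_lit 76) (nat_lit 2061445148) (nat_lit 152) (nat_lit 66099464291) (nat_lit 3) (nat_lit 5) (nat_lit 4) (nat_lit 5) (nat_lit 5) (nat_lit 4) (nat_lit 398) (nat_lit 228) (nat_lit 154)) (XT.nd (nat_lit 78) (nat_lit 0) (nat_lit 0) (XT.lf (nat_lit 0) (nat_lit 14967744725)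 (nat_lit 152) (nat_lit 64747537678) (nat_lit 0) (nat_lit 777951051) (nat_lit 3) (nat_lit 5) (nat_lit 5) (nat_lit 4) (nat_lit 3) (nat_lit 4) (nat_lit 399) (nat_lit 228) (nat_lit 153)) (XT.lf (nat_lit 0) (nat_lit 17888856288) (nat_lit 152) (nat_lit 61280859026) (nat_lit 0) (nat_lit 3648530921) (nat_lit 3) (nat_lit 5) (nat_lit 5) (nat_lit 4) (nat_lit 3) (nat_lit 4) (nat_lit 400) (nat_lit 228) (nat_lit 152))))) (XT.nd (nat_lit 34476) (nat_lit 0) (nat_lit 2888) (XT.nd (nat_lit 78) (nat_lit 0) (nat_lit 0) (XT.lf (nat_lit 0) (nat_lit 20882414219) (nat_lit 152) (nat_lit 57738028475) (nat_lit 0) (nat_lit 6593028956) (nat_lit 3) (nat_lit 5) (nat_lit 5) (nat_lit 4) (nat_lit 3) (nat_lit 4) (nat_lit 401) (nat_lit 228) (nat_lit 151)) (XT.nd (nat_lit 78) (nat_lit 0) (nat_lit 0) (XT.lf (nat_lit 0) (nat_lit 23951034248) (nat_lit 152) (nat_lit 54115950346) (nat_lit 0) (nat_lit 9614018017) (nat_lit 3) (nat_lit 5)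 (nat_lit 5) (nat_lit 4) (nat_lit 3) (nat_lit 4) (nat_lit 402) (nat_lit 228) (nat_lit 150)) (XT.lf (nat_lit 0) (nat_lit 27097397693) (nat_lit 152) (nat_lit 50411459718) (nat_lit 0) (nat_lit 12714137805) (nat_lit 3) (nat_lit 5) (nat_lit 5) (nat_lit 4) (nat_lit 3) (nat_lit 4) (nat_lit 403) (nat_lit 228) (nat_lit 149)))) (XT.nd (nat_lit 78) (nat_lit 228) (nat_lit 0) (XT.lf (nat_lit 0) (nat_lit 409019083) (nat_lit 228) (nat_lit 5099017405) (nat_lit 0) (nat_lit 409019083) (nat_lit 44) (nat_lit 5) (nat_lit 47) (nat_lit 4) (nat_lit 44) (nat_lit 4) (nat_lit 322) (nat_lit 229) (nat_lit 229)) (XT.nd (nat_lit 78) (nat_lit 228) (nat_lit 0) (XT.lf (nat_lit 0) (nat_lit 4647765814) (nat_lit 228) (nat_lit 3397286738) (nat_lit 0) (nat_lit 4005721249) (nat_lit 44) (nat_lit 5) (nat_lit 47) (nat_lit 4) (nat_lit 44) (nat_lit 4) (nat_lit 323) (nat_lit 229) (nat_lit 228)) (XT.lf (nat_lit 0) (nat_lit 3539229367) (nat_lit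 228) (nat_lit 5000874293) (nat_lit 228) (nat_lit 3735485489) (nat_lit 41) (nat_lit 4) (nat_lit 44) (nat_lit 5) (nat_lit 44) (nat_lit 4) (nat_lit 324) (nat_lit 229) (nat_lit 227))))))) (XT.nd (nat_lit 936) (nat_lit 684) (nat_lit 0) (XT.nd (nat_lit 468) (nat_lit 532) (nat_lit 0) (XT.nd (nat_lit 234) (nat_lit 380) (nat_lit 0) (XT.nd (nat_lit 78) (nat_lit 228) (nat_lit 0) (XT.lf (nat_lit 0) (nat_lit 10617510731) (nat_lit 228) (nat_lit 1880910610) (nat_lit 228) (nat_lit 10333226) (nat_lit 41) (nat_lit 4) (nat_lit 44) (nat_lit 5) (nat_lit 44) (nat_lit 4) (nat_lit 325) (nat_lit 229) (nat_lit 226)) (XT.nd (nat_lit 78) (nat_lit 0) (nat_lit 0) (XT.lf (nat_lit 0) (nat_lit 3730474248) (nat_lit 228) (nat_lit 7674125853) (nat_lit 0) (nat_lit 1343931420) (nat_lit 38) (nat_lit 5) (nat_lit 41) (nat_lit 4) (nat_lit 38) (nat_lit 4) (nat_lit 326) (nat_lit 229) (nat_lit 225)) (XT.lf (nat_lit 0) (nat_lit 7538372323)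 (nat_lit 228) (nat_lit 860552909) (nat_lit 0) (nat_lit 4597996214) (nat_lit 38) (nat_lit 5) (nat_lit 41) (nat_lit 4) (nat_lit 38) (nat_lit 4) (nat_lit 327) (nat_lit 229) (nat_lit 224)))) (XT.nd (nat_lit 78) (nat_lit 228) (nat_lit 0) (XT.lf (nat_lit 0) (nat_lit 6146787665) (nat_lit 152) (nat_lit 5292383294) (nat_lit 152) (nat_lit 1814304969) (nat_lit 36) (nat_lit 4) (nat_lit 38) (nat_lit 5) (nat_lit 38) (nat_lit 4) (nat_lit 328) (nat_lit 229) (nat_lit 223)) (XT.nd (nat_lit 78) (nat_lit 152) (nat_lit 0) (XT.lf (nat_lit 0) (nat_lit 1830022110) (nat_lit 228) (nat_lit 285174427) (nat_lit 76) (nat_lit 11404181928) (nat_lit 35) (nat_lit 5) (nat_lit 38) (nat_lit 5) (nat_lit 36) (nat_lit 4) (nat_lit 329) (nat_lit 229) (nat_lit 222)) (XT.lf (nat_lit 0) (nat_lit 5545504477) (nat_lit 228) (nat_lit 7077512756) (nat_lit 0) (nat_lit 1169819798) (nat_lit 33) (nat_lit 5) (nat_lit 36) (nat_lit 4) (nat_lit 33) (nat_lit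 4) (nat_lit 330) (nat_lit 229) (nat_lit 221))))) (XT.nd (nat_lit 234) (nat_lit 304) (nat_lit 0) (XT.nd (nat_lit 78) (nat_lit 228) (nat_lit 0) (XT.lf (nat_lit 0) (nat_lit 9319043870) (nat_lit 228) (nat_lit 291504627) (nat_lit 0) (nat_lit 4465617736) (nat_lit 33) (nat_lit 5) (nat_lit 36) (nat_lit 4) (nat_lit 33) (nat_lit 4) (nat_lit 331) (nat_lit 229) (nat_lit 220)) (XT.nd (nat_lit 78) (nat_lit 76) (nat_lit 0) (XT.lf (nat_lit 0) (nat_lit 6704837380) (nat_lit 152) (nat_lit 6490395100) (nat_lit 152) (nat_lit 1173142312) (nat_lit 31) (nat_lit 4) (nat_lit 33) (nat_lit 5) (nat_lit 33) (nat_lit 4) (nat_lit 332) (nat_lit 229) (nat_lit 219)) (XT.lf (nat_lit 0) (nat_lit 2397390902) (nat_lit 228) (nat_lit 900866397) (nat_lit 76) (nat_lit 11372579957) (nat_lit 30) (nat_lit 5) (nat_lit 33) (nat_lit 5) (nat_lit 31) (nat_lit 4) (nat_lit 333) (nat_lit 229) (nat_lit 218)))) (XT.nd (nat_lit 78) (nat_lit 152) (nat_lit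 0) (XT.lf (nat_lit 0) (nat_lit 6037130724) (nat_lit 228) (nat_lit 8932300592) (nat_lit 0) (nat_lit 13081175) (nat_lit 28) (nat_lit 5) (nat_lit 31) (nat_lit 4) (nat_lit 28) (nat_lit 4) (nat_lit 334) (nat_lit 229) (nat_lit 217)) (XT.nd (nat_lit 78) (nat_lit 152) (nat_lit 0) (XT.lf (nat_lit 0) (nat_lit 9755791991) (nat_lit 228) (nat_lit 2229071420) (nat_lit 0) (nat_lit 3319638467) (nat_lit 28) (nat_lit 5) (nat_lit 31) (nat_lit 4) (nat_lit 28) (nat_lit 4) (nat_lit 335) (nat_lit 229) (nat_lit 216)) (XT.lf (nat_lit 0) (nat_lit 4648141377) (nat_lit 152) (nat_lit 8912539082) (nat_lit 152) (nat_lit 2076284612) (nat_lit 26) (nat_lit 4) (nat_lit 28) (nat_lit 5) (nat_lit 28) (nat_lit 4) (nat_lit 336) (nat_lit 229) (nat_lit 215)))))) (XT.nd (nat_lit 468) (nat_lit 304) (nat_lit 0) (XT.nd (nat_lit 234) (nat_lit 228) (nat_lit 0) (XT.nd (nat_lit 78) (nat_lit 76) (nat_lit 0) (XT.lf (nat_lit 0) (nat_lit 1423937760)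 (nat_lit 228) (nat_lit 4334108338) (nat_lit 76) (nat_lit 10222387420) (nat_lit 25) (nat_lit 5) (nat_lit 28) (nat_lit 5) (nat_lit 26) (nat_lit 4) (nat_lit 337) (nat_lit 229) (nat_lit 214)) (XT.nd (nat_lit 78) (nat_lit 0) (nat_lit 0) (XT.lf (nat_lit 0) (nat_lit 2432496819) (nat_lit 76) (nat_lit 2510524030) (nat_lit 152) (nat_lit 11391950441) (nat_lit 24) (nat_lit 5) (nat_lit 25) (nat_lit 5) (nat_lit 26) (nat_lit 4) (nat_lit 338) (nat_lit 229) (nat_lit 213)) (XT.lf (nat_lit 0) (nat_lit 8552534534) (nat_lit 152) (nat_lit 7331485825) (nat_lit 0) (nat_lit 816627203) (nat_lit 24) (nat_lit 5) (nat_lit 26) (nat_lit 4) (nat_lit 24) (nat_lit 4) (nat_lit 339) (nat_lit 229) (nat_lit 212)))) (XT.nd (nat_lit 78) (nat_lit 228) (nat_lit 0) (XT.lf (nat_lit 0) (nat_lit 12229790096) (nat_lit 152) (nat_lit 700014867) (nat_lit 0) (nat_lit 4148752174) (nat_lit 24) (nat_lit 5) (nat_lit 26) (nat_lit 4) (nat_lit 24) (nat_lit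 4) (nat_lit 340) (nat_lit 229) (nat_lit 211)) (XT.nd (nat_lit 78) (nat_lit 76) (nat_lit 0) (XT.lf (nat_lit 0) (nat_lit 6141712518) (nat_lit 152) (nat_lit 9871193358) (nat_lit 152) (nat_lit 1455077193) (nat_lit 22) (nat_lit 4) (nat_lit 24) (nat_lit 5) (nat_lit 24) (nat_lit 4) (nat_lit 341) (nat_lit 229) (nat_lit 210)) (XT.lf (nat_lit 0) (nat_lit 1944403315) (nat_lit 228) (nat_lit 4794296117) (nat_lit 76) (nat_lit 11131532797) (nat_lit 21) (nat_lit 5) (nat_lit 24) (nat_lit 5) (nat_lit 22) (nat_lit 4) (nat_lit 342) (nat_lit 229) (nat_lit 209))))) (XT.nd (nat_lit 234) (nat_lit 228) (nat_lit 0) (XT.nd (nat_lit 78) (nat_lit 0) (nat_lit 0) (XT.lf (nat_lit 0) (nat_lit 1849719753) (nat_lit 76) (nat_lit 3523185657) (nat_lit 152) (nat_lit 12912564270) (nat_lit 20) (nat_lit 5) (nat_lit 21) (nat_lit 5) (nat_lit 22) (nat_lit 4) (nat_lit 343) (nat_lit 229) (nat_lit 208)) (XT.nd (nat_lit 78) (nat_lit 0) (nat_lit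 0) (XT.lf (nat_lit 0) (nat_lit 8686764035) (nat_lit 76) (nat_lit 205199671) (nat_lit 152) (nat_lit 9821609803) (nat_lit 20) (nat_lit 5) (nat_lit 21) (nat_lit 5) (nat_lit 22) (nat_lit 4) (nat_lit 344) (nat_lit 229) (nat_lit 207)) (XT.lf (nat_lit 0) (nat_lit 12488119734) (nat_lit 152) (nat_lit 3559402452) (nat_lit 0) (nat_lit 3107891607) (nat_lit 20) (nat_lit 5) (nat_lit 22) (nat_lit 4) (nat_lit 20) (nat_lit 4) (nat_lit 345) (nat_lit 229) (nat_lit 206)))) (XT.nd (nat_lit 78) (nat_lit 76) (nat_lit 0) (XT.lf (nat_lit 0) (nat_lit 3059777327) (nat_lit 152) (nat_lit 13106203108) (nat_lit 152) (nat_lit 3445352227) (nat_lit 18) (nat_lit 4) (nat_lit 20) (nat_lit 5) (nat_lit 20) (nat_lit 4) (nat_lit 346) (nat_lit 229) (nat_lit 205)) (XT.nd (nat_lit 78) (nat_lit 76) (nat_lit 0) (XT.lf (nat_lit 0) (nat_lit 9851551369) (nat_lit 152) (nat_lit 10081671686) (nat_lit 152) (nat_lit 148371530) (nat_lit 18) (nat_lit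 4) (nat_lit 20) (nat_lit 5) (nat_lit 20) (nat_lit 4) (nat_lit 347) (nat_lit 229) (nat_lit 204)) (XT.lf (nat_lit 0) (nat_lit 3128326079) (nat_lit 228) (nat_lit 3847312074) (nat_lit 76) (nat_lit 13591099105) (nat_lit 17) (nat_lit 5) (nat_lit 20) (nat_lit 5) (nat_lit 18) (nat_lit 4) (nat_lit 348) (nat_lit 229) (nat_lit 203))))))))
noncomputable def xc36 : XT := (XT.nd (nat_lit 1794) (nat_lit 304) (nat_lit 0) (XT.nd (nat_lit 858) (nat_lit 304) (nat_lit 0) (XT.nd (nat_lit 390) (nat_lit 152) (nat_lit 0) (XT.nd (nat_lit 156) (nat_lit 152) (nat_lit 0) (XT.nd (nat_lit 78) (nat_lit 0) (nat_lit 0) (XT.lf (nat_lit 0) (nat_lit 2683417243) (nat_lit 76) (nat_lit 3788524053) (nat_lit 152) (nat_lit 14595334625) (nat_lit 16) (nat_lit 5) (nat_lit 17) (nat_lit 5) (nat_lit 18) (nat_lit 4) (nat_lit 349) (nat_lit 229) (nat_lit 202)) (XT.lf (nat_lit 0) (nat_lit 9395481971) (nat_lit 76) (nat_lit 505717655) (nat_lit 152)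 (nat_lit 11682103836) (nat_lit 16) (nat_lit 5) (nat_lit 17) (nat_lit 5) (nat_lit 18) (nat_lit 4) (nat_lit 350) (nat_lit 229) (nat_lit 201))) (XT.nd (nat_lit 78) (nat_lit 152) (nat_lit 0) (XT.lf (nat_lit 0) (nat_lit 13408647813) (nat_lit 152) (nat_lit 5925493427) (nat_lit 0) (nat_lit 2781443032) (nat_lit 16) (nat_lit 5) (nat_lit 18) (nat_lit 4) (nat_lit 16) (nat_lit 4) (nat_lit 351) (nat_lit 229) (nat_lit 200)) (XT.nd (nat_lit 78) (nat_lit 0) (nat_lit 0) (XT.lf (nat_lit 0) (nat_lit 438993352) (nat_lit 152) (nat_lit 16540747575) (nat_lit 152) (nat_lit 5685370815) (nat_lit 14) (nat_lit 4) (nat_lit 16) (nat_lit 5) (nat_lit 16) (nat_lit 4) (nat_lit 352) (nat_lit 229) (nat_lit 199)) (XT.lf (nat_lit 0) (nat_lit 7027486381) (nat_lit 152) (nat_lit 13640140888) (nat_lit 152) (nat_lit 2563237935) (nat_lit 14) (nat_lit 4) (nat_lit 16) (nat_lit 5) (nat_lit 16) (nat_lit 4) (nat_lit 353) (nat_lit 229) (nat_lit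 198))))) (XT.nd (nat_lit 234) (nat_lit 0) (nat_lit 0) (XT.nd (nat_lit 78) (nat_lit 76) (nat_lit 0) (XT.lf (nat_lit 0) (nat_lit 590600289) (nat_lit 228) (nat_lit 10093058339) (nat_lit 76) (nat_lit 13131249460) (nat_lit 13) (nat_lit 5) (nat_lit 16) (nat_lit 5) (nat_lit 14) (nat_lit 4) (nat_lit 354) (nat_lit 229) (nat_lit 197)) (XT.nd (nat_lit 78) (nat_lit 76) (nat_lit 0) (XT.lf (nat_lit 0) (nat_lit 3739743982) (nat_lit 228) (nat_lit 3909106326) (nat_lit 76) (nat_lit 16768321765) (nat_lit 13) (nat_lit 5) (nat_lit 16) (nat_lit 5) (nat_lit 14) (nat_lit 4) (nat_lit 355) (nat_lit 229) (nat_lit 196)) (XT.lf (nat_lit 0) (nat_lit 2425857295) (nat_lit 76) (nat_lit 4534424356) (nat_lit 152) (nat_lit 18077941371) (nat_lit 12) (nat_lit 5) (nat_lit 13) (nat_lit 5) (nat_lit 14) (nat_lit 4) (nat_lit 356) (nat_lit 229) (nat_lit 195)))) (XT.nd (nat_lit 78) (nat_lit 0) (nat_lit 0) (XT.lf (nat_lit 0) (nat_lit 8949960900)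 (nat_lit 76) (nat_lit 1321122110) (nat_lit 152) (nat_lit 15407038925) (nat_lit 12) (nat_lit 5) (nat_lit 13) (nat_lit 5) (nat_lit 14) (nat_lit 4) (nat_lit 357) (nat_lit 229) (nat_lit 194)) (XT.nd (nat_lit 78) (nat_lit 0) (nat_lit 0) (XT.lf (nat_lit 0) (nat_lit 13655503212) (nat_lit 152) (nat_lit 10766258193) (nat_lit 0) (nat_lit 1916252675) (nat_lit 12) (nat_lit 5) (nat_lit 14) (nat_lit 4) (nat_lit 12) (nat_lit 4) (nat_lit 358) (nat_lit 229) (nat_lit 193)) (XT.lf (nat_lit 0) (nat_lit 17111021252) (nat_lit 152) (nat_lit 4715969508) (nat_lit 0) (nat_lit 5191649648) (nat_lit 12) (nat_lit 5) (nat_lit 14) (nat_lit 4) (nat_lit 12) (nat_lit 4) (nat_lit 359) (nat_lit 229) (nat_lit 192)))))) (XT.nd (nat_lit 468) (nat_lit 76) (nat_lit 0) (XT.nd (nat_lit 234) (nat_lit 152) (nat_lit 0) (XT.nd (nat_lit 78) (nat_lit 0) (nat_lit 0) (XT.lf (nat_lit 0) (nat_lit 1469363691) (nat_lit 76) (nat_lit 19172717814) (nat_lit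 76) (nat_lit 7078471387) (nat_lit 11) (nat_lit 4) (nat_lit 12) (nat_lit 5) (nat_lit 12) (nat_lit 4) (nat_lit 360) (nat_lit 229) (nat_lit 191)) (XT.nd (nat_lit 78) (nat_lit 0) (nat_lit 0) (XT.lf (nat_lit 0) (nat_lit 7862529548) (nat_lit 76) (nat_lit 16422433649) (nat_lit 76) (nat_lit 4158405841) (nat_lit 11) (nat_lit 4) (nat_lit 12) (nat_lit 5) (nat_lit 12) (nat_lit 4) (nat_lit 361) (nat_lit 229) (nat_lit 190)) (XT.lf (nat_lit 0) (nat_lit 14375257284) (nat_lit 76) (nat_lit 13621357150) (nat_lit 76) (nat_lit 1192493049) (nat_lit 11) (nat_lit 4) (nat_lit 12) (nat_lit 5) (nat_lit 12) (nat_lit 4) (nat_lit 362) (nat_lit 229) (nat_lit 189)))) (XT.nd (nat_lit 78) (nat_lit 76) (nat_lit 0) (XT.lf (nat_lit 0) (nat_lit 1786307538) (nat_lit 152) (nat_lit 8962695031) (nat_lit 76) (nat_lit 19208891890) (nat_lit 10) (nat_lit 5) (nat_lit 12) (nat_lit 5) (nat_lit 11) (nat_lit 4) (nat_lit 363) (nat_lit 229) (nat_lit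 188)) (XT.nd (nat_lit 78) (nat_lit 76) (nat_lit 0) (XT.lf (nat_lit 0) (nat_lit 4791914399) (nat_lit 152) (nat_lit 3016687120) (nat_lit 76) (nat_lit 22941967431) (nat_lit 10) (nat_lit 5) (nat_lit 12) (nat_lit 5) (nat_lit 11) (nat_lit 4) (nat_lit 364) (nat_lit 229) (nat_lit 187)) (XT.lf (nat_lit 0) (nat_lit 3101350569) (nat_lit 76) (nat_lit 4778685134) (nat_lit 152) (nat_lit 23687237404) (nat_lit 9) (nat_lit 5) (nat_lit 10) (nat_lit 5) (nat_lit 11) (nat_lit 4) (nat_lit 365) (nat_lit 229) (nat_lit 186))))) (XT.nd (nat_lit 234) (nat_lit 76) (nat_lit 0) (XT.nd (nat_lit 78) (nat_lit 0) (nat_lit 0) (XT.lf (nat_lit 0) (nat_lit 9398555116) (nat_lit 76) (nat_lit 1655697069) (nat_lit 152) (nat_lit 21354441902) (nat_lit 9) (nat_lit 5) (nat_lit 10) (nat_lit 5) (nat_lit 11) (nat_lit 4) (nat_lit 366) (nat_lit 229) (nat_lit 185)) (XT.nd (nat_lit 78) (nat_lit 0) (nat_lit 0) (XT.lf (nat_lit 0) (nat_lit 14302494633)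 (nat_lit 152) (nat_lit 17470795993) (nat_lit 0) (nat_lit 1502721766) (nat_lit 9) (nat_lit 5) (nat_lit 11) (nat_lit 4) (nat_lit 9) (nat_lit 4) (nat_lit 367) (nat_lit 229) (nat_lit 184)) (XT.lf (nat_lit 0) (nat_lit 17629426300) (nat_lit 152) (nat_lit 11844878385) (nat_lit 0) (nat_lit 4695626443) (nat_lit 9) (nat_lit 5) (nat_lit 11) (nat_lit 4) (nat_lit 9) (nat_lit 4) (nat_lit 368) (nat_lit 229) (nat_lit 183)))) (XT.nd (nat_lit 78) (nat_lit 76) (nat_lit 0) (XT.lf (nat_lit 0) (nat_lit 21022038640) (nat_lit 152) (nat_lit 6111554723) (nat_lit 0) (nat_lit 7958115491) (nat_lit 9) (nat_lit 5) (nat_lit 11) (nat_lit 4) (nat_lit 9) (nat_lit 4) (nat_lit 369) (nat_lit 229) (nat_lit 182)) (XT.nd (nat_lit 78) (nat_lit 76) (nat_lit 0) (XT.lf (nat_lit 0) (nat_lit 24483296072) (nat_lit 152) (nat_lit 265815306) (nat_lit 0) (nat_lit 11293039630) (nat_lit 9) (nat_lit 5) (nat_lit 11) (nat_lit 4) (nat_lit 9) (nat_lit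 4) (nat_lit 370) (nat_lit 229) (nat_lit 181)) (XT.lf (nat_lit 0) (nat_lit 5810838175) (nat_lit 76) (nat_lit 22261242150) (nat_lit 76) (nat_lit 8948332026) (nat_lit 8) (nat_lit 4) (nat_lit 9) (nat_lit 5) (nat_lit 9) (nat_lit 4) (nat_lit 371) (nat_lit 229) (nat_lit 180))))))) (XT.nd (nat_lit 936) (nat_lit 152) (nat_lit 0) (XT.nd (nat_lit 468) (nat_lit 0) (nat_lit 0) (XT.nd (nat_lit 234) (nat_lit 152) (nat_lit 0) (XT.nd (nat_lit 78) (nat_lit 0) (nat_lit 0) (XT.lf (nat_lit 0) (nat_lit 12017958856) (nat_lit 76) (nat_lit 19721471548) (nat_lit 76) (nat_lit 6289480179) (nat_lit 8) (nat_lit 4) (nat_lit 9) (nat_lit 5) (nat_lit 9) (nat_lit 4) (nat_lit 372) (nat_lit 229) (nat_lit 179)) (XT.nd (nat_lit 78) (nat_lit 0) (nat_lit 0) (XT.lf (nat_lit 0) (nat_lit 18355680188) (nat_lit 76) (nat_lit 17130264567) (nat_lit 76) (nat_lit 3582660339) (nat_lit 8) (nat_lit 4) (nat_lit 9) (nat_lit 5) (nat_lit 9) (nat_lit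 4) (nat_lit 373) (nat_lit 229) (nat_lit 178)) (XT.lf (nat_lit 0) (nat_lit 24829539987) (nat_lit 76) (nat_lit 14485357046) (nat_lit 76) (nat_lit 825507324) (nat_lit 8) (nat_lit 4) (nat_lit 9) (nat_lit 5) (nat_lit 9) (nat_lit 4) (nat_lit 374) (nat_lit 229) (nat_lit 177)))) (XT.nd (nat_lit 78) (nat_lit 76) (nat_lit 0) (XT.lf (nat_lit 0) (nat_lit 1945665471) (nat_lit 152) (nat_lit 9819125023) (nat_lit 76) (nat_lit 29479882145) (nat_lit 7) (nat_lit 5) (nat_lit 9) (nat_lit 5) (nat_lit 8) (nat_lit 4) (nat_lit 375) (nat_lit 229) (nat_lit 176)) (XT.nd (nat_lit 78) (nat_lit 76) (nat_lit 0) (XT.lf (nat_lit 0) (nat_lit 4754850127) (nat_lit 152) (nat_lit 4222282314) (nat_lit 76) (nat_lit 33405561173) (nat_lit 7) (nat_lit 5) (nat_lit 9) (nat_lit 5) (nat_lit 8) (nat_lit 4) (nat_lit 376) (nat_lit 229) (nat_lit 175)) (XT.lf (nat_lit 0) (nat_lit 1522192950) (nat_lit 76) (nat_lit 6113049193) (nat_lit 152) (nat_lit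 35920018618) (nat_lit 6) (nat_lit 5) (nat_lit 7) (nat_lit 5) (nat_lit 8) (nat_lit 4) (nat_lit 377) (nat_lit 229) (nat_lit 174))))) (XT.nd (nat_lit 234) (nat_lit 0) (nat_lit 0) (XT.nd (nat_lit 78) (nat_lit 0) (nat_lit 0) (XT.lf (nat_lit 0) (nat_lit 7476068892) (nat_lit 76) (nat_lit 3141244487) (nat_lit 152) (nat_lit 34145246622) (nat_lit 6) (nat_lit 5) (nat_lit 7) (nat_lit 5) (nat_lit 8) (nat_lit 4) (nat_lit 378) (nat_lit 229) (nat_lit 173)) (XT.nd (nat_lit 78) (nat_lit 0) (nat_lit 0) (XT.lf (nat_lit 0) (nat_lit 13560516228) (nat_lit 76) (nat_lit 101758375) (nat_lit 152) (nat_lit 32344613502) (nat_lit 6) (nat_lit 5) (nat_lit 7) (nat_lit 5) (nat_lit 8) (nat_lit 4) (nat_lit 379) (nat_lit 229) (nat_lit 172)) (XT.lf (nat_lit 0) (nat_lit 16801701824) (nat_lit 152) (nat_lit 27537396244) (nat_lit 0) (nat_lit 2949366821) (nat_lit 6) (nat_lit 5) (nat_lit 8) (nat_lit 4) (nat_lit 6) (nat_lit 4) (nat_lit 380)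 (nat_lit 229) (nat_lit 171)))) (XT.nd (nat_lit 78) (nat_lit 0) (nat_lit 0) (XT.lf (nat_lit 0) (nat_lit 20011078011) (nat_lit 152) (nat_lit 22528014596) (nat_lit 0) (nat_lit 6070135378) (nat_lit 6) (nat_lit 5) (nat_lit 8) (nat_lit 4) (nat_lit 6) (nat_lit 4) (nat_lit 381) (nat_lit 229) (nat_lit 170)) (XT.nd (nat_lit 78) (nat_lit 0) (nat_lit 0) (XT.lf (nat_lit 0) (nat_lit 23292229309) (nat_lit 152) (nat_lit 17412871639) (nat_lit 0) (nat_lit 9265259851) (nat_lit 6) (nat_lit 5) (nat_lit 8) (nat_lit 4) (nat_lit 6) (nat_lit 4) (nat_lit 382) (nat_lit 229) (nat_lit 169)) (XT.lf (nat_lit 0) (nat_lit 26648022744) (nat_lit 152) (nat_lit 12187497832) (nat_lit 0) (nat_lit 12537532098) (nat_lit 6) (nat_lit 5) (nat_lit 8) (nat_lit 4) (nat_lit 6) (nat_lit 4) (nat_lit 383) (nat_lit 229) (nat_lit 168)))))) (XT.nd (nat_lit 468) (nat_lit 76) (nat_lit 0) (XT.nd (nat_lit 234) (nat_lit 0) (nat_lit 0) (XT.nd (nat_lit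 78) (nat_lit 76) (nat_lit 0) (XT.lf (nat_lit 0) (nat_lit 30081390564) (nat_lit 152) (nat_lit 6847327314) (nat_lit 0) (nat_lit 15889811384) (nat_lit 6) (nat_lit 5) (nat_lit 8) (nat_lit 4) (nat_lit 6) (nat_lit 4) (nat_lit 384) (nat_lit 229) (nat_lit 167)) (XT.nd (nat_lit 78) (nat_lit 76) (nat_lit 0) (XT.lf (nat_lit 0) (nat_lit 33595332798) (nat_lit 152) (nat_lit 1387693915) (nat_lit 0) (nat_lit 19325026887) (nat_lit 6) (nat_lit 5) (nat_lit 8) (nat_lit 4) (nat_lit 6) (nat_lit 4) (nat_lit 385) (nat_lit 229) (nat_lit 166)) (XT.lf (nat_lit 0) (nat_lit 4279684984) (nat_lit 76) (nat_lit 32954373847) (nat_lit 76) (nat_lit 18607634216) (nat_lit 5) (nat_lit 4) (nat_lit 6) (nat_lit 5) (nat_lit 6) (nat_lit 4) (nat_lit 386) (nat_lit 229) (nat_lit 165)))) (XT.nd (nat_lit 78) (nat_lit 0) (nat_lit 0) (XT.lf (nat_lit 0) (nat_lit 10106363846) (nat_lit 76) (nat_lit 30868080040) (nat_lit 76) (nat_lit 16447132915)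 (nat_lit 5) (nat_lit 4) (nat_lit 6) (nat_lit 5) (nat_lit 6) (nat_lit 4) (nat_lit 387) (nat_lit 229) (nat_lit 164)) (XT.nd (nat_lit 78) (nat_lit 0) (nat_lit 0) (XT.lf (nat_lit 0) (nat_lit 16069816115) (nat_lit 76) (nat_lit 28736335307) (nat_lit 76) (nat_lit 14243342070) (nat_lit 5) (nat_lit 4) (nat_lit 6) (nat_lit 5) (nat_lit 6) (nat_lit 4) (nat_lit 388) (nat_lit 229) (nat_lit 163)) (XT.lf (nat_lit 0) (nat_lit 22175252572) (nat_lit 76) (nat_lit 26557276957) (nat_lit 76) (nat_lit 11994336039) (nat_lit 5) (nat_lit 4) (nat_lit 6) (nat_lit 5) (nat_lit 6) (nat_lit 4) (nat_lit 389) (nat_lit 229) (nat_lit 162))))) (XT.nd (nat_lit 234) (nat_lit 76) (nat_lit 0) (XT.nd (nat_lit 78) (nat_lit 0) (nat_lit 0) (XT.lf (nat_lit 0) (nat_lit 28428008066) (nat_lit 76) (nat_lit 24329000959) (nat_lit 76) (nat_lit 9698149671) (nat_lit 5) (nat_lit 4) (nat_lit 6) (nat_lit 5) (nat_lit 6) (nat_lit 4) (nat_lit 390) (nat_lit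 229) (nat_lit 161)) (XT.nd (nat_lit 78) (nat_lit 0) (nat_lit 0) (XT.lf (nat_lit 0) (nat_lit 34833546169) (nat_lit 76) (nat_lit 22049560276) (nat_lit 76) (nat_lit 7352776590) (nat_lit 5) (nat_lit 4) (nat_lit 6) (nat_lit 5) (nat_lit 6) (nat_lit 4) (nat_lit 391) (nat_lit 229) (nat_lit 160)) (XT.lf (nat_lit 0) (nat_lit 41397463954) (nat_lit 76) (nat_lit 19716963164) (nat_lit 76) (nat_lit 4956167440) (nat_lit 5) (nat_lit 4) (nat_lit 6) (nat_lit 5) (nat_lit 6) (nat_lit 4) (nat_lit 392) (nat_lit 229) (nat_lit 159)))) (XT.nd (nat_lit 78) (nat_lit 76) (nat_lit 0) (XT.lf (nat_lit 0) (nat_lit 48125496882) (nat_lit 76) (nat_lit 17329171430) (nat_lit 76) (nat_lit 2506228098) (nat_lit 5) (nat_lit 4) (nat_lit 6) (nat_lit 5) (nat_lit 6) (nat_lit 4) (nat_lit 393) (nat_lit 229) (nat_lit 158)) (XT.nd (nat_lit 78) (nat_lit 76) (nat_lit 0) (XT.lf (nat_lit 0) (nat_lit 55023523817) (nat_lit 76) (nat_lit 14884098654)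 (nat_lit 76) (nat_lit 817838) (nat_lit 5) (nat_lit 4) (nat_lit 6) (nat_lit 5) (nat_lit 6) (nat_lit 4) (nat_lit 394) (nat_lit 229) (nat_lit 157)) (XT.lf (nat_lit 0) (nat_lit 2512253755) (nat_lit 152) (nat_lit 9841985774) (nat_lit 76) (nat_lit 59559949569) (nat_lit 4) (nat_lit 5) (nat_lit 6) (nat_lit 5) (nat_lit 5) (nat_lit 4) (nat_lit 395) (nat_lit 229) (nat_lit 156))))))))
noncomputable def xc37 : XT := (XT.nd (nat_lit 35880) (nat_lit 0) (nat_lit 684) (XT.nd (nat_lit 34944) (nat_lit 0) (nat_lit 1900) (XT.nd (nat_lit 390) (nat_lit 0) (nat_lit 0) (XT.nd (nat_lit 156) (nat_lit 0) (nat_lit 0) (XT.nd (nat_lit 78) (nat_lit 76) (nat_lit 0) (XT.lf (nat_lit 0) (nat_lit 5084040217) (nat_lit 152) (nat_lit 4678133121) (nat_lit 76) (nat_lit 64218444068) (nat_lit 4) (nat_lit 5) (nat_lit 6) (nat_lit 5) (nat_lit 5) (nat_lit 4) (nat_lit 396) (nat_lit 229) (nat_lit 155)) (XT.lf (nat_lit 0) (nat_lit 623324741) (nat_lit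 76) (nat_lit 7099471736) (nat_lit 152) (nat_lit 68386554855) (nat_lit 3) (nat_lit 5) (nat_lit 4) (nat_lit 5) (nat_lit 5) (nat_lit 4) (nat_lit 397) (nat_lit 229) (nat_lit 154))) (XT.nd (nat_lit 78) (nat_lit 0) (nat_lit 0) (XT.lf (nat_lit 0) (nat_lit 6150538762) (nat_lit 76) (nat_lit 4321431653) (nat_lit 152) (nat_lit 67829046255) (nat_lit 3) (nat_lit 5) (nat_lit 4) (nat_lit 5) (nat_lit 5) (nat_lit 4) (nat_lit 398) (nat_lit 229) (nat_lit 153)) (XT.nd (nat_lit 78) (nat_lit 0) (nat_lit 0) (XT.lf (nat_lit 0) (nat_lit 11815234522) (nat_lit 76) (nat_lit 1472865649) (nat_lit 152) (nat_lit 67270804218) (nat_lit 3) (nat_lit 5) (nat_lit 4) (nat_lit 5) (nat_lit 5) (nat_lit 4) (nat_lit 399) (nat_lit 229) (nat_lit 152)) (XT.lf (nat_lit 0) (nat_lit 16187572378) (nat_lit 152) (nat_lit 65276551583) (nat_lit 0) (nat_lit 1420445661) (nat_lit 3) (nat_lit 5) (nat_lit 5) (nat_lit 4) (nat_lit 3) (nat_lit 4) (nat_lit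 400) (nat_lit 229) (nat_lit 151))))) (XT.nd (nat_lit 34320) (nat_lit 0) (nat_lit 3116) (XT.nd (nat_lit 78) (nat_lit 0) (nat_lit 0) (XT.lf (nat_lit 0) (nat_lit 19173866940) (nat_lit 152) (nat_lit 61747039918) (nat_lit 0) (nat_lit 4359109255) (nat_lit 3) (nat_lit 5) (nat_lit 5) (nat_lit 4) (nat_lit 3) (nat_lit 4) (nat_lit 401) (nat_lit 229) (nat_lit 150)) (XT.nd (nat_lit 78) (nat_lit 0) (nat_lit 0) (XT.lf (nat_lit 0) (nat_lit 22235435153) (nat_lit 152) (nat_lit 58137892747) (nat_lit 0) (nat_lit 7374433811) (nat_lit 3) (nat_lit 5) (nat_lit 5) (nat_lit 4) (nat_lit 3) (nat_lit 4) (nat_lit 402) (nat_lit 229) (nat_lit 149)) (XT.lf (nat_lit 0) (nat_lit 25374952176) (nat_lit 152) (nat_lit 54445956447) (nat_lit 0) (nat_lit 10469054079) (nat_lit 3) (nat_lit 5) (nat_lit 5) (nat_lit 4) (nat_lit 3) (nat_lit 4) (nat_lit 403) (nat_lit 229) (nat_lit 148)))) (XT.nd (nat_lit 78) (nat_lit 456) (nat_lit 0) (XT.lf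 (nat_lit 0) (nat_lit 2710803772) (nat_lit 304) (nat_lit 287873090) (nat_lit 0) (nat_lit 2710803772) (nat_lit 50) (nat_lit 5) (nat_lit 54) (nat_lit 4) (nat_lit 50) (nat_lit 4) (nat_lit 320) (nat_lit 230) (nat_lit 230)) (XT.nd (nat_lit 78) (nat_lit 228) (nat_lit 0) (XT.lf (nat_lit 0) (nat_lit 6363840049) (nat_lit 228) (nat_lit 2970329280) (nat_lit 228) (nat_lit 2289184201) (nat_lit 47) (nat_lit 4) (nat_lit 50) (nat_lit 5) (nat_lit 50) (nat_lit 4) (nat_lit 321) (nat_lit 230) (nat_lit 229)) (XT.lf (nat_lit 0) (nat_lit 1435554927) (nat_lit 228) (nat_lit 10267708234) (nat_lit 0) (nat_lit 132204459) (nat_lit 44) (nat_lit 5) (nat_lit 47) (nat_lit 4) (nat_lit 44) (nat_lit 4) (nat_lit 322) (nat_lit 230) (nat_lit 228)))))) (XT.nd (nat_lit 468) (nat_lit 608) (nat_lit 0) (XT.nd (nat_lit 234) (nat_lit 304) (nat_lit 0) (XT.nd (nat_lit 78) (nat_lit 304) (nat_lit 0) (XT.lf (nat_lit 0) (nat_lit 5222768846) (nat_lit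 228) (nat_lit 3534604260) (nat_lit 0) (nat_lit 3296074140) (nat_lit 44) (nat_lit 5) (nat_lit 47) (nat_lit 4) (nat_lit 44) (nat_lit 4) (nat_lit 323) (nat_lit 230) (nat_lit 227)) (XT.nd (nat_lit 78) (nat_lit 76) (nat_lit 0) (XT.lf (nat_lit 0) (nat_lit 3332198034) (nat_lit 228) (nat_lit 5739643080) (nat_lit 228) (nat_lit 3207759794) (nat_lit 41) (nat_lit 4) (nat_lit 44) (nat_lit 5) (nat_lit 44) (nat_lit 4) (nat_lit 324) (nat_lit 230) (nat_lit 226)) (XT.lf (nat_lit 0) (nat_lit 466156541) (nat_lit 304) (nat_lit 2173147234) (nat_lit 76) (nat_lit 9874585567) (nat_lit 40) (nat_lit 5) (nat_lit 44) (nat_lit 5) (nat_lit 41) (nat_lit 4) (nat_lit 325) (nat_lit 230) (nat_lit 225)))) (XT.nd (nat_lit 78) (nat_lit 152) (nat_lit 0) (XT.lf (nat_lit 0) (nat_lit 4155875325) (nat_lit 228) (nat_lit 8025896876) (nat_lit 0) (nat_lit 573454650) (nat_lit 38) (nat_lit 5) (nat_lit 41) (nat_lit 4) (nat_lit 38) (nat_lit 4)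 (nat_lit 326) (nat_lit 230) (nat_lit 224)) (XT.nd (nat_lit 78) (nat_lit 152) (nat_lit 0) (XT.lf (nat_lit 0) (nat_lit 7924156127) (nat_lit 228) (nat_lit 1276651776) (nat_lit 0) (nat_lit 3804033237) (nat_lit 38) (nat_lit 5) (nat_lit 41) (nat_lit 4) (nat_lit 38) (nat_lit 4) (nat_lit 327) (nat_lit 230) (nat_lit 223)) (XT.lf (nat_lit 0) (nat_lit 5658710435) (nat_lit 152) (nat_lit 6123089260) (nat_lit 152) (nat_lit 1480925383) (nat_lit 36) (nat_lit 4) (nat_lit 38) (nat_lit 5) (nat_lit 38) (nat_lit 4) (nat_lit 328) (nat_lit 230) (nat_lit 222))))) (XT.nd (nat_lit 234) (nat_lit 380) (nat_lit 0) (XT.nd (nat_lit 78) (nat_lit 152) (nat_lit 0) (XT.lf (nat_lit 0) (nat_lit 2118549968) (nat_lit 228) (nat_lit 848343348) (nat_lit 76) (nat_lit 10562821352) (nat_lit 35) (nat_lit 5) (nat_lit 38) (nat_lit 5) (nat_lit 36) (nat_lit 4) (nat_lit 329) (nat_lit 230) (nat_lit 221)) (XT.nd (nat_lit 78) (nat_lit 0) (nat_lit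 0) (XT.lf (nat_lit 0) (nat_lit 5782211148) (nat_lit 228) (nat_lit 7717107795) (nat_lit 0) (nat_lit 305440777) (nat_lit 33) (nat_lit 5) (nat_lit 36) (nat_lit 4) (nat_lit 33) (nat_lit 4) (nat_lit 330) (nat_lit 230) (nat_lit 220)) (XT.lf (nat_lit 0) (nat_lit 9518800806) (nat_lit 228) (nat_lit 992223751) (nat_lit 0) (nat_lit 3578203779) (nat_lit 33) (nat_lit 5) (nat_lit 36) (nat_lit 4) (nat_lit 33) (nat_lit 4) (nat_lit 331) (nat_lit 230) (nat_lit 219)))) (XT.nd (nat_lit 78) (nat_lit 228) (nat_lit 0) (XT.lf (nat_lit 0) (nat_lit 5929647744) (nat_lit 152) (nat_lit 7422016546) (nat_lit 152) (nat_lit 1031102379) (nat_lit 31) (nat_lit 4) (nat_lit 33) (nat_lit 5) (nat_lit 33) (nat_lit 4) (nat_lit 332) (nat_lit 230) (nat_lit 218)) (XT.nd (nat_lit 78) (nat_lit 152) (nat_lit 0) (XT.lf (nat_lit 0) (nat_lit 2500886589) (nat_lit 228) (nat_lit 1751315496) (nat_lit 76) (nat_lit 10434087560) (nat_lit 30) (nat_lit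 5) (nat_lit 33) (nat_lit 5) (nat_lit 31) (nat_lit 4) (nat_lit 333) (nat_lit 230) (nat_lit 217)) (XT.lf (nat_lit 0) (nat_lit 5124050434) (nat_lit 152) (nat_lit 972813014) (nat_lit 228) (nat_lit 8902441795) (nat_lit 28) (nat_lit 5) (nat_lit 30) (nat_lit 5) (nat_lit 31) (nat_lit 4) (nat_lit 334) (nat_lit 230) (nat_lit 216))))))) (XT.nd (nat_lit 936) (nat_lit 456) (nat_lit 0) (XT.nd (nat_lit 468) (nat_lit 456) (nat_lit 0) (XT.nd (nat_lit 234) (nat_lit 76) (nat_lit 0) (XT.nd (nat_lit 78) (nat_lit 228) (nat_lit 0) (XT.lf (nat_lit 0) (nat_lit 9771684075) (nat_lit 228) (nat_lit 3220711423) (nat_lit 0) (nat_lit 2330241024) (nat_lit 28) (nat_lit 5) (nat_lit 31) (nat_lit 4) (nat_lit 28) (nat_lit 4) (nat_lit 335) (nat_lit 230) (nat_lit 215)) (XT.nd (nat_lit 78) (nat_lit 76) (nat_lit 0) (XT.lf (nat_lit 0) (nat_lit 3579297725) (nat_lit 152) (nat_lit 9953515618) (nat_lit 152) (nat_lit 2123625046) (nat_lit 26)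 (nat_lit 4) (nat_lit 28) (nat_lit 5) (nat_lit 28) (nat_lit 4) (nat_lit 336) (nat_lit 230) (nat_lit 214)) (XT.lf (nat_lit 0) (nat_lit 1344123405) (nat_lit 228) (nat_lit 5478453573) (nat_lit 76) (nat_lit 9178369849) (nat_lit 25) (nat_lit 5) (nat_lit 28) (nat_lit 5) (nat_lit 26) (nat_lit 4) (nat_lit 337) (nat_lit 230) (nat_lit 213)))) (XT.nd (nat_lit 78) (nat_lit 0) (nat_lit 0) (XT.lf (nat_lit 0) (nat_lit 1209447297) (nat_lit 76) (nat_lit 3609577544) (nat_lit 152) (nat_lit 11537808908) (nat_lit 24) (nat_lit 5) (nat_lit 25) (nat_lit 5) (nat_lit 26) (nat_lit 4) (nat_lit 338) (nat_lit 230) (nat_lit 212)) (XT.nd (nat_lit 78) (nat_lit 0) (nat_lit 0) (XT.lf (nat_lit 0) (nat_lit 8100057994) (nat_lit 76) (nat_lit 288471875) (nat_lit 152) (nat_lit 8335203422) (nat_lit 24) (nat_lit 5) (nat_lit 25) (nat_lit 5) (nat_lit 26) (nat_lit 4) (nat_lit 339) (nat_lit 230) (nat_lit 211)) (XT.lf (nat_lit 0) (nat_lit 12031733967)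 (nat_lit 152) (nat_lit 2042896707) (nat_lit 0) (nat_lit 3028056072) (nat_lit 24) (nat_lit 5) (nat_lit 26) (nat_lit 4) (nat_lit 24) (nat_lit 4) (nat_lit 340) (nat_lit 230) (nat_lit 210))))) (XT.nd (nat_lit 234) (nat_lit 152) (nat_lit 0) (XT.nd (nat_lit 78) (nat_lit 152) (nat_lit 0) (XT.lf (nat_lit 0) (nat_lit 4719163528) (nat_lit 152) (nat_lit 11051644336) (nat_lit 152) (nat_lit 1722647759) (nat_lit 22) (nat_lit 4) (nat_lit 24) (nat_lit 5) (nat_lit 24) (nat_lit 4) (nat_lit 341) (nat_lit 230) (nat_lit 209)) (XT.nd (nat_lit 78) (nat_lit 76) (nat_lit 0) (XT.lf (nat_lit 0) (nat_lit 1651759505) (nat_lit 228) (nat_lit 6291768164) (nat_lit 76) (nat_lit 9953183555) (nat_lit 21) (nat_lit 5) (nat_lit 24) (nat_lit 5) (nat_lit 22) (nat_lit 4) (nat_lit 342) (nat_lit 230) (nat_lit 208)) (XT.lf (nat_lit 0) (nat_lit 270932547) (nat_lit 76) (nat_lit 4764740638) (nat_lit 152) (nat_lit 13277632989) (nat_lit 20) (nat_lit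 5) (nat_lit 21) (nat_lit 5) (nat_lit 22) (nat_lit 4) (nat_lit 343) (nat_lit 230) (nat_lit 207)))) (XT.nd (nat_lit 78) (nat_lit 152) (nat_lit 0) (XT.lf (nat_lit 0) (nat_lit 7057964665) (nat_lit 76) (nat_lit 1467730588) (nat_lit 152) (nat_lit 10216605108) (nat_lit 20) (nat_lit 5) (nat_lit 21) (nat_lit 5) (nat_lit 22) (nat_lit 4) (nat_lit 344) (nat_lit 230) (nat_lit 206)) (XT.nd (nat_lit 78) (nat_lit 152) (nat_lit 0) (XT.lf (nat_lit 0) (nat_lit 12081328785) (nat_lit 152) (nat_lit 5254016617) (nat_lit 0) (nat_lit 1850029624) (nat_lit 20) (nat_lit 5) (nat_lit 22) (nat_lit 4) (nat_lit 20) (nat_lit 4) (nat_lit 345) (nat_lit 230) (nat_lit 205)) (XT.lf (nat_lit 0) (nat_lit 1282695445) (nat_lit 152) (nat_lit 14431852153) (nat_lit 152) (nat_lit 3928103716) (nat_lit 18) (nat_lit 4) (nat_lit 20) (nat_lit 5) (nat_lit 20) (nat_lit 4) (nat_lit 346) (nat_lit 230) (nat_lit 204)))))) (XT.nd (nat_lit 468) (nat_lit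 304) (nat_lit 0) (XT.nd (nat_lit 234) (nat_lit 0) (nat_lit 0) (XT.nd (nat_lit 78) (nat_lit 152) (nat_lit 0) (XT.lf (nat_lit 0) (nat_lit 8027147572) (nat_lit 152) (nat_lit 11427430974) (nat_lit 152) (nat_lit 659168677) (nat_lit 18) (nat_lit 4) (nat_lit 20) (nat_lit 5) (nat_lit 20) (nat_lit 4) (nat_lit 347) (nat_lit 230) (nat_lit 203)) (XT.nd (nat_lit 78) (nat_lit 76) (nat_lit 0) (XT.lf (nat_lit 0) (nat_lit 2600798962) (nat_lit 228) (nat_lit 5745449976) (nat_lit 76) (nat_lit 12253605808) (nat_lit 17) (nat_lit 5) (nat_lit 20) (nat_lit 5) (nat_lit 18) (nat_lit 4) (nat_lit 348) (nat_lit 230) (nat_lit 202)) (XT.lf (nat_lit 0) (nat_lit 701466915) (nat_lit 76) (nat_lit 5197975679) (nat_lit 152) (nat_lit 15202316099) (nat_lit 16) (nat_lit 5) (nat_lit 17) (nat_lit 5) (nat_lit 18) (nat_lit 4) (nat_lit 349) (nat_lit 230) (nat_lit 201)))) (XT.nd (nat_lit 78) (nat_lit 0) (nat_lit 0) (XT.lf (nat_lit 0) (nat_lit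 7368836729) (nat_lit 76) (nat_lit 1934269641) (nat_lit 152) (nat_lit 12315463368) (nat_lit 16) (nat_lit 5) (nat_lit 17) (nat_lit 5) (nat_lit 18) (nat_lit 4) (nat_lit 350) (nat_lit 230) (nat_lit 200)) (XT.nd (nat_lit 78) (nat_lit 0) (nat_lit 0) (XT.lf (nat_lit 0) (nat_lit 12771795104) (nat_lit 152) (nat_lit 8017648378) (nat_lit 0) (nat_lit 1362585062) (nat_lit 16) (nat_lit 5) (nat_lit 18) (nat_lit 4) (nat_lit 16) (nat_lit 4) (nat_lit 351) (nat_lit 230) (nat_lit 199)) (XT.lf (nat_lit 0) (nat_lit 16314369960) (nat_lit 152) (nat_lit 1704422645) (nat_lit 0) (nat_lit 4683633725) (nat_lit 16) (nat_lit 5) (nat_lit 18) (nat_lit 4) (nat_lit 16) (nat_lit 4) (nat_lit 352) (nat_lit 230) (nat_lit 198))))) (XT.nd (nat_lit 234) (nat_lit 76) (nat_lit 0) (XT.nd (nat_lit 78) (nat_lit 76) (nat_lit 0) (XT.lf (nat_lit 0) (nat_lit 4807872899) (nat_lit 152) (nat_lit 15153676326) (nat_lit 152) (nat_lit 3307866116) (nat_lit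 14) (nat_lit 4) (nat_lit 16) (nat_lit 5) (nat_lit 16) (nat_lit 4) (nat_lit 353) (nat_lit 230) (nat_lit 197)) (XT.nd (nat_lit 78) (nat_lit 76) (nat_lit 0) (XT.lf (nat_lit 0) (nat_lit 11467155386) (nat_lit 152) (nat_lit 12220904652) (nat_lit 152) (nat_lit 166284759) (nat_lit 14) (nat_lit 4) (nat_lit 16) (nat_lit 5) (nat_lit 16) (nat_lit 4) (nat_lit 354) (nat_lit 230) (nat_lit 196)) (XT.lf (nat_lit 0) (nat_lit 2963247020) (nat_lit 228) (nat_lit 6241956290) (nat_lit 76) (nat_lit 15252152247) (nat_lit 13) (nat_lit 5) (nat_lit 16) (nat_lit 5) (nat_lit 14) (nat_lit 4) (nat_lit 355) (nat_lit 230) (nat_lit 195)))) (XT.nd (nat_lit 78) (nat_lit 0) (nat_lit 0) (XT.lf (nat_lit 0) (nat_lit 6656987) (nat_lit 76) (nat_lit 6131681870) (nat_lit 152) (nat_lit 18941443764) (nat_lit 12) (nat_lit 5) (nat_lit 13) (nat_lit 5) (nat_lit 14) (nat_lit 4) (nat_lit 356) (nat_lit 230) (nat_lit 194)) (XT.nd (nat_lit 78) (nat_lit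 0) (nat_lit 0) (XT.lf (nat_lit 0) (nat_lit 6492001316) (nat_lit 76) (nat_lit 2935221664) (nat_lit 152) (nat_lit 16293128440) (nat_lit 12) (nat_lit 5) (nat_lit 13) (nat_lit 5) (nat_lit 14) (nat_lit 4) (nat_lit 357) (nat_lit 230) (nat_lit 193)) (XT.lf (nat_lit 0) (nat_lit 12774691418) (nat_lit 152) (nat_lit 13289055109) (nat_lit 0) (nat_lit 317617598) (nat_lit 12) (nat_lit 5) (nat_lit 14) (nat_lit 4) (nat_lit 12) (nat_lit 4) (nat_lit 358) (nat_lit 230) (nat_lit 192))))))))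
noncomputable def xc38 : XT := (XT.nd (nat_lit 1794) (nat_lit 228) (nat_lit 0) (XT.nd (nat_lit 858) (nat_lit 228) (nat_lit 0) (XT.nd (nat_lit 390) (nat_lit 76) (nat_lit 0) (XT.nd (nat_lit 156) (nat_lit 152) (nat_lit 0) (XT.nd (nat_lit 78) (nat_lit 0) (nat_lit 0) (XT.lf (nat_lit 0) (nat_lit 16209397758) (nat_lit 152) (nat_lit 7275779589) (nat_lit 0) (nat_lit 3577449115) (nat_lit 12) (nat_lit 5) (nat_lit 14) (nat_lit 4) (nat_lit 12) (nat_lit 4) (nat_lit 359) (nat_lit 230) (nat_lit 191)) (XT.lf (nat_lit 0) (nat_lit 19706128054) (nat_lit 152) (nat_lit 1155054078) (nat_lit 0) (nat_lit 6904398031) (nat_lit 12) (nat_lit 5) (nat_lit 14) (nat_lit 4) (nat_lit 12) (nat_lit 4) (nat_lit 360) (nat_lit 230) (nat_lit 190))) (XT.nd (nat_lit 78) (nat_lit 76) (nat_lit 0) (XT.lf (nat_lit 0) (nat_lit 5179541131) (nat_lit 76) (nat_lit 18138185489) (nat_lit 76) (nat_lit 5171619173) (nat_lit 11) (nat_lit 4) (nat_lit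 12) (nat_lit 5) (nat_lit 12) (nat_lit 4) (nat_lit 361) (nat_lit 230) (nat_lit 189)) (XT.nd (nat_lit 78) (nat_lit 76) (nat_lit 0) (XT.lf (nat_lit 0) (nat_lit 11657722453) (nat_lit 76) (nat_lit 15352277669) (nat_lit 76) (nat_lit 2225676117) (nat_lit 11) (nat_lit 4) (nat_lit 12) (nat_lit 5) (nat_lit 12) (nat_lit 4) (nat_lit 362) (nat_lit 230) (nat_lit 188)) (XT.lf (nat_lit 0) (nat_lit 754275832) (nat_lit 152) (nat_lit 11750795626) (nat_lit 76) (nat_lit 17500270055) (nat_lit 10) (nat_lit 5) (nat_lit 12) (nat_lit 5) (nat_lit 11) (nat_lit 4) (nat_lit 363) (nat_lit 230) (nat_lit 187))))) (XT.nd (nat_lit 234) (nat_lit 0) (nat_lit 0) (XT.nd (nat_lit 78) (nat_lit 76) (nat_lit 0) (XT.lf (nat_lit 0) (nat_lit 3741426613) (nat_lit 152) (nat_lit 5837728099) (nat_lit 76) (nat_lit 21219424737) (nat_lit 10) (nat_lit 5) (nat_lit 12) (nat_lit 5) (nat_lit 11) (nat_lit 4) (nat_lit 364) (nat_lit 230) (nat_lit 186))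 (XT.nd (nat_lit 78) (nat_lit 0) (nat_lit 0) (XT.lf (nat_lit 0) (nat_lit 191547904) (nat_lit 76) (nat_lit 6592110686) (nat_lit 152) (nat_lit 24833011175) (nat_lit 9) (nat_lit 5) (nat_lit 10) (nat_lit 5) (nat_lit 11) (nat_lit 4) (nat_lit 365) (nat_lit 230) (nat_lit 185)) (XT.lf (nat_lit 0) (nat_lit 6457085034) (nat_lit 76) (nat_lit 3483089006) (nat_lit 152) (nat_lit 22518456938) (nat_lit 9) (nat_lit 5) (nat_lit 10) (nat_lit 5) (nat_lit 11) (nat_lit 4) (nat_lit 366) (nat_lit 230) (nat_lit 184)))) (XT.nd (nat_lit 78) (nat_lit 0) (nat_lit 0) (XT.lf (nat_lit 0) (nat_lit 12848175796) (nat_lit 76) (nat_lit 308322659) (nat_lit 152) (nat_lit 20170417306) (nat_lit 9) (nat_lit 5) (nat_lit 10) (nat_lit 5) (nat_lit 11) (nat_lit 4) (nat_lit 367) (nat_lit 230) (nat_lit 183)) (XT.nd (nat_lit 78) (nat_lit 0) (nat_lit 0) (XT.lf (nat_lit 0) (nat_lit 16463654870) (nat_lit 152) (nat_lit 14880090824) (nat_lit 0) (nat_lit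 2877690735) (nat_lit 9) (nat_lit 5) (nat_lit 11) (nat_lit 4) (nat_lit 9) (nat_lit 4) (nat_lit 368) (nat_lit 230) (nat_lit 182)) (XT.lf (nat_lit 0) (nat_lit 19839945398) (nat_lit 152) (nat_lit 9176118864) (nat_lit 0) (nat_lit 6127647970) (nat_lit 9) (nat_lit 5) (nat_lit 11) (nat_lit 4) (nat_lit 9) (nat_lit 4) (nat_lit 369) (nat_lit 230) (nat_lit 181)))))) (XT.nd (nat_lit 468) (nat_lit 76) (nat_lit 0) (XT.nd (nat_lit 234) (nat_lit 76) (nat_lit 0) (XT.nd (nat_lit 78) (nat_lit 76) (nat_lit 0) (XT.lf (nat_lit 0) (nat_lit 23285356410) (nat_lit 152) (nat_lit 3358876245) (nat_lit 0) (nat_lit 9450405300) (nat_lit 9) (nat_lit 5) (nat_lit 11) (nat_lit 4) (nat_lit 9) (nat_lit 4) (nat_lit 370) (nat_lit 230) (nat_lit 180)) (XT.nd (nat_lit 78) (nat_lit 0) (nat_lit 0) (XT.lf (nat_lit 0) (nat_lit 2628001840) (nat_lit 76) (nat_lit 24200158579) (nat_lit 76) (nat_lit 10246126225) (nat_lit 8) (nat_lit 4) (nat_lit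 9) (nat_lit 5) (nat_lit 9) (nat_lit 4) (nat_lit 371) (nat_lit 230) (nat_lit 179)) (XT.lf (nat_lit 0) (nat_lit 8807726970) (nat_lit 76) (nat_lit 21672583415) (nat_lit 76) (nat_lit 7602938201) (nat_lit 8) (nat_lit 4) (nat_lit 9) (nat_lit 5) (nat_lit 9) (nat_lit 4) (nat_lit 372) (nat_lit 230) (nat_lit 178)))) (XT.nd (nat_lit 78) (nat_lit 76) (nat_lit 0) (XT.lf (nat_lit 0) (nat_lit 15118850680) (nat_lit 76) (nat_lit 19093216665) (nat_lit 76) (nat_lit 4911325957) (nat_lit 8) (nat_lit 4) (nat_lit 9) (nat_lit 5) (nat_lit 9) (nat_lit 4) (nat_lit 373) (nat_lit 230) (nat_lit 177)) (XT.nd (nat_lit 78) (nat_lit 76) (nat_lit 0) (XT.lf (nat_lit 0) (nat_lit 21566887544) (nat_lit 76) (nat_lit 16459804515) (nat_lit 76) (nat_lit 2168937599) (nat_lit 8) (nat_lit 4) (nat_lit 9) (nat_lit 5) (nat_lit 9) (nat_lit 4) (nat_lit 374) (nat_lit 230) (nat_lit 176)) (XT.lf (nat_lit 0) (nat_lit 614395461) (nat_lit 152) (nat_lit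 13149446272) (nat_lit 76) (nat_lit 27536872117) (nat_lit 7) (nat_lit 5) (nat_lit 9) (nat_lit 5) (nat_lit 8) (nat_lit 4) (nat_lit 375) (nat_lit 230) (nat_lit 175))))) (XT.nd (nat_lit 234) (nat_lit 0) (nat_lit 0) (XT.nd (nat_lit 78) (nat_lit 76) (nat_lit 0) (XT.lf (nat_lit 0) (nat_lit 3409934586) (nat_lit 152) (nat_lit 7577222376) (nat_lit 76) (nat_lit 31451993878) (nat_lit 7) (nat_lit 5) (nat_lit 9) (nat_lit 5) (nat_lit 8) (nat_lit 4) (nat_lit 376) (nat_lit 230) (nat_lit 174)) (XT.nd (nat_lit 78) (nat_lit 76) (nat_lit 0) (XT.lf (nat_lit 0) (nat_lit 6262446263) (nat_lit 152) (nat_lit 1886352339) (nat_lit 76) (nat_lit 35463762249) (nat_lit 7) (nat_lit 5) (nat_lit 9) (nat_lit 5) (nat_lit 8) (nat_lit 4) (nat_lit 377) (nat_lit 230) (nat_lit 173)) (XT.lf (nat_lit 0) (nat_lit 4006314061) (nat_lit 76) (nat_lit 5206620059) (nat_lit 152) (nat_lit 35607879741) (nat_lit 6) (nat_lit 5) (nat_lit 7) (nat_lit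 5) (nat_lit 8) (nat_lit 4) (nat_lit 378) (nat_lit 230) (nat_lit 172)))) (XT.nd (nat_lit 78) (nat_lit 0) (nat_lit 0) (XT.lf (nat_lit 0) (nat_lit 10067783310) (nat_lit 76) (nat_lit 2177403561) (nat_lit 152) (nat_lit 33820342433) (nat_lit 6) (nat_lit 5) (nat_lit 7) (nat_lit 5) (nat_lit 8) (nat_lit 4) (nat_lit 379) (nat_lit 230) (nat_lit 171)) (XT.nd (nat_lit 78) (nat_lit 0) (nat_lit 0) (XT.lf (nat_lit 0) (nat_lit 15352227553) (nat_lit 152) (nat_lit 31091407027) (nat_lit 0) (nat_lit 904449012) (nat_lit 6) (nat_lit 5) (nat_lit 8) (nat_lit 4) (nat_lit 6) (nat_lit 4) (nat_lit 380) (nat_lit 230) (nat_lit 170)) (XT.lf (nat_lit 0) (nat_lit 18549531733) (nat_lit 152) (nat_lit 26103956482) (nat_lit 0) (nat_lit 4015726366) (nat_lit 6) (nat_lit 5) (nat_lit 8) (nat_lit 4) (nat_lit 6) (nat_lit 4) (nat_lit 381) (nat_lit 230) (nat_lit 169))))))) (XT.nd (nat_lit 936) (nat_lit 152) (nat_lit 0) (XT.nd (nat_lit 468)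 (nat_lit 0) (nat_lit 0) (XT.nd (nat_lit 234) (nat_lit 76) (nat_lit 0) (XT.nd (nat_lit 78) (nat_lit 0) (nat_lit 0) (XT.lf (nat_lit 0) (nat_lit 21818962636) (nat_lit 152) (nat_lit 21010105860) (nat_lit 0) (nat_lit 7201636081) (nat_lit 6) (nat_lit 5) (nat_lit 8) (nat_lit 4) (nat_lit 6) (nat_lit 4) (nat_lit 382) (nat_lit 230) (nat_lit 168)) (XT.nd (nat_lit 78) (nat_lit 0) (nat_lit 0) (XT.lf (nat_lit 0) (nat_lit 25163377047) (nat_lit 152) (nat_lit 15805404222) (nat_lit 0) (nat_lit 10464961959) (nat_lit 6) (nat_lit 5) (nat_lit 8) (nat_lit 4) (nat_lit 6) (nat_lit 4) (nat_lit 383) (nat_lit 230) (nat_lit 167)) (XT.lf (nat_lit 0) (nat_lit 28585697271) (nat_lit 152) (nat_lit 10485303770) (nat_lit 0) (nat_lit 13808555451) (nat_lit 6) (nat_lit 5) (nat_lit 8) (nat_lit 4) (nat_lit 6) (nat_lit 4) (nat_lit 384) (nat_lit 230) (nat_lit 166)))) (XT.nd (nat_lit 78) (nat_lit 76) (nat_lit 0) (XT.lf (nat_lit 0) (nat_lit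 32088913683) (nat_lit 152) (nat_lit 5045155874) (nat_lit 0) (nat_lit 17235338143) (nat_lit 6) (nat_lit 5) (nat_lit 8) (nat_lit 4) (nat_lit 6) (nat_lit 4) (nat_lit 385) (nat_lit 230) (nat_lit 165)) (XT.nd (nat_lit 78) (nat_lit 0) (nat_lit 0) (XT.lf (nat_lit 0) (nat_lit 530137893) (nat_lit 76) (nat_lit 35151045463) (nat_lit 76) (nat_lit 20223262428) (nat_lit 5) (nat_lit 4) (nat_lit 6) (nat_lit 5) (nat_lit 6) (nat_lit 4) (nat_lit 386) (nat_lit 230) (nat_lit 164)) (XT.lf (nat_lit 0) (nat_lit 6338084263) (nat_lit 76) (nat_lit 33073193965) (nat_lit 76) (nat_lit 18073364819) (nat_lit 5) (nat_lit 4) (nat_lit 6) (nat_lit 5) (nat_lit 6) (nat_lit 4) (nat_lit 387) (nat_lit 230) (nat_lit 163))))) (XT.nd (nat_lit 234) (nat_lit 0) (nat_lit 0) (XT.nd (nat_lit 78) (nat_lit 0) (nat_lit 0) (XT.lf (nat_lit 0) (nat_lit 12283349645) (nat_lit 76) (nat_lit 30949645648) (nat_lit 76) (nat_lit 15879868821) (nat_lit 5) (nat_lit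 4) (nat_lit 6) (nat_lit 5) (nat_lit 6) (nat_lit 4) (nat_lit 388) (nat_lit 230) (nat_lit 162)) (XT.nd (nat_lit 78) (nat_lit 0) (nat_lit 0) (XT.lf (nat_lit 0) (nat_lit 18371128932) (nat_lit 76) (nat_lit 28778544985) (nat_lit 76) (nat_lit 13640857788) (nat_lit 5) (nat_lit 4) (nat_lit 6) (nat_lit 5) (nat_lit 6) (nat_lit 4) (nat_lit 389) (nat_lit 230) (nat_lit 161)) (XT.lf (nat_lit 0) (nat_lit 24606741541) (nat_lit 76) (nat_lit 26557994895) (nat_lit 76) (nat_lit 11354375300) (nat_lit 5) (nat_lit 4) (nat_lit 6) (nat_lit 5) (nat_lit 6) (nat_lit 4) (nat_lit 390) (nat_lit 230) (nat_lit 160)))) (XT.nd (nat_lit 78) (nat_lit 0) (nat_lit 0) (XT.lf (nat_lit 0) (nat_lit 30995636067) (nat_lit 76) (nat_lit 24286055095) (nat_lit 76) (nat_lit 9018423463) (nat_lit 5) (nat_lit 4) (nat_lit 6) (nat_lit 5) (nat_lit 6) (nat_lit 4) (nat_lit 391) (nat_lit 230) (nat_lit 159)) (XT.nd (nat_lit 78) (nat_lit 0) (nat_lit 0) (XT.lf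 (nat_lit 0) (nat_lit 37543395039) (nat_lit 76) (nat_lit 21960740392) (nat_lit 76) (nat_lit 6630961151) (nat_lit 5) (nat_lit 4) (nat_lit 6) (nat_lit 5) (nat_lit 6) (nat_lit 4) (nat_lit 392) (nat_lit 230) (nat_lit 158)) (XT.lf (nat_lit 0) (nat_lit 44255739799) (nat_lit 76) (nat_lit 19580018959) (nat_lit 76) (nat_lit 4189902234) (nat_lit 5) (nat_lit 4) (nat_lit 6) (nat_lit 5) (nat_lit 6) (nat_lit 4) (nat_lit 393) (nat_lit 230) (nat_lit 157)))))) (XT.nd (nat_lit 468) (nat_lit 0) (nat_lit 0) (XT.nd (nat_lit 234) (nat_lit 76) (nat_lit 0) (XT.nd (nat_lit 78) (nat_lit 76) (nat_lit 0) (XT.lf (nat_lit 0) (nat_lit 51138535503) (nat_lit 76) (nat_lit 17141810553) (nat_lit 76) (nat_lit 1693113747) (nat_lit 5) (nat_lit 4) (nat_lit 6) (nat_lit 5) (nat_lit 6) (nat_lit 4) (nat_lit 394) (nat_lit 230) (nat_lit 156)) (XT.nd (nat_lit 78) (nat_lit 0) (nat_lit 0) (XT.lf (nat_lit 0) (nat_lit 844773324) (nat_lit 152) (nat_lit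 13790680824) (nat_lit 76) (nat_lit 57344492367) (nat_lit 4) (nat_lit 5) (nat_lit 6) (nat_lit 5) (nat_lit 5) (nat_lit 4) (nat_lit 395) (nat_lit 230) (nat_lit 155)) (XT.lf (nat_lit 0) (nat_lit 3408591523) (nat_lit 152) (nat_lit 8641347225) (nat_lit 76) (nat_lit 61996678696) (nat_lit 4) (nat_lit 5) (nat_lit 6) (nat_lit 5) (nat_lit 5) (nat_lit 4) (nat_lit 396) (nat_lit 230) (nat_lit 154)))) (XT.nd (nat_lit 78) (nat_lit 76) (nat_lit 0) (XT.lf (nat_lit 0) (nat_lit 6033619827) (nat_lit 152) (nat_lit 3366148840) (nat_lit 76) (nat_lit 66775998011) (nat_lit 4) (nat_lit 5) (nat_lit 6) (nat_lit 5) (nat_lit 5) (nat_lit 4) (nat_lit 397) (nat_lit 230) (nat_lit 153)) (XT.nd (nat_lit 78) (nat_lit 0) (nat_lit 0) (XT.lf (nat_lit 0) (nat_lit 2080114246) (nat_lit 76) (nat_lit 6662033034) (nat_lit 152) (nat_lit 69626507499) (nat_lit 3) (nat_lit 5) (nat_lit 4) (nat_lit 5) (nat_lit 5) (nat_lit 4) (nat_lit 398) (nat_lit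 230) (nat_lit 152)) (XT.lf (nat_lit 0) (nat_lit 7731258578) (nat_lit 76) (nat_lit 3819596104) (nat_lit 152) (nat_lit 69075913758) (nat_lit 3) (nat_lit 5) (nat_lit 4) (nat_lit 5) (nat_lit 5) (nat_lit 4) (nat_lit 399) (nat_lit 230) (nat_lit 151))))) (XT.nd (nat_lit 234) (nat_lit 0) (nat_lit 0) (XT.nd (nat_lit 78) (nat_lit 0) (nat_lit 0) (XT.lf (nat_lit 0) (nat_lit 13525229085) (nat_lit 76) (nat_lit 903965697) (nat_lit 152) (nat_lit 68523876030) (nat_lit 3) (nat_lit 5) (nat_lit 4) (nat_lit 5) (nat_lit 5) (nat_lit 4) (nat_lit 400) (nat_lit 230) (nat_lit 150)) (XT.nd (nat_lit 78) (nat_lit 0) (nat_lit 0) (XT.lf (nat_lit 0) (nat_lit 17399748057) (nat_lit 152) (nat_lit 65902571549) (nat_lit 0) (nat_lit 2046673018) (nat_lit 3) (nat_lit 5) (nat_lit 5) (nat_lit 4) (nat_lit 3) (nat_lit 4) (nat_lit 401) (nat_lit 230) (nat_lit 149)) (XT.lf (nat_lit 0) (nat_lit 20454469848) (nat_lit 152) (nat_lit 62305978706)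 (nat_lit 0) (nat_lit 5056498054) (nat_lit 3) (nat_lit 5) (nat_lit 5) (nat_lit 4) (nat_lit 3) (nat_lit 4) (nat_lit 402) (nat_lit 230) (nat_lit 148)))) (XT.nd (nat_lit 34008) (nat_lit 0) (nat_lit 3572) (XT.lf (nat_lit 0) (nat_lit 23587339859) (nat_lit 152) (nat_lit 58626231074) (nat_lit 0) (nat_lit 8145778982) (nat_lit 3) (nat_lit 5) (nat_lit 5) (nat_lit 4) (nat_lit 3) (nat_lit 4) (nat_lit 403) (nat_lit 230) (nat_lit 147)) (XT.nd (nat_lit 78) (nat_lit 304) (nat_lit 0) (XT.lf (nat_lit 0) (nat_lit 4072313597) (nat_lit 228) (nat_lit 721141061) (nat_lit 228) (nat_lit 721141061) (nat_lit 54) (nat_lit 4) (nat_lit 57) (nat_lit 5) (nat_lit 57) (nat_lit 4) (nat_lit 318) (nat_lit 231) (nat_lit 231)) (XT.lf (nat_lit 0) (nat_lit 2299143639) (nat_lit 304) (nat_lit 7324667018) (nat_lit 0) (nat_lit 1597564208) (nat_lit 50) (nat_lit 5) (nat_lit 54) (nat_lit 4) (nat_lit 50) (nat_lit 4) (nat_lit 319) (nat_lit 231)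 (nat_lit 230))))))))
noncomputable def xc39 : XT := (XT.nd (nat_lit 1872) (nat_lit 912) (nat_lit 0) (XT.nd (nat_lit 936) (nat_lit 912) (nat_lit 0) (XT.nd (nat_lit 468) (nat_lit 532) (nat_lit 0) (XT.nd (nat_lit 234) (nat_lit 304) (nat_lit 0) (XT.nd (nat_lit 78) (nat_lit 456) (nat_lit 0) (XT.lf (nat_lit 0) (nat_lit 6080144624) (nat_lit 304) (nat_lit 642733212) (nat_lit 0) (nat_lit 4697420113) (nat_lit 50) (nat_lit 5) (nat_lit 54) (nat_lit 4) (nat_lit 50) (nat_lit 4) (nat_lit 320) (nat_lit 231) (nat_lit 229)) (XT.nd (nat_lit 78) (nat_lit 228) (nat_lit 0) (XT.lf (nat_lit 0) (nat_lit 6229189549) (nat_lit 228) (nat_lit 3720433826) (nat_lit 228) (nat_lit 1676403413) (nat_lit 47) (nat_lit 4) (nat_lit 50) (nat_lit 5) (nat_lit 50) (nat_lit 4) (nat_lit 321) (nat_lit 231) (nat_lit 228)) (XT.lf (nat_lit 0) (nat_lit 1356462367) (nat_lit 152) (nat_lit 634935339) (nat_lit 228) (nat_lit 9847957429) (nat_lit 44)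 (nat_lit 5) (nat_lit 46) (nat_lit 5) (nat_lit 47) (nat_lit 4) (nat_lit 322) (nat_lit 231) (nat_lit 227)))) (XT.nd (nat_lit 78) (nat_lit 304) (nat_lit 0) (XT.lf (nat_lit 0) (nat_lit 5731232774) (nat_lit 228) (nat_lit 3809359292) (nat_lit 0) (nat_lit 2518204408) (nat_lit 44) (nat_lit 5) (nat_lit 47) (nat_lit 4) (nat_lit 44) (nat_lit 4) (nat_lit 323) (nat_lit 231) (nat_lit 226)) (XT.nd (nat_lit 78) (nat_lit 76) (nat_lit 0) (XT.lf (nat_lit 0) (nat_lit 2986944817) (nat_lit 228) (nat_lit 6549968172) (nat_lit 228) (nat_lit 2749378077) (nat_lit 41) (nat_lit 4) (nat_lit 44) (nat_lit 5) (nat_lit 44) (nat_lit 4) (nat_lit 324) (nat_lit 231) (nat_lit 225)) (XT.lf (nat_lit 0) (nat_lit 875652088) (nat_lit 304) (nat_lit 2593464635) (nat_lit 76) (nat_lit 9052565759) (nat_lit 40) (nat_lit 5) (nat_lit 44) (nat_lit 5) (nat_lit 41) (nat_lit 4) (nat_lit 325) (nat_lit 231) (nat_lit 224))))) (XT.nd (nat_lit 234) (nat_lit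 228) (nat_lit 0) (XT.nd (nat_lit 78) (nat_lit 152) (nat_lit 0) (XT.lf (nat_lit 0) (nat_lit 4243097558) (nat_lit 152) (nat_lit 273143434) (nat_lit 228) (nat_lit 8248288742) (nat_lit 38) (nat_lit 5) (nat_lit 40) (nat_lit 5) (nat_lit 41) (nat_lit 4) (nat_lit 326) (nat_lit 231) (nat_lit 223)) (XT.nd (nat_lit 78) (nat_lit 152) (nat_lit 0) (XT.lf (nat_lit 0) (nat_lit 8243432801) (nat_lit 228) (nat_lit 1832015673) (nat_lit 0) (nat_lit 2939963022) (nat_lit 38) (nat_lit 5) (nat_lit 41) (nat_lit 4) (nat_lit 38) (nat_lit 4) (nat_lit 327) (nat_lit 231) (nat_lit 222)) (XT.lf (nat_lit 0) (nat_lit 5030451786) (nat_lit 152) (nat_lit 7027242296) (nat_lit 152) (nat_lit 1216936609) (nat_lit 36) (nat_lit 4) (nat_lit 38) (nat_lit 5) (nat_lit 38) (nat_lit 4) (nat_lit 328) (nat_lit 231) (nat_lit 221)))) (XT.nd (nat_lit 78) (nat_lit 152) (nat_lit 0) (XT.lf (nat_lit 0) (nat_lit 2340157962) (nat_lit 228) (nat_lit 1551858720)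 (nat_lit 76) (nat_lit 9650676201) (nat_lit 35) (nat_lit 5) (nat_lit 38) (nat_lit 5) (nat_lit 36) (nat_lit 4) (nat_lit 329) (nat_lit 231) (nat_lit 220)) (XT.nd (nat_lit 78) (nat_lit 0) (nat_lit 0) (XT.lf (nat_lit 0) (nat_lit 5313002294) (nat_lit 152) (nat_lit 644201219) (nat_lit 228) (nat_lit 7861963813) (nat_lit 33) (nat_lit 5) (nat_lit 35) (nat_lit 5) (nat_lit 36) (nat_lit 4) (nat_lit 330) (nat_lit 231) (nat_lit 219)) (XT.lf (nat_lit 0) (nat_lit 9651727185) (nat_lit 228) (nat_lit 1834432303) (nat_lit 0) (nat_lit 2618768454) (nat_lit 33) (nat_lit 5) (nat_lit 36) (nat_lit 4) (nat_lit 33) (nat_lit 4) (nat_lit 331) (nat_lit 231) (nat_lit 218)))))) (XT.nd (nat_lit 468) (nat_lit 304) (nat_lit 0) (XT.nd (nat_lit 234) (nat_lit 228) (nat_lit 0) (XT.nd (nat_lit 78) (nat_lit 228) (nat_lit 0) (XT.lf (nat_lit 0) (nat_lit 5011915621) (nat_lit 152) (nat_lit 8429024577) (nat_lit 152) (nat_lit 958864739) (nat_lit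 31) (nat_lit 4) (nat_lit 33) (nat_lit 5) (nat_lit 33) (nat_lit 4) (nat_lit 332) (nat_lit 231) (nat_lit 217)) (XT.nd (nat_lit 78) (nat_lit 152) (nat_lit 0) (XT.lf (nat_lit 0) (nat_lit 2536983998) (nat_lit 228) (nat_lit 2744549415) (nat_lit 76) (nat_lit 9422843059) (nat_lit 30) (nat_lit 5) (nat_lit 33) (nat_lit 5) (nat_lit 31) (nat_lit 4) (nat_lit 333) (nat_lit 231) (nat_lit 216)) (XT.lf (nat_lit 0) (nat_lit 4053846440) (nat_lit 152) (nat_lit 2035107918) (nat_lit 228) (nat_lit 8929784582) (nat_lit 28) (nat_lit 5) (nat_lit 30) (nat_lit 5) (nat_lit 31) (nat_lit 4) (nat_lit 334) (nat_lit 231) (nat_lit 215)))) (XT.nd (nat_lit 78) (nat_lit 228) (nat_lit 0) (XT.lf (nat_lit 0) (nat_lit 9720078734) (nat_lit 228) (nat_lit 4356484344) (nat_lit 0) (nat_lit 1266843924) (nat_lit 28) (nat_lit 5) (nat_lit 31) (nat_lit 4) (nat_lit 28) (nat_lit 4) (nat_lit 335) (nat_lit 231) (nat_lit 214)) (XT.nd (nat_lit 78) (nat_lit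 76) (nat_lit 0) (XT.lf (nat_lit 0) (nat_lit 2365126455) (nat_lit 152) (nat_lit 11071900655) (nat_lit 152) (nat_lit 2241532329) (nat_lit 26) (nat_lit 4) (nat_lit 28) (nat_lit 5) (nat_lit 28) (nat_lit 4) (nat_lit 336) (nat_lit 231) (nat_lit 213)) (XT.lf (nat_lit 0) (nat_lit 1196091964) (nat_lit 228) (nat_lit 6768450681) (nat_lit 76) (nat_lit 8059555681) (nat_lit 25) (nat_lit 5) (nat_lit 28) (nat_lit 5) (nat_lit 26) (nat_lit 4) (nat_lit 337) (nat_lit 231) (nat_lit 212))))) (XT.nd (nat_lit 234) (nat_lit 228) (nat_lit 0) (XT.nd (nat_lit 78) (nat_lit 76) (nat_lit 0) (XT.lf (nat_lit 0) (nat_lit 4627886915) (nat_lit 228) (nat_lit 157391439) (nat_lit 76) (nat_lit 11596023097) (nat_lit 25) (nat_lit 5) (nat_lit 28) (nat_lit 5) (nat_lit 26) (nat_lit 4) (nat_lit 338) (nat_lit 231) (nat_lit 211)) (XT.nd (nat_lit 78) (nat_lit 0) (nat_lit 0) (XT.lf (nat_lit 0) (nat_lit 6677367872) (nat_lit 76) (nat_lit 1487410621)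 (nat_lit 152) (nat_lit 8584423241) (nat_lit 24) (nat_lit 5) (nat_lit 25) (nat_lit 5) (nat_lit 26) (nat_lit 4) (nat_lit 339) (nat_lit 231) (nat_lit 210)) (XT.lf (nat_lit 0) (nat_lit 11766090187) (nat_lit 152) (nat_lit 3531438435) (nat_lit 0) (nat_lit 1831905029) (nat_lit 24) (nat_lit 5) (nat_lit 26) (nat_lit 4) (nat_lit 24) (nat_lit 4) (nat_lit 340) (nat_lit 231) (nat_lit 209)))) (XT.nd (nat_lit 78) (nat_lit 76) (nat_lit 0) (XT.lf (nat_lit 0) (nat_lit 3149597710) (nat_lit 152) (nat_lit 12310995766) (nat_lit 152) (nat_lit 2060967225) (nat_lit 22) (nat_lit 4) (nat_lit 24) (nat_lit 5) (nat_lit 24) (nat_lit 4) (nat_lit 341) (nat_lit 231) (nat_lit 208)) (XT.nd (nat_lit 78) (nat_lit 0) (nat_lit 0) (XT.lf (nat_lit 0) (nat_lit 1290629723) (nat_lit 228) (nat_lit 7936694261) (nat_lit 76) (nat_lit 8698492094) (nat_lit 21) (nat_lit 5) (nat_lit 24) (nat_lit 5) (nat_lit 22) (nat_lit 4) (nat_lit 342) (nat_lit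 231) (nat_lit 207)) (XT.lf (nat_lit 0) (nat_lit 4643383553) (nat_lit 228) (nat_lit 1428316667) (nat_lit 76) (nat_lit 12271664874) (nat_lit 21) (nat_lit 5) (nat_lit 24) (nat_lit 5) (nat_lit 22) (nat_lit 4) (nat_lit 343) (nat_lit 231) (nat_lit 206))))))) (XT.nd (nat_lit 936) (nat_lit 304) (nat_lit 0) (XT.nd (nat_lit 468) (nat_lit 304) (nat_lit 0) (XT.nd (nat_lit 234) (nat_lit 228) (nat_lit 0) (XT.nd (nat_lit 78) (nat_lit 0) (nat_lit 0) (XT.lf (nat_lit 0) (nat_lit 5281733648) (nat_lit 76) (nat_lit 2809478353) (nat_lit 152) (nat_lit 10682431795) (nat_lit 20) (nat_lit 5) (nat_lit 21) (nat_lit 5) (nat_lit 22) (nat_lit 4) (nat_lit 344) (nat_lit 231) (nat_lit 205)) (XT.nd (nat_lit 78) (nat_lit 0) (nat_lit 0) (XT.lf (nat_lit 0) (nat_lit 11606388345) (nat_lit 152) (nat_lit 7096483817) (nat_lit 0) (nat_lit 515078179) (nat_lit 20) (nat_lit 5) (nat_lit 22) (nat_lit 4) (nat_lit 20) (nat_lit 4) (nat_lit 345)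 (nat_lit 231) (nat_lit 204)) (XT.lf (nat_lit 0) (nat_lit 15200520319) (nat_lit 152) (nat_lit 631200257) (nat_lit 0) (nat_lit 3844696293) (nat_lit 20) (nat_lit 5) (nat_lit 22) (nat_lit 4) (nat_lit 20) (nat_lit 4) (nat_lit 346) (nat_lit 231) (nat_lit 203)))) (XT.nd (nat_lit 78) (nat_lit 76) (nat_lit 0) (XT.lf (nat_lit 0) (nat_lit 6054746139) (nat_lit 152) (nat_lit 12853197789) (nat_lit 152) (nat_lit 1240564190) (nat_lit 18) (nat_lit 4) (nat_lit 20) (nat_lit 5) (nat_lit 20) (nat_lit 4) (nat_lit 347) (nat_lit 231) (nat_lit 202)) (XT.nd (nat_lit 78) (nat_lit 0) (nat_lit 0) (XT.lf (nat_lit 0) (nat_lit 2004828703) (nat_lit 228) (nat_lit 7792161012) (nat_lit 76) (nat_lit 10838587321) (nat_lit 17) (nat_lit 5) (nat_lit 20) (nat_lit 5) (nat_lit 18) (nat_lit 4) (nat_lit 348) (nat_lit 231) (nat_lit 201)) (XT.lf (nat_lit 0) (nat_lit 5271564488) (nat_lit 228) (nat_lit 1402755022) (nat_lit 76) (nat_lit 14464134377)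 (nat_lit 17) (nat_lit 5) (nat_lit 20) (nat_lit 5) (nat_lit 18) (nat_lit 4) (nat_lit 349) (nat_lit 231) (nat_lit 200))))) (XT.nd (nat_lit 234) (nat_lit 228) (nat_lit 0) (XT.nd (nat_lit 78) (nat_lit 0) (nat_lit 0) (XT.lf (nat_lit 0) (nat_lit 5193304096) (nat_lit 76) (nat_lit 3443322587) (nat_lit 152) (nat_lit 13019811509) (nat_lit 16) (nat_lit 5) (nat_lit 17) (nat_lit 5) (nat_lit 18) (nat_lit 4) (nat_lit 350) (nat_lit 231) (nat_lit 199)) (XT.nd (nat_lit 78) (nat_lit 0) (nat_lit 0) (XT.lf (nat_lit 0) (nat_lit 11930477728) (nat_lit 76) (nat_lit 137353689) (nat_lit 152) (nat_lit 10123204868) (nat_lit 16) (nat_lit 5) (nat_lit 17) (nat_lit 5) (nat_lit 18) (nat_lit 4) (nat_lit 351) (nat_lit 231) (nat_lit 198)) (XT.lf (nat_lit 0) (nat_lit 15585495280) (nat_lit 152) (nat_lit 3987463669) (nat_lit 0) (nat_lit 3169236791) (nat_lit 16) (nat_lit 5) (nat_lit 18) (nat_lit 4) (nat_lit 16) (nat_lit 4) (nat_lit 352)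 (nat_lit 231) (nat_lit 197)))) (XT.nd (nat_lit 78) (nat_lit 76) (nat_lit 0) (XT.lf (nat_lit 0) (nat_lit 2438350095) (nat_lit 152) (nat_lit 16748643587) (nat_lit 152) (nat_lit 4123575414) (nat_lit 14) (nat_lit 4) (nat_lit 16) (nat_lit 5) (nat_lit 16) (nat_lit 4) (nat_lit 353) (nat_lit 231) (nat_lit 196)) (XT.nd (nat_lit 78) (nat_lit 76) (nat_lit 0) (XT.lf (nat_lit 0) (nat_lit 9057783274) (nat_lit 152) (nat_lit 13833101700) (nat_lit 152) (nat_lit 1005305679) (nat_lit 14) (nat_lit 4) (nat_lit 16) (nat_lit 5) (nat_lit 16) (nat_lit 4) (nat_lit 354) (nat_lit 231) (nat_lit 195)) (XT.lf (nat_lit 0) (nat_lit 2118407421) (nat_lit 228) (nat_lit 8724252108) (nat_lit 76) (nat_lit 13657462309) (nat_lit 13) (nat_lit 5) (nat_lit 16) (nat_lit 5) (nat_lit 14) (nat_lit 4) (nat_lit 355) (nat_lit 231) (nat_lit 194)))))) (XT.nd (nat_lit 468) (nat_lit 152) (nat_lit 0) (XT.nd (nat_lit 234) (nat_lit 76) (nat_lit 0) (XT.nd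 (nat_lit 78) (nat_lit 76) (nat_lit 0) (XT.lf (nat_lit 0) (nat_lit 5271890610) (nat_lit 228) (nat_lit 2513771676) (nat_lit 76) (nat_lit 17337547245) (nat_lit 13) (nat_lit 5) (nat_lit 16) (nat_lit 5) (nat_lit 14) (nat_lit 4) (nat_lit 356) (nat_lit 231) (nat_lit 193)) (XT.nd (nat_lit 78) (nat_lit 0) (nat_lit 0) (XT.lf (nat_lit 0) (nat_lit 3883913301) (nat_lit 76) (nat_lit 4630937741) (nat_lit 152) (nat_lit 17250317007) (nat_lit 12) (nat_lit 5) (nat_lit 13) (nat_lit 5) (nat_lit 14) (nat_lit 4) (nat_lit 357) (nat_lit 231) (nat_lit 192)) (XT.lf (nat_lit 0) (nat_lit 10450893980) (nat_lit 76) (nat_lit 1387652503) (nat_lit 152) (nat_lit 14588359118) (nat_lit 12) (nat_lit 5) (nat_lit 13) (nat_lit 5) (nat_lit 14) (nat_lit 4) (nat_lit 358) (nat_lit 231) (nat_lit 191)))) (XT.nd (nat_lit 78) (nat_lit 76) (nat_lit 0) (XT.lf (nat_lit 0) (nat_lit 15239708325) (nat_lit 152) (nat_lit 9985332247) (nat_lit 0) (nat_lit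 1884145019) (nat_lit 12) (nat_lit 5) (nat_lit 14) (nat_lit 4) (nat_lit 12) (nat_lit 4) (nat_lit 359) (nat_lit 231) (nat_lit 190)) (XT.nd (nat_lit 78) (nat_lit 76) (nat_lit 0) (XT.lf (nat_lit 0) (nat_lit 18716821598) (nat_lit 152) (nat_lit 3899495195) (nat_lit 0) (nat_lit 5196422000) (nat_lit 12) (nat_lit 5) (nat_lit 14) (nat_lit 4) (nat_lit 12) (nat_lit 4) (nat_lit 360) (nat_lit 231) (nat_lit 189)) (XT.lf (nat_lit 0) (nat_lit 2345933841) (nat_lit 76) (nat_lit 19936202302) (nat_lit 76) (nat_lit 6255767469) (nat_lit 11) (nat_lit 4) (nat_lit 12) (nat_lit 5) (nat_lit 12) (nat_lit 4) (nat_lit 361) (nat_lit 231) (nat_lit 188))))) (XT.nd (nat_lit 234) (nat_lit 76) (nat_lit 0) (XT.nd (nat_lit 78) (nat_lit 76) (nat_lit 0) (XT.lf (nat_lit 0) (nat_lit 8790574956) (nat_lit 76) (nat_lit 17165021355) (nat_lit 76) (nat_lit 3329212506) (nat_lit 11) (nat_lit 4) (nat_lit 12) (nat_lit 5) (nat_lit 12) (nat_lit 4)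 (nat_lit 362) (nat_lit 231) (nat_lit 187)) (XT.nd (nat_lit 78) (nat_lit 76) (nat_lit 0) (XT.lf (nat_lit 0) (nat_lit 15362451788) (nat_lit 76) (nat_lit 14339729786) (nat_lit 76) (nat_lit 353072380) (nat_lit 11) (nat_lit 4) (nat_lit 12) (nat_lit 5) (nat_lit 12) (nat_lit 4) (nat_lit 363) (nat_lit 231) (nat_lit 186)) (XT.lf (nat_lit 0) (nat_lit 2623049591) (nat_lit 152) (nat_lit 8808321647) (nat_lit 76) (nat_lit 19417769506) (nat_lit 10) (nat_lit 5) (nat_lit 12) (nat_lit 5) (nat_lit 11) (nat_lit 4) (nat_lit 364) (nat_lit 231) (nat_lit 185)))) (XT.nd (nat_lit 78) (nat_lit 76) (nat_lit 0) (XT.lf (nat_lit 0) (nat_lit 5646043668) (nat_lit 152) (nat_lit 2813832905) (nat_lit 76) (nat_lit 23207940828) (nat_lit 10) (nat_lit 5) (nat_lit 12) (nat_lit 5) (nat_lit 11) (nat_lit 4) (nat_lit 365) (nat_lit 231) (nat_lit 184)) (XT.nd (nat_lit 78) (nat_lit 0) (nat_lit 0) (XT.lf (nat_lit 0) (nat_lit 3364958368) (nat_lit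 76) (nat_lit 5392828685) (nat_lit 152) (nat_lit 23753343657) (nat_lit 9) (nat_lit 5) (nat_lit 10) (nat_lit 5) (nat_lit 11) (nat_lit 4) (nat_lit 366) (nat_lit 231) (nat_lit 183)) (XT.lf (nat_lit 0) (nat_lit 9726199553) (nat_lit 76) (nat_lit 2231226995) (nat_lit 152) (nat_lit 21422498167) (nat_lit 9) (nat_lit 5) (nat_lit 10) (nat_lit 5) (nat_lit 11) (nat_lit 4) (nat_lit 367) (nat_lit 231) (nat_lit 182))))))))
noncomputable def xc40 : XT := (XT.nd (nat_lit 1794) (nat_lit 152) (nat_lit 0) (XT.nd (nat_lit 858) (nat_lit 76) (nat_lit 0) (XT.nd (nat_lit 390) (nat_lit 152) (nat_lit 0) (XT.nd (nat_lit 156) (nat_lit 76) (nat_lit 0) (XT.nd (nat_lit 78) (nat_lit 0) (nat_lit 0) (XT.lf (nat_lit 0) (nat_lit 15229777018) (nat_lit 152) (nat_lit 18065943591) (nat_lit 0) (nat_lit 979777375) (nat_lit 9) (nat_lit 5) (nat_lit 11) (nat_lit 4) (nat_lit 9) (nat_lit 4) (nat_lit 368) (nat_lit 231) (nat_lit 181)) (XT.lf (nat_lit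 0) (nat_lit 18590221126) (nat_lit 152) (nat_lit 12390468429) (nat_lit 0) (nat_lit 4217567801) (nat_lit 9) (nat_lit 5) (nat_lit 11) (nat_lit 4) (nat_lit 9) (nat_lit 4) (nat_lit 369) (nat_lit 231) (nat_lit 180))) (XT.nd (nat_lit 78) (nat_lit 76) (nat_lit 0) (XT.lf (nat_lit 0) (nat_lit 22020247264) (nat_lit 152) (nat_lit 6600892605) (nat_lit 0) (nat_lit 7528512694) (nat_lit 9) (nat_lit 5) (nat_lit 11) (nat_lit 4) (nat_lit 9) (nat_lit 4) (nat_lit 370) (nat_lit 231) (nat_lit 179)) (XT.nd (nat_lit 78) (nat_lit 76) (nat_lit 0) (XT.lf (nat_lit 0) (nat_lit 25522852543) (nat_lit 152) (nat_lit 692157266) (nat_lit 0) (nat_lit 10915505114) (nat_lit 9) (nat_lit 5) (nat_lit 11) (nat_lit 4) (nat_lit 9) (nat_lit 4) (nat_lit 371) (nat_lit 231) (nat_lit 178)) (XT.lf (nat_lit 0) (nat_lit 5447194954) (nat_lit 76) (nat_lit 23706264308) (nat_lit 76) (nat_lit 8986671384) (nat_lit 8) (nat_lit 4) (nat_lit 9) (nat_lit 5)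 (nat_lit 9) (nat_lit 4) (nat_lit 372) (nat_lit 231) (nat_lit 177))))) (XT.nd (nat_lit 234) (nat_lit 152) (nat_lit 0) (XT.nd (nat_lit 78) (nat_lit 0) (nat_lit 0) (XT.lf (nat_lit 0) (nat_lit 11732495729) (nat_lit 76) (nat_lit 21138392928) (nat_lit 76) (nat_lit 6309823797) (nat_lit 8) (nat_lit 4) (nat_lit 9) (nat_lit 5) (nat_lit 9) (nat_lit 4) (nat_lit 373) (nat_lit 231) (nat_lit 176)) (XT.nd (nat_lit 78) (nat_lit 0) (nat_lit 0) (XT.lf (nat_lit 0) (nat_lit 18155461782) (nat_lit 76) (nat_lit 18516141331) (nat_lit 76) (nat_lit 3581770056) (nat_lit 8) (nat_lit 4) (nat_lit 9) (nat_lit 5) (nat_lit 9) (nat_lit 4) (nat_lit 374) (nat_lit 231) (nat_lit 175)) (XT.lf (nat_lit 0) (nat_lit 24721705415) (nat_lit 76) (nat_lit 15837218228) (nat_lit 76) (nat_lit 800126425) (nat_lit 8) (nat_lit 4) (nat_lit 9) (nat_lit 5) (nat_lit 9) (nat_lit 4) (nat_lit 375) (nat_lit 231) (nat_lit 174)))) (XT.nd (nat_lit 78) (nat_lit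 76) (nat_lit 0) (XT.lf (nat_lit 0) (nat_lit 1997777957) (nat_lit 152) (nat_lit 11081331216) (nat_lit 76) (nat_lit 29419012522) (nat_lit 7) (nat_lit 5) (nat_lit 9) (nat_lit 5) (nat_lit 8) (nat_lit 4) (nat_lit 376) (nat_lit 231) (nat_lit 173)) (XT.nd (nat_lit 78) (nat_lit 76) (nat_lit 0) (XT.lf (nat_lit 0) (nat_lit 4837427412) (nat_lit 152) (nat_lit 5413666772) (nat_lit 76) (nat_lit 33420829657) (nat_lit 7) (nat_lit 5) (nat_lit 9) (nat_lit 5) (nat_lit 8) (nat_lit 4) (nat_lit 377) (nat_lit 231) (nat_lit 172)) (XT.lf (nat_lit 0) (nat_lit 385821067) (nat_lit 76) (nat_lit 7354804213) (nat_lit 152) (nat_lit 37140976353) (nat_lit 6) (nat_lit 5) (nat_lit 7) (nat_lit 5) (nat_lit 8) (nat_lit 4) (nat_lit 378) (nat_lit 231) (nat_lit 171)))))) (XT.nd (nat_lit 468) (nat_lit 76) (nat_lit 0) (XT.nd (nat_lit 234) (nat_lit 0) (nat_lit 0) (XT.nd (nat_lit 78) (nat_lit 0) (nat_lit 0) (XT.lf (nat_lit 0) (nat_lit 6424981494)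 (nat_lit 76) (nat_lit 4335558213) (nat_lit 152) (nat_lit 35366153427) (nat_lit 6) (nat_lit 5) (nat_lit 7) (nat_lit 5) (nat_lit 8) (nat_lit 4) (nat_lit 379) (nat_lit 231) (nat_lit 170)) (XT.nd (nat_lit 78) (nat_lit 0) (nat_lit 0) (XT.lf (nat_lit 0) (nat_lit 12601348859) (nat_lit 76) (nat_lit 1245385427) (nat_lit 152) (nat_lit 33563144253) (nat_lit 6) (nat_lit 5) (nat_lit 7) (nat_lit 5) (nat_lit 8) (nat_lit 4) (nat_lit 380) (nat_lit 231) (nat_lit 169)) (XT.lf (nat_lit 0) (nat_lit 17020346665) (nat_lit 152) (nat_lit 29830400064) (nat_lit 0) (nat_lit 1880979123) (nat_lit 6) (nat_lit 5) (nat_lit 8) (nat_lit 4) (nat_lit 6) (nat_lit 4) (nat_lit 381) (nat_lit 231) (nat_lit 168)))) (XT.nd (nat_lit 78) (nat_lit 0) (nat_lit 0) (XT.lf (nat_lit 0) (nat_lit 20278398544) (nat_lit 152) (nat_lit 24757221610) (nat_lit 0) (nat_lit 5057942469) (nat_lit 6) (nat_lit 5) (nat_lit 8) (nat_lit 4) (nat_lit 6) (nat_lit 4)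 (nat_lit 382) (nat_lit 231) (nat_lit 167)) (XT.nd (nat_lit 78) (nat_lit 0) (nat_lit 0) (XT.lf (nat_lit 0) (nat_lit 23611765359) (nat_lit 152) (nat_lit 19572590039) (nat_lit 0) (nat_lit 8312582553) (nat_lit 6) (nat_lit 5) (nat_lit 8) (nat_lit 4) (nat_lit 6) (nat_lit 4) (nat_lit 383) (nat_lit 231) (nat_lit 166)) (XT.lf (nat_lit 0) (nat_lit 27023359761) (nat_lit 152) (nat_lit 14271975089) (nat_lit 0) (nat_lit 11647743235) (nat_lit 6) (nat_lit 5) (nat_lit 8) (nat_lit 4) (nat_lit 6) (nat_lit 4) (nat_lit 384) (nat_lit 231) (nat_lit 165))))) (XT.nd (nat_lit 234) (nat_lit 0) (nat_lit 0) (XT.nd (nat_lit 78) (nat_lit 76) (nat_lit 0) (XT.lf (nat_lit 0) (nat_lit 30516162754) (nat_lit 152) (nat_lit 8850745156) (nat_lit 0) (nat_lit 15066338733) (nat_lit 6) (nat_lit 5) (nat_lit 8) (nat_lit 4) (nat_lit 6) (nat_lit 4) (nat_lit 385) (nat_lit 231) (nat_lit 164)) (XT.nd (nat_lit 78) (nat_lit 76) (nat_lit 0) (XT.lf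 (nat_lit 0) (nat_lit 34093226302) (nat_lit 152) (nat_lit 3304163242) (nat_lit 0) (nat_lit 18571356170) (nat_lit 6) (nat_lit 5) (nat_lit 8) (nat_lit 4) (nat_lit 6) (nat_lit 4) (nat_lit 386) (nat_lit 231) (nat_lit 163)) (XT.lf (nat_lit 0) (nat_lit 2419836914) (nat_lit 76) (nat_lit 35361100033) (nat_lit 76) (nat_lit 19769282220) (nat_lit 5) (nat_lit 4) (nat_lit 6) (nat_lit 5) (nat_lit 6) (nat_lit 4) (nat_lit 387) (nat_lit 231) (nat_lit 162)))) (XT.nd (nat_lit 78) (nat_lit 0) (nat_lit 0) (XT.lf (nat_lit 0) (nat_lit 8347445125) (nat_lit 76) (nat_lit 33245509403) (nat_lit 76) (nat_lit 17585781220) (nat_lit 5) (nat_lit 4) (nat_lit 6) (nat_lit 5) (nat_lit 6) (nat_lit 4) (nat_lit 388) (nat_lit 231) (nat_lit 161)) (XT.nd (nat_lit 78) (nat_lit 0) (nat_lit 0) (XT.lf (nat_lit 0) (nat_lit 14418081527) (nat_lit 76) (nat_lit 31082134647) (nat_lit 76) (nat_lit 15356474066) (nat_lit 5) (nat_lit 4) (nat_lit 6) (nat_lit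 5) (nat_lit 6) (nat_lit 4) (nat_lit 389) (nat_lit 231) (nat_lit 160)) (XT.lf (nat_lit 0) (nat_lit 20637050559) (nat_lit 76) (nat_lit 28869085440) (nat_lit 76) (nat_lit 13079412823) (nat_lit 5) (nat_lit 4) (nat_lit 6) (nat_lit 5) (nat_lit 6) (nat_lit 4) (nat_lit 390) (nat_lit 231) (nat_lit 159))))))) (XT.nd (nat_lit 936) (nat_lit 0) (nat_lit 0) (XT.nd (nat_lit 468) (nat_lit 76) (nat_lit 0) (XT.nd (nat_lit 234) (nat_lit 76) (nat_lit 0) (XT.nd (nat_lit 78) (nat_lit 0) (nat_lit 0) (XT.lf (nat_lit 0) (nat_lit 27009786272) (nat_lit 76) (nat_lit 26604428049) (nat_lit 76) (nat_lit 10752607823) (nat_lit 5) (nat_lit 4) (nat_lit 6) (nat_lit 5) (nat_lit 6) (nat_lit 4) (nat_lit 391) (nat_lit 231) (nat_lit 158)) (XT.nd (nat_lit 78) (nat_lit 0) (nat_lit 0) (XT.lf (nat_lit 0) (nat_lit 33541857076) (nat_lit 76) (nat_lit 24286183647) (nat_lit 76) (nat_lit 8374025937) (nat_lit 5) (nat_lit 4) (nat_lit 6) (nat_lit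 5) (nat_lit 6) (nat_lit 4) (nat_lit 392) (nat_lit 231) (nat_lit 157)) (XT.lf (nat_lit 0) (nat_lit 40238970605) (nat_lit 76) (nat_lit 21912326584) (nat_lit 76) (nat_lit 5941588792) (nat_lit 5) (nat_lit 4) (nat_lit 6) (nat_lit 5) (nat_lit 6) (nat_lit 4) (nat_lit 393) (nat_lit 231) (nat_lit 156)))) (XT.nd (nat_lit 78) (nat_lit 76) (nat_lit 0) (XT.lf (nat_lit 0) (nat_lit 47106978707) (nat_lit 76) (nat_lit 19480782615) (nat_lit 76) (nat_lit 3453170957) (nat_lit 5) (nat_lit 4) (nat_lit 6) (nat_lit 5) (nat_lit 6) (nat_lit 4) (nat_lit 394) (nat_lit 231) (nat_lit 155)) (XT.nd (nat_lit 78) (nat_lit 76) (nat_lit 0) (XT.lf (nat_lit 0) (nat_lit 54151882553) (nat_lit 76) (nat_lit 16989427091) (nat_lit 76) (nat_lit 906598088) (nat_lit 5) (nat_lit 4) (nat_lit 6) (nat_lit 5) (nat_lit 6) (nat_lit 4) (nat_lit 395) (nat_lit 231) (nat_lit 154)) (XT.lf (nat_lit 0) (nat_lit 1667174927) (nat_lit 152) (nat_lit 12752072974)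 (nat_lit 76) (nat_lit 59695827759) (nat_lit 4) (nat_lit 5) (nat_lit 6) (nat_lit 5) (nat_lit 5) (nat_lit 4) (nat_lit 396) (nat_lit 231) (nat_lit 153))))) (XT.nd (nat_lit 234) (nat_lit 0) (nat_lit 0) (XT.nd (nat_lit 78) (nat_lit 76) (nat_lit 0) (XT.lf (nat_lit 0) (nat_lit 4284692379) (nat_lit 152) (nat_lit 7490560190) (nat_lit 76) (nat_lit 64469201020) (nat_lit 4) (nat_lit 5) (nat_lit 6) (nat_lit 5) (nat_lit 5) (nat_lit 4) (nat_lit 397) (nat_lit 231) (nat_lit 152)) (XT.nd (nat_lit 78) (nat_lit 76) (nat_lit 0) (XT.lf (nat_lit 0) (nat_lit 6965932412) (nat_lit 152) (nat_lit 2098174615) (nat_lit 76) (nat_lit 69374056556) (nat_lit 4) (nat_lit 5) (nat_lit 6) (nat_lit 5) (nat_lit 5) (nat_lit 4) (nat_lit 398) (nat_lit 231) (nat_lit 151)) (XT.lf (nat_lit 0) (nat_lit 3498055200) (nat_lit 76) (nat_lit 6248808104) (nat_lit 152) (nat_lit 70950250409) (nat_lit 3) (nat_lit 5) (nat_lit 4) (nat_lit 5) (nat_lit 5)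 (nat_lit 4) (nat_lit 399) (nat_lit 231) (nat_lit 150)))) (XT.nd (nat_lit 78) (nat_lit 0) (nat_lit 0) (XT.lf (nat_lit 0) (nat_lit 9279252186) (nat_lit 76) (nat_lit 3338954938) (nat_lit 152) (nat_lit 70405421933) (nat_lit 3) (nat_lit 5) (nat_lit 4) (nat_lit 5) (nat_lit 5) (nat_lit 4) (nat_lit 400) (nat_lit 231) (nat_lit 149)) (XT.nd (nat_lit 78) (nat_lit 0) (nat_lit 0) (XT.lf (nat_lit 0) (nat_lit 15208710085) (nat_lit 76) (nat_lit 353192387) (nat_lit 152) (nat_lit 69858457128) (nat_lit 3) (nat_lit 5) (nat_lit 4) (nat_lit 5) (nat_lit 5) (nat_lit 4) (nat_lit 401) (nat_lit 231) (nat_lit 148)) (XT.lf (nat_lit 0) (nat_lit 18606582150) (nat_lit 152) (nat_lit 66623850239) (nat_lit 0) (nat_lit 2658185365) (nat_lit 3) (nat_lit 5) (nat_lit 5) (nat_lit 4) (nat_lit 3) (nat_lit 4) (nat_lit 402) (nat_lit 231) (nat_lit 147)))))) (XT.nd (nat_lit 34242) (nat_lit 0) (nat_lit 2660) (XT.nd (nat_lit 34008) (nat_lit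 0) (nat_lit 3572) (XT.nd (nat_lit 33852) (nat_lit 0) (nat_lit 3876) (XT.lf (nat_lit 0) (nat_lit 21732998751) (nat_lit 152) (nat_lit 62955936265) (nat_lit 0) (nat_lit 5742282468) (nat_lit 3) (nat_lit 5) (nat_lit 5) (nat_lit 4) (nat_lit 3) (nat_lit 4) (nat_lit 403) (nat_lit 231) (nat_lit 146)) (XT.nd (nat_lit 78) (nat_lit 228) (nat_lit 0) (XT.lf (nat_lit 0) (nat_lit 1329464120) (nat_lit 304) (nat_lit 2672118518) (nat_lit 0) (nat_lit 1329464120) (nat_lit 57) (nat_lit 5) (nat_lit 61) (nat_lit 4) (nat_lit 57) (nat_lit 4) (nat_lit 316) (nat_lit 232) (nat_lit 232)) (XT.lf (nat_lit 0) (nat_lit 1279851893) (nat_lit 228) (nat_lit 5153751257) (nat_lit 228) (nat_lit 4409445638) (nat_lit 54) (nat_lit 4) (nat_lit 57) (nat_lit 5) (nat_lit 57) (nat_lit 4) (nat_lit 317) (nat_lit 232) (nat_lit 231)))) (XT.nd (nat_lit 78) (nat_lit 304) (nat_lit 0) (XT.lf (nat_lit 0) (nat_lit 8079007856) (nat_lit 228) (nat_lit 2209226801)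 (nat_lit 228) (nat_lit 742294367) (nat_lit 54) (nat_lit 4) (nat_lit 57) (nat_lit 5) (nat_lit 57) (nat_lit 4) (nat_lit 318) (nat_lit 232) (nat_lit 230)) (XT.nd (nat_lit 78) (nat_lit 0) (nat_lit 0) (XT.lf (nat_lit 0) (nat_lit 2934394480) (nat_lit 304) (nat_lit 7460650692) (nat_lit 0) (nat_lit 829043155) (nat_lit 50) (nat_lit 5) (nat_lit 54) (nat_lit 4) (nat_lit 50) (nat_lit 4) (nat_lit 319) (nat_lit 232) (nat_lit 229)) (XT.lf (nat_lit 0) (nat_lit 6673606774) (nat_lit 304) (nat_lit 843752838) (nat_lit 0) (nat_lit 3906949546) (nat_lit 50) (nat_lit 5) (nat_lit 54) (nat_lit 4) (nat_lit 50) (nat_lit 4) (nat_lit 320) (nat_lit 232) (nat_lit 228))))) (XT.nd (nat_lit 234) (nat_lit 456) (nat_lit 0) (XT.nd (nat_lit 78) (nat_lit 228) (nat_lit 0) (XT.lf (nat_lit 0) (nat_lit 5959770893) (nat_lit 228) (nat_lit 4540153270) (nat_lit 228) (nat_lit 1131451477) (nat_lit 47) (nat_lit 4) (nat_lit 50) (nat_lit 5) (nat_lit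 50) (nat_lit 4) (nat_lit 321) (nat_lit 232) (nat_lit 227)) (XT.nd (nat_lit 78) (nat_lit 0) (nat_lit 0) (XT.lf (nat_lit 0) (nat_lit 1006255042) (nat_lit 152) (nat_lit 1475666668) (nat_lit 228) (nat_lit 9363979289) (nat_lit 44) (nat_lit 5) (nat_lit 46) (nat_lit 5) (nat_lit 47) (nat_lit 4) (nat_lit 322) (nat_lit 232) (nat_lit 226)) (XT.lf (nat_lit 0) (nat_lit 6173601887) (nat_lit 228) (nat_lit 4221791908) (nat_lit 0) (nat_lit 1671432361) (nat_lit 44) (nat_lit 5) (nat_lit 47) (nat_lit 4) (nat_lit 44) (nat_lit 4) (nat_lit 323) (nat_lit 232) (nat_lit 225)))) (XT.nd (nat_lit 78) (nat_lit 228) (nat_lit 0) (XT.lf (nat_lit 0) (nat_lit 2503168039) (nat_lit 228) (nat_lit 7432557619) (nat_lit 228) (nat_lit 2359939813) (nat_lit 41) (nat_lit 4) (nat_lit 44) (nat_lit 5) (nat_lit 44) (nat_lit 4) (nat_lit 324) (nat_lit 232) (nat_lit 224)) (XT.nd (nat_lit 78) (nat_lit 152) (nat_lit 0) (XT.lf (nat_lit 0) (nat_lit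 1218712862) (nat_lit 304) (nat_lit 3152463978) (nat_lit 76) (nat_lit 8160966934) (nat_lit 40) (nat_lit 5) (nat_lit 44) (nat_lit 5) (nat_lit 41) (nat_lit 4) (nat_lit 325) (nat_lit 232) (nat_lit 223)) (XT.lf (nat_lit 0) (nat_lit 3611477261) (nat_lit 152) (nat_lit 1204104297) (nat_lit 228) (nat_lit 7960755875) (nat_lit 38) (nat_lit 5) (nat_lit 40) (nat_lit 5) (nat_lit 41) (nat_lit 4) (nat_lit 326) (nat_lit 232) (nat_lit 222))))))))
noncomputable def xc41 : XT := (XT.nd (nat_lit 1794) (nat_lit 684) (nat_lit 0) (XT.nd (nat_lit 858) (nat_lit 608) (nat_lit 0) (XT.nd (nat_lit 390) (nat_lit 608) (nat_lit 0) (XT.nd (nat_lit 156) (nat_lit 228) (nat_lit 0) (XT.nd (nat_lit 78) (nat_lit 152) (nat_lit 0) (XT.lf (nat_lit 0) (nat_lit 8496481322) (nat_lit 228) (nat_lit 2527129868) (nat_lit 0) (nat_lit 2005030556) (nat_lit 38) (nat_lit 5) (nat_lit 41) (nat_lit 4) (nat_lit 38) (nat_lit 4) (nat_lit 327) (nat_lit 232)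 (nat_lit 221)) (XT.lf (nat_lit 0) (nat_lit 4261462754) (nat_lit 152) (nat_lit 8005632439) (nat_lit 152) (nat_lit 1022107975) (nat_lit 36) (nat_lit 4) (nat_lit 38) (nat_lit 5) (nat_lit 38) (nat_lit 4) (nat_lit 328) (nat_lit 232) (nat_lit 220))) (XT.nd (nat_lit 78) (nat_lit 152) (nat_lit 0) (XT.lf (nat_lit 0) (nat_lit 2495039731) (nat_lit 228) (nat_lit 2396335263) (nat_lit 76) (nat_lit 8666949456) (nat_lit 35) (nat_lit 5) (nat_lit 38) (nat_lit 5) (nat_lit 36) (nat_lit 4) (nat_lit 329) (nat_lit 232) (nat_lit 219)) (XT.nd (nat_lit 78) (nat_lit 0) (nat_lit 0) (XT.lf (nat_lit 0) (nat_lit 4393255635) (nat_lit 152) (nat_lit 1674896191) (nat_lit 228) (nat_lit 7767995092) (nat_lit 33) (nat_lit 5) (nat_lit 35) (nat_lit 5) (nat_lit 36) (nat_lit 4) (nat_lit 330) (nat_lit 232) (nat_lit 218)) (XT.lf (nat_lit 0) (nat_lit 9717939158) (nat_lit 228) (nat_lit 2818866195) (nat_lit 0) (nat_lit 1586473418) (nat_lit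 33) (nat_lit 5) (nat_lit 36) (nat_lit 4) (nat_lit 33) (nat_lit 4) (nat_lit 331) (nat_lit 232) (nat_lit 217))))) (XT.nd (nat_lit 234) (nat_lit 228) (nat_lit 0) (XT.nd (nat_lit 78) (nat_lit 228) (nat_lit 0) (XT.lf (nat_lit 0) (nat_lit 3950839109) (nat_lit 152) (nat_lit 9512299104) (nat_lit 152) (nat_lit 956366269) (nat_lit 31) (nat_lit 4) (nat_lit 33) (nat_lit 5) (nat_lit 33) (nat_lit 4) (nat_lit 332) (nat_lit 232) (nat_lit 216)) (XT.nd (nat_lit 78) (nat_lit 152) (nat_lit 0) (XT.lf (nat_lit 0) (nat_lit 2505714669) (nat_lit 228) (nat_lit 3881436030) (nat_lit 76) (nat_lit 8337962843) (nat_lit 30) (nat_lit 5) (nat_lit 33) (nat_lit 5) (nat_lit 31) (nat_lit 4) (nat_lit 333) (nat_lit 232) (nat_lit 215)) (XT.lf (nat_lit 0) (nat_lit 2838796880) (nat_lit 152) (nat_lit 3174471413) (nat_lit 228) (nat_lit 9027566114) (nat_lit 28) (nat_lit 5) (nat_lit 30) (nat_lit 5) (nat_lit 31) (nat_lit 4) (nat_lit 334) (nat_lit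 232) (nat_lit 214)))) (XT.nd (nat_lit 78) (nat_lit 228) (nat_lit 0) (XT.lf (nat_lit 0) (nat_lit 9600930875) (nat_lit 228) (nat_lit 5637382607) (nat_lit 0) (nat_lit 128517985) (nat_lit 28) (nat_lit 5) (nat_lit 31) (nat_lit 4) (nat_lit 28) (nat_lit 4) (nat_lit 335) (nat_lit 232) (nat_lit 213)) (XT.nd (nat_lit 78) (nat_lit 76) (nat_lit 0) (XT.lf (nat_lit 0) (nat_lit 1004566639) (nat_lit 152) (nat_lit 12268671422) (nat_lit 152) (nat_lit 2430109487) (nat_lit 26) (nat_lit 4) (nat_lit 28) (nat_lit 5) (nat_lit 28) (nat_lit 4) (nat_lit 336) (nat_lit 232) (nat_lit 212)) (XT.lf (nat_lit 0) (nat_lit 979714088) (nat_lit 228) (nat_lit 8205226843) (nat_lit 76) (nat_lit 6864967311) (nat_lit 25) (nat_lit 5) (nat_lit 28) (nat_lit 5) (nat_lit 26) (nat_lit 4) (nat_lit 337) (nat_lit 232) (nat_lit 211)))))) (XT.nd (nat_lit 468) (nat_lit 304) (nat_lit 0) (XT.nd (nat_lit 234) (nat_lit 228) (nat_lit 0) (XT.nd (nat_lit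 78) (nat_lit 76) (nat_lit 0) (XT.lf (nat_lit 0) (nat_lit 4380945410) (nat_lit 228) (nat_lit 1645857850) (nat_lit 76) (nat_lit 10381247354) (nat_lit 25) (nat_lit 5) (nat_lit 28) (nat_lit 5) (nat_lit 26) (nat_lit 4) (nat_lit 338) (nat_lit 232) (nat_lit 210)) (XT.nd (nat_lit 78) (nat_lit 0) (nat_lit 0) (XT.lf (nat_lit 0) (nat_lit 5108094578) (nat_lit 76) (nat_lit 2764984168) (nat_lit 152) (nat_lit 8904236586) (nat_lit 24) (nat_lit 5) (nat_lit 25) (nat_lit 5) (nat_lit 26) (nat_lit 4) (nat_lit 339) (nat_lit 232) (nat_lit 209)) (XT.lf (nat_lit 0) (nat_lit 11432626641) (nat_lit 152) (nat_lit 5166940717) (nat_lit 0) (nat_lit 559253862) (nat_lit 24) (nat_lit 5) (nat_lit 26) (nat_lit 4) (nat_lit 24) (nat_lit 4) (nat_lit 340) (nat_lit 232) (nat_lit 208)))) (XT.nd (nat_lit 78) (nat_lit 76) (nat_lit 0) (XT.lf (nat_lit 0) (nat_lit 1431643598) (nat_lit 152) (nat_lit 13650348051) (nat_lit 152) (nat_lit 2470331212)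 (nat_lit 22) (nat_lit 4) (nat_lit 24) (nat_lit 5) (nat_lit 24) (nat_lit 4) (nat_lit 341) (nat_lit 232) (nat_lit 207)) (XT.nd (nat_lit 78) (nat_lit 0) (nat_lit 0) (XT.lf (nat_lit 0) (nat_lit 860698421) (nat_lit 228) (nat_lit 9730511723) (nat_lit 76) (nat_lit 7366362080) (nat_lit 21) (nat_lit 5) (nat_lit 24) (nat_lit 5) (nat_lit 22) (nat_lit 4) (nat_lit 342) (nat_lit 232) (nat_lit 206)) (XT.lf (nat_lit 0) (nat_lit 4185728482) (nat_lit 228) (nat_lit 3269742135) (nat_lit 76) (nat_lit 10920501043) (nat_lit 21) (nat_lit 5) (nat_lit 24) (nat_lit 5) (nat_lit 22) (nat_lit 4) (nat_lit 343) (nat_lit 232) (nat_lit 205))))) (XT.nd (nat_lit 234) (nat_lit 228) (nat_lit 0) (XT.nd (nat_lit 78) (nat_lit 0) (nat_lit 0) (XT.lf (nat_lit 0) (nat_lit 3356518940) (nat_lit 76) (nat_lit 4231615369) (nat_lit 152) (nat_lit 11219496896) (nat_lit 20) (nat_lit 5) (nat_lit 21) (nat_lit 5) (nat_lit 22) (nat_lit 4) (nat_lit 344)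 (nat_lit 232) (nat_lit 204)) (XT.nd (nat_lit 78) (nat_lit 0) (nat_lit 0) (XT.lf (nat_lit 0) (nat_lit 10155684881) (nat_lit 76) (nat_lit 916003722) (nat_lit 152) (nat_lit 8181215443) (nat_lit 20) (nat_lit 5) (nat_lit 21) (nat_lit 5) (nat_lit 22) (nat_lit 4) (nat_lit 345) (nat_lit 232) (nat_lit 203)) (XT.lf (nat_lit 0) (nat_lit 14631037927) (nat_lit 152) (nat_lit 2668177499) (nat_lit 0) (nat_lit 2413215748) (nat_lit 20) (nat_lit 5) (nat_lit 22) (nat_lit 4) (nat_lit 20) (nat_lit 4) (nat_lit 346) (nat_lit 232) (nat_lit 202)))) (XT.nd (nat_lit 78) (nat_lit 76) (nat_lit 0) (XT.lf (nat_lit 0) (nat_lit 3932623612) (nat_lit 152) (nat_lit 14360217947) (nat_lit 152) (nat_lit 1893066085) (nat_lit 18) (nat_lit 4) (nat_lit 20) (nat_lit 5) (nat_lit 20) (nat_lit 4) (nat_lit 347) (nat_lit 232) (nat_lit 201)) (XT.nd (nat_lit 78) (nat_lit 0) (nat_lit 0) (XT.lf (nat_lit 0) (nat_lit 1339894552) (nat_lit 228) (nat_lit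 9989233573) (nat_lit 76) (nat_lit 9344807221) (nat_lit 17) (nat_lit 5) (nat_lit 20) (nat_lit 5) (nat_lit 18) (nat_lit 4) (nat_lit 348) (nat_lit 232) (nat_lit 200)) (XT.lf (nat_lit 0) (nat_lit 4582198377) (nat_lit 228) (nat_lit 3642373947) (nat_lit 76) (nat_lit 12952988043) (nat_lit 17) (nat_lit 5) (nat_lit 20) (nat_lit 5) (nat_lit 18) (nat_lit 4) (nat_lit 349) (nat_lit 232) (nat_lit 199))))))) (XT.nd (nat_lit 936) (nat_lit 304) (nat_lit 0) (XT.nd (nat_lit 468) (nat_lit 76) (nat_lit 0) (XT.nd (nat_lit 234) (nat_lit 228) (nat_lit 0) (XT.nd (nat_lit 78) (nat_lit 0) (nat_lit 0) (XT.lf (nat_lit 0) (nat_lit 2866983120) (nat_lit 76) (nat_lit 5034195082) (nat_lit 152) (nat_lit 13795763708) (nat_lit 16) (nat_lit 5) (nat_lit 17) (nat_lit 5) (nat_lit 18) (nat_lit 4) (nat_lit 350) (nat_lit 232) (nat_lit 198)) (XT.nd (nat_lit 78) (nat_lit 0) (nat_lit 0) (XT.lf (nat_lit 0) (nat_lit 9563254575) (nat_lit 76)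 (nat_lit 1745705720) (nat_lit 152) (nat_lit 10923296727) (nat_lit 16) (nat_lit 5) (nat_lit 17) (nat_lit 5) (nat_lit 18) (nat_lit 4) (nat_lit 351) (nat_lit 232) (nat_lit 197)) (XT.lf (nat_lit 0) (nat_lit 14788260135) (nat_lit 152) (nat_lit 6420690950) (nat_lit 0) (nat_lit 1575630233) (nat_lit 16) (nat_lit 5) (nat_lit 18) (nat_lit 4) (nat_lit 16) (nat_lit 4) (nat_lit 352) (nat_lit 232) (nat_lit 196)))) (XT.nd (nat_lit 78) (nat_lit 228) (nat_lit 0) (XT.lf (nat_lit 0) (nat_lit 18344083160) (nat_lit 152) (nat_lit 81529882) (nat_lit 0) (nat_lit 4928725409) (nat_lit 16) (nat_lit 5) (nat_lit 18) (nat_lit 4) (nat_lit 16) (nat_lit 4) (nat_lit 353) (nat_lit 232) (nat_lit 195)) (XT.nd (nat_lit 78) (nat_lit 76) (nat_lit 0) (XT.lf (nat_lit 0) (nat_lit 6497592043) (nat_lit 152) (nat_lit 15527622395) (nat_lit 152) (nat_lit 1915441491) (nat_lit 14) (nat_lit 4) (nat_lit 16) (nat_lit 5) (nat_lit 16) (nat_lit 4)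 (nat_lit 354) (nat_lit 232) (nat_lit 194)) (XT.lf (nat_lit 0) (nat_lit 1204486978) (nat_lit 228) (nat_lit 11358162777) (nat_lit 76) (nat_lit 11982858531) (nat_lit 13) (nat_lit 5) (nat_lit 16) (nat_lit 5) (nat_lit 14) (nat_lit 4) (nat_lit 355) (nat_lit 232) (nat_lit 193))))) (XT.nd (nat_lit 234) (nat_lit 0) (nat_lit 0) (XT.nd (nat_lit 78) (nat_lit 76) (nat_lit 0) (XT.lf (nat_lit 0) (nat_lit 4337053022) (nat_lit 228) (nat_lit 5184578406) (nat_lit 76) (nat_lit 15647604072) (nat_lit 13) (nat_lit 5) (nat_lit 16) (nat_lit 5) (nat_lit 14) (nat_lit 4) (nat_lit 356) (nat_lit 232) (nat_lit 192)) (XT.nd (nat_lit 78) (nat_lit 0) (nat_lit 0) (XT.lf (nat_lit 0) (nat_lit 1123417943) (nat_lit 76) (nat_lit 6409752033) (nat_lit 152) (nat_lit 18279441004) (nat_lit 12) (nat_lit 5) (nat_lit 13) (nat_lit 5) (nat_lit 14) (nat_lit 4) (nat_lit 357) (nat_lit 232) (nat_lit 191)) (XT.lf (nat_lit 0) (nat_lit 7654928394) (nat_lit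 76) (nat_lit 3181879648) (nat_lit 152) (nat_lit 15638153531) (nat_lit 12) (nat_lit 5) (nat_lit 13) (nat_lit 5) (nat_lit 14) (nat_lit 4) (nat_lit 358) (nat_lit 232) (nat_lit 190)))) (XT.nd (nat_lit 78) (nat_lit 0) (nat_lit 0) (XT.lf (nat_lit 0) (nat_lit 14201105652) (nat_lit 152) (nat_lit 12846995055) (nat_lit 0) (nat_lit 110257774) (nat_lit 12) (nat_lit 5) (nat_lit 14) (nat_lit 4) (nat_lit 12) (nat_lit 4) (nat_lit 359) (nat_lit 232) (nat_lit 189)) (XT.nd (nat_lit 78) (nat_lit 0) (nat_lit 0) (XT.lf (nat_lit 0) (nat_lit 17659173271) (nat_lit 152) (nat_lit 6795030291) (nat_lit 0) (nat_lit 3408290158) (nat_lit 12) (nat_lit 5) (nat_lit 14) (nat_lit 4) (nat_lit 12) (nat_lit 4) (nat_lit 360) (nat_lit 232) (nat_lit 188)) (XT.lf (nat_lit 0) (nat_lit 21183446340) (nat_lit 152) (nat_lit 628264591) (nat_lit 0) (nat_lit 6777189211) (nat_lit 12) (nat_lit 5) (nat_lit 14) (nat_lit 4) (nat_lit 12) (nat_lit 4)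 (nat_lit 361) (nat_lit 232) (nat_lit 187)))))) (XT.nd (nat_lit 468) (nat_lit 76) (nat_lit 0) (XT.nd (nat_lit 234) (nat_lit 76) (nat_lit 0) (XT.nd (nat_lit 78) (nat_lit 76) (nat_lit 0) (XT.lf (nat_lit 0) (nat_lit 5771309518) (nat_lit 76) (nat_lit 19061172159) (nat_lit 76) (nat_lit 4504066472) (nat_lit 11) (nat_lit 4) (nat_lit 12) (nat_lit 5) (nat_lit 12) (nat_lit 4) (nat_lit 362) (nat_lit 232) (nat_lit 186)) (XT.nd (nat_lit 78) (nat_lit 76) (nat_lit 0) (XT.lf (nat_lit 0) (nat_lit 12311571487) (nat_lit 76) (nat_lit 16249762080) (nat_lit 76) (nat_lit 1546201483) (nat_lit 11) (nat_lit 4) (nat_lit 12) (nat_lit 5) (nat_lit 12) (nat_lit 4) (nat_lit 363) (nat_lit 232) (nat_lit 185)) (XT.lf (nat_lit 0) (nat_lit 1435806109) (nat_lit 152) (nat_lit 11931063428) (nat_lit 76) (nat_lit 17535427476) (nat_lit 10) (nat_lit 5) (nat_lit 12) (nat_lit 5) (nat_lit 11) (nat_lit 4) (nat_lit 364) (nat_lit 232) (nat_lit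 184)))) (XT.nd (nat_lit 78) (nat_lit 76) (nat_lit 0) (XT.lf (nat_lit 0) (nat_lit 4441910259) (nat_lit 152) (nat_lit 5966719804) (nat_lit 76) (nat_lit 21312859241) (nat_lit 10) (nat_lit 5) (nat_lit 12) (nat_lit 5) (nat_lit 11) (nat_lit 4) (nat_lit 365) (nat_lit 232) (nat_lit 183)) (XT.nd (nat_lit 78) (nat_lit 0) (nat_lit 0) (XT.lf (nat_lit 0) (nat_lit 119473259) (nat_lit 76) (nat_lit 7386584809) (nat_lit 152) (nat_lit 25060181087) (nat_lit 9) (nat_lit 5) (nat_lit 10) (nat_lit 5) (nat_lit 11) (nat_lit 4) (nat_lit 366) (nat_lit 232) (nat_lit 182)) (XT.lf (nat_lit 0) (nat_lit 6451734272) (nat_lit 76) (nat_lit 4237764340) (nat_lit 152) (nat_lit 22746028939) (nat_lit 9) (nat_lit 5) (nat_lit 10) (nat_lit 5) (nat_lit 11) (nat_lit 4) (nat_lit 367) (nat_lit 232) (nat_lit 181))))) (XT.nd (nat_lit 234) (nat_lit 76) (nat_lit 0) (XT.nd (nat_lit 78) (nat_lit 0) (nat_lit 0) (XT.lf (nat_lit 0) (nat_lit 12916846853)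 (nat_lit 76) (nat_lit 1019669431) (nat_lit 152) (nat_lit 20395352697) (nat_lit 9) (nat_lit 5) (nat_lit 10) (nat_lit 5) (nat_lit 11) (nat_lit 4) (nat_lit 368) (nat_lit 232) (nat_lit 180)) (XT.nd (nat_lit 78) (nat_lit 0) (nat_lit 0) (XT.lf (nat_lit 0) (nat_lit 17271773833) (nat_lit 152) (nat_lit 15757412075) (nat_lit 0) (nat_lit 2226205981) (nat_lit 9) (nat_lit 5) (nat_lit 11) (nat_lit 4) (nat_lit 9) (nat_lit 4) (nat_lit 369) (nat_lit 232) (nat_lit 179)) (XT.lf (nat_lit 0) (nat_lit 20686863201) (nat_lit 152) (nat_lit 9994697216) (nat_lit 0) (nat_lit 5525682490) (nat_lit 9) (nat_lit 5) (nat_lit 11) (nat_lit 4) (nat_lit 9) (nat_lit 4) (nat_lit 370) (nat_lit 232) (nat_lit 178)))) (XT.nd (nat_lit 78) (nat_lit 76) (nat_lit 0) (XT.lf (nat_lit 0) (nat_lit 24174966762) (nat_lit 152) (nat_lit 4112040484) (nat_lit 0) (nat_lit 8901540556) (nat_lit 9) (nat_lit 5) (nat_lit 11) (nat_lit 4) (nat_lit 9) (nat_lit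 4) (nat_lit 371) (nat_lit 232) (nat_lit 177)) (XT.nd (nat_lit 78) (nat_lit 0) (nat_lit 0) (XT.lf (nat_lit 0) (nat_lit 1933426420) (nat_lit 76) (nat_lit 25824291229) (nat_lit 76) (nat_lit 10441888816) (nat_lit 8) (nat_lit 4) (nat_lit 9) (nat_lit 5) (nat_lit 9) (nat_lit 4) (nat_lit 372) (nat_lit 232) (nat_lit 176)) (XT.lf (nat_lit 0) (nat_lit 8193656384) (nat_lit 76) (nat_lit 23267580403) (nat_lit 76) (nat_lit 7779375846) (nat_lit 8) (nat_lit 4) (nat_lit 9) (nat_lit 5) (nat_lit 9) (nat_lit 4) (nat_lit 373) (nat_lit 232) (nat_lit 175))))))))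
noncomputable def xc42 : XT := (XT.nd (nat_lit 1794) (nat_lit 152) (nat_lit 0) (XT.nd (nat_lit 858) (nat_lit 76) (nat_lit 0) (XT.nd (nat_lit 390) (nat_lit 76) (nat_lit 0) (XT.nd (nat_lit 156) (nat_lit 76) (nat_lit 0) (XT.nd (nat_lit 78) (nat_lit 0) (nat_lit 0) (XT.lf (nat_lit 0) (nat_lit 14592281845) (nat_lit 76) (nat_lit 20656164295) (nat_lit 76) (nat_lit 5065239210) (nat_lit 8) (nat_lit 4) (nat_lit 9) (nat_lit 5) (nat_lit 9) (nat_lit 4) (nat_lit 374) (nat_lit 232) (nat_lit 174)) (XT.lf (nat_lit 0) (nat_lit 21134893835) (nat_lit 76) (nat_lit 17987761084) (nat_lit 76) (nat_lit 2297107331) (nat_lit 8) (nat_lit 4) (nat_lit 9) (nat_lit 5) (nat_lit 9) (nat_lit 4) (nat_lit 375) (nat_lit 232) (nat_lit 173))) (XT.nd (nat_lit 78) (nat_lit 0) (nat_lit 0) (XT.lf (nat_lit 0) (nat_lit 517146318) (nat_lit 152) (nat_lit 14737670674) (nat_lit 76) (nat_lit 27304840715) (nat_lit 7) (nat_lit 5) (nat_lit 9) (nat_lit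 5) (nat_lit 8) (nat_lit 4) (nat_lit 376) (nat_lit 232) (nat_lit 172)) (XT.nd (nat_lit 78) (nat_lit 0) (nat_lit 0) (XT.lf (nat_lit 0) (nat_lit 3344308178) (nat_lit 152) (nat_lit 9092535933) (nat_lit 76) (nat_lit 31296996454) (nat_lit 7) (nat_lit 5) (nat_lit 9) (nat_lit 5) (nat_lit 8) (nat_lit 4) (nat_lit 377) (nat_lit 232) (nat_lit 171)) (XT.lf (nat_lit 0) (nat_lit 6231673421) (nat_lit 152) (nat_lit 3322450348) (nat_lit 76) (nat_lit 35389875475) (nat_lit 7) (nat_lit 5) (nat_lit 9) (nat_lit 5) (nat_lit 8) (nat_lit 4) (nat_lit 378) (nat_lit 232) (nat_lit 170))))) (XT.nd (nat_lit 234) (nat_lit 0) (nat_lit 0) (XT.nd (nat_lit 78) (nat_lit 0) (nat_lit 0) (XT.lf (nat_lit 0) (nat_lit 2628927749) (nat_lit 76) (nat_lit 6578108099) (nat_lit 152) (nat_lit 36983397191) (nat_lit 6) (nat_lit 5) (nat_lit 7) (nat_lit 5) (nat_lit 8) (nat_lit 4) (nat_lit 379) (nat_lit 232) (nat_lit 169)) (XT.nd (nat_lit 78) (nat_lit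 0) (nat_lit 0) (XT.lf (nat_lit 0) (nat_lit 8784266910) (nat_lit 76) (nat_lit 3497333464) (nat_lit 152) (nat_lit 35192372541) (nat_lit 6) (nat_lit 5) (nat_lit 7) (nat_lit 5) (nat_lit 8) (nat_lit 4) (nat_lit 380) (nat_lit 232) (nat_lit 168)) (XT.lf (nat_lit 0) (nat_lit 15082822306) (nat_lit 76) (nat_lit 342658158) (nat_lit 152) (nat_lit 33371237136) (nat_lit 6) (nat_lit 5) (nat_lit 7) (nat_lit 5) (nat_lit 8) (nat_lit 4) (nat_lit 381) (nat_lit 232) (nat_lit 167)))) (XT.nd (nat_lit 78) (nat_lit 0) (nat_lit 0) (XT.lf (nat_lit 0) (nat_lit 18669190908) (nat_lit 152) (nat_lit 28657493068) (nat_lit 0) (nat_lit 2832305887) (nat_lit 6) (nat_lit 5) (nat_lit 8) (nat_lit 4) (nat_lit 6) (nat_lit 4) (nat_lit 382) (nat_lit 232) (nat_lit 166)) (XT.nd (nat_lit 78) (nat_lit 0) (nat_lit 0) (XT.lf (nat_lit 0) (nat_lit 21991831902) (nat_lit 152) (nat_lit 23492346999) (nat_lit 0) (nat_lit 6078513161) (nat_lit 6) (nat_lit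 5) (nat_lit 8) (nat_lit 4) (nat_lit 6) (nat_lit 4) (nat_lit 383) (nat_lit 232) (nat_lit 165)) (XT.lf (nat_lit 0) (nat_lit 25393012885) (nat_lit 152) (nat_lit 18210650012) (nat_lit 0) (nat_lit 9405486649) (nat_lit 6) (nat_lit 5) (nat_lit 8) (nat_lit 4) (nat_lit 6) (nat_lit 4) (nat_lit 384) (nat_lit 232) (nat_lit 164)))))) (XT.nd (nat_lit 468) (nat_lit 0) (nat_lit 0) (XT.nd (nat_lit 234) (nat_lit 76) (nat_lit 0) (XT.nd (nat_lit 78) (nat_lit 0) (nat_lit 0) (XT.lf (nat_lit 0) (nat_lit 28875705762) (nat_lit 152) (nat_lit 12807787033) (nat_lit 0) (nat_lit 12816133415) (nat_lit 6) (nat_lit 5) (nat_lit 8) (nat_lit 4) (nat_lit 6) (nat_lit 4) (nat_lit 385) (nat_lit 232) (nat_lit 163)) (XT.nd (nat_lit 78) (nat_lit 0) (nat_lit 0) (XT.lf (nat_lit 0) (nat_lit 32442953664) (nat_lit 152) (nat_lit 7279037114) (nat_lit 0) (nat_lit 16313433636) (nat_lit 6) (nat_lit 5) (nat_lit 8) (nat_lit 4) (nat_lit 6) (nat_lit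 4) (nat_lit 386) (nat_lit 232) (nat_lit 162)) (XT.lf (nat_lit 0) (nat_lit 36097873603) (nat_lit 152) (nat_lit 1619569308) (nat_lit 0) (nat_lit 19900443205) (nat_lit 6) (nat_lit 5) (nat_lit 8) (nat_lit 4) (nat_lit 6) (nat_lit 4) (nat_lit 387) (nat_lit 232) (nat_lit 161)))) (XT.nd (nat_lit 78) (nat_lit 0) (nat_lit 0) (XT.lf (nat_lit 0) (nat_lit 4258663413) (nat_lit 76) (nat_lit 35625932664) (nat_lit 76) (nat_lit 19362569867) (nat_lit 5) (nat_lit 4) (nat_lit 6) (nat_lit 5) (nat_lit 6) (nat_lit 4) (nat_lit 388) (nat_lit 232) (nat_lit 160)) (XT.nd (nat_lit 78) (nat_lit 0) (nat_lit 0) (XT.lf (nat_lit 0) (nat_lit 10312656238) (nat_lit 76) (nat_lit 33470058791) (nat_lit 76) (nat_lit 17142683958) (nat_lit 5) (nat_lit 4) (nat_lit 6) (nat_lit 5) (nat_lit 6) (nat_lit 4) (nat_lit 389) (nat_lit 232) (nat_lit 159)) (XT.lf (nat_lit 0) (nat_lit 16515466457) (nat_lit 76) (nat_lit 31264291994) (nat_lit 76) (nat_lit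 14874769552) (nat_lit 5) (nat_lit 4) (nat_lit 6) (nat_lit 5) (nat_lit 6) (nat_lit 4) (nat_lit 390) (nat_lit 232) (nat_lit 158))))) (XT.nd (nat_lit 234) (nat_lit 0) (nat_lit 0) (XT.nd (nat_lit 78) (nat_lit 0) (nat_lit 0) (XT.lf (nat_lit 0) (nat_lit 22872514002) (nat_lit 76) (nat_lit 29006704904) (nat_lit 76) (nat_lit 12556844978) (nat_lit 5) (nat_lit 4) (nat_lit 6) (nat_lit 5) (nat_lit 6) (nat_lit 4) (nat_lit 391) (nat_lit 232) (nat_lit 157)) (XT.nd (nat_lit 78) (nat_lit 0) (nat_lit 0) (XT.lf (nat_lit 0) (nat_lit 29389353575) (nat_lit 76) (nat_lit 26695324872) (nat_lit 76) (nat_lit 10186884864) (nat_lit 5) (nat_lit 4) (nat_lit 6) (nat_lit 5) (nat_lit 6) (nat_lit 4) (nat_lit 392) (nat_lit 232) (nat_lit 156)) (XT.lf (nat_lit 0) (nat_lit 36071679502) (nat_lit 76) (nat_lit 24328132245) (nat_lit 76) (nat_lit 7762818371) (nat_lit 5) (nat_lit 4) (nat_lit 6) (nat_lit 5) (nat_lit 6) (nat_lit 4) (nat_lit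 393) (nat_lit 232) (nat_lit 155)))) (XT.nd (nat_lit 78) (nat_lit 0) (nat_lit 0) (XT.lf (nat_lit 0) (nat_lit 42925330708) (nat_lit 76) (nat_lit 21903058603) (nat_lit 76) (nat_lit 5282527384) (nat_lit 5) (nat_lit 4) (nat_lit 6) (nat_lit 5) (nat_lit 6) (nat_lit 4) (nat_lit 394) (nat_lit 232) (nat_lit 154)) (XT.nd (nat_lit 78) (nat_lit 0) (nat_lit 0) (XT.lf (nat_lit 0) (nat_lit 49956295820) (nat_lit 76) (nat_lit 19417984950) (nat_lit 76) (nat_lit 2743844657) (nat_lit 5) (nat_lit 4) (nat_lit 6) (nat_lit 5) (nat_lit 6) (nat_lit 4) (nat_lit 395) (nat_lit 232) (nat_lit 153)) (XT.lf (nat_lit 0) (nat_lit 57170718400) (nat_lit 76) (nat_lit 16870739861) (nat_lit 76) (nat_lit 144551925) (nat_lit 5) (nat_lit 4) (nat_lit 6) (nat_lit 5) (nat_lit 6) (nat_lit 4) (nat_lit 396) (nat_lit 232) (nat_lit 152))))))) (XT.nd (nat_lit 34554) (nat_lit 0) (nat_lit 2280) (XT.nd (nat_lit 468) (nat_lit 0) (nat_lit 0) (XT.nd (nat_lit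 234) (nat_lit 76) (nat_lit 0) (XT.nd (nat_lit 78) (nat_lit 0) (nat_lit 0) (XT.lf (nat_lit 0) (nat_lit 2468494165) (nat_lit 152) (nat_lit 11765676472) (nat_lit 76) (nat_lit 62081481196) (nat_lit 4) (nat_lit 5) (nat_lit 6) (nat_lit 5) (nat_lit 5) (nat_lit 4) (nat_lit 397) (nat_lit 232) (nat_lit 151)) (XT.nd (nat_lit 78) (nat_lit 0) (nat_lit 0) (XT.lf (nat_lit 0) (nat_lit 5142654500) (nat_lit 152) (nat_lit 6386190889) (nat_lit 76) (nat_lit 66980732006) (nat_lit 4) (nat_lit 5) (nat_lit 6) (nat_lit 5) (nat_lit 5) (nat_lit 4) (nat_lit 398) (nat_lit 232) (nat_lit 150)) (XT.lf (nat_lit 0) (nat_lit 7883086453) (nat_lit 152) (nat_lit 870744992) (nat_lit 76) (nat_lit 72015914132) (nat_lit 4) (nat_lit 5) (nat_lit 6) (nat_lit 5) (nat_lit 5) (nat_lit 4) (nat_lit 399) (nat_lit 232) (nat_lit 149)))) (XT.nd (nat_lit 78) (nat_lit 0) (nat_lit 0) (XT.lf (nat_lit 0) (nat_lit 4880720984) (nat_lit 76) (nat_lit 5858380066)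 (nat_lit 152) (nat_lit 72357622739) (nat_lit 3) (nat_lit 5) (nat_lit 4) (nat_lit 5) (nat_lit 5) (nat_lit 4) (nat_lit 400) (nat_lit 232) (nat_lit 148)) (XT.nd (nat_lit 78) (nat_lit 0) (nat_lit 0) (XT.lf (nat_lit 0) (nat_lit 10798138614) (nat_lit 76) (nat_lit 2878063119) (nat_lit 152) (nat_lit 71817453345) (nat_lit 3) (nat_lit 5) (nat_lit 4) (nat_lit 5) (nat_lit 5) (nat_lit 4) (nat_lit 401) (nat_lit 232) (nat_lit 147)) (XT.lf (nat_lit 0) (nat_lit 16690157399) (nat_lit 152) (nat_lit 71095280244) (nat_lit 0) (nat_lit 177400130) (nat_lit 3) (nat_lit 5) (nat_lit 5) (nat_lit 4) (nat_lit 3) (nat_lit 4) (nat_lit 402) (nat_lit 232) (nat_lit 146))))) (XT.nd (nat_lit 33852) (nat_lit 0) (nat_lit 3876) (XT.nd (nat_lit 33696) (nat_lit 0) (nat_lit 4408) (XT.lf (nat_lit 0) (nat_lit 19810308553) (nat_lit 152) (nat_lit 67438855259) (nat_lit 0) (nat_lit 3256464394) (nat_lit 3) (nat_lit 5) (nat_lit 5) (nat_lit 4)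 (nat_lit 3) (nat_lit 4) (nat_lit 403) (nat_lit 232) (nat_lit 145)) (XT.nd (nat_lit 78) (nat_lit 0) (nat_lit 0) (XT.lf (nat_lit 0) (nat_lit 1210981391) (nat_lit 304) (nat_lit 1973796047) (nat_lit 304) (nat_lit 1973796047) (nat_lit 61) (nat_lit 4) (nat_lit 65) (nat_lit 5) (nat_lit 65) (nat_lit 4) (nat_lit 314) (nat_lit 233) (nat_lit 233)) (XT.lf (nat_lit 0) (nat_lit 9108552152) (nat_lit 304) (nat_lit 1084500761) (nat_lit 304) (nat_lit 294866930) (nat_lit 61) (nat_lit 4) (nat_lit 65) (nat_lit 5) (nat_lit 65) (nat_lit 4) (nat_lit 315) (nat_lit 233) (nat_lit 232)))) (XT.nd (nat_lit 78) (nat_lit 228) (nat_lit 0) (XT.lf (nat_lit 0) (nat_lit 3381943036) (nat_lit 304) (nat_lit 5410506071) (nat_lit 0) (nat_lit 1871002630) (nat_lit 57) (nat_lit 5) (nat_lit 61) (nat_lit 4) (nat_lit 57) (nat_lit 4) (nat_lit 316) (nat_lit 233) (nat_lit 231)) (XT.nd (nat_lit 78) (nat_lit 0) (nat_lit 0) (XT.lf (nat_lit 0) (nat_lit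 1146644637) (nat_lit 228) (nat_lit 5966343333) (nat_lit 228) (nat_lit 3732776112) (nat_lit 54) (nat_lit 4) (nat_lit 57) (nat_lit 5) (nat_lit 57) (nat_lit 4) (nat_lit 317) (nat_lit 233) (nat_lit 230)) (XT.lf (nat_lit 0) (nat_lit 7882092504) (nat_lit 228) (nat_lit 3043798546) (nat_lit 228) (nat_lit 108651893) (nat_lit 54) (nat_lit 4) (nat_lit 57) (nat_lit 5) (nat_lit 57) (nat_lit 4) (nat_lit 318) (nat_lit 233) (nat_lit 229)))))) (XT.nd (nat_lit 468) (nat_lit 608) (nat_lit 0) (XT.nd (nat_lit 234) (nat_lit 456) (nat_lit 0) (XT.nd (nat_lit 78) (nat_lit 228) (nat_lit 0) (XT.lf (nat_lit 0) (nat_lit 3496709155) (nat_lit 228) (nat_lit 7232168) (nat_lit 304) (nat_lit 7725574210) (nat_lit 50) (nat_lit 5) (nat_lit 53) (nat_lit 5) (nat_lit 54) (nat_lit 4) (nat_lit 319) (nat_lit 233) (nat_lit 228)) (XT.nd (nat_lit 78) (nat_lit 228) (nat_lit 0) (XT.lf (nat_lit 0) (nat_lit 7202512552) (nat_lit 304) (nat_lit 1178980706)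 (nat_lit 0) (nat_lit 3049505141) (nat_lit 50) (nat_lit 5) (nat_lit 54) (nat_lit 4) (nat_lit 50) (nat_lit 4) (nat_lit 320) (nat_lit 233) (nat_lit 227)) (XT.lf (nat_lit 0) (nat_lit 5555348668) (nat_lit 228) (nat_lit 5430203872) (nat_lit 228) (nat_lit 653852222) (nat_lit 47) (nat_lit 4) (nat_lit 50) (nat_lit 5) (nat_lit 50) (nat_lit 4) (nat_lit 321) (nat_lit 233) (nat_lit 226)))) (XT.nd (nat_lit 78) (nat_lit 228) (nat_lit 0) (XT.lf (nat_lit 0) (nat_lit 518166413) (nat_lit 152) (nat_lit 2388093017) (nat_lit 228) (nat_lit 8948890388) (nat_lit 44) (nat_lit 5) (nat_lit 46) (nat_lit 5) (nat_lit 47) (nat_lit 4) (nat_lit 322) (nat_lit 233) (nat_lit 225)) (XT.nd (nat_lit 78) (nat_lit 228) (nat_lit 0) (XT.lf (nat_lit 0) (nat_lit 6550262721) (nat_lit 228) (nat_lit 4772262489) (nat_lit 0) (nat_lit 755018100) (nat_lit 44) (nat_lit 5) (nat_lit 47) (nat_lit 4) (nat_lit 44) (nat_lit 4) (nat_lit 323) (nat_lit 233)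 (nat_lit 224)) (XT.lf (nat_lit 0) (nat_lit 1880444982) (nat_lit 228) (nat_lit 8388182618) (nat_lit 228) (nat_lit 2039104715) (nat_lit 41) (nat_lit 4) (nat_lit 44) (nat_lit 5) (nat_lit 44) (nat_lit 4) (nat_lit 324) (nat_lit 233) (nat_lit 223))))) (XT.nd (nat_lit 234) (nat_lit 380) (nat_lit 0) (XT.nd (nat_lit 78) (nat_lit 152) (nat_lit 0) (XT.lf (nat_lit 0) (nat_lit 1495638625) (nat_lit 304) (nat_lit 3850633708) (nat_lit 76) (nat_lit 7199010024) (nat_lit 40) (nat_lit 5) (nat_lit 44) (nat_lit 5) (nat_lit 41) (nat_lit 4) (nat_lit 325) (nat_lit 233) (nat_lit 222)) (XT.nd (nat_lit 78) (nat_lit 0) (nat_lit 0) (XT.lf (nat_lit 0) (nat_lit 2839707952) (nat_lit 152) (nat_lit 2208828528) (nat_lit 228) (nat_lit 7742292452) (nat_lit 38) (nat_lit 5) (nat_lit 40) (nat_lit 5) (nat_lit 41) (nat_lit 4) (nat_lit 326) (nat_lit 233) (nat_lit 221)) (XT.lf (nat_lit 0) (nat_lit 8683522803) (nat_lit 228) (nat_lit 3362601743)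 (nat_lit 0) (nat_lit 998418907) (nat_lit 38) (nat_lit 5) (nat_lit 41) (nat_lit 4) (nat_lit 38) (nat_lit 4) (nat_lit 327) (nat_lit 233) (nat_lit 220)))) (XT.nd (nat_lit 78) (nat_lit 228) (nat_lit 0) (XT.lf (nat_lit 0) (nat_lit 3351071408) (nat_lit 152) (nat_lit 9059114593) (nat_lit 152) (nat_lit 896269243) (nat_lit 36) (nat_lit 4) (nat_lit 38) (nat_lit 5) (nat_lit 38) (nat_lit 4) (nat_lit 328) (nat_lit 233) (nat_lit 219)) (XT.nd (nat_lit 78) (nat_lit 152) (nat_lit 0) (XT.lf (nat_lit 0) (nat_lit 2583330607) (nat_lit 228) (nat_lit 3382510870) (nat_lit 76) (nat_lit 7610781550) (nat_lit 35) (nat_lit 5) (nat_lit 38) (nat_lit 5) (nat_lit 36) (nat_lit 4) (nat_lit 329) (nat_lit 233) (nat_lit 218)) (XT.lf (nat_lit 0) (nat_lit 3330692640) (nat_lit 152) (nat_lit 2781465874) (nat_lit 228) (nat_lit 7743644653) (nat_lit 33) (nat_lit 5) (nat_lit 35) (nat_lit 5) (nat_lit 36) (nat_lit 4) (nat_lit 330) (nat_lit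 233) (nat_lit 217))))))))
noncomputable def xc43 : XT := (XT.nd (nat_lit 1872) (nat_lit 532) (nat_lit 0) (XT.nd (nat_lit 936) (nat_lit 532) (nat_lit 0) (XT.nd (nat_lit 468) (nat_lit 532) (nat_lit 0) (XT.nd (nat_lit 234) (nat_lit 152) (nat_lit 0) (XT.nd (nat_lit 78) (nat_lit 228) (nat_lit 0) (XT.lf (nat_lit 0) (nat_lit 9717494580) (nat_lit 228) (nat_lit 3946385610) (nat_lit 0) (nat_lit 480416666) (nat_lit 33) (nat_lit 5) (nat_lit 36) (nat_lit 4) (nat_lit 33) (nat_lit 4) (nat_lit 331) (nat_lit 233) (nat_lit 216)) (XT.nd (nat_lit 78) (nat_lit 76) (nat_lit 0) (XT.lf (nat_lit 0) (nat_lit 2745491054) (nat_lit 152) (nat_lit 10672786676) (nat_lit 152) (nat_lit 1023604787) (nat_lit 31) (nat_lit 4) (nat_lit 33) (nat_lit 5) (nat_lit 33) (nat_lit 4) (nat_lit 332) (nat_lit 233) (nat_lit 215)) (XT.lf (nat_lit 0) (nat_lit 2407051281) (nat_lit 228) (nat_lit 5162968734) (nat_lit 76) (nat_lit 7178498958) (nat_lit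 30) (nat_lit 5) (nat_lit 33) (nat_lit 5) (nat_lit 31) (nat_lit 4) (nat_lit 333) (nat_lit 233) (nat_lit 214)))) (XT.nd (nat_lit 78) (nat_lit 0) (nat_lit 0) (XT.lf (nat_lit 0) (nat_lit 1477840062) (nat_lit 152) (nat_lit 4391899059) (nat_lit 228) (nat_lit 9195871832) (nat_lit 28) (nat_lit 5) (nat_lit 30) (nat_lit 5) (nat_lit 31) (nat_lit 4) (nat_lit 334) (nat_lit 233) (nat_lit 213)) (XT.nd (nat_lit 78) (nat_lit 0) (nat_lit 0) (XT.lf (nat_lit 0) (nat_lit 8317441182) (nat_lit 152) (nat_lit 1107339632) (nat_lit 228) (nat_lit 5967830236) (nat_lit 28) (nat_lit 5) (nat_lit 30) (nat_lit 5) (nat_lit 31) (nat_lit 4) (nat_lit 335) (nat_lit 233) (nat_lit 212)) (XT.lf (nat_lit 0) (nat_lit 13046143710) (nat_lit 228) (nat_lit 493744084) (nat_lit 0) (nat_lit 2190791365) (nat_lit 28) (nat_lit 5) (nat_lit 31) (nat_lit 4) (nat_lit 28) (nat_lit 4) (nat_lit 336) (nat_lit 233) (nat_lit 211))))) (XT.nd (nat_lit 234) (nat_lit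 228) (nat_lit 0) (XT.nd (nat_lit 78) (nat_lit 76) (nat_lit 0) (XT.lf (nat_lit 0) (nat_lit 694800709) (nat_lit 228) (nat_lit 9790037496) (nat_lit 76) (nat_lit 5593560923) (nat_lit 25) (nat_lit 5) (nat_lit 28) (nat_lit 5) (nat_lit 26) (nat_lit 4) (nat_lit 337) (nat_lit 233) (nat_lit 210)) (XT.nd (nat_lit 78) (nat_lit 76) (nat_lit 0) (XT.lf (nat_lit 0) (nat_lit 4066358605) (nat_lit 228) (nat_lit 3280853211) (nat_lit 76) (nat_lit 9090241575) (nat_lit 25) (nat_lit 5) (nat_lit 28) (nat_lit 5) (nat_lit 26) (nat_lit 4) (nat_lit 338) (nat_lit 233) (nat_lit 209)) (XT.lf (nat_lit 0) (nat_lit 3390866903) (nat_lit 76) (nat_lit 4122308843) (nat_lit 152) (nat_lit 9294922904) (nat_lit 24) (nat_lit 5) (nat_lit 25) (nat_lit 5) (nat_lit 26) (nat_lit 4) (nat_lit 339) (nat_lit 233) (nat_lit 208)))) (XT.nd (nat_lit 78) (nat_lit 228) (nat_lit 0) (XT.lf (nat_lit 0) (nat_lit 10232054855) (nat_lit 76) (nat_lit 806752090)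 (nat_lit 152) (nat_lit 6151835536) (nat_lit 24) (nat_lit 5) (nat_lit 25) (nat_lit 5) (nat_lit 26) (nat_lit 4) (nat_lit 340) (nat_lit 233) (nat_lit 207)) (XT.nd (nat_lit 78) (nat_lit 228) (nat_lit 0) (XT.lf (nat_lit 0) (nat_lit 14638864588) (nat_lit 152) (nat_lit 427688099) (nat_lit 0) (nat_lit 2519090505) (nat_lit 24) (nat_lit 5) (nat_lit 26) (nat_lit 4) (nat_lit 24) (nat_lit 4) (nat_lit 341) (nat_lit 233) (nat_lit 206)) (XT.lf (nat_lit 0) (nat_lit 361589929) (nat_lit 228) (nat_lit 11674787963) (nat_lit 76) (nat_lit 5955629517) (nat_lit 21) (nat_lit 5) (nat_lit 24) (nat_lit 5) (nat_lit 22) (nat_lit 4) (nat_lit 342) (nat_lit 233) (nat_lit 205)))))) (XT.nd (nat_lit 468) (nat_lit 228) (nat_lit 0) (XT.nd (nat_lit 234) (nat_lit 228) (nat_lit 0) (XT.nd (nat_lit 78) (nat_lit 76) (nat_lit 0) (XT.lf (nat_lit 0) (nat_lit 3659703710) (nat_lit 228) (nat_lit 5260239741) (nat_lit 76) (nat_lit 9491289046) (nat_lit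 21) (nat_lit 5) (nat_lit 24) (nat_lit 5) (nat_lit 22) (nat_lit 4) (nat_lit 343) (nat_lit 233) (nat_lit 204)) (XT.nd (nat_lit 78) (nat_lit 0) (nat_lit 0) (XT.lf (nat_lit 0) (nat_lit 1280638314) (nat_lit 76) (nat_lit 5735384278) (nat_lit 152) (nat_lit 11828269693) (nat_lit 20) (nat_lit 5) (nat_lit 21) (nat_lit 5) (nat_lit 22) (nat_lit 4) (nat_lit 344) (nat_lit 233) (nat_lit 203)) (XT.lf (nat_lit 0) (nat_lit 8035369094) (nat_lit 76) (nat_lit 2438409479) (nat_lit 152) (nat_lit 8816577623) (nat_lit 20) (nat_lit 5) (nat_lit 21) (nat_lit 5) (nat_lit 22) (nat_lit 4) (nat_lit 345) (nat_lit 233) (nat_lit 202)))) (XT.nd (nat_lit 78) (nat_lit 228) (nat_lit 0) (XT.lf (nat_lit 0) (nat_lit 13993272764) (nat_lit 152) (nat_lit 4855046170) (nat_lit 0) (nat_lit 902776665) (nat_lit 20) (nat_lit 5) (nat_lit 22) (nat_lit 4) (nat_lit 20) (nat_lit 4) (nat_lit 346) (nat_lit 233) (nat_lit 201)) (XT.nd (nat_lit 78) (nat_lit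 76) (nat_lit 0) (XT.lf (nat_lit 0) (nat_lit 1658925710) (nat_lit 152) (nat_lit 15949808261) (nat_lit 152) (nat_lit 2617244509) (nat_lit 18) (nat_lit 4) (nat_lit 20) (nat_lit 5) (nat_lit 20) (nat_lit 4) (nat_lit 347) (nat_lit 233) (nat_lit 200)) (XT.lf (nat_lit 0) (nat_lit 605415498) (nat_lit 228) (nat_lit 12338587429) (nat_lit 76) (nat_lit 7770960262) (nat_lit 17) (nat_lit 5) (nat_lit 20) (nat_lit 5) (nat_lit 18) (nat_lit 4) (nat_lit 348) (nat_lit 233) (nat_lit 199))))) (XT.nd (nat_lit 234) (nat_lit 152) (nat_lit 0) (XT.nd (nat_lit 78) (nat_lit 76) (nat_lit 0) (XT.lf (nat_lit 0) (nat_lit 3823998973) (nat_lit 228) (nat_lit 6033034953) (nat_lit 76) (nat_lit 11362280663) (nat_lit 17) (nat_lit 5) (nat_lit 20) (nat_lit 5) (nat_lit 18) (nat_lit 4) (nat_lit 349) (nat_lit 233) (nat_lit 198)) (XT.nd (nat_lit 78) (nat_lit 0) (nat_lit 0) (XT.lf (nat_lit 0) (nat_lit 387841095) (nat_lit 76) (nat_lit 6708277209)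 (nat_lit 152) (nat_lit 14643997982) (nat_lit 16) (nat_lit 5) (nat_lit 17) (nat_lit 5) (nat_lit 18) (nat_lit 4) (nat_lit 350) (nat_lit 233) (nat_lit 197)) (XT.lf (nat_lit 0) (nat_lit 7044401698) (nat_lit 76) (nat_lit 3436758269) (nat_lit 152) (nat_lit 11794967564) (nat_lit 16) (nat_lit 5) (nat_lit 17) (nat_lit 5) (nat_lit 18) (nat_lit 4) (nat_lit 351) (nat_lit 233) (nat_lit 196)))) (XT.nd (nat_lit 78) (nat_lit 152) (nat_lit 0) (XT.lf (nat_lit 0) (nat_lit 13822394041) (nat_lit 76) (nat_lit 100540324) (nat_lit 152) (nat_lit 8906656740) (nat_lit 16) (nat_lit 5) (nat_lit 17) (nat_lit 5) (nat_lit 18) (nat_lit 4) (nat_lit 352) (nat_lit 233) (nat_lit 195)) (XT.nd (nat_lit 78) (nat_lit 152) (nat_lit 0) (XT.lf (nat_lit 0) (nat_lit 17456202134) (nat_lit 152) (nat_lit 2705003235) (nat_lit 0) (nat_lit 3238832649) (nat_lit 16) (nat_lit 5) (nat_lit 18) (nat_lit 4) (nat_lit 16) (nat_lit 4) (nat_lit 353) (nat_lit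 233) (nat_lit 194)) (XT.lf (nat_lit 0) (nat_lit 3784344632) (nat_lit 152) (nat_lit 17305947385) (nat_lit 152) (nat_lit 2897487460) (nat_lit 14) (nat_lit 4) (nat_lit 16) (nat_lit 5) (nat_lit 16) (nat_lit 4) (nat_lit 354) (nat_lit 233) (nat_lit 193))))))) (XT.nd (nat_lit 936) (nat_lit 228) (nat_lit 0) (XT.nd (nat_lit 468) (nat_lit 152) (nat_lit 0) (XT.nd (nat_lit 234) (nat_lit 76) (nat_lit 0) (XT.nd (nat_lit 78) (nat_lit 0) (nat_lit 0) (XT.lf (nat_lit 0) (nat_lit 220687119) (nat_lit 228) (nat_lit 14145989771) (nat_lit 76) (nat_lit 10226877667) (nat_lit 13) (nat_lit 5) (nat_lit 16) (nat_lit 5) (nat_lit 14) (nat_lit 4) (nat_lit 355) (nat_lit 233) (nat_lit 192)) (XT.nd (nat_lit 78) (nat_lit 0) (nat_lit 0) (XT.lf (nat_lit 0) (nat_lit 3332945256) (nat_lit 228) (nat_lit 8008226820) (nat_lit 76) (nat_lit 13876730591) (nat_lit 13) (nat_lit 5) (nat_lit 16) (nat_lit 5) (nat_lit 14) (nat_lit 4) (nat_lit 356)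 (nat_lit 233) (nat_lit 191)) (XT.lf (nat_lit 0) (nat_lit 6498546815) (nat_lit 228) (nat_lit 1756930477) (nat_lit 76) (nat_lit 17606727635) (nat_lit 13) (nat_lit 5) (nat_lit 16) (nat_lit 5) (nat_lit 14) (nat_lit 4) (nat_lit 357) (nat_lit 233) (nat_lit 190)))) (XT.nd (nat_lit 78) (nat_lit 0) (nat_lit 0) (XT.lf (nat_lit 0) (nat_lit 4705176495) (nat_lit 76) (nat_lit 5060310396) (nat_lit 152) (nat_lit 16760180559) (nat_lit 12) (nat_lit 5) (nat_lit 13) (nat_lit 5) (nat_lit 14) (nat_lit 4) (nat_lit 358) (nat_lit 233) (nat_lit 189)) (XT.nd (nat_lit 78) (nat_lit 0) (nat_lit 0) (XT.lf (nat_lit 0) (nat_lit 11329290822) (nat_lit 76) (nat_lit 1780506719) (nat_lit 152) (nat_lit 14099877093) (nat_lit 12) (nat_lit 5) (nat_lit 13) (nat_lit 5) (nat_lit 14) (nat_lit 4) (nat_lit 359) (nat_lit 233) (nat_lit 188)) (XT.lf (nat_lit 0) (nat_lit 16532258915) (nat_lit 152) (nat_lit 9844189447) (nat_lit 0) (nat_lit 1538440058)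 (nat_lit 12) (nat_lit 5) (nat_lit 14) (nat_lit 4) (nat_lit 12) (nat_lit 4) (nat_lit 360) (nat_lit 233) (nat_lit 187))))) (XT.nd (nat_lit 234) (nat_lit 76) (nat_lit 0) (XT.nd (nat_lit 78) (nat_lit 76) (nat_lit 0) (XT.lf (nat_lit 0) (nat_lit 20038579628) (nat_lit 152) (nat_lit 3709351627) (nat_lit 0) (nat_lit 4893912213) (nat_lit 12) (nat_lit 5) (nat_lit 14) (nat_lit 4) (nat_lit 12) (nat_lit 4) (nat_lit 361) (nat_lit 233) (nat_lit 186)) (XT.nd (nat_lit 78) (nat_lit 0) (nat_lit 0) (XT.lf (nat_lit 0) (nat_lit 2597287945) (nat_lit 76) (nat_lit 21042386912) (nat_lit 76) (nat_lit 5751264585) (nat_lit 11) (nat_lit 4) (nat_lit 12) (nat_lit 5) (nat_lit 12) (nat_lit 4) (nat_lit 362) (nat_lit 233) (nat_lit 185)) (XT.lf (nat_lit 0) (nat_lit 9106855874) (nat_lit 76) (nat_lit 18244454008) (nat_lit 76) (nat_lit 2811142448) (nat_lit 11) (nat_lit 4) (nat_lit 12) (nat_lit 5) (nat_lit 12) (nat_lit 4) (nat_lit 363)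 (nat_lit 233) (nat_lit 184)))) (XT.nd (nat_lit 78) (nat_lit 0) (nat_lit 0) (XT.lf (nat_lit 0) (nat_lit 178658771) (nat_lit 152) (nat_lit 15208682053) (nat_lit 76) (nat_lit 15570753884) (nat_lit 10) (nat_lit 5) (nat_lit 12) (nat_lit 5) (nat_lit 11) (nat_lit 4) (nat_lit 364) (nat_lit 233) (nat_lit 183)) (XT.nd (nat_lit 78) (nat_lit 0) (nat_lit 0) (XT.lf (nat_lit 0) (nat_lit 3168364934) (nat_lit 152) (nat_lit 9273605533) (nat_lit 76) (nat_lit 19335817145) (nat_lit 10) (nat_lit 5) (nat_lit 12) (nat_lit 5) (nat_lit 11) (nat_lit 4) (nat_lit 365) (nat_lit 233) (nat_lit 182)) (XT.lf (nat_lit 0) (nat_lit 6215443918) (nat_lit 152) (nat_lit 3218158487) (nat_lit 76) (nat_lit 23189455546) (nat_lit 10) (nat_lit 5) (nat_lit 12) (nat_lit 5) (nat_lit 11) (nat_lit 4) (nat_lit 366) (nat_lit 233) (nat_lit 181)))))) (XT.nd (nat_lit 468) (nat_lit 152) (nat_lit 0) (XT.nd (nat_lit 234) (nat_lit 0) (nat_lit 0) (XT.nd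 (nat_lit 78) (nat_lit 0) (nat_lit 0) (XT.lf (nat_lit 0) (nat_lit 3021918771) (nat_lit 76) (nat_lit 6329687980) (nat_lit 152) (nat_lit 24142166104) (nat_lit 9) (nat_lit 5) (nat_lit 10) (nat_lit 5) (nat_lit 11) (nat_lit 4) (nat_lit 367) (nat_lit 233) (nat_lit 180)) (XT.nd (nat_lit 78) (nat_lit 0) (nat_lit 0) (XT.lf (nat_lit 0) (nat_lit 9459714760) (nat_lit 76) (nat_lit 3123640597) (nat_lit 152) (nat_lit 21807224938) (nat_lit 9) (nat_lit 5) (nat_lit 10) (nat_lit 5) (nat_lit 11) (nat_lit 4) (nat_lit 368) (nat_lit 233) (nat_lit 179)) (XT.lf (nat_lit 0) (nat_lit 15883451478) (nat_lit 152) (nat_lit 19279891789) (nat_lit 0) (nat_lit 151822486) (nat_lit 9) (nat_lit 5) (nat_lit 11) (nat_lit 4) (nat_lit 9) (nat_lit 4) (nat_lit 369) (nat_lit 233) (nat_lit 178)))) (XT.nd (nat_lit 78) (nat_lit 0) (nat_lit 0) (XT.lf (nat_lit 0) (nat_lit 19284039127) (nat_lit 152) (nat_lit 13543255537) (nat_lit 0) (nat_lit 3440164642)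 (nat_lit 9) (nat_lit 5) (nat_lit 11) (nat_lit 4) (nat_lit 9) (nat_lit 4) (nat_lit 370) (nat_lit 233) (nat_lit 177)) (XT.nd (nat_lit 78) (nat_lit 0) (nat_lit 0) (XT.lf (nat_lit 0) (nat_lit 22758063349) (nat_lit 152) (nat_lit 7685917841) (nat_lit 0) (nat_lit 6805212655) (nat_lit 9) (nat_lit 5) (nat_lit 11) (nat_lit 4) (nat_lit 9) (nat_lit 4) (nat_lit 371) (nat_lit 233) (nat_lit 176)) (XT.lf (nat_lit 0) (nat_lit 26308559698) (nat_lit 152) (nat_lit 1702760639) (nat_lit 0) (nat_lit 10249906861) (nat_lit 9) (nat_lit 5) (nat_lit 11) (nat_lit 4) (nat_lit 9) (nat_lit 4) (nat_lit 372) (nat_lit 233) (nat_lit 175))))) (XT.nd (nat_lit 234) (nat_lit 76) (nat_lit 0) (XT.nd (nat_lit 78) (nat_lit 0) (nat_lit 0) (XT.lf (nat_lit 0) (nat_lit 4499240457) (nat_lit 76) (nat_lit 25482639544) (nat_lit 76) (nat_lit 9321266179) (nat_lit 8) (nat_lit 4) (nat_lit 9) (nat_lit 5) (nat_lit 9) (nat_lit 4) (nat_lit 373) (nat_lit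 233) (nat_lit 174)) (XT.nd (nat_lit 78) (nat_lit 0) (nat_lit 0) (XT.lf (nat_lit 0) (nat_lit 10874234275) (nat_lit 76) (nat_lit 22881743328) (nat_lit 76) (nat_lit 6620641295) (nat_lit 8) (nat_lit 4) (nat_lit 9) (nat_lit 5) (nat_lit 9) (nat_lit 4) (nat_lit 374) (nat_lit 233) (nat_lit 173)) (XT.lf (nat_lit 0) (nat_lit 17393902921) (nat_lit 76) (nat_lit 20223553605) (nat_lit 76) (nat_lit 3865627623) (nat_lit 8) (nat_lit 4) (nat_lit 9) (nat_lit 5) (nat_lit 9) (nat_lit 4) (nat_lit 375) (nat_lit 233) (nat_lit 172)))) (XT.nd (nat_lit 78) (nat_lit 76) (nat_lit 0) (XT.lf (nat_lit 0) (nat_lit 24063943194) (nat_lit 76) (nat_lit 17505747685) (nat_lit 76) (nat_lit 1053817868) (nat_lit 8) (nat_lit 4) (nat_lit 9) (nat_lit 5) (nat_lit 9) (nat_lit 4) (nat_lit 376) (nat_lit 233) (nat_lit 171)) (XT.nd (nat_lit 78) (nat_lit 0) (nat_lit 0) (XT.lf (nat_lit 0) (nat_lit 1781783895) (nat_lit 152) (nat_lit 12926174368)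 (nat_lit 76) (nat_lit 29090406864) (nat_lit 7) (nat_lit 5) (nat_lit 9) (nat_lit 5) (nat_lit 8) (nat_lit 4) (nat_lit 377) (nat_lit 233) (nat_lit 170)) (XT.lf (nat_lit 0) (nat_lit 4657378382) (nat_lit 152) (nat_lit 7177325189) (nat_lit 76) (nat_lit 33174179093) (nat_lit 7) (nat_lit 5) (nat_lit 9) (nat_lit 5) (nat_lit 8) (nat_lit 4) (nat_lit 378) (nat_lit 233) (nat_lit 169))))))))
noncomputable def xc44 : XT := (XT.nd (nat_lit 1794) (nat_lit 0) (nat_lit 0) (XT.nd (nat_lit 858) (nat_lit 152) (nat_lit 0) (XT.nd (nat_lit 390) (nat_lit 76) (nat_lit 0) (XT.nd (nat_lit 156) (nat_lit 0) (nat_lit 0) (XT.nd (nat_lit 78) (nat_lit 76) (nat_lit 0) (XT.lf (nat_lit 0) (nat_lit 7596042029) (nat_lit 152) (nat_lit 1297864808) (nat_lit 76) (nat_lit 37362516152) (nat_lit 7) (nat_lit 5) (nat_lit 9) (nat_lit 5) (nat_lit 8) (nat_lit 4) (nat_lit 379) (nat_lit 233) (nat_lit 168)) (XT.lf (nat_lit 0) (nat_lit 4811228563)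 (nat_lit 76) (nat_lit 5835362511) (nat_lit 152) (nat_lit 36894097661) (nat_lit 6) (nat_lit 5) (nat_lit 7) (nat_lit 5) (nat_lit 8) (nat_lit 4) (nat_lit 380) (nat_lit 233) (nat_lit 167))) (XT.nd (nat_lit 78) (nat_lit 0) (nat_lit 0) (XT.lf (nat_lit 0) (nat_lit 11089962860) (nat_lit 76) (nat_lit 2689545865) (nat_lit 152) (nat_lit 35084258820) (nat_lit 6) (nat_lit 5) (nat_lit 7) (nat_lit 5) (nat_lit 8) (nat_lit 4) (nat_lit 381) (nat_lit 233) (nat_lit 166)) (XT.nd (nat_lit 78) (nat_lit 0) (nat_lit 0) (XT.lf (nat_lit 0) (nat_lit 16989933626) (nat_lit 152) (nat_lit 32714328240) (nat_lit 0) (nat_lit 522781603) (nat_lit 6) (nat_lit 5) (nat_lit 8) (nat_lit 4) (nat_lit 6) (nat_lit 4) (nat_lit 382) (nat_lit 233) (nat_lit 165)) (XT.lf (nat_lit 0) (nat_lit 20302161201) (nat_lit 152) (nat_lit 27568100133) (nat_lit 0) (nat_lit 3760801683) (nat_lit 6) (nat_lit 5) (nat_lit 8) (nat_lit 4) (nat_lit 6) (nat_lit 4)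 (nat_lit 383) (nat_lit 233) (nat_lit 164))))) (XT.nd (nat_lit 234) (nat_lit 76) (nat_lit 0) (XT.nd (nat_lit 78) (nat_lit 0) (nat_lit 0) (XT.lf (nat_lit 0) (nat_lit 23693232068) (nat_lit 152) (nat_lit 22304770101) (nat_lit 0) (nat_lit 7079826438) (nat_lit 6) (nat_lit 5) (nat_lit 8) (nat_lit 4) (nat_lit 6) (nat_lit 4) (nat_lit 384) (nat_lit 233) (nat_lit 163)) (XT.nd (nat_lit 78) (nat_lit 0) (nat_lit 0) (XT.lf (nat_lit 0) (nat_lit 27166109299) (nat_lit 152) (nat_lit 16919739116) (nat_lit 0) (nat_lit 10482755989) (nat_lit 6) (nat_lit 5) (nat_lit 8) (nat_lit 4) (nat_lit 6) (nat_lit 4) (nat_lit 385) (nat_lit 233) (nat_lit 162)) (XT.lf (nat_lit 0) (nat_lit 30723827447) (nat_lit 152) (nat_lit 11408301813) (nat_lit 0) (nat_lit 13972563767) (nat_lit 6) (nat_lit 5) (nat_lit 8) (nat_lit 4) (nat_lit 6) (nat_lit 4) (nat_lit 386) (nat_lit 233) (nat_lit 161)))) (XT.nd (nat_lit 78) (nat_lit 76) (nat_lit 0) (XT.lf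 (nat_lit 0) (nat_lit 34369495199) (nat_lit 152) (nat_lit 5765642372) (nat_lit 0) (nat_lit 17552299120) (nat_lit 6) (nat_lit 5) (nat_lit 8) (nat_lit 4) (nat_lit 6) (nat_lit 4) (nat_lit 387) (nat_lit 233) (nat_lit 160)) (XT.nd (nat_lit 78) (nat_lit 0) (nat_lit 0) (XT.lf (nat_lit 0) (nat_lit 13431788) (nat_lit 76) (nat_lit 38092995414) (nat_lit 76) (nat_lit 21211787299) (nat_lit 5) (nat_lit 4) (nat_lit 6) (nat_lit 5) (nat_lit 6) (nat_lit 4) (nat_lit 388) (nat_lit 233) (nat_lit 159)) (XT.lf (nat_lit 0) (nat_lit 6051265800) (nat_lit 76) (nat_lit 35944403951) (nat_lit 76) (nat_lit 19001048227) (nat_lit 5) (nat_lit 4) (nat_lit 6) (nat_lit 5) (nat_lit 6) (nat_lit 4) (nat_lit 389) (nat_lit 233) (nat_lit 158)))))) (XT.nd (nat_lit 468) (nat_lit 152) (nat_lit 0) (XT.nd (nat_lit 234) (nat_lit 0) (nat_lit 0) (XT.nd (nat_lit 78) (nat_lit 0) (nat_lit 0) (XT.lf (nat_lit 0) (nat_lit 12238387852) (nat_lit 76) (nat_lit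 33745707455) (nat_lit 76) (nat_lit 16742014247) (nat_lit 5) (nat_lit 4) (nat_lit 6) (nat_lit 5) (nat_lit 6) (nat_lit 4) (nat_lit 390) (nat_lit 233) (nat_lit 157)) (XT.nd (nat_lit 78) (nat_lit 0) (nat_lit 0) (XT.lf (nat_lit 0) (nat_lit 18580204166) (nat_lit 76) (nat_lit 31494984734) (nat_lit 76) (nat_lit 14432711445) (nat_lit 5) (nat_lit 4) (nat_lit 6) (nat_lit 5) (nat_lit 6) (nat_lit 4) (nat_lit 391) (nat_lit 233) (nat_lit 156)) (XT.lf (nat_lit 0) (nat_lit 25082256136) (nat_lit 76) (nat_lit 29190269139) (nat_lit 76) (nat_lit 12071121983) (nat_lit 5) (nat_lit 4) (nat_lit 6) (nat_lit 5) (nat_lit 6) (nat_lit 4) (nat_lit 392) (nat_lit 233) (nat_lit 155)))) (XT.nd (nat_lit 78) (nat_lit 0) (nat_lit 0) (XT.lf (nat_lit 0) (nat_lit 31750225167) (nat_lit 76) (nat_lit 26829546839) (nat_lit 76) (nat_lit 9655182338) (nat_lit 5) (nat_lit 4) (nat_lit 6) (nat_lit 5) (nat_lit 6) (nat_lit 4) (nat_lit 393) (nat_lit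 233) (nat_lit 154)) (XT.nd (nat_lit 78) (nat_lit 0) (nat_lit 0) (XT.lf (nat_lit 0) (nat_lit 38589937639) (nat_lit 76) (nat_lit 24410755068) (nat_lit 76) (nat_lit 7182781494) (nat_lit 5) (nat_lit 4) (nat_lit 6) (nat_lit 5) (nat_lit 6) (nat_lit 4) (nat_lit 394) (nat_lit 233) (nat_lit 153)) (XT.lf (nat_lit 0) (nat_lit 45607370000) (nat_lit 76) (nat_lit 21931780318) (nat_lit 76) (nat_lit 4651759100) (nat_lit 5) (nat_lit 4) (nat_lit 6) (nat_lit 5) (nat_lit 6) (nat_lit 4) (nat_lit 395) (nat_lit 233) (nat_lit 152))))) (XT.nd (nat_lit 234) (nat_lit 76) (nat_lit 0) (XT.nd (nat_lit 78) (nat_lit 76) (nat_lit 0) (XT.lf (nat_lit 0) (nat_lit 52808653986) (nat_lit 76) (nat_lit 19390456495) (nat_lit 76) (nat_lit 2059903584) (nat_lit 5) (nat_lit 4) (nat_lit 6) (nat_lit 5) (nat_lit 6) (nat_lit 4) (nat_lit 396) (nat_lit 233) (nat_lit 151)) (XT.nd (nat_lit 78) (nat_lit 0) (nat_lit 0) (XT.lf (nat_lit 0) (nat_lit 583438217)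 (nat_lit 152) (nat_lit 16195233225) (nat_lit 76) (nat_lit 59610752184) (nat_lit 4) (nat_lit 5) (nat_lit 6) (nat_lit 5) (nat_lit 5) (nat_lit 4) (nat_lit 397) (nat_lit 233) (nat_lit 150)) (XT.lf (nat_lit 0) (nat_lit 3250725058) (nat_lit 152) (nat_lit 10828271905) (nat_lit 76) (nat_lit 64504561511) (nat_lit 4) (nat_lit 5) (nat_lit 6) (nat_lit 5) (nat_lit 5) (nat_lit 4) (nat_lit 398) (nat_lit 233) (nat_lit 149)))) (XT.nd (nat_lit 78) (nat_lit 76) (nat_lit 0) (XT.lf (nat_lit 0) (nat_lit 5984483716) (nat_lit 152) (nat_lit 5324985488) (nat_lit 76) (nat_lit 69534460645) (nat_lit 4) (nat_lit 5) (nat_lit 6) (nat_lit 5) (nat_lit 5) (nat_lit 4) (nat_lit 399) (nat_lit 233) (nat_lit 148)) (XT.nd (nat_lit 78) (nat_lit 0) (nat_lit 0) (XT.lf (nat_lit 0) (nat_lit 325792100) (nat_lit 76) (nat_lit 8464442523) (nat_lit 152) (nat_lit 74382184254) (nat_lit 3) (nat_lit 5) (nat_lit 4) (nat_lit 5) (nat_lit 5) (nat_lit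 4) (nat_lit 400) (nat_lit 233) (nat_lit 147)) (XT.lf (nat_lit 0) (nat_lit 6231520149) (nat_lit 76) (nat_lit 5489412568) (nat_lit 152) (nat_lit 73848612348) (nat_lit 3) (nat_lit 5) (nat_lit 4) (nat_lit 5) (nat_lit 5) (nat_lit 4) (nat_lit 401) (nat_lit 233) (nat_lit 146))))))) (XT.nd (nat_lit 34398) (nat_lit 0) (nat_lit 2052) (XT.nd (nat_lit 33930) (nat_lit 0) (nat_lit 3344) (XT.nd (nat_lit 33696) (nat_lit 0) (nat_lit 4332) (XT.nd (nat_lit 78) (nat_lit 0) (nat_lit 0) (XT.lf (nat_lit 0) (nat_lit 12291381350) (nat_lit 76) (nat_lit 2435551711) (nat_lit 152) (nat_lit 73312036098) (nat_lit 3) (nat_lit 5) (nat_lit 4) (nat_lit 5) (nat_lit 5) (nat_lit 4) (nat_lit 402) (nat_lit 233) (nat_lit 145)) (XT.nd (nat_lit 33540) (nat_lit 0) (nat_lit 5016) (XT.lf (nat_lit 0) (nat_lit 17817589246) (nat_lit 152) (nat_lit 72078905169) (nat_lit 0) (nat_lit 686152686) (nat_lit 3) (nat_lit 5) (nat_lit 5) (nat_lit 4) (nat_lit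 3) (nat_lit 4) (nat_lit 403) (nat_lit 233) (nat_lit 144)) (XT.lf (nat_lit 0) (nat_lit 4755810289) (nat_lit 304) (nat_lit 120509163) (nat_lit 304) (nat_lit 120509163) (nat_lit 69) (nat_lit 4) (nat_lit 73) (nat_lit 5) (nat_lit 73) (nat_lit 4) (nat_lit 312) (nat_lit 234) (nat_lit 234)))) (XT.nd (nat_lit 78) (nat_lit 380) (nat_lit 0) (XT.lf (nat_lit 0) (nat_lit 3425192484) (nat_lit 304) (nat_lit 4115756232) (nat_lit 0) (nat_lit 2611869638) (nat_lit 65) (nat_lit 5) (nat_lit 69) (nat_lit 4) (nat_lit 65) (nat_lit 4) (nat_lit 313) (nat_lit 234) (nat_lit 233)) (XT.nd (nat_lit 78) (nat_lit 76) (nat_lit 0) (XT.lf (nat_lit 0) (nat_lit 2357120327) (nat_lit 304) (nat_lit 4782171766) (nat_lit 304) (nat_lit 3179215089) (nat_lit 61) (nat_lit 4) (nat_lit 65) (nat_lit 5) (nat_lit 65) (nat_lit 4) (nat_lit 314) (nat_lit 234) (nat_lit 232)) (XT.lf (nat_lit 0) (nat_lit 421484959) (nat_lit 380) (nat_lit 1513976997) (nat_lit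 76) (nat_lit 8555014725) (nat_lit 60) (nat_lit 5) (nat_lit 65) (nat_lit 5) (nat_lit 61) (nat_lit 4) (nat_lit 315) (nat_lit 234) (nat_lit 231))))) (XT.nd (nat_lit 234) (nat_lit 456) (nat_lit 0) (XT.nd (nat_lit 78) (nat_lit 304) (nat_lit 0) (XT.lf (nat_lit 0) (nat_lit 4040678778) (nat_lit 304) (nat_lit 5609371079) (nat_lit 0) (nat_lit 1017477726) (nat_lit 57) (nat_lit 5) (nat_lit 61) (nat_lit 4) (nat_lit 57) (nat_lit 4) (nat_lit 316) (nat_lit 234) (nat_lit 230)) (XT.nd (nat_lit 78) (nat_lit 76) (nat_lit 0) (XT.lf (nat_lit 0) (nat_lit 880113730) (nat_lit 228) (nat_lit 6847931899) (nat_lit 228) (nat_lit 3123151415) (nat_lit 54) (nat_lit 4) (nat_lit 57) (nat_lit 5) (nat_lit 57) (nat_lit 4) (nat_lit 317) (nat_lit 234) (nat_lit 229)) (XT.lf (nat_lit 0) (nat_lit 450238341) (nat_lit 304) (nat_lit 3491941730) (nat_lit 76) (nat_lit 7098924211) (nat_lit 53) (nat_lit 5) (nat_lit 57) (nat_lit 5) (nat_lit 54)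 (nat_lit 4) (nat_lit 318) (nat_lit 234) (nat_lit 228)))) (XT.nd (nat_lit 78) (nat_lit 228) (nat_lit 0) (XT.lf (nat_lit 0) (nat_lit 3087299164) (nat_lit 228) (nat_lit 929710997) (nat_lit 304) (nat_lit 7220389218) (nat_lit 50) (nat_lit 5) (nat_lit 53) (nat_lit 5) (nat_lit 54) (nat_lit 4) (nat_lit 319) (nat_lit 234) (nat_lit 227)) (XT.nd (nat_lit 78) (nat_lit 228) (nat_lit 0) (XT.lf (nat_lit 0) (nat_lit 7667324111) (nat_lit 304) (nat_lit 1648709735) (nat_lit 0) (nat_lit 2124337673) (nat_lit 50) (nat_lit 5) (nat_lit 54) (nat_lit 4) (nat_lit 50) (nat_lit 4) (nat_lit 320) (nat_lit 234) (nat_lit 226)) (XT.lf (nat_lit 0) (nat_lit 5015569493) (nat_lit 228) (nat_lit 6391363345) (nat_lit 228) (nat_lit 243188327) (nat_lit 47) (nat_lit 4) (nat_lit 50) (nat_lit 5) (nat_lit 50) (nat_lit 4) (nat_lit 321) (nat_lit 234) (nat_lit 225)))))) (XT.nd (nat_lit 468) (nat_lit 608) (nat_lit 0) (XT.nd (nat_lit 234) (nat_lit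 228) (nat_lit 0) (XT.nd (nat_lit 78) (nat_lit 380) (nat_lit 0) (XT.lf (nat_lit 0) (nat_lit 3265822018) (nat_lit 304) (nat_lit 106118050) (nat_lit 76) (nat_lit 8495138390) (nat_lit 46) (nat_lit 5) (nat_lit 50) (nat_lit 5) (nat_lit 47) (nat_lit 4) (nat_lit 322) (nat_lit 234) (nat_lit 224)) (XT.nd (nat_lit 78) (nat_lit 228) (nat_lit 0) (XT.lf (nat_lit 0) (nat_lit 6627364152) (nat_lit 152) (nat_lit 236453177) (nat_lit 228) (nat_lit 5227071783) (nat_lit 44) (nat_lit 5) (nat_lit 46) (nat_lit 5) (nat_lit 47) (nat_lit 4) (nat_lit 323) (nat_lit 234) (nat_lit 223)) (XT.lf (nat_lit 0) (nat_lit 1118231519) (nat_lit 228) (nat_lit 9417678178) (nat_lit 228) (nat_lit 1786592441) (nat_lit 41) (nat_lit 4) (nat_lit 44) (nat_lit 5) (nat_lit 44) (nat_lit 4) (nat_lit 324) (nat_lit 234) (nat_lit 222)))) (XT.nd (nat_lit 78) (nat_lit 152) (nat_lit 0) (XT.lf (nat_lit 0) (nat_lit 1706671352) (nat_lit 304) (nat_lit 4688583878)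 (nat_lit 76) (nat_lit 6165854486) (nat_lit 40) (nat_lit 5) (nat_lit 44) (nat_lit 5) (nat_lit 41) (nat_lit 4) (nat_lit 325) (nat_lit 234) (nat_lit 221)) (XT.nd (nat_lit 78) (nat_lit 0) (nat_lit 0) (XT.lf (nat_lit 0) (nat_lit 1927115268) (nat_lit 152) (nat_lit 3288194041) (nat_lit 228) (nat_lit 7592707583) (nat_lit 38) (nat_lit 5) (nat_lit 40) (nat_lit 5) (nat_lit 41) (nat_lit 4) (nat_lit 326) (nat_lit 234) (nat_lit 220)) (XT.lf (nat_lit 0) (nat_lit 8723153758) (nat_lit 152) (nat_lit 82358600) (nat_lit 228) (nat_lit 4257594403) (nat_lit 38) (nat_lit 5) (nat_lit 40) (nat_lit 5) (nat_lit 41) (nat_lit 4) (nat_lit 327) (nat_lit 234) (nat_lit 219))))) (XT.nd (nat_lit 234) (nat_lit 228) (nat_lit 0) (XT.nd (nat_lit 78) (nat_lit 228) (nat_lit 0) (XT.lf (nat_lit 0) (nat_lit 2298482260) (nat_lit 152) (nat_lit 10188609277) (nat_lit 152) (nat_lit 839310458) (nat_lit 36) (nat_lit 4) (nat_lit 38) (nat_lit 5)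 (nat_lit 38) (nat_lit 4) (nat_lit 328) (nat_lit 234) (nat_lit 218)) (XT.nd (nat_lit 78) (nat_lit 152) (nat_lit 0) (XT.lf (nat_lit 0) (nat_lit 2605107739) (nat_lit 228) (nat_lit 4511247248) (nat_lit 76) (nat_lit 6481249617) (nat_lit 35) (nat_lit 5) (nat_lit 38) (nat_lit 5) (nat_lit 36) (nat_lit 4) (nat_lit 329) (nat_lit 234) (nat_lit 217)) (XT.lf (nat_lit 0) (nat_lit 2124384855) (nat_lit 152) (nat_lit 3964877174) (nat_lit 228) (nat_lit 7788891220) (nat_lit 33) (nat_lit 5) (nat_lit 35) (nat_lit 5) (nat_lit 36) (nat_lit 4) (nat_lit 330) (nat_lit 234) (nat_lit 216)))) (XT.nd (nat_lit 78) (nat_lit 228) (nat_lit 0) (XT.lf (nat_lit 0) (nat_lit 8942952456) (nat_lit 152) (nat_lit 714306960) (nat_lit 228) (nat_lit 4510535156) (nat_lit 33) (nat_lit 5) (nat_lit 35) (nat_lit 5) (nat_lit 36) (nat_lit 4) (nat_lit 331) (nat_lit 234) (nat_lit 215)) (XT.nd (nat_lit 78) (nat_lit 76) (nat_lit 0) (XT.lf (nat_lit 0)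 (nat_lit 1394818240) (nat_lit 152) (nat_lit 11911501313) (nat_lit 152) (nat_lit 1160639046) (nat_lit 31) (nat_lit 4) (nat_lit 33) (nat_lit 5) (nat_lit 33) (nat_lit 4) (nat_lit 332) (nat_lit 234) (nat_lit 214)) (XT.lf (nat_lit 0) (nat_lit 2240907621) (nat_lit 228) (nat_lit 6590267316) (nat_lit 76) (nat_lit 5943438279) (nat_lit 30) (nat_lit 5) (nat_lit 33) (nat_lit 5) (nat_lit 31) (nat_lit 4) (nat_lit 333) (nat_lit 234) (nat_lit 213))))))))
noncomputable def xc45 : XT := (XT.nd (nat_lit 1872) (nat_lit 532) (nat_lit 0) (XT.nd (nat_lit 936) (nat_lit 532) (nat_lit 0) (XT.nd (nat_lit 468) (nat_lit 304) (nat_lit 0) (XT.nd (nat_lit 234) (nat_lit 304) (nat_lit 0) (XT.nd (nat_lit 78) (nat_lit 152) (nat_lit 0) (XT.lf (nat_lit 0) (nat_lit 5658531858) (nat_lit 228) (nat_lit 29623630) (nat_lit 76) (nat_lit 9404926027) (nat_lit 30) (nat_lit 5) (nat_lit 33) (nat_lit 5) (nat_lit 31) (nat_lit 4) (nat_lit 334) (nat_lit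 234) (nat_lit 212)) (XT.nd (nat_lit 78) (nat_lit 0) (nat_lit 0) (XT.lf (nat_lit 0) (nat_lit 6758563998) (nat_lit 152) (nat_lit 2424271640) (nat_lit 228) (nat_lit 6238191810) (nat_lit 28) (nat_lit 5) (nat_lit 30) (nat_lit 5) (nat_lit 31) (nat_lit 4) (nat_lit 335) (nat_lit 234) (nat_lit 211)) (XT.lf (nat_lit 0) (nat_lit 12761788547) (nat_lit 228) (nat_lit 2118441787) (nat_lit 0) (nat_lit 880160531) (nat_lit 28) (nat_lit 5) (nat_lit 31) (nat_lit 4) (nat_lit 28) (nat_lit 4) (nat_lit 336) (nat_lit 234) (nat_lit 210)))) (XT.nd (nat_lit 78) (nat_lit 76) (nat_lit 0) (XT.lf (nat_lit 0) (nat_lit 341102873) (nat_lit 228) (nat_lit 11524267425) (nat_lit 76) (nat_lit 4244225579) (nat_lit 25) (nat_lit 5) (nat_lit 28) (nat_lit 5) (nat_lit 26) (nat_lit 4) (nat_lit 337) (nat_lit 234) (nat_lit 209)) (XT.nd (nat_lit 78) (nat_lit 76) (nat_lit 0) (XT.lf (nat_lit 0) (nat_lit 3683851618) (nat_lit 228) (nat_lit 5063806157)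 (nat_lit 76) (nat_lit 7721877697) (nat_lit 25) (nat_lit 5) (nat_lit 28) (nat_lit 5) (nat_lit 26) (nat_lit 4) (nat_lit 338) (nat_lit 234) (nat_lit 208)) (XT.lf (nat_lit 0) (nat_lit 1524184357) (nat_lit 76) (nat_lit 5560570658) (nat_lit 152) (nat_lit 9756823572) (nat_lit 24) (nat_lit 5) (nat_lit 25) (nat_lit 5) (nat_lit 26) (nat_lit 4) (nat_lit 339) (nat_lit 234) (nat_lit 207))))) (XT.nd (nat_lit 234) (nat_lit 152) (nat_lit 0) (XT.nd (nat_lit 78) (nat_lit 152) (nat_lit 0) (XT.lf (nat_lit 0) (nat_lit 8318532172) (nat_lit 76) (nat_lit 2264248397) (nat_lit 152) (nat_lit 6642189866) (nat_lit 24) (nat_lit 5) (nat_lit 25) (nat_lit 5) (nat_lit 26) (nat_lit 4) (nat_lit 340) (nat_lit 234) (nat_lit 206)) (XT.nd (nat_lit 78) (nat_lit 152) (nat_lit 0) (XT.lf (nat_lit 0) (nat_lit 14141846761) (nat_lit 152) (nat_lit 2407648059) (nat_lit 0) (nat_lit 1071725339) (nat_lit 24) (nat_lit 5) (nat_lit 26) (nat_lit 4)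 (nat_lit 24) (nat_lit 4) (nat_lit 341) (nat_lit 234) (nat_lit 205)) (XT.lf (nat_lit 0) (nat_lit 4255838235) (nat_lit 152) (nat_lit 13561998372) (nat_lit 152) (nat_lit 211254195) (nat_lit 22) (nat_lit 4) (nat_lit 24) (nat_lit 5) (nat_lit 24) (nat_lit 4) (nat_lit 342) (nat_lit 234) (nat_lit 204)))) (XT.nd (nat_lit 78) (nat_lit 76) (nat_lit 0) (XT.lf (nat_lit 0) (nat_lit 3064849604) (nat_lit 228) (nat_lit 7401548753) (nat_lit 76) (nat_lit 7982780057) (nat_lit 21) (nat_lit 5) (nat_lit 24) (nat_lit 5) (nat_lit 22) (nat_lit 4) (nat_lit 343) (nat_lit 234) (nat_lit 203)) (XT.nd (nat_lit 78) (nat_lit 76) (nat_lit 0) (XT.lf (nat_lit 0) (nat_lit 6383487033) (nat_lit 228) (nat_lit 929228634) (nat_lit 76) (nat_lit 11570670100) (nat_lit 21) (nat_lit 5) (nat_lit 24) (nat_lit 5) (nat_lit 22) (nat_lit 4) (nat_lit 344) (nat_lit 234) (nat_lit 202)) (XT.lf (nat_lit 0) (nat_lit 5763867740) (nat_lit 76) (nat_lit 4043218281)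 (nat_lit 152) (nat_lit 9523404987) (nat_lit 20) (nat_lit 5) (nat_lit 21) (nat_lit 5) (nat_lit 22) (nat_lit 4) (nat_lit 345) (nat_lit 234) (nat_lit 201)))))) (XT.nd (nat_lit 468) (nat_lit 228) (nat_lit 0) (XT.nd (nat_lit 234) (nat_lit 152) (nat_lit 0) (XT.nd (nat_lit 78) (nat_lit 152) (nat_lit 0) (XT.lf (nat_lit 0) (nat_lit 12591779950) (nat_lit 76) (nat_lit 701632126) (nat_lit 152) (nat_lit 6498829518) (nat_lit 20) (nat_lit 5) (nat_lit 21) (nat_lit 5) (nat_lit 22) (nat_lit 4) (nat_lit 346) (nat_lit 234) (nat_lit 200)) (XT.nd (nat_lit 78) (nat_lit 152) (nat_lit 0) (XT.lf (nat_lit 0) (nat_lit 16862409100) (nat_lit 152) (nat_lit 753341324) (nat_lit 0) (nat_lit 2652783645) (nat_lit 20) (nat_lit 5) (nat_lit 22) (nat_lit 4) (nat_lit 20) (nat_lit 4) (nat_lit 347) (nat_lit 234) (nat_lit 199)) (XT.lf (nat_lit 0) (nat_lit 5914408966) (nat_lit 152) (nat_lit 14641013141) (nat_lit 152) (nat_lit 203215707)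 (nat_lit 18) (nat_lit 4) (nat_lit 20) (nat_lit 5) (nat_lit 20) (nat_lit 4) (nat_lit 348) (nat_lit 234) (nat_lit 198)))) (XT.nd (nat_lit 78) (nat_lit 76) (nat_lit 0) (XT.lf (nat_lit 0) (nat_lit 2996303773) (nat_lit 228) (nat_lit 8576826967) (nat_lit 76) (nat_lit 9690622298) (nat_lit 17) (nat_lit 5) (nat_lit 20) (nat_lit 5) (nat_lit 18) (nat_lit 4) (nat_lit 349) (nat_lit 234) (nat_lit 197)) (XT.nd (nat_lit 78) (nat_lit 76) (nat_lit 0) (XT.lf (nat_lit 0) (nat_lit 6242336234) (nat_lit 228) (nat_lit 2202455045) (nat_lit 76) (nat_lit 13340559984) (nat_lit 17) (nat_lit 5) (nat_lit 20) (nat_lit 5) (nat_lit 18) (nat_lit 4) (nat_lit 350) (nat_lit 234) (nat_lit 196)) (XT.lf (nat_lit 0) (nat_lit 4371718157) (nat_lit 76) (nat_lit 5211988957) (nat_lit 152) (nat_lit 12738979033) (nat_lit 16) (nat_lit 5) (nat_lit 17) (nat_lit 5) (nat_lit 18) (nat_lit 4) (nat_lit 351) (nat_lit 234) (nat_lit 195))))) (XT.nd (nat_lit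 234) (nat_lit 76) (nat_lit 0) (XT.nd (nat_lit 78) (nat_lit 152) (nat_lit 0) (XT.lf (nat_lit 0) (nat_lit 11112279214) (nat_lit 76) (nat_lit 1891767262) (nat_lit 152) (nat_lit 9872759417) (nat_lit 16) (nat_lit 5) (nat_lit 17) (nat_lit 5) (nat_lit 18) (nat_lit 4) (nat_lit 352) (nat_lit 234) (nat_lit 194)) (XT.nd (nat_lit 78) (nat_lit 152) (nat_lit 0) (XT.lf (nat_lit 0) (nat_lit 16499135875) (nat_lit 152) (nat_lit 5481943310) (nat_lit 0) (nat_lit 1467331712) (nat_lit 16) (nat_lit 5) (nat_lit 18) (nat_lit 4) (nat_lit 16) (nat_lit 4) (nat_lit 353) (nat_lit 234) (nat_lit 193)) (XT.lf (nat_lit 0) (nat_lit 915670242) (nat_lit 152) (nat_lit 19169630547) (nat_lit 152) (nat_lit 3952301685) (nat_lit 14) (nat_lit 4) (nat_lit 16) (nat_lit 5) (nat_lit 16) (nat_lit 4) (nat_lit 354) (nat_lit 234) (nat_lit 192)))) (XT.nd (nat_lit 78) (nat_lit 76) (nat_lit 0) (XT.lf (nat_lit 0) (nat_lit 7545713310) (nat_lit 152)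 (nat_lit 16247897002) (nat_lit 152) (nat_lit 850447072) (nat_lit 14) (nat_lit 4) (nat_lit 16) (nat_lit 5) (nat_lit 16) (nat_lit 4) (nat_lit 355) (nat_lit 234) (nat_lit 191)) (XT.nd (nat_lit 78) (nat_lit 0) (nat_lit 0) (XT.lf (nat_lit 0) (nat_lit 2258689935) (nat_lit 228) (nat_lit 10987184183) (nat_lit 76) (nat_lit 12023379438) (nat_lit 13) (nat_lit 5) (nat_lit 16) (nat_lit 5) (nat_lit 14) (nat_lit 4) (nat_lit 356) (nat_lit 234) (nat_lit 190)) (XT.lf (nat_lit 0) (nat_lit 5405149344) (nat_lit 228) (nat_lit 4769652964) (nat_lit 76) (nat_lit 15739338762) (nat_lit 13) (nat_lit 5) (nat_lit 16) (nat_lit 5) (nat_lit 14) (nat_lit 4) (nat_lit 357) (nat_lit 234) (nat_lit 189))))))) (XT.nd (nat_lit 936) (nat_lit 228) (nat_lit 0) (XT.nd (nat_lit 468) (nat_lit 152) (nat_lit 0) (XT.nd (nat_lit 234) (nat_lit 76) (nat_lit 0) (XT.nd (nat_lit 78) (nat_lit 0) (nat_lit 0) (XT.lf (nat_lit 0) (nat_lit 1599060831) (nat_lit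 76) (nat_lit 7024586093) (nat_lit 152) (nat_lit 17955420612) (nat_lit 12) (nat_lit 5) (nat_lit 13) (nat_lit 5) (nat_lit 14) (nat_lit 4) (nat_lit 358) (nat_lit 234) (nat_lit 188)) (XT.nd (nat_lit 78) (nat_lit 0) (nat_lit 0) (XT.lf (nat_lit 0) (nat_lit 8190714874) (nat_lit 76) (nat_lit 3758887359) (nat_lit 152) (nat_lit 15314033506) (nat_lit 12) (nat_lit 5) (nat_lit 13) (nat_lit 5) (nat_lit 14) (nat_lit 4) (nat_lit 359) (nat_lit 234) (nat_lit 187)) (XT.lf (nat_lit 0) (nat_lit 14916143414) (nat_lit 76) (nat_lit 423016728) (nat_lit 152) (nat_lit 12630686542) (nat_lit 12) (nat_lit 5) (nat_lit 13) (nat_lit 5) (nat_lit 14) (nat_lit 4) (nat_lit 360) (nat_lit 234) (nat_lit 186)))) (XT.nd (nat_lit 78) (nat_lit 76) (nat_lit 0) (XT.lf (nat_lit 0) (nat_lit 18823985089) (nat_lit 152) (nat_lit 6945797098) (nat_lit 0) (nat_lit 2927674182) (nat_lit 12) (nat_lit 5) (nat_lit 14) (nat_lit 4) (nat_lit 12) (nat_lit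 4) (nat_lit 361) (nat_lit 234) (nat_lit 185)) (XT.nd (nat_lit 78) (nat_lit 76) (nat_lit 0) (XT.lf (nat_lit 0) (nat_lit 22383191781) (nat_lit 152) (nat_lit 719935058) (nat_lit 0) (nat_lit 6344691640) (nat_lit 12) (nat_lit 5) (nat_lit 14) (nat_lit 4) (nat_lit 12) (nat_lit 4) (nat_lit 362) (nat_lit 234) (nat_lit 184)) (XT.lf (nat_lit 0) (nat_lit 5745504710) (nat_lit 76) (nat_lit 20325548504) (nat_lit 76) (nat_lit 4149000563) (nat_lit 11) (nat_lit 4) (nat_lit 12) (nat_lit 5) (nat_lit 12) (nat_lit 4) (nat_lit 363) (nat_lit 234) (nat_lit 183))))) (XT.nd (nat_lit 234) (nat_lit 76) (nat_lit 0) (XT.nd (nat_lit 78) (nat_lit 76) (nat_lit 0) (XT.lf (nat_lit 0) (nat_lit 12360933518) (nat_lit 76) (nat_lit 17482942954) (nat_lit 76) (nat_lit 1172368023) (nat_lit 11) (nat_lit 4) (nat_lit 12) (nat_lit 5) (nat_lit 12) (nat_lit 4) (nat_lit 364) (nat_lit 234) (nat_lit 182)) (XT.nd (nat_lit 78) (nat_lit 0) (nat_lit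 0) (XT.lf (nat_lit 0) (nat_lit 1824294886) (nat_lit 152) (nat_lit 12737379603) (nat_lit 76) (nat_lit 17275087028) (nat_lit 10) (nat_lit 5) (nat_lit 12) (nat_lit 5) (nat_lit 11) (nat_lit 4) (nat_lit 365) (nat_lit 234) (nat_lit 181)) (XT.lf (nat_lit 0) (nat_lit 4855917194) (nat_lit 152) (nat_lit 6709519610) (nat_lit 76) (nat_lit 21117066929) (nat_lit 10) (nat_lit 5) (nat_lit 12) (nat_lit 5) (nat_lit 11) (nat_lit 4) (nat_lit 366) (nat_lit 234) (nat_lit 180)))) (XT.nd (nat_lit 78) (nat_lit 76) (nat_lit 0) (XT.lf (nat_lit 0) (nat_lit 7948025014) (nat_lit 152) (nat_lit 555194418) (nat_lit 76) (nat_lit 25051328795) (nat_lit 10) (nat_lit 5) (nat_lit 12) (nat_lit 5) (nat_lit 11) (nat_lit 4) (nat_lit 367) (nat_lit 234) (nat_lit 179)) (XT.nd (nat_lit 78) (nat_lit 0) (nat_lit 0) (XT.lf (nat_lit 0) (nat_lit 5845031150) (nat_lit 76) (nat_lit 5314475052) (nat_lit 152) (nat_lit 23292465195) (nat_lit 9) (nat_lit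 5) (nat_lit 10) (nat_lit 5) (nat_lit 11) (nat_lit 4) (nat_lit 368) (nat_lit 234) (nat_lit 178)) (XT.lf (nat_lit 0) (nat_lit 12396374956) (nat_lit 76) (nat_lit 2047346352) (nat_lit 152) (nat_lit 20933319460) (nat_lit 9) (nat_lit 5) (nat_lit 10) (nat_lit 5) (nat_lit 11) (nat_lit 4) (nat_lit 369) (nat_lit 234) (nat_lit 177)))))) (XT.nd (nat_lit 468) (nat_lit 152) (nat_lit 0) (XT.nd (nat_lit 234) (nat_lit 76) (nat_lit 0) (XT.nd (nat_lit 78) (nat_lit 0) (nat_lit 0) (XT.lf (nat_lit 0) (nat_lit 17810549274) (nat_lit 152) (nat_lit 17249668252) (nat_lit 0) (nat_lit 1270136851) (nat_lit 9) (nat_lit 5) (nat_lit 11) (nat_lit 4) (nat_lit 9) (nat_lit 4) (nat_lit 370) (nat_lit 234) (nat_lit 176)) (XT.nd (nat_lit 78) (nat_lit 0) (nat_lit 0) (XT.lf (nat_lit 0) (nat_lit 21270904235) (nat_lit 152) (nat_lit 11416912144) (nat_lit 0) (nat_lit 4624689669) (nat_lit 9) (nat_lit 5) (nat_lit 11) (nat_lit 4) (nat_lit 9)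 (nat_lit 4) (nat_lit 371) (nat_lit 234) (nat_lit 175)) (XT.lf (nat_lit 0) (nat_lit 24808129457) (nat_lit 152) (nat_lit 5457620562) (nat_lit 0) (nat_lit 8059194363) (nat_lit 9) (nat_lit 5) (nat_lit 11) (nat_lit 4) (nat_lit 9) (nat_lit 4) (nat_lit 372) (nat_lit 234) (nat_lit 174)))) (XT.nd (nat_lit 78) (nat_lit 0) (nat_lit 0) (XT.lf (nat_lit 0) (nat_lit 646019816) (nat_lit 76) (nat_lit 27785505841) (nat_lit 76) (nat_lit 10936842079) (nat_lit 8) (nat_lit 4) (nat_lit 9) (nat_lit 5) (nat_lit 9) (nat_lit 4) (nat_lit 373) (nat_lit 234) (nat_lit 173)) (XT.nd (nat_lit 78) (nat_lit 0) (nat_lit 0) (XT.lf (nat_lit 0) (nat_lit 6998070291) (nat_lit 76) (nat_lit 25194823112) (nat_lit 76) (nat_lit 8249335401) (nat_lit 8) (nat_lit 4) (nat_lit 9) (nat_lit 5) (nat_lit 9) (nat_lit 4) (nat_lit 374) (nat_lit 234) (nat_lit 172)) (XT.lf (nat_lit 0) (nat_lit 13495463847) (nat_lit 76) (nat_lit 22546549396) (nat_lit 76)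 (nat_lit 5507057851) (nat_lit 8) (nat_lit 4) (nat_lit 9) (nat_lit 5) (nat_lit 9) (nat_lit 4) (nat_lit 375) (nat_lit 234) (nat_lit 171))))) (XT.nd (nat_lit 234) (nat_lit 76) (nat_lit 0) (XT.nd (nat_lit 78) (nat_lit 76) (nat_lit 0) (XT.lf (nat_lit 0) (nat_lit 20143877818) (nat_lit 76) (nat_lit 19838370668) (nat_lit 76) (nat_lit 2707613264) (nat_lit 8) (nat_lit 4) (nat_lit 9) (nat_lit 5) (nat_lit 9) (nat_lit 4) (nat_lit 376) (nat_lit 234) (nat_lit 170)) (XT.nd (nat_lit 78) (nat_lit 0) (nat_lit 0) (XT.lf (nat_lit 0) (nat_lit 148489248) (nat_lit 152) (nat_lit 16917931859) (nat_lit 76) (nat_lit 26799132800) (nat_lit 7) (nat_lit 5) (nat_lit 9) (nat_lit 5) (nat_lit 8) (nat_lit 4) (nat_lit 377) (nat_lit 234) (nat_lit 169)) (XT.lf (nat_lit 0) (nat_lit 3012655817) (nat_lit 152) (nat_lit 11189700549) (nat_lit 76) (nat_lit 30874063484) (nat_lit 7) (nat_lit 5) (nat_lit 9) (nat_lit 5) (nat_lit 8) (nat_lit 4)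 (nat_lit 378) (nat_lit 234) (nat_lit 168)))) (XT.nd (nat_lit 78) (nat_lit 76) (nat_lit 0) (XT.lf (nat_lit 0) (nat_lit 5940224399) (nat_lit 152) (nat_lit 5330257517) (nat_lit 76) (nat_lit 35053816518) (nat_lit 7) (nat_lit 5) (nat_lit 9) (nat_lit 5) (nat_lit 8) (nat_lit 4) (nat_lit 379) (nat_lit 234) (nat_lit 167)) (XT.nd (nat_lit 78) (nat_lit 0) (nat_lit 0) (XT.lf (nat_lit 0) (nat_lit 678762233) (nat_lit 76) (nat_lit 8261515507) (nat_lit 152) (nat_lit 38669806558) (nat_lit 6) (nat_lit 5) (nat_lit 7) (nat_lit 5) (nat_lit 8) (nat_lit 4) (nat_lit 380) (nat_lit 234) (nat_lit 166)) (XT.lf (nat_lit 0) (nat_lit 6938252743) (nat_lit 76) (nat_lit 5124299500) (nat_lit 152) (nat_lit 36870935253) (nat_lit 6) (nat_lit 5) (nat_lit 7) (nat_lit 5) (nat_lit 8) (nat_lit 4) (nat_lit 381) (nat_lit 234) (nat_lit 165))))))))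
noncomputable def xc46 : XT := (XT.nd (nat_lit 35100) (nat_lit 0) (nat_lit 2052) (XT.nd (nat_lit 858) (nat_lit 152) (nat_lit 0) (XT.nd (nat_lit 390) (nat_lit 76) (nat_lit 0) (XT.nd (nat_lit 156) (nat_lit 0) (nat_lit 0) (XT.nd (nat_lit 78) (nat_lit 0) (nat_lit 0) (XT.lf (nat_lit 0) (nat_lit 13347600895) (nat_lit 76) (nat_lit 1909917788) (nat_lit 152) (nat_lit 35039713441) (nat_lit 6) (nat_lit 5) (nat_lit 7) (nat_lit 5) (nat_lit 8) (nat_lit 4) (nat_lit 382) (nat_lit 234) (nat_lit 164)) (XT.lf (nat_lit 0) (nat_lit 18541276844) (nat_lit 152) (nat_lit 31803410779) (nat_lit 0) (nat_lit 1357422934) (nat_lit 6) (nat_lit 5) (nat_lit 8) (nat_lit 4) (nat_lit 6) (nat_lit 4) (nat_lit 383) (nat_lit 234) (nat_lit 163))) (XT.nd (nat_lit 78) (nat_lit 0) (nat_lit 0) (XT.lf (nat_lit 0) (nat_lit 21922532064) (nat_lit 152) (nat_lit 26557912741) (nat_lit 0) (nat_lit 4668730474) (nat_lit 6) (nat_lit 5) (nat_lit 8) (nat_lit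 4) (nat_lit 6) (nat_lit 4) (nat_lit 384) (nat_lit 234) (nat_lit 162)) (XT.nd (nat_lit 78) (nat_lit 0) (nat_lit 0) (XT.lf (nat_lit 0) (nat_lit 25385879542) (nat_lit 152) (nat_lit 21190194372) (nat_lit 0) (nat_lit 8064167581) (nat_lit 6) (nat_lit 5) (nat_lit 8) (nat_lit 4) (nat_lit 6) (nat_lit 4) (nat_lit 385) (nat_lit 234) (nat_lit 161)) (XT.lf (nat_lit 0) (nat_lit 28934345503) (nat_lit 152) (nat_lit 15695565434) (nat_lit 0) (nat_lit 11546701144) (nat_lit 6) (nat_lit 5) (nat_lit 8) (nat_lit 4) (nat_lit 6) (nat_lit 4) (nat_lit 386) (nat_lit 234) (nat_lit 160))))) (XT.nd (nat_lit 234) (nat_lit 0) (nat_lit 0) (XT.nd (nat_lit 78) (nat_lit 76) (nat_lit 0) (XT.lf (nat_lit 0) (nat_lit 32571030547) (nat_lit 152) (nat_lit 10069224794) (nat_lit 0) (nat_lit 15119374152) (nat_lit 6) (nat_lit 5) (nat_lit 8) (nat_lit 4) (nat_lit 6) (nat_lit 4) (nat_lit 387) (nat_lit 234) (nat_lit 159)) (XT.nd (nat_lit 78) (nat_lit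 76) (nat_lit 0) (XT.lf (nat_lit 0) (nat_lit 36299112362) (nat_lit 152) (nat_lit 4306256232) (nat_lit 0) (nat_lit 18785308358) (nat_lit 6) (nat_lit 5) (nat_lit 8) (nat_lit 4) (nat_lit 6) (nat_lit 4) (nat_lit 388) (nat_lit 234) (nat_lit 158)) (XT.lf (nat_lit 0) (nat_lit 1630186669) (nat_lit 76) (nat_lit 38507332176) (nat_lit 76) (nat_lit 20933190688) (nat_lit 5) (nat_lit 4) (nat_lit 6) (nat_lit 5) (nat_lit 6) (nat_lit 4) (nat_lit 389) (nat_lit 234) (nat_lit 157)))) (XT.nd (nat_lit 78) (nat_lit 0) (nat_lit 0) (XT.lf (nat_lit 0) (nat_lit 7802077489) (nat_lit 76) (nat_lit 36315500050) (nat_lit 76) (nat_lit 18682778480) (nat_lit 5) (nat_lit 4) (nat_lit 6) (nat_lit 5) (nat_lit 6) (nat_lit 4) (nat_lit 390) (nat_lit 234) (nat_lit 156)) (XT.nd (nat_lit 78) (nat_lit 0) (nat_lit 0) (XT.lf (nat_lit 0) (nat_lit 14129106201) (nat_lit 76) (nat_lit 34071441766) (nat_lit 76) (nat_lit 16381846331) (nat_lit 5) (nat_lit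 4) (nat_lit 6) (nat_lit 5) (nat_lit 6) (nat_lit 4) (nat_lit 391) (nat_lit 234) (nat_lit 155)) (XT.lf (nat_lit 0) (nat_lit 20616801275) (nat_lit 76) (nat_lit 31773196498) (nat_lit 76) (nat_lit 14028383717) (nat_lit 5) (nat_lit 4) (nat_lit 6) (nat_lit 5) (nat_lit 6) (nat_lit 4) (nat_lit 392) (nat_lit 234) (nat_lit 154)))))) (XT.nd (nat_lit 468) (nat_lit 76) (nat_lit 0) (XT.nd (nat_lit 234) (nat_lit 76) (nat_lit 0) (XT.nd (nat_lit 78) (nat_lit 0) (nat_lit 0) (XT.lf (nat_lit 0) (nat_lit 27270831572) (nat_lit 76) (nat_lit 29418756069) (nat_lit 76) (nat_lit 11620334214) (nat_lit 5) (nat_lit 4) (nat_lit 6) (nat_lit 5) (nat_lit 6) (nat_lit 4) (nat_lit 393) (nat_lit 234) (nat_lit 153)) (XT.nd (nat_lit 78) (nat_lit 0) (nat_lit 0) (XT.lf (nat_lit 0) (nat_lit 34097011293) (nat_lit 76) (nat_lit 27006063201) (nat_lit 76) (nat_lit 9155593703) (nat_lit 5) (nat_lit 4) (nat_lit 6) (nat_lit 5) (nat_lit 6) (nat_lit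 4) (nat_lit 394) (nat_lit 234) (nat_lit 152)) (XT.lf (nat_lit 0) (nat_lit 41101305060) (nat_lit 76) (nat_lit 24533009717) (nat_lit 76) (nat_lit 6632008526) (nat_lit 5) (nat_lit 4) (nat_lit 6) (nat_lit 5) (nat_lit 6) (nat_lit 4) (nat_lit 395) (nat_lit 234) (nat_lit 151)))) (XT.nd (nat_lit 78) (nat_lit 76) (nat_lit 0) (XT.lf (nat_lit 0) (nat_lit 48289833131) (nat_lit 76) (nat_lit 21997434696) (nat_lit 76) (nat_lit 4047373608) (nat_lit 5) (nat_lit 4) (nat_lit 6) (nat_lit 5) (nat_lit 6) (nat_lit 4) (nat_lit 396) (nat_lit 234) (nat_lit 150)) (XT.nd (nat_lit 78) (nat_lit 76) (nat_lit 0) (XT.lf (nat_lit 0) (nat_lit 55668876743) (nat_lit 76) (nat_lit 19397122586) (nat_lit 76) (nat_lit 1399430531) (nat_lit 5) (nat_lit 4) (nat_lit 6) (nat_lit 5) (nat_lit 6) (nat_lit 4) (nat_lit 397) (nat_lit 234) (nat_lit 149)) (XT.lf (nat_lit 0) (nat_lit 1288490944) (nat_lit 152) (nat_lit 15428299094) (nat_lit 76) (nat_lit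 61943381428) (nat_lit 4) (nat_lit 5) (nat_lit 6) (nat_lit 5) (nat_lit 5) (nat_lit 4) (nat_lit 398) (nat_lit 234) (nat_lit 148))))) (XT.nd (nat_lit 234) (nat_lit 0) (nat_lit 0) (XT.nd (nat_lit 78) (nat_lit 76) (nat_lit 0) (XT.lf (nat_lit 0) (nat_lit 4015770674) (nat_lit 152) (nat_lit 9936817996) (nat_lit 76) (nat_lit 66968151443) (nat_lit 4) (nat_lit 5) (nat_lit 6) (nat_lit 5) (nat_lit 5) (nat_lit 4) (nat_lit 399) (nat_lit 234) (nat_lit 147)) (XT.nd (nat_lit 78) (nat_lit 76) (nat_lit 0) (XT.lf (nat_lit 0) (nat_lit 6812099649) (nat_lit 152) (nat_lit 4303859260) (nat_lit 76) (nat_lit 72133555713) (nat_lit 4) (nat_lit 5) (nat_lit 6) (nat_lit 5) (nat_lit 5) (nat_lit 4) (nat_lit 400) (nat_lit 234) (nat_lit 146)) (XT.lf (nat_lit 0) (nat_lit 1504864442) (nat_lit 76) (nat_lit 8189522498) (nat_lit 152) (nat_lit 75953708934) (nat_lit 3) (nat_lit 5) (nat_lit 4) (nat_lit 5) (nat_lit 5) (nat_lit 4) (nat_lit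 401) (nat_lit 234) (nat_lit 145)))) (XT.nd (nat_lit 78) (nat_lit 0) (nat_lit 0) (XT.lf (nat_lit 0) (nat_lit 7553707092) (nat_lit 76) (nat_lit 5140645139) (nat_lit 152) (nat_lit 75423351449) (nat_lit 3) (nat_lit 5) (nat_lit 4) (nat_lit 5) (nat_lit 5) (nat_lit 4) (nat_lit 402) (nat_lit 234) (nat_lit 144)) (XT.nd (nat_lit 33384) (nat_lit 0) (nat_lit 5320) (XT.lf (nat_lit 0) (nat_lit 13762298847) (nat_lit 76) (nat_lit 2010123304) (nat_lit 152) (nat_lit 74889339638) (nat_lit 3) (nat_lit 5) (nat_lit 4) (nat_lit 5) (nat_lit 5) (nat_lit 4) (nat_lit 403) (nat_lit 234) (nat_lit 143)) (XT.lf (nat_lit 0) (nat_lit 1572909923) (nat_lit 380) (nat_lit 1698169968) (nat_lit 0) (nat_lit 1572909923) (nat_lit 73) (nat_lit 5) (nat_lit 78) (nat_lit 4) (nat_lit 73) (nat_lit 4) (nat_lit 310) (nat_lit 235) (nat_lit 235))))))) (XT.nd (nat_lit 936) (nat_lit 1216) (nat_lit 0) (XT.nd (nat_lit 468) (nat_lit 836) (nat_lit 0)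 (XT.nd (nat_lit 234) (nat_lit 608) (nat_lit 0) (XT.nd (nat_lit 78) (nat_lit 304) (nat_lit 0) (XT.lf (nat_lit 0) (nat_lit 2959488837) (nat_lit 304) (nat_lit 3870874854) (nat_lit 304) (nat_lit 3008020646) (nat_lit 69) (nat_lit 4) (nat_lit 73) (nat_lit 5) (nat_lit 73) (nat_lit 4) (nat_lit 311) (nat_lit 235) (nat_lit 234)) (XT.nd (nat_lit 78) (nat_lit 228) (nat_lit 0) (XT.lf (nat_lit 0) (nat_lit 566263171) (nat_lit 380) (nat_lit 551062499) (nat_lit 76) (nat_lit 8877509612) (nat_lit 68) (nat_lit 5) (nat_lit 73) (nat_lit 5) (nat_lit 69) (nat_lit 4) (nat_lit 312) (nat_lit 235) (nat_lit 233)) (XT.lf (nat_lit 0) (nat_lit 4175701497) (nat_lit 304) (nat_lit 4244817838) (nat_lit 0) (nat_lit 1735022288) (nat_lit 65) (nat_lit 5) (nat_lit 69) (nat_lit 4) (nat_lit 65) (nat_lit 4) (nat_lit 313) (nat_lit 235) (nat_lit 232)))) (XT.nd (nat_lit 78) (nat_lit 304) (nat_lit 0) (XT.lf (nat_lit 0) (nat_lit 2162536301)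 (nat_lit 304) (nat_lit 5683683349) (nat_lit 304) (nat_lit 2476369353) (nat_lit 61) (nat_lit 4) (nat_lit 65) (nat_lit 5) (nat_lit 65) (nat_lit 4) (nat_lit 314) (nat_lit 235) (nat_lit 231)) (XT.nd (nat_lit 78) (nat_lit 228) (nat_lit 0) (XT.lf (nat_lit 0) (nat_lit 1069076585) (nat_lit 380) (nat_lit 1781394146) (nat_lit 76) (nat_lit 7645179433) (nat_lit 60) (nat_lit 5) (nat_lit 65) (nat_lit 5) (nat_lit 61) (nat_lit 4) (nat_lit 315) (nat_lit 235) (nat_lit 230)) (XT.lf (nat_lit 0) (nat_lit 4635711061) (nat_lit 304) (nat_lit 5941005828) (nat_lit 0) (nat_lit 97607731) (nat_lit 57) (nat_lit 5) (nat_lit 61) (nat_lit 4) (nat_lit 57) (nat_lit 4) (nat_lit 316) (nat_lit 235) (nat_lit 229))))) (XT.nd (nat_lit 234) (nat_lit 304) (nat_lit 0) (XT.nd (nat_lit 78) (nat_lit 304) (nat_lit 0) (XT.lf (nat_lit 0) (nat_lit 480026280) (nat_lit 228) (nat_lit 7799287275) (nat_lit 228) (nat_lit 2580038865) (nat_lit 54) (nat_lit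 4) (nat_lit 57) (nat_lit 5) (nat_lit 57) (nat_lit 4) (nat_lit 317) (nat_lit 235) (nat_lit 228)) (XT.nd (nat_lit 78) (nat_lit 228) (nat_lit 0) (XT.lf (nat_lit 0) (nat_lit 942987101) (nat_lit 304) (nat_lit 3966290494) (nat_lit 76) (nat_lit 6141061215) (nat_lit 53) (nat_lit 5) (nat_lit 57) (nat_lit 5) (nat_lit 54) (nat_lit 4) (nat_lit 318) (nat_lit 235) (nat_lit 227)) (XT.lf (nat_lit 0) (nat_lit 2543221635) (nat_lit 228) (nat_lit 1922699799) (nat_lit 304) (nat_lit 6782069155) (nat_lit 50) (nat_lit 5) (nat_lit 53) (nat_lit 5) (nat_lit 54) (nat_lit 4) (nat_lit 319) (nat_lit 235) (nat_lit 226)))) (XT.nd (nat_lit 78) (nat_lit 304) (nat_lit 0) (XT.lf (nat_lit 0) (nat_lit 8068447595) (nat_lit 304) (nat_lit 2253350367) (nat_lit 0) (nat_lit 1130638746) (nat_lit 50) (nat_lit 5) (nat_lit 54) (nat_lit 4) (nat_lit 50) (nat_lit 4) (nat_lit 320) (nat_lit 235) (nat_lit 225)) (XT.nd (nat_lit 78) (nat_lit 0) (nat_lit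 0) (XT.lf (nat_lit 0) (nat_lit 98930135) (nat_lit 304) (nat_lit 7324542402) (nat_lit 76) (nat_lit 4240032582) (nat_lit 46) (nat_lit 5) (nat_lit 50) (nat_lit 5) (nat_lit 47) (nat_lit 4) (nat_lit 321) (nat_lit 235) (nat_lit 224)) (XT.lf (nat_lit 0) (nat_lit 3566198066) (nat_lit 304) (nat_lit 856436784) (nat_lit 76) (nat_lit 7458904263) (nat_lit 46) (nat_lit 5) (nat_lit 50) (nat_lit 5) (nat_lit 47) (nat_lit 4) (nat_lit 322) (nat_lit 235) (nat_lit 223)))))) (XT.nd (nat_lit 468) (nat_lit 456) (nat_lit 0) (XT.nd (nat_lit 234) (nat_lit 304) (nat_lit 0) (XT.nd (nat_lit 78) (nat_lit 304) (nat_lit 0) (XT.lf (nat_lit 0) (nat_lit 5804690808) (nat_lit 152) (nat_lit 1315675176) (nat_lit 228) (nat_lit 4986334452) (nat_lit 44) (nat_lit 5) (nat_lit 46) (nat_lit 5) (nat_lit 47) (nat_lit 4) (nat_lit 323) (nat_lit 235) (nat_lit 222)) (XT.nd (nat_lit 78) (nat_lit 76) (nat_lit 0) (XT.lf (nat_lit 0) (nat_lit 215861638)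 (nat_lit 228) (nat_lit 10521943861) (nat_lit 228) (nat_lit 1602182351) (nat_lit 41) (nat_lit 4) (nat_lit 44) (nat_lit 5) (nat_lit 44) (nat_lit 4) (nat_lit 324) (nat_lit 235) (nat_lit 221)) (XT.lf (nat_lit 0) (nat_lit 1851995439) (nat_lit 304) (nat_lit 5667046676) (nat_lit 76) (nat_lit 5060597561) (nat_lit 40) (nat_lit 5) (nat_lit 44) (nat_lit 5) (nat_lit 41) (nat_lit 4) (nat_lit 325) (nat_lit 235) (nat_lit 220)))) (XT.nd (nat_lit 78) (nat_lit 152) (nat_lit 0) (XT.lf (nat_lit 0) (nat_lit 872901799) (nat_lit 152) (nat_lit 4443143971) (nat_lit 228) (nat_lit 7511870561) (nat_lit 38) (nat_lit 5) (nat_lit 40) (nat_lit 5) (nat_lit 41) (nat_lit 4) (nat_lit 326) (nat_lit 235) (nat_lit 219)) (XT.nd (nat_lit 78) (nat_lit 152) (nat_lit 0) (XT.lf (nat_lit 0) (nat_lit 7614302093) (nat_lit 152) (nat_lit 1257971140) (nat_lit 228) (nat_lit 4211783156) (nat_lit 38) (nat_lit 5) (nat_lit 40) (nat_lit 5) (nat_lit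 41) (nat_lit 4) (nat_lit 327) (nat_lit 235) (nat_lit 218)) (XT.lf (nat_lit 0) (nat_lit 1102775571) (nat_lit 152) (nat_lit 11395103427) (nat_lit 152) (nat_lit 851181849) (nat_lit 36) (nat_lit 4) (nat_lit 38) (nat_lit 5) (nat_lit 38) (nat_lit 4) (nat_lit 328) (nat_lit 235) (nat_lit 217))))) (XT.nd (nat_lit 234) (nat_lit 228) (nat_lit 0) (XT.nd (nat_lit 78) (nat_lit 152) (nat_lit 0) (XT.lf (nat_lit 0) (nat_lit 2560390154) (nat_lit 228) (nat_lit 5783530671) (nat_lit 76) (nat_lit 5277366688) (nat_lit 35) (nat_lit 5) (nat_lit 38) (nat_lit 5) (nat_lit 36) (nat_lit 4) (nat_lit 329) (nat_lit 235) (nat_lit 216)) (XT.nd (nat_lit 78) (nat_lit 0) (nat_lit 0) (XT.lf (nat_lit 0) (nat_lit 773278226) (nat_lit 152) (nat_lit 5226164141) (nat_lit 228) (nat_lit 7903774328) (nat_lit 33) (nat_lit 5) (nat_lit 35) (nat_lit 5) (nat_lit 36) (nat_lit 4) (nat_lit 330) (nat_lit 235) (nat_lit 215)) (XT.lf (nat_lit 0) (nat_lit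 7539901874) (nat_lit 152) (nat_lit 1995859518) (nat_lit 228) (nat_lit 4658073650) (nat_lit 33) (nat_lit 5) (nat_lit 35) (nat_lit 5) (nat_lit 36) (nat_lit 4) (nat_lit 331) (nat_lit 235) (nat_lit 214)))) (XT.nd (nat_lit 78) (nat_lit 228) (nat_lit 0) (XT.lf (nat_lit 0) (nat_lit 13128149794) (nat_lit 228) (nat_lit 100362130) (nat_lit 0) (nat_lit 1266213191) (nat_lit 33) (nat_lit 5) (nat_lit 36) (nat_lit 4) (nat_lit 33) (nat_lit 4) (nat_lit 332) (nat_lit 235) (nat_lit 213)) (XT.nd (nat_lit 78) (nat_lit 0) (nat_lit 0) (XT.lf (nat_lit 0) (nat_lit 2007138517) (nat_lit 228) (nat_lit 8164578928) (nat_lit 76) (nat_lit 4631701629) (nat_lit 30) (nat_lit 5) (nat_lit 33) (nat_lit 5) (nat_lit 31) (nat_lit 4) (nat_lit 333) (nat_lit 235) (nat_lit 212)) (XT.lf (nat_lit 0) (nat_lit 5394803820) (nat_lit 228) (nat_lit 1653767407) (nat_lit 76) (nat_lit 8074238613) (nat_lit 30) (nat_lit 5) (nat_lit 33) (nat_lit 5) (nat_lit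 31) (nat_lit 4) (nat_lit 334) (nat_lit 235) (nat_lit 211))))))))
noncomputable def xc47 : XT := (XT.nd (nat_lit 1872) (nat_lit 532) (nat_lit 0) (XT.nd (nat_lit 936) (nat_lit 532) (nat_lit 0) (XT.nd (nat_lit 468) (nat_lit 304) (nat_lit 0) (XT.nd (nat_lit 234) (nat_lit 152) (nat_lit 0) (XT.nd (nat_lit 78) (nat_lit 152) (nat_lit 0) (XT.lf (nat_lit 0) (nat_lit 5052752961) (nat_lit 152) (nat_lit 3820870995) (nat_lit 228) (nat_lit 6578519333) (nat_lit 28) (nat_lit 5) (nat_lit 30) (nat_lit 5) (nat_lit 31) (nat_lit 4) (nat_lit 335) (nat_lit 235) (nat_lit 210)) (XT.nd (nat_lit 78) (nat_lit 152) (nat_lit 0) (XT.lf (nat_lit 0) (nat_lit 11897119516) (nat_lit 152) (nat_lit 518128650) (nat_lit 228) (nat_lit 3377400740) (nat_lit 28) (nat_lit 5) (nat_lit 30) (nat_lit 5) (nat_lit 31) (nat_lit 4) (nat_lit 336) (nat_lit 235) (nat_lit 209)) (XT.lf (nat_lit 0) (nat_lit 2733268882) (nat_lit 152) (nat_lit 13326918610)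 (nat_lit 152) (nat_lit 83314235) (nat_lit 26) (nat_lit 4) (nat_lit 28) (nat_lit 5) (nat_lit 28) (nat_lit 4) (nat_lit 337) (nat_lit 235) (nat_lit 208)))) (XT.nd (nat_lit 78) (nat_lit 76) (nat_lit 0) (XT.lf (nat_lit 0) (nat_lit 3233090220) (nat_lit 228) (nat_lit 6996274610) (nat_lit 76) (nat_lit 6274960062) (nat_lit 25) (nat_lit 5) (nat_lit 28) (nat_lit 5) (nat_lit 26) (nat_lit 4) (nat_lit 338) (nat_lit 235) (nat_lit 207)) (XT.nd (nat_lit 78) (nat_lit 76) (nat_lit 0) (XT.lf (nat_lit 0) (nat_lit 6592186836) (nat_lit 228) (nat_lit 483952538) (nat_lit 76) (nat_lit 9801502683) (nat_lit 25) (nat_lit 5) (nat_lit 28) (nat_lit 5) (nat_lit 26) (nat_lit 4) (nat_lit 339) (nat_lit 235) (nat_lit 206)) (XT.lf (nat_lit 0) (nat_lit 6255287811) (nat_lit 76) (nat_lit 3803378349) (nat_lit 152) (nat_lit 7203333400) (nat_lit 24) (nat_lit 5) (nat_lit 25) (nat_lit 5) (nat_lit 26) (nat_lit 4) (nat_lit 340) (nat_lit 235)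 (nat_lit 205))))) (XT.nd (nat_lit 234) (nat_lit 76) (nat_lit 0) (XT.nd (nat_lit 78) (nat_lit 228) (nat_lit 0) (XT.lf (nat_lit 0) (nat_lit 13116998743) (nat_lit 76) (nat_lit 464205530) (nat_lit 152) (nat_lit 4078159562) (nat_lit 24) (nat_lit 5) (nat_lit 25) (nat_lit 5) (nat_lit 26) (nat_lit 4) (nat_lit 341) (nat_lit 235) (nat_lit 204)) (XT.nd (nat_lit 78) (nat_lit 76) (nat_lit 0) (XT.lf (nat_lit 0) (nat_lit 2038849787) (nat_lit 152) (nat_lit 15167138776) (nat_lit 152) (nat_lit 862800245) (nat_lit 22) (nat_lit 4) (nat_lit 24) (nat_lit 5) (nat_lit 24) (nat_lit 4) (nat_lit 342) (nat_lit 235) (nat_lit 203)) (XT.lf (nat_lit 0) (nat_lit 2400646389) (nat_lit 228) (nat_lit 9695540219) (nat_lit 76) (nat_lit 6393655960) (nat_lit 21) (nat_lit 5) (nat_lit 24) (nat_lit 5) (nat_lit 22) (nat_lit 4) (nat_lit 343) (nat_lit 235) (nat_lit 202)))) (XT.nd (nat_lit 78) (nat_lit 76) (nat_lit 0) (XT.lf (nat_lit 0) (nat_lit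 5694651608) (nat_lit 228) (nat_lit 3265519197) (nat_lit 76) (nat_lit 9964634703) (nat_lit 21) (nat_lit 5) (nat_lit 24) (nat_lit 5) (nat_lit 22) (nat_lit 4) (nat_lit 344) (nat_lit 235) (nat_lit 201)) (XT.nd (nat_lit 78) (nat_lit 0) (nat_lit 0) (XT.lf (nat_lit 0) (nat_lit 3339196013) (nat_lit 76) (nat_lit 5731832389) (nat_lit 152) (nat_lit 10302315152) (nat_lit 20) (nat_lit 5) (nat_lit 21) (nat_lit 5) (nat_lit 22) (nat_lit 4) (nat_lit 345) (nat_lit 235) (nat_lit 200)) (XT.lf (nat_lit 0) (nat_lit 10126443757) (nat_lit 76) (nat_lit 2407301590) (nat_lit 152) (nat_lit 7302072736) (nat_lit 20) (nat_lit 5) (nat_lit 21) (nat_lit 5) (nat_lit 22) (nat_lit 4) (nat_lit 346) (nat_lit 235) (nat_lit 199)))))) (XT.nd (nat_lit 468) (nat_lit 228) (nat_lit 0) (XT.nd (nat_lit 234) (nat_lit 76) (nat_lit 0) (XT.nd (nat_lit 78) (nat_lit 228) (nat_lit 0) (XT.lf (nat_lit 0) (nat_lit 16063265794) (nat_lit 152) (nat_lit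 3285881815) (nat_lit 0) (nat_lit 964162456) (nat_lit 20) (nat_lit 5) (nat_lit 22) (nat_lit 4) (nat_lit 20) (nat_lit 4) (nat_lit 347) (nat_lit 235) (nat_lit 198)) (XT.nd (nat_lit 78) (nat_lit 76) (nat_lit 0) (XT.lf (nat_lit 0) (nat_lit 3291834594) (nat_lit 152) (nat_lit 16416826030) (nat_lit 152) (nat_lit 1096196500) (nat_lit 18) (nat_lit 4) (nat_lit 20) (nat_lit 5) (nat_lit 20) (nat_lit 4) (nat_lit 348) (nat_lit 235) (nat_lit 197)) (XT.lf (nat_lit 0) (nat_lit 2098389548) (nat_lit 228) (nat_lit 11275972722) (nat_lit 76) (nat_lit 7936552278) (nat_lit 17) (nat_lit 5) (nat_lit 20) (nat_lit 5) (nat_lit 18) (nat_lit 4) (nat_lit 349) (nat_lit 235) (nat_lit 196)))) (XT.nd (nat_lit 78) (nat_lit 76) (nat_lit 0) (XT.lf (nat_lit 0) (nat_lit 5322714529) (nat_lit 228) (nat_lit 4939402693) (nat_lit 76) (nat_lit 11571060289) (nat_lit 17) (nat_lit 5) (nat_lit 20) (nat_lit 5) (nat_lit 18) (nat_lit 4) (nat_lit 350)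 (nat_lit 235) (nat_lit 195)) (XT.nd (nat_lit 78) (nat_lit 0) (nat_lit 0) (XT.lf (nat_lit 0) (nat_lit 1542868598) (nat_lit 76) (nat_lit 7072948955) (nat_lit 152) (nat_lit 13756155998) (nat_lit 16) (nat_lit 5) (nat_lit 17) (nat_lit 5) (nat_lit 18) (nat_lit 4) (nat_lit 351) (nat_lit 235) (nat_lit 194)) (XT.lf (nat_lit 0) (nat_lit 8247088600) (nat_lit 76) (nat_lit 3768257601) (nat_lit 152) (nat_lit 10911384158) (nat_lit 16) (nat_lit 5) (nat_lit 17) (nat_lit 5) (nat_lit 18) (nat_lit 4) (nat_lit 352) (nat_lit 235) (nat_lit 193))))) (XT.nd (nat_lit 234) (nat_lit 76) (nat_lit 0) (XT.nd (nat_lit 78) (nat_lit 152) (nat_lit 0) (XT.lf (nat_lit 0) (nat_lit 15080811569) (nat_lit 76) (nat_lit 395033849) (nat_lit 152) (nat_lit 8023540019) (nat_lit 16) (nat_lit 5) (nat_lit 17) (nat_lit 5) (nat_lit 18) (nat_lit 4) (nat_lit 353) (nat_lit 235) (nat_lit 192)) (XT.nd (nat_lit 78) (nat_lit 152) (nat_lit 0) (XT.lf (nat_lit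 0) (nat_lit 19029654232) (nat_lit 152) (nat_lit 2069745735) (nat_lit 0) (nat_lit 2990159737) (nat_lit 16) (nat_lit 5) (nat_lit 18) (nat_lit 4) (nat_lit 16) (nat_lit 4) (nat_lit 354) (nat_lit 235) (nat_lit 191)) (XT.lf (nat_lit 0) (nat_lit 4484730970) (nat_lit 152) (nat_lit 18213429361) (nat_lit 152) (nat_lit 1999060044) (nat_lit 14) (nat_lit 4) (nat_lit 16) (nat_lit 5) (nat_lit 16) (nat_lit 4) (nat_lit 355) (nat_lit 235) (nat_lit 190)))) (XT.nd (nat_lit 78) (nat_lit 0) (nat_lit 0) (XT.lf (nat_lit 0) (nat_lit 1113348389) (nat_lit 228) (nat_lit 14124053467) (nat_lit 76) (nat_lit 10085931180) (nat_lit 13) (nat_lit 5) (nat_lit 16) (nat_lit 5) (nat_lit 14) (nat_lit 4) (nat_lit 356) (nat_lit 235) (nat_lit 189)) (XT.nd (nat_lit 78) (nat_lit 0) (nat_lit 0) (XT.lf (nat_lit 0) (nat_lit 4241223186) (nat_lit 228) (nat_lit 7939303921) (nat_lit 76) (nat_lit 13788261650) (nat_lit 13) (nat_lit 5) (nat_lit 16)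 (nat_lit 5) (nat_lit 14) (nat_lit 4) (nat_lit 357) (nat_lit 235) (nat_lit 188)) (XT.lf (nat_lit 0) (nat_lit 7426306304) (nat_lit 228) (nat_lit 1633620429) (nat_lit 76) (nat_lit 17574801283) (nat_lit 13) (nat_lit 5) (nat_lit 16) (nat_lit 5) (nat_lit 14) (nat_lit 4) (nat_lit 358) (nat_lit 235) (nat_lit 187))))))) (XT.nd (nat_lit 936) (nat_lit 228) (nat_lit 0) (XT.nd (nat_lit 468) (nat_lit 152) (nat_lit 0) (XT.nd (nat_lit 234) (nat_lit 76) (nat_lit 0) (XT.nd (nat_lit 78) (nat_lit 0) (nat_lit 0) (XT.lf (nat_lit 0) (nat_lit 4894006524) (nat_lit 76) (nat_lit 5824418483) (nat_lit 152) (nat_lit 16601896366) (nat_lit 12) (nat_lit 5) (nat_lit 13) (nat_lit 5) (nat_lit 14) (nat_lit 4) (nat_lit 359) (nat_lit 235) (nat_lit 186)) (XT.nd (nat_lit 78) (nat_lit 0) (nat_lit 0) (XT.lf (nat_lit 0) (nat_lit 11588838134) (nat_lit 76) (nat_lit 2501843114) (nat_lit 152) (nat_lit 13936379886) (nat_lit 12) (nat_lit 5) (nat_lit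 13) (nat_lit 5) (nat_lit 14) (nat_lit 4) (nat_lit 360) (nat_lit 235) (nat_lit 185)) (XT.lf (nat_lit 0) (nat_lit 17538601427) (nat_lit 152) (nat_lit 10340428966) (nat_lit 0) (nat_lit 876757048) (nat_lit 12) (nat_lit 5) (nat_lit 14) (nat_lit 4) (nat_lit 12) (nat_lit 4) (nat_lit 361) (nat_lit 235) (nat_lit 184)))) (XT.nd (nat_lit 78) (nat_lit 76) (nat_lit 0) (XT.lf (nat_lit 0) (nat_lit 21081379170) (nat_lit 152) (nat_lit 4143785460) (nat_lit 0) (nat_lit 4281486991) (nat_lit 12) (nat_lit 5) (nat_lit 14) (nat_lit 4) (nat_lit 12) (nat_lit 4) (nat_lit 362) (nat_lit 235) (nat_lit 183)) (XT.nd (nat_lit 78) (nat_lit 0) (nat_lit 0) (XT.lf (nat_lit 0) (nat_lit 2224580894) (nat_lit 76) (nat_lit 22494864000) (nat_lit 76) (nat_lit 5560944831) (nat_lit 11) (nat_lit 4) (nat_lit 12) (nat_lit 5) (nat_lit 12) (nat_lit 4) (nat_lit 363) (nat_lit 235) (nat_lit 182)) (XT.lf (nat_lit 0) (nat_lit 8811920306) (nat_lit 76)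 (nat_lit 19664591974) (nat_lit 76) (nat_lit 2600549514) (nat_lit 11) (nat_lit 4) (nat_lit 12) (nat_lit 5) (nat_lit 12) (nat_lit 4) (nat_lit 364) (nat_lit 235) (nat_lit 181))))) (XT.nd (nat_lit 234) (nat_lit 76) (nat_lit 0) (XT.nd (nat_lit 78) (nat_lit 0) (nat_lit 0) (XT.lf (nat_lit 0) (nat_lit 408525684) (nat_lit 152) (nat_lit 16361068613) (nat_lit 76) (nat_lit 15128868253) (nat_lit 10) (nat_lit 5) (nat_lit 12) (nat_lit 5) (nat_lit 11) (nat_lit 4) (nat_lit 365) (nat_lit 235) (nat_lit 180)) (XT.nd (nat_lit 78) (nat_lit 0) (nat_lit 0) (XT.lf (nat_lit 0) (nat_lit 3425141510) (nat_lit 152) (nat_lit 10359992167) (nat_lit 76) (nat_lit 18959529222) (nat_lit 10) (nat_lit 5) (nat_lit 12) (nat_lit 5) (nat_lit 11) (nat_lit 4) (nat_lit 366) (nat_lit 235) (nat_lit 179)) (XT.lf (nat_lit 0) (nat_lit 6502679931) (nat_lit 152) (nat_lit 4231670418) (nat_lit 76) (nat_lit 22882801833) (nat_lit 10) (nat_lit 5) (nat_lit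 12) (nat_lit 5) (nat_lit 11) (nat_lit 4) (nat_lit 367) (nat_lit 235) (nat_lit 178)))) (XT.nd (nat_lit 78) (nat_lit 0) (nat_lit 0) (XT.lf (nat_lit 0) (nat_lit 2069637560) (nat_lit 76) (nat_lit 7594087118) (nat_lit 152) (nat_lit 24852371250) (nat_lit 9) (nat_lit 5) (nat_lit 10) (nat_lit 5) (nat_lit 11) (nat_lit 4) (nat_lit 368) (nat_lit 235) (nat_lit 177)) (XT.nd (nat_lit 78) (nat_lit 0) (nat_lit 0) (XT.lf (nat_lit 0) (nat_lit 8595982816) (nat_lit 76) (nat_lit 4337983612) (nat_lit 152) (nat_lit 22507625339) (nat_lit 9) (nat_lit 5) (nat_lit 10) (nat_lit 5) (nat_lit 11) (nat_lit 4) (nat_lit 369) (nat_lit 235) (nat_lit 176)) (XT.lf (nat_lit 0) (nat_lit 15268849439) (nat_lit 76) (nat_lit 1005926265) (nat_lit 152) (nat_lit 20120917285) (nat_lit 9) (nat_lit 5) (nat_lit 10) (nat_lit 5) (nat_lit 11) (nat_lit 4) (nat_lit 370) (nat_lit 235) (nat_lit 175)))))) (XT.nd (nat_lit 468) (nat_lit 152) (nat_lit 0)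 (XT.nd (nat_lit 234) (nat_lit 76) (nat_lit 0) (XT.nd (nat_lit 78) (nat_lit 0) (nat_lit 0) (XT.lf (nat_lit 0) (nat_lit 19712189960) (nat_lit 152) (nat_lit 15308283485) (nat_lit 0) (nat_lit 2358066285) (nat_lit 9) (nat_lit 5) (nat_lit 11) (nat_lit 4) (nat_lit 9) (nat_lit 4) (nat_lit 371) (nat_lit 235) (nat_lit 174)) (XT.nd (nat_lit 78) (nat_lit 0) (nat_lit 0) (XT.lf (nat_lit 0) (nat_lit 23236530593) (nat_lit 152) (nat_lit 9372162407) (nat_lit 0) (nat_lit 5782678250) (nat_lit 9) (nat_lit 5) (nat_lit 11) (nat_lit 4) (nat_lit 9) (nat_lit 4) (nat_lit 372) (nat_lit 235) (nat_lit 173)) (XT.lf (nat_lit 0) (nat_lit 26841207545) (nat_lit 152) (nat_lit 3303623837) (nat_lit 0) (nat_lit 9290531253) (nat_lit 9) (nat_lit 5) (nat_lit 11) (nat_lit 4) (nat_lit 9) (nat_lit 4) (nat_lit 373) (nat_lit 235) (nat_lit 172)))) (XT.nd (nat_lit 78) (nat_lit 0) (nat_lit 0) (XT.lf (nat_lit 0) (nat_lit 2960402954) (nat_lit 76)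 (nat_lit 27597424785) (nat_lit 76) (nat_lit 9952744658) (nat_lit 8) (nat_lit 4) (nat_lit 9) (nat_lit 5) (nat_lit 9) (nat_lit 4) (nat_lit 374) (nat_lit 235) (nat_lit 171)) (XT.nd (nat_lit 78) (nat_lit 0) (nat_lit 0) (XT.lf (nat_lit 0) (nat_lit 9436170209) (nat_lit 76) (nat_lit 24958778260) (nat_lit 76) (nat_lit 7222832276) (nat_lit 8) (nat_lit 4) (nat_lit 9) (nat_lit 5) (nat_lit 9) (nat_lit 4) (nat_lit 375) (nat_lit 235) (nat_lit 170)) (XT.lf (nat_lit 0) (nat_lit 16063587772) (nat_lit 76) (nat_lit 22259946320) (nat_lit 76) (nat_lit 4435392706) (nat_lit 8) (nat_lit 4) (nat_lit 9) (nat_lit 5) (nat_lit 9) (nat_lit 4) (nat_lit 376) (nat_lit 235) (nat_lit 169))))) (XT.nd (nat_lit 234) (nat_lit 76) (nat_lit 0) (XT.nd (nat_lit 78) (nat_lit 76) (nat_lit 0) (XT.lf (nat_lit 0) (nat_lit 22848446589) (nat_lit 76) (nat_lit 19498570761) (nat_lit 76) (nat_lit 1587990321) (nat_lit 8) (nat_lit 4) (nat_lit 9) (nat_lit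 5) (nat_lit 9) (nat_lit 4) (nat_lit 377) (nat_lit 235) (nat_lit 168)) (XT.nd (nat_lit 78) (nat_lit 0) (nat_lit 0) (XT.lf (nat_lit 0) (nat_lit 1296068591) (nat_lit 152) (nat_lit 15363082387) (nat_lit 76) (nat_lit 28487518836) (nat_lit 7) (nat_lit 5) (nat_lit 9) (nat_lit 5) (nat_lit 8) (nat_lit 4) (nat_lit 378) (nat_lit 235) (nat_lit 167)) (XT.lf (nat_lit 0) (nat_lit 4212865264) (nat_lit 152) (nat_lit 9523073674) (nat_lit 76) (nat_lit 32658937866) (nat_lit 7) (nat_lit 5) (nat_lit 9) (nat_lit 5) (nat_lit 8) (nat_lit 4) (nat_lit 379) (nat_lit 235) (nat_lit 166)))) (XT.nd (nat_lit 78) (nat_lit 76) (nat_lit 0) (XT.lf (nat_lit 0) (nat_lit 7195935764) (nat_lit 152) (nat_lit 3546167290) (nat_lit 76) (nat_lit 36939074196) (nat_lit 7) (nat_lit 5) (nat_lit 9) (nat_lit 5) (nat_lit 8) (nat_lit 4) (nat_lit 380) (nat_lit 235) (nat_lit 165)) (XT.nd (nat_lit 78) (nat_lit 0) (nat_lit 0) (XT.lf (nat_lit 0) (nat_lit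 2624064249) (nat_lit 76) (nat_lit 7649046520) (nat_lit 152) (nat_lit 38732827612) (nat_lit 6) (nat_lit 5) (nat_lit 7) (nat_lit 5) (nat_lit 8) (nat_lit 4) (nat_lit 381) (nat_lit 235) (nat_lit 164)) (XT.lf (nat_lit 0) (nat_lit 9015273286) (nat_lit 76) (nat_lit 4442771735) (nat_lit 152) (nat_lit 36911943754) (nat_lit 6) (nat_lit 5) (nat_lit 7) (nat_lit 5) (nat_lit 8) (nat_lit 4) (nat_lit 382) (nat_lit 235) (nat_lit 163))))))))
noncomputable def xc48 : XT := (XT.nd (nat_lit 34944) (nat_lit 0) (nat_lit 2052) (XT.nd (nat_lit 858) (nat_lit 152) (nat_lit 0) (XT.nd (nat_lit 390) (nat_lit 76) (nat_lit 0) (XT.nd (nat_lit 156) (nat_lit 0) (nat_lit 0) (XT.nd (nat_lit 78) (nat_lit 0) (nat_lit 0) (XT.lf (nat_lit 0) (nat_lit 15562468688) (nat_lit 76) (nat_lit 1156286438) (nat_lit 152) (nat_lit 35056808187) (nat_lit 6) (nat_lit 5) (nat_lit 7) (nat_lit 5) (nat_lit 8) (nat_lit 4) (nat_lit 383) (nat_lit 235) (nat_lit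 162)) (XT.lf (nat_lit 0) (nat_lit 20079365661) (nat_lit 152) (nat_lit 30973794271) (nat_lit 0) (nat_lit 2170091972) (nat_lit 6) (nat_lit 5) (nat_lit 8) (nat_lit 4) (nat_lit 6) (nat_lit 4) (nat_lit 384) (nat_lit 235) (nat_lit 161))) (XT.nd (nat_lit 78) (nat_lit 0) (nat_lit 0) (XT.lf (nat_lit 0) (nat_lit 23533460951) (nat_lit 152) (nat_lit 25622884267) (nat_lit 0) (nat_lit 5558254864) (nat_lit 6) (nat_lit 5) (nat_lit 8) (nat_lit 4) (nat_lit 6) (nat_lit 4) (nat_lit 385) (nat_lit 235) (nat_lit 160)) (XT.nd (nat_lit 78) (nat_lit 0) (nat_lit 0) (XT.lf (nat_lit 0) (nat_lit 27072944205) (nat_lit 152) (nat_lit 20144574130) (nat_lit 0) (nat_lit 9033726080) (nat_lit 6) (nat_lit 5) (nat_lit 8) (nat_lit 4) (nat_lit 6) (nat_lit 4) (nat_lit 386) (nat_lit 235) (nat_lit 159)) (XT.lf (nat_lit 0) (nat_lit 30700908175) (nat_lit 152) (nat_lit 14534076986) (nat_lit 0) (nat_lit 12599542442) (nat_lit 6) (nat_lit 5) (nat_lit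 8) (nat_lit 4) (nat_lit 6) (nat_lit 4) (nat_lit 387) (nat_lit 235) (nat_lit 158))))) (XT.nd (nat_lit 234) (nat_lit 0) (nat_lit 0) (XT.nd (nat_lit 78) (nat_lit 76) (nat_lit 0) (XT.lf (nat_lit 0) (nat_lit 34420522927) (nat_lit 152) (nat_lit 8786490459) (nat_lit 0) (nat_lit 16258819710) (nat_lit 6) (nat_lit 5) (nat_lit 8) (nat_lit 4) (nat_lit 6) (nat_lit 4) (nat_lit 388) (nat_lit 235) (nat_lit 157)) (XT.nd (nat_lit 78) (nat_lit 76) (nat_lit 0) (XT.lf (nat_lit 0) (nat_lit 38235038610) (nat_lit 152) (nat_lit 2896792386) (nat_lit 0) (nat_lit 20014755311) (nat_lit 6) (nat_lit 5) (nat_lit 8) (nat_lit 4) (nat_lit 6) (nat_lit 4) (nat_lit 389) (nat_lit 235) (nat_lit 156)) (XT.lf (nat_lit 0) (nat_lit 3202658983) (nat_lit 76) (nat_lit 38975915230) (nat_lit 76) (nat_lit 20698758065) (nat_lit 5) (nat_lit 4) (nat_lit 6) (nat_lit 5) (nat_lit 6) (nat_lit 4) (nat_lit 390) (nat_lit 235) (nat_lit 155)))) (XT.nd (nat_lit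 78) (nat_lit 0) (nat_lit 0) (XT.lf (nat_lit 0) (nat_lit 9515330798) (nat_lit 76) (nat_lit 36738327273) (nat_lit 76) (nat_lit 18405952763) (nat_lit 5) (nat_lit 4) (nat_lit 6) (nat_lit 5) (nat_lit 6) (nat_lit 4) (nat_lit 391) (nat_lit 235) (nat_lit 154)) (XT.nd (nat_lit 78) (nat_lit 0) (nat_lit 0) (XT.lf (nat_lit 0) (nat_lit 15989087139) (nat_lit 76) (nat_lit 34446363875) (nat_lit 76) (nat_lit 16060380292) (nat_lit 5) (nat_lit 4) (nat_lit 6) (nat_lit 5) (nat_lit 6) (nat_lit 4) (nat_lit 392) (nat_lit 235) (nat_lit 153)) (XT.lf (nat_lit 0) (nat_lit 22629584684) (nat_lit 76) (nat_lit 32098022350) (nat_lit 76) (nat_lit 13659991123) (nat_lit 5) (nat_lit 4) (nat_lit 6) (nat_lit 5) (nat_lit 6) (nat_lit 4) (nat_lit 393) (nat_lit 235) (nat_lit 152)))))) (XT.nd (nat_lit 468) (nat_lit 76) (nat_lit 0) (XT.nd (nat_lit 234) (nat_lit 76) (nat_lit 0) (XT.nd (nat_lit 78) (nat_lit 0) (nat_lit 0) (XT.lf (nat_lit 0)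 (nat_lit 29442625811) (nat_lit 76) (nat_lit 29691250748) (nat_lit 76) (nat_lit 11202687828) (nat_lit 5) (nat_lit 4) (nat_lit 6) (nat_lit 5) (nat_lit 6) (nat_lit 4) (nat_lit 394) (nat_lit 235) (nat_lit 151)) (XT.nd (nat_lit 78) (nat_lit 0) (nat_lit 0) (XT.lf (nat_lit 0) (nat_lit 36434163662) (nat_lit 76) (nat_lit 27223946065) (nat_lit 76) (nat_lit 8686323249) (nat_lit 5) (nat_lit 4) (nat_lit 6) (nat_lit 5) (nat_lit 6) (nat_lit 4) (nat_lit 395) (nat_lit 235) (nat_lit 150)) (XT.lf (nat_lit 0) (nat_lit 43610307349) (nat_lit 76) (nat_lit 24693952405) (nat_lit 76) (nat_lit 6108698621) (nat_lit 5) (nat_lit 4) (nat_lit 6) (nat_lit 5) (nat_lit 6) (nat_lit 4) (nat_lit 396) (nat_lit 235) (nat_lit 149)))) (XT.nd (nat_lit 78) (nat_lit 76) (nat_lit 0) (XT.lf (nat_lit 0) (nat_lit 50977327287) (nat_lit 76) (nat_lit 22099059092) (nat_lit 76) (nat_lit 3467561651) (nat_lit 5) (nat_lit 4) (nat_lit 6) (nat_lit 5)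 (nat_lit 6) (nat_lit 4) (nat_lit 397) (nat_lit 235) (nat_lit 148)) (XT.nd (nat_lit 78) (nat_lit 76) (nat_lit 0) (XT.lf (nat_lit 0) (nat_lit 58541660678) (nat_lit 76) (nat_lit 19436998745) (nat_lit 76) (nat_lit 760604549) (nat_lit 5) (nat_lit 4) (nat_lit 6) (nat_lit 5) (nat_lit 6) (nat_lit 4) (nat_lit 398) (nat_lit 235) (nat_lit 147)) (XT.lf (nat_lit 0) (nat_lit 1975227094) (nat_lit 152) (nat_lit 14710272275) (nat_lit 76) (nat_lit 64314744120) (nat_lit 4) (nat_lit 5) (nat_lit 6) (nat_lit 5) (nat_lit 5) (nat_lit 4) (nat_lit 399) (nat_lit 235) (nat_lit 146))))) (XT.nd (nat_lit 234) (nat_lit 0) (nat_lit 0) (XT.nd (nat_lit 78) (nat_lit 76) (nat_lit 0) (XT.lf (nat_lit 0) (nat_lit 4765449059) (nat_lit 152) (nat_lit 9088441185) (nat_lit 76) (nat_lit 69475313704) (nat_lit 4) (nat_lit 5) (nat_lit 6) (nat_lit 5) (nat_lit 5) (nat_lit 4) (nat_lit 400) (nat_lit 235) (nat_lit 145)) (XT.nd (nat_lit 78) (nat_lit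 76) (nat_lit 0) (XT.lf (nat_lit 0) (nat_lit 7627341536) (nat_lit 152) (nat_lit 3319886347) (nat_lit 76) (nat_lit 74781171819) (nat_lit 4) (nat_lit 5) (nat_lit 6) (nat_lit 5) (nat_lit 5) (nat_lit 4) (nat_lit 401) (nat_lit 235) (nat_lit 144)) (XT.lf (nat_lit 0) (nat_lit 2652186431) (nat_lit 76) (nat_lit 7936713215) (nat_lit 152) (nat_lit 77610262659) (nat_lit 3) (nat_lit 5) (nat_lit 4) (nat_lit 5) (nat_lit 5) (nat_lit 4) (nat_lit 402) (nat_lit 235) (nat_lit 143)))) (XT.nd (nat_lit 33228) (nat_lit 0) (nat_lit 5624) (XT.lf (nat_lit 0) (nat_lit 8850392146) (nat_lit 76) (nat_lit 4810888805) (nat_lit 152) (nat_lit 77082112630) (nat_lit 3) (nat_lit 5) (nat_lit 4) (nat_lit 5) (nat_lit 5) (nat_lit 4) (nat_lit 403) (nat_lit 235) (nat_lit 142)) (XT.nd (nat_lit 78) (nat_lit 76) (nat_lit 0) (XT.lf (nat_lit 0) (nat_lit 1557512708) (nat_lit 304) (nat_lit 1571630124) (nat_lit 304) (nat_lit 1571630124) (nat_lit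 78) (nat_lit 4) (nat_lit 82) (nat_lit 5) (nat_lit 82) (nat_lit 4) (nat_lit 308) (nat_lit 236) (nat_lit 236)) (XT.lf (nat_lit 0) (nat_lit 404681708) (nat_lit 380) (nat_lit 93898159) (nat_lit 76) (nat_lit 9045068674) (nat_lit 77) (nat_lit 5) (nat_lit 82) (nat_lit 5) (nat_lit 78) (nat_lit 4) (nat_lit 309) (nat_lit 236) (nat_lit 235))))))) (XT.nd (nat_lit 936) (nat_lit 1216) (nat_lit 0) (XT.nd (nat_lit 468) (nat_lit 1064) (nat_lit 0) (XT.nd (nat_lit 234) (nat_lit 608) (nat_lit 0) (XT.nd (nat_lit 78) (nat_lit 380) (nat_lit 0) (XT.lf (nat_lit 0) (nat_lit 3990927713) (nat_lit 380) (nat_lit 3459084727) (nat_lit 0) (nat_lit 2239333672) (nat_lit 73) (nat_lit 5) (nat_lit 78) (nat_lit 4) (nat_lit 73) (nat_lit 4) (nat_lit 310) (nat_lit 236) (nat_lit 234)) (XT.nd (nat_lit 78) (nat_lit 76) (nat_lit 0) (XT.lf (nat_lit 0) (nat_lit 2833365656) (nat_lit 304) (nat_lit 4798532395) (nat_lit 304) (nat_lit 2209215822)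 (nat_lit 69) (nat_lit 4) (nat_lit 73) (nat_lit 5) (nat_lit 73) (nat_lit 4) (nat_lit 311) (nat_lit 236) (nat_lit 233)) (XT.lf (nat_lit 0) (nat_lit 1307307184) (nat_lit 380) (nat_lit 748805835) (nat_lit 76) (nat_lit 7942539283) (nat_lit 68) (nat_lit 5) (nat_lit 73) (nat_lit 5) (nat_lit 69) (nat_lit 4) (nat_lit 312) (nat_lit 236) (nat_lit 232)))) (XT.nd (nat_lit 78) (nat_lit 380) (nat_lit 0) (XT.lf (nat_lit 0) (nat_lit 4864052461) (nat_lit 304) (nat_lit 4503053823) (nat_lit 0) (nat_lit 793884257) (nat_lit 65) (nat_lit 5) (nat_lit 69) (nat_lit 4) (nat_lit 65) (nat_lit 4) (nat_lit 313) (nat_lit 236) (nat_lit 231)) (XT.nd (nat_lit 78) (nat_lit 76) (nat_lit 0) (XT.lf (nat_lit 0) (nat_lit 1838040681) (nat_lit 304) (nat_lit 6652914573) (nat_lit 304) (nat_lit 1838440750) (nat_lit 61) (nat_lit 4) (nat_lit 65) (nat_lit 5) (nat_lit 65) (nat_lit 4) (nat_lit 314) (nat_lit 236) (nat_lit 230)) (XT.lf (nat_lit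 0) (nat_lit 1654227722) (nat_lit 380) (nat_lit 2179018360) (nat_lit 76) (nat_lit 6670283764) (nat_lit 60) (nat_lit 5) (nat_lit 65) (nat_lit 5) (nat_lit 61) (nat_lit 4) (nat_lit 315) (nat_lit 236) (nat_lit 229))))) (XT.nd (nat_lit 234) (nat_lit 532) (nat_lit 0) (XT.nd (nat_lit 78) (nat_lit 304) (nat_lit 0) (XT.lf (nat_lit 0) (nat_lit 4269167382) (nat_lit 228) (nat_lit 907112150) (nat_lit 304) (nat_lit 5507307660) (nat_lit 57) (nat_lit 5) (nat_lit 60) (nat_lit 5) (nat_lit 61) (nat_lit 4) (nat_lit 316) (nat_lit 236) (nat_lit 228)) (XT.nd (nat_lit 78) (nat_lit 304) (nat_lit 0) (XT.lf (nat_lit 0) (nat_lit 8767792206) (nat_lit 304) (nat_lit 52914205) (nat_lit 0) (nat_lit 2049515363) (nat_lit 57) (nat_lit 5) (nat_lit 61) (nat_lit 4) (nat_lit 57) (nat_lit 4) (nat_lit 317) (nat_lit 236) (nat_lit 227)) (XT.lf (nat_lit 0) (nat_lit 1372145135) (nat_lit 304) (nat_lit 4574866782) (nat_lit 76) (nat_lit 5115274012)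 (nat_lit 53) (nat_lit 5) (nat_lit 57) (nat_lit 5) (nat_lit 54) (nat_lit 4) (nat_lit 318) (nat_lit 236) (nat_lit 226)))) (XT.nd (nat_lit 78) (nat_lit 304) (nat_lit 0) (XT.lf (nat_lit 0) (nat_lit 1864001160) (nat_lit 228) (nat_lit 2987066231) (nat_lit 304) (nat_lit 6410231024) (nat_lit 50) (nat_lit 5) (nat_lit 53) (nat_lit 5) (nat_lit 54) (nat_lit 4) (nat_lit 319) (nat_lit 236) (nat_lit 225)) (XT.nd (nat_lit 78) (nat_lit 304) (nat_lit 0) (XT.lf (nat_lit 0) (nat_lit 8406233501) (nat_lit 304) (nat_lit 2993430929) (nat_lit 0) (nat_lit 67540077) (nat_lit 50) (nat_lit 5) (nat_lit 54) (nat_lit 4) (nat_lit 50) (nat_lit 4) (nat_lit 320) (nat_lit 236) (nat_lit 224)) (XT.lf (nat_lit 0) (nat_lit 371320530) (nat_lit 304) (nat_lit 8155361027) (nat_lit 76) (nat_lit 3152864867) (nat_lit 46) (nat_lit 5) (nat_lit 50) (nat_lit 5) (nat_lit 47) (nat_lit 4) (nat_lit 321) (nat_lit 236) (nat_lit 223)))))) (XT.nd (nat_lit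 468) (nat_lit 608) (nat_lit 0) (XT.nd (nat_lit 234) (nat_lit 456) (nat_lit 0) (XT.nd (nat_lit 78) (nat_lit 152) (nat_lit 0) (XT.lf (nat_lit 0) (nat_lit 3802669106) (nat_lit 304) (nat_lit 1743556700) (nat_lit 76) (nat_lit 6352468038) (nat_lit 46) (nat_lit 5) (nat_lit 50) (nat_lit 5) (nat_lit 47) (nat_lit 4) (nat_lit 322) (nat_lit 236) (nat_lit 222)) (XT.nd (nat_lit 78) (nat_lit 0) (nat_lit 0) (XT.lf (nat_lit 0) (nat_lit 4844166149) (nat_lit 152) (nat_lit 2468564565) (nat_lit 228) (nat_lit 4812482445) (nat_lit 44) (nat_lit 5) (nat_lit 46) (nat_lit 5) (nat_lit 47) (nat_lit 4) (nat_lit 323) (nat_lit 236) (nat_lit 221)) (XT.lf (nat_lit 0) (nat_lit 10882445406) (nat_lit 228) (nat_lit 811306547) (nat_lit 0) (nat_lit 666214155) (nat_lit 44) (nat_lit 5) (nat_lit 47) (nat_lit 4) (nat_lit 44) (nat_lit 4) (nat_lit 324) (nat_lit 236) (nat_lit 220)))) (XT.nd (nat_lit 78) (nat_lit 152) (nat_lit 0) (XT.lf (nat_lit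 0) (nat_lit 1931737870) (nat_lit 304) (nat_lit 6786877071) (nat_lit 76) (nat_lit 3882273492) (nat_lit 40) (nat_lit 5) (nat_lit 44) (nat_lit 5) (nat_lit 41) (nat_lit 4) (nat_lit 325) (nat_lit 236) (nat_lit 219)) (XT.nd (nat_lit 78) (nat_lit 152) (nat_lit 0) (XT.lf (nat_lit 0) (nat_lit 5353946966) (nat_lit 304) (nat_lit 317534061) (nat_lit 76) (nat_lit 7178970220) (nat_lit 40) (nat_lit 5) (nat_lit 44) (nat_lit 5) (nat_lit 41) (nat_lit 4) (nat_lit 326) (nat_lit 236) (nat_lit 218)) (XT.lf (nat_lit 0) (nat_lit 6364499889) (nat_lit 152) (nat_lit 2509575453) (nat_lit 228) (nat_lit 4233628956) (nat_lit 38) (nat_lit 5) (nat_lit 40) (nat_lit 5) (nat_lit 41) (nat_lit 4) (nat_lit 327) (nat_lit 236) (nat_lit 217))))) (XT.nd (nat_lit 234) (nat_lit 380) (nat_lit 0) (XT.nd (nat_lit 78) (nat_lit 228) (nat_lit 0) (XT.lf (nat_lit 0) (nat_lit 12444836899) (nat_lit 228) (nat_lit 232466902) (nat_lit 0) (nat_lit 697079427)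 (nat_lit 38) (nat_lit 5) (nat_lit 41) (nat_lit 4) (nat_lit 38) (nat_lit 4) (nat_lit 328) (nat_lit 236) (nat_lit 216)) (XT.nd (nat_lit 78) (nat_lit 0) (nat_lit 0) (XT.lf (nat_lit 0) (nat_lit 2449138780) (nat_lit 228) (nat_lit 7200472843) (nat_lit 76) (nat_lit 3998080826) (nat_lit 35) (nat_lit 5) (nat_lit 38) (nat_lit 5) (nat_lit 36) (nat_lit 4) (nat_lit 329) (nat_lit 236) (nat_lit 215)) (XT.lf (nat_lit 0) (nat_lit 5849578725) (nat_lit 228) (nat_lit 709683728) (nat_lit 76) (nat_lit 7371544218) (nat_lit 35) (nat_lit 5) (nat_lit 38) (nat_lit 5) (nat_lit 36) (nat_lit 4) (nat_lit 330) (nat_lit 236) (nat_lit 214)))) (XT.nd (nat_lit 78) (nat_lit 228) (nat_lit 0) (XT.lf (nat_lit 0) (nat_lit 5992384799) (nat_lit 152) (nat_lit 3355799578) (nat_lit 228) (nat_lit 4874397940) (nat_lit 33) (nat_lit 5) (nat_lit 35) (nat_lit 5) (nat_lit 36) (nat_lit 4) (nat_lit 331) (nat_lit 236) (nat_lit 213)) (XT.nd (nat_lit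 78) (nat_lit 228) (nat_lit 0) (XT.lf (nat_lit 0) (nat_lit 12810670024) (nat_lit 152) (nat_lit 87629006) (nat_lit 228) (nat_lit 1626466715) (nat_lit 33) (nat_lit 5) (nat_lit 35) (nat_lit 5) (nat_lit 36) (nat_lit 4) (nat_lit 332) (nat_lit 236) (nat_lit 212)) (XT.lf (nat_lit 0) (nat_lit 1705539703) (nat_lit 228) (nat_lit 9887279182) (nat_lit 76) (nat_lit 3242142828) (nat_lit 30) (nat_lit 5) (nat_lit 33) (nat_lit 5) (nat_lit 31) (nat_lit 4) (nat_lit 333) (nat_lit 236) (nat_lit 211))))))))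
noncomputable def xc49 : XT := (XT.nd (nat_lit 1794) (nat_lit 532) (nat_lit 0) (XT.nd (nat_lit 858) (nat_lit 532) (nat_lit 0) (XT.nd (nat_lit 390) (nat_lit 304) (nat_lit 0) (XT.nd (nat_lit 156) (nat_lit 228) (nat_lit 0) (XT.nd (nat_lit 78) (nat_lit 152) (nat_lit 0) (XT.lf (nat_lit 0) (nat_lit 5064118663) (nat_lit 228) (nat_lit 3424848404) (nat_lit 76) (nat_lit 6666281012) (nat_lit 30) (nat_lit 5) (nat_lit 33) (nat_lit 5) (nat_lit 31) (nat_lit 4) (nat_lit 334) (nat_lit 236) (nat_lit 210)) (XT.lf (nat_lit 0) (nat_lit 3198517558) (nat_lit 152) (nat_lit 5298358027) (nat_lit 228) (nat_lit 6989110179) (nat_lit 28) (nat_lit 5) (nat_lit 30) (nat_lit 5) (nat_lit 31) (nat_lit 4) (nat_lit 335) (nat_lit 236) (nat_lit 209))) (XT.nd (nat_lit 78) (nat_lit 228) (nat_lit 0) (XT.lf (nat_lit 0) (nat_lit 9996373025) (nat_lit 152) (nat_lit 2014263009) (nat_lit 228) (nat_lit 3816712948) (nat_lit 28) (nat_lit 5) (nat_lit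 30) (nat_lit 5) (nat_lit 31) (nat_lit 4) (nat_lit 336) (nat_lit 236) (nat_lit 208)) (XT.nd (nat_lit 78) (nat_lit 76) (nat_lit 0) (XT.lf (nat_lit 0) (nat_lit 727244319) (nat_lit 152) (nat_lit 14867439922) (nat_lit 152) (nat_lit 585365351) (nat_lit 26) (nat_lit 4) (nat_lit 28) (nat_lit 5) (nat_lit 28) (nat_lit 4) (nat_lit 337) (nat_lit 236) (nat_lit 207)) (XT.lf (nat_lit 0) (nat_lit 2713680541) (nat_lit 228) (nat_lit 9079947132) (nat_lit 76) (nat_lit 4748224373) (nat_lit 25) (nat_lit 5) (nat_lit 28) (nat_lit 5) (nat_lit 26) (nat_lit 4) (nat_lit 338) (nat_lit 236) (nat_lit 206))))) (XT.nd (nat_lit 234) (nat_lit 228) (nat_lit 0) (XT.nd (nat_lit 78) (nat_lit 76) (nat_lit 0) (XT.lf (nat_lit 0) (nat_lit 6046412703) (nat_lit 228) (nat_lit 2612213523) (nat_lit 76) (nat_lit 8257353189) (nat_lit 25) (nat_lit 5) (nat_lit 28) (nat_lit 5) (nat_lit 26) (nat_lit 4) (nat_lit 339) (nat_lit 236) (nat_lit 205)) (XT.nd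 (nat_lit 78) (nat_lit 0) (nat_lit 0) (XT.lf (nat_lit 0) (nat_lit 4040518938) (nat_lit 76) (nat_lit 5425486818) (nat_lit 152) (nat_lit 7835756459) (nat_lit 24) (nat_lit 5) (nat_lit 25) (nat_lit 5) (nat_lit 26) (nat_lit 4) (nat_lit 340) (nat_lit 236) (nat_lit 204)) (XT.lf (nat_lit 0) (nat_lit 10859364510) (nat_lit 76) (nat_lit 2103916283) (nat_lit 152) (nat_lit 4736621752) (nat_lit 24) (nat_lit 5) (nat_lit 25) (nat_lit 5) (nat_lit 26) (nat_lit 4) (nat_lit 341) (nat_lit 236) (nat_lit 203)))) (XT.nd (nat_lit 78) (nat_lit 228) (nat_lit 0) (XT.lf (nat_lit 0) (nat_lit 16528012976) (nat_lit 152) (nat_lit 325552587) (nat_lit 0) (nat_lit 1257581153) (nat_lit 24) (nat_lit 5) (nat_lit 26) (nat_lit 4) (nat_lit 24) (nat_lit 4) (nat_lit 342) (nat_lit 236) (nat_lit 202)) (XT.nd (nat_lit 78) (nat_lit 0) (nat_lit 0) (XT.lf (nat_lit 0) (nat_lit 1666513693) (nat_lit 228) (nat_lit 12144218597) (nat_lit 76) (nat_lit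 4722528202) (nat_lit 21) (nat_lit 5) (nat_lit 24) (nat_lit 5) (nat_lit 22) (nat_lit 4) (nat_lit 343) (nat_lit 236) (nat_lit 201)) (XT.lf (nat_lit 0) (nat_lit 4936604146) (nat_lit 228) (nat_lit 5755264660) (nat_lit 76) (nat_lit 8277088207) (nat_lit 21) (nat_lit 5) (nat_lit 24) (nat_lit 5) (nat_lit 22) (nat_lit 4) (nat_lit 344) (nat_lit 236) (nat_lit 200)))))) (XT.nd (nat_lit 468) (nat_lit 228) (nat_lit 0) (XT.nd (nat_lit 234) (nat_lit 228) (nat_lit 0) (XT.nd (nat_lit 78) (nat_lit 0) (nat_lit 0) (XT.lf (nat_lit 0) (nat_lit 759235268) (nat_lit 76) (nat_lit 7505727292) (nat_lit 152) (nat_lit 11153988718) (nat_lit 20) (nat_lit 5) (nat_lit 21) (nat_lit 5) (nat_lit 22) (nat_lit 4) (nat_lit 345) (nat_lit 236) (nat_lit 199)) (XT.nd (nat_lit 78) (nat_lit 0) (nat_lit 0) (XT.lf (nat_lit 0) (nat_lit 7507002946) (nat_lit 76) (nat_lit 4197755090) (nat_lit 152) (nat_lit 8177370625) (nat_lit 20) (nat_lit 5) (nat_lit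 21) (nat_lit 5) (nat_lit 22) (nat_lit 4) (nat_lit 346) (nat_lit 236) (nat_lit 198)) (XT.lf (nat_lit 0) (nat_lit 14379393431) (nat_lit 76) (nat_lit 823178627) (nat_lit 152) (nat_lit 5158014547) (nat_lit 20) (nat_lit 5) (nat_lit 21) (nat_lit 5) (nat_lit 22) (nat_lit 4) (nat_lit 347) (nat_lit 236) (nat_lit 197)))) (XT.nd (nat_lit 78) (nat_lit 76) (nat_lit 0) (XT.lf (nat_lit 0) (nat_lit 512474585) (nat_lit 152) (nat_lit 18279106783) (nat_lit 152) (nat_lit 2062258199) (nat_lit 18) (nat_lit 4) (nat_lit 20) (nat_lit 5) (nat_lit 20) (nat_lit 4) (nat_lit 348) (nat_lit 236) (nat_lit 196)) (XT.nd (nat_lit 78) (nat_lit 0) (nat_lit 0) (XT.lf (nat_lit 0) (nat_lit 1129471711) (nat_lit 228) (nat_lit 14132830692) (nat_lit 76) (nat_lit 6098537918) (nat_lit 17) (nat_lit 5) (nat_lit 20) (nat_lit 5) (nat_lit 18) (nat_lit 4) (nat_lit 349) (nat_lit 236) (nat_lit 195)) (XT.lf (nat_lit 0) (nat_lit 4332721469) (nat_lit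 228) (nat_lit 7832961531) (nat_lit 76) (nat_lit 9718065663) (nat_lit 17) (nat_lit 5) (nat_lit 20) (nat_lit 5) (nat_lit 18) (nat_lit 4) (nat_lit 350) (nat_lit 236) (nat_lit 194))))) (XT.nd (nat_lit 234) (nat_lit 152) (nat_lit 0) (XT.nd (nat_lit 78) (nat_lit 76) (nat_lit 0) (XT.lf (nat_lit 0) (nat_lit 7590532116) (nat_lit 228) (nat_lit 1416429073) (nat_lit 76) (nat_lit 13416655027) (nat_lit 17) (nat_lit 5) (nat_lit 20) (nat_lit 5) (nat_lit 18) (nat_lit 4) (nat_lit 351) (nat_lit 236) (nat_lit 193)) (XT.nd (nat_lit 78) (nat_lit 0) (nat_lit 0) (XT.lf (nat_lit 0) (nat_lit 5224318634) (nat_lit 76) (nat_lit 5731650992) (nat_lit 152) (nat_lit 12023438498) (nat_lit 16) (nat_lit 5) (nat_lit 17) (nat_lit 5) (nat_lit 18) (nat_lit 4) (nat_lit 352) (nat_lit 236) (nat_lit 192)) (XT.lf (nat_lit 0) (nat_lit 12023786674) (nat_lit 76) (nat_lit 2373066076) (nat_lit 152) (nat_lit 9155810944) (nat_lit 16) (nat_lit 5)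 (nat_lit 17) (nat_lit 5) (nat_lit 18) (nat_lit 4) (nat_lit 353) (nat_lit 236) (nat_lit 191)))) (XT.nd (nat_lit 78) (nat_lit 152) (nat_lit 0) (XT.lf (nat_lit 0) (nat_lit 17912466137) (nat_lit 152) (nat_lit 5194738427) (nat_lit 0) (nat_lit 1036790918) (nat_lit 16) (nat_lit 5) (nat_lit 18) (nat_lit 4) (nat_lit 16) (nat_lit 4) (nat_lit 354) (nat_lit 236) (nat_lit 190)) (XT.nd (nat_lit 78) (nat_lit 0) (nat_lit 0) (XT.lf (nat_lit 0) (nat_lit 1264171629) (nat_lit 152) (nat_lit 20267219932) (nat_lit 152) (nat_lit 3221763331) (nat_lit 14) (nat_lit 4) (nat_lit 16) (nat_lit 5) (nat_lit 16) (nat_lit 4) (nat_lit 355) (nat_lit 236) (nat_lit 189)) (XT.lf (nat_lit 0) (nat_lit 7957561730) (nat_lit 152) (nat_lit 17316444457) (nat_lit 152) (nat_lit 106151563) (nat_lit 14) (nat_lit 4) (nat_lit 16) (nat_lit 5) (nat_lit 16) (nat_lit 4) (nat_lit 356) (nat_lit 236) (nat_lit 188))))))) (XT.nd (nat_lit 936) (nat_lit 228)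 (nat_lit 0) (XT.nd (nat_lit 468) (nat_lit 152) (nat_lit 0) (XT.nd (nat_lit 234) (nat_lit 0) (nat_lit 0) (XT.nd (nat_lit 78) (nat_lit 76) (nat_lit 0) (XT.lf (nat_lit 0) (nat_lit 3005751320) (nat_lit 228) (nat_lit 11268652947) (nat_lit 76) (nat_lit 11751791473) (nat_lit 13) (nat_lit 5) (nat_lit 16) (nat_lit 5) (nat_lit 14) (nat_lit 4) (nat_lit 357) (nat_lit 236) (nat_lit 187)) (XT.nd (nat_lit 78) (nat_lit 76) (nat_lit 0) (XT.lf (nat_lit 0) (nat_lit 6173316658) (nat_lit 228) (nat_lit 4993869326) (nat_lit 76) (nat_lit 15525484604) (nat_lit 13) (nat_lit 5) (nat_lit 16) (nat_lit 5) (nat_lit 14) (nat_lit 4) (nat_lit 358) (nat_lit 236) (nat_lit 186)) (XT.lf (nat_lit 0) (nat_lit 1436285154) (nat_lit 76) (nat_lit 7978904922) (nat_lit 152) (nat_lit 17964590993) (nat_lit 12) (nat_lit 5) (nat_lit 13) (nat_lit 5) (nat_lit 14) (nat_lit 4) (nat_lit 359) (nat_lit 236) (nat_lit 185)))) (XT.nd (nat_lit 78) (nat_lit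 0) (nat_lit 0) (XT.lf (nat_lit 0) (nat_lit 8101411005) (nat_lit 76) (nat_lit 4669237574) (nat_lit 152) (nat_lit 15316385660) (nat_lit 12) (nat_lit 5) (nat_lit 13) (nat_lit 5) (nat_lit 14) (nat_lit 4) (nat_lit 360) (nat_lit 236) (nat_lit 184)) (XT.nd (nat_lit 78) (nat_lit 0) (nat_lit 0) (XT.lf (nat_lit 0) (nat_lit 14907944331) (nat_lit 76) (nat_lit 1285720288) (nat_lit 152) (nat_lit 12622852256) (nat_lit 12) (nat_lit 5) (nat_lit 13) (nat_lit 5) (nat_lit 14) (nat_lit 4) (nat_lit 361) (nat_lit 236) (nat_lit 183)) (XT.lf (nat_lit 0) (nat_lit 19708132798) (nat_lit 152) (nat_lit 7727937416) (nat_lit 0) (nat_lit 2132169063) (nat_lit 12) (nat_lit 5) (nat_lit 14) (nat_lit 4) (nat_lit 12) (nat_lit 4) (nat_lit 362) (nat_lit 236) (nat_lit 182))))) (XT.nd (nat_lit 234) (nat_lit 76) (nat_lit 0) (XT.nd (nat_lit 78) (nat_lit 76) (nat_lit 0) (XT.lf (nat_lit 0) (nat_lit 23309328631) (nat_lit 152) (nat_lit 1430521918)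 (nat_lit 0) (nat_lit 5603241605) (nat_lit 12) (nat_lit 5) (nat_lit 14) (nat_lit 4) (nat_lit 12) (nat_lit 4) (nat_lit 363) (nat_lit 236) (nat_lit 181)) (XT.nd (nat_lit 78) (nat_lit 0) (nat_lit 0) (XT.lf (nat_lit 0) (nat_lit 5101076044) (nat_lit 76) (nat_lit 21935998284) (nat_lit 76) (nat_lit 4103577966) (nat_lit 11) (nat_lit 4) (nat_lit 12) (nat_lit 5) (nat_lit 12) (nat_lit 4) (nat_lit 364) (nat_lit 236) (nat_lit 180)) (XT.lf (nat_lit 0) (nat_lit 11804198034) (nat_lit 76) (nat_lit 19056751446) (nat_lit 76) (nat_lit 1101677445) (nat_lit 11) (nat_lit 4) (nat_lit 12) (nat_lit 5) (nat_lit 12) (nat_lit 4) (nat_lit 365) (nat_lit 236) (nat_lit 179)))) (XT.nd (nat_lit 78) (nat_lit 0) (nat_lit 0) (XT.lf (nat_lit 0) (nat_lit 1921866676) (nat_lit 152) (nat_lit 14172765891) (nat_lit 76) (nat_lit 16714957197) (nat_lit 10) (nat_lit 5) (nat_lit 12) (nat_lit 5) (nat_lit 11) (nat_lit 4) (nat_lit 366) (nat_lit 236)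 (nat_lit 178)) (XT.nd (nat_lit 78) (nat_lit 0) (nat_lit 0) (XT.lf (nat_lit 0) (nat_lit 4985260049) (nat_lit 152) (nat_lit 8069690204) (nat_lit 76) (nat_lit 20627560629) (nat_lit 10) (nat_lit 5) (nat_lit 12) (nat_lit 5) (nat_lit 11) (nat_lit 4) (nat_lit 367) (nat_lit 236) (nat_lit 177)) (XT.lf (nat_lit 0) (nat_lit 8112677118) (nat_lit 152) (nat_lit 1833279047) (nat_lit 76) (nat_lit 24636514558) (nat_lit 10) (nat_lit 5) (nat_lit 12) (nat_lit 5) (nat_lit 11) (nat_lit 4) (nat_lit 368) (nat_lit 236) (nat_lit 176)))))) (XT.nd (nat_lit 468) (nat_lit 152) (nat_lit 0) (XT.nd (nat_lit 234) (nat_lit 0) (nat_lit 0) (XT.nd (nat_lit 78) (nat_lit 0) (nat_lit 0) (XT.lf (nat_lit 0) (nat_lit 4632309921) (nat_lit 76) (nat_lit 6719069254) (nat_lit 152) (nat_lit 24157540629) (nat_lit 9) (nat_lit 5) (nat_lit 10) (nat_lit 5) (nat_lit 11) (nat_lit 4) (nat_lit 369) (nat_lit 236) (nat_lit 175)) (XT.nd (nat_lit 78) (nat_lit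 0) (nat_lit 0) (XT.lf (nat_lit 0) (nat_lit 11281613013) (nat_lit 76) (nat_lit 3397404210) (nat_lit 152) (nat_lit 21784405790) (nat_lit 9) (nat_lit 5) (nat_lit 10) (nat_lit 5) (nat_lit 11) (nat_lit 4) (nat_lit 370) (nat_lit 236) (nat_lit 174)) (XT.lf (nat_lit 0) (nat_lit 18080558540) (nat_lit 152) (nat_lit 19363432090) (nat_lit 0) (nat_lit 3361959) (nat_lit 9) (nat_lit 5) (nat_lit 11) (nat_lit 4) (nat_lit 9) (nat_lit 4) (nat_lit 371) (nat_lit 236) (nat_lit 173)))) (XT.nd (nat_lit 78) (nat_lit 0) (nat_lit 0) (XT.lf (nat_lit 0) (nat_lit 21592389863) (nat_lit 152) (nat_lit 13449806648) (nat_lit 0) (nat_lit 3418369333) (nat_lit 9) (nat_lit 5) (nat_lit 11) (nat_lit 4) (nat_lit 9) (nat_lit 4) (nat_lit 372) (nat_lit 236) (nat_lit 172)) (XT.nd (nat_lit 78) (nat_lit 0) (nat_lit 0) (XT.lf (nat_lit 0) (nat_lit 25184921854) (nat_lit 152) (nat_lit 7403108501) (nat_lit 0) (nat_lit 6916897490) (nat_lit 9) (nat_lit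 5) (nat_lit 11) (nat_lit 4) (nat_lit 9) (nat_lit 4) (nat_lit 373) (nat_lit 236) (nat_lit 171)) (XT.lf (nat_lit 0) (nat_lit 28861293620) (nat_lit 152) (nat_lit 1218054127) (nat_lit 0) (nat_lit 10502003397) (nat_lit 9) (nat_lit 5) (nat_lit 11) (nat_lit 4) (nat_lit 9) (nat_lit 4) (nat_lit 374) (nat_lit 236) (nat_lit 170))))) (XT.nd (nat_lit 234) (nat_lit 76) (nat_lit 0) (XT.nd (nat_lit 78) (nat_lit 0) (nat_lit 0) (XT.lf (nat_lit 0) (nat_lit 5212475052) (nat_lit 76) (nat_lit 27462347970) (nat_lit 76) (nat_lit 9014450117) (nat_lit 8) (nat_lit 4) (nat_lit 9) (nat_lit 5) (nat_lit 9) (nat_lit 4) (nat_lit 375) (nat_lit 236) (nat_lit 169)) (XT.nd (nat_lit 78) (nat_lit 0) (nat_lit 0) (XT.lf (nat_lit 0) (nat_lit 11819507752) (nat_lit 76) (nat_lit 24772590581) (nat_lit 76) (nat_lit 6238665903) (nat_lit 8) (nat_lit 4) (nat_lit 9) (nat_lit 5) (nat_lit 9) (nat_lit 4) (nat_lit 376) (nat_lit 236) (nat_lit 168))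 (XT.lf (nat_lit 0) (nat_lit 18584575440) (nat_lit 76) (nat_lit 22020025265) (nat_lit 76) (nat_lit 3402579399) (nat_lit 8) (nat_lit 4) (nat_lit 9) (nat_lit 5) (nat_lit 9) (nat_lit 4) (nat_lit 377) (nat_lit 236) (nat_lit 167)))) (XT.nd (nat_lit 78) (nat_lit 76) (nat_lit 0) (XT.lf (nat_lit 0) (nat_lit 25513589342) (nat_lit 76) (nat_lit 19202246870) (nat_lit 76) (nat_lit 503712470) (nat_lit 8) (nat_lit 4) (nat_lit 9) (nat_lit 5) (nat_lit 9) (nat_lit 4) (nat_lit 378) (nat_lit 236) (nat_lit 166)) (XT.nd (nat_lit 78) (nat_lit 0) (nat_lit 0) (XT.lf (nat_lit 0) (nat_lit 2412455283) (nat_lit 152) (nat_lit 13879976906) (nat_lit 76) (nat_lit 30175787583) (nat_lit 7) (nat_lit 5) (nat_lit 9) (nat_lit 5) (nat_lit 8) (nat_lit 4) (nat_lit 379) (nat_lit 236) (nat_lit 165)) (XT.lf (nat_lit 0) (nat_lit 5385372225) (nat_lit 152) (nat_lit 7921389232) (nat_lit 76) (nat_lit 34448068314) (nat_lit 7) (nat_lit 5) (nat_lit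 9) (nat_lit 5) (nat_lit 8) (nat_lit 4) (nat_lit 380) (nat_lit 236) (nat_lit 164))))))))
noncomputable def xc50 : XT := (XT.nd (nat_lit 34788) (nat_lit 0) (nat_lit 2432) (XT.nd (nat_lit 858) (nat_lit 152) (nat_lit 0) (XT.nd (nat_lit 390) (nat_lit 76) (nat_lit 0) (XT.nd (nat_lit 156) (nat_lit 0) (nat_lit 0) (XT.nd (nat_lit 78) (nat_lit 76) (nat_lit 0) (XT.lf (nat_lit 0) (nat_lit 8427465297) (nat_lit 152) (nat_lit 1820147792) (nat_lit 76) (nat_lit 38833035074) (nat_lit 7) (nat_lit 5) (nat_lit 9) (nat_lit 5) (nat_lit 8) (nat_lit 4) (nat_lit 381) (nat_lit 236) (nat_lit 163)) (XT.lf (nat_lit 0) (nat_lit 4517225943) (nat_lit 76) (nat_lit 7067589031) (nat_lit 152) (nat_lit 38860715783) (nat_lit 6) (nat_lit 5) (nat_lit 7) (nat_lit 5) (nat_lit 8) (nat_lit 4) (nat_lit 382) (nat_lit 236) (nat_lit 162))) (XT.nd (nat_lit 78) (nat_lit 0) (nat_lit 0) (XT.lf (nat_lit 0) (nat_lit 11047323491) (nat_lit 76) (nat_lit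 3788745291) (nat_lit 152) (nat_lit 37015324730) (nat_lit 6) (nat_lit 5) (nat_lit 7) (nat_lit 5) (nat_lit 8) (nat_lit 4) (nat_lit 383) (nat_lit 236) (nat_lit 161)) (XT.nd (nat_lit 78) (nat_lit 0) (nat_lit 0) (XT.lf (nat_lit 0) (nat_lit 17739626251) (nat_lit 76) (nat_lit 426596782) (nat_lit 152) (nat_lit 35133777154) (nat_lit 6) (nat_lit 5) (nat_lit 7) (nat_lit 5) (nat_lit 8) (nat_lit 4) (nat_lit 384) (nat_lit 236) (nat_lit 160)) (XT.lf (nat_lit 0) (nat_lit 21607234908) (nat_lit 152) (nat_lit 30221682025) (nat_lit 0) (nat_lit 2962828202) (nat_lit 6) (nat_lit 5) (nat_lit 8) (nat_lit 4) (nat_lit 6) (nat_lit 4) (nat_lit 385) (nat_lit 236) (nat_lit 159))))) (XT.nd (nat_lit 234) (nat_lit 76) (nat_lit 0) (XT.nd (nat_lit 78) (nat_lit 0) (nat_lit 0) (XT.lf (nat_lit 0) (nat_lit 25137997087) (nat_lit 152) (nat_lit 24759215384) (nat_lit 0) (nat_lit 6431442773) (nat_lit 6) (nat_lit 5) (nat_lit 8) (nat_lit 4)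 (nat_lit 6) (nat_lit 4) (nat_lit 386) (nat_lit 236) (nat_lit 158)) (XT.nd (nat_lit 78) (nat_lit 0) (nat_lit 0) (XT.lf (nat_lit 0) (nat_lit 28757493994) (nat_lit 152) (nat_lit 19164100275) (nat_lit 0) (nat_lit 9990602196) (nat_lit 6) (nat_lit 5) (nat_lit 8) (nat_lit 4) (nat_lit 6) (nat_lit 4) (nat_lit 387) (nat_lit 236) (nat_lit 157)) (XT.lf (nat_lit 0) (nat_lit 32468888297) (nat_lit 152) (nat_lit 13431447763) (nat_lit 0) (nat_lit 13643416418) (nat_lit 6) (nat_lit 5) (nat_lit 8) (nat_lit 4) (nat_lit 6) (nat_lit 4) (nat_lit 388) (nat_lit 236) (nat_lit 156)))) (XT.nd (nat_lit 78) (nat_lit 76) (nat_lit 0) (XT.lf (nat_lit 0) (nat_lit 36275422961) (nat_lit 152) (nat_lit 7556248733) (nat_lit 0) (nat_lit 17393077216) (nat_lit 6) (nat_lit 5) (nat_lit 8) (nat_lit 4) (nat_lit 6) (nat_lit 4) (nat_lit 389) (nat_lit 236) (nat_lit 155)) (XT.nd (nat_lit 78) (nat_lit 76) (nat_lit 0) (XT.lf (nat_lit 0) (nat_lit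 40180424085) (nat_lit 152) (nat_lit 1533369517) (nat_lit 0) (nat_lit 21242860994) (nat_lit 6) (nat_lit 5) (nat_lit 8) (nat_lit 4) (nat_lit 6) (nat_lit 4) (nat_lit 390) (nat_lit 236) (nat_lit 154)) (XT.lf (nat_lit 0) (nat_lit 4734846504) (nat_lit 76) (nat_lit 39497971542) (nat_lit 76) (nat_lit 20506799378) (nat_lit 5) (nat_lit 4) (nat_lit 6) (nat_lit 5) (nat_lit 6) (nat_lit 4) (nat_lit 391) (nat_lit 236) (nat_lit 153)))))) (XT.nd (nat_lit 468) (nat_lit 152) (nat_lit 0) (XT.nd (nat_lit 234) (nat_lit 0) (nat_lit 0) (XT.nd (nat_lit 78) (nat_lit 0) (nat_lit 0) (XT.lf (nat_lit 0) (nat_lit 11195070093) (nat_lit 76) (nat_lit 37212107048) (nat_lit 76) (nat_lit 18168887240) (nat_lit 5) (nat_lit 4) (nat_lit 6) (nat_lit 5) (nat_lit 6) (nat_lit 4) (nat_lit 392) (nat_lit 236) (nat_lit 152)) (XT.nd (nat_lit 78) (nat_lit 0) (nat_lit 0) (XT.lf (nat_lit 0) (nat_lit 17822429045) (nat_lit 76) (nat_lit 34869686788)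 (nat_lit 76) (nat_lit 15775935288) (nat_lit 5) (nat_lit 4) (nat_lit 6) (nat_lit 5) (nat_lit 6) (nat_lit 4) (nat_lit 393) (nat_lit 236) (nat_lit 151)) (XT.lf (nat_lit 0) (nat_lit 24622714256) (nat_lit 76) (nat_lit 32468663988) (nat_lit 76) (nat_lit 13325852591) (nat_lit 5) (nat_lit 4) (nat_lit 6) (nat_lit 5) (nat_lit 6) (nat_lit 4) (nat_lit 394) (nat_lit 236) (nat_lit 150)))) (XT.nd (nat_lit 78) (nat_lit 0) (nat_lit 0) (XT.lf (nat_lit 0) (nat_lit 31601867722) (nat_lit 76) (nat_lit 30006940666) (nat_lit 76) (nat_lit 10816498302) (nat_lit 5) (nat_lit 4) (nat_lit 6) (nat_lit 5) (nat_lit 6) (nat_lit 4) (nat_lit 395) (nat_lit 236) (nat_lit 149)) (XT.nd (nat_lit 78) (nat_lit 0) (nat_lit 0) (XT.lf (nat_lit 0) (nat_lit 38765987734) (nat_lit 76) (nat_lit 27482365803) (nat_lit 76) (nat_lit 8245679781) (nat_lit 5) (nat_lit 4) (nat_lit 6) (nat_lit 5) (nat_lit 6) (nat_lit 4) (nat_lit 396) (nat_lit 236) (nat_lit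 148)) (XT.lf (nat_lit 0) (nat_lit 46121334202) (nat_lit 76) (nat_lit 24892733458) (nat_lit 76) (nat_lit 5611150682) (nat_lit 5) (nat_lit 4) (nat_lit 6) (nat_lit 5) (nat_lit 6) (nat_lit 4) (nat_lit 397) (nat_lit 236) (nat_lit 147))))) (XT.nd (nat_lit 234) (nat_lit 76) (nat_lit 0) (XT.nd (nat_lit 78) (nat_lit 76) (nat_lit 0) (XT.lf (nat_lit 0) (nat_lit 53674334127) (nat_lit 76) (nat_lit 22235780846) (nat_lit 76) (nat_lit 2910608988) (nat_lit 5) (nat_lit 4) (nat_lit 6) (nat_lit 5) (nat_lit 6) (nat_lit 4) (nat_lit 398) (nat_lit 236) (nat_lit 146)) (XT.nd (nat_lit 78) (nat_lit 76) (nat_lit 0) (XT.lf (nat_lit 0) (nat_lit 61431587219) (nat_lit 76) (nat_lit 19509186359) (nat_lit 76) (nat_lit 141695003) (nat_lit 5) (nat_lit 4) (nat_lit 6) (nat_lit 5) (nat_lit 6) (nat_lit 4) (nat_lit 399) (nat_lit 236) (nat_lit 145)) (XT.lf (nat_lit 0) (nat_lit 2645362804) (nat_lit 152) (nat_lit 14038491753) (nat_lit 76)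 (nat_lit 66727795878) (nat_lit 4) (nat_lit 5) (nat_lit 6) (nat_lit 5) (nat_lit 5) (nat_lit 4) (nat_lit 400) (nat_lit 236) (nat_lit 144)))) (XT.nd (nat_lit 78) (nat_lit 76) (nat_lit 0) (XT.lf (nat_lit 0) (nat_lit 5501498838) (nat_lit 152) (nat_lit 8280425789) (nat_lit 76) (nat_lit 72029096838) (nat_lit 4) (nat_lit 5) (nat_lit 6) (nat_lit 5) (nat_lit 5) (nat_lit 4) (nat_lit 401) (nat_lit 236) (nat_lit 143)) (XT.nd (nat_lit 78) (nat_lit 76) (nat_lit 0) (XT.lf (nat_lit 0) (nat_lit 8431973731) (nat_lit 152) (nat_lit 2370290092) (nat_lit 76) (nat_lit 77480455248) (nat_lit 4) (nat_lit 5) (nat_lit 6) (nat_lit 5) (nat_lit 5) (nat_lit 4) (nat_lit 402) (nat_lit 236) (nat_lit 142)) (XT.lf (nat_lit 0) (nat_lit 3770658666) (nat_lit 76) (nat_lit 7704935303) (nat_lit 152) (nat_lit 79352221643) (nat_lit 3) (nat_lit 5) (nat_lit 4) (nat_lit 5) (nat_lit 5) (nat_lit 4) (nat_lit 403) (nat_lit 236) (nat_lit 141)))))))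 (XT.nd (nat_lit 936) (nat_lit 1672) (nat_lit 0) (XT.nd (nat_lit 468) (nat_lit 912) (nat_lit 0) (XT.nd (nat_lit 234) (nat_lit 684) (nat_lit 0) (XT.nd (nat_lit 78) (nat_lit 304) (nat_lit 0) (XT.lf (nat_lit 0) (nat_lit 497627) (nat_lit 380) (nat_lit 4565714240) (nat_lit 0) (nat_lit 497627) (nat_lit 82) (nat_lit 5) (nat_lit 87) (nat_lit 4) (nat_lit 82) (nat_lit 4) (nat_lit 306) (nat_lit 237) (nat_lit 237)) (XT.nd (nat_lit 78) (nat_lit 304) (nat_lit 0) (XT.lf (nat_lit 0) (nat_lit 3554972927) (nat_lit 380) (nat_lit 3098175384) (nat_lit 0) (nat_lit 2612108837) (nat_lit 82) (nat_lit 5) (nat_lit 87) (nat_lit 4) (nat_lit 82) (nat_lit 4) (nat_lit 307) (nat_lit 237) (nat_lit 236)) (XT.lf (nat_lit 0) (nat_lit 3053796389) (nat_lit 304) (nat_lit 4103693237) (nat_lit 304) (nat_lit 2245427119) (nat_lit 78) (nat_lit 4) (nat_lit 82) (nat_lit 5) (nat_lit 82) (nat_lit 4) (nat_lit 308) (nat_lit 237) (nat_lit 235))))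 (XT.nd (nat_lit 78) (nat_lit 608) (nat_lit 0) (XT.lf (nat_lit 0) (nat_lit 1242128626) (nat_lit 380) (nat_lit 225484840) (nat_lit 76) (nat_lit 8078490502) (nat_lit 77) (nat_lit 5) (nat_lit 82) (nat_lit 5) (nat_lit 78) (nat_lit 4) (nat_lit 309) (nat_lit 237) (nat_lit 234)) (XT.nd (nat_lit 78) (nat_lit 304) (nat_lit 0) (XT.lf (nat_lit 0) (nat_lit 4775395715) (nat_lit 380) (nat_lit 3647373925) (nat_lit 0) (nat_lit 1270677114) (nat_lit 73) (nat_lit 5) (nat_lit 78) (nat_lit 4) (nat_lit 73) (nat_lit 4) (nat_lit 310) (nat_lit 237) (nat_lit 233)) (XT.lf (nat_lit 0) (nat_lit 2581009088) (nat_lit 304) (nat_lit 5791803845) (nat_lit 304) (nat_lit 1473762397) (nat_lit 69) (nat_lit 4) (nat_lit 73) (nat_lit 5) (nat_lit 73) (nat_lit 4) (nat_lit 311) (nat_lit 237) (nat_lit 232))))) (XT.nd (nat_lit 234) (nat_lit 304) (nat_lit 0) (XT.nd (nat_lit 78) (nat_lit 532) (nat_lit 0) (XT.lf (nat_lit 0) (nat_lit 1987464358)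 (nat_lit 380) (nat_lit 1073122631) (nat_lit 76) (nat_lit 6944594137) (nat_lit 68) (nat_lit 5) (nat_lit 73) (nat_lit 5) (nat_lit 69) (nat_lit 4) (nat_lit 312) (nat_lit 237) (nat_lit 231)) (XT.nd (nat_lit 78) (nat_lit 304) (nat_lit 0) (XT.lf (nat_lit 0) (nat_lit 5276335553) (nat_lit 228) (nat_lit 216593323) (nat_lit 304) (nat_lit 4676178533) (nat_lit 65) (nat_lit 5) (nat_lit 68) (nat_lit 5) (nat_lit 69) (nat_lit 4) (nat_lit 313) (nat_lit 237) (nat_lit 230)) (XT.lf (nat_lit 0) (nat_lit 1383349926) (nat_lit 304) (nat_lit 7690712337) (nat_lit 304) (nat_lit 1264871865) (nat_lit 61) (nat_lit 4) (nat_lit 65) (nat_lit 5) (nat_lit 65) (nat_lit 4) (nat_lit 314) (nat_lit 237) (nat_lit 229)))) (XT.nd (nat_lit 78) (nat_lit 228) (nat_lit 0) (XT.lf (nat_lit 0) (nat_lit 2177449666) (nat_lit 380) (nat_lit 2707197079) (nat_lit 76) (nat_lit 5629475867) (nat_lit 60) (nat_lit 5) (nat_lit 65) (nat_lit 5) (nat_lit 61)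 (nat_lit 4) (nat_lit 315) (nat_lit 237) (nat_lit 228)) (XT.nd (nat_lit 78) (nat_lit 0) (nat_lit 0) (XT.lf (nat_lit 0) (nat_lit 3672613432) (nat_lit 228) (nat_lit 1983139481) (nat_lit 304) (nat_lit 5039783589) (nat_lit 57) (nat_lit 5) (nat_lit 60) (nat_lit 5) (nat_lit 61) (nat_lit 4) (nat_lit 316) (nat_lit 237) (nat_lit 227)) (XT.lf (nat_lit 0) (nat_lit 9199295166) (nat_lit 304) (nat_lit 708238283) (nat_lit 0) (nat_lit 976119550) (nat_lit 57) (nat_lit 5) (nat_lit 61) (nat_lit 4) (nat_lit 57) (nat_lit 4) (nat_lit 317) (nat_lit 237) (nat_lit 226)))))) (XT.nd (nat_lit 468) (nat_lit 684) (nat_lit 0) (XT.nd (nat_lit 234) (nat_lit 456) (nat_lit 0) (XT.nd (nat_lit 78) (nat_lit 228) (nat_lit 0) (XT.lf (nat_lit 0) (nat_lit 1738087434) (nat_lit 304) (nat_lit 5318202361) (nat_lit 76) (nat_lit 4020666283) (nat_lit 53) (nat_lit 5) (nat_lit 57) (nat_lit 5) (nat_lit 54) (nat_lit 4) (nat_lit 318) (nat_lit 237)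 (nat_lit 225)) (XT.nd (nat_lit 78) (nat_lit 0) (nat_lit 0) (XT.lf (nat_lit 0) (nat_lit 1049044246) (nat_lit 228) (nat_lit 4123740325) (nat_lit 304) (nat_lit 6104549918) (nat_lit 50) (nat_lit 5) (nat_lit 53) (nat_lit 5) (nat_lit 54) (nat_lit 4) (nat_lit 319) (nat_lit 237) (nat_lit 224)) (XT.lf (nat_lit 0) (nat_lit 7604326357) (nat_lit 228) (nat_lit 1087100499) (nat_lit 304) (nat_lit 2792947469) (nat_lit 50) (nat_lit 5) (nat_lit 53) (nat_lit 5) (nat_lit 54) (nat_lit 4) (nat_lit 320) (nat_lit 237) (nat_lit 223)))) (XT.nd (nat_lit 78) (nat_lit 152) (nat_lit 0) (XT.lf (nat_lit 0) (nat_lit 578966347) (nat_lit 304) (nat_lit 9125395831) (nat_lit 76) (nat_lit 1993967046) (nat_lit 46) (nat_lit 5) (nat_lit 50) (nat_lit 5) (nat_lit 47) (nat_lit 4) (nat_lit 321) (nat_lit 237) (nat_lit 222)) (XT.nd (nat_lit 78) (nat_lit 152) (nat_lit 0) (XT.lf (nat_lit 0) (nat_lit 3975441764) (nat_lit 304) (nat_lit 2768252951)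 (nat_lit 76) (nat_lit 5174862928) (nat_lit 46) (nat_lit 5) (nat_lit 50) (nat_lit 5) (nat_lit 47) (nat_lit 4) (nat_lit 322) (nat_lit 237) (nat_lit 221)) (XT.lf (nat_lit 0) (nat_lit 3744950882) (nat_lit 152) (nat_lit 3696128724) (nat_lit 228) (nat_lit 4705363854) (nat_lit 44) (nat_lit 5) (nat_lit 46) (nat_lit 5) (nat_lit 47) (nat_lit 4) (nat_lit 323) (nat_lit 237) (nat_lit 220))))) (XT.nd (nat_lit 234) (nat_lit 380) (nat_lit 0) (XT.nd (nat_lit 78) (nat_lit 304) (nat_lit 0) (XT.lf (nat_lit 0) (nat_lit 10403622674) (nat_lit 152) (nat_lit 567263681) (nat_lit 228) (nat_lit 1411540097) (nat_lit 44) (nat_lit 5) (nat_lit 46) (nat_lit 5) (nat_lit 47) (nat_lit 4) (nat_lit 324) (nat_lit 237) (nat_lit 219)) (XT.nd (nat_lit 78) (nat_lit 0) (nat_lit 0) (XT.lf (nat_lit 0) (nat_lit 1945968322) (nat_lit 304) (nat_lit 8049053554) (nat_lit 76) (nat_lit 2629852674) (nat_lit 40) (nat_lit 5) (nat_lit 44) (nat_lit 5)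 (nat_lit 41) (nat_lit 4) (nat_lit 325) (nat_lit 237) (nat_lit 218)) (XT.lf (nat_lit 0) (nat_lit 5335701330) (nat_lit 304) (nat_lit 1631722202) (nat_lit 76) (nat_lit 5908018136) (nat_lit 40) (nat_lit 5) (nat_lit 44) (nat_lit 5) (nat_lit 41) (nat_lit 4) (nat_lit 326) (nat_lit 237) (nat_lit 217)))) (XT.nd (nat_lit 78) (nat_lit 228) (nat_lit 0) (XT.lf (nat_lit 0) (nat_lit 4972655086) (nat_lit 152) (nat_lit 3838265174) (nat_lit 228) (nat_lit 4323150889) (nat_lit 38) (nat_lit 5) (nat_lit 40) (nat_lit 5) (nat_lit 41) (nat_lit 4) (nat_lit 327) (nat_lit 237) (nat_lit 216)) (XT.nd (nat_lit 78) (nat_lit 228) (nat_lit 0) (XT.lf (nat_lit 0) (nat_lit 11707108969) (nat_lit 152) (nat_lit 636646261) (nat_lit 228) (nat_lit 1058160944) (nat_lit 38) (nat_lit 5) (nat_lit 40) (nat_lit 5) (nat_lit 41) (nat_lit 4) (nat_lit 328) (nat_lit 237) (nat_lit 215)) (XT.lf (nat_lit 0) (nat_lit 2271256405) (nat_lit 228) (nat_lit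 8763311869) (nat_lit 76) (nat_lit 2642274208) (nat_lit 35) (nat_lit 5) (nat_lit 38) (nat_lit 5) (nat_lit 36) (nat_lit 4) (nat_lit 329) (nat_lit 237) (nat_lit 214))))))))
noncomputable def xc51 : XT := (XT.nd (nat_lit 1872) (nat_lit 608) (nat_lit 0) (XT.nd (nat_lit 936) (nat_lit 608) (nat_lit 0) (XT.nd (nat_lit 468) (nat_lit 304) (nat_lit 0) (XT.nd (nat_lit 234) (nat_lit 380) (nat_lit 0) (XT.nd (nat_lit 78) (nat_lit 152) (nat_lit 0) (XT.lf (nat_lit 0) (nat_lit 5641425435) (nat_lit 228) (nat_lit 2321969686) (nat_lit 76) (nat_lit 5997495610) (nat_lit 35) (nat_lit 5) (nat_lit 38) (nat_lit 5) (nat_lit 36) (nat_lit 4) (nat_lit 330) (nat_lit 237) (nat_lit 213)) (XT.nd (nat_lit 78) (nat_lit 0) (nat_lit 0) (XT.lf (nat_lit 0) (nat_lit 4299049032) (nat_lit 152) (nat_lit 4795315437) (nat_lit 228) (nat_lit 5159697048) (nat_lit 33) (nat_lit 5) (nat_lit 35) (nat_lit 5) (nat_lit 36) (nat_lit 4) (nat_lit 331)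 (nat_lit 237) (nat_lit 212)) (XT.lf (nat_lit 0) (nat_lit 11069798182) (nat_lit 152) (nat_lit 1545690752) (nat_lit 228) (nat_lit 1941650126) (nat_lit 33) (nat_lit 5) (nat_lit 35) (nat_lit 5) (nat_lit 36) (nat_lit 4) (nat_lit 332) (nat_lit 237) (nat_lit 211)))) (XT.nd (nat_lit 78) (nat_lit 152) (nat_lit 0) (XT.lf (nat_lit 0) (nat_lit 1335847648) (nat_lit 228) (nat_lit 11759873351) (nat_lit 76) (nat_lit 1773547700) (nat_lit 30) (nat_lit 5) (nat_lit 33) (nat_lit 5) (nat_lit 31) (nat_lit 4) (nat_lit 333) (nat_lit 237) (nat_lit 210)) (XT.nd (nat_lit 78) (nat_lit 152) (nat_lit 0) (XT.lf (nat_lit 0) (nat_lit 4666187438) (nat_lit 228) (nat_lit 5344414168) (nat_lit 76) (nat_lit 5179822972) (nat_lit 30) (nat_lit 5) (nat_lit 33) (nat_lit 5) (nat_lit 31) (nat_lit 4) (nat_lit 334) (nat_lit 237) (nat_lit 209)) (XT.lf (nat_lit 0) (nat_lit 1194237583) (nat_lit 152) (nat_lit 6858023744) (nat_lit 228) (nat_lit 7470323115)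 (nat_lit 28) (nat_lit 5) (nat_lit 30) (nat_lit 5) (nat_lit 31) (nat_lit 4) (nat_lit 335) (nat_lit 237) (nat_lit 208))))) (XT.nd (nat_lit 234) (nat_lit 76) (nat_lit 0) (XT.nd (nat_lit 78) (nat_lit 228) (nat_lit 0) (XT.lf (nat_lit 0) (nat_lit 7946936653) (nat_lit 152) (nat_lit 3592032927) (nat_lit 228) (nat_lit 4325810702) (nat_lit 28) (nat_lit 5) (nat_lit 30) (nat_lit 5) (nat_lit 31) (nat_lit 4) (nat_lit 336) (nat_lit 237) (nat_lit 207)) (XT.nd (nat_lit 78) (nat_lit 228) (nat_lit 0) (XT.lf (nat_lit 0) (nat_lit 14813219135) (nat_lit 152) (nat_lit 263743481) (nat_lit 228) (nat_lit 1141920374) (nat_lit 28) (nat_lit 5) (nat_lit 30) (nat_lit 5) (nat_lit 31) (nat_lit 4) (nat_lit 337) (nat_lit 237) (nat_lit 206)) (XT.lf (nat_lit 0) (nat_lit 2125168728) (nat_lit 228) (nat_lit 11316644410) (nat_lit 76) (nat_lit 3140336589) (nat_lit 25) (nat_lit 5) (nat_lit 28) (nat_lit 5) (nat_lit 26) (nat_lit 4) (nat_lit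 338) (nat_lit 237) (nat_lit 205)))) (XT.nd (nat_lit 78) (nat_lit 76) (nat_lit 0) (XT.lf (nat_lit 0) (nat_lit 5432304332) (nat_lit 228) (nat_lit 4892200571) (nat_lit 76) (nat_lit 6632558799) (nat_lit 25) (nat_lit 5) (nat_lit 28) (nat_lit 5) (nat_lit 26) (nat_lit 4) (nat_lit 339) (nat_lit 237) (nat_lit 204)) (XT.nd (nat_lit 78) (nat_lit 0) (nat_lit 0) (XT.lf (nat_lit 0) (nat_lit 1672290318) (nat_lit 76) (nat_lit 7131991178) (nat_lit 152) (nat_lit 8540011646) (nat_lit 24) (nat_lit 5) (nat_lit 25) (nat_lit 5) (nat_lit 26) (nat_lit 4) (nat_lit 340) (nat_lit 237) (nat_lit 203)) (XT.lf (nat_lit 0) (nat_lit 8449519034) (nat_lit 76) (nat_lit 3827510241) (nat_lit 152) (nat_lit 5466157648) (nat_lit 24) (nat_lit 5) (nat_lit 25) (nat_lit 5) (nat_lit 26) (nat_lit 4) (nat_lit 341) (nat_lit 237) (nat_lit 202)))))) (XT.nd (nat_lit 468) (nat_lit 304) (nat_lit 0) (XT.nd (nat_lit 234) (nat_lit 76) (nat_lit 0) (XT.nd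 (nat_lit 78) (nat_lit 228) (nat_lit 0) (XT.lf (nat_lit 0) (nat_lit 15348043045) (nat_lit 76) (nat_lit 457576315) (nat_lit 152) (nat_lit 2349913119) (nat_lit 24) (nat_lit 5) (nat_lit 25) (nat_lit 5) (nat_lit 26) (nat_lit 4) (nat_lit 342) (nat_lit 237) (nat_lit 201)) (XT.nd (nat_lit 78) (nat_lit 0) (nat_lit 0) (XT.lf (nat_lit 0) (nat_lit 861810040) (nat_lit 228) (nat_lit 14749723509) (nat_lit 76) (nat_lit 2967936573) (nat_lit 21) (nat_lit 5) (nat_lit 24) (nat_lit 5) (nat_lit 22) (nat_lit 4) (nat_lit 343) (nat_lit 237) (nat_lit 200)) (XT.lf (nat_lit 0) (nat_lit 4108682274) (nat_lit 228) (nat_lit 8400640528) (nat_lit 76) (nat_lit 6506556056) (nat_lit 21) (nat_lit 5) (nat_lit 24) (nat_lit 5) (nat_lit 22) (nat_lit 4) (nat_lit 344) (nat_lit 237) (nat_lit 199)))) (XT.nd (nat_lit 78) (nat_lit 76) (nat_lit 0) (XT.lf (nat_lit 0) (nat_lit 7407200493) (nat_lit 228) (nat_lit 1939665680) (nat_lit 76) (nat_lit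 10119917366) (nat_lit 21) (nat_lit 5) (nat_lit 24) (nat_lit 5) (nat_lit 22) (nat_lit 4) (nat_lit 345) (nat_lit 237) (nat_lit 198)) (XT.nd (nat_lit 78) (nat_lit 0) (nat_lit 0) (XT.lf (nat_lit 0) (nat_lit 4731168687) (nat_lit 76) (nat_lit 6074557100) (nat_lit 152) (nat_lit 9125488009) (nat_lit 20) (nat_lit 5) (nat_lit 21) (nat_lit 5) (nat_lit 22) (nat_lit 4) (nat_lit 346) (nat_lit 237) (nat_lit 197)) (XT.lf (nat_lit 0) (nat_lit 11566345424) (nat_lit 76) (nat_lit 2715588703) (nat_lit 152) (nat_lit 6128400121) (nat_lit 20) (nat_lit 5) (nat_lit 21) (nat_lit 5) (nat_lit 22) (nat_lit 4) (nat_lit 347) (nat_lit 237) (nat_lit 196))))) (XT.nd (nat_lit 234) (nat_lit 76) (nat_lit 0) (XT.nd (nat_lit 78) (nat_lit 228) (nat_lit 0) (XT.lf (nat_lit 0) (nat_lit 17826704162) (nat_lit 152) (nat_lit 2378757686) (nat_lit 0) (nat_lit 699466463) (nat_lit 20) (nat_lit 5) (nat_lit 22) (nat_lit 4) (nat_lit 20) (nat_lit 4)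 (nat_lit 348) (nat_lit 237) (nat_lit 195)) (XT.nd (nat_lit 78) (nat_lit 0) (nat_lit 0) (XT.lf (nat_lit 0) (nat_lit 88703637) (nat_lit 228) (nat_lit 17149897163) (nat_lit 76) (nat_lit 4174973187) (nat_lit 17) (nat_lit 5) (nat_lit 20) (nat_lit 5) (nat_lit 18) (nat_lit 4) (nat_lit 349) (nat_lit 237) (nat_lit 194)) (XT.lf (nat_lit 0) (nat_lit 3271492014) (nat_lit 228) (nat_lit 10885659912) (nat_lit 76) (nat_lit 7779956985) (nat_lit 17) (nat_lit 5) (nat_lit 20) (nat_lit 5) (nat_lit 18) (nat_lit 4) (nat_lit 350) (nat_lit 237) (nat_lit 193)))) (XT.nd (nat_lit 78) (nat_lit 76) (nat_lit 0) (XT.lf (nat_lit 0) (nat_lit 6509437241) (nat_lit 228) (nat_lit 4503721541) (nat_lit 76) (nat_lit 11464426011) (nat_lit 17) (nat_lit 5) (nat_lit 20) (nat_lit 5) (nat_lit 18) (nat_lit 4) (nat_lit 351) (nat_lit 237) (nat_lit 192)) (XT.nd (nat_lit 78) (nat_lit 0) (nat_lit 0) (XT.lf (nat_lit 0) (nat_lit 2041328063) (nat_lit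 76) (nat_lit 7783663022) (nat_lit 152) (nat_lit 13209894135) (nat_lit 16) (nat_lit 5) (nat_lit 17) (nat_lit 5) (nat_lit 18) (nat_lit 4) (nat_lit 352) (nat_lit 237) (nat_lit 191)) (XT.lf (nat_lit 0) (nat_lit 8807538889) (nat_lit 76) (nat_lit 4439290567) (nat_lit 152) (nat_lit 10361894333) (nat_lit 16) (nat_lit 5) (nat_lit 17) (nat_lit 5) (nat_lit 18) (nat_lit 4) (nat_lit 353) (nat_lit 237) (nat_lit 190))))))) (XT.nd (nat_lit 936) (nat_lit 228) (nat_lit 0) (XT.nd (nat_lit 468) (nat_lit 152) (nat_lit 0) (XT.nd (nat_lit 234) (nat_lit 76) (nat_lit 0) (XT.nd (nat_lit 78) (nat_lit 152) (nat_lit 0) (XT.lf (nat_lit 0) (nat_lit 15711190269) (nat_lit 76) (nat_lit 1022597907) (nat_lit 152) (nat_lit 7467138360) (nat_lit 16) (nat_lit 5) (nat_lit 17) (nat_lit 5) (nat_lit 18) (nat_lit 4) (nat_lit 354) (nat_lit 237) (nat_lit 189)) (XT.nd (nat_lit 78) (nat_lit 152) (nat_lit 0) (XT.lf (nat_lit 0) (nat_lit 20312651492)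 (nat_lit 152) (nat_lit 2077433788) (nat_lit 0) (nat_lit 2421213520) (nat_lit 16) (nat_lit 5) (nat_lit 18) (nat_lit 4) (nat_lit 16) (nat_lit 4) (nat_lit 355) (nat_lit 237) (nat_lit 188)) (XT.lf (nat_lit 0) (nat_lit 4543153895) (nat_lit 152) (nat_lit 19473889165) (nat_lit 152) (nat_lit 1422415958) (nat_lit 14) (nat_lit 4) (nat_lit 16) (nat_lit 5) (nat_lit 16) (nat_lit 4) (nat_lit 356) (nat_lit 237) (nat_lit 187)))) (XT.nd (nat_lit 78) (nat_lit 0) (nat_lit 0) (XT.lf (nat_lit 0) (nat_lit 1697654206) (nat_lit 228) (nat_lit 14760609183) (nat_lit 76) (nat_lit 9628148792) (nat_lit 13) (nat_lit 5) (nat_lit 16) (nat_lit 5) (nat_lit 14) (nat_lit 4) (nat_lit 357) (nat_lit 237) (nat_lit 186)) (XT.nd (nat_lit 78) (nat_lit 0) (nat_lit 0) (XT.lf (nat_lit 0) (nat_lit 4848211992) (nat_lit 228) (nat_lit 8515825436) (nat_lit 76) (nat_lit 13389369591) (nat_lit 13) (nat_lit 5) (nat_lit 16) (nat_lit 5) (nat_lit 14)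 (nat_lit 4) (nat_lit 358) (nat_lit 237) (nat_lit 185)) (XT.lf (nat_lit 0) (nat_lit 8059766772) (nat_lit 228) (nat_lit 2142824144) (nat_lit 76) (nat_lit 17238845622) (nat_lit 13) (nat_lit 5) (nat_lit 16) (nat_lit 5) (nat_lit 14) (nat_lit 4) (nat_lit 359) (nat_lit 237) (nat_lit 184))))) (XT.nd (nat_lit 234) (nat_lit 76) (nat_lit 0) (XT.nd (nat_lit 78) (nat_lit 0) (nat_lit 0) (XT.lf (nat_lit 0) (nat_lit 4450814762) (nat_lit 76) (nat_lit 6927093951) (nat_lit 152) (nat_lit 16771909696) (nat_lit 12) (nat_lit 5) (nat_lit 13) (nat_lit 5) (nat_lit 14) (nat_lit 4) (nat_lit 360) (nat_lit 237) (nat_lit 183)) (XT.nd (nat_lit 78) (nat_lit 0) (nat_lit 0) (XT.lf (nat_lit 0) (nat_lit 11229347561) (nat_lit 76) (nat_lit 3555743712) (nat_lit 152) (nat_lit 14094693709) (nat_lit 12) (nat_lit 5) (nat_lit 13) (nat_lit 5) (nat_lit 14) (nat_lit 4) (nat_lit 361) (nat_lit 237) (nat_lit 182)) (XT.lf (nat_lit 0) (nat_lit 18156050842)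 (nat_lit 76) (nat_lit 107232683) (nat_lit 152) (nat_lit 11369320813) (nat_lit 12) (nat_lit 5) (nat_lit 13) (nat_lit 5) (nat_lit 14) (nat_lit 4) (nat_lit 362) (nat_lit 237) (nat_lit 181)))) (XT.nd (nat_lit 78) (nat_lit 76) (nat_lit 0) (XT.lf (nat_lit 0) (nat_lit 21848413758) (nat_lit 152) (nat_lit 5204846310) (nat_lit 0) (nat_lit 3354687537) (nat_lit 12) (nat_lit 5) (nat_lit 14) (nat_lit 4) (nat_lit 12) (nat_lit 4) (nat_lit 363) (nat_lit 237) (nat_lit 180)) (XT.nd (nat_lit 78) (nat_lit 0) (nat_lit 0) (XT.lf (nat_lit 0) (nat_lit 1225158246) (nat_lit 76) (nat_lit 24299146608) (nat_lit 76) (nat_lit 5682766706) (nat_lit 11) (nat_lit 4) (nat_lit 12) (nat_lit 5) (nat_lit 12) (nat_lit 4) (nat_lit 364) (nat_lit 237) (nat_lit 179)) (XT.lf (nat_lit 0) (nat_lit 7902574460) (nat_lit 76) (nat_lit 21431186692) (nat_lit 76) (nat_lit 2695725544) (nat_lit 11) (nat_lit 4) (nat_lit 12) (nat_lit 5) (nat_lit 12) (nat_lit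 4) (nat_lit 365) (nat_lit 237) (nat_lit 178)))))) (XT.nd (nat_lit 468) (nat_lit 76) (nat_lit 0) (XT.nd (nat_lit 234) (nat_lit 76) (nat_lit 0) (XT.nd (nat_lit 78) (nat_lit 0) (nat_lit 0) (XT.lf (nat_lit 0) (nat_lit 344779149) (nat_lit 152) (nat_lit 18151172332) (nat_lit 76) (nat_lit 14381389577) (nat_lit 10) (nat_lit 5) (nat_lit 12) (nat_lit 5) (nat_lit 11) (nat_lit 4) (nat_lit 366) (nat_lit 237) (nat_lit 177)) (XT.nd (nat_lit 78) (nat_lit 0) (nat_lit 0) (XT.lf (nat_lit 0) (nat_lit 3394439466) (nat_lit 152) (nat_lit 12072607384) (nat_lit 76) (nat_lit 18283634582) (nat_lit 10) (nat_lit 5) (nat_lit 12) (nat_lit 5) (nat_lit 11) (nat_lit 4) (nat_lit 367) (nat_lit 237) (nat_lit 176)) (XT.lf (nat_lit 0) (nat_lit 6508523471) (nat_lit 152) (nat_lit 5859993062) (nat_lit 76) (nat_lit 22282531787) (nat_lit 10) (nat_lit 5) (nat_lit 12) (nat_lit 5) (nat_lit 11) (nat_lit 4) (nat_lit 368) (nat_lit 237) (nat_lit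 175)))) (XT.nd (nat_lit 78) (nat_lit 0) (nat_lit 0) (XT.lf (nat_lit 0) (nat_lit 501892870) (nat_lit 76) (nat_lit 9192683840) (nat_lit 152) (nat_lit 25884507004) (nat_lit 9) (nat_lit 5) (nat_lit 10) (nat_lit 5) (nat_lit 11) (nat_lit 4) (nat_lit 369) (nat_lit 237) (nat_lit 174)) (XT.nd (nat_lit 78) (nat_lit 0) (nat_lit 0) (XT.lf (nat_lit 0) (nat_lit 7128318746) (nat_lit 76) (nat_lit 5881108409) (nat_lit 152) (nat_lit 23524550043) (nat_lit 9) (nat_lit 5) (nat_lit 10) (nat_lit 5) (nat_lit 11) (nat_lit 4) (nat_lit 370) (nat_lit 237) (nat_lit 173)) (XT.lf (nat_lit 0) (nat_lit 13908449293) (nat_lit 76) (nat_lit 2490071071) (nat_lit 152) (nat_lit 21119766308) (nat_lit 9) (nat_lit 5) (nat_lit 10) (nat_lit 5) (nat_lit 11) (nat_lit 4) (nat_lit 371) (nat_lit 237) (nat_lit 172))))) (XT.nd (nat_lit 234) (nat_lit 76) (nat_lit 0) (XT.nd (nat_lit 78) (nat_lit 0) (nat_lit 0) (XT.lf (nat_lit 0) (nat_lit 19874270640)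 (nat_lit 152) (nat_lit 17694116274) (nat_lit 0) (nat_lit 964201711) (nat_lit 9) (nat_lit 5) (nat_lit 11) (nat_lit 4) (nat_lit 9) (nat_lit 4) (nat_lit 372) (nat_lit 237) (nat_lit 171)) (XT.nd (nat_lit 78) (nat_lit 0) (nat_lit 0) (XT.lf (nat_lit 0) (nat_lit 23455011407) (nat_lit 152) (nat_lit 11668622422) (nat_lit 0) (nat_lit 4453676619) (nat_lit 9) (nat_lit 5) (nat_lit 11) (nat_lit 4) (nat_lit 9) (nat_lit 4) (nat_lit 373) (nat_lit 237) (nat_lit 170)) (XT.lf (nat_lit 0) (nat_lit 27119935383) (nat_lit 152) (nat_lit 5504154741) (nat_lit 0) (nat_lit 8029992965) (nat_lit 9) (nat_lit 5) (nat_lit 11) (nat_lit 4) (nat_lit 9) (nat_lit 4) (nat_lit 374) (nat_lit 237) (nat_lit 169)))) (XT.nd (nat_lit 78) (nat_lit 0) (nat_lit 0) (XT.lf (nat_lit 0) (nat_lit 820687769) (nat_lit 76) (nat_lit 30059446110) (nat_lit 76) (nat_lit 10883476867) (nat_lit 8) (nat_lit 4) (nat_lit 9) (nat_lit 5) (nat_lit 9) (nat_lit 4)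 (nat_lit 375) (nat_lit 237) (nat_lit 168)) (XT.nd (nat_lit 78) (nat_lit 0) (nat_lit 0) (XT.lf (nat_lit 0) (nat_lit 7407929339) (nat_lit 76) (nat_lit 27378498965) (nat_lit 76) (nat_lit 8119008533) (nat_lit 8) (nat_lit 4) (nat_lit 9) (nat_lit 5) (nat_lit 9) (nat_lit 4) (nat_lit 376) (nat_lit 237) (nat_lit 167)) (XT.lf (nat_lit 0) (nat_lit 14153782339) (nat_lit 76) (nat_lit 24634487284) (nat_lit 76) (nat_lit 5293908319) (nat_lit 8) (nat_lit 4) (nat_lit 9) (nat_lit 5) (nat_lit 9) (nat_lit 4) (nat_lit 377) (nat_lit 237) (nat_lit 166))))))))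
noncomputable def xc52 : XT := (XT.nd (nat_lit 1794) (nat_lit 0) (nat_lit 0) (XT.nd (nat_lit 858) (nat_lit 152) (nat_lit 0) (XT.nd (nat_lit 390) (nat_lit 76) (nat_lit 0) (XT.nd (nat_lit 156) (nat_lit 0) (nat_lit 0) (XT.nd (nat_lit 78) (nat_lit 76) (nat_lit 0) (XT.lf (nat_lit 0) (nat_lit 21064141203) (nat_lit 76) (nat_lit 21825013389) (nat_lit 76) (nat_lit 2405707692) (nat_lit 8) (nat_lit 4) (nat_lit 9) (nat_lit 5) (nat_lit 9) (nat_lit 4) (nat_lit 378) (nat_lit 237) (nat_lit 165)) (XT.lf (nat_lit 0) (nat_lit 537421280) (nat_lit 152) (nat_lit 18404774216) (nat_lit 76) (nat_lit 27602195927) (nat_lit 7) (nat_lit 5) (nat_lit 9) (nat_lit 5) (nat_lit 8) (nat_lit 4) (nat_lit 379) (nat_lit 237) (nat_lit 164))) (XT.nd (nat_lit 78) (nat_lit 0) (nat_lit 0) (XT.lf (nat_lit 0) (nat_lit 3500480401) (nat_lit 152) (nat_lit 12463971696) (nat_lit 76) (nat_lit 31866849864) (nat_lit 7) (nat_lit 5) (nat_lit 9) (nat_lit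 5) (nat_lit 8) (nat_lit 4) (nat_lit 380) (nat_lit 237) (nat_lit 163)) (XT.nd (nat_lit 78) (nat_lit 0) (nat_lit 0) (XT.lf (nat_lit 0) (nat_lit 6533002770) (nat_lit 152) (nat_lit 6379997397) (nat_lit 76) (nat_lit 36244411969) (nat_lit 7) (nat_lit 5) (nat_lit 9) (nat_lit 5) (nat_lit 8) (nat_lit 4) (nat_lit 381) (nat_lit 237) (nat_lit 162)) (XT.lf (nat_lit 0) (nat_lit 9637638167) (nat_lit 152) (nat_lit 147535224) (nat_lit 76) (nat_lit 40738707297) (nat_lit 7) (nat_lit 5) (nat_lit 9) (nat_lit 5) (nat_lit 8) (nat_lit 4) (nat_lit 382) (nat_lit 237) (nat_lit 161))))) (XT.nd (nat_lit 234) (nat_lit 0) (nat_lit 0) (XT.nd (nat_lit 78) (nat_lit 0) (nat_lit 0) (XT.lf (nat_lit 0) (nat_lit 6363026224) (nat_lit 76) (nat_lit 6515238454) (nat_lit 152) (nat_lit 39051801978) (nat_lit 6) (nat_lit 5) (nat_lit 7) (nat_lit 5) (nat_lit 8) (nat_lit 4) (nat_lit 383) (nat_lit 237) (nat_lit 160)) (XT.nd (nat_lit 78) (nat_lit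 0) (nat_lit 0) (XT.lf (nat_lit 0) (nat_lit 13039212615) (nat_lit 76) (nat_lit 3160292846) (nat_lit 152) (nat_lit 37179439541) (nat_lit 6) (nat_lit 5) (nat_lit 7) (nat_lit 5) (nat_lit 8) (nat_lit 4) (nat_lit 384) (nat_lit 237) (nat_lit 159)) (XT.lf (nat_lit 0) (nat_lit 19605518301) (nat_lit 152) (nat_lit 34990606013) (nat_lit 0) (nat_lit 275619750) (nat_lit 6) (nat_lit 5) (nat_lit 8) (nat_lit 4) (nat_lit 6) (nat_lit 4) (nat_lit 385) (nat_lit 237) (nat_lit 158)))) (XT.nd (nat_lit 78) (nat_lit 0) (nat_lit 0) (XT.lf (nat_lit 0) (nat_lit 23127813418) (nat_lit 152) (nat_lit 29543521407) (nat_lit 0) (nat_lit 3737577382) (nat_lit 6) (nat_lit 5) (nat_lit 8) (nat_lit 4) (nat_lit 6) (nat_lit 4) (nat_lit 386) (nat_lit 237) (nat_lit 157)) (XT.nd (nat_lit 78) (nat_lit 0) (nat_lit 0) (XT.lf (nat_lit 0) (nat_lit 26739089876) (nat_lit 152) (nat_lit 23963340313) (nat_lit 0) (nat_lit 7290273759) (nat_lit 6) (nat_lit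 5) (nat_lit 8) (nat_lit 4) (nat_lit 6) (nat_lit 4) (nat_lit 387) (nat_lit 237) (nat_lit 156)) (XT.lf (nat_lit 0) (nat_lit 30442503161) (nat_lit 152) (nat_lit 18245186844) (nat_lit 0) (nat_lit 10936813177) (nat_lit 6) (nat_lit 5) (nat_lit 8) (nat_lit 4) (nat_lit 6) (nat_lit 4) (nat_lit 388) (nat_lit 237) (nat_lit 155)))))) (XT.nd (nat_lit 468) (nat_lit 76) (nat_lit 0) (XT.nd (nat_lit 234) (nat_lit 76) (nat_lit 0) (XT.nd (nat_lit 78) (nat_lit 0) (nat_lit 0) (XT.lf (nat_lit 0) (nat_lit 34241289263) (nat_lit 152) (nat_lit 12384064555) (nat_lit 0) (nat_lit 14680381934) (nat_lit 6) (nat_lit 5) (nat_lit 8) (nat_lit 4) (nat_lit 6) (nat_lit 4) (nat_lit 389) (nat_lit 237) (nat_lit 154)) (XT.nd (nat_lit 78) (nat_lit 0) (nat_lit 0) (XT.lf (nat_lit 0) (nat_lit 38138767511) (nat_lit 152) (nat_lit 6374852078) (nat_lit 0) (nat_lit 18524251110) (nat_lit 6) (nat_lit 5) (nat_lit 8) (nat_lit 4) (nat_lit 6) (nat_lit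 4) (nat_lit 390) (nat_lit 237) (nat_lit 153)) (XT.lf (nat_lit 0) (nat_lit 42138343469) (nat_lit 152) (nat_lit 212298644) (nat_lit 0) (nat_lit 22471779423) (nat_lit 6) (nat_lit 5) (nat_lit 8) (nat_lit 4) (nat_lit 6) (nat_lit 4) (nat_lit 391) (nat_lit 237) (nat_lit 152)))) (XT.nd (nat_lit 78) (nat_lit 0) (nat_lit 0) (XT.lf (nat_lit 0) (nat_lit 6230561191) (nat_lit 76) (nat_lit 40072842686) (nat_lit 76) (nat_lit 20355746947) (nat_lit 5) (nat_lit 4) (nat_lit 6) (nat_lit 5) (nat_lit 6) (nat_lit 4) (nat_lit 392) (nat_lit 237) (nat_lit 151)) (XT.nd (nat_lit 78) (nat_lit 0) (nat_lit 0) (XT.lf (nat_lit 0) (nat_lit 12845164227) (nat_lit 76) (nat_lit 37736171228) (nat_lit 76) (nat_lit 17970015593) (nat_lit 5) (nat_lit 4) (nat_lit 6) (nat_lit 5) (nat_lit 6) (nat_lit 4) (nat_lit 393) (nat_lit 237) (nat_lit 150)) (XT.lf (nat_lit 0) (nat_lit 19633065053) (nat_lit 76) (nat_lit 35340729788) (nat_lit 76) (nat_lit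 15526943186) (nat_lit 5) (nat_lit 4) (nat_lit 6) (nat_lit 5) (nat_lit 6) (nat_lit 4) (nat_lit 394) (nat_lit 237) (nat_lit 149))))) (XT.nd (nat_lit 234) (nat_lit 76) (nat_lit 0) (XT.nd (nat_lit 78) (nat_lit 0) (nat_lit 0) (XT.lf (nat_lit 0) (nat_lit 26600194845) (nat_lit 76) (nat_lit 32884425263) (nat_lit 76) (nat_lit 13024395004) (nat_lit 5) (nat_lit 4) (nat_lit 6) (nat_lit 5) (nat_lit 6) (nat_lit 4) (nat_lit 395) (nat_lit 237) (nat_lit 148)) (XT.nd (nat_lit 78) (nat_lit 0) (nat_lit 0) (XT.lf (nat_lit 0) (nat_lit 33752641387) (nat_lit 76) (nat_lit 30365111368) (nat_lit 76) (nat_lit 10460184353) (nat_lit 5) (nat_lit 4) (nat_lit 6) (nat_lit 5) (nat_lit 6) (nat_lit 4) (nat_lit 396) (nat_lit 237) (nat_lit 147)) (XT.lf (nat_lit 0) (nat_lit 41096654389) (nat_lit 76) (nat_lit 27780586758) (nat_lit 76) (nat_lit 7832070662) (nat_lit 5) (nat_lit 4) (nat_lit 6) (nat_lit 5) (nat_lit 6) (nat_lit 4) (nat_lit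 397) (nat_lit 237) (nat_lit 146)))) (XT.nd (nat_lit 78) (nat_lit 76) (nat_lit 0) (XT.lf (nat_lit 0) (nat_lit 48638650949) (nat_lit 76) (nat_lit 25128593114) (nat_lit 76) (nat_lit 5137757520) (nat_lit 5) (nat_lit 4) (nat_lit 6) (nat_lit 5) (nat_lit 6) (nat_lit 4) (nat_lit 398) (nat_lit 237) (nat_lit 145)) (XT.nd (nat_lit 78) (nat_lit 76) (nat_lit 0) (XT.lf (nat_lit 0) (nat_lit 56385221162) (nat_lit 76) (nat_lit 22406813157) (nat_lit 76) (nat_lit 2374890673) (nat_lit 5) (nat_lit 4) (nat_lit 6) (nat_lit 5) (nat_lit 6) (nat_lit 4) (nat_lit 399) (nat_lit 237) (nat_lit 144)) (XT.lf (nat_lit 0) (nat_lit 449988383) (nat_lit 152) (nat_lit 19158336251) (nat_lit 76) (nat_lit 63888601491) (nat_lit 4) (nat_lit 5) (nat_lit 6) (nat_lit 5) (nat_lit 5) (nat_lit 4) (nat_lit 400) (nat_lit 237) (nat_lit 143))))))) (XT.nd (nat_lit 33774) (nat_lit 0) (nat_lit 3040) (XT.nd (nat_lit 33306) (nat_lit 0) (nat_lit 4864)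 (XT.nd (nat_lit 33072) (nat_lit 0) (nat_lit 6232) (XT.nd (nat_lit 78) (nat_lit 0) (nat_lit 0) (XT.lf (nat_lit 0) (nat_lit 3300535638) (nat_lit 152) (nat_lit 13410453659) (nat_lit 76) (nat_lit 69185478028) (nat_lit 4) (nat_lit 5) (nat_lit 6) (nat_lit 5) (nat_lit 5) (nat_lit 4) (nat_lit 401) (nat_lit 237) (nat_lit 142)) (XT.nd (nat_lit 78) (nat_lit 0) (nat_lit 0) (XT.lf (nat_lit 0) (nat_lit 6225584531) (nat_lit 152) (nat_lit 7510204731) (nat_lit 76) (nat_lit 74632540883) (nat_lit 4) (nat_lit 5) (nat_lit 6) (nat_lit 5) (nat_lit 5) (nat_lit 4) (nat_lit 402) (nat_lit 237) (nat_lit 141)) (XT.lf (nat_lit 0) (nat_lit 9227690931) (nat_lit 152) (nat_lit 1452433909) (nat_lit 76) (nat_lit 80234549624) (nat_lit 4) (nat_lit 5) (nat_lit 6) (nat_lit 5) (nat_lit 5) (nat_lit 4) (nat_lit 403) (nat_lit 237) (nat_lit 140)))) (XT.nd (nat_lit 78) (nat_lit 456) (nat_lit 0) (XT.lf (nat_lit 0) (nat_lit 1462475556) (nat_lit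 380) (nat_lit 1515078351) (nat_lit 0) (nat_lit 1462475556) (nat_lit 92) (nat_lit 5) (nat_lit 97) (nat_lit 4) (nat_lit 92) (nat_lit 4) (nat_lit 304) (nat_lit 238) (nat_lit 238)) (XT.nd (nat_lit 78) (nat_lit 76) (nat_lit 0) (XT.lf (nat_lit 0) (nat_lit 2961802654) (nat_lit 380) (nat_lit 3521556028) (nat_lit 380) (nat_lit 2521271516) (nat_lit 87) (nat_lit 4) (nat_lit 92) (nat_lit 5) (nat_lit 92) (nat_lit 4) (nat_lit 305) (nat_lit 238) (nat_lit 237)) (XT.lf (nat_lit 0) (nat_lit 938108108) (nat_lit 456) (nat_lit 67075065) (nat_lit 76) (nat_lit 8129319788) (nat_lit 86) (nat_lit 5) (nat_lit 92) (nat_lit 5) (nat_lit 87) (nat_lit 4) (nat_lit 306) (nat_lit 238) (nat_lit 236))))) (XT.nd (nat_lit 234) (nat_lit 684) (nat_lit 0) (XT.nd (nat_lit 78) (nat_lit 380) (nat_lit 0) (XT.lf (nat_lit 0) (nat_lit 4438687677) (nat_lit 380) (nat_lit 3220044866) (nat_lit 0) (nat_lit 1609271547) (nat_lit 82) (nat_lit 5) (nat_lit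 87) (nat_lit 4) (nat_lit 82) (nat_lit 4) (nat_lit 307) (nat_lit 238) (nat_lit 235)) (XT.nd (nat_lit 78) (nat_lit 76) (nat_lit 0) (XT.lf (nat_lit 0) (nat_lit 2870055809) (nat_lit 304) (nat_lit 5127565295) (nat_lit 304) (nat_lit 1409409331) (nat_lit 78) (nat_lit 4) (nat_lit 82) (nat_lit 5) (nat_lit 82) (nat_lit 4) (nat_lit 308) (nat_lit 238) (nat_lit 234)) (XT.lf (nat_lit 0) (nat_lit 2020214972) (nat_lit 380) (nat_lit 479973777) (nat_lit 76) (nat_lit 7051092199) (nat_lit 77) (nat_lit 5) (nat_lit 82) (nat_lit 5) (nat_lit 78) (nat_lit 4) (nat_lit 309) (nat_lit 238) (nat_lit 233)))) (XT.nd (nat_lit 78) (nat_lit 380) (nat_lit 0) (XT.lf (nat_lit 0) (nat_lit 5499909310) (nat_lit 380) (nat_lit 3961372056) (nat_lit 0) (nat_lit 239003773) (nat_lit 73) (nat_lit 5) (nat_lit 78) (nat_lit 4) (nat_lit 73) (nat_lit 4) (nat_lit 310) (nat_lit 238) (nat_lit 232)) (XT.nd (nat_lit 78) (nat_lit 76) (nat_lit 0) (XT.lf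 (nat_lit 0) (nat_lit 2202198629) (nat_lit 304) (nat_lit 6851557110) (nat_lit 304) (nat_lit 801017742) (nat_lit 69) (nat_lit 4) (nat_lit 73) (nat_lit 5) (nat_lit 73) (nat_lit 4) (nat_lit 311) (nat_lit 238) (nat_lit 231)) (XT.lf (nat_lit 0) (nat_lit 2607329007) (nat_lit 380) (nat_lit 1524296271) (nat_lit 76) (nat_lit 5882802184) (nat_lit 68) (nat_lit 5) (nat_lit 73) (nat_lit 5) (nat_lit 69) (nat_lit 4) (nat_lit 312) (nat_lit 238) (nat_lit 230)))))) (XT.nd (nat_lit 468) (nat_lit 684) (nat_lit 0) (XT.nd (nat_lit 234) (nat_lit 532) (nat_lit 0) (XT.nd (nat_lit 78) (nat_lit 380) (nat_lit 0) (XT.lf (nat_lit 0) (nat_lit 4759050144) (nat_lit 228) (nat_lit 1310176416) (nat_lit 304) (nat_lit 4110482368) (nat_lit 65) (nat_lit 5) (nat_lit 68) (nat_lit 5) (nat_lit 69) (nat_lit 4) (nat_lit 313) (nat_lit 238) (nat_lit 229)) (XT.nd (nat_lit 78) (nat_lit 76) (nat_lit 0) (XT.lf (nat_lit 0) (nat_lit 798066733) (nat_lit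 304) (nat_lit 8797983455) (nat_lit 304) (nat_lit 755161524) (nat_lit 61) (nat_lit 4) (nat_lit 65) (nat_lit 5) (nat_lit 65) (nat_lit 4) (nat_lit 314) (nat_lit 238) (nat_lit 228)) (XT.lf (nat_lit 0) (nat_lit 2639199602) (nat_lit 380) (nat_lit 3366391818) (nat_lit 76) (nat_lit 4521846298) (nat_lit 60) (nat_lit 5) (nat_lit 65) (nat_lit 5) (nat_lit 61) (nat_lit 4) (nat_lit 315) (nat_lit 238) (nat_lit 227)))) (XT.nd (nat_lit 78) (nat_lit 304) (nat_lit 0) (XT.lf (nat_lit 0) (nat_lit 2944121329) (nat_lit 228) (nat_lit 3129471893) (nat_lit 304) (nat_lit 4636618477) (nat_lit 57) (nat_lit 5) (nat_lit 60) (nat_lit 5) (nat_lit 61) (nat_lit 4) (nat_lit 316) (nat_lit 238) (nat_lit 226)) (XT.nd (nat_lit 78) (nat_lit 304) (nat_lit 0) (XT.lf (nat_lit 0) (nat_lit 9402237667) (nat_lit 228) (nat_lit 168971763) (nat_lit 304) (nat_lit 1328538104) (nat_lit 57) (nat_lit 5) (nat_lit 60) (nat_lit 5) (nat_lit 61) (nat_lit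 4) (nat_lit 317) (nat_lit 238) (nat_lit 225)) (XT.lf (nat_lit 0) (nat_lit 2041133754) (nat_lit 304) (nat_lit 6196946746) (nat_lit 76) (nat_lit 2856281576) (nat_lit 53) (nat_lit 5) (nat_lit 57) (nat_lit 5) (nat_lit 54) (nat_lit 4) (nat_lit 318) (nat_lit 238) (nat_lit 224))))) (XT.nd (nat_lit 234) (nat_lit 152) (nat_lit 0) (XT.nd (nat_lit 78) (nat_lit 304) (nat_lit 0) (XT.lf (nat_lit 0) (nat_lit 97638795) (nat_lit 228) (nat_lit 5333715289) (nat_lit 304) (nat_lit 5864758737) (nat_lit 50) (nat_lit 5) (nat_lit 53) (nat_lit 5) (nat_lit 54) (nat_lit 4) (nat_lit 319) (nat_lit 238) (nat_lit 223)) (XT.nd (nat_lit 78) (nat_lit 304) (nat_lit 0) (XT.lf (nat_lit 0) (nat_lit 6599355537) (nat_lit 228) (nat_lit 2315823681) (nat_lit 304) (nat_lit 2589054876) (nat_lit 50) (nat_lit 5) (nat_lit 53) (nat_lit 5) (nat_lit 54) (nat_lit 4) (nat_lit 320) (nat_lit 238) (nat_lit 222)) (XT.lf (nat_lit 0) (nat_lit 722049026)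 (nat_lit 304) (nat_lit 10235494417) (nat_lit 76) (nat_lit 762326492) (nat_lit 46) (nat_lit 5) (nat_lit 50) (nat_lit 5) (nat_lit 47) (nat_lit 4) (nat_lit 321) (nat_lit 238) (nat_lit 221)))) (XT.nd (nat_lit 78) (nat_lit 152) (nat_lit 0) (XT.lf (nat_lit 0) (nat_lit 4084667006) (nat_lit 304) (nat_lit 3931420903) (nat_lit 76) (nat_lit 3925059956) (nat_lit 46) (nat_lit 5) (nat_lit 50) (nat_lit 5) (nat_lit 47) (nat_lit 4) (nat_lit 322) (nat_lit 238) (nat_lit 220)) (XT.nd (nat_lit 78) (nat_lit 0) (nat_lit 0) (XT.lf (nat_lit 0) (nat_lit 2506084529) (nat_lit 152) (nat_lit 4999440281) (nat_lit 228) (nat_lit 4664885079) (nat_lit 44) (nat_lit 5) (nat_lit 46) (nat_lit 5) (nat_lit 47) (nat_lit 4) (nat_lit 323) (nat_lit 238) (nat_lit 219)) (XT.lf (nat_lit 0) (nat_lit 9113737798) (nat_lit 152) (nat_lit 1889189458) (nat_lit 228) (nat_lit 1404469603) (nat_lit 44) (nat_lit 5) (nat_lit 46) (nat_lit 5) (nat_lit 47)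 (nat_lit 4) (nat_lit 324) (nat_lit 238) (nat_lit 218))))))))
noncomputable def xc53 : XT := (XT.nd (nat_lit 1872) (nat_lit 836) (nat_lit 0) (XT.nd (nat_lit 936) (nat_lit 608) (nat_lit 0) (XT.nd (nat_lit 468) (nat_lit 532) (nat_lit 0) (XT.nd (nat_lit 234) (nat_lit 228) (nat_lit 0) (XT.nd (nat_lit 78) (nat_lit 152) (nat_lit 0) (XT.lf (nat_lit 0) (nat_lit 1894699229) (nat_lit 304) (nat_lit 9454678998) (nat_lit 76) (nat_lit 1302240760) (nat_lit 40) (nat_lit 5) (nat_lit 44) (nat_lit 5) (nat_lit 41) (nat_lit 4) (nat_lit 325) (nat_lit 238) (nat_lit 217)) (XT.nd (nat_lit 78) (nat_lit 152) (nat_lit 0) (XT.lf (nat_lit 0) (nat_lit 5252902054) (nat_lit 304) (nat_lit 3087844403) (nat_lit 76) (nat_lit 4562414700) (nat_lit 40) (nat_lit 5) (nat_lit 44) (nat_lit 5) (nat_lit 41) (nat_lit 4) (nat_lit 326) (nat_lit 238) (nat_lit 216)) (XT.lf (nat_lit 0) (nat_lit 3437551509) (nat_lit 152) (nat_lit 5245201294) (nat_lit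 228) (nat_lit 4480427179) (nat_lit 38) (nat_lit 5) (nat_lit 40) (nat_lit 5) (nat_lit 41) (nat_lit 4) (nat_lit 327) (nat_lit 238) (nat_lit 215)))) (XT.nd (nat_lit 78) (nat_lit 228) (nat_lit 0) (XT.lf (nat_lit 0) (nat_lit 10123460062) (nat_lit 152) (nat_lit 2061940842) (nat_lit 228) (nat_lit 1246557182) (nat_lit 38) (nat_lit 5) (nat_lit 40) (nat_lit 5) (nat_lit 41) (nat_lit 4) (nat_lit 328) (nat_lit 238) (nat_lit 214)) (XT.nd (nat_lit 78) (nat_lit 0) (nat_lit 0) (XT.lf (nat_lit 0) (nat_lit 2026587600) (nat_lit 228) (nat_lit 10473413337) (nat_lit 76) (nat_lit 1208762150) (nat_lit 35) (nat_lit 5) (nat_lit 38) (nat_lit 5) (nat_lit 36) (nat_lit 4) (nat_lit 329) (nat_lit 238) (nat_lit 213)) (XT.lf (nat_lit 0) (nat_lit 5367367390) (nat_lit 228) (nat_lit 4080077883) (nat_lit 76) (nat_lit 4546272881) (nat_lit 35) (nat_lit 5) (nat_lit 38) (nat_lit 5) (nat_lit 36) (nat_lit 4) (nat_lit 330) (nat_lit 238) (nat_lit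 212))))) (XT.nd (nat_lit 234) (nat_lit 152) (nat_lit 0) (XT.nd (nat_lit 78) (nat_lit 228) (nat_lit 0) (XT.lf (nat_lit 0) (nat_lit 2458414959) (nat_lit 152) (nat_lit 6315664923) (nat_lit 228) (nat_lit 5514220265) (nat_lit 33) (nat_lit 5) (nat_lit 35) (nat_lit 5) (nat_lit 36) (nat_lit 4) (nat_lit 331) (nat_lit 238) (nat_lit 211)) (XT.nd (nat_lit 78) (nat_lit 228) (nat_lit 0) (XT.lf (nat_lit 0) (nat_lit 9183012579) (nat_lit 152) (nat_lit 3084045955) (nat_lit 228) (nat_lit 2325187229) (nat_lit 33) (nat_lit 5) (nat_lit 35) (nat_lit 5) (nat_lit 36) (nat_lit 4) (nat_lit 332) (nat_lit 238) (nat_lit 210)) (XT.lf (nat_lit 0) (nat_lit 897739318) (nat_lit 228) (nat_lit 13783997683) (nat_lit 76) (nat_lit 224633007) (nat_lit 30) (nat_lit 5) (nat_lit 33) (nat_lit 5) (nat_lit 31) (nat_lit 4) (nat_lit 333) (nat_lit 238) (nat_lit 209)))) (XT.nd (nat_lit 78) (nat_lit 152) (nat_lit 0) (XT.lf (nat_lit 0) (nat_lit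 4200662440) (nat_lit 228) (nat_lit 7414141989) (nat_lit 76) (nat_lit 3613565645) (nat_lit 30) (nat_lit 5) (nat_lit 33) (nat_lit 5) (nat_lit 31) (nat_lit 4) (nat_lit 334) (nat_lit 238) (nat_lit 208)) (XT.nd (nat_lit 78) (nat_lit 152) (nat_lit 0) (XT.lf (nat_lit 0) (nat_lit 7548638463) (nat_lit 228) (nat_lit 943069347) (nat_lit 76) (nat_lit 7069986121) (nat_lit 30) (nat_lit 5) (nat_lit 33) (nat_lit 5) (nat_lit 31) (nat_lit 4) (nat_lit 335) (nat_lit 238) (nat_lit 207)) (XT.lf (nat_lit 0) (nat_lit 5747019630) (nat_lit 152) (nat_lit 5252817039) (nat_lit 228) (nat_lit 4905138846) (nat_lit 28) (nat_lit 5) (nat_lit 30) (nat_lit 5) (nat_lit 31) (nat_lit 4) (nat_lit 336) (nat_lit 238) (nat_lit 206)))))) (XT.nd (nat_lit 468) (nat_lit 304) (nat_lit 0) (XT.nd (nat_lit 234) (nat_lit 76) (nat_lit 0) (XT.nd (nat_lit 78) (nat_lit 228) (nat_lit 0) (XT.lf (nat_lit 0) (nat_lit 12570737878) (nat_lit 152) (nat_lit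 1941592539) (nat_lit 228) (nat_lit 1747532632) (nat_lit 28) (nat_lit 5) (nat_lit 30) (nat_lit 5) (nat_lit 31) (nat_lit 4) (nat_lit 337) (nat_lit 238) (nat_lit 205)) (XT.nd (nat_lit 78) (nat_lit 0) (nat_lit 0) (XT.lf (nat_lit 0) (nat_lit 1467040549) (nat_lit 228) (nat_lit 13708320839) (nat_lit 76) (nat_lit 1449891761) (nat_lit 25) (nat_lit 5) (nat_lit 28) (nat_lit 5) (nat_lit 26) (nat_lit 4) (nat_lit 338) (nat_lit 238) (nat_lit 204)) (XT.lf (nat_lit 0) (nat_lit 4749325125) (nat_lit 228) (nat_lit 7325905902) (nat_lit 76) (nat_lit 4925699789) (nat_lit 25) (nat_lit 5) (nat_lit 28) (nat_lit 5) (nat_lit 26) (nat_lit 4) (nat_lit 339) (nat_lit 238) (nat_lit 203)))) (XT.nd (nat_lit 78) (nat_lit 76) (nat_lit 0) (XT.lf (nat_lit 0) (nat_lit 8081100001) (nat_lit 228) (nat_lit 834852180) (nat_lit 76) (nat_lit 8473431778) (nat_lit 25) (nat_lit 5) (nat_lit 28) (nat_lit 5) (nat_lit 26) (nat_lit 4) (nat_lit 340)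 (nat_lit 238) (nat_lit 202)) (XT.nd (nat_lit 78) (nat_lit 0) (nat_lit 0) (XT.lf (nat_lit 0) (nat_lit 5885356627) (nat_lit 76) (nat_lit 5636493456) (nat_lit 152) (nat_lit 6267404709) (nat_lit 24) (nat_lit 5) (nat_lit 25) (nat_lit 5) (nat_lit 26) (nat_lit 4) (nat_lit 341) (nat_lit 238) (nat_lit 201)) (XT.lf (nat_lit 0) (nat_lit 12744652761) (nat_lit 76) (nat_lit 2282668114) (nat_lit 152) (nat_lit 3174989673) (nat_lit 24) (nat_lit 5) (nat_lit 25) (nat_lit 5) (nat_lit 26) (nat_lit 4) (nat_lit 342) (nat_lit 238) (nat_lit 200))))) (XT.nd (nat_lit 234) (nat_lit 76) (nat_lit 0) (XT.nd (nat_lit 78) (nat_lit 76) (nat_lit 0) (XT.lf (nat_lit 0) (nat_lit 1114037161) (nat_lit 152) (nat_lit 17500020836) (nat_lit 152) (nat_lit 14449672) (nat_lit 22) (nat_lit 4) (nat_lit 24) (nat_lit 5) (nat_lit 24) (nat_lit 4) (nat_lit 343) (nat_lit 238) (nat_lit 199)) (XT.nd (nat_lit 78) (nat_lit 0) (nat_lit 0) (XT.lf (nat_lit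 0) (nat_lit 3210162565) (nat_lit 228) (nat_lit 11203958294) (nat_lit 76) (nat_lit 4651491182) (nat_lit 21) (nat_lit 5) (nat_lit 24) (nat_lit 5) (nat_lit 22) (nat_lit 4) (nat_lit 344) (nat_lit 238) (nat_lit 198)) (XT.lf (nat_lit 0) (nat_lit 6486795386) (nat_lit 228) (nat_lit 4780565647) (nat_lit 76) (nat_lit 8249827021) (nat_lit 21) (nat_lit 5) (nat_lit 24) (nat_lit 5) (nat_lit 22) (nat_lit 4) (nat_lit 345) (nat_lit 238) (nat_lit 197)))) (XT.nd (nat_lit 78) (nat_lit 0) (nat_lit 0) (XT.lf (nat_lit 0) (nat_lit 1796515493) (nat_lit 76) (nat_lit 8039347545) (nat_lit 152) (nat_lit 10147253341) (nat_lit 20) (nat_lit 5) (nat_lit 21) (nat_lit 5) (nat_lit 22) (nat_lit 4) (nat_lit 346) (nat_lit 238) (nat_lit 196)) (XT.nd (nat_lit 78) (nat_lit 0) (nat_lit 0) (XT.lf (nat_lit 0) (nat_lit 8595562379) (nat_lit 76) (nat_lit 4695532610) (nat_lit 152) (nat_lit 7171785055) (nat_lit 20) (nat_lit 5) (nat_lit 21) (nat_lit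 5) (nat_lit 22) (nat_lit 4) (nat_lit 347) (nat_lit 238) (nat_lit 195)) (XT.lf (nat_lit 0) (nat_lit 15527373293) (nat_lit 76) (nat_lit 1281268788) (nat_lit 152) (nat_lit 4149662228) (nat_lit 20) (nat_lit 5) (nat_lit 21) (nat_lit 5) (nat_lit 22) (nat_lit 4) (nat_lit 348) (nat_lit 238) (nat_lit 194))))))) (XT.nd (nat_lit 936) (nat_lit 228) (nat_lit 0) (XT.nd (nat_lit 468) (nat_lit 304) (nat_lit 0) (XT.nd (nat_lit 234) (nat_lit 76) (nat_lit 0) (XT.nd (nat_lit 78) (nat_lit 76) (nat_lit 0) (XT.lf (nat_lit 0) (nat_lit 1129004503) (nat_lit 152) (nat_lit 19294635607) (nat_lit 152) (nat_lit 1045220092) (nat_lit 18) (nat_lit 4) (nat_lit 20) (nat_lit 5) (nat_lit 20) (nat_lit 4) (nat_lit 349) (nat_lit 238) (nat_lit 193)) (XT.nd (nat_lit 78) (nat_lit 0) (nat_lit 0) (XT.lf (nat_lit 0) (nat_lit 2138098873) (nat_lit 228) (nat_lit 14100165241) (nat_lit 76) (nat_lit 5755040761) (nat_lit 17) (nat_lit 5) (nat_lit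 20) (nat_lit 5) (nat_lit 18) (nat_lit 4) (nat_lit 350) (nat_lit 238) (nat_lit 192)) (XT.lf (nat_lit 0) (nat_lit 5356757286) (nat_lit 228) (nat_lit 7751813363) (nat_lit 76) (nat_lit 9425800721) (nat_lit 17) (nat_lit 5) (nat_lit 20) (nat_lit 5) (nat_lit 18) (nat_lit 4) (nat_lit 351) (nat_lit 238) (nat_lit 191)))) (XT.nd (nat_lit 78) (nat_lit 76) (nat_lit 0) (XT.lf (nat_lit 0) (nat_lit 8633963573) (nat_lit 228) (nat_lit 1279205667) (nat_lit 76) (nat_lit 13179664642) (nat_lit 17) (nat_lit 5) (nat_lit 20) (nat_lit 5) (nat_lit 18) (nat_lit 4) (nat_lit 352) (nat_lit 238) (nat_lit 190)) (XT.nd (nat_lit 78) (nat_lit 0) (nat_lit 0) (XT.lf (nat_lit 0) (nat_lit 5429257900) (nat_lit 76) (nat_lit 6595512762) (nat_lit 152) (nat_lit 11642844047) (nat_lit 16) (nat_lit 5) (nat_lit 17) (nat_lit 5) (nat_lit 18) (nat_lit 4) (nat_lit 353) (nat_lit 238) (nat_lit 189)) (XT.lf (nat_lit 0) (nat_lit 12301561167) (nat_lit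 76) (nat_lit 3192216710) (nat_lit 152) (nat_lit 8766589113) (nat_lit 16) (nat_lit 5) (nat_lit 17) (nat_lit 5) (nat_lit 18) (nat_lit 4) (nat_lit 354) (nat_lit 238) (nat_lit 188))))) (XT.nd (nat_lit 234) (nat_lit 76) (nat_lit 0) (XT.nd (nat_lit 78) (nat_lit 228) (nat_lit 0) (XT.lf (nat_lit 0) (nat_lit 19034231819) (nat_lit 152) (nat_lit 5556491205) (nat_lit 0) (nat_lit 281179180) (nat_lit 16) (nat_lit 5) (nat_lit 18) (nat_lit 4) (nat_lit 16) (nat_lit 4) (nat_lit 355) (nat_lit 238) (nat_lit 187)) (XT.nd (nat_lit 78) (nat_lit 76) (nat_lit 0) (XT.lf (nat_lit 0) (nat_lit 964315237) (nat_lit 152) (nat_lit 21722863765) (nat_lit 152) (nat_lit 2814437110) (nat_lit 14) (nat_lit 4) (nat_lit 16) (nat_lit 5) (nat_lit 16) (nat_lit 4) (nat_lit 356) (nat_lit 238) (nat_lit 186)) (XT.lf (nat_lit 0) (nat_lit 315788847) (nat_lit 228) (nat_lit 18418223851) (nat_lit 76) (nat_lit 7415477996) (nat_lit 13) (nat_lit 5)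 (nat_lit 16) (nat_lit 5) (nat_lit 14) (nat_lit 4) (nat_lit 357) (nat_lit 238) (nat_lit 185)))) (XT.nd (nat_lit 78) (nat_lit 76) (nat_lit 0) (XT.lf (nat_lit 0) (nat_lit 3449834446) (nat_lit 228) (nat_lit 12202566197) (nat_lit 76) (nat_lit 11164589735) (nat_lit 13) (nat_lit 5) (nat_lit 16) (nat_lit 5) (nat_lit 14) (nat_lit 4) (nat_lit 358) (nat_lit 238) (nat_lit 184)) (XT.nd (nat_lit 78) (nat_lit 76) (nat_lit 0) (XT.lf (nat_lit 0) (nat_lit 6645357976) (nat_lit 228) (nat_lit 5857842664) (nat_lit 76) (nat_lit 15002309396) (nat_lit 13) (nat_lit 5) (nat_lit 16) (nat_lit 5) (nat_lit 14) (nat_lit 4) (nat_lit 359) (nat_lit 238) (nat_lit 183)) (XT.lf (nat_lit 0) (nat_lit 633859563) (nat_lit 76) (nat_lit 9277385126) (nat_lit 152) (nat_lit 18304223810) (nat_lit 12) (nat_lit 5) (nat_lit 13) (nat_lit 5) (nat_lit 14) (nat_lit 4) (nat_lit 360) (nat_lit 238) (nat_lit 182)))))) (XT.nd (nat_lit 468) (nat_lit 152)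 (nat_lit 0) (XT.nd (nat_lit 234) (nat_lit 76) (nat_lit 0) (XT.nd (nat_lit 78) (nat_lit 0) (nat_lit 0) (XT.lf (nat_lit 0) (nat_lit 7385207386) (nat_lit 76) (nat_lit 5917847556) (nat_lit 152) (nat_lit 15642849976) (nat_lit 12) (nat_lit 5) (nat_lit 13) (nat_lit 5) (nat_lit 14) (nat_lit 4) (nat_lit 361) (nat_lit 238) (nat_lit 181)) (XT.nd (nat_lit 78) (nat_lit 0) (nat_lit 0) (XT.lf (nat_lit 0) (nat_lit 14285517484) (nat_lit 76) (nat_lit 2480805137) (nat_lit 152) (nat_lit 12932857811) (nat_lit 12) (nat_lit 5) (nat_lit 13) (nat_lit 5) (nat_lit 14) (nat_lit 4) (nat_lit 362) (nat_lit 238) (nat_lit 180)) (XT.lf (nat_lit 0) (nat_lit 20314039716) (nat_lit 152) (nat_lit 9145099820) (nat_lit 0) (nat_lit 1016514734) (nat_lit 12) (nat_lit 5) (nat_lit 14) (nat_lit 4) (nat_lit 12) (nat_lit 4) (nat_lit 363) (nat_lit 238) (nat_lit 179)))) (XT.nd (nat_lit 78) (nat_lit 76) (nat_lit 0) (XT.lf (nat_lit 0) (nat_lit 23963982088)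 (nat_lit 152) (nat_lit 2764206678) (nat_lit 0) (nat_lit 4547375861) (nat_lit 12) (nat_lit 5) (nat_lit 14) (nat_lit 4) (nat_lit 12) (nat_lit 4) (nat_lit 364) (nat_lit 238) (nat_lit 178)) (XT.nd (nat_lit 78) (nat_lit 0) (nat_lit 0) (XT.lf (nat_lit 0) (nat_lit 3833239338) (nat_lit 76) (nat_lit 23899100093) (nat_lit 76) (nat_lit 4366881007) (nat_lit 11) (nat_lit 4) (nat_lit 12) (nat_lit 5) (nat_lit 12) (nat_lit 4) (nat_lit 365) (nat_lit 238) (nat_lit 177)) (XT.lf (nat_lit 0) (nat_lit 10636085038) (nat_lit 76) (nat_lit 20977985483) (nat_lit 76) (nat_lit 1333520903) (nat_lit 11) (nat_lit 4) (nat_lit 12) (nat_lit 5) (nat_lit 12) (nat_lit 4) (nat_lit 366) (nat_lit 238) (nat_lit 176))))) (XT.nd (nat_lit 234) (nat_lit 76) (nat_lit 0) (XT.nd (nat_lit 78) (nat_lit 0) (nat_lit 0) (XT.lf (nat_lit 0) (nat_lit 1728828144) (nat_lit 152) (nat_lit 16243919654) (nat_lit 76) (nat_lit 15848975604) (nat_lit 10) (nat_lit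 5) (nat_lit 12) (nat_lit 5) (nat_lit 11) (nat_lit 4) (nat_lit 367) (nat_lit 238) (nat_lit 175)) (XT.nd (nat_lit 78) (nat_lit 0) (nat_lit 0) (XT.lf (nat_lit 0) (nat_lit 4829967427) (nat_lit 152) (nat_lit 10054409054) (nat_lit 76) (nat_lit 19838108998) (nat_lit 10) (nat_lit 5) (nat_lit 12) (nat_lit 5) (nat_lit 11) (nat_lit 4) (nat_lit 368) (nat_lit 238) (nat_lit 174)) (XT.lf (nat_lit 0) (nat_lit 7998628473) (nat_lit 152) (nat_lit 3724747657) (nat_lit 76) (nat_lit 23927673157) (nat_lit 10) (nat_lit 5) (nat_lit 12) (nat_lit 5) (nat_lit 11) (nat_lit 4) (nat_lit 369) (nat_lit 238) (nat_lit 173)))) (XT.nd (nat_lit 78) (nat_lit 0) (nat_lit 0) (XT.lf (nat_lit 0) (nat_lit 2805337547) (nat_lit 76) (nat_lit 8459209090) (nat_lit 152) (nat_lit 25342870558) (nat_lit 9) (nat_lit 5) (nat_lit 10) (nat_lit 5) (nat_lit 11) (nat_lit 4) (nat_lit 370) (nat_lit 238) (nat_lit 172)) (XT.nd (nat_lit 78) (nat_lit 0) (nat_lit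 0) (XT.lf (nat_lit 0) (nat_lit 9563904124) (nat_lit 76) (nat_lit 5077682181) (nat_lit 152) (nat_lit 22950508238) (nat_lit 9) (nat_lit 5) (nat_lit 10) (nat_lit 5) (nat_lit 11) (nat_lit 4) (nat_lit 371) (nat_lit 238) (nat_lit 171)) (XT.lf (nat_lit 0) (nat_lit 16482727836) (nat_lit 76) (nat_lit 1613453319) (nat_lit 152) (nat_lit 20510856087) (nat_lit 9) (nat_lit 5) (nat_lit 10) (nat_lit 5) (nat_lit 11) (nat_lit 4) (nat_lit 372) (nat_lit 238) (nat_lit 170))))))))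
noncomputable def xc54 : XT := (XT.nd (nat_lit 1794) (nat_lit 76) (nat_lit 0) (XT.nd (nat_lit 858) (nat_lit 76) (nat_lit 0) (XT.nd (nat_lit 390) (nat_lit 152) (nat_lit 0) (XT.nd (nat_lit 156) (nat_lit 76) (nat_lit 0) (XT.nd (nat_lit 78) (nat_lit 0) (nat_lit 0) (XT.lf (nat_lit 0) (nat_lit 21649964632) (nat_lit 152) (nat_lit 16103892748) (nat_lit 0) (nat_lit 1898716312) (nat_lit 9) (nat_lit 5) (nat_lit 11) (nat_lit 4) (nat_lit 9) (nat_lit 4) (nat_lit 373) (nat_lit 238) (nat_lit 169)) (XT.lf (nat_lit 0) (nat_lit 25303774247) (nat_lit 152) (nat_lit 9959412148) (nat_lit 0) (nat_lit 5466499102) (nat_lit 9) (nat_lit 5) (nat_lit 11) (nat_lit 4) (nat_lit 9) (nat_lit 4) (nat_lit 374) (nat_lit 238) (nat_lit 168))) (XT.nd (nat_lit 78) (nat_lit 76) (nat_lit 0) (XT.lf (nat_lit 0) (nat_lit 29045293150) (nat_lit 152) (nat_lit 3669989144) (nat_lit 0) (nat_lit 9124496816) (nat_lit 9) (nat_lit 5) (nat_lit 11) (nat_lit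 4) (nat_lit 9) (nat_lit 4) (nat_lit 375) (nat_lit 238) (nat_lit 167)) (XT.nd (nat_lit 78) (nat_lit 0) (nat_lit 0) (XT.lf (nat_lit 0) (nat_lit 2824997757) (nat_lit 76) (nat_lit 30079948479) (nat_lit 76) (nat_lit 10078063612) (nat_lit 8) (nat_lit 4) (nat_lit 9) (nat_lit 5) (nat_lit 9) (nat_lit 4) (nat_lit 376) (nat_lit 238) (nat_lit 166)) (XT.lf (nat_lit 0) (nat_lit 9552195719) (nat_lit 76) (nat_lit 27344241299) (nat_lit 76) (nat_lit 7263629701) (nat_lit 8) (nat_lit 4) (nat_lit 9) (nat_lit 5) (nat_lit 9) (nat_lit 4) (nat_lit 377) (nat_lit 238) (nat_lit 165))))) (XT.nd (nat_lit 234) (nat_lit 76) (nat_lit 0) (XT.nd (nat_lit 78) (nat_lit 76) (nat_lit 0) (XT.lf (nat_lit 0) (nat_lit 16444442896) (nat_lit 76) (nat_lit 24542830025) (nat_lit 76) (nat_lit 4385784706) (nat_lit 8) (nat_lit 4) (nat_lit 9) (nat_lit 5) (nat_lit 9) (nat_lit 4) (nat_lit 378) (nat_lit 238) (nat_lit 164)) (XT.nd (nat_lit 78) (nat_lit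 76) (nat_lit 0) (XT.lf (nat_lit 0) (nat_lit 23507761640) (nat_lit 76) (nat_lit 21673266821) (nat_lit 76) (nat_lit 1442014008) (nat_lit 8) (nat_lit 4) (nat_lit 9) (nat_lit 5) (nat_lit 9) (nat_lit 4) (nat_lit 379) (nat_lit 238) (nat_lit 163)) (XT.lf (nat_lit 0) (nat_lit 1539613297) (nat_lit 152) (nat_lit 17177883930) (nat_lit 76) (nat_lit 29193163410) (nat_lit 7) (nat_lit 5) (nat_lit 9) (nat_lit 5) (nat_lit 8) (nat_lit 4) (nat_lit 380) (nat_lit 238) (nat_lit 162)))) (XT.nd (nat_lit 78) (nat_lit 76) (nat_lit 0) (XT.lf (nat_lit 0) (nat_lit 4562843724) (nat_lit 152) (nat_lit 11110673845) (nat_lit 76) (nat_lit 33563536529) (nat_lit 7) (nat_lit 5) (nat_lit 9) (nat_lit 5) (nat_lit 8) (nat_lit 4) (nat_lit 381) (nat_lit 238) (nat_lit 161)) (XT.nd (nat_lit 78) (nat_lit 76) (nat_lit 0) (XT.lf (nat_lit 0) (nat_lit 7658457816) (nat_lit 152) (nat_lit 4894487608) (nat_lit 76) (nat_lit 38050852260) (nat_lit 7)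 (nat_lit 5) (nat_lit 9) (nat_lit 5) (nat_lit 8) (nat_lit 4) (nat_lit 382) (nat_lit 238) (nat_lit 160)) (XT.lf (nat_lit 0) (nat_lit 1505483810) (nat_lit 76) (nat_lit 9338148299) (nat_lit 152) (nat_lit 41168019376) (nat_lit 6) (nat_lit 5) (nat_lit 7) (nat_lit 5) (nat_lit 8) (nat_lit 4) (nat_lit 383) (nat_lit 238) (nat_lit 159)))))) (XT.nd (nat_lit 468) (nat_lit 76) (nat_lit 0) (XT.nd (nat_lit 234) (nat_lit 0) (nat_lit 0) (XT.nd (nat_lit 78) (nat_lit 0) (nat_lit 0) (XT.lf (nat_lit 0) (nat_lit 8166023243) (nat_lit 76) (nat_lit 5990195798) (nat_lit 152) (nat_lit 39304574551) (nat_lit 6) (nat_lit 5) (nat_lit 7) (nat_lit 5) (nat_lit 8) (nat_lit 4) (nat_lit 384) (nat_lit 238) (nat_lit 158)) (XT.nd (nat_lit 78) (nat_lit 0) (nat_lit 0) (XT.lf (nat_lit 0) (nat_lit 14995540675) (nat_lit 76) (nat_lit 2555587252) (nat_lit 152) (nat_lit 37402801867) (nat_lit 6) (nat_lit 5) (nat_lit 7) (nat_lit 5) (nat_lit 8)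 (nat_lit 4) (nat_lit 385) (nat_lit 238) (nat_lit 157)) (XT.lf (nat_lit 0) (nat_lit 21040636727) (nat_lit 152) (nat_lit 34501672661) (nat_lit 0) (nat_lit 949776045) (nat_lit 6) (nat_lit 5) (nat_lit 8) (nat_lit 4) (nat_lit 6) (nat_lit 4) (nat_lit 386) (nat_lit 238) (nat_lit 156)))) (XT.nd (nat_lit 78) (nat_lit 0) (nat_lit 0) (XT.lf (nat_lit 0) (nat_lit 24643932167) (nat_lit 152) (nat_lit 28935990610) (nat_lit 0) (nat_lit 4496197619) (nat_lit 6) (nat_lit 5) (nat_lit 8) (nat_lit 4) (nat_lit 6) (nat_lit 4) (nat_lit 387) (nat_lit 238) (nat_lit 155)) (XT.nd (nat_lit 78) (nat_lit 0) (nat_lit 0) (XT.lf (nat_lit 0) (nat_lit 28339596890) (nat_lit 152) (nat_lit 23231913882) (nat_lit 0) (nat_lit 8136644996) (nat_lit 6) (nat_lit 5) (nat_lit 8) (nat_lit 4) (nat_lit 6) (nat_lit 4) (nat_lit 388) (nat_lit 238) (nat_lit 154)) (XT.lf (nat_lit 0) (nat_lit 32130860117) (nat_lit 152) (nat_lit 17384458332) (nat_lit 0)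 (nat_lit 11874299150) (nat_lit 6) (nat_lit 5) (nat_lit 8) (nat_lit 4) (nat_lit 6) (nat_lit 4) (nat_lit 389) (nat_lit 238) (nat_lit 153))))) (XT.nd (nat_lit 234) (nat_lit 0) (nat_lit 0) (XT.nd (nat_lit 78) (nat_lit 76) (nat_lit 0) (XT.lf (nat_lit 0) (nat_lit 36021034602) (nat_lit 152) (nat_lit 11388514534) (nat_lit 0) (nat_lit 15712425991) (nat_lit 6) (nat_lit 5) (nat_lit 8) (nat_lit 4) (nat_lit 6) (nat_lit 4) (nat_lit 390) (nat_lit 238) (nat_lit 152)) (XT.nd (nat_lit 78) (nat_lit 76) (nat_lit 0) (XT.lf (nat_lit 0) (nat_lit 40013519528) (nat_lit 152) (nat_lit 5238843312) (nat_lit 0) (nat_lit 19654379224) (nat_lit 6) (nat_lit 5) (nat_lit 8) (nat_lit 4) (nat_lit 6) (nat_lit 4) (nat_lit 391) (nat_lit 238) (nat_lit 151)) (XT.lf (nat_lit 0) (nat_lit 1091222512) (nat_lit 76) (nat_lit 43031070460) (nat_lit 76) (nat_lit 22622870259) (nat_lit 5) (nat_lit 4) (nat_lit 6) (nat_lit 5) (nat_lit 6) (nat_lit 4)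 (nat_lit 392) (nat_lit 238) (nat_lit 150)))) (XT.nd (nat_lit 78) (nat_lit 0) (nat_lit 0) (XT.lf (nat_lit 0) (nat_lit 7693441163) (nat_lit 76) (nat_lit 40699980362) (nat_lit 76) (nat_lit 20244149195) (nat_lit 5) (nat_lit 4) (nat_lit 6) (nat_lit 5) (nat_lit 6) (nat_lit 4) (nat_lit 393) (nat_lit 238) (nat_lit 149)) (XT.nd (nat_lit 78) (nat_lit 0) (nat_lit 0) (XT.lf (nat_lit 0) (nat_lit 14469318316) (nat_lit 76) (nat_lit 38309957720) (nat_lit 76) (nat_lit 17807882895) (nat_lit 5) (nat_lit 4) (nat_lit 6) (nat_lit 5) (nat_lit 6) (nat_lit 4) (nat_lit 394) (nat_lit 238) (nat_lit 148)) (XT.lf (nat_lit 0) (nat_lit 21424774638) (nat_lit 76) (nat_lit 35858914163) (nat_lit 76) (nat_lit 15311942583) (nat_lit 5) (nat_lit 4) (nat_lit 6) (nat_lit 5) (nat_lit 6) (nat_lit 4) (nat_lit 395) (nat_lit 238) (nat_lit 147))))))) (XT.nd (nat_lit 33618) (nat_lit 0) (nat_lit 4028) (XT.nd (nat_lit 468) (nat_lit 0) (nat_lit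 0) (XT.nd (nat_lit 234) (nat_lit 76) (nat_lit 0) (XT.nd (nat_lit 78) (nat_lit 0) (nat_lit 0) (XT.lf (nat_lit 0) (nat_lit 28565887713) (nat_lit 76) (nat_lit 33344708003) (nat_lit 76) (nat_lit 12754147341) (nat_lit 5) (nat_lit 4) (nat_lit 6) (nat_lit 5) (nat_lit 6) (nat_lit 4) (nat_lit 396) (nat_lit 238) (nat_lit 146)) (XT.nd (nat_lit 78) (nat_lit 0) (nat_lit 0) (XT.lf (nat_lit 0) (nat_lit 35898897350) (nat_lit 76) (nat_lit 30765142361) (nat_lit 76) (nat_lit 10132262201) (nat_lit 5) (nat_lit 4) (nat_lit 6) (nat_lit 5) (nat_lit 6) (nat_lit 4) (nat_lit 397) (nat_lit 238) (nat_lit 145)) (XT.lf (nat_lit 0) (nat_lit 43430211031) (nat_lit 76) (nat_lit 28117963247) (nat_lit 76) (nat_lit 7443996197) (nat_lit 5) (nat_lit 4) (nat_lit 6) (nat_lit 5) (nat_lit 6) (nat_lit 4) (nat_lit 398) (nat_lit 238) (nat_lit 144)))) (XT.nd (nat_lit 78) (nat_lit 76) (nat_lit 0) (XT.lf (nat_lit 0) (nat_lit 51166409517) (nat_lit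 76) (nat_lit 25400857592) (nat_lit 76) (nat_lit 4687000357) (nat_lit 5) (nat_lit 4) (nat_lit 6) (nat_lit 5) (nat_lit 6) (nat_lit 4) (nat_lit 399) (nat_lit 238) (nat_lit 143)) (XT.nd (nat_lit 78) (nat_lit 76) (nat_lit 0) (XT.lf (nat_lit 0) (nat_lit 59114252592) (nat_lit 76) (nat_lit 22611451227) (nat_lit 76) (nat_lit 1858865657) (nat_lit 5) (nat_lit 4) (nat_lit 6) (nat_lit 5) (nat_lit 6) (nat_lit 4) (nat_lit 400) (nat_lit 238) (nat_lit 142)) (XT.lf (nat_lit 0) (nat_lit 1022528762) (nat_lit 152) (nat_lit 18714452507) (nat_lit 76) (nat_lit 66247830676) (nat_lit 4) (nat_lit 5) (nat_lit 6) (nat_lit 5) (nat_lit 5) (nat_lit 4) (nat_lit 401) (nat_lit 238) (nat_lit 141))))) (XT.nd (nat_lit 32916) (nat_lit 0) (nat_lit 6308) (XT.nd (nat_lit 78) (nat_lit 0) (nat_lit 0) (XT.lf (nat_lit 0) (nat_lit 3942309695) (nat_lit 152) (nat_lit 12823802384) (nat_lit 76) (nat_lit 71690723088) (nat_lit 4) (nat_lit 5) (nat_lit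 6) (nat_lit 5) (nat_lit 5) (nat_lit 4) (nat_lit 402) (nat_lit 238) (nat_lit 140)) (XT.nd (nat_lit 32760) (nat_lit 0) (nat_lit 7068) (XT.lf (nat_lit 0) (nat_lit 6939301570) (nat_lit 152) (nat_lit 6775350791) (nat_lit 76) (nat_lit 77288682856) (nat_lit 4) (nat_lit 5) (nat_lit 6) (nat_lit 5) (nat_lit 5) (nat_lit 4) (nat_lit 403) (nat_lit 238) (nat_lit 139)) (XT.lf (nat_lit 0) (nat_lit 1337850773) (nat_lit 380) (nat_lit 1491904240) (nat_lit 380) (nat_lit 1491904240) (nat_lit 97) (nat_lit 4) (nat_lit 102) (nat_lit 5) (nat_lit 102) (nat_lit 4) (nat_lit 302) (nat_lit 239) (nat_lit 239)))) (XT.nd (nat_lit 78) (nat_lit 684) (nat_lit 0) (XT.lf (nat_lit 0) (nat_lit 448941965) (nat_lit 456) (nat_lit 149849648) (nat_lit 76) (nat_lit 8162001889) (nat_lit 96) (nat_lit 5) (nat_lit 102) (nat_lit 5) (nat_lit 97) (nat_lit 4) (nat_lit 303) (nat_lit 239) (nat_lit 238)) (XT.nd (nat_lit 78) (nat_lit 380) (nat_lit 0)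 (XT.lf (nat_lit 0) (nat_lit 3911396304) (nat_lit 380) (nat_lit 3089226002) (nat_lit 0) (nat_lit 1880818743) (nat_lit 92) (nat_lit 5) (nat_lit 97) (nat_lit 4) (nat_lit 92) (nat_lit 4) (nat_lit 304) (nat_lit 239) (nat_lit 237)) (XT.lf (nat_lit 0) (nat_lit 2843067570) (nat_lit 380) (nat_lit 4583024214) (nat_lit 380) (nat_lit 1581296641) (nat_lit 87) (nat_lit 4) (nat_lit 92) (nat_lit 5) (nat_lit 92) (nat_lit 4) (nat_lit 305) (nat_lit 239) (nat_lit 236)))))) (XT.nd (nat_lit 468) (nat_lit 912) (nat_lit 0) (XT.nd (nat_lit 234) (nat_lit 684) (nat_lit 0) (XT.nd (nat_lit 78) (nat_lit 608) (nat_lit 0) (XT.lf (nat_lit 0) (nat_lit 1817387756) (nat_lit 456) (nat_lit 255294515) (nat_lit 76) (nat_lit 7065639463) (nat_lit 86) (nat_lit 5) (nat_lit 92) (nat_lit 5) (nat_lit 87) (nat_lit 4) (nat_lit 306) (nat_lit 239) (nat_lit 235)) (XT.nd (nat_lit 78) (nat_lit 304) (nat_lit 0) (XT.lf (nat_lit 0) (nat_lit 5264025267)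 (nat_lit 380) (nat_lit 3463890318) (nat_lit 0) (nat_lit 545584790) (nat_lit 82) (nat_lit 5) (nat_lit 87) (nat_lit 4) (nat_lit 82) (nat_lit 4) (nat_lit 307) (nat_lit 239) (nat_lit 234)) (XT.lf (nat_lit 0) (nat_lit 2563643125) (nat_lit 304) (nat_lit 6215771069) (nat_lit 304) (nat_lit 634476385) (nat_lit 78) (nat_lit 4) (nat_lit 82) (nat_lit 5) (nat_lit 82) (nat_lit 4) (nat_lit 308) (nat_lit 239) (nat_lit 233)))) (XT.nd (nat_lit 78) (nat_lit 608) (nat_lit 0) (XT.lf (nat_lit 0) (nat_lit 2739620628) (nat_lit 380) (nat_lit 857587339) (nat_lit 76) (nat_lit 5961976038) (nat_lit 77) (nat_lit 5) (nat_lit 82) (nat_lit 5) (nat_lit 78) (nat_lit 4) (nat_lit 309) (nat_lit 239) (nat_lit 232)) (XT.nd (nat_lit 78) (nat_lit 304) (nat_lit 0) (XT.lf (nat_lit 0) (nat_lit 5299863897) (nat_lit 304) (nat_lit 873635589) (nat_lit 380) (nat_lit 3536115816) (nat_lit 73) (nat_lit 5) (nat_lit 77) (nat_lit 5) (nat_lit 78) (nat_lit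 4) (nat_lit 310) (nat_lit 239) (nat_lit 231)) (XT.lf (nat_lit 0) (nat_lit 1696603278) (nat_lit 304) (nat_lit 7978718189) (nat_lit 304) (nat_lit 190394021) (nat_lit 69) (nat_lit 4) (nat_lit 73) (nat_lit 5) (nat_lit 73) (nat_lit 4) (nat_lit 311) (nat_lit 239) (nat_lit 230))))) (XT.nd (nat_lit 234) (nat_lit 304) (nat_lit 0) (XT.nd (nat_lit 78) (nat_lit 532) (nat_lit 0) (XT.lf (nat_lit 0) (nat_lit 3167442759) (nat_lit 380) (nat_lit 2102720984) (nat_lit 76) (nat_lit 4756235644) (nat_lit 68) (nat_lit 5) (nat_lit 73) (nat_lit 5) (nat_lit 69) (nat_lit 4) (nat_lit 312) (nat_lit 239) (nat_lit 229)) (XT.nd (nat_lit 78) (nat_lit 304) (nat_lit 0) (XT.lf (nat_lit 0) (nat_lit 4113645170) (nat_lit 228) (nat_lit 2472020727) (nat_lit 304) (nat_lit 3607371962) (nat_lit 65) (nat_lit 5) (nat_lit 68) (nat_lit 5) (nat_lit 69) (nat_lit 4) (nat_lit 313) (nat_lit 239) (nat_lit 228)) (XT.lf (nat_lit 0) (nat_lit 81679691)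 (nat_lit 304) (nat_lit 9975695447) (nat_lit 304) (nat_lit 308864346) (nat_lit 61) (nat_lit 4) (nat_lit 65) (nat_lit 5) (nat_lit 65) (nat_lit 4) (nat_lit 314) (nat_lit 239) (nat_lit 227)))) (XT.nd (nat_lit 78) (nat_lit 228) (nat_lit 0) (XT.lf (nat_lit 0) (nat_lit 3039880999) (nat_lit 380) (nat_lit 4157178572) (nat_lit 76) (nat_lit 3346427226) (nat_lit 60) (nat_lit 5) (nat_lit 65) (nat_lit 5) (nat_lit 61) (nat_lit 4) (nat_lit 315) (nat_lit 239) (nat_lit 226)) (XT.nd (nat_lit 78) (nat_lit 0) (nat_lit 0) (XT.lf (nat_lit 0) (nat_lit 2083054527) (nat_lit 228) (nat_lit 4347111036) (nat_lit 304) (nat_lit 4297460043) (nat_lit 57) (nat_lit 5) (nat_lit 60) (nat_lit 5) (nat_lit 61) (nat_lit 4) (nat_lit 316) (nat_lit 239) (nat_lit 225)) (XT.lf (nat_lit 0) (nat_lit 8488217622) (nat_lit 228) (nat_lit 1404266825) (nat_lit 304) (nat_lit 1025776262) (nat_lit 57) (nat_lit 5) (nat_lit 60) (nat_lit 5) (nat_lit 61)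 (nat_lit 4) (nat_lit 317) (nat_lit 239) (nat_lit 224))))))))
noncomputable def xc55 : XT := (XT.nd (nat_lit 1872) (nat_lit 912) (nat_lit 0) (XT.nd (nat_lit 936) (nat_lit 836) (nat_lit 0) (XT.nd (nat_lit 468) (nat_lit 684) (nat_lit 0) (XT.nd (nat_lit 234) (nat_lit 456) (nat_lit 0) (XT.nd (nat_lit 78) (nat_lit 228) (nat_lit 0) (XT.lf (nat_lit 0) (nat_lit 2281548893) (nat_lit 304) (nat_lit 7211867772) (nat_lit 76) (nat_lit 1621102467) (nat_lit 53) (nat_lit 5) (nat_lit 57) (nat_lit 5) (nat_lit 54) (nat_lit 4) (nat_lit 318) (nat_lit 239) (nat_lit 223)) (XT.nd (nat_lit 78) (nat_lit 228) (nat_lit 0) (XT.lf (nat_lit 0) (nat_lit 5636528411) (nat_lit 304) (nat_lit 971707630) (nat_lit 76) (nat_lit 4709127982) (nat_lit 53) (nat_lit 5) (nat_lit 57) (nat_lit 5) (nat_lit 54) (nat_lit 4) (nat_lit 319) (nat_lit 239) (nat_lit 222)) (XT.lf (nat_lit 0) (nat_lit 5458665011) (nat_lit 228) (nat_lit 3618358929) (nat_lit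 304) (nat_lit 2449797092) (nat_lit 50) (nat_lit 5) (nat_lit 53) (nat_lit 5) (nat_lit 54) (nat_lit 4) (nat_lit 320) (nat_lit 239) (nat_lit 221)))) (XT.nd (nat_lit 78) (nat_lit 152) (nat_lit 0) (XT.lf (nat_lit 0) (nat_lit 252076024) (nat_lit 228) (nat_lit 553942397) (nat_lit 304) (nat_lit 10938009210) (nat_lit 46) (nat_lit 5) (nat_lit 49) (nat_lit 5) (nat_lit 50) (nat_lit 5) (nat_lit 321) (nat_lit 239) (nat_lit 220)) (XT.nd (nat_lit 78) (nat_lit 152) (nat_lit 0) (XT.lf (nat_lit 0) (nat_lit 4130440271) (nat_lit 304) (nat_lit 5234076917) (nat_lit 76) (nat_lit 2601967062) (nat_lit 46) (nat_lit 5) (nat_lit 50) (nat_lit 5) (nat_lit 47) (nat_lit 4) (nat_lit 322) (nat_lit 239) (nat_lit 219)) (XT.lf (nat_lit 0) (nat_lit 1126484583) (nat_lit 152) (nat_lit 6379638051) (nat_lit 228) (nat_lit 4691010751) (nat_lit 44) (nat_lit 5) (nat_lit 46) (nat_lit 5) (nat_lit 47) (nat_lit 4) (nat_lit 323) (nat_lit 239) (nat_lit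 218))))) (XT.nd (nat_lit 234) (nat_lit 380) (nat_lit 0) (XT.nd (nat_lit 78) (nat_lit 304) (nat_lit 0) (XT.lf (nat_lit 0) (nat_lit 7684605306) (nat_lit 152) (nat_lit 3287459288) (nat_lit 228) (nat_lit 1463030499) (nat_lit 44) (nat_lit 5) (nat_lit 46) (nat_lit 5) (nat_lit 47) (nat_lit 4) (nat_lit 324) (nat_lit 239) (nat_lit 217)) (XT.nd (nat_lit 78) (nat_lit 0) (nat_lit 0) (XT.lf (nat_lit 0) (nat_lit 1675136298) (nat_lit 228) (nat_lit 103746772) (nat_lit 304) (nat_lit 10902232126) (nat_lit 40) (nat_lit 5) (nat_lit 43) (nat_lit 5) (nat_lit 44) (nat_lit 5) (nat_lit 325) (nat_lit 239) (nat_lit 216)) (XT.lf (nat_lit 0) (nat_lit 5105476791) (nat_lit 304) (nat_lit 4687173002) (nat_lit 76) (nat_lit 3140984144) (nat_lit 40) (nat_lit 5) (nat_lit 44) (nat_lit 5) (nat_lit 41) (nat_lit 4) (nat_lit 326) (nat_lit 239) (nat_lit 215)))) (XT.nd (nat_lit 78) (nat_lit 228) (nat_lit 0) (XT.lf (nat_lit 0) (nat_lit 1757847805)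 (nat_lit 152) (nat_lit 6731613174) (nat_lit 228) (nat_lit 4705595252) (nat_lit 38) (nat_lit 5) (nat_lit 40) (nat_lit 5) (nat_lit 41) (nat_lit 4) (nat_lit 327) (nat_lit 239) (nat_lit 214)) (XT.nd (nat_lit 78) (nat_lit 228) (nat_lit 0) (XT.lf (nat_lit 0) (nat_lit 8396624971) (nat_lit 152) (nat_lit 3566176471) (nat_lit 228) (nat_lit 1501938797) (nat_lit 38) (nat_lit 5) (nat_lit 40) (nat_lit 5) (nat_lit 41) (nat_lit 4) (nat_lit 328) (nat_lit 239) (nat_lit 213)) (XT.lf (nat_lit 0) (nat_lit 1408143789) (nat_lit 152) (nat_lit 309752314) (nat_lit 228) (nat_lit 12025496724) (nat_lit 35) (nat_lit 5) (nat_lit 37) (nat_lit 5) (nat_lit 38) (nat_lit 5) (nat_lit 329) (nat_lit 239) (nat_lit 212)))))) (XT.nd (nat_lit 468) (nat_lit 456) (nat_lit 0) (XT.nd (nat_lit 234) (nat_lit 228) (nat_lit 0) (XT.nd (nat_lit 78) (nat_lit 152) (nat_lit 0) (XT.lf (nat_lit 0) (nat_lit 5027165124) (nat_lit 228) (nat_lit 5985544531)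 (nat_lit 76) (nat_lit 3016607972) (nat_lit 35) (nat_lit 5) (nat_lit 38) (nat_lit 5) (nat_lit 36) (nat_lit 4) (nat_lit 330) (nat_lit 239) (nat_lit 211)) (XT.nd (nat_lit 78) (nat_lit 0) (nat_lit 0) (XT.lf (nat_lit 0) (nat_lit 468874259) (nat_lit 152) (nat_lit 7918176497) (nat_lit 228) (nat_lit 5938277367) (nat_lit 33) (nat_lit 5) (nat_lit 35) (nat_lit 5) (nat_lit 36) (nat_lit 4) (nat_lit 331) (nat_lit 239) (nat_lit 210)) (XT.lf (nat_lit 0) (nat_lit 7148664569) (nat_lit 152) (nat_lit 4704038807) (nat_lit 228) (nat_lit 2777413154) (nat_lit 33) (nat_lit 5) (nat_lit 35) (nat_lit 5) (nat_lit 36) (nat_lit 4) (nat_lit 332) (nat_lit 239) (nat_lit 209)))) (XT.nd (nat_lit 78) (nat_lit 152) (nat_lit 0) (XT.lf (nat_lit 0) (nat_lit 414510226) (nat_lit 228) (nat_lit 1009234412) (nat_lit 76) (nat_lit 13521843069) (nat_lit 32) (nat_lit 5) (nat_lit 35) (nat_lit 5) (nat_lit 33) (nat_lit 5) (nat_lit 333) (nat_lit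 239) (nat_lit 208)) (XT.nd (nat_lit 78) (nat_lit 0) (nat_lit 0) (XT.lf (nat_lit 0) (nat_lit 3667136899) (nat_lit 228) (nat_lit 9635840368) (nat_lit 76) (nat_lit 1966140457) (nat_lit 30) (nat_lit 5) (nat_lit 33) (nat_lit 5) (nat_lit 31) (nat_lit 4) (nat_lit 334) (nat_lit 239) (nat_lit 207)) (XT.lf (nat_lit 0) (nat_lit 6989270081) (nat_lit 228) (nat_lit 3207753389) (nat_lit 76) (nat_lit 5406213838) (nat_lit 30) (nat_lit 5) (nat_lit 33) (nat_lit 5) (nat_lit 31) (nat_lit 4) (nat_lit 335) (nat_lit 239) (nat_lit 206))))) (XT.nd (nat_lit 234) (nat_lit 76) (nat_lit 0) (XT.nd (nat_lit 78) (nat_lit 228) (nat_lit 0) (XT.lf (nat_lit 0) (nat_lit 3394699701) (nat_lit 152) (nat_lit 6998066513) (nat_lit 228) (nat_lit 5555203587) (nat_lit 28) (nat_lit 5) (nat_lit 30) (nat_lit 5) (nat_lit 31) (nat_lit 4) (nat_lit 336) (nat_lit 239) (nat_lit 205)) (XT.nd (nat_lit 78) (nat_lit 228) (nat_lit 0) (XT.lf (nat_lit 0)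 (nat_lit 10177093449) (nat_lit 152) (nat_lit 3703409922) (nat_lit 228) (nat_lit 2423115932) (nat_lit 28) (nat_lit 5) (nat_lit 30) (nat_lit 5) (nat_lit 31) (nat_lit 4) (nat_lit 337) (nat_lit 239) (nat_lit 204)) (XT.lf (nat_lit 0) (nat_lit 410856043) (nat_lit 152) (nat_lit 331047122) (nat_lit 228) (nat_lit 15929201338) (nat_lit 25) (nat_lit 5) (nat_lit 27) (nat_lit 5) (nat_lit 28) (nat_lit 5) (nat_lit 338) (nat_lit 239) (nat_lit 203)))) (XT.nd (nat_lit 78) (nat_lit 76) (nat_lit 0) (XT.lf (nat_lit 0) (nat_lit 3996878304) (nat_lit 228) (nat_lit 9915456056) (nat_lit 76) (nat_lit 3135284729) (nat_lit 25) (nat_lit 5) (nat_lit 28) (nat_lit 5) (nat_lit 26) (nat_lit 4) (nat_lit 339) (nat_lit 239) (nat_lit 202)) (XT.nd (nat_lit 78) (nat_lit 76) (nat_lit 0) (XT.lf (nat_lit 0) (nat_lit 7305228703) (nat_lit 228) (nat_lit 3464018606) (nat_lit 76) (nat_lit 6667544778) (nat_lit 25) (nat_lit 5) (nat_lit 28) (nat_lit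 5) (nat_lit 26) (nat_lit 4) (nat_lit 340) (nat_lit 239) (nat_lit 201)) (XT.lf (nat_lit 0) (nat_lit 3164636758) (nat_lit 76) (nat_lit 7532446594) (nat_lit 152) (nat_lit 7141063054) (nat_lit 24) (nat_lit 5) (nat_lit 25) (nat_lit 5) (nat_lit 26) (nat_lit 4) (nat_lit 341) (nat_lit 239) (nat_lit 200))))))) (XT.nd (nat_lit 936) (nat_lit 304) (nat_lit 0) (XT.nd (nat_lit 468) (nat_lit 304) (nat_lit 0) (XT.nd (nat_lit 234) (nat_lit 76) (nat_lit 0) (XT.nd (nat_lit 78) (nat_lit 228) (nat_lit 0) (XT.lf (nat_lit 0) (nat_lit 9985847574) (nat_lit 76) (nat_lit 4194260654) (nat_lit 152) (nat_lit 4071783448) (nat_lit 24) (nat_lit 5) (nat_lit 25) (nat_lit 5) (nat_lit 26) (nat_lit 4) (nat_lit 342) (nat_lit 239) (nat_lit 199)) (XT.nd (nat_lit 78) (nat_lit 228) (nat_lit 0) (XT.lf (nat_lit 0) (nat_lit 16936633361) (nat_lit 76) (nat_lit 786752423) (nat_lit 152) (nat_lit 956022467) (nat_lit 24) (nat_lit 5) (nat_lit 25)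 (nat_lit 5) (nat_lit 26) (nat_lit 4) (nat_lit 343) (nat_lit 239) (nat_lit 198)) (XT.lf (nat_lit 0) (nat_lit 2240259905) (nat_lit 228) (nat_lit 14167667461) (nat_lit 76) (nat_lit 2710272656) (nat_lit 21) (nat_lit 5) (nat_lit 24) (nat_lit 5) (nat_lit 22) (nat_lit 4) (nat_lit 344) (nat_lit 239) (nat_lit 197)))) (XT.nd (nat_lit 78) (nat_lit 76) (nat_lit 0) (XT.lf (nat_lit 0) (nat_lit 5495644766) (nat_lit 228) (nat_lit 7780762386) (nat_lit 76) (nat_lit 6294020659) (nat_lit 21) (nat_lit 5) (nat_lit 24) (nat_lit 5) (nat_lit 22) (nat_lit 4) (nat_lit 345) (nat_lit 239) (nat_lit 196)) (XT.nd (nat_lit 78) (nat_lit 76) (nat_lit 0) (XT.lf (nat_lit 0) (nat_lit 8806814125) (nat_lit 228) (nat_lit 1274162561) (nat_lit 76) (nat_lit 9956530319) (nat_lit 21) (nat_lit 5) (nat_lit 24) (nat_lit 5) (nat_lit 22) (nat_lit 4) (nat_lit 346) (nat_lit 239) (nat_lit 195)) (XT.lf (nat_lit 0) (nat_lit 5464448464) (nat_lit 76)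 (nat_lit 6764740395) (nat_lit 152) (nat_lit 8289081044) (nat_lit 20) (nat_lit 5) (nat_lit 21) (nat_lit 5) (nat_lit 22) (nat_lit 4) (nat_lit 347) (nat_lit 239) (nat_lit 194))))) (XT.nd (nat_lit 234) (nat_lit 76) (nat_lit 0) (XT.nd (nat_lit 78) (nat_lit 228) (nat_lit 0) (XT.lf (nat_lit 0) (nat_lit 12362203527) (nat_lit 76) (nat_lit 3364760164) (nat_lit 152) (nat_lit 5287336765) (nat_lit 20) (nat_lit 5) (nat_lit 21) (nat_lit 5) (nat_lit 22) (nat_lit 4) (nat_lit 348) (nat_lit 239) (nat_lit 193)) (XT.nd (nat_lit 78) (nat_lit 228) (nat_lit 0) (XT.lf (nat_lit 0) (nat_lit 19291751575) (nat_lit 152) (nat_lit 2127683819) (nat_lit 0) (nat_lit 106940000) (nat_lit 20) (nat_lit 5) (nat_lit 22) (nat_lit 4) (nat_lit 20) (nat_lit 4) (nat_lit 349) (nat_lit 239) (nat_lit 192)) (XT.lf (nat_lit 0) (nat_lit 931551705) (nat_lit 228) (nat_lit 17479286311) (nat_lit 76) (nat_lit 3641547647) (nat_lit 17) (nat_lit 5) (nat_lit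 20) (nat_lit 5) (nat_lit 18) (nat_lit 4) (nat_lit 350) (nat_lit 239) (nat_lit 191)))) (XT.nd (nat_lit 78) (nat_lit 76) (nat_lit 0) (XT.lf (nat_lit 0) (nat_lit 4131485055) (nat_lit 228) (nat_lit 11163542679) (nat_lit 76) (nat_lit 7298997835) (nat_lit 17) (nat_lit 5) (nat_lit 20) (nat_lit 5) (nat_lit 18) (nat_lit 4) (nat_lit 351) (nat_lit 239) (nat_lit 190)) (XT.nd (nat_lit 78) (nat_lit 76) (nat_lit 0) (XT.lf (nat_lit 0) (nat_lit 7390511670) (nat_lit 228) (nat_lit 4722593473) (nat_lit 76) (nat_lit 11039939647) (nat_lit 17) (nat_lit 5) (nat_lit 20) (nat_lit 5) (nat_lit 18) (nat_lit 4) (nat_lit 352) (nat_lit 239) (nat_lit 189)) (XT.lf (nat_lit 0) (nat_lit 1885991812) (nat_lit 76) (nat_lit 8843616738) (nat_lit 152) (nat_lit 12999779362) (nat_lit 16) (nat_lit 5) (nat_lit 17) (nat_lit 5) (nat_lit 18) (nat_lit 4) (nat_lit 353) (nat_lit 239) (nat_lit 188)))))) (XT.nd (nat_lit 468) (nat_lit 76) (nat_lit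 0) (XT.nd (nat_lit 234) (nat_lit 228) (nat_lit 0) (XT.nd (nat_lit 78) (nat_lit 0) (nat_lit 0) (XT.lf (nat_lit 0) (nat_lit 8727860018) (nat_lit 76) (nat_lit 5453327102) (nat_lit 152) (nat_lit 10141486602) (nat_lit 16) (nat_lit 5) (nat_lit 17) (nat_lit 5) (nat_lit 18) (nat_lit 4) (nat_lit 354) (nat_lit 239) (nat_lit 187)) (XT.nd (nat_lit 78) (nat_lit 0) (nat_lit 0) (XT.lf (nat_lit 0) (nat_lit 15715000605) (nat_lit 76) (nat_lit 1986962782) (nat_lit 152) (nat_lit 7232846236) (nat_lit 16) (nat_lit 5) (nat_lit 17) (nat_lit 5) (nat_lit 18) (nat_lit 4) (nat_lit 355) (nat_lit 239) (nat_lit 186)) (XT.lf (nat_lit 0) (nat_lit 21309995063) (nat_lit 152) (nat_lit 2727792955) (nat_lit 0) (nat_lit 1528093036) (nat_lit 16) (nat_lit 5) (nat_lit 18) (nat_lit 4) (nat_lit 16) (nat_lit 4) (nat_lit 356) (nat_lit 239) (nat_lit 185)))) (XT.nd (nat_lit 78) (nat_lit 76) (nat_lit 0) (XT.lf (nat_lit 0) (nat_lit 3959271082)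 (nat_lit 152) (nat_lit 21092118325) (nat_lit 152) (nat_lit 1163761387) (nat_lit 14) (nat_lit 4) (nat_lit 16) (nat_lit 5) (nat_lit 16) (nat_lit 4) (nat_lit 357) (nat_lit 239) (nat_lit 184)) (XT.nd (nat_lit 78) (nat_lit 0) (nat_lit 0) (XT.lf (nat_lit 0) (nat_lit 1976962138) (nat_lit 228) (nat_lit 16057313031) (nat_lit 76) (nat_lit 8849201053) (nat_lit 13) (nat_lit 5) (nat_lit 16) (nat_lit 5) (nat_lit 14) (nat_lit 4) (nat_lit 358) (nat_lit 239) (nat_lit 183)) (XT.lf (nat_lit 0) (nat_lit 5156921348) (nat_lit 228) (nat_lit 9740043633) (nat_lit 76) (nat_lit 12675506764) (nat_lit 13) (nat_lit 5) (nat_lit 16) (nat_lit 5) (nat_lit 14) (nat_lit 4) (nat_lit 359) (nat_lit 239) (nat_lit 182))))) (XT.nd (nat_lit 234) (nat_lit 0) (nat_lit 0) (XT.nd (nat_lit 78) (nat_lit 76) (nat_lit 0) (XT.lf (nat_lit 0) (nat_lit 8401604025) (nat_lit 228) (nat_lit 3287364789) (nat_lit 76) (nat_lit 16594106190) (nat_lit 13) (nat_lit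 5) (nat_lit 16) (nat_lit 5) (nat_lit 14) (nat_lit 4) (nat_lit 360) (nat_lit 239) (nat_lit 181)) (XT.nd (nat_lit 78) (nat_lit 0) (nat_lit 0) (XT.lf (nat_lit 0) (nat_lit 3372164846) (nat_lit 76) (nat_lit 8374095793) (nat_lit 152) (nat_lit 17268673816) (nat_lit 12) (nat_lit 5) (nat_lit 13) (nat_lit 5) (nat_lit 14) (nat_lit 4) (nat_lit 361) (nat_lit 239) (nat_lit 180)) (XT.lf (nat_lit 0) (nat_lit 10246850497) (nat_lit 76) (nat_lit 4948187947) (nat_lit 152) (nat_lit 14573614399) (nat_lit 12) (nat_lit 5) (nat_lit 13) (nat_lit 5) (nat_lit 14) (nat_lit 4) (nat_lit 362) (nat_lit 239) (nat_lit 179)))) (XT.nd (nat_lit 78) (nat_lit 0) (nat_lit 0) (XT.lf (nat_lit 0) (nat_lit 17277274164) (nat_lit 76) (nat_lit 1441447703) (nat_lit 152) (nat_lit 11827133762) (nat_lit 12) (nat_lit 5) (nat_lit 13) (nat_lit 5) (nat_lit 14) (nat_lit 4) (nat_lit 363) (nat_lit 239) (nat_lit 178)) (XT.nd (nat_lit 78) (nat_lit 0) (nat_lit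 0) (XT.lf (nat_lit 0) (nat_lit 22341049177) (nat_lit 152) (nat_lit 6898302309) (nat_lit 0) (nat_lit 2107250659) (nat_lit 12) (nat_lit 5) (nat_lit 14) (nat_lit 4) (nat_lit 12) (nat_lit 4) (nat_lit 364) (nat_lit 239) (nat_lit 177)) (XT.lf (nat_lit 0) (nat_lit 26059200841) (nat_lit 152) (nat_lit 399413940) (nat_lit 0) (nat_lit 5713156829) (nat_lit 12) (nat_lit 5) (nat_lit 14) (nat_lit 4) (nat_lit 12) (nat_lit 4) (nat_lit 365) (nat_lit 239) (nat_lit 176))))))))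
noncomputable def xc56 : XT := (XT.nd (nat_lit 1794) (nat_lit 152) (nat_lit 0) (XT.nd (nat_lit 858) (nat_lit 228) (nat_lit 0) (XT.nd (nat_lit 390) (nat_lit 76) (nat_lit 0) (XT.nd (nat_lit 156) (nat_lit 76) (nat_lit 0) (XT.nd (nat_lit 78) (nat_lit 0) (nat_lit 0) (XT.lf (nat_lit 0) (nat_lit 6371958212) (nat_lit 76) (nat_lit 23551862601) (nat_lit 76) (nat_lit 3096842381) (nat_lit 11) (nat_lit 4) (nat_lit 12) (nat_lit 5) (nat_lit 12) (nat_lit 4) (nat_lit 366) (nat_lit 239) (nat_lit 175)) (XT.lf (nat_lit 0) (nat_lit 13308295447) (nat_lit 76) (nat_lit 20574110975) (nat_lit 76) (nat_lit 13288611) (nat_lit 11) (nat_lit 4) (nat_lit 12) (nat_lit 5) (nat_lit 12) (nat_lit 4) (nat_lit 367) (nat_lit 239) (nat_lit 174))) (XT.nd (nat_lit 78) (nat_lit 0) (nat_lit 0) (XT.lf (nat_lit 0) (nat_lit 3075542287) (nat_lit 152) (nat_lit 14420192047) (nat_lit 76) (nat_lit 17301110288) (nat_lit 10) (nat_lit 5) (nat_lit 12)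 (nat_lit 5) (nat_lit 11) (nat_lit 4) (nat_lit 368) (nat_lit 239) (nat_lit 173)) (XT.nd (nat_lit 78) (nat_lit 0) (nat_lit 0) (XT.lf (nat_lit 0) (nat_lit 6232001691) (nat_lit 152) (nat_lit 8112308125) (nat_lit 76) (nat_lit 21381471118) (nat_lit 10) (nat_lit 5) (nat_lit 12) (nat_lit 5) (nat_lit 11) (nat_lit 4) (nat_lit 369) (nat_lit 239) (nat_lit 172)) (XT.lf (nat_lit 0) (nat_lit 9459106979) (nat_lit 152) (nat_lit 1658108340) (nat_lit 76) (nat_lit 25566104177) (nat_lit 10) (nat_lit 5) (nat_lit 12) (nat_lit 5) (nat_lit 11) (nat_lit 4) (nat_lit 370) (nat_lit 239) (nat_lit 171))))) (XT.nd (nat_lit 234) (nat_lit 0) (nat_lit 0) (XT.nd (nat_lit 78) (nat_lit 0) (nat_lit 0) (XT.lf (nat_lit 0) (nat_lit 5046522737) (nat_lit 76) (nat_lit 7761665479) (nat_lit 152) (nat_lit 24860653465) (nat_lit 9) (nat_lit 5) (nat_lit 10) (nat_lit 5) (nat_lit 11) (nat_lit 4) (nat_lit 371) (nat_lit 239) (nat_lit 170)) (XT.nd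 (nat_lit 78) (nat_lit 0) (nat_lit 0) (XT.lf (nat_lit 0) (nat_lit 11945020339) (nat_lit 76) (nat_lit 4306401109) (nat_lit 152) (nat_lit 22432709689) (nat_lit 9) (nat_lit 5) (nat_lit 10) (nat_lit 5) (nat_lit 11) (nat_lit 4) (nat_lit 372) (nat_lit 239) (nat_lit 169)) (XT.lf (nat_lit 0) (nat_lit 19010412672) (nat_lit 76) (nat_lit 765146688) (nat_lit 152) (nat_lit 19955003327) (nat_lit 9) (nat_lit 5) (nat_lit 10) (nat_lit 5) (nat_lit 11) (nat_lit 4) (nat_lit 373) (nat_lit 239) (nat_lit 168)))) (XT.nd (nat_lit 78) (nat_lit 0) (nat_lit 0) (XT.lf (nat_lit 0) (nat_lit 23411223277) (nat_lit 152) (nat_lit 14587719291) (nat_lit 0) (nat_lit 2809281864) (nat_lit 9) (nat_lit 5) (nat_lit 11) (nat_lit 4) (nat_lit 9) (nat_lit 4) (nat_lit 374) (nat_lit 239) (nat_lit 167)) (XT.nd (nat_lit 78) (nat_lit 0) (nat_lit 0) (XT.lf (nat_lit 0) (nat_lit 27142265830) (nat_lit 152) (nat_lit 8317136028) (nat_lit 0) (nat_lit 6459235884)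 (nat_lit 9) (nat_lit 5) (nat_lit 11) (nat_lit 4) (nat_lit 9) (nat_lit 4) (nat_lit 375) (nat_lit 239) (nat_lit 166)) (XT.lf (nat_lit 0) (nat_lit 30964592096) (nat_lit 152) (nat_lit 1895566018) (nat_lit 0) (nat_lit 10202835418) (nat_lit 9) (nat_lit 5) (nat_lit 11) (nat_lit 4) (nat_lit 9) (nat_lit 4) (nat_lit 376) (nat_lit 239) (nat_lit 165)))))) (XT.nd (nat_lit 468) (nat_lit 76) (nat_lit 0) (XT.nd (nat_lit 234) (nat_lit 76) (nat_lit 0) (XT.nd (nat_lit 78) (nat_lit 0) (nat_lit 0) (XT.lf (nat_lit 0) (nat_lit 4775794776) (nat_lit 76) (nat_lit 30151655055) (nat_lit 76) (nat_lit 9313464658) (nat_lit 8) (nat_lit 4) (nat_lit 9) (nat_lit 5) (nat_lit 9) (nat_lit 4) (nat_lit 377) (nat_lit 239) (nat_lit 164)) (XT.nd (nat_lit 78) (nat_lit 0) (nat_lit 0) (XT.lf (nat_lit 0) (nat_lit 11650457792) (nat_lit 76) (nat_lit 27358071569) (nat_lit 76) (nat_lit 6445673676) (nat_lit 8) (nat_lit 4) (nat_lit 9) (nat_lit 5)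 (nat_lit 9) (nat_lit 4) (nat_lit 378) (nat_lit 239) (nat_lit 163)) (XT.lf (nat_lit 0) (nat_lit 18696704534) (nat_lit 76) (nat_lit 24496108159) (nat_lit 76) (nat_lit 3511664155) (nat_lit 8) (nat_lit 4) (nat_lit 9) (nat_lit 5) (nat_lit 9) (nat_lit 4) (nat_lit 379) (nat_lit 239) (nat_lit 162)))) (XT.nd (nat_lit 78) (nat_lit 76) (nat_lit 0) (XT.lf (nat_lit 0) (nat_lit 25920691917) (nat_lit 76) (nat_lit 21563264082) (nat_lit 76) (nat_lit 508872397) (nat_lit 8) (nat_lit 4) (nat_lit 9) (nat_lit 5) (nat_lit 9) (nat_lit 4) (nat_lit 380) (nat_lit 239) (nat_lit 161)) (XT.nd (nat_lit 78) (nat_lit 0) (nat_lit 0) (XT.lf (nat_lit 0) (nat_lit 2515266658) (nat_lit 152) (nat_lit 16016310738) (nat_lit 76) (nat_lit 30788066244) (nat_lit 7) (nat_lit 5) (nat_lit 9) (nat_lit 5) (nat_lit 8) (nat_lit 4) (nat_lit 381) (nat_lit 239) (nat_lit 160)) (XT.lf (nat_lit 0) (nat_lit 5602122202) (nat_lit 152) (nat_lit 9815926380)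 (nat_lit 76) (nat_lit 35268605666) (nat_lit 7) (nat_lit 5) (nat_lit 9) (nat_lit 5) (nat_lit 8) (nat_lit 4) (nat_lit 382) (nat_lit 239) (nat_lit 159))))) (XT.nd (nat_lit 234) (nat_lit 0) (nat_lit 0) (XT.nd (nat_lit 78) (nat_lit 76) (nat_lit 0) (XT.lf (nat_lit 0) (nat_lit 8764321421) (nat_lit 152) (nat_lit 3460674003) (nat_lit 76) (nat_lit 39870206022) (nat_lit 7) (nat_lit 5) (nat_lit 9) (nat_lit 5) (nat_lit 8) (nat_lit 4) (nat_lit 383) (nat_lit 239) (nat_lit 158)) (XT.nd (nat_lit 78) (nat_lit 0) (nat_lit 0) (XT.lf (nat_lit 0) (nat_lit 3115800007) (nat_lit 76) (nat_lit 8918778370) (nat_lit 152) (nat_lit 41511039097) (nat_lit 6) (nat_lit 5) (nat_lit 7) (nat_lit 5) (nat_lit 8) (nat_lit 4) (nat_lit 384) (nat_lit 239) (nat_lit 157)) (XT.lf (nat_lit 0) (nat_lit 9930568679) (nat_lit 76) (nat_lit 5490761498) (nat_lit 152) (nat_lit 39617672117) (nat_lit 6) (nat_lit 5) (nat_lit 7) (nat_lit 5) (nat_lit 8)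 (nat_lit 4) (nat_lit 385) (nat_lit 239) (nat_lit 156)))) (XT.nd (nat_lit 78) (nat_lit 0) (nat_lit 0) (XT.lf (nat_lit 0) (nat_lit 16920712468) (nat_lit 76) (nat_lit 1972895478) (nat_lit 152) (nat_lit 37684070709) (nat_lit 6) (nat_lit 5) (nat_lit 7) (nat_lit 5) (nat_lit 8) (nat_lit 4) (nat_lit 386) (nat_lit 239) (nat_lit 155)) (XT.nd (nat_lit 78) (nat_lit 0) (nat_lit 0) (XT.lf (nat_lit 0) (nat_lit 22470190146) (nat_lit 152) (nat_lit 34086396200) (nat_lit 0) (nat_lit 1605932350) (nat_lit 6) (nat_lit 5) (nat_lit 8) (nat_lit 4) (nat_lit 6) (nat_lit 4) (nat_lit 387) (nat_lit 239) (nat_lit 154)) (XT.lf (nat_lit 0) (nat_lit 26158331993) (nat_lit 152) (nat_lit 28395986211) (nat_lit 0) (nat_lit 5240465124) (nat_lit 6) (nat_lit 5) (nat_lit 8) (nat_lit 4) (nat_lit 6) (nat_lit 4) (nat_lit 388) (nat_lit 239) (nat_lit 153))))))) (XT.nd (nat_lit 936) (nat_lit 76) (nat_lit 0) (XT.nd (nat_lit 468) (nat_lit 0) (nat_lit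 0) (XT.nd (nat_lit 234) (nat_lit 76) (nat_lit 0) (XT.nd (nat_lit 78) (nat_lit 0) (nat_lit 0) (XT.lf (nat_lit 0) (nat_lit 29942291458) (nat_lit 152) (nat_lit 22561799340) (nat_lit 0) (nat_lit 8972376945) (nat_lit 6) (nat_lit 5) (nat_lit 8) (nat_lit 4) (nat_lit 6) (nat_lit 4) (nat_lit 389) (nat_lit 239) (nat_lit 152)) (XT.nd (nat_lit 78) (nat_lit 0) (nat_lit 0) (XT.lf (nat_lit 0) (nat_lit 33825374912) (nat_lit 152) (nat_lit 16578737754) (nat_lit 0) (nat_lit 12804928706) (nat_lit 6) (nat_lit 5) (nat_lit 8) (nat_lit 4) (nat_lit 6) (nat_lit 4) (nat_lit 390) (nat_lit 239) (nat_lit 151)) (XT.lf (nat_lit 0) (nat_lit 37810975341) (nat_lit 152) (nat_lit 10441573535) (nat_lit 0) (nat_lit 16741469239) (nat_lit 6) (nat_lit 5) (nat_lit 8) (nat_lit 4) (nat_lit 6) (nat_lit 4) (nat_lit 391) (nat_lit 239) (nat_lit 150)))) (XT.nd (nat_lit 78) (nat_lit 76) (nat_lit 0) (XT.lf (nat_lit 0) (nat_lit 41902575309) (nat_lit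 152) (nat_lit 4144944111) (nat_lit 0) (nat_lit 20785438240) (nat_lit 6) (nat_lit 5) (nat_lit 8) (nat_lit 4) (nat_lit 6) (nat_lit 4) (nat_lit 392) (nat_lit 239) (nat_lit 149)) (XT.nd (nat_lit 78) (nat_lit 0) (nat_lit 0) (XT.lf (nat_lit 0) (nat_lit 2362758349) (nat_lit 76) (nat_lit 43763703929) (nat_lit 76) (nat_lit 22600323202) (nat_lit 5) (nat_lit 4) (nat_lit 6) (nat_lit 5) (nat_lit 6) (nat_lit 4) (nat_lit 393) (nat_lit 239) (nat_lit 148)) (XT.lf (nat_lit 0) (nat_lit 9126962031) (nat_lit 76) (nat_lit 41378942254) (nat_lit 76) (nat_lit 20170664773) (nat_lit 5) (nat_lit 4) (nat_lit 6) (nat_lit 5) (nat_lit 6) (nat_lit 4) (nat_lit 394) (nat_lit 239) (nat_lit 147))))) (XT.nd (nat_lit 234) (nat_lit 0) (nat_lit 0) (XT.nd (nat_lit 78) (nat_lit 0) (nat_lit 0) (XT.lf (nat_lit 0) (nat_lit 16071084887) (nat_lit 76) (nat_lit 38933006433) (nat_lit 76) (nat_lit 17681139869) (nat_lit 5) (nat_lit 4) (nat_lit 6)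 (nat_lit 5) (nat_lit 6) (nat_lit 4) (nat_lit 395) (nat_lit 239) (nat_lit 146)) (XT.nd (nat_lit 78) (nat_lit 0) (nat_lit 0) (XT.lf (nat_lit 0) (nat_lit 23201194598) (nat_lit 76) (nat_lit 36423759240) (nat_lit 76) (nat_lit 15129573178) (nat_lit 5) (nat_lit 4) (nat_lit 6) (nat_lit 5) (nat_lit 6) (nat_lit 4) (nat_lit 396) (nat_lit 239) (nat_lit 145)) (XT.lf (nat_lit 0) (nat_lit 30523521355) (nat_lit 76) (nat_lit 33849008128) (nat_lit 76) (nat_lit 12513735176) (nat_lit 5) (nat_lit 4) (nat_lit 6) (nat_lit 5) (nat_lit 6) (nat_lit 4) (nat_lit 397) (nat_lit 239) (nat_lit 144)))) (XT.nd (nat_lit 78) (nat_lit 0) (nat_lit 0) (XT.lf (nat_lit 0) (nat_lit 38044463309) (nat_lit 76) (nat_lit 31206503316) (nat_lit 76) (nat_lit 9831340179) (nat_lit 5) (nat_lit 4) (nat_lit 6) (nat_lit 5) (nat_lit 6) (nat_lit 4) (nat_lit 398) (nat_lit 239) (nat_lit 143)) (XT.nd (nat_lit 78) (nat_lit 0) (nat_lit 0) (XT.lf (nat_lit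 0) (nat_lit 45770592157) (nat_lit 76) (nat_lit 28493935819) (nat_lit 76) (nat_lit 7080044346) (nat_lit 5) (nat_lit 4) (nat_lit 6) (nat_lit 5) (nat_lit 6) (nat_lit 4) (nat_lit 399) (nat_lit 239) (nat_lit 142)) (XT.lf (nat_lit 0) (nat_lit 53708658885) (nat_lit 76) (nat_lit 25708935431) (nat_lit 76) (nat_lit 4257443634) (nat_lit 5) (nat_lit 4) (nat_lit 6) (nat_lit 5) (nat_lit 6) (nat_lit 4) (nat_lit 400) (nat_lit 239) (nat_lit 141)))))) (XT.nd (nat_lit 32994) (nat_lit 0) (nat_lit 5548) (XT.nd (nat_lit 32760) (nat_lit 0) (nat_lit 7068) (XT.nd (nat_lit 78) (nat_lit 76) (nat_lit 0) (XT.lf (nat_lit 0) (nat_lit 61865599668) (nat_lit 76) (nat_lit 22849068658) (nat_lit 76) (nat_lit 1361071690) (nat_lit 5) (nat_lit 4) (nat_lit 6) (nat_lit 5) (nat_lit 6) (nat_lit 4) (nat_lit 401) (nat_lit 239) (nat_lit 140)) (XT.nd (nat_lit 78) (nat_lit 0) (nat_lit 0) (XT.lf (nat_lit 0) (nat_lit 1580154128) (nat_lit 152)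 (nat_lit 18315726000) (nat_lit 76) (nat_lit 68652431343) (nat_lit 4) (nat_lit 5) (nat_lit 6) (nat_lit 5) (nat_lit 5) (nat_lit 4) (nat_lit 402) (nat_lit 239) (nat_lit 139)) (XT.lf (nat_lit 0) (nat_lit 4572180444) (nat_lit 152) (nat_lit 12276322201) (nat_lit 76) (nat_lit 74246460068) (nat_lit 4) (nat_lit 5) (nat_lit 6) (nat_lit 5) (nat_lit 5) (nat_lit 4) (nat_lit 403) (nat_lit 239) (nat_lit 138)))) (XT.nd (nat_lit 78) (nat_lit 836) (nat_lit 0) (XT.lf (nat_lit 0) (nat_lit 4026489301) (nat_lit 456) (nat_lit 92321096) (nat_lit 456) (nat_lit 92321096) (nat_lit 108) (nat_lit 4) (nat_lit 114) (nat_lit 5) (nat_lit 114) (nat_lit 4) (nat_lit 300) (nat_lit 240) (nat_lit 240)) (XT.nd (nat_lit 78) (nat_lit 380) (nat_lit 0) (XT.lf (nat_lit 0) (nat_lit 3241112876) (nat_lit 456) (nat_lit 3141762839) (nat_lit 0) (nat_lit 2148074982) (nat_lit 102) (nat_lit 5) (nat_lit 108) (nat_lit 4) (nat_lit 102) (nat_lit 4) (nat_lit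 301) (nat_lit 240) (nat_lit 239)) (XT.lf (nat_lit 0) (nat_lit 2618255421) (nat_lit 380) (nat_lit 4090345982) (nat_lit 380) (nat_lit 1936106248) (nat_lit 97) (nat_lit 4) (nat_lit 102) (nat_lit 5) (nat_lit 102) (nat_lit 4) (nat_lit 302) (nat_lit 240) (nat_lit 238))))) (XT.nd (nat_lit 234) (nat_lit 760) (nat_lit 0) (XT.nd (nat_lit 78) (nat_lit 684) (nat_lit 0) (XT.lf (nat_lit 0) (nat_lit 1433043445) (nat_lit 456) (nat_lit 275454587) (nat_lit 76) (nat_lit 7054743853) (nat_lit 96) (nat_lit 5) (nat_lit 102) (nat_lit 5) (nat_lit 97) (nat_lit 4) (nat_lit 303) (nat_lit 240) (nat_lit 237)) (XT.nd (nat_lit 78) (nat_lit 380) (nat_lit 0) (XT.lf (nat_lit 0) (nat_lit 4841016258) (nat_lit 380) (nat_lit 3266485516) (nat_lit 0) (nat_lit 778086846) (nat_lit 92) (nat_lit 5) (nat_lit 97) (nat_lit 4) (nat_lit 92) (nat_lit 4) (nat_lit 304) (nat_lit 240) (nat_lit 236)) (XT.lf (nat_lit 0) (nat_lit 2605493652) (nat_lit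 380) (nat_lit 5706603570) (nat_lit 380) (nat_lit 700810068) (nat_lit 87) (nat_lit 4) (nat_lit 92) (nat_lit 5) (nat_lit 92) (nat_lit 4) (nat_lit 305) (nat_lit 240) (nat_lit 235)))) (XT.nd (nat_lit 78) (nat_lit 684) (nat_lit 0) (XT.lf (nat_lit 0) (nat_lit 2639573516) (nat_lit 456) (nat_lit 562861292) (nat_lit 76) (nat_lit 5942444708) (nat_lit 86) (nat_lit 5) (nat_lit 92) (nat_lit 5) (nat_lit 87) (nat_lit 4) (nat_lit 306) (nat_lit 240) (nat_lit 234)) (XT.nd (nat_lit 78) (nat_lit 380) (nat_lit 0) (XT.lf (nat_lit 0) (nat_lit 5445970337) (nat_lit 304) (nat_lit 591421633) (nat_lit 380) (nat_lit 3244188281) (nat_lit 82) (nat_lit 5) (nat_lit 86) (nat_lit 5) (nat_lit 87) (nat_lit 4) (nat_lit 307) (nat_lit 240) (nat_lit 233)) (XT.lf (nat_lit 0) (nat_lit 78486803) (nat_lit 380) (nat_lit 7289982051) (nat_lit 76) (nat_lit 2055011230) (nat_lit 77) (nat_lit 5) (nat_lit 82) (nat_lit 5) (nat_lit 78) (nat_lit 4)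 (nat_lit 308) (nat_lit 240) (nat_lit 232))))))))
noncomputable def xc57 : XT := (XT.nd (nat_lit 1794) (nat_lit 1444) (nat_lit 0) (XT.nd (nat_lit 858) (nat_lit 1368) (nat_lit 0) (XT.nd (nat_lit 390) (nat_lit 912) (nat_lit 0) (XT.nd (nat_lit 156) (nat_lit 608) (nat_lit 0) (XT.nd (nat_lit 78) (nat_lit 304) (nat_lit 0) (XT.lf (nat_lit 0) (nat_lit 3400974202) (nat_lit 380) (nat_lit 1358655478) (nat_lit 76) (nat_lit 4810190366) (nat_lit 77) (nat_lit 5) (nat_lit 82) (nat_lit 5) (nat_lit 78) (nat_lit 4) (nat_lit 309) (nat_lit 240) (nat_lit 231)) (XT.lf (nat_lit 0) (nat_lit 4734130467) (nat_lit 304) (nat_lit 2057198305) (nat_lit 380) (nat_lit 2930279409) (nat_lit 73) (nat_lit 5) (nat_lit 77) (nat_lit 5) (nat_lit 78) (nat_lit 4) (nat_lit 310) (nat_lit 240) (nat_lit 230))) (XT.nd (nat_lit 78) (nat_lit 228) (nat_lit 0) (XT.lf (nat_lit 0) (nat_lit 351643916) (nat_lit 380) (nat_lit 8819077148) (nat_lit 76)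 (nat_lit 708586423) (nat_lit 68) (nat_lit 5) (nat_lit 73) (nat_lit 5) (nat_lit 69) (nat_lit 4) (nat_lit 311) (nat_lit 240) (nat_lit 229)) (XT.nd (nat_lit 78) (nat_lit 228) (nat_lit 0) (XT.lf (nat_lit 0) (nat_lit 3668295036) (nat_lit 380) (nat_lit 2808902191) (nat_lit 76) (nat_lit 3563910139) (nat_lit 68) (nat_lit 5) (nat_lit 73) (nat_lit 5) (nat_lit 69) (nat_lit 4) (nat_lit 312) (nat_lit 240) (nat_lit 228)) (XT.lf (nat_lit 0) (nat_lit 3339556685) (nat_lit 228) (nat_lit 3703141457) (nat_lit 304) (nat_lit 3166407705) (nat_lit 65) (nat_lit 5) (nat_lit 68) (nat_lit 5) (nat_lit 69) (nat_lit 4) (nat_lit 313) (nat_lit 240) (nat_lit 227))))) (XT.nd (nat_lit 234) (nat_lit 304) (nat_lit 0) (XT.nd (nat_lit 78) (nat_lit 532) (nat_lit 0) (XT.lf (nat_lit 0) (nat_lit 88650313) (nat_lit 304) (nat_lit 760521706) (nat_lit 76) (nat_lit 9534366318) (nat_lit 64) (nat_lit 5) (nat_lit 68) (nat_lit 5) (nat_lit 65) (nat_lit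 5) (nat_lit 314) (nat_lit 240) (nat_lit 226)) (XT.nd (nat_lit 78) (nat_lit 228) (nat_lit 0) (XT.lf (nat_lit 0) (nat_lit 3379843969) (nat_lit 380) (nat_lit 5080248321) (nat_lit 76) (nat_lit 2102191585) (nat_lit 60) (nat_lit 5) (nat_lit 65) (nat_lit 5) (nat_lit 61) (nat_lit 4) (nat_lit 315) (nat_lit 240) (nat_lit 225)) (XT.lf (nat_lit 0) (nat_lit 1088660637) (nat_lit 228) (nat_lit 5637120867) (nat_lit 304) (nat_lit 4022011937) (nat_lit 57) (nat_lit 5) (nat_lit 60) (nat_lit 5) (nat_lit 61) (nat_lit 4) (nat_lit 316) (nat_lit 240) (nat_lit 224)))) (XT.nd (nat_lit 78) (nat_lit 304) (nat_lit 0) (XT.lf (nat_lit 0) (nat_lit 7442412816) (nat_lit 228) (nat_lit 2711418323) (nat_lit 304) (nat_lit 785664651) (nat_lit 57) (nat_lit 5) (nat_lit 60) (nat_lit 5) (nat_lit 61) (nat_lit 4) (nat_lit 317) (nat_lit 240) (nat_lit 223)) (XT.nd (nat_lit 78) (nat_lit 0) (nat_lit 0) (XT.lf (nat_lit 0) (nat_lit 2459542921)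 (nat_lit 304) (nat_lit 8363852264) (nat_lit 76) (nat_lit 314049672) (nat_lit 53) (nat_lit 5) (nat_lit 57) (nat_lit 5) (nat_lit 54) (nat_lit 4) (nat_lit 318) (nat_lit 240) (nat_lit 222)) (XT.lf (nat_lit 0) (nat_lit 5781219286) (nat_lit 304) (nat_lit 2174682526) (nat_lit 76) (nat_lit 3385422879) (nat_lit 53) (nat_lit 5) (nat_lit 57) (nat_lit 5) (nat_lit 54) (nat_lit 4) (nat_lit 319) (nat_lit 240) (nat_lit 221)))))) (XT.nd (nat_lit 468) (nat_lit 608) (nat_lit 0) (XT.nd (nat_lit 234) (nat_lit 228) (nat_lit 0) (XT.nd (nat_lit 78) (nat_lit 304) (nat_lit 0) (XT.lf (nat_lit 0) (nat_lit 4181258059) (nat_lit 228) (nat_lit 4995844380) (nat_lit 304) (nat_lit 2375052434) (nat_lit 50) (nat_lit 5) (nat_lit 53) (nat_lit 5) (nat_lit 54) (nat_lit 4) (nat_lit 320) (nat_lit 240) (nat_lit 220)) (XT.nd (nat_lit 78) (nat_lit 228) (nat_lit 0) (XT.lf (nat_lit 0) (nat_lit 844670206) (nat_lit 304) (nat_lit 1105995943) (nat_lit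 76) (nat_lit 9819745604) (nat_lit 49) (nat_lit 5) (nat_lit 53) (nat_lit 5) (nat_lit 50) (nat_lit 5) (nat_lit 321) (nat_lit 240) (nat_lit 219)) (XT.lf (nat_lit 0) (nat_lit 4112801556) (nat_lit 304) (nat_lit 6677359235) (nat_lit 76) (nat_lit 1204428145) (nat_lit 46) (nat_lit 5) (nat_lit 50) (nat_lit 5) (nat_lit 47) (nat_lit 4) (nat_lit 322) (nat_lit 240) (nat_lit 218)))) (XT.nd (nat_lit 78) (nat_lit 228) (nat_lit 0) (XT.lf (nat_lit 0) (nat_lit 7446671111) (nat_lit 304) (nat_lit 387345493) (nat_lit 76) (nat_lit 4392506774) (nat_lit 46) (nat_lit 5) (nat_lit 50) (nat_lit 5) (nat_lit 47) (nat_lit 4) (nat_lit 323) (nat_lit 240) (nat_lit 217)) (XT.nd (nat_lit 78) (nat_lit 76) (nat_lit 0) (XT.lf (nat_lit 0) (nat_lit 6114976443) (nat_lit 152) (nat_lit 4763294959) (nat_lit 228) (nat_lit 1587273954) (nat_lit 44) (nat_lit 5) (nat_lit 46) (nat_lit 5) (nat_lit 47) (nat_lit 4) (nat_lit 324) (nat_lit 240) (nat_lit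 216)) (XT.lf (nat_lit 0) (nat_lit 1610984903) (nat_lit 228) (nat_lit 3750535) (nat_lit 76) (nat_lit 11098276522) (nat_lit 43) (nat_lit 5) (nat_lit 46) (nat_lit 5) (nat_lit 44) (nat_lit 5) (nat_lit 325) (nat_lit 240) (nat_lit 215))))) (XT.nd (nat_lit 234) (nat_lit 228) (nat_lit 0) (XT.nd (nat_lit 78) (nat_lit 152) (nat_lit 0) (XT.lf (nat_lit 0) (nat_lit 4893296722) (nat_lit 304) (nat_lit 6431105471) (nat_lit 76) (nat_lit 1642484440) (nat_lit 40) (nat_lit 5) (nat_lit 44) (nat_lit 5) (nat_lit 41) (nat_lit 4) (nat_lit 326) (nat_lit 240) (nat_lit 214)) (XT.nd (nat_lit 78) (nat_lit 152) (nat_lit 0) (XT.lf (nat_lit 0) (nat_lit 8231528818) (nat_lit 304) (nat_lit 66598290) (nat_lit 76) (nat_lit 4931581055) (nat_lit 40) (nat_lit 5) (nat_lit 44) (nat_lit 5) (nat_lit 41) (nat_lit 4) (nat_lit 327) (nat_lit 240) (nat_lit 213)) (XT.lf (nat_lit 0) (nat_lit 6525094809) (nat_lit 152) (nat_lit 5150667529) (nat_lit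 228) (nat_lit 1824528938) (nat_lit 38) (nat_lit 5) (nat_lit 40) (nat_lit 5) (nat_lit 41) (nat_lit 4) (nat_lit 328) (nat_lit 240) (nat_lit 212)))) (XT.nd (nat_lit 78) (nat_lit 152) (nat_lit 0) (XT.lf (nat_lit 0) (nat_lit 1360141489) (nat_lit 228) (nat_lit 568320427) (nat_lit 76) (nat_lit 11851843166) (nat_lit 37) (nat_lit 5) (nat_lit 40) (nat_lit 5) (nat_lit 38) (nat_lit 5) (nat_lit 329) (nat_lit 240) (nat_lit 211)) (XT.nd (nat_lit 78) (nat_lit 0) (nat_lit 0) (XT.lf (nat_lit 0) (nat_lit 4620521371) (nat_lit 228) (nat_lit 8040034601) (nat_lit 76) (nat_lit 1407164284) (nat_lit 35) (nat_lit 5) (nat_lit 38) (nat_lit 5) (nat_lit 36) (nat_lit 4) (nat_lit 330) (nat_lit 240) (nat_lit 210)) (XT.lf (nat_lit 0) (nat_lit 7949004581) (nat_lit 228) (nat_lit 1638698193) (nat_lit 76) (nat_lit 4776993059) (nat_lit 35) (nat_lit 5) (nat_lit 38) (nat_lit 5) (nat_lit 36) (nat_lit 4) (nat_lit 331) (nat_lit 240) (nat_lit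 209))))))) (XT.nd (nat_lit 936) (nat_lit 608) (nat_lit 0) (XT.nd (nat_lit 468) (nat_lit 304) (nat_lit 0) (XT.nd (nat_lit 234) (nat_lit 152) (nat_lit 0) (XT.nd (nat_lit 78) (nat_lit 228) (nat_lit 0) (XT.lf (nat_lit 0) (nat_lit 4964976566) (nat_lit 152) (nat_lit 6407084838) (nat_lit 228) (nat_lit 3298723049) (nat_lit 33) (nat_lit 5) (nat_lit 35) (nat_lit 5) (nat_lit 36) (nat_lit 4) (nat_lit 332) (nat_lit 240) (nat_lit 208)) (XT.nd (nat_lit 78) (nat_lit 228) (nat_lit 0) (XT.lf (nat_lit 0) (nat_lit 11714615845) (nat_lit 152) (nat_lit 3147454191) (nat_lit 228) (nat_lit 125101918) (nat_lit 33) (nat_lit 5) (nat_lit 35) (nat_lit 5) (nat_lit 36) (nat_lit 4) (nat_lit 333) (nat_lit 240) (nat_lit 207)) (XT.lf (nat_lit 0) (nat_lit 3065144627) (nat_lit 228) (nat_lit 12011450594) (nat_lit 76) (nat_lit 236107909) (nat_lit 30) (nat_lit 5) (nat_lit 33) (nat_lit 5) (nat_lit 31) (nat_lit 4) (nat_lit 334) (nat_lit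 240) (nat_lit 206)))) (XT.nd (nat_lit 78) (nat_lit 152) (nat_lit 0) (XT.lf (nat_lit 0) (nat_lit 6362187674) (nat_lit 228) (nat_lit 5625097268) (nat_lit 76) (nat_lit 3660310324) (nat_lit 30) (nat_lit 5) (nat_lit 33) (nat_lit 5) (nat_lit 31) (nat_lit 4) (nat_lit 335) (nat_lit 240) (nat_lit 205)) (XT.nd (nat_lit 78) (nat_lit 0) (nat_lit 0) (XT.lf (nat_lit 0) (nat_lit 887921438) (nat_lit 152) (nat_lit 8829306327) (nat_lit 228) (nat_lit 6276572945) (nat_lit 28) (nat_lit 5) (nat_lit 30) (nat_lit 5) (nat_lit 31) (nat_lit 4) (nat_lit 336) (nat_lit 240) (nat_lit 204)) (XT.lf (nat_lit 0) (nat_lit 7630194312) (nat_lit 152) (nat_lit 5550735084) (nat_lit 228) (nat_lit 3169260589) (nat_lit 28) (nat_lit 5) (nat_lit 30) (nat_lit 5) (nat_lit 31) (nat_lit 4) (nat_lit 337) (nat_lit 240) (nat_lit 203))))) (XT.nd (nat_lit 234) (nat_lit 76) (nat_lit 0) (XT.nd (nat_lit 78) (nat_lit 228) (nat_lit 0) (XT.lf (nat_lit 0)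 (nat_lit 14495662194) (nat_lit 152) (nat_lit 2205508894) (nat_lit 228) (nat_lit 17557852) (nat_lit 28) (nat_lit 5) (nat_lit 30) (nat_lit 5) (nat_lit 31) (nat_lit 4) (nat_lit 338) (nat_lit 240) (nat_lit 202)) (XT.nd (nat_lit 78) (nat_lit 0) (nat_lit 0) (XT.lf (nat_lit 0) (nat_lit 3174306391) (nat_lit 228) (nat_lit 12663113746) (nat_lit 76) (nat_lit 1259749178) (nat_lit 25) (nat_lit 5) (nat_lit 28) (nat_lit 5) (nat_lit 26) (nat_lit 4) (nat_lit 339) (nat_lit 240) (nat_lit 201)) (XT.lf (nat_lit 0) (nat_lit 6459914580) (nat_lit 228) (nat_lit 6250138695) (nat_lit 76) (nat_lit 4776987926) (nat_lit 25) (nat_lit 5) (nat_lit 28) (nat_lit 5) (nat_lit 26) (nat_lit 4) (nat_lit 340) (nat_lit 240) (nat_lit 200)))) (XT.nd (nat_lit 78) (nat_lit 0) (nat_lit 0) (XT.lf (nat_lit 0) (nat_lit 284982098) (nat_lit 76) (nat_lit 9517026312) (nat_lit 152) (nat_lit 8087896072) (nat_lit 24) (nat_lit 5) (nat_lit 25) (nat_lit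 5) (nat_lit 26) (nat_lit 4) (nat_lit 341) (nat_lit 240) (nat_lit 199)) (XT.nd (nat_lit 78) (nat_lit 0) (nat_lit 0) (XT.lf (nat_lit 0) (nat_lit 7069216878) (nat_lit 76) (nat_lit 6194024258) (nat_lit 152) (nat_lit 5041078049) (nat_lit 24) (nat_lit 5) (nat_lit 25) (nat_lit 5) (nat_lit 26) (nat_lit 4) (nat_lit 342) (nat_lit 240) (nat_lit 198)) (XT.lf (nat_lit 0) (nat_lit 13984103600) (nat_lit 76) (nat_lit 2801257664) (nat_lit 152) (nat_lit 1947124431) (nat_lit 24) (nat_lit 5) (nat_lit 25) (nat_lit 5) (nat_lit 26) (nat_lit 4) (nat_lit 343) (nat_lit 240) (nat_lit 197)))))) (XT.nd (nat_lit 468) (nat_lit 304) (nat_lit 0) (XT.nd (nat_lit 234) (nat_lit 76) (nat_lit 0) (XT.nd (nat_lit 78) (nat_lit 0) (nat_lit 0) (XT.lf (nat_lit 0) (nat_lit 1198126806) (nat_lit 228) (nat_lit 17294357675) (nat_lit 76) (nat_lit 681204268) (nat_lit 21) (nat_lit 5) (nat_lit 24) (nat_lit 5) (nat_lit 22) (nat_lit 4) (nat_lit 344)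 (nat_lit 240) (nat_lit 196)) (XT.nd (nat_lit 78) (nat_lit 0) (nat_lit 0) (XT.lf (nat_lit 0) (nat_lit 4432882580) (nat_lit 228) (nat_lit 10942877429) (nat_lit 76) (nat_lit 4250789323) (nat_lit 21) (nat_lit 5) (nat_lit 24) (nat_lit 5) (nat_lit 22) (nat_lit 4) (nat_lit 345) (nat_lit 240) (nat_lit 195)) (XT.lf (nat_lit 0) (nat_lit 7724023699) (nat_lit 228) (nat_lit 4470670641) (nat_lit 76) (nat_lit 7899548548) (nat_lit 21) (nat_lit 5) (nat_lit 24) (nat_lit 5) (nat_lit 22) (nat_lit 4) (nat_lit 346) (nat_lit 240) (nat_lit 194)))) (XT.nd (nat_lit 78) (nat_lit 0) (nat_lit 0) (XT.lf (nat_lit 0) (nat_lit 2170267755) (nat_lit 76) (nat_lit 8925020104) (nat_lit 152) (nat_lit 9481264365) (nat_lit 20) (nat_lit 5) (nat_lit 21) (nat_lit 5) (nat_lit 22) (nat_lit 4) (nat_lit 347) (nat_lit 240) (nat_lit 193)) (XT.nd (nat_lit 78) (nat_lit 0) (nat_lit 0) (XT.lf (nat_lit 0) (nat_lit 9034958886) (nat_lit 76) (nat_lit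 5538907438) (nat_lit 152) (nat_lit 6499305085) (nat_lit 20) (nat_lit 5) (nat_lit 21) (nat_lit 5) (nat_lit 22) (nat_lit 4) (nat_lit 348) (nat_lit 240) (nat_lit 192)) (XT.lf (nat_lit 0) (nat_lit 16040425913) (nat_lit 76) (nat_lit 2078542612) (nat_lit 152) (nat_lit 3466880760) (nat_lit 20) (nat_lit 5) (nat_lit 21) (nat_lit 5) (nat_lit 22) (nat_lit 4) (nat_lit 349) (nat_lit 240) (nat_lit 191))))) (XT.nd (nat_lit 234) (nat_lit 76) (nat_lit 0) (XT.nd (nat_lit 78) (nat_lit 76) (nat_lit 0) (XT.lf (nat_lit 0) (nat_lit 1084900873) (nat_lit 152) (nat_lit 20673245723) (nat_lit 152) (nat_lit 356153594) (nat_lit 18) (nat_lit 4) (nat_lit 20) (nat_lit 5) (nat_lit 20) (nat_lit 4) (nat_lit 350) (nat_lit 240) (nat_lit 190)) (XT.nd (nat_lit 78) (nat_lit 0) (nat_lit 0) (XT.lf (nat_lit 0) (nat_lit 2832549922) (nat_lit 228) (nat_lit 14741890609) (nat_lit 76) (nat_lit 5082158980) (nat_lit 17) (nat_lit 5) (nat_lit 20)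 (nat_lit 5) (nat_lit 18) (nat_lit 4) (nat_lit 351) (nat_lit 240) (nat_lit 189)) (XT.lf (nat_lit 0) (nat_lit 6073926369) (nat_lit 228) (nat_lit 8331677802) (nat_lit 76) (nat_lit 8810555056) (nat_lit 17) (nat_lit 5) (nat_lit 20) (nat_lit 5) (nat_lit 18) (nat_lit 4) (nat_lit 352) (nat_lit 240) (nat_lit 188)))) (XT.nd (nat_lit 78) (nat_lit 76) (nat_lit 0) (XT.lf (nat_lit 0) (nat_lit 9377757857) (nat_lit 228) (nat_lit 1789736174) (nat_lit 76) (nat_lit 12626076949) (nat_lit 17) (nat_lit 5) (nat_lit 20) (nat_lit 5) (nat_lit 18) (nat_lit 4) (nat_lit 353) (nat_lit 240) (nat_lit 187)) (XT.nd (nat_lit 78) (nat_lit 0) (nat_lit 0) (XT.lf (nat_lit 0) (nat_lit 4986964169) (nat_lit 76) (nat_lit 7807904810) (nat_lit 152) (nat_lit 11593032192) (nat_lit 16) (nat_lit 5) (nat_lit 17) (nat_lit 5) (nat_lit 18) (nat_lit 4) (nat_lit 354) (nat_lit 240) (nat_lit 186)) (XT.lf (nat_lit 0) (nat_lit 11945416792) (nat_lit 76)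 (nat_lit 4353800285) (nat_lit 152) (nat_lit 8701322898) (nat_lit 16) (nat_lit 5) (nat_lit 17) (nat_lit 5) (nat_lit 18) (nat_lit 4) (nat_lit 355) (nat_lit 240) (nat_lit 185))))))))
noncomputable def xc58 : XT := (XT.nd (nat_lit 1794) (nat_lit 228) (nat_lit 0) (XT.nd (nat_lit 858) (nat_lit 228) (nat_lit 0) (XT.nd (nat_lit 390) (nat_lit 152) (nat_lit 0) (XT.nd (nat_lit 156) (nat_lit 76) (nat_lit 0) (XT.nd (nat_lit 78) (nat_lit 152) (nat_lit 0) (XT.lf (nat_lit 0) (nat_lit 19056082636) (nat_lit 76) (nat_lit 820235132) (nat_lit 152) (nat_lit 5756231330) (nat_lit 16) (nat_lit 5) (nat_lit 17) (nat_lit 5) (nat_lit 18) (nat_lit 4) (nat_lit 356) (nat_lit 240) (nat_lit 184)) (XT.lf (nat_lit 0) (nat_lit 14093444) (nat_lit 152) (nat_lit 23542214397) (nat_lit 152) (nat_lit 2727362606) (nat_lit 14) (nat_lit 4) (nat_lit 16) (nat_lit 5) (nat_lit 16) (nat_lit 4) (nat_lit 357) (nat_lit 240) (nat_lit 183))) (XT.nd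 (nat_lit 78) (nat_lit 0) (nat_lit 0) (XT.lf (nat_lit 0) (nat_lit 428308091) (nat_lit 228) (nat_lit 20083434165) (nat_lit 76) (nat_lit 6441180392) (nat_lit 13) (nat_lit 5) (nat_lit 16) (nat_lit 5) (nat_lit 14) (nat_lit 4) (nat_lit 358) (nat_lit 240) (nat_lit 182)) (XT.nd (nat_lit 78) (nat_lit 0) (nat_lit 0) (XT.lf (nat_lit 0) (nat_lit 3593156311) (nat_lit 228) (nat_lit 13792819267) (nat_lit 76) (nat_lit 10256404597) (nat_lit 13) (nat_lit 5) (nat_lit 16) (nat_lit 5) (nat_lit 14) (nat_lit 4) (nat_lit 359) (nat_lit 240) (nat_lit 181)) (XT.lf (nat_lit 0) (nat_lit 6823168124) (nat_lit 228) (nat_lit 7366018579) (nat_lit 76) (nat_lit 14164245280) (nat_lit 13) (nat_lit 5) (nat_lit 16) (nat_lit 5) (nat_lit 14) (nat_lit 4) (nat_lit 360) (nat_lit 240) (nat_lit 180))))) (XT.nd (nat_lit 234) (nat_lit 76) (nat_lit 0) (XT.nd (nat_lit 78) (nat_lit 76) (nat_lit 0) (XT.lf (nat_lit 0) (nat_lit 10121165870) (nat_lit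 228) (nat_lit 797416448) (nat_lit 76) (nat_lit 18168117058) (nat_lit 13) (nat_lit 5) (nat_lit 16) (nat_lit 5) (nat_lit 14) (nat_lit 4) (nat_lit 361) (nat_lit 240) (nat_lit 179)) (XT.nd (nat_lit 78) (nat_lit 0) (nat_lit 0) (XT.lf (nat_lit 0) (nat_lit 6036520946) (nat_lit 76) (nat_lit 7511537079) (nat_lit 152) (nat_lit 16293024247) (nat_lit 12) (nat_lit 5) (nat_lit 13) (nat_lit 5) (nat_lit 14) (nat_lit 4) (nat_lit 362) (nat_lit 240) (nat_lit 178)) (XT.lf (nat_lit 0) (nat_lit 13042791113) (nat_lit 76) (nat_lit 4015292238) (nat_lit 152) (nat_lit 13560619158) (nat_lit 12) (nat_lit 5) (nat_lit 13) (nat_lit 5) (nat_lit 14) (nat_lit 4) (nat_lit 363) (nat_lit 240) (nat_lit 177)))) (XT.nd (nat_lit 78) (nat_lit 76) (nat_lit 0) (XT.lf (nat_lit 0) (nat_lit 20211645886) (nat_lit 76) (nat_lit 434845166) (nat_lit 152) (nat_lit 10773983044) (nat_lit 12) (nat_lit 5) (nat_lit 13) (nat_lit 5) (nat_lit 14) (nat_lit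 4) (nat_lit 364) (nat_lit 240) (nat_lit 176)) (XT.nd (nat_lit 78) (nat_lit 76) (nat_lit 0) (XT.lf (nat_lit 0) (nat_lit 24347493555) (nat_lit 152) (nat_lit 4728825225) (nat_lit 0) (nat_lit 3169846521) (nat_lit 12) (nat_lit 5) (nat_lit 14) (nat_lit 4) (nat_lit 12) (nat_lit 4) (nat_lit 365) (nat_lit 240) (nat_lit 175)) (XT.lf (nat_lit 0) (nat_lit 1933543904) (nat_lit 76) (nat_lit 26223313449) (nat_lit 76) (nat_lit 4939864271) (nat_lit 11) (nat_lit 4) (nat_lit 12) (nat_lit 5) (nat_lit 12) (nat_lit 4) (nat_lit 366) (nat_lit 240) (nat_lit 174)))))) (XT.nd (nat_lit 468) (nat_lit 76) (nat_lit 0) (XT.nd (nat_lit 234) (nat_lit 76) (nat_lit 0) (XT.nd (nat_lit 78) (nat_lit 76) (nat_lit 0) (XT.lf (nat_lit 0) (nat_lit 8847707111) (nat_lit 76) (nat_lit 23255298020) (nat_lit 76) (nat_lit 1869128315) (nat_lit 11) (nat_lit 4) (nat_lit 12) (nat_lit 5) (nat_lit 12) (nat_lit 4) (nat_lit 367) (nat_lit 240) (nat_lit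 173)) (XT.nd (nat_lit 78) (nat_lit 0) (nat_lit 0) (XT.lf (nat_lit 0) (nat_lit 1243715058) (nat_lit 152) (nat_lit 18961156804) (nat_lit 76) (nat_lit 14669318861) (nat_lit 10) (nat_lit 5) (nat_lit 12) (nat_lit 5) (nat_lit 11) (nat_lit 4) (nat_lit 368) (nat_lit 240) (nat_lit 172)) (XT.lf (nat_lit 0) (nat_lit 4388328207) (nat_lit 152) (nat_lit 12674416061) (nat_lit 76) (nat_lit 18740744422) (nat_lit 10) (nat_lit 5) (nat_lit 12) (nat_lit 5) (nat_lit 11) (nat_lit 4) (nat_lit 369) (nat_lit 240) (nat_lit 171)))) (XT.nd (nat_lit 78) (nat_lit 76) (nat_lit 0) (XT.lf (nat_lit 0) (nat_lit 7603932277) (nat_lit 152) (nat_lit 6240743634) (nat_lit 76) (nat_lit 22916702461) (nat_lit 10) (nat_lit 5) (nat_lit 12) (nat_lit 5) (nat_lit 11) (nat_lit 4) (nat_lit 370) (nat_lit 240) (nat_lit 170)) (XT.nd (nat_lit 78) (nat_lit 0) (nat_lit 0) (XT.lf (nat_lit 0) (nat_lit 352357905) (nat_lit 76) (nat_lit 10544366193) (nat_lit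 152) (nat_lit 26851871049) (nat_lit 9) (nat_lit 5) (nat_lit 10) (nat_lit 5) (nat_lit 11) (nat_lit 4) (nat_lit 371) (nat_lit 240) (nat_lit 169)) (XT.lf (nat_lit 0) (nat_lit 7231121420) (nat_lit 76) (nat_lit 7097805212) (nat_lit 152) (nat_lit 24435294626) (nat_lit 9) (nat_lit 5) (nat_lit 10) (nat_lit 5) (nat_lit 11) (nat_lit 4) (nat_lit 372) (nat_lit 240) (nat_lit 168))))) (XT.nd (nat_lit 234) (nat_lit 76) (nat_lit 0) (XT.nd (nat_lit 78) (nat_lit 0) (nat_lit 0) (XT.lf (nat_lit 0) (nat_lit 14277354445) (nat_lit 76) (nat_lit 3565000685) (nat_lit 152) (nat_lit 21968624530) (nat_lit 9) (nat_lit 5) (nat_lit 10) (nat_lit 5) (nat_lit 11) (nat_lit 4) (nat_lit 373) (nat_lit 240) (nat_lit 167)) (XT.nd (nat_lit 78) (nat_lit 0) (nat_lit 0) (XT.lf (nat_lit 0) (nat_lit 21440628787) (nat_lit 152) (nat_lit 19393120322) (nat_lit 0) (nat_lit 56019409) (nat_lit 9) (nat_lit 5) (nat_lit 11) (nat_lit 4) (nat_lit 9) (nat_lit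 4) (nat_lit 374) (nat_lit 240) (nat_lit 166)) (XT.lf (nat_lit 0) (nat_lit 25161500127) (nat_lit 152) (nat_lit 13140828069) (nat_lit 0) (nat_lit 3698164017) (nat_lit 9) (nat_lit 5) (nat_lit 11) (nat_lit 4) (nat_lit 9) (nat_lit 4) (nat_lit 375) (nat_lit 240) (nat_lit 165)))) (XT.nd (nat_lit 78) (nat_lit 76) (nat_lit 0) (XT.lf (nat_lit 0) (nat_lit 28973951428) (nat_lit 152) (nat_lit 6737016322) (nat_lit 0) (nat_lit 7434181599) (nat_lit 9) (nat_lit 5) (nat_lit 11) (nat_lit 4) (nat_lit 9) (nat_lit 4) (nat_lit 376) (nat_lit 240) (nat_lit 164)) (XT.nd (nat_lit 78) (nat_lit 76) (nat_lit 0) (XT.lf (nat_lit 0) (nat_lit 32881313958) (nat_lit 152) (nat_lit 176089516) (nat_lit 0) (nat_lit 11267336634) (nat_lit 9) (nat_lit 5) (nat_lit 11) (nat_lit 4) (nat_lit 9) (nat_lit 4) (nat_lit 377) (nat_lit 240) (nat_lit 163)) (XT.lf (nat_lit 0) (nat_lit 6677996970) (nat_lit 76) (nat_lit 30273197941) (nat_lit 76) (nat_lit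 8587174505) (nat_lit 8) (nat_lit 4) (nat_lit 9) (nat_lit 5) (nat_lit 9) (nat_lit 4) (nat_lit 378) (nat_lit 240) (nat_lit 162))))))) (XT.nd (nat_lit 936) (nat_lit 76) (nat_lit 0) (XT.nd (nat_lit 468) (nat_lit 76) (nat_lit 0) (XT.nd (nat_lit 234) (nat_lit 0) (nat_lit 0) (XT.nd (nat_lit 78) (nat_lit 76) (nat_lit 0) (XT.lf (nat_lit 0) (nat_lit 13707668953) (nat_lit 76) (nat_lit 27418612972) (nat_lit 76) (nat_lit 5662641855) (nat_lit 8) (nat_lit 4) (nat_lit 9) (nat_lit 5) (nat_lit 9) (nat_lit 4) (nat_lit 379) (nat_lit 240) (nat_lit 161)) (XT.nd (nat_lit 78) (nat_lit 76) (nat_lit 0) (XT.lf (nat_lit 0) (nat_lit 20915564337) (nat_lit 76) (nat_lit 24492932429) (nat_lit 76) (nat_lit 2669050943) (nat_lit 8) (nat_lit 4) (nat_lit 9) (nat_lit 5) (nat_lit 9) (nat_lit 4) (nat_lit 380) (nat_lit 240) (nat_lit 160)) (XT.lf (nat_lit 0) (nat_lit 388482429) (nat_lit 152) (nat_lit 21101194553) (nat_lit 76) (nat_lit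 27915575944) (nat_lit 7) (nat_lit 5) (nat_lit 9) (nat_lit 5) (nat_lit 8) (nat_lit 4) (nat_lit 381) (nat_lit 240) (nat_lit 159)))) (XT.nd (nat_lit 78) (nat_lit 0) (nat_lit 0) (XT.lf (nat_lit 0) (nat_lit 3466834529) (nat_lit 152) (nat_lit 14916151827) (nat_lit 76) (nat_lit 32389536426) (nat_lit 7) (nat_lit 5) (nat_lit 9) (nat_lit 5) (nat_lit 8) (nat_lit 4) (nat_lit 382) (nat_lit 240) (nat_lit 158)) (XT.nd (nat_lit 78) (nat_lit 0) (nat_lit 0) (XT.lf (nat_lit 0) (nat_lit 6620777976) (nat_lit 152) (nat_lit 8575794237) (nat_lit 76) (nat_lit 36984749462) (nat_lit 7) (nat_lit 5) (nat_lit 9) (nat_lit 5) (nat_lit 8) (nat_lit 4) (nat_lit 383) (nat_lit 240) (nat_lit 157)) (XT.lf (nat_lit 0) (nat_lit 9853068644) (nat_lit 152) (nat_lit 2074581665) (nat_lit 76) (nat_lit 41705230286) (nat_lit 7) (nat_lit 5) (nat_lit 9) (nat_lit 5) (nat_lit 8) (nat_lit 4) (nat_lit 384) (nat_lit 240) (nat_lit 156))))) (XT.nd (nat_lit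 234) (nat_lit 0) (nat_lit 0) (XT.nd (nat_lit 78) (nat_lit 0) (nat_lit 0) (XT.lf (nat_lit 0) (nat_lit 4684579579) (nat_lit 76) (nat_lit 8526982329) (nat_lit 152) (nat_lit 41915555057) (nat_lit 6) (nat_lit 5) (nat_lit 7) (nat_lit 5) (nat_lit 8) (nat_lit 4) (nat_lit 385) (nat_lit 240) (nat_lit 155)) (XT.nd (nat_lit 78) (nat_lit 0) (nat_lit 0) (XT.lf (nat_lit 0) (nat_lit 11660821247) (nat_lit 76) (nat_lit 5015329594) (nat_lit 152) (nat_lit 39989876831) (nat_lit 6) (nat_lit 5) (nat_lit 7) (nat_lit 5) (nat_lit 8) (nat_lit 4) (nat_lit 386) (nat_lit 240) (nat_lit 154)) (XT.lf (nat_lit 0) (nat_lit 18818950839) (nat_lit 76) (nat_lit 1410572877) (nat_lit 152) (nat_lit 38022043850) (nat_lit 6) (nat_lit 5) (nat_lit 7) (nat_lit 5) (nat_lit 8) (nat_lit 4) (nat_lit 387) (nat_lit 240) (nat_lit 153)))) (XT.nd (nat_lit 78) (nat_lit 0) (nat_lit 0) (XT.lf (nat_lit 0) (nat_lit 23896802512) (nat_lit 152) (nat_lit 33741916128)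 (nat_lit 0) (nat_lit 2245742920) (nat_lit 6) (nat_lit 5) (nat_lit 8) (nat_lit 4) (nat_lit 6) (nat_lit 4) (nat_lit 388) (nat_lit 240) (nat_lit 152)) (XT.nd (nat_lit 78) (nat_lit 0) (nat_lit 0) (XT.lf (nat_lit 0) (nat_lit 27673670945) (nat_lit 152) (nat_lit 27920611469) (nat_lit 0) (nat_lit 5972079659) (nat_lit 6) (nat_lit 5) (nat_lit 8) (nat_lit 4) (nat_lit 6) (nat_lit 4) (nat_lit 389) (nat_lit 240) (nat_lit 151)) (XT.lf (nat_lit 0) (nat_lit 31549869902) (nat_lit 152) (nat_lit 21950056885) (nat_lit 0) (nat_lit 9799218721) (nat_lit 6) (nat_lit 5) (nat_lit 8) (nat_lit 4) (nat_lit 6) (nat_lit 4) (nat_lit 390) (nat_lit 240) (nat_lit 150)))))) (XT.nd (nat_lit 468) (nat_lit 0) (nat_lit 0) (XT.nd (nat_lit 234) (nat_lit 76) (nat_lit 0) (XT.nd (nat_lit 78) (nat_lit 0) (nat_lit 0) (XT.lf (nat_lit 0) (nat_lit 35528786354) (nat_lit 152) (nat_lit 15825035386) (nat_lit 0) (nat_lit 13730504205) (nat_lit 6) (nat_lit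 5) (nat_lit 8) (nat_lit 4) (nat_lit 6) (nat_lit 4) (nat_lit 391) (nat_lit 240) (nat_lit 149)) (XT.nd (nat_lit 78) (nat_lit 0) (nat_lit 0) (XT.lf (nat_lit 0) (nat_lit 39613897024) (nat_lit 152) (nat_lit 9540195012) (nat_lit 0) (nat_lit 17769371217) (nat_lit 6) (nat_lit 5) (nat_lit 8) (nat_lit 4) (nat_lit 6) (nat_lit 4) (nat_lit 392) (nat_lit 240) (nat_lit 148)) (XT.lf (nat_lit 0) (nat_lit 43808771425) (nat_lit 152) (nat_lit 3090044155) (nat_lit 0) (nat_lit 21919348864) (nat_lit 6) (nat_lit 5) (nat_lit 8) (nat_lit 4) (nat_lit 6) (nat_lit 4) (nat_lit 393) (nat_lit 240) (nat_lit 147)))) (XT.nd (nat_lit 78) (nat_lit 0) (nat_lit 0) (XT.lf (nat_lit 0) (nat_lit 3601328122) (nat_lit 76) (nat_lit 44550365028) (nat_lit 76) (nat_lit 22617353385) (nat_lit 5) (nat_lit 4) (nat_lit 6) (nat_lit 5) (nat_lit 6) (nat_lit 4) (nat_lit 394) (nat_lit 240) (nat_lit 146)) (XT.nd (nat_lit 78) (nat_lit 0) (nat_lit 0) (XT.lf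 (nat_lit 0) (nat_lit 10534447613) (nat_lit 76) (nat_lit 42109388174) (nat_lit 76) (nat_lit 20134057033) (nat_lit 5) (nat_lit 4) (nat_lit 6) (nat_lit 5) (nat_lit 6) (nat_lit 4) (nat_lit 395) (nat_lit 240) (nat_lit 145)) (XT.lf (nat_lit 0) (nat_lit 17653874444) (nat_lit 76) (nat_lit 39604955512) (nat_lit 76) (nat_lit 17588537480) (nat_lit 5) (nat_lit 4) (nat_lit 6) (nat_lit 5) (nat_lit 6) (nat_lit 4) (nat_lit 396) (nat_lit 240) (nat_lit 144))))) (XT.nd (nat_lit 234) (nat_lit 0) (nat_lit 0) (XT.nd (nat_lit 78) (nat_lit 0) (nat_lit 0) (XT.lf (nat_lit 0) (nat_lit 24965829475) (nat_lit 76) (nat_lit 37034878702) (nat_lit 76) (nat_lit 14978570485) (nat_lit 5) (nat_lit 4) (nat_lit 6) (nat_lit 5) (nat_lit 6) (nat_lit 4) (nat_lit 397) (nat_lit 240) (nat_lit 143)) (XT.nd (nat_lit 78) (nat_lit 0) (nat_lit 0) (XT.lf (nat_lit 0) (nat_lit 32476701791) (nat_lit 76) (nat_lit 34396912047) (nat_lit 76) (nat_lit 12301875495)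 (nat_lit 5) (nat_lit 4) (nat_lit 6) (nat_lit 5) (nat_lit 6) (nat_lit 4) (nat_lit 398) (nat_lit 240) (nat_lit 142)) (XT.lf (nat_lit 0) (nat_lit 40193054291) (nat_lit 76) (nat_lit 31688750527) (nat_lit 76) (nat_lit 9556113650) (nat_lit 5) (nat_lit 4) (nat_lit 6) (nat_lit 5) (nat_lit 6) (nat_lit 4) (nat_lit 399) (nat_lit 240) (nat_lit 141)))) (XT.nd (nat_lit 78) (nat_lit 0) (nat_lit 0) (XT.lf (nat_lit 0) (nat_lit 48121629420) (nat_lit 76) (nat_lit 28908027788) (nat_lit 76) (nat_lit 6738885741) (nat_lit 5) (nat_lit 4) (nat_lit 6) (nat_lit 5) (nat_lit 6) (nat_lit 4) (nat_lit 400) (nat_lit 240) (nat_lit 140)) (XT.nd (nat_lit 78) (nat_lit 0) (nat_lit 0) (XT.lf (nat_lit 0) (nat_lit 56269355057) (nat_lit 76) (nat_lit 26052314071) (nat_lit 76) (nat_lit 3847730111) (nat_lit 5) (nat_lit 4) (nat_lit 6) (nat_lit 5) (nat_lit 6) (nat_lit 4) (nat_lit 401) (nat_lit 240) (nat_lit 139)) (XT.lf (nat_lit 0) (nat_lit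 64643350576) (nat_lit 76) (nat_lit 23119114094) (nat_lit 76) (nat_lit 880120510) (nat_lit 5) (nat_lit 4) (nat_lit 6) (nat_lit 5) (nat_lit 6) (nat_lit 4) (nat_lit 402) (nat_lit 240) (nat_lit 138))))))))
noncomputable def xc59 : XT := (XT.nd (nat_lit 34242) (nat_lit 0) (nat_lit 1444) (XT.nd (nat_lit 33306) (nat_lit 0) (nat_lit 3496) (XT.nd (nat_lit 32838) (nat_lit 0) (nat_lit 5548) (XT.nd (nat_lit 32604) (nat_lit 0) (nat_lit 7068) (XT.nd (nat_lit 32448) (nat_lit 0) (nat_lit 7904) (XT.lf (nat_lit 0) (nat_lit 2124259197) (nat_lit 152) (nat_lit 17960154814) (nat_lit 76) (nat_lit 71105223009) (nat_lit 4) (nat_lit 5) (nat_lit 6) (nat_lit 5) (nat_lit 5) (nat_lit 4) (nat_lit 403) (nat_lit 240) (nat_lit 137)) (XT.nd (nat_lit 78) (nat_lit 456) (nat_lit 0) (XT.lf (nat_lit 0) (nat_lit 1233460302) (nat_lit 456) (nat_lit 1640126896) (nat_lit 0) (nat_lit 1233460302) (nat_lit 114) (nat_lit 5) (nat_lit 120) (nat_lit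 4) (nat_lit 114) (nat_lit 4) (nat_lit 298) (nat_lit 241) (nat_lit 241)) (XT.lf (nat_lit 0) (nat_lit 2297231751) (nat_lit 456) (nat_lit 3589400901) (nat_lit 456) (nat_lit 2429796998) (nat_lit 108) (nat_lit 4) (nat_lit 114) (nat_lit 5) (nat_lit 114) (nat_lit 4) (nat_lit 299) (nat_lit 241) (nat_lit 240)))) (XT.nd (nat_lit 78) (nat_lit 760) (nat_lit 0) (XT.lf (nat_lit 0) (nat_lit 911902510) (nat_lit 532) (nat_lit 434270838) (nat_lit 76) (nat_lit 7077202377) (nat_lit 107) (nat_lit 5) (nat_lit 114) (nat_lit 5) (nat_lit 108) (nat_lit 4) (nat_lit 300) (nat_lit 241) (nat_lit 239)) (XT.nd (nat_lit 78) (nat_lit 380) (nat_lit 0) (XT.lf (nat_lit 0) (nat_lit 4278851456) (nat_lit 456) (nat_lit 3256102880) (nat_lit 0) (nat_lit 998782690) (nat_lit 102) (nat_lit 5) (nat_lit 108) (nat_lit 4) (nat_lit 102) (nat_lit 4) (nat_lit 301) (nat_lit 241) (nat_lit 238)) (XT.lf (nat_lit 0) (nat_lit 2445866852) (nat_lit 380)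 (nat_lit 5256685626) (nat_lit 380) (nat_lit 946323813) (nat_lit 97) (nat_lit 4) (nat_lit 102) (nat_lit 5) (nat_lit 102) (nat_lit 4) (nat_lit 302) (nat_lit 241) (nat_lit 237))))) (XT.nd (nat_lit 234) (nat_lit 684) (nat_lit 0) (XT.nd (nat_lit 78) (nat_lit 760) (nat_lit 0) (XT.lf (nat_lit 0) (nat_lit 2361612330) (nat_lit 456) (nat_lit 516573295) (nat_lit 76) (nat_lit 5890261192) (nat_lit 96) (nat_lit 5) (nat_lit 102) (nat_lit 5) (nat_lit 97) (nat_lit 4) (nat_lit 303) (nat_lit 241) (nat_lit 236)) (XT.nd (nat_lit 78) (nat_lit 456) (nat_lit 0) (XT.lf (nat_lit 0) (nat_lit 5326535386) (nat_lit 304) (nat_lit 391854625) (nat_lit 380) (nat_lit 3174002253) (nat_lit 92) (nat_lit 5) (nat_lit 96) (nat_lit 5) (nat_lit 97) (nat_lit 4) (nat_lit 304) (nat_lit 241) (nat_lit 235)) (XT.lf (nat_lit 0) (nat_lit 118597242) (nat_lit 456) (nat_lit 6773481022) (nat_lit 76) (nat_lit 2129078469) (nat_lit 86) (nat_lit 5) (nat_lit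 92) (nat_lit 5) (nat_lit 87) (nat_lit 4) (nat_lit 305) (nat_lit 241) (nat_lit 234)))) (XT.nd (nat_lit 78) (nat_lit 684) (nat_lit 0) (XT.lf (nat_lit 0) (nat_lit 3405383800) (nat_lit 456) (nat_lit 990044143) (nat_lit 76) (nat_lit 4758754092) (nat_lit 86) (nat_lit 5) (nat_lit 92) (nat_lit 5) (nat_lit 87) (nat_lit 4) (nat_lit 306) (nat_lit 241) (nat_lit 233)) (XT.nd (nat_lit 78) (nat_lit 380) (nat_lit 0) (XT.lf (nat_lit 0) (nat_lit 4956439983) (nat_lit 304) (nat_lit 1803297676) (nat_lit 380) (nat_lit 2532504897) (nat_lit 82) (nat_lit 5) (nat_lit 86) (nat_lit 5) (nat_lit 87) (nat_lit 4) (nat_lit 307) (nat_lit 241) (nat_lit 232)) (XT.lf (nat_lit 0) (nat_lit 720452288) (nat_lit 380) (nat_lit 7861316802) (nat_lit 76) (nat_lit 853895619) (nat_lit 77) (nat_lit 5) (nat_lit 82) (nat_lit 5) (nat_lit 78) (nat_lit 4) (nat_lit 308) (nat_lit 241) (nat_lit 231)))))) (XT.nd (nat_lit 468) (nat_lit 1064) (nat_lit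 0) (XT.nd (nat_lit 234) (nat_lit 304) (nat_lit 0) (XT.nd (nat_lit 78) (nat_lit 684) (nat_lit 0) (XT.lf (nat_lit 0) (nat_lit 4004853575) (nat_lit 380) (nat_lit 1983616023) (nat_lit 76) (nat_lit 3594728766) (nat_lit 77) (nat_lit 5) (nat_lit 82) (nat_lit 5) (nat_lit 78) (nat_lit 4) (nat_lit 309) (nat_lit 241) (nat_lit 230)) (XT.nd (nat_lit 78) (nat_lit 380) (nat_lit 0) (XT.lf (nat_lit 0) (nat_lit 4043631932) (nat_lit 304) (nat_lit 3307961910) (nat_lit 380) (nat_lit 2384750706) (nat_lit 73) (nat_lit 5) (nat_lit 77) (nat_lit 5) (nat_lit 78) (nat_lit 4) (nat_lit 310) (nat_lit 241) (nat_lit 229)) (XT.lf (nat_lit 0) (nat_lit 289392701) (nat_lit 304) (nat_lit 545906256) (nat_lit 380) (nat_lit 9060171204) (nat_lit 68) (nat_lit 5) (nat_lit 72) (nat_lit 5) (nat_lit 73) (nat_lit 5) (nat_lit 311) (nat_lit 241) (nat_lit 228)))) (XT.nd (nat_lit 78) (nat_lit 304) (nat_lit 0) (XT.lf (nat_lit 0) (nat_lit 4110323473)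 (nat_lit 380) (nat_lit 3643456942) (nat_lit 76) (nat_lit 2304783831) (nat_lit 68) (nat_lit 5) (nat_lit 73) (nat_lit 5) (nat_lit 69) (nat_lit 4) (nat_lit 312) (nat_lit 241) (nat_lit 227)) (XT.nd (nat_lit 78) (nat_lit 76) (nat_lit 0) (XT.lf (nat_lit 0) (nat_lit 2436108301) (nat_lit 228) (nat_lit 5004614346) (nat_lit 304) (nat_lit 2787204287) (nat_lit 65) (nat_lit 5) (nat_lit 68) (nat_lit 5) (nat_lit 69) (nat_lit 4) (nat_lit 313) (nat_lit 241) (nat_lit 226)) (XT.lf (nat_lit 0) (nat_lit 425289131) (nat_lit 304) (nat_lit 1737939232) (nat_lit 76) (nat_lit 8240118212) (nat_lit 64) (nat_lit 5) (nat_lit 68) (nat_lit 5) (nat_lit 65) (nat_lit 5) (nat_lit 314) (nat_lit 241) (nat_lit 225))))) (XT.nd (nat_lit 234) (nat_lit 532) (nat_lit 0) (XT.nd (nat_lit 78) (nat_lit 228) (nat_lit 0) (XT.lf (nat_lit 0) (nat_lit 3659385566) (nat_lit 380) (nat_lit 6136407630) (nat_lit 76) (nat_lit 788052180) (nat_lit 60) (nat_lit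 5) (nat_lit 65) (nat_lit 5) (nat_lit 61) (nat_lit 4) (nat_lit 315) (nat_lit 241) (nat_lit 224)) (XT.nd (nat_lit 78) (nat_lit 228) (nat_lit 0) (XT.lf (nat_lit 0) (nat_lit 6961083175) (nat_lit 380) (nat_lit 39150064) (nat_lit 76) (nat_lit 3770488070) (nat_lit 60) (nat_lit 5) (nat_lit 65) (nat_lit 5) (nat_lit 61) (nat_lit 4) (nat_lit 316) (nat_lit 241) (nat_lit 223)) (XT.lf (nat_lit 0) (nat_lit 6263909440) (nat_lit 228) (nat_lit 4091568431) (nat_lit 304) (nat_lit 607993466) (nat_lit 57) (nat_lit 5) (nat_lit 60) (nat_lit 5) (nat_lit 61) (nat_lit 4) (nat_lit 317) (nat_lit 241) (nat_lit 222)))) (XT.nd (nat_lit 78) (nat_lit 228) (nat_lit 0) (XT.lf (nat_lit 0) (nat_lit 1498487777) (nat_lit 228) (nat_lit 1087234757) (nat_lit 304) (nat_lit 8577123218) (nat_lit 53) (nat_lit 5) (nat_lit 56) (nat_lit 5) (nat_lit 57) (nat_lit 5) (nat_lit 318) (nat_lit 241) (nat_lit 221)) (XT.nd (nat_lit 78) (nat_lit 228) (nat_lit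 0) (XT.lf (nat_lit 0) (nat_lit 5864614574) (nat_lit 304) (nat_lit 3514242318) (nat_lit 76) (nat_lit 1989187025) (nat_lit 53) (nat_lit 5) (nat_lit 57) (nat_lit 5) (nat_lit 54) (nat_lit 4) (nat_lit 319) (nat_lit 241) (nat_lit 220)) (XT.lf (nat_lit 0) (nat_lit 2766018500) (nat_lit 228) (nat_lit 6449483663) (nat_lit 304) (nat_lit 2364755593) (nat_lit 50) (nat_lit 5) (nat_lit 53) (nat_lit 5) (nat_lit 54) (nat_lit 4) (nat_lit 320) (nat_lit 241) (nat_lit 219))))))) (XT.nd (nat_lit 936) (nat_lit 760) (nat_lit 0) (XT.nd (nat_lit 468) (nat_lit 532) (nat_lit 0) (XT.nd (nat_lit 234) (nat_lit 456) (nat_lit 0) (XT.nd (nat_lit 78) (nat_lit 228) (nat_lit 0) (XT.lf (nat_lit 0) (nat_lit 823493082) (nat_lit 304) (nat_lit 2597683745) (nat_lit 76) (nat_lit 8378304879) (nat_lit 49) (nat_lit 5) (nat_lit 53) (nat_lit 5) (nat_lit 50) (nat_lit 5) (nat_lit 321) (nat_lit 241) (nat_lit 218)) (XT.nd (nat_lit 78) (nat_lit 0)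 (nat_lit 0) (XT.lf (nat_lit 0) (nat_lit 3760243373) (nat_lit 228) (nat_lit 274127152) (nat_lit 304) (nat_lit 7991036903) (nat_lit 46) (nat_lit 5) (nat_lit 49) (nat_lit 5) (nat_lit 50) (nat_lit 5) (nat_lit 322) (nat_lit 241) (nat_lit 217)) (XT.lf (nat_lit 0) (nat_lit 7335523109) (nat_lit 304) (nat_lit 2019666681) (nat_lit 76) (nat_lit 2903163611) (nat_lit 46) (nat_lit 5) (nat_lit 50) (nat_lit 5) (nat_lit 47) (nat_lit 4) (nat_lit 323) (nat_lit 241) (nat_lit 216)))) (XT.nd (nat_lit 78) (nat_lit 304) (nat_lit 0) (XT.lf (nat_lit 0) (nat_lit 4403479688) (nat_lit 152) (nat_lit 6317986037) (nat_lit 228) (nat_lit 1777308532) (nat_lit 44) (nat_lit 5) (nat_lit 46) (nat_lit 5) (nat_lit 47) (nat_lit 4) (nat_lit 324) (nat_lit 241) (nat_lit 215)) (XT.nd (nat_lit 78) (nat_lit 228) (nat_lit 0) (XT.lf (nat_lit 0) (nat_lit 1395554979) (nat_lit 228) (nat_lit 1792585451) (nat_lit 76) (nat_lit 9559055815) (nat_lit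 43) (nat_lit 5) (nat_lit 46) (nat_lit 5) (nat_lit 44) (nat_lit 5) (nat_lit 325) (nat_lit 241) (nat_lit 214)) (XT.lf (nat_lit 0) (nat_lit 4616176446) (nat_lit 304) (nat_lit 8321165634) (nat_lit 76) (nat_lit 65606220) (nat_lit 40) (nat_lit 5) (nat_lit 44) (nat_lit 5) (nat_lit 41) (nat_lit 4) (nat_lit 326) (nat_lit 241) (nat_lit 213))))) (XT.nd (nat_lit 234) (nat_lit 304) (nat_lit 0) (XT.nd (nat_lit 78) (nat_lit 228) (nat_lit 0) (XT.lf (nat_lit 0) (nat_lit 7926394384) (nat_lit 304) (nat_lit 2001524167) (nat_lit 76) (nat_lit 3338717601) (nat_lit 40) (nat_lit 5) (nat_lit 44) (nat_lit 5) (nat_lit 41) (nat_lit 4) (nat_lit 327) (nat_lit 241) (nat_lit 212)) (XT.nd (nat_lit 78) (nat_lit 76) (nat_lit 0) (XT.lf (nat_lit 0) (nat_lit 4507234259) (nat_lit 152) (nat_lit 6816798522) (nat_lit 228) (nat_lit 2214609479) (nat_lit 38) (nat_lit 5) (nat_lit 40) (nat_lit 5) (nat_lit 41) (nat_lit 4) (nat_lit 328) (nat_lit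 241) (nat_lit 211)) (XT.lf (nat_lit 0) (nat_lit 950562698) (nat_lit 228) (nat_lit 2664477408) (nat_lit 76) (nat_lit 10204565454) (nat_lit 37) (nat_lit 5) (nat_lit 40) (nat_lit 5) (nat_lit 38) (nat_lit 5) (nat_lit 329) (nat_lit 241) (nat_lit 210)))) (XT.nd (nat_lit 78) (nat_lit 152) (nat_lit 0) (XT.lf (nat_lit 0) (nat_lit 3860753883) (nat_lit 152) (nat_lit 289105993) (nat_lit 228) (nat_lit 9959016348) (nat_lit 35) (nat_lit 5) (nat_lit 37) (nat_lit 5) (nat_lit 38) (nat_lit 5) (nat_lit 330) (nat_lit 241) (nat_lit 209)) (XT.nd (nat_lit 78) (nat_lit 152) (nat_lit 0) (XT.lf (nat_lit 0) (nat_lit 7449452064) (nat_lit 228) (nat_lit 3886660227) (nat_lit 76) (nat_lit 3070628579) (nat_lit 35) (nat_lit 5) (nat_lit 38) (nat_lit 5) (nat_lit 36) (nat_lit 4) (nat_lit 331) (nat_lit 241) (nat_lit 208)) (XT.lf (nat_lit 0) (nat_lit 2630040492) (nat_lit 152) (nat_lit 8194672145) (nat_lit 228) (nat_lit 3889572428) (nat_lit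 33) (nat_lit 5) (nat_lit 35) (nat_lit 5) (nat_lit 36) (nat_lit 4) (nat_lit 332) (nat_lit 241) (nat_lit 207)))))) (XT.nd (nat_lit 468) (nat_lit 380) (nat_lit 0) (XT.nd (nat_lit 234) (nat_lit 152) (nat_lit 0) (XT.nd (nat_lit 78) (nat_lit 228) (nat_lit 0) (XT.lf (nat_lit 0) (nat_lit 9338674735) (nat_lit 152) (nat_lit 4951039343) (nat_lit 228) (nat_lit 741729760) (nat_lit 33) (nat_lit 5) (nat_lit 35) (nat_lit 5) (nat_lit 36) (nat_lit 4) (nat_lit 333) (nat_lit 241) (nat_lit 206)) (XT.nd (nat_lit 78) (nat_lit 0) (nat_lit 0) (XT.lf (nat_lit 0) (nat_lit 800180789) (nat_lit 152) (nat_lit 1609449838) (nat_lit 228) (nat_lit 12949069620) (nat_lit 30) (nat_lit 5) (nat_lit 32) (nat_lit 5) (nat_lit 33) (nat_lit 5) (nat_lit 334) (nat_lit 241) (nat_lit 205)) (XT.lf (nat_lit 0) (nat_lit 5666843303) (nat_lit 228) (nat_lit 8197213227) (nat_lit 76) (nat_lit 1830750034) (nat_lit 30) (nat_lit 5) (nat_lit 33) (nat_lit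 5) (nat_lit 31) (nat_lit 4) (nat_lit 335) (nat_lit 241) (nat_lit 204)))) (XT.nd (nat_lit 78) (nat_lit 152) (nat_lit 0) (XT.lf (nat_lit 0) (nat_lit 8989698292) (nat_lit 228) (nat_lit 1740859036) (nat_lit 76) (nat_lit 5311438941) (nat_lit 30) (nat_lit 5) (nat_lit 33) (nat_lit 5) (nat_lit 31) (nat_lit 4) (nat_lit 336) (nat_lit 241) (nat_lit 203)) (XT.nd (nat_lit 78) (nat_lit 0) (nat_lit 0) (XT.lf (nat_lit 0) (nat_lit 4927815024) (nat_lit 152) (nat_lit 7485182191) (nat_lit 228) (nat_lit 3986618574) (nat_lit 28) (nat_lit 5) (nat_lit 30) (nat_lit 5) (nat_lit 31) (nat_lit 4) (nat_lit 337) (nat_lit 241) (nat_lit 202)) (XT.lf (nat_lit 0) (nat_lit 11755465134) (nat_lit 152) (nat_lit 4155117985) (nat_lit 228) (nat_lit 858268933) (nat_lit 28) (nat_lit 5) (nat_lit 30) (nat_lit 5) (nat_lit 31) (nat_lit 4) (nat_lit 338) (nat_lit 241) (nat_lit 201))))) (XT.nd (nat_lit 234) (nat_lit 152) (nat_lit 0) (XT.nd (nat_lit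 78) (nat_lit 0) (nat_lit 0) (XT.lf (nat_lit 0) (nat_lit 1571250620) (nat_lit 152) (nat_lit 716527716) (nat_lit 228) (nat_lit 14861639825) (nat_lit 25) (nat_lit 5) (nat_lit 27) (nat_lit 5) (nat_lit 28) (nat_lit 5) (nat_lit 339) (nat_lit 241) (nat_lit 200)) (XT.nd (nat_lit 78) (nat_lit 0) (nat_lit 0) (XT.lf (nat_lit 0) (nat_lit 5544419006) (nat_lit 228) (nat_lit 9195646923) (nat_lit 76) (nat_lit 2800109280) (nat_lit 25) (nat_lit 5) (nat_lit 28) (nat_lit 5) (nat_lit 26) (nat_lit 4) (nat_lit 340) (nat_lit 241) (nat_lit 199)) (XT.lf (nat_lit 0) (nat_lit 8862336700) (nat_lit 228) (nat_lit 2702341657) (nat_lit 76) (nat_lit 6379101085) (nat_lit 25) (nat_lit 5) (nat_lit 28) (nat_lit 5) (nat_lit 26) (nat_lit 4) (nat_lit 341) (nat_lit 241) (nat_lit 198)))) (XT.nd (nat_lit 78) (nat_lit 76) (nat_lit 0) (XT.lf (nat_lit 0) (nat_lit 3992212160) (nat_lit 76) (nat_lit 8283706292) (nat_lit 152) (nat_lit 6083720434)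 (nat_lit 24) (nat_lit 5) (nat_lit 25) (nat_lit 5) (nat_lit 26) (nat_lit 4) (nat_lit 342) (nat_lit 241) (nat_lit 197)) (XT.nd (nat_lit 78) (nat_lit 76) (nat_lit 0) (XT.lf (nat_lit 0) (nat_lit 10872245422) (nat_lit 76) (nat_lit 4905251966) (nat_lit 152) (nat_lit 3010939012) (nat_lit 24) (nat_lit 5) (nat_lit 25) (nat_lit 5) (nat_lit 26) (nat_lit 4) (nat_lit 343) (nat_lit 241) (nat_lit 196)) (XT.lf (nat_lit 0) (nat_lit 110106785) (nat_lit 152) (nat_lit 1342433037) (nat_lit 76) (nat_lit 17778769262) (nat_lit 23) (nat_lit 5) (nat_lit 25) (nat_lit 5) (nat_lit 24) (nat_lit 5) (nat_lit 344) (nat_lit 241) (nat_lit 195))))))))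
noncomputable def xc60 : XT := (XT.nd (nat_lit 1794) (nat_lit 380) (nat_lit 0) (XT.nd (nat_lit 858) (nat_lit 380) (nat_lit 0) (XT.nd (nat_lit 390) (nat_lit 304) (nat_lit 0) (XT.nd (nat_lit 156) (nat_lit 76) (nat_lit 0) (XT.nd (nat_lit 78) (nat_lit 0) (nat_lit 0) (XT.lf (nat_lit 0) (nat_lit 3297580201) (nat_lit 228) (nat_lit 14269673789) (nat_lit 76) (nat_lit 2118347665) (nat_lit 21) (nat_lit 5) (nat_lit 24) (nat_lit 5) (nat_lit 22) (nat_lit 4) (nat_lit 345) (nat_lit 241) (nat_lit 194)) (XT.lf (nat_lit 0) (nat_lit 6569276426) (nat_lit 228) (nat_lit 7830858299) (nat_lit 76) (nat_lit 5753756953) (nat_lit 21) (nat_lit 5) (nat_lit 24) (nat_lit 5) (nat_lit 22) (nat_lit 4) (nat_lit 346) (nat_lit 241) (nat_lit 193))) (XT.nd (nat_lit 78) (nat_lit 76) (nat_lit 0) (XT.lf (nat_lit 0) (nat_lit 9900800108) (nat_lit 228) (nat_lit 1264688379) (nat_lit 76) (nat_lit 9471917481) (nat_lit 21) (nat_lit 5) (nat_lit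 24) (nat_lit 5) (nat_lit 22) (nat_lit 4) (nat_lit 347) (nat_lit 241) (nat_lit 192)) (XT.nd (nat_lit 78) (nat_lit 0) (nat_lit 0) (XT.lf (nat_lit 0) (nat_lit 5542732067) (nat_lit 76) (nat_lit 7805610349) (nat_lit 152) (nat_lit 7786626189) (nat_lit 20) (nat_lit 5) (nat_lit 21) (nat_lit 5) (nat_lit 22) (nat_lit 4) (nat_lit 348) (nat_lit 241) (nat_lit 191)) (XT.lf (nat_lit 0) (nat_lit 12517033167) (nat_lit 76) (nat_lit 4358317032) (nat_lit 152) (nat_lit 4772851123) (nat_lit 20) (nat_lit 5) (nat_lit 21) (nat_lit 5) (nat_lit 22) (nat_lit 4) (nat_lit 349) (nat_lit 241) (nat_lit 190))))) (XT.nd (nat_lit 234) (nat_lit 76) (nat_lit 0) (XT.nd (nat_lit 78) (nat_lit 228) (nat_lit 0) (XT.lf (nat_lit 0) (nat_lit 19639139190) (nat_lit 76) (nat_lit 833367211) (nat_lit 152) (nat_lit 1705418141) (nat_lit 20) (nat_lit 5) (nat_lit 21) (nat_lit 5) (nat_lit 22) (nat_lit 4) (nat_lit 350) (nat_lit 241) (nat_lit 189)) (XT.nd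 (nat_lit 78) (nat_lit 0) (nat_lit 0) (XT.lf (nat_lit 0) (nat_lit 1458816894) (nat_lit 228) (nat_lit 18489983867) (nat_lit 76) (nat_lit 2773347114) (nat_lit 17) (nat_lit 5) (nat_lit 20) (nat_lit 5) (nat_lit 18) (nat_lit 4) (nat_lit 351) (nat_lit 241) (nat_lit 188)) (XT.lf (nat_lit 0) (nat_lit 4683057257) (nat_lit 228) (nat_lit 12109612224) (nat_lit 76) (nat_lit 6489562862) (nat_lit 17) (nat_lit 5) (nat_lit 20) (nat_lit 5) (nat_lit 18) (nat_lit 4) (nat_lit 352) (nat_lit 241) (nat_lit 187)))) (XT.nd (nat_lit 78) (nat_lit 76) (nat_lit 0) (XT.lf (nat_lit 0) (nat_lit 7970251769) (nat_lit 228) (nat_lit 5596642599) (nat_lit 76) (nat_lit 10293259195) (nat_lit 17) (nat_lit 5) (nat_lit 20) (nat_lit 5) (nat_lit 18) (nat_lit 4) (nat_lit 353) (nat_lit 241) (nat_lit 186)) (XT.nd (nat_lit 78) (nat_lit 0) (nat_lit 0) (XT.lf (nat_lit 0) (nat_lit 1075604877) (nat_lit 76) (nat_lit 10258007233) (nat_lit 152) (nat_lit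 13122494226) (nat_lit 16) (nat_lit 5) (nat_lit 17) (nat_lit 5) (nat_lit 18) (nat_lit 4) (nat_lit 354) (nat_lit 241) (nat_lit 185)) (XT.lf (nat_lit 0) (nat_lit 8006205107) (nat_lit 76) (nat_lit 6815805420) (nat_lit 152) (nat_lit 10247222865) (nat_lit 16) (nat_lit 5) (nat_lit 17) (nat_lit 5) (nat_lit 18) (nat_lit 4) (nat_lit 355) (nat_lit 241) (nat_lit 184)))))) (XT.nd (nat_lit 468) (nat_lit 152) (nat_lit 0) (XT.nd (nat_lit 234) (nat_lit 76) (nat_lit 0) (XT.nd (nat_lit 78) (nat_lit 152) (nat_lit 0) (XT.lf (nat_lit 0) (nat_lit 15089829793) (nat_lit 76) (nat_lit 3293796299) (nat_lit 152) (nat_lit 7318090456) (nat_lit 16) (nat_lit 5) (nat_lit 17) (nat_lit 5) (nat_lit 18) (nat_lit 4) (nat_lit 356) (nat_lit 241) (nat_lit 183)) (XT.nd (nat_lit 78) (nat_lit 152) (nat_lit 0) (XT.lf (nat_lit 0) (nat_lit 22024561357) (nat_lit 152) (nat_lit 4024430408) (nat_lit 0) (nat_lit 305026979) (nat_lit 16) (nat_lit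 5) (nat_lit 18) (nat_lit 4) (nat_lit 16) (nat_lit 4) (nat_lit 357) (nat_lit 241) (nat_lit 182)) (XT.lf (nat_lit 0) (nat_lit 2728850558) (nat_lit 152) (nat_lit 23074874472) (nat_lit 152) (nat_lit 1221313104) (nat_lit 14) (nat_lit 4) (nat_lit 16) (nat_lit 5) (nat_lit 16) (nat_lit 4) (nat_lit 358) (nat_lit 241) (nat_lit 181)))) (XT.nd (nat_lit 78) (nat_lit 0) (nat_lit 0) (XT.lf (nat_lit 0) (nat_lit 1952696469) (nat_lit 228) (nat_lit 18019710826) (nat_lit 76) (nat_lit 7742889116) (nat_lit 13) (nat_lit 5) (nat_lit 16) (nat_lit 5) (nat_lit 14) (nat_lit 4) (nat_lit 359) (nat_lit 241) (nat_lit 180)) (XT.nd (nat_lit 78) (nat_lit 0) (nat_lit 0) (XT.lf (nat_lit 0) (nat_lit 5168464724) (nat_lit 228) (nat_lit 11618034560) (nat_lit 76) (nat_lit 11640284417) (nat_lit 13) (nat_lit 5) (nat_lit 16) (nat_lit 5) (nat_lit 14) (nat_lit 4) (nat_lit 360) (nat_lit 241) (nat_lit 179)) (XT.lf (nat_lit 0) (nat_lit 8452633774)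 (nat_lit 228) (nat_lit 5073825073) (nat_lit 76) (nat_lit 15634015048) (nat_lit 13) (nat_lit 5) (nat_lit 16) (nat_lit 5) (nat_lit 14) (nat_lit 4) (nat_lit 361) (nat_lit 241) (nat_lit 178))))) (XT.nd (nat_lit 234) (nat_lit 76) (nat_lit 0) (XT.nd (nat_lit 78) (nat_lit 0) (nat_lit 0) (XT.lf (nat_lit 0) (nat_lit 1650849904) (nat_lit 76) (nat_lit 10173092353) (nat_lit 152) (nat_lit 18092589751) (nat_lit 12) (nat_lit 5) (nat_lit 13) (nat_lit 5) (nat_lit 14) (nat_lit 4) (nat_lit 362) (nat_lit 241) (nat_lit 177)) (XT.nd (nat_lit 78) (nat_lit 0) (nat_lit 0) (XT.lf (nat_lit 0) (nat_lit 8633670071) (nat_lit 76) (nat_lit 6687037223) (nat_lit 152) (nat_lit 15373850243) (nat_lit 12) (nat_lit 5) (nat_lit 13) (nat_lit 5) (nat_lit 14) (nat_lit 4) (nat_lit 363) (nat_lit 241) (nat_lit 176)) (XT.lf (nat_lit 0) (nat_lit 15779757854) (nat_lit 76) (nat_lit 3116483075) (nat_lit 152) (nat_lit 12600481683) (nat_lit 12)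 (nat_lit 5) (nat_lit 13) (nat_lit 5) (nat_lit 14) (nat_lit 4) (nat_lit 364) (nat_lit 241) (nat_lit 175)))) (XT.nd (nat_lit 78) (nat_lit 76) (nat_lit 0) (XT.lf (nat_lit 0) (nat_lit 22558874467) (nat_lit 152) (nat_lit 9233577801) (nat_lit 0) (nat_lit 531119670) (nat_lit 12) (nat_lit 5) (nat_lit 14) (nat_lit 4) (nat_lit 12) (nat_lit 4) (nat_lit 365) (nat_lit 241) (nat_lit 174)) (XT.nd (nat_lit 78) (nat_lit 76) (nat_lit 0) (XT.lf (nat_lit 0) (nat_lit 26337427178) (nat_lit 152) (nat_lit 2630680411) (nat_lit 0) (nat_lit 4206951853) (nat_lit 12) (nat_lit 5) (nat_lit 14) (nat_lit 4) (nat_lit 12) (nat_lit 4) (nat_lit 366) (nat_lit 241) (nat_lit 173)) (XT.lf (nat_lit 0) (nat_lit 4209598914) (nat_lit 76) (nat_lit 26036109494) (nat_lit 76) (nat_lit 3805905502) (nat_lit 11) (nat_lit 4) (nat_lit 12) (nat_lit 5) (nat_lit 12) (nat_lit 4) (nat_lit 367) (nat_lit 241) (nat_lit 172))))))) (XT.nd (nat_lit 936) (nat_lit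 152) (nat_lit 0) (XT.nd (nat_lit 468) (nat_lit 76) (nat_lit 0) (XT.nd (nat_lit 234) (nat_lit 76) (nat_lit 0) (XT.nd (nat_lit 78) (nat_lit 76) (nat_lit 0) (XT.lf (nat_lit 0) (nat_lit 11266583657) (nat_lit 76) (nat_lit 23007419720) (nat_lit 76) (nat_lit 680391778) (nat_lit 11) (nat_lit 4) (nat_lit 12) (nat_lit 5) (nat_lit 12) (nat_lit 4) (nat_lit 368) (nat_lit 241) (nat_lit 171)) (XT.nd (nat_lit 78) (nat_lit 0) (nat_lit 0) (XT.lf (nat_lit 0) (nat_lit 2465997045) (nat_lit 152) (nat_lit 17415057772) (nat_lit 76) (nat_lit 16003185636) (nat_lit 10) (nat_lit 5) (nat_lit 12) (nat_lit 5) (nat_lit 11) (nat_lit 4) (nat_lit 369) (nat_lit 241) (nat_lit 170)) (XT.lf (nat_lit 0) (nat_lit 5670434884) (nat_lit 152) (nat_lit 11001314819) (nat_lit 76) (nat_lit 20170721327) (nat_lit 10) (nat_lit 5) (nat_lit 12) (nat_lit 5) (nat_lit 11) (nat_lit 4) (nat_lit 370) (nat_lit 241) (nat_lit 169)))) (XT.nd (nat_lit 78) (nat_lit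 76) (nat_lit 0) (XT.lf (nat_lit 0) (nat_lit 8948998624) (nat_lit 152) (nat_lit 4434438055) (nat_lit 76) (nat_lit 24446683702) (nat_lit 10) (nat_lit 5) (nat_lit 12) (nat_lit 5) (nat_lit 11) (nat_lit 4) (nat_lit 371) (nat_lit 241) (nat_lit 168)) (XT.nd (nat_lit 78) (nat_lit 0) (nat_lit 0) (XT.lf (nat_lit 0) (nat_lit 2336912138) (nat_lit 76) (nat_lit 9990104722) (nat_lit 152) (nat_lit 26520360731) (nat_lit 9) (nat_lit 5) (nat_lit 10) (nat_lit 5) (nat_lit 11) (nat_lit 4) (nat_lit 372) (nat_lit 241) (nat_lit 167)) (XT.lf (nat_lit 0) (nat_lit 9364543894) (nat_lit 76) (nat_lit 6465503974) (nat_lit 152) (nat_lit 24064405456) (nat_lit 9) (nat_lit 5) (nat_lit 10) (nat_lit 5) (nat_lit 11) (nat_lit 4) (nat_lit 373) (nat_lit 241) (nat_lit 166))))) (XT.nd (nat_lit 234) (nat_lit 76) (nat_lit 0) (XT.nd (nat_lit 78) (nat_lit 0) (nat_lit 0) (XT.lf (nat_lit 0) (nat_lit 16566343847) (nat_lit 76) (nat_lit 2851333817)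 (nat_lit 152) (nat_lit 21555889082) (nat_lit 9) (nat_lit 5) (nat_lit 10) (nat_lit 5) (nat_lit 11) (nat_lit 4) (nat_lit 374) (nat_lit 241) (nat_lit 165)) (XT.nd (nat_lit 78) (nat_lit 0) (nat_lit 0) (XT.lf (nat_lit 0) (nat_lit 23101265274) (nat_lit 152) (nat_lit 18145280144) (nat_lit 0) (nat_lit 838868630) (nat_lit 9) (nat_lit 5) (nat_lit 11) (nat_lit 4) (nat_lit 9) (nat_lit 4) (nat_lit 375) (nat_lit 241) (nat_lit 164)) (XT.lf (nat_lit 0) (nat_lit 26904129230) (nat_lit 152) (nat_lit 11758709428) (nat_lit 0) (nat_lit 4567525092) (nat_lit 9) (nat_lit 5) (nat_lit 11) (nat_lit 4) (nat_lit 9) (nat_lit 4) (nat_lit 376) (nat_lit 241) (nat_lit 163)))) (XT.nd (nat_lit 78) (nat_lit 76) (nat_lit 0) (XT.lf (nat_lit 0) (nat_lit 30802183659) (nat_lit 152) (nat_lit 5214521488) (nat_lit 0) (nat_lit 8393533409) (nat_lit 9) (nat_lit 5) (nat_lit 11) (nat_lit 4) (nat_lit 9) (nat_lit 4) (nat_lit 377) (nat_lit 241) (nat_lit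 162)) (XT.nd (nat_lit 78) (nat_lit 0) (nat_lit 0) (XT.lf (nat_lit 0) (nat_lit 1522715563) (nat_lit 76) (nat_lit 33290756338) (nat_lit 76) (nat_lit 10812158407) (nat_lit 8) (nat_lit 4) (nat_lit 9) (nat_lit 5) (nat_lit 9) (nat_lit 4) (nat_lit 378) (nat_lit 241) (nat_lit 161)) (XT.lf (nat_lit 0) (nat_lit 8536295547) (nat_lit 76) (nat_lit 30443334904) (nat_lit 76) (nat_lit 7896826603) (nat_lit 8) (nat_lit 4) (nat_lit 9) (nat_lit 5) (nat_lit 9) (nat_lit 4) (nat_lit 379) (nat_lit 241) (nat_lit 160)))))) (XT.nd (nat_lit 468) (nat_lit 76) (nat_lit 0) (XT.nd (nat_lit 234) (nat_lit 0) (nat_lit 0) (XT.nd (nat_lit 78) (nat_lit 76) (nat_lit 0) (XT.lf (nat_lit 0) (nat_lit 15728567631) (nat_lit 76) (nat_lit 27524609250) (nat_lit 76) (nat_lit 4912168550) (nat_lit 8) (nat_lit 4) (nat_lit 9) (nat_lit 5) (nat_lit 9) (nat_lit 4) (nat_lit 380) (nat_lit 241) (nat_lit 159)) (XT.nd (nat_lit 78) (nat_lit 76) (nat_lit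 0) (XT.lf (nat_lit 0) (nat_lit 23105816325) (nat_lit 76) (nat_lit 24532029032) (nat_lit 76) (nat_lit 1855576296) (nat_lit 8) (nat_lit 4) (nat_lit 9) (nat_lit 5) (nat_lit 9) (nat_lit 4) (nat_lit 381) (nat_lit 241) (nat_lit 158)) (XT.lf (nat_lit 0) (nat_lit 1250729009) (nat_lit 152) (nat_lit 20199620454) (nat_lit 76) (nat_lit 29411128848) (nat_lit 7) (nat_lit 5) (nat_lit 9) (nat_lit 5) (nat_lit 8) (nat_lit 4) (nat_lit 382) (nat_lit 241) (nat_lit 157)))) (XT.nd (nat_lit 78) (nat_lit 0) (nat_lit 0) (XT.lf (nat_lit 0) (nat_lit 4396657145) (nat_lit 152) (nat_lit 13873723823) (nat_lit 76) (nat_lit 34000140602) (nat_lit 7) (nat_lit 5) (nat_lit 9) (nat_lit 5) (nat_lit 8) (nat_lit 4) (nat_lit 383) (nat_lit 241) (nat_lit 156)) (XT.nd (nat_lit 78) (nat_lit 0) (nat_lit 0) (XT.lf (nat_lit 0) (nat_lit 7621165957) (nat_lit 152) (nat_lit 7386551017) (nat_lit 76) (nat_lit 38714600765) (nat_lit 7) (nat_lit 5) (nat_lit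 9) (nat_lit 5) (nat_lit 8) (nat_lit 4) (nat_lit 384) (nat_lit 241) (nat_lit 155)) (XT.lf (nat_lit 0) (nat_lit 10927072976) (nat_lit 152) (nat_lit 732433633) (nat_lit 76) (nat_lit 43558628767) (nat_lit 7) (nat_lit 5) (nat_lit 9) (nat_lit 5) (nat_lit 8) (nat_lit 4) (nat_lit 385) (nat_lit 241) (nat_lit 154))))) (XT.nd (nat_lit 234) (nat_lit 0) (nat_lit 0) (XT.nd (nat_lit 78) (nat_lit 0) (nat_lit 0) (XT.lf (nat_lit 0) (nat_lit 6215733964) (nat_lit 76) (nat_lit 8161282334) (nat_lit 152) (nat_lit 42380472727) (nat_lit 6) (nat_lit 5) (nat_lit 7) (nat_lit 5) (nat_lit 8) (nat_lit 4) (nat_lit 386) (nat_lit 241) (nat_lit 153)) (XT.nd (nat_lit 78) (nat_lit 0) (nat_lit 0) (XT.lf (nat_lit 0) (nat_lit 13360759474) (nat_lit 76) (nat_lit 4562382234) (nat_lit 152) (nat_lit 40420108106) (nat_lit 6) (nat_lit 5) (nat_lit 7) (nat_lit 5) (nat_lit 8) (nat_lit 4) (nat_lit 387) (nat_lit 241) (nat_lit 152)) (XT.lf (nat_lit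 0) (nat_lit 20694309257) (nat_lit 76) (nat_lit 867057784) (nat_lit 152) (nat_lit 38415651738) (nat_lit 6) (nat_lit 5) (nat_lit 7) (nat_lit 5) (nat_lit 8) (nat_lit 4) (nat_lit 388) (nat_lit 241) (nat_lit 151)))) (XT.nd (nat_lit 78) (nat_lit 0) (nat_lit 0) (XT.lf (nat_lit 0) (nat_lit 25323016288) (nat_lit 152) (nat_lit 33465577176) (nat_lit 0) (nat_lit 2870785675) (nat_lit 6) (nat_lit 5) (nat_lit 8) (nat_lit 4) (nat_lit 6) (nat_lit 4) (nat_lit 389) (nat_lit 241) (nat_lit 150)) (XT.nd (nat_lit 78) (nat_lit 0) (nat_lit 0) (XT.lf (nat_lit 0) (nat_lit 29192531268) (nat_lit 152) (nat_lit 27507165313) (nat_lit 0) (nat_lit 6692669688) (nat_lit 6) (nat_lit 5) (nat_lit 8) (nat_lit 4) (nat_lit 6) (nat_lit 4) (nat_lit 390) (nat_lit 241) (nat_lit 149)) (XT.lf (nat_lit 0) (nat_lit 33164958421) (nat_lit 152) (nat_lit 21393932863) (nat_lit 0) (nat_lit 10618853184) (nat_lit 6) (nat_lit 5) (nat_lit 8) (nat_lit 4)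 (nat_lit 6) (nat_lit 4) (nat_lit 391) (nat_lit 241) (nat_lit 148))))))))
noncomputable def xc61 : XT := (XT.nd (nat_lit 34164) (nat_lit 0) (nat_lit 2128) (XT.nd (nat_lit 33228) (nat_lit 0) (nat_lit 5472) (XT.nd (nat_lit 468) (nat_lit 0) (nat_lit 0) (XT.nd (nat_lit 234) (nat_lit 76) (nat_lit 0) (XT.nd (nat_lit 78) (nat_lit 0) (nat_lit 0) (XT.lf (nat_lit 0) (nat_lit 37243768801) (nat_lit 152) (nat_lit 15120538168) (nat_lit 0) (nat_lit 14652766808) (nat_lit 6) (nat_lit 5) (nat_lit 8) (nat_lit 4) (nat_lit 6) (nat_lit 4) (nat_lit 392) (nat_lit 241) (nat_lit 147)) (XT.nd (nat_lit 78) (nat_lit 0) (nat_lit 0) (XT.lf (nat_lit 0) (nat_lit 41432526416) (nat_lit 152) (nat_lit 8681499620) (nat_lit 0) (nat_lit 18797935341) (nat_lit 6) (nat_lit 5) (nat_lit 8) (nat_lit 4) (nat_lit 6) (nat_lit 4) (nat_lit 393) (nat_lit 241) (nat_lit 146)) (XT.lf (nat_lit 0) (nat_lit 45734891346) (nat_lit 152) (nat_lit 2071190875)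 (nat_lit 0) (nat_lit 23057980774) (nat_lit 6) (nat_lit 5) (nat_lit 8) (nat_lit 4) (nat_lit 6) (nat_lit 4) (nat_lit 394) (nat_lit 241) (nat_lit 145)))) (XT.nd (nat_lit 78) (nat_lit 0) (nat_lit 0) (XT.lf (nat_lit 0) (nat_lit 4810024976) (nat_lit 76) (nat_lit 45390834865) (nat_lit 76) (nat_lit 22672837402) (nat_lit 5) (nat_lit 4) (nat_lit 6) (nat_lit 5) (nat_lit 6) (nat_lit 4) (nat_lit 395) (nat_lit 241) (nat_lit 144)) (XT.nd (nat_lit 78) (nat_lit 0) (nat_lit 0) (XT.lf (nat_lit 0) (nat_lit 11919080081) (nat_lit 76) (nat_lit 42891076504) (nat_lit 76) (nat_lit 20133188856) (nat_lit 5) (nat_lit 4) (nat_lit 6) (nat_lit 5) (nat_lit 6) (nat_lit 4) (nat_lit 396) (nat_lit 241) (nat_lit 143)) (XT.lf (nat_lit 0) (nat_lit 19220965473) (nat_lit 76) (nat_lit 40325537852) (nat_lit 76) (nat_lit 17528921868) (nat_lit 5) (nat_lit 4) (nat_lit 6) (nat_lit 5) (nat_lit 6) (nat_lit 4) (nat_lit 397) (nat_lit 241) (nat_lit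 142))))) (XT.nd (nat_lit 234) (nat_lit 0) (nat_lit 0) (XT.nd (nat_lit 78) (nat_lit 0) (nat_lit 0) (XT.lf (nat_lit 0) (nat_lit 26722061442) (nat_lit 76) (nat_lit 37691977174) (nat_lit 76) (nat_lit 14857760866) (nat_lit 5) (nat_lit 4) (nat_lit 6) (nat_lit 5) (nat_lit 6) (nat_lit 4) (nat_lit 398) (nat_lit 241) (nat_lit 141)) (XT.nd (nat_lit 78) (nat_lit 0) (nat_lit 0) (XT.lf (nat_lit 0) (nat_lit 34428922343) (nat_lit 76) (nat_lit 34988093303) (nat_lit 76) (nat_lit 12117371824) (nat_lit 5) (nat_lit 4) (nat_lit 6) (nat_lit 5) (nat_lit 6) (nat_lit 4) (nat_lit 399) (nat_lit 241) (nat_lit 140)) (XT.lf (nat_lit 0) (nat_lit 42348282326) (nat_lit 76) (nat_lit 32211523620) (nat_lit 76) (nat_lit 9305360229) (nat_lit 5) (nat_lit 4) (nat_lit 6) (nat_lit 5) (nat_lit 6) (nat_lit 4) (nat_lit 400) (nat_lit 241) (nat_lit 139)))) (XT.nd (nat_lit 78) (nat_lit 0) (nat_lit 0) (XT.lf (nat_lit 0) (nat_lit 50487061221)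 (nat_lit 76) (nat_lit 29359841997) (nat_lit 76) (nat_lit 6419268982) (nat_lit 5) (nat_lit 4) (nat_lit 6) (nat_lit 5) (nat_lit 6) (nat_lit 4) (nat_lit 401) (nat_lit 241) (nat_lit 138)) (XT.nd (nat_lit 32370) (nat_lit 0) (nat_lit 8740) (XT.lf (nat_lit 0) (nat_lit 58852370581) (nat_lit 76) (nat_lit 26430556674) (nat_lit 76) (nat_lit 3456576256) (nat_lit 5) (nat_lit 4) (nat_lit 6) (nat_lit 5) (nat_lit 6) (nat_lit 4) (nat_lit 402) (nat_lit 241) (nat_lit 137)) (XT.lf (nat_lit 0) (nat_lit 983835535) (nat_lit 456) (nat_lit 1513166705) (nat_lit 456) (nat_lit 1513166705) (nat_lit 120) (nat_lit 4) (nat_lit 126) (nat_lit 5) (nat_lit 126) (nat_lit 4) (nat_lit 296) (nat_lit 242) (nat_lit 242)))))) (XT.nd (nat_lit 468) (nat_lit 1520) (nat_lit 0) (XT.nd (nat_lit 234) (nat_lit 836) (nat_lit 0) (XT.nd (nat_lit 78) (nat_lit 836) (nat_lit 0) (XT.lf (nat_lit 0) (nat_lit 290631814) (nat_lit 532) (nat_lit 640241196)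 (nat_lit 76) (nat_lit 7185537484) (nat_lit 119) (nat_lit 5) (nat_lit 126) (nat_lit 5) (nat_lit 120) (nat_lit 4) (nat_lit 297) (nat_lit 242) (nat_lit 241)) (XT.nd (nat_lit 78) (nat_lit 456) (nat_lit 0) (XT.lf (nat_lit 0) (nat_lit 3617018368) (nat_lit 456) (nat_lit 3335460321) (nat_lit 0) (nat_lit 1263022446) (nat_lit 114) (nat_lit 5) (nat_lit 120) (nat_lit 4) (nat_lit 114) (nat_lit 4) (nat_lit 298) (nat_lit 242) (nat_lit 240)) (XT.lf (nat_lit 0) (nat_lit 2186261217) (nat_lit 456) (nat_lit 4806398351) (nat_lit 456) (nat_lit 1326573398) (nat_lit 108) (nat_lit 4) (nat_lit 114) (nat_lit 5) (nat_lit 114) (nat_lit 4) (nat_lit 299) (nat_lit 242) (nat_lit 239)))) (XT.nd (nat_lit 78) (nat_lit 760) (nat_lit 0) (XT.lf (nat_lit 0) (nat_lit 1950846609) (nat_lit 532) (nat_lit 612644231) (nat_lit 76) (nat_lit 5863723350) (nat_lit 107) (nat_lit 5) (nat_lit 114) (nat_lit 5) (nat_lit 108) (nat_lit 4) (nat_lit 300)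 (nat_lit 242) (nat_lit 238)) (XT.nd (nat_lit 78) (nat_lit 380) (nat_lit 0) (XT.lf (nat_lit 0) (nat_lit 5052331196) (nat_lit 380) (nat_lit 211903229) (nat_lit 456) (nat_lit 3275016587) (nat_lit 102) (nat_lit 5) (nat_lit 107) (nat_lit 5) (nat_lit 108) (nat_lit 4) (nat_lit 301) (nat_lit 242) (nat_lit 237)) (XT.lf (nat_lit 0) (nat_lit 2158385208) (nat_lit 380) (nat_lit 6483846547) (nat_lit 380) (nat_lit 13596319) (nat_lit 97) (nat_lit 4) (nat_lit 102) (nat_lit 5) (nat_lit 102) (nat_lit 4) (nat_lit 302) (nat_lit 242) (nat_lit 236))))) (XT.nd (nat_lit 234) (nat_lit 684) (nat_lit 0) (XT.nd (nat_lit 78) (nat_lit 760) (nat_lit 0) (XT.lf (nat_lit 0) (nat_lit 3235459990) (nat_lit 456) (nat_lit 873416459) (nat_lit 76) (nat_lit 4667536398) (nat_lit 96) (nat_lit 5) (nat_lit 102) (nat_lit 5) (nat_lit 97) (nat_lit 4) (nat_lit 303) (nat_lit 242) (nat_lit 235)) (XT.nd (nat_lit 78) (nat_lit 456) (nat_lit 0) (XT.lf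 (nat_lit 0) (nat_lit 4909670512) (nat_lit 304) (nat_lit 1639065863) (nat_lit 380) (nat_lit 2352987985) (nat_lit 92) (nat_lit 5) (nat_lit 96) (nat_lit 5) (nat_lit 97) (nat_lit 4) (nat_lit 304) (nat_lit 242) (nat_lit 234)) (XT.lf (nat_lit 0) (nat_lit 867460137) (nat_lit 456) (nat_lit 7267858212) (nat_lit 76) (nat_lit 896675154) (nat_lit 86) (nat_lit 5) (nat_lit 92) (nat_lit 5) (nat_lit 87) (nat_lit 4) (nat_lit 305) (nat_lit 242) (nat_lit 233)))) (XT.nd (nat_lit 78) (nat_lit 684) (nat_lit 0) (XT.lf (nat_lit 0) (nat_lit 4115487764) (nat_lit 456) (nat_lit 1537216335) (nat_lit 76) (nat_lit 3513533321) (nat_lit 86) (nat_lit 5) (nat_lit 92) (nat_lit 5) (nat_lit 87) (nat_lit 4) (nat_lit 306) (nat_lit 242) (nat_lit 232)) (XT.nd (nat_lit 78) (nat_lit 380) (nat_lit 0) (XT.lf (nat_lit 0) (nat_lit 4346100587) (nat_lit 304) (nat_lit 3080244051) (nat_lit 380) (nat_lit 1879312435) (nat_lit 82) (nat_lit 5) (nat_lit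 86) (nat_lit 5) (nat_lit 87) (nat_lit 4) (nat_lit 307) (nat_lit 242) (nat_lit 231)) (XT.lf (nat_lit 0) (nat_lit 887821926) (nat_lit 304) (nat_lit 420582903) (nat_lit 380) (nat_lit 8142111953) (nat_lit 77) (nat_lit 5) (nat_lit 81) (nat_lit 5) (nat_lit 82) (nat_lit 5) (nat_lit 308) (nat_lit 242) (nat_lit 230))))))) (XT.nd (nat_lit 936) (nat_lit 1292) (nat_lit 0) (XT.nd (nat_lit 468) (nat_lit 1064) (nat_lit 0) (XT.nd (nat_lit 234) (nat_lit 608) (nat_lit 0) (XT.nd (nat_lit 78) (nat_lit 380) (nat_lit 0) (XT.lf (nat_lit 0) (nat_lit 4551786408) (nat_lit 380) (nat_lit 2733015054) (nat_lit 76) (nat_lit 2314529186) (nat_lit 77) (nat_lit 5) (nat_lit 82) (nat_lit 5) (nat_lit 78) (nat_lit 4) (nat_lit 309) (nat_lit 242) (nat_lit 229)) (XT.nd (nat_lit 78) (nat_lit 76) (nat_lit 0) (XT.lf (nat_lit 0) (nat_lit 3227764944) (nat_lit 304) (nat_lit 4627019304) (nat_lit 380) (nat_lit 1899053031) (nat_lit 73) (nat_lit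 5) (nat_lit 77) (nat_lit 5) (nat_lit 78) (nat_lit 4) (nat_lit 310) (nat_lit 242) (nat_lit 228)) (XT.lf (nat_lit 0) (nat_lit 1273006070) (nat_lit 380) (nat_lit 605091353) (nat_lit 76) (nat_lit 8035926200) (nat_lit 72) (nat_lit 5) (nat_lit 77) (nat_lit 5) (nat_lit 73) (nat_lit 5) (nat_lit 311) (nat_lit 242) (nat_lit 227)))) (XT.nd (nat_lit 78) (nat_lit 304) (nat_lit 0) (XT.lf (nat_lit 0) (nat_lit 4493914311) (nat_lit 380) (nat_lit 4607114461) (nat_lit 76) (nat_lit 977756513) (nat_lit 68) (nat_lit 5) (nat_lit 73) (nat_lit 5) (nat_lit 69) (nat_lit 4) (nat_lit 312) (nat_lit 242) (nat_lit 226)) (XT.nd (nat_lit 78) (nat_lit 76) (nat_lit 0) (XT.lf (nat_lit 0) (nat_lit 1402510597) (nat_lit 228) (nat_lit 6377576600) (nat_lit 304) (nat_lit 2469430366) (nat_lit 65) (nat_lit 5) (nat_lit 68) (nat_lit 5) (nat_lit 69) (nat_lit 4) (nat_lit 313) (nat_lit 242) (nat_lit 225)) (XT.lf (nat_lit 0) (nat_lit 702721385)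 (nat_lit 304) (nat_lit 2846185037) (nat_lit 76) (nat_lit 6877003710) (nat_lit 64) (nat_lit 5) (nat_lit 68) (nat_lit 5) (nat_lit 65) (nat_lit 5) (nat_lit 314) (nat_lit 242) (nat_lit 224))))) (XT.nd (nat_lit 234) (nat_lit 532) (nat_lit 0) (XT.nd (nat_lit 78) (nat_lit 228) (nat_lit 0) (XT.lf (nat_lit 0) (nat_lit 3275580847) (nat_lit 304) (nat_lit 609023509) (nat_lit 380) (nat_lit 6723410153) (nat_lit 60) (nat_lit 5) (nat_lit 64) (nat_lit 5) (nat_lit 65) (nat_lit 5) (nat_lit 315) (nat_lit 242) (nat_lit 223)) (XT.nd (nat_lit 78) (nat_lit 228) (nat_lit 0) (XT.lf (nat_lit 0) (nat_lit 7147656344) (nat_lit 380) (nat_lit 1278261309) (nat_lit 76) (nat_lit 2370170189) (nat_lit 60) (nat_lit 5) (nat_lit 65) (nat_lit 5) (nat_lit 61) (nat_lit 4) (nat_lit 316) (nat_lit 242) (nat_lit 222)) (XT.lf (nat_lit 0) (nat_lit 4951677733) (nat_lit 228) (nat_lit 5545923104) (nat_lit 304) (nat_lit 492607460) (nat_lit 57) (nat_lit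 5) (nat_lit 60) (nat_lit 5) (nat_lit 61) (nat_lit 4) (nat_lit 317) (nat_lit 242) (nat_lit 221)))) (XT.nd (nat_lit 78) (nat_lit 228) (nat_lit 0) (XT.lf (nat_lit 0) (nat_lit 83076066) (nat_lit 228) (nat_lit 2570468203) (nat_lit 304) (nat_lit 8537399351) (nat_lit 53) (nat_lit 5) (nat_lit 56) (nat_lit 5) (nat_lit 57) (nat_lit 5) (nat_lit 318) (nat_lit 242) (nat_lit 220)) (XT.nd (nat_lit 78) (nat_lit 228) (nat_lit 0) (XT.lf (nat_lit 0) (nat_lit 5886787146) (nat_lit 304) (nat_lit 4991557496) (nat_lit 76) (nat_lit 519200407) (nat_lit 53) (nat_lit 5) (nat_lit 57) (nat_lit 5) (nat_lit 54) (nat_lit 4) (nat_lit 319) (nat_lit 242) (nat_lit 219)) (XT.lf (nat_lit 0) (nat_lit 1211709716) (nat_lit 228) (nat_lit 7980546947) (nat_lit 304) (nat_lit 2418897571) (nat_lit 50) (nat_lit 5) (nat_lit 53) (nat_lit 5) (nat_lit 54) (nat_lit 4) (nat_lit 320) (nat_lit 242) (nat_lit 218)))))) (XT.nd (nat_lit 468) (nat_lit 532)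 (nat_lit 0) (XT.nd (nat_lit 234) (nat_lit 456) (nat_lit 0) (XT.nd (nat_lit 78) (nat_lit 228) (nat_lit 0) (XT.lf (nat_lit 0) (nat_lit 740045439) (nat_lit 304) (nat_lit 4229209708) (nat_lit 76) (nat_lit 6862080439) (nat_lit 49) (nat_lit 5) (nat_lit 53) (nat_lit 5) (nat_lit 50) (nat_lit 5) (nat_lit 321) (nat_lit 242) (nat_lit 217)) (XT.nd (nat_lit 78) (nat_lit 0) (nat_lit 0) (XT.lf (nat_lit 0) (nat_lit 2049864925) (nat_lit 228) (nat_lit 1855138917) (nat_lit 304) (nat_lit 8153665058) (nat_lit 46) (nat_lit 5) (nat_lit 49) (nat_lit 5) (nat_lit 50) (nat_lit 5) (nat_lit 322) (nat_lit 242) (nat_lit 216)) (XT.lf (nat_lit 0) (nat_lit 7161753052) (nat_lit 304) (nat_lit 3793887050) (nat_lit 76) (nat_lit 1337336019) (nat_lit 46) (nat_lit 5) (nat_lit 50) (nat_lit 5) (nat_lit 47) (nat_lit 4) (nat_lit 323) (nat_lit 242) (nat_lit 215)))) (XT.nd (nat_lit 78) (nat_lit 304) (nat_lit 0) (XT.lf (nat_lit 0) (nat_lit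 2548619558) (nat_lit 152) (nat_lit 7952890989) (nat_lit 228) (nat_lit 2033300281) (nat_lit 44) (nat_lit 5) (nat_lit 46) (nat_lit 5) (nat_lit 47) (nat_lit 4) (nat_lit 324) (nat_lit 242) (nat_lit 214)) (XT.nd (nat_lit 78) (nat_lit 228) (nat_lit 0) (XT.lf (nat_lit 0) (nat_lit 1116302623) (nat_lit 228) (nat_lit 3725619450) (nat_lit 76) (nat_lit 7942258916) (nat_lit 43) (nat_lit 5) (nat_lit 46) (nat_lit 5) (nat_lit 44) (nat_lit 5) (nat_lit 325) (nat_lit 242) (nat_lit 213)) (XT.lf (nat_lit 0) (nat_lit 2666779182) (nat_lit 228) (nat_lit 1622692955) (nat_lit 304) (nat_lit 8751910363) (nat_lit 40) (nat_lit 5) (nat_lit 43) (nat_lit 5) (nat_lit 44) (nat_lit 5) (nat_lit 326) (nat_lit 242) (nat_lit 212))))) (XT.nd (nat_lit 234) (nat_lit 304) (nat_lit 0) (XT.nd (nat_lit 78) (nat_lit 228) (nat_lit 0) (XT.lf (nat_lit 0) (nat_lit 7556893545) (nat_lit 304) (nat_lit 4082922479) (nat_lit 76) (nat_lit 1666563366)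 (nat_lit 40) (nat_lit 5) (nat_lit 44) (nat_lit 5) (nat_lit 41) (nat_lit 4) (nat_lit 327) (nat_lit 242) (nat_lit 211)) (XT.nd (nat_lit 78) (nat_lit 76) (nat_lit 0) (XT.lf (nat_lit 0) (nat_lit 2341280143) (nat_lit 152) (nat_lit 8566025293) (nat_lit 228) (nat_lit 2672521268) (nat_lit 38) (nat_lit 5) (nat_lit 40) (nat_lit 5) (nat_lit 41) (nat_lit 4) (nat_lit 328) (nat_lit 242) (nat_lit 210)) (XT.lf (nat_lit 0) (nat_lit 475265907) (nat_lit 228) (nat_lit 4909636706) (nat_lit 76) (nat_lit 8476832066) (nat_lit 37) (nat_lit 5) (nat_lit 40) (nat_lit 5) (nat_lit 38) (nat_lit 5) (nat_lit 329) (nat_lit 242) (nat_lit 209)))) (XT.nd (nat_lit 78) (nat_lit 152) (nat_lit 0) (XT.lf (nat_lit 0) (nat_lit 1528904953) (nat_lit 152) (nat_lit 2097689079) (nat_lit 228) (nat_lit 10525872721) (nat_lit 35) (nat_lit 5) (nat_lit 37) (nat_lit 5) (nat_lit 38) (nat_lit 5) (nat_lit 330) (nat_lit 242) (nat_lit 208)) (XT.nd (nat_lit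 78) (nat_lit 152) (nat_lit 0) (XT.lf (nat_lit 0) (nat_lit 6883449598) (nat_lit 228) (nat_lit 6286125506) (nat_lit 76) (nat_lit 1282060083) (nat_lit 35) (nat_lit 5) (nat_lit 38) (nat_lit 5) (nat_lit 36) (nat_lit 4) (nat_lit 331) (nat_lit 242) (nat_lit 207)) (XT.lf (nat_lit 0) (nat_lit 141816113) (nat_lit 152) (nat_lit 10068362698) (nat_lit 228) (nat_lit 4550477567) (nat_lit 33) (nat_lit 5) (nat_lit 35) (nat_lit 5) (nat_lit 36) (nat_lit 4) (nat_lit 332) (nat_lit 242) (nat_lit 206))))))))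
noncomputable def xc62 : XT := (XT.nd (nat_lit 1794) (nat_lit 608) (nat_lit 0) (XT.nd (nat_lit 858) (nat_lit 608) (nat_lit 0) (XT.nd (nat_lit 390) (nat_lit 304) (nat_lit 0) (XT.nd (nat_lit 156) (nat_lit 304) (nat_lit 0) (XT.nd (nat_lit 78) (nat_lit 76) (nat_lit 0) (XT.lf (nat_lit 0) (nat_lit 6810639642) (nat_lit 152) (nat_lit 6840261785) (nat_lit 228) (nat_lit 1427662532) (nat_lit 33) (nat_lit 5) (nat_lit 35) (nat_lit 5) (nat_lit 36) (nat_lit 4) (nat_lit 333) (nat_lit 242) (nat_lit 205)) (XT.lf (nat_lit 0) (nat_lit 1705566528) (nat_lit 228) (nat_lit 1823139832) (nat_lit 76) (nat_lit 11878276576) (nat_lit 32) (nat_lit 5) (nat_lit 35) (nat_lit 5) (nat_lit 33) (nat_lit 5) (nat_lit 334) (nat_lit 242) (nat_lit 204))) (XT.nd (nat_lit 78) (nat_lit 152) (nat_lit 0) (XT.lf (nat_lit 0) (nat_lit 4817714811) (nat_lit 152) (nat_lit 85738749) (nat_lit 228) (nat_lit 10841434170) (nat_lit 30) (nat_lit 5) (nat_lit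 32) (nat_lit 5) (nat_lit 33) (nat_lit 5) (nat_lit 335) (nat_lit 242) (nat_lit 203)) (XT.nd (nat_lit 78) (nat_lit 152) (nat_lit 0) (XT.lf (nat_lit 0) (nat_lit 8202523348) (nat_lit 228) (nat_lit 4508186760) (nat_lit 76) (nat_lit 3382099047) (nat_lit 30) (nat_lit 5) (nat_lit 33) (nat_lit 5) (nat_lit 31) (nat_lit 4) (nat_lit 336) (nat_lit 242) (nat_lit 202)) (XT.lf (nat_lit 0) (nat_lit 2067594281) (nat_lit 152) (nat_lit 9508441539) (nat_lit 228) (nat_lit 4875904084) (nat_lit 28) (nat_lit 5) (nat_lit 30) (nat_lit 5) (nat_lit 31) (nat_lit 4) (nat_lit 337) (nat_lit 242) (nat_lit 201))))) (XT.nd (nat_lit 234) (nat_lit 76) (nat_lit 0) (XT.nd (nat_lit 78) (nat_lit 228) (nat_lit 0) (XT.lf (nat_lit 0) (nat_lit 8858528108) (nat_lit 152) (nat_lit 6193097705) (nat_lit 228) (nat_lit 1770227351) (nat_lit 28) (nat_lit 5) (nat_lit 30) (nat_lit 5) (nat_lit 31) (nat_lit 4) (nat_lit 338) (nat_lit 242) (nat_lit 200))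 (XT.nd (nat_lit 78) (nat_lit 152) (nat_lit 0) (XT.lf (nat_lit 0) (nat_lit 1356928700) (nat_lit 228) (nat_lit 1436674532) (nat_lit 76) (nat_lit 14410195771) (nat_lit 27) (nat_lit 5) (nat_lit 30) (nat_lit 5) (nat_lit 28) (nat_lit 5) (nat_lit 339) (nat_lit 242) (nat_lit 199)) (XT.lf (nat_lit 0) (nat_lit 4557942036) (nat_lit 228) (nat_lit 12303117034) (nat_lit 76) (nat_lit 735181471) (nat_lit 25) (nat_lit 5) (nat_lit 28) (nat_lit 5) (nat_lit 26) (nat_lit 4) (nat_lit 340) (nat_lit 242) (nat_lit 198)))) (XT.nd (nat_lit 78) (nat_lit 76) (nat_lit 0) (XT.lf (nat_lit 0) (nat_lit 7855047386) (nat_lit 228) (nat_lit 5845010312) (nat_lit 76) (nat_lit 4300426657) (nat_lit 25) (nat_lit 5) (nat_lit 28) (nat_lit 5) (nat_lit 26) (nat_lit 4) (nat_lit 341) (nat_lit 242) (nat_lit 197)) (XT.nd (nat_lit 78) (nat_lit 0) (nat_lit 0) (XT.lf (nat_lit 0) (nat_lit 752144776) (nat_lit 76) (nat_lit 10465132692) (nat_lit 152)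 (nat_lit 7200621649) (nat_lit 24) (nat_lit 5) (nat_lit 25) (nat_lit 5) (nat_lit 26) (nat_lit 4) (nat_lit 342) (nat_lit 242) (nat_lit 196)) (XT.lf (nat_lit 0) (nat_lit 7598339727) (nat_lit 76) (nat_lit 7100573773) (nat_lit 152) (nat_lit 4148395756) (nat_lit 24) (nat_lit 5) (nat_lit 25) (nat_lit 5) (nat_lit 26) (nat_lit 4) (nat_lit 343) (nat_lit 242) (nat_lit 195)))))) (XT.nd (nat_lit 468) (nat_lit 304) (nat_lit 0) (XT.nd (nat_lit 234) (nat_lit 76) (nat_lit 0) (XT.nd (nat_lit 78) (nat_lit 228) (nat_lit 0) (XT.lf (nat_lit 0) (nat_lit 14583229486) (nat_lit 76) (nat_lit 3662464178) (nat_lit 152) (nat_lit 1045115444) (nat_lit 24) (nat_lit 5) (nat_lit 25) (nat_lit 5) (nat_lit 26) (nat_lit 4) (nat_lit 344) (nat_lit 242) (nat_lit 194)) (XT.nd (nat_lit 78) (nat_lit 0) (nat_lit 0) (XT.lf (nat_lit 0) (nat_lit 1982516016) (nat_lit 152) (nat_lit 107260655) (nat_lit 228) (nat_lit 17657828773) (nat_lit 21) (nat_lit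 5) (nat_lit 23) (nat_lit 5) (nat_lit 24) (nat_lit 5) (nat_lit 345) (nat_lit 242) (nat_lit 193)) (XT.lf (nat_lit 0) (nat_lit 5341563305) (nat_lit 228) (nat_lit 11357661621) (nat_lit 76) (nat_lit 3517280571) (nat_lit 21) (nat_lit 5) (nat_lit 24) (nat_lit 5) (nat_lit 22) (nat_lit 4) (nat_lit 346) (nat_lit 242) (nat_lit 192)))) (XT.nd (nat_lit 78) (nat_lit 76) (nat_lit 0) (XT.lf (nat_lit 0) (nat_lit 8654758309) (nat_lit 228) (nat_lit 4822966202) (nat_lit 76) (nat_lit 7222857503) (nat_lit 21) (nat_lit 5) (nat_lit 24) (nat_lit 5) (nat_lit 22) (nat_lit 4) (nat_lit 347) (nat_lit 242) (nat_lit 191)) (XT.nd (nat_lit 78) (nat_lit 0) (nat_lit 0) (XT.lf (nat_lit 0) (nat_lit 1882471611) (nat_lit 76) (nat_lit 10166849512) (nat_lit 152) (nat_lit 9150424921) (nat_lit 20) (nat_lit 5) (nat_lit 21) (nat_lit 5) (nat_lit 22) (nat_lit 4) (nat_lit 348) (nat_lit 242) (nat_lit 190)) (XT.lf (nat_lit 0) (nat_lit 8826514529)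 (nat_lit 76) (nat_lit 6732246981) (nat_lit 152) (nat_lit 6154755932) (nat_lit 20) (nat_lit 5) (nat_lit 21) (nat_lit 5) (nat_lit 22) (nat_lit 4) (nat_lit 349) (nat_lit 242) (nat_lit 189))))) (XT.nd (nat_lit 234) (nat_lit 76) (nat_lit 0) (XT.nd (nat_lit 78) (nat_lit 228) (nat_lit 0) (XT.lf (nat_lit 0) (nat_lit 15919243676) (nat_lit 76) (nat_lit 3219618312) (nat_lit 152) (nat_lit 3104901664) (nat_lit 20) (nat_lit 5) (nat_lit 21) (nat_lit 5) (nat_lit 22) (nat_lit 4) (nat_lit 350) (nat_lit 242) (nat_lit 188)) (XT.nd (nat_lit 78) (nat_lit 0) (nat_lit 0) (XT.lf (nat_lit 0) (nat_lit 9085624) (nat_lit 228) (nat_lit 22411097485) (nat_lit 76) (nat_lit 370544828) (nat_lit 17) (nat_lit 5) (nat_lit 20) (nat_lit 5) (nat_lit 18) (nat_lit 4) (nat_lit 351) (nat_lit 242) (nat_lit 187)) (XT.lf (nat_lit 0) (nat_lit 3216689010) (nat_lit 228) (nat_lit 16059697846) (nat_lit 76) (nat_lit 4074935016) (nat_lit 17) (nat_lit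 5) (nat_lit 20) (nat_lit 5) (nat_lit 18) (nat_lit 4) (nat_lit 352) (nat_lit 242) (nat_lit 186)))) (XT.nd (nat_lit 78) (nat_lit 76) (nat_lit 0) (XT.lf (nat_lit 0) (nat_lit 6487731119) (nat_lit 228) (nat_lit 9574856380) (nat_lit 76) (nat_lit 7867150222) (nat_lit 17) (nat_lit 5) (nat_lit 20) (nat_lit 5) (nat_lit 18) (nat_lit 4) (nat_lit 353) (nat_lit 242) (nat_lit 185)) (XT.nd (nat_lit 78) (nat_lit 76) (nat_lit 0) (XT.lf (nat_lit 0) (nat_lit 9825070142) (nat_lit 228) (nat_lit 2950906720) (nat_lit 76) (nat_lit 11750504033) (nat_lit 17) (nat_lit 5) (nat_lit 20) (nat_lit 5) (nat_lit 18) (nat_lit 4) (nat_lit 354) (nat_lit 242) (nat_lit 184)) (XT.lf (nat_lit 0) (nat_lit 3893923521) (nat_lit 76) (nat_lit 9375129455) (nat_lit 152) (nat_lit 11871896924) (nat_lit 16) (nat_lit 5) (nat_lit 17) (nat_lit 5) (nat_lit 18) (nat_lit 4) (nat_lit 355) (nat_lit 242) (nat_lit 183))))))) (XT.nd (nat_lit 936) (nat_lit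 304) (nat_lit 0) (XT.nd (nat_lit 468) (nat_lit 76) (nat_lit 0) (XT.nd (nat_lit 234) (nat_lit 228) (nat_lit 0) (XT.nd (nat_lit 78) (nat_lit 0) (nat_lit 0) (XT.lf (nat_lit 0) (nat_lit 10951294656) (nat_lit 76) (nat_lit 5864339782) (nat_lit 152) (nat_lit 8958258843) (nat_lit 16) (nat_lit 5) (nat_lit 17) (nat_lit 5) (nat_lit 18) (nat_lit 4) (nat_lit 356) (nat_lit 242) (nat_lit 182)) (XT.nd (nat_lit 78) (nat_lit 0) (nat_lit 0) (XT.lf (nat_lit 0) (nat_lit 18168644489) (nat_lit 76) (nat_lit 2270338537) (nat_lit 152) (nat_lit 5987748987) (nat_lit 16) (nat_lit 5) (nat_lit 17) (nat_lit 5) (nat_lit 18) (nat_lit 4) (nat_lit 357) (nat_lit 242) (nat_lit 181)) (XT.lf (nat_lit 0) (nat_lit 24155818696) (nat_lit 152) (nat_lit 1561311018) (nat_lit 0) (nat_lit 1382500205) (nat_lit 16) (nat_lit 5) (nat_lit 18) (nat_lit 4) (nat_lit 16) (nat_lit 4) (nat_lit 358) (nat_lit 242) (nat_lit 180)))) (XT.nd (nat_lit 78) (nat_lit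 0) (nat_lit 0) (XT.lf (nat_lit 0) (nat_lit 234108410) (nat_lit 228) (nat_lit 22424411710) (nat_lit 76) (nat_lit 5132764046) (nat_lit 13) (nat_lit 5) (nat_lit 16) (nat_lit 5) (nat_lit 14) (nat_lit 4) (nat_lit 359) (nat_lit 242) (nat_lit 179)) (XT.nd (nat_lit 78) (nat_lit 0) (nat_lit 0) (XT.lf (nat_lit 0) (nat_lit 3436047969) (nat_lit 228) (nat_lit 16047128088) (nat_lit 76) (nat_lit 9020018200) (nat_lit 13) (nat_lit 5) (nat_lit 16) (nat_lit 5) (nat_lit 14) (nat_lit 4) (nat_lit 360) (nat_lit 242) (nat_lit 178)) (XT.lf (nat_lit 0) (nat_lit 6706791099) (nat_lit 228) (nat_lit 9526600779) (nat_lit 76) (nat_lit 13003903057) (nat_lit 13) (nat_lit 5) (nat_lit 16) (nat_lit 5) (nat_lit 14) (nat_lit 4) (nat_lit 361) (nat_lit 242) (nat_lit 177))))) (XT.nd (nat_lit 234) (nat_lit 0) (nat_lit 0) (XT.nd (nat_lit 78) (nat_lit 76) (nat_lit 0) (XT.lf (nat_lit 0) (nat_lit 10049195731) (nat_lit 228) (nat_lit 2857132234)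 (nat_lit 76) (nat_lit 17087899681) (nat_lit 13) (nat_lit 5) (nat_lit 16) (nat_lit 5) (nat_lit 14) (nat_lit 4) (nat_lit 362) (nat_lit 242) (nat_lit 176)) (XT.nd (nat_lit 78) (nat_lit 0) (nat_lit 0) (XT.lf (nat_lit 0) (nat_lit 4046058408) (nat_lit 76) (nat_lit 9459017193) (nat_lit 152) (nat_lit 17268411394) (nat_lit 12) (nat_lit 5) (nat_lit 13) (nat_lit 5) (nat_lit 14) (nat_lit 4) (nat_lit 363) (nat_lit 242) (nat_lit 175)) (XT.lf (nat_lit 0) (nat_lit 11170042316) (nat_lit 76) (nat_lit 5898067825) (nat_lit 152) (nat_lit 14507923954) (nat_lit 12) (nat_lit 5) (nat_lit 13) (nat_lit 5) (nat_lit 14) (nat_lit 4) (nat_lit 364) (nat_lit 242) (nat_lit 174)))) (XT.nd (nat_lit 78) (nat_lit 0) (nat_lit 0) (XT.lf (nat_lit 0) (nat_lit 18464181795) (nat_lit 76) (nat_lit 2249219786) (nat_lit 152) (nat_lit 11690008953) (nat_lit 12) (nat_lit 5) (nat_lit 13) (nat_lit 5) (nat_lit 14) (nat_lit 4) (nat_lit 365) (nat_lit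 242) (nat_lit 173)) (XT.nd (nat_lit 78) (nat_lit 0) (nat_lit 0) (XT.lf (nat_lit 0) (nat_lit 24458464794) (nat_lit 152) (nat_lit 7335818562) (nat_lit 0) (nat_lit 1461626014) (nat_lit 12) (nat_lit 5) (nat_lit 14) (nat_lit 4) (nat_lit 12) (nat_lit 4) (nat_lit 366) (nat_lit 242) (nat_lit 172)) (XT.lf (nat_lit 0) (nat_lit 28314757851) (nat_lit 152) (nat_lit 598176966) (nat_lit 0) (nat_lit 5221095122) (nat_lit 12) (nat_lit 5) (nat_lit 14) (nat_lit 4) (nat_lit 12) (nat_lit 4) (nat_lit 367) (nat_lit 242) (nat_lit 171)))))) (XT.nd (nat_lit 468) (nat_lit 76) (nat_lit 0) (XT.nd (nat_lit 234) (nat_lit 76) (nat_lit 0) (XT.nd (nat_lit 78) (nat_lit 76) (nat_lit 0) (XT.lf (nat_lit 0) (nat_lit 6426610505) (nat_lit 76) (nat_lit 25899195458) (nat_lit 76) (nat_lit 2711528894) (nat_lit 11) (nat_lit 4) (nat_lit 12) (nat_lit 5) (nat_lit 12) (nat_lit 4) (nat_lit 368) (nat_lit 242) (nat_lit 170)) (XT.nd (nat_lit 78) (nat_lit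 0) (nat_lit 0) (XT.lf (nat_lit 0) (nat_lit 463328499) (nat_lit 152) (nat_lit 22338375568) (nat_lit 76) (nat_lit 13166402718) (nat_lit 10) (nat_lit 5) (nat_lit 12) (nat_lit 5) (nat_lit 11) (nat_lit 4) (nat_lit 369) (nat_lit 242) (nat_lit 169)) (XT.lf (nat_lit 0) (nat_lit 3656925336) (nat_lit 152) (nat_lit 15943981618) (nat_lit 76) (nat_lit 17325761372) (nat_lit 10) (nat_lit 5) (nat_lit 12) (nat_lit 5) (nat_lit 11) (nat_lit 4) (nat_lit 370) (nat_lit 242) (nat_lit 168)))) (XT.nd (nat_lit 78) (nat_lit 76) (nat_lit 0) (XT.lf (nat_lit 0) (nat_lit 6924963832) (nat_lit 152) (nat_lit 9395890296) (nat_lit 76) (nat_lit 21593784876) (nat_lit 10) (nat_lit 5) (nat_lit 12) (nat_lit 5) (nat_lit 11) (nat_lit 4) (nat_lit 371) (nat_lit 242) (nat_lit 167)) (XT.nd (nat_lit 78) (nat_lit 76) (nat_lit 0) (XT.lf (nat_lit 0) (nat_lit 10270299556) (nat_lit 152) (nat_lit 2688379966) (nat_lit 76) (nat_lit 25974202572) (nat_lit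 10) (nat_lit 5) (nat_lit 12) (nat_lit 5) (nat_lit 11) (nat_lit 4) (nat_lit 372) (nat_lit 242) (nat_lit 166)) (XT.lf (nat_lit 0) (nat_lit 4267688271) (nat_lit 76) (nat_lit 9469190975) (nat_lit 152) (nat_lit 26244177369) (nat_lit 9) (nat_lit 5) (nat_lit 10) (nat_lit 5) (nat_lit 11) (nat_lit 4) (nat_lit 373) (nat_lit 242) (nat_lit 165))))) (XT.nd (nat_lit 234) (nat_lit 76) (nat_lit 0) (XT.nd (nat_lit 78) (nat_lit 0) (nat_lit 0) (XT.lf (nat_lit 0) (nat_lit 11451954743) (nat_lit 76) (nat_lit 5862753667) (nat_lit 152) (nat_lit 23745760742) (nat_lit 9) (nat_lit 5) (nat_lit 10) (nat_lit 5) (nat_lit 11) (nat_lit 4) (nat_lit 374) (nat_lit 242) (nat_lit 164)) (XT.nd (nat_lit 78) (nat_lit 0) (nat_lit 0) (XT.lf (nat_lit 0) (nat_lit 18817192931) (nat_lit 76) (nat_lit 2163363709) (nat_lit 152) (nat_lit 21192296942) (nat_lit 9) (nat_lit 5) (nat_lit 10) (nat_lit 5) (nat_lit 11) (nat_lit 4) (nat_lit 375) (nat_lit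 242) (nat_lit 163)) (XT.lf (nat_lit 0) (nat_lit 24753316921) (nat_lit 152) (nat_lit 16965033226) (nat_lit 0) (nat_lit 1600361052) (nat_lit 9) (nat_lit 5) (nat_lit 11) (nat_lit 4) (nat_lit 9) (nat_lit 4) (nat_lit 376) (nat_lit 242) (nat_lit 162)))) (XT.nd (nat_lit 78) (nat_lit 76) (nat_lit 0) (XT.lf (nat_lit 0) (nat_lit 28642334358) (nat_lit 152) (nat_lit 10437096611) (nat_lit 0) (nat_lit 5419430808) (nat_lit 9) (nat_lit 5) (nat_lit 11) (nat_lit 4) (nat_lit 9) (nat_lit 4) (nat_lit 377) (nat_lit 242) (nat_lit 161)) (XT.nd (nat_lit 78) (nat_lit 76) (nat_lit 0) (XT.lf (nat_lit 0) (nat_lit 32630211549) (nat_lit 152) (nat_lit 3745351211) (nat_lit 0) (nat_lit 9339397629) (nat_lit 9) (nat_lit 5) (nat_lit 11) (nat_lit 4) (nat_lit 9) (nat_lit 4) (nat_lit 378) (nat_lit 242) (nat_lit 160)) (XT.lf (nat_lit 0) (nat_lit 3178065639) (nat_lit 76) (nat_lit 33572916917) (nat_lit 76) (nat_lit 10216170599) (nat_lit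 8) (nat_lit 4) (nat_lit 9) (nat_lit 5) (nat_lit 9) (nat_lit 4) (nat_lit 379) (nat_lit 242) (nat_lit 159))))))))
noncomputable def xc63 : XT := (XT.nd (nat_lit 34008) (nat_lit 0) (nat_lit 3876) (XT.nd (nat_lit 936) (nat_lit 76) (nat_lit 0) (XT.nd (nat_lit 468) (nat_lit 76) (nat_lit 0) (XT.nd (nat_lit 234) (nat_lit 76) (nat_lit 0) (XT.nd (nat_lit 78) (nat_lit 0) (nat_lit 0) (XT.lf (nat_lit 0) (nat_lit 10355169471) (nat_lit 76) (nat_lit 30660943581) (nat_lit 76) (nat_lit 7240185226) (nat_lit 8) (nat_lit 4) (nat_lit 9) (nat_lit 5) (nat_lit 9) (nat_lit 4) (nat_lit 380) (nat_lit 242) (nat_lit 158)) (XT.nd (nat_lit 78) (nat_lit 0) (nat_lit 0) (XT.lf (nat_lit 0) (nat_lit 17717691706) (nat_lit 76) (nat_lit 27674919012) (nat_lit 76) (nat_lit 4192013049) (nat_lit 8) (nat_lit 4) (nat_lit 9) (nat_lit 5) (nat_lit 9) (nat_lit 4) (nat_lit 381) (nat_lit 242) (nat_lit 157)) (XT.lf (nat_lit 0) (nat_lit 25272065617)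 (nat_lit 76) (nat_lit 24612234063) (nat_lit 76) (nat_lit 1068990615) (nat_lit 8) (nat_lit 4) (nat_lit 9) (nat_lit 5) (nat_lit 9) (nat_lit 4) (nat_lit 382) (nat_lit 242) (nat_lit 156)))) (XT.nd (nat_lit 78) (nat_lit 0) (nat_lit 0) (XT.lf (nat_lit 0) (nat_lit 2090015521) (nat_lit 152) (nat_lit 19359092021) (nat_lit 76) (nat_lit 30913771533) (nat_lit 7) (nat_lit 5) (nat_lit 9) (nat_lit 5) (nat_lit 8) (nat_lit 4) (nat_lit 383) (nat_lit 242) (nat_lit 155)) (XT.nd (nat_lit 78) (nat_lit 0) (nat_lit 0) (XT.lf (nat_lit 0) (nat_lit 5306969132) (nat_lit 152) (nat_lit 12885550056) (nat_lit 76) (nat_lit 35622386392) (nat_lit 7) (nat_lit 5) (nat_lit 9) (nat_lit 5) (nat_lit 8) (nat_lit 4) (nat_lit 384) (nat_lit 242) (nat_lit 154)) (XT.lf (nat_lit 0) (nat_lit 8605541006) (nat_lit 152) (nat_lit 6244666497) (nat_lit 76) (nat_lit 40460739343) (nat_lit 7) (nat_lit 5) (nat_lit 9) (nat_lit 5) (nat_lit 8) (nat_lit 4)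 (nat_lit 385) (nat_lit 242) (nat_lit 153))))) (XT.nd (nat_lit 234) (nat_lit 0) (nat_lit 0) (XT.nd (nat_lit 78) (nat_lit 0) (nat_lit 0) (XT.lf (nat_lit 0) (nat_lit 580692775) (nat_lit 76) (nat_lit 11413502588) (nat_lit 152) (nat_lit 44857947270) (nat_lit 6) (nat_lit 5) (nat_lit 7) (nat_lit 5) (nat_lit 8) (nat_lit 4) (nat_lit 386) (nat_lit 242) (nat_lit 152)) (XT.nd (nat_lit 78) (nat_lit 0) (nat_lit 0) (XT.lf (nat_lit 0) (nat_lit 7712995876) (nat_lit 76) (nat_lit 7820288524) (nat_lit 152) (nat_lit 42904833482) (nat_lit 6) (nat_lit 5) (nat_lit 7) (nat_lit 5) (nat_lit 8) (nat_lit 4) (nat_lit 387) (nat_lit 242) (nat_lit 151)) (XT.lf (nat_lit 0) (nat_lit 15034193805) (nat_lit 76) (nat_lit 4130484498) (nat_lit 152) (nat_lit 40907416759) (nat_lit 6) (nat_lit 5) (nat_lit 7) (nat_lit 5) (nat_lit 8) (nat_lit 4) (nat_lit 388) (nat_lit 242) (nat_lit 150)))) (XT.nd (nat_lit 78) (nat_lit 0) (nat_lit 0) (XT.lf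 (nat_lit 0) (nat_lit 22550683726) (nat_lit 76) (nat_lit 340866408) (nat_lit 152) (nat_lit 38863951786) (nat_lit 6) (nat_lit 5) (nat_lit 7) (nat_lit 5) (nat_lit 8) (nat_lit 4) (nat_lit 389) (nat_lit 242) (nat_lit 149)) (XT.nd (nat_lit 78) (nat_lit 0) (nat_lit 0) (XT.lf (nat_lit 0) (nat_lit 26751299199) (nat_lit 152) (nat_lit 33254918763) (nat_lit 0) (nat_lit 3482567147) (nat_lit 6) (nat_lit 5) (nat_lit 8) (nat_lit 4) (nat_lit 6) (nat_lit 4) (nat_lit 390) (nat_lit 242) (nat_lit 148)) (XT.lf (nat_lit 0) (nat_lit 30717426063) (nat_lit 152) (nat_lit 27153131992) (nat_lit 0) (nat_lit 7403797255) (nat_lit 6) (nat_lit 5) (nat_lit 8) (nat_lit 4) (nat_lit 6) (nat_lit 4) (nat_lit 391) (nat_lit 242) (nat_lit 147)))))) (XT.nd (nat_lit 468) (nat_lit 0) (nat_lit 0) (XT.nd (nat_lit 234) (nat_lit 76) (nat_lit 0) (XT.nd (nat_lit 78) (nat_lit 0) (nat_lit 0) (XT.lf (nat_lit 0) (nat_lit 34790119656) (nat_lit 152)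 (nat_lit 20890849607) (nat_lit 0) (nat_lit 11432901766) (nat_lit 6) (nat_lit 5) (nat_lit 8) (nat_lit 4) (nat_lit 6) (nat_lit 4) (nat_lit 392) (nat_lit 242) (nat_lit 146)) (XT.nd (nat_lit 78) (nat_lit 0) (nat_lit 0) (XT.lf (nat_lit 0) (nat_lit 38972938644) (nat_lit 152) (nat_lit 14462599708) (nat_lit 0) (nat_lit 15573401257) (nat_lit 6) (nat_lit 5) (nat_lit 8) (nat_lit 4) (nat_lit 6) (nat_lit 4) (nat_lit 393) (nat_lit 242) (nat_lit 145)) (XT.lf (nat_lit 0) (nat_lit 43269537916) (nat_lit 152) (nat_lit 7862765381) (nat_lit 0) (nat_lit 19828913638) (nat_lit 6) (nat_lit 5) (nat_lit 8) (nat_lit 4) (nat_lit 6) (nat_lit 4) (nat_lit 394) (nat_lit 242) (nat_lit 144)))) (XT.nd (nat_lit 78) (nat_lit 76) (nat_lit 0) (XT.lf (nat_lit 0) (nat_lit 47683671783) (nat_lit 152) (nat_lit 1085579778) (nat_lit 0) (nat_lit 24203157320) (nat_lit 6) (nat_lit 5) (nat_lit 8) (nat_lit 4) (nat_lit 6) (nat_lit 4) (nat_lit 395)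 (nat_lit 242) (nat_lit 143)) (XT.nd (nat_lit 78) (nat_lit 0) (nat_lit 0) (XT.lf (nat_lit 0) (nat_lit 5991800521) (nat_lit 76) (nat_lit 46284993585) (nat_lit 76) (nat_lit 22765750788) (nat_lit 5) (nat_lit 4) (nat_lit 6) (nat_lit 5) (nat_lit 6) (nat_lit 4) (nat_lit 396) (nat_lit 242) (nat_lit 142)) (XT.lf (nat_lit 0) (nat_lit 13283909566) (nat_lit 76) (nat_lit 43723860911) (nat_lit 76) (nat_lit 20167017787) (nat_lit 5) (nat_lit 4) (nat_lit 6) (nat_lit 5) (nat_lit 6) (nat_lit 4) (nat_lit 397) (nat_lit 242) (nat_lit 141))))) (XT.nd (nat_lit 234) (nat_lit 0) (nat_lit 0) (XT.nd (nat_lit 78) (nat_lit 0) (nat_lit 0) (XT.lf (nat_lit 0) (nat_lit 20775513935) (nat_lit 76) (nat_lit 41094577882) (nat_lit 76) (nat_lit 17501229588) (nat_lit 5) (nat_lit 4) (nat_lit 6) (nat_lit 5) (nat_lit 6) (nat_lit 4) (nat_lit 398) (nat_lit 242) (nat_lit 140)) (XT.nd (nat_lit 78) (nat_lit 0) (nat_lit 0) (XT.lf (nat_lit 0) (nat_lit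 28473159691) (nat_lit 76) (nat_lit 38394847067) (nat_lit 76) (nat_lit 14766056861) (nat_lit 5) (nat_lit 4) (nat_lit 6) (nat_lit 5) (nat_lit 6) (nat_lit 4) (nat_lit 399) (nat_lit 242) (nat_lit 139)) (XT.lf (nat_lit 0) (nat_lit 36383572931) (nat_lit 76) (nat_lit 35622309478) (nat_lit 76) (nat_lit 11959109648) (nat_lit 5) (nat_lit 4) (nat_lit 6) (nat_lit 5) (nat_lit 6) (nat_lit 4) (nat_lit 400) (nat_lit 242) (nat_lit 138)))) (XT.nd (nat_lit 78) (nat_lit 0) (nat_lit 0) (XT.lf (nat_lit 0) (nat_lit 44513665668) (nat_lit 76) (nat_lit 32774542509) (nat_lit 76) (nat_lit 9077935277) (nat_lit 5) (nat_lit 4) (nat_lit 6) (nat_lit 5) (nat_lit 6) (nat_lit 4) (nat_lit 401) (nat_lit 242) (nat_lit 137)) (XT.nd (nat_lit 32214) (nat_lit 0) (nat_lit 9728) (XT.lf (nat_lit 0) (nat_lit 52870541865) (nat_lit 76) (nat_lit 29849057821) (nat_lit 76) (nat_lit 6120016218) (nat_lit 5) (nat_lit 4) (nat_lit 6) (nat_lit 5) (nat_lit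 6) (nat_lit 4) (nat_lit 402) (nat_lit 242) (nat_lit 136)) (XT.lf (nat_lit 0) (nat_lit 3511074331) (nat_lit 532) (nat_lit 204520712) (nat_lit 532) (nat_lit 204520712) (nat_lit 133) (nat_lit 4) (nat_lit 140) (nat_lit 5) (nat_lit 140) (nat_lit 4) (nat_lit 294) (nat_lit 243) (nat_lit 243))))))) (XT.nd (nat_lit 936) (nat_lit 2280) (nat_lit 0) (XT.nd (nat_lit 468) (nat_lit 1596) (nat_lit 0) (XT.nd (nat_lit 234) (nat_lit 912) (nat_lit 0) (XT.nd (nat_lit 78) (nat_lit 532) (nat_lit 0) (XT.lf (nat_lit 0) (nat_lit 2887691668) (nat_lit 532) (nat_lit 3420512803) (nat_lit 0) (nat_lit 1620561174) (nat_lit 126) (nat_lit 5) (nat_lit 133) (nat_lit 4) (nat_lit 126) (nat_lit 4) (nat_lit 295) (nat_lit 243) (nat_lit 242)) (XT.nd (nat_lit 78) (nat_lit 76) (nat_lit 0) (XT.lf (nat_lit 0) (nat_lit 1914216140) (nat_lit 456) (nat_lit 4302446112) (nat_lit 456) (nat_lit 1805091838) (nat_lit 120) (nat_lit 4) (nat_lit 126) (nat_lit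 5) (nat_lit 126) (nat_lit 4) (nat_lit 296) (nat_lit 243) (nat_lit 241)) (XT.lf (nat_lit 0) (nat_lit 1444359593) (nat_lit 532) (nat_lit 759696318) (nat_lit 76) (nat_lit 5914806396) (nat_lit 119) (nat_lit 5) (nat_lit 126) (nat_lit 5) (nat_lit 120) (nat_lit 4) (nat_lit 297) (nat_lit 243) (nat_lit 240)))) (XT.nd (nat_lit 78) (nat_lit 532) (nat_lit 0) (XT.lf (nat_lit 0) (nat_lit 4714320678) (nat_lit 456) (nat_lit 3501128145) (nat_lit 0) (nat_lit 4271945) (nat_lit 114) (nat_lit 5) (nat_lit 120) (nat_lit 4) (nat_lit 114) (nat_lit 4) (nat_lit 298) (nat_lit 243) (nat_lit 239)) (XT.nd (nat_lit 78) (nat_lit 76) (nat_lit 0) (XT.lf (nat_lit 0) (nat_lit 1964223183) (nat_lit 456) (nat_lit 6081852745) (nat_lit 456) (nat_lit 278766117) (nat_lit 108) (nat_lit 4) (nat_lit 114) (nat_lit 5) (nat_lit 114) (nat_lit 4) (nat_lit 299) (nat_lit 243) (nat_lit 238)) (XT.lf (nat_lit 0) (nat_lit 2936700953) (nat_lit 532) (nat_lit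 902785531) (nat_lit 76) (nat_lit 4594348500) (nat_lit 107) (nat_lit 5) (nat_lit 114) (nat_lit 5) (nat_lit 108) (nat_lit 4) (nat_lit 300) (nat_lit 243) (nat_lit 237))))) (XT.nd (nat_lit 234) (nat_lit 760) (nat_lit 0) (XT.nd (nat_lit 78) (nat_lit 456) (nat_lit 0) (XT.lf (nat_lit 0) (nat_lit 4704507434) (nat_lit 380) (nat_lit 1501940324) (nat_lit 456) (nat_lit 2340799965) (nat_lit 102) (nat_lit 5) (nat_lit 107) (nat_lit 5) (nat_lit 108) (nat_lit 4) (nat_lit 301) (nat_lit 243) (nat_lit 236)) (XT.nd (nat_lit 78) (nat_lit 0) (nat_lit 0) (XT.lf (nat_lit 0) (nat_lit 846053123) (nat_lit 456) (nat_lit 6918304419) (nat_lit 76) (nat_lit 900962689) (nat_lit 96) (nat_lit 5) (nat_lit 102) (nat_lit 5) (nat_lit 97) (nat_lit 4) (nat_lit 302) (nat_lit 243) (nat_lit 235)) (XT.lf (nat_lit 0) (nat_lit 4055349983) (nat_lit 456) (nat_lit 1346295883) (nat_lit 76) (nat_lit 3385501069) (nat_lit 96) (nat_lit 5) (nat_lit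 102) (nat_lit 5) (nat_lit 97) (nat_lit 4) (nat_lit 303) (nat_lit 243) (nat_lit 234)))) (XT.nd (nat_lit 78) (nat_lit 456) (nat_lit 0) (XT.lf (nat_lit 0) (nat_lit 4376001383) (nat_lit 304) (nat_lit 2949151208) (nat_lit 380) (nat_lit 1588669320) (nat_lit 92) (nat_lit 5) (nat_lit 96) (nat_lit 5) (nat_lit 97) (nat_lit 4) (nat_lit 304) (nat_lit 243) (nat_lit 233)) (XT.nd (nat_lit 78) (nat_lit 0) (nat_lit 0) (XT.lf (nat_lit 0) (nat_lit 1157362307) (nat_lit 380) (nat_lit 406654998) (nat_lit 456) (nat_lit 7481494590) (nat_lit 86) (nat_lit 5) (nat_lit 91) (nat_lit 5) (nat_lit 92) (nat_lit 5) (nat_lit 305) (nat_lit 243) (nat_lit 232)) (XT.lf (nat_lit 0) (nat_lit 4770505887) (nat_lit 456) (nat_lit 2204855979) (nat_lit 76) (nat_lit 2205694340) (nat_lit 86) (nat_lit 5) (nat_lit 92) (nat_lit 5) (nat_lit 87) (nat_lit 4) (nat_lit 306) (nat_lit 243) (nat_lit 231)))))) (XT.nd (nat_lit 468) (nat_lit 912) (nat_lit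 0) (XT.nd (nat_lit 234) (nat_lit 684) (nat_lit 0) (XT.nd (nat_lit 78) (nat_lit 380) (nat_lit 0) (XT.lf (nat_lit 0) (nat_lit 3614418843) (nat_lit 304) (nat_lit 4423376536) (nat_lit 380) (nat_lit 1284040143) (nat_lit 82) (nat_lit 5) (nat_lit 86) (nat_lit 5) (nat_lit 87) (nat_lit 4) (nat_lit 307) (nat_lit 243) (nat_lit 230)) (XT.nd (nat_lit 78) (nat_lit 0) (nat_lit 0) (XT.lf (nat_lit 0) (nat_lit 68196247) (nat_lit 304) (nat_lit 1779636648) (nat_lit 380) (nat_lit 7620067143) (nat_lit 77) (nat_lit 5) (nat_lit 81) (nat_lit 5) (nat_lit 82) (nat_lit 5) (nat_lit 308) (nat_lit 243) (nat_lit 229)) (XT.lf (nat_lit 0) (nat_lit 5042250604) (nat_lit 380) (nat_lit 3607507386) (nat_lit 76) (nat_lit 968473004) (nat_lit 77) (nat_lit 5) (nat_lit 82) (nat_lit 5) (nat_lit 78) (nat_lit 4) (nat_lit 309) (nat_lit 243) (nat_lit 228)))) (XT.nd (nat_lit 78) (nat_lit 380) (nat_lit 0) (XT.lf (nat_lit 0) (nat_lit 2285816609)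 (nat_lit 304) (nat_lit 6015523063) (nat_lit 380) (nat_lit 1472761989) (nat_lit 73) (nat_lit 5) (nat_lit 77) (nat_lit 5) (nat_lit 78) (nat_lit 4) (nat_lit 310) (nat_lit 243) (nat_lit 227)) (XT.nd (nat_lit 78) (nat_lit 304) (nat_lit 0) (XT.lf (nat_lit 0) (nat_lit 1656288317) (nat_lit 380) (nat_lit 1620730401) (nat_lit 76) (nat_lit 6658231151) (nat_lit 72) (nat_lit 5) (nat_lit 77) (nat_lit 5) (nat_lit 73) (nat_lit 5) (nat_lit 311) (nat_lit 243) (nat_lit 226)) (XT.lf (nat_lit 0) (nat_lit 4396847044) (nat_lit 304) (nat_lit 426656968) (nat_lit 380) (nat_lit 5278161097) (nat_lit 68) (nat_lit 5) (nat_lit 72) (nat_lit 5) (nat_lit 73) (nat_lit 5) (nat_lit 312) (nat_lit 243) (nat_lit 225))))) (XT.nd (nat_lit 234) (nat_lit 304) (nat_lit 0) (XT.nd (nat_lit 78) (nat_lit 380) (nat_lit 0) (XT.lf (nat_lit 0) (nat_lit 237860429) (nat_lit 228) (nat_lit 7823227897) (nat_lit 304) (nat_lit 2212808275) (nat_lit 65)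 (nat_lit 5) (nat_lit 68) (nat_lit 5) (nat_lit 69) (nat_lit 4) (nat_lit 313) (nat_lit 243) (nat_lit 224)) (XT.nd (nat_lit 78) (nat_lit 304) (nat_lit 0) (XT.lf (nat_lit 0) (nat_lit 921189493) (nat_lit 304) (nat_lit 4086227494) (nat_lit 76) (nat_lit 5443831742) (nat_lit 64) (nat_lit 5) (nat_lit 68) (nat_lit 5) (nat_lit 65) (nat_lit 5) (nat_lit 314) (nat_lit 243) (nat_lit 223)) (XT.lf (nat_lit 0) (nat_lit 1962788618) (nat_lit 304) (nat_lit 2095483550) (nat_lit 380) (nat_lit 6576462976) (nat_lit 60) (nat_lit 5) (nat_lit 64) (nat_lit 5) (nat_lit 65) (nat_lit 5) (nat_lit 315) (nat_lit 243) (nat_lit 222)))) (XT.nd (nat_lit 78) (nat_lit 304) (nat_lit 0) (XT.lf (nat_lit 0) (nat_lit 7275199164) (nat_lit 380) (nat_lit 2650999504) (nat_lit 76) (nat_lit 898030480) (nat_lit 60) (nat_lit 5) (nat_lit 65) (nat_lit 5) (nat_lit 61) (nat_lit 4) (nat_lit 316) (nat_lit 243) (nat_lit 221)) (XT.nd (nat_lit 78) (nat_lit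 76) (nat_lit 0) (XT.lf (nat_lit 0) (nat_lit 3504571086) (nat_lit 228) (nat_lit 7075753138) (nat_lit 304) (nat_lit 439405810) (nat_lit 57) (nat_lit 5) (nat_lit 60) (nat_lit 5) (nat_lit 61) (nat_lit 4) (nat_lit 317) (nat_lit 243) (nat_lit 220)) (XT.lf (nat_lit 0) (nat_lit 2674125816) (nat_lit 304) (nat_lit 1442009208) (nat_lit 76) (nat_lit 7105296237) (nat_lit 56) (nat_lit 5) (nat_lit 60) (nat_lit 5) (nat_lit 57) (nat_lit 5) (nat_lit 318) (nat_lit 243) (nat_lit 219))))))))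
noncomputable def xc64 : XT := (XT.nd (nat_lit 1794) (nat_lit 988) (nat_lit 0) (XT.nd (nat_lit 858) (nat_lit 988) (nat_lit 0) (XT.nd (nat_lit 390) (nat_lit 608) (nat_lit 0) (XT.nd (nat_lit 156) (nat_lit 532) (nat_lit 0) (XT.nd (nat_lit 78) (nat_lit 0) (nat_lit 0) (XT.lf (nat_lit 0) (nat_lit 4811576164) (nat_lit 228) (nat_lit 1046237284) (nat_lit 304) (nat_lit 5571738705) (nat_lit 53) (nat_lit 5) (nat_lit 56) (nat_lit 5) (nat_lit 57) (nat_lit 5) (nat_lit 319) (nat_lit 243) (nat_lit 218)) (XT.lf (nat_lit 0) (nat_lit 9111988778) (nat_lit 304) (nat_lit 473600838) (nat_lit 76) (nat_lit 2059142398) (nat_lit 53) (nat_lit 5) (nat_lit 57) (nat_lit 5) (nat_lit 54) (nat_lit 4) (nat_lit 320) (nat_lit 243) (nat_lit 217))) (XT.nd (nat_lit 78) (nat_lit 228) (nat_lit 0) (XT.lf (nat_lit 0) (nat_lit 594254360) (nat_lit 304) (nat_lit 6001999437) (nat_lit 76) (nat_lit 5269747429) (nat_lit 49) (nat_lit 5) (nat_lit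 53) (nat_lit 5) (nat_lit 50) (nat_lit 5) (nat_lit 321) (nat_lit 243) (nat_lit 216)) (XT.nd (nat_lit 78) (nat_lit 0) (nat_lit 0) (XT.lf (nat_lit 0) (nat_lit 196762215) (nat_lit 228) (nat_lit 3516018133) (nat_lit 304) (nat_lit 8381976311) (nat_lit 46) (nat_lit 5) (nat_lit 49) (nat_lit 5) (nat_lit 50) (nat_lit 5) (nat_lit 322) (nat_lit 243) (nat_lit 215)) (XT.lf (nat_lit 0) (nat_lit 6615771425) (nat_lit 228) (nat_lit 312441050) (nat_lit 304) (nat_lit 5402119215) (nat_lit 46) (nat_lit 5) (nat_lit 49) (nat_lit 5) (nat_lit 50) (nat_lit 5) (nat_lit 323) (nat_lit 243) (nat_lit 214))))) (XT.nd (nat_lit 234) (nat_lit 152) (nat_lit 0) (XT.nd (nat_lit 78) (nat_lit 304) (nat_lit 0) (XT.lf (nat_lit 0) (nat_lit 548775301) (nat_lit 152) (nat_lit 9669438374) (nat_lit 228) (nat_lit 2355472884) (nat_lit 44) (nat_lit 5) (nat_lit 46) (nat_lit 5) (nat_lit 47) (nat_lit 4) (nat_lit 324) (nat_lit 243) (nat_lit 213)) (XT.nd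 (nat_lit 78) (nat_lit 228) (nat_lit 0) (XT.lf (nat_lit 0) (nat_lit 772983828) (nat_lit 228) (nat_lit 5804541593) (nat_lit 76) (nat_lit 6246473092) (nat_lit 43) (nat_lit 5) (nat_lit 46) (nat_lit 5) (nat_lit 44) (nat_lit 5) (nat_lit 325) (nat_lit 243) (nat_lit 212)) (XT.lf (nat_lit 0) (nat_lit 503607838) (nat_lit 228) (nat_lit 3395117856) (nat_lit 304) (nat_lit 9183922301) (nat_lit 40) (nat_lit 5) (nat_lit 43) (nat_lit 5) (nat_lit 44) (nat_lit 5) (nat_lit 326) (nat_lit 243) (nat_lit 211)))) (XT.nd (nat_lit 78) (nat_lit 152) (nat_lit 0) (XT.lf (nat_lit 0) (nat_lit 7035488789) (nat_lit 228) (nat_lit 88061147) (nat_lit 304) (nat_lit 6225397274) (nat_lit 40) (nat_lit 5) (nat_lit 43) (nat_lit 5) (nat_lit 44) (nat_lit 5) (nat_lit 327) (nat_lit 243) (nat_lit 210)) (XT.nd (nat_lit 78) (nat_lit 0) (nat_lit 0) (XT.lf (nat_lit 0) (nat_lit 25339878) (nat_lit 152) (nat_lit 10399876292) (nat_lit 228) (nat_lit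 3198664422) (nat_lit 38) (nat_lit 5) (nat_lit 40) (nat_lit 5) (nat_lit 41) (nat_lit 4) (nat_lit 328) (nat_lit 243) (nat_lit 209)) (XT.lf (nat_lit 0) (nat_lit 6600301014) (nat_lit 152) (nat_lit 7238927789) (nat_lit 228) (nat_lit 67480989) (nat_lit 38) (nat_lit 5) (nat_lit 40) (nat_lit 5) (nat_lit 41) (nat_lit 4) (nat_lit 329) (nat_lit 243) (nat_lit 208)))))) (XT.nd (nat_lit 468) (nat_lit 380) (nat_lit 0) (XT.nd (nat_lit 234) (nat_lit 380) (nat_lit 0) (XT.nd (nat_lit 78) (nat_lit 152) (nat_lit 0) (XT.lf (nat_lit 0) (nat_lit 3045657557) (nat_lit 228) (nat_lit 937040136) (nat_lit 76) (nat_lit 10215970511) (nat_lit 37) (nat_lit 5) (nat_lit 40) (nat_lit 5) (nat_lit 38) (nat_lit 5) (nat_lit 330) (nat_lit 243) (nat_lit 207)) (XT.nd (nat_lit 78) (nat_lit 0) (nat_lit 0) (XT.lf (nat_lit 0) (nat_lit 5654266737) (nat_lit 152) (nat_lit 602022892) (nat_lit 228) (nat_lit 8242954771) (nat_lit 35) (nat_lit 5) (nat_lit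 37) (nat_lit 5) (nat_lit 38) (nat_lit 5) (nat_lit 331) (nat_lit 243) (nat_lit 206)) (XT.lf (nat_lit 0) (nat_lit 9551972467) (nat_lit 228) (nat_lit 2453050237) (nat_lit 76) (nat_lit 2804194721) (nat_lit 35) (nat_lit 5) (nat_lit 38) (nat_lit 5) (nat_lit 36) (nat_lit 4) (nat_lit 332) (nat_lit 243) (nat_lit 205)))) (XT.nd (nat_lit 78) (nat_lit 228) (nat_lit 0) (XT.lf (nat_lit 0) (nat_lit 4128301601) (nat_lit 152) (nat_lit 8816772293) (nat_lit 228) (nat_lit 2183499595) (nat_lit 33) (nat_lit 5) (nat_lit 35) (nat_lit 5) (nat_lit 36) (nat_lit 4) (nat_lit 333) (nat_lit 243) (nat_lit 204)) (XT.nd (nat_lit 78) (nat_lit 152) (nat_lit 0) (XT.lf (nat_lit 0) (nat_lit 941347969) (nat_lit 228) (nat_lit 4586226304) (nat_lit 76) (nat_lit 9930348787) (nat_lit 32) (nat_lit 5) (nat_lit 35) (nat_lit 5) (nat_lit 33) (nat_lit 5) (nat_lit 334) (nat_lit 243) (nat_lit 203)) (XT.lf (nat_lit 0) (nat_lit 1962005624) (nat_lit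 152) (nat_lit 2127321659) (nat_lit 228) (nat_lit 11708015965) (nat_lit 30) (nat_lit 5) (nat_lit 32) (nat_lit 5) (nat_lit 33) (nat_lit 5) (nat_lit 335) (nat_lit 243) (nat_lit 202))))) (XT.nd (nat_lit 234) (nat_lit 228) (nat_lit 0) (XT.nd (nat_lit 78) (nat_lit 152) (nat_lit 0) (XT.lf (nat_lit 0) (nat_lit 7346479867) (nat_lit 228) (nat_lit 7433806331) (nat_lit 76) (nat_lit 1366253625) (nat_lit 30) (nat_lit 5) (nat_lit 33) (nat_lit 5) (nat_lit 31) (nat_lit 4) (nat_lit 336) (nat_lit 243) (nat_lit 201)) (XT.nd (nat_lit 78) (nat_lit 152) (nat_lit 0) (XT.lf (nat_lit 0) (nat_lit 10678474386) (nat_lit 228) (nat_lit 934371317) (nat_lit 76) (nat_lit 4894087527) (nat_lit 30) (nat_lit 5) (nat_lit 33) (nat_lit 5) (nat_lit 31) (nat_lit 4) (nat_lit 337) (nat_lit 243) (nat_lit 200)) (XT.lf (nat_lit 0) (nat_lit 5802319811) (nat_lit 152) (nat_lit 8321228812) (nat_lit 228) (nat_lit 2754229963) (nat_lit 28) (nat_lit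 5) (nat_lit 30) (nat_lit 5) (nat_lit 31) (nat_lit 4) (nat_lit 338) (nat_lit 243) (nat_lit 199)))) (XT.nd (nat_lit 78) (nat_lit 152) (nat_lit 0) (XT.lf (nat_lit 0) (nat_lit 371173165) (nat_lit 228) (nat_lit 4574390734) (nat_lit 76) (nat_lit 12315088589) (nat_lit 27) (nat_lit 5) (nat_lit 30) (nat_lit 5) (nat_lit 28) (nat_lit 5) (nat_lit 339) (nat_lit 243) (nat_lit 198)) (XT.nd (nat_lit 78) (nat_lit 0) (nat_lit 0) (XT.lf (nat_lit 0) (nat_lit 2065686714) (nat_lit 152) (nat_lit 1447852627) (nat_lit 228) (nat_lit 14141329311) (nat_lit 25) (nat_lit 5) (nat_lit 27) (nat_lit 5) (nat_lit 28) (nat_lit 5) (nat_lit 340) (nat_lit 243) (nat_lit 197)) (XT.lf (nat_lit 0) (nat_lit 6776520888) (nat_lit 228) (nat_lit 9151330915) (nat_lit 76) (nat_lit 2132299146) (nat_lit 25) (nat_lit 5) (nat_lit 28) (nat_lit 5) (nat_lit 26) (nat_lit 4) (nat_lit 341) (nat_lit 243) (nat_lit 196))))))) (XT.nd (nat_lit 936) (nat_lit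 380) (nat_lit 0) (XT.nd (nat_lit 468) (nat_lit 304) (nat_lit 0) (XT.nd (nat_lit 234) (nat_lit 228) (nat_lit 0) (XT.nd (nat_lit 78) (nat_lit 76) (nat_lit 0) (XT.lf (nat_lit 0) (nat_lit 10111903265) (nat_lit 228) (nat_lit 2602030884) (nat_lit 76) (nat_lit 5764451332) (nat_lit 25) (nat_lit 5) (nat_lit 28) (nat_lit 5) (nat_lit 26) (nat_lit 4) (nat_lit 342) (nat_lit 243) (nat_lit 195)) (XT.nd (nat_lit 78) (nat_lit 0) (nat_lit 0) (XT.lf (nat_lit 0) (nat_lit 4159525820) (nat_lit 76) (nat_lit 9389141325) (nat_lit 152) (nat_lit 5360488560) (nat_lit 24) (nat_lit 5) (nat_lit 25) (nat_lit 5) (nat_lit 26) (nat_lit 4) (nat_lit 343) (nat_lit 243) (nat_lit 194)) (XT.lf (nat_lit 0) (nat_lit 11112519726) (nat_lit 76) (nat_lit 5964129483) (nat_lit 152) (nat_lit 2276583806) (nat_lit 24) (nat_lit 5) (nat_lit 25) (nat_lit 5) (nat_lit 26) (nat_lit 4) (nat_lit 344) (nat_lit 243) (nat_lit 193)))) (XT.nd (nat_lit 78) (nat_lit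 152) (nat_lit 0) (XT.lf (nat_lit 0) (nat_lit 844837389) (nat_lit 152) (nat_lit 1608812714) (nat_lit 76) (nat_lit 17357872156) (nat_lit 23) (nat_lit 5) (nat_lit 25) (nat_lit 5) (nat_lit 24) (nat_lit 5) (nat_lit 345) (nat_lit 243) (nat_lit 192)) (XT.nd (nat_lit 78) (nat_lit 0) (nat_lit 0) (XT.lf (nat_lit 0) (nat_lit 4039811575) (nat_lit 228) (nat_lit 15054162279) (nat_lit 76) (nat_lit 1188165198) (nat_lit 21) (nat_lit 5) (nat_lit 24) (nat_lit 5) (nat_lit 22) (nat_lit 4) (nat_lit 346) (nat_lit 243) (nat_lit 191)) (XT.lf (nat_lit 0) (nat_lit 7335211748) (nat_lit 228) (nat_lit 8550024628) (nat_lit 76) (nat_lit 4881525047) (nat_lit 21) (nat_lit 5) (nat_lit 24) (nat_lit 5) (nat_lit 22) (nat_lit 4) (nat_lit 347) (nat_lit 243) (nat_lit 190))))) (XT.nd (nat_lit 234) (nat_lit 228) (nat_lit 0) (XT.nd (nat_lit 78) (nat_lit 76) (nat_lit 0) (XT.lf (nat_lit 0) (nat_lit 10694402558) (nat_lit 228) (nat_lit 1910988352)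 (nat_lit 76) (nat_lit 8661607363) (nat_lit 21) (nat_lit 5) (nat_lit 24) (nat_lit 5) (nat_lit 22) (nat_lit 4) (nat_lit 348) (nat_lit 243) (nat_lit 189)) (XT.nd (nat_lit 78) (nat_lit 0) (nat_lit 0) (XT.lf (nat_lit 0) (nat_lit 4965645274) (nat_lit 76) (nat_lit 9202406766) (nat_lit 152) (nat_lit 7613802676) (nat_lit 20) (nat_lit 5) (nat_lit 21) (nat_lit 5) (nat_lit 22) (nat_lit 4) (nat_lit 349) (nat_lit 243) (nat_lit 188)) (XT.lf (nat_lit 0) (nat_lit 12029853182) (nat_lit 76) (nat_lit 5701740379) (nat_lit 152) (nat_lit 4581015122) (nat_lit 20) (nat_lit 5) (nat_lit 21) (nat_lit 5) (nat_lit 22) (nat_lit 4) (nat_lit 350) (nat_lit 243) (nat_lit 187)))) (XT.nd (nat_lit 78) (nat_lit 228) (nat_lit 0) (XT.lf (nat_lit 0) (nat_lit 19249775566) (nat_lit 76) (nat_lit 2119630151) (nat_lit 152) (nat_lit 1490880279) (nat_lit 20) (nat_lit 5) (nat_lit 21) (nat_lit 5) (nat_lit 22) (nat_lit 4) (nat_lit 351) (nat_lit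 243) (nat_lit 186)) (XT.nd (nat_lit 78) (nat_lit 0) (nat_lit 0) (XT.lf (nat_lit 0) (nat_lit 1673540337) (nat_lit 228) (nat_lit 20185386199) (nat_lit 76) (nat_lit 1564561646) (nat_lit 17) (nat_lit 5) (nat_lit 20) (nat_lit 5) (nat_lit 18) (nat_lit 4) (nat_lit 352) (nat_lit 243) (nat_lit 185)) (XT.lf (nat_lit 0) (nat_lit 4928900501) (nat_lit 228) (nat_lit 13727853625) (nat_lit 76) (nat_lit 5345630128) (nat_lit 17) (nat_lit 5) (nat_lit 20) (nat_lit 5) (nat_lit 18) (nat_lit 4) (nat_lit 353) (nat_lit 243) (nat_lit 184)))))) (XT.nd (nat_lit 468) (nat_lit 152) (nat_lit 0) (XT.nd (nat_lit 234) (nat_lit 152) (nat_lit 0) (XT.nd (nat_lit 78) (nat_lit 76) (nat_lit 0) (XT.lf (nat_lit 0) (nat_lit 8251014334) (nat_lit 228) (nat_lit 7130417453) (nat_lit 76) (nat_lit 9218161876) (nat_lit 17) (nat_lit 5) (nat_lit 20) (nat_lit 5) (nat_lit 18) (nat_lit 4) (nat_lit 354) (nat_lit 243) (nat_lit 183)) (XT.nd (nat_lit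 78) (nat_lit 76) (nat_lit 0) (XT.lf (nat_lit 0) (nat_lit 11642784656) (nat_lit 228) (nat_lit 387312934) (nat_lit 76) (nat_lit 13185540656) (nat_lit 17) (nat_lit 5) (nat_lit 20) (nat_lit 5) (nat_lit 18) (nat_lit 4) (nat_lit 355) (nat_lit 243) (nat_lit 182)) (XT.lf (nat_lit 0) (nat_lit 6636861029) (nat_lit 76) (nat_lit 8534111688) (nat_lit 152) (nat_lit 10678169649) (nat_lit 16) (nat_lit 5) (nat_lit 17) (nat_lit 5) (nat_lit 18) (nat_lit 4) (nat_lit 356) (nat_lit 243) (nat_lit 181)))) (XT.nd (nat_lit 78) (nat_lit 152) (nat_lit 0) (XT.lf (nat_lit 0) (nat_lit 13829464372) (nat_lit 76) (nat_lit 4950685849) (nat_lit 152) (nat_lit 7722264684) (nat_lit 16) (nat_lit 5) (nat_lit 17) (nat_lit 5) (nat_lit 18) (nat_lit 4) (nat_lit 357) (nat_lit 243) (nat_lit 180)) (XT.nd (nat_lit 78) (nat_lit 152) (nat_lit 0) (XT.lf (nat_lit 0) (nat_lit 21189073606) (nat_lit 76) (nat_lit 1280600026) (nat_lit 152) (nat_lit 4706466967)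 (nat_lit 16) (nat_lit 5) (nat_lit 17) (nat_lit 5) (nat_lit 18) (nat_lit 4) (nat_lit 358) (nat_lit 243) (nat_lit 179)) (XT.lf (nat_lit 0) (nat_lit 843844710) (nat_lit 152) (nat_lit 25430866703) (nat_lit 152) (nat_lit 1595238391) (nat_lit 14) (nat_lit 4) (nat_lit 16) (nat_lit 5) (nat_lit 16) (nat_lit 4) (nat_lit 359) (nat_lit 243) (nat_lit 178))))) (XT.nd (nat_lit 234) (nat_lit 76) (nat_lit 0) (XT.nd (nat_lit 78) (nat_lit 0) (nat_lit 0) (XT.lf (nat_lit 0) (nat_lit 1624404095) (nat_lit 228) (nat_lit 20657169243) (nat_lit 76) (nat_lit 6301157074) (nat_lit 13) (nat_lit 5) (nat_lit 16) (nat_lit 5) (nat_lit 14) (nat_lit 4) (nat_lit 360) (nat_lit 243) (nat_lit 177)) (XT.nd (nat_lit 78) (nat_lit 0) (nat_lit 0) (XT.lf (nat_lit 0) (nat_lit 4882112352) (nat_lit 228) (nat_lit 14159634340) (nat_lit 76) (nat_lit 10275482927) (nat_lit 13) (nat_lit 5) (nat_lit 16) (nat_lit 5) (nat_lit 14) (nat_lit 4) (nat_lit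 361) (nat_lit 243) (nat_lit 176)) (XT.lf (nat_lit 0) (nat_lit 8211861768) (nat_lit 228) (nat_lit 7512488520) (nat_lit 76) (nat_lit 14350198965) (nat_lit 13) (nat_lit 5) (nat_lit 16) (nat_lit 5) (nat_lit 14) (nat_lit 4) (nat_lit 362) (nat_lit 243) (nat_lit 175)))) (XT.nd (nat_lit 78) (nat_lit 76) (nat_lit 0) (XT.lf (nat_lit 0) (nat_lit 11616561832) (nat_lit 228) (nat_lit 709923597) (nat_lit 76) (nat_lit 18528865620) (nat_lit 13) (nat_lit 5) (nat_lit 16) (nat_lit 5) (nat_lit 14) (nat_lit 4) (nat_lit 363) (nat_lit 243) (nat_lit 174)) (XT.nd (nat_lit 78) (nat_lit 0) (nat_lit 0) (XT.lf (nat_lit 0) (nat_lit 6378471367) (nat_lit 76) (nat_lit 8782029927) (nat_lit 152) (nat_lit 16497976556) (nat_lit 12) (nat_lit 5) (nat_lit 13) (nat_lit 5) (nat_lit 14) (nat_lit 4) (nat_lit 364) (nat_lit 243) (nat_lit 173)) (XT.lf (nat_lit 0) (nat_lit 13651775825) (nat_lit 76) (nat_lit 5142235315) (nat_lit 152) (nat_lit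 13692203245) (nat_lit 12) (nat_lit 5) (nat_lit 13) (nat_lit 5) (nat_lit 14) (nat_lit 4) (nat_lit 365) (nat_lit 243) (nat_lit 172))))))))
noncomputable def xc65 : XT := (XT.nd (nat_lit 1794) (nat_lit 76) (nat_lit 0) (XT.nd (nat_lit 858) (nat_lit 228) (nat_lit 0) (XT.nd (nat_lit 390) (nat_lit 76) (nat_lit 0) (XT.nd (nat_lit 156) (nat_lit 152) (nat_lit 0) (XT.nd (nat_lit 78) (nat_lit 0) (nat_lit 0) (XT.lf (nat_lit 0) (nat_lit 21102216219) (nat_lit 76) (nat_lit 1411090025) (nat_lit 152) (nat_lit 10826186476) (nat_lit 12) (nat_lit 5) (nat_lit 13) (nat_lit 5) (nat_lit 14) (nat_lit 4) (nat_lit 366) (nat_lit 243) (nat_lit 171)) (XT.lf (nat_lit 0) (nat_lit 26344847726) (nat_lit 152) (nat_lit 5505967044) (nat_lit 0) (nat_lit 2367547331) (nat_lit 12) (nat_lit 5) (nat_lit 14) (nat_lit 4) (nat_lit 12) (nat_lit 4) (nat_lit 367) (nat_lit 243) (nat_lit 170))) (XT.nd (nat_lit 78) (nat_lit 76) (nat_lit 0) (XT.lf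 (nat_lit 0) (nat_lit 1401444444) (nat_lit 76) (nat_lit 28895284953) (nat_lit 76) (nat_lit 4826718700) (nat_lit 11) (nat_lit 4) (nat_lit 12) (nat_lit 5) (nat_lit 12) (nat_lit 4) (nat_lit 368) (nat_lit 243) (nat_lit 169)) (XT.nd (nat_lit 78) (nat_lit 76) (nat_lit 0) (XT.lf (nat_lit 0) (nat_lit 8590116355) (nat_lit 76) (nat_lit 25810870802) (nat_lit 76) (nat_lit 1653696919) (nat_lit 11) (nat_lit 4) (nat_lit 12) (nat_lit 5) (nat_lit 12) (nat_lit 4) (nat_lit 369) (nat_lit 243) (nat_lit 168)) (XT.lf (nat_lit 0) (nat_lit 1561644256) (nat_lit 152) (nat_lit 21073062866) (nat_lit 76) (nat_lit 14379336710) (nat_lit 10) (nat_lit 5) (nat_lit 12) (nat_lit 5) (nat_lit 11) (nat_lit 4) (nat_lit 370) (nat_lit 243) (nat_lit 167))))) (XT.nd (nat_lit 234) (nat_lit 76) (nat_lit 0) (XT.nd (nat_lit 78) (nat_lit 0) (nat_lit 0) (XT.lf (nat_lit 0) (nat_lit 4819464069) (nat_lit 152) (nat_lit 14543209836) (nat_lit 76) (nat_lit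 18639652572) (nat_lit 10) (nat_lit 5) (nat_lit 12) (nat_lit 5) (nat_lit 11) (nat_lit 4) (nat_lit 371) (nat_lit 243) (nat_lit 166)) (XT.nd (nat_lit 78) (nat_lit 0) (nat_lit 0) (XT.lf (nat_lit 0) (nat_lit 8154878740) (nat_lit 152) (nat_lit 7853406586) (nat_lit 76) (nat_lit 23012587121) (nat_lit 10) (nat_lit 5) (nat_lit 12) (nat_lit 5) (nat_lit 11) (nat_lit 4) (nat_lit 372) (nat_lit 243) (nat_lit 165)) (XT.lf (nat_lit 0) (nat_lit 11570802711) (nat_lit 152) (nat_lit 997807657) (nat_lit 76) (nat_lit 27501961366) (nat_lit 10) (nat_lit 5) (nat_lit 12) (nat_lit 5) (nat_lit 11) (nat_lit 4) (nat_lit 373) (nat_lit 243) (nat_lit 164)))) (XT.nd (nat_lit 78) (nat_lit 0) (nat_lit 0) (XT.lf (nat_lit 0) (nat_lit 6149577688) (nat_lit 76) (nat_lit 8979756582) (nat_lit 152) (nat_lit 26021233877) (nat_lit 9) (nat_lit 5) (nat_lit 10) (nat_lit 5) (nat_lit 11) (nat_lit 4) (nat_lit 374) (nat_lit 243) (nat_lit 163)) (XT.nd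 (nat_lit 78) (nat_lit 0) (nat_lit 0) (XT.lf (nat_lit 0) (nat_lit 13498288889) (nat_lit 76) (nat_lit 5287655576) (nat_lit 152) (nat_lit 23477290057) (nat_lit 9) (nat_lit 5) (nat_lit 10) (nat_lit 5) (nat_lit 11) (nat_lit 4) (nat_lit 375) (nat_lit 243) (nat_lit 162)) (XT.lf (nat_lit 0) (nat_lit 21034888820) (nat_lit 76) (nat_lit 1499157143) (nat_lit 152) (nat_lit 20875790600) (nat_lit 9) (nat_lit 5) (nat_lit 10) (nat_lit 5) (nat_lit 11) (nat_lit 4) (nat_lit 376) (nat_lit 243) (nat_lit 161)))))) (XT.nd (nat_lit 468) (nat_lit 152) (nat_lit 0) (XT.nd (nat_lit 234) (nat_lit 76) (nat_lit 0) (XT.nd (nat_lit 78) (nat_lit 0) (nat_lit 0) (XT.lf (nat_lit 0) (nat_lit 26399878808) (nat_lit 152) (nat_lit 15848378300) (nat_lit 0) (nat_lit 2342430100) (nat_lit 9) (nat_lit 5) (nat_lit 11) (nat_lit 4) (nat_lit 9) (nat_lit 4) (nat_lit 377) (nat_lit 243) (nat_lit 160)) (XT.nd (nat_lit 78) (nat_lit 0) (nat_lit 0) (XT.lf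 (nat_lit 0) (nat_lit 30379237767) (nat_lit 152) (nat_lit 9171951333) (nat_lit 0) (nat_lit 6255856662) (nat_lit 9) (nat_lit 5) (nat_lit 11) (nat_lit 4) (nat_lit 9) (nat_lit 4) (nat_lit 378) (nat_lit 243) (nat_lit 159)) (XT.lf (nat_lit 0) (nat_lit 34461189137) (nat_lit 152) (nat_lit 2325422255) (nat_lit 0) (nat_lit 10273795994) (nat_lit 9) (nat_lit 5) (nat_lit 11) (nat_lit 4) (nat_lit 9) (nat_lit 4) (nat_lit 379) (nat_lit 243) (nat_lit 158)))) (XT.nd (nat_lit 78) (nat_lit 0) (nat_lit 0) (XT.lf (nat_lit 0) (nat_lit 4790674655) (nat_lit 76) (nat_lit 33904675910) (nat_lit 76) (nat_lit 9655135159) (nat_lit 8) (nat_lit 4) (nat_lit 9) (nat_lit 5) (nat_lit 9) (nat_lit 4) (nat_lit 380) (nat_lit 243) (nat_lit 157)) (XT.nd (nat_lit 78) (nat_lit 0) (nat_lit 0) (XT.lf (nat_lit 0) (nat_lit 12138899357) (nat_lit 76) (nat_lit 30925016049) (nat_lit 76) (nat_lit 6615137813) (nat_lit 8) (nat_lit 4) (nat_lit 9) (nat_lit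 5) (nat_lit 9) (nat_lit 4) (nat_lit 381) (nat_lit 243) (nat_lit 156)) (XT.lf (nat_lit 0) (nat_lit 19679392168) (nat_lit 76) (nat_lit 27868510428) (nat_lit 76) (nat_lit 3500052110) (nat_lit 8) (nat_lit 4) (nat_lit 9) (nat_lit 5) (nat_lit 9) (nat_lit 4) (nat_lit 382) (nat_lit 243) (nat_lit 155))))) (XT.nd (nat_lit 234) (nat_lit 76) (nat_lit 0) (XT.nd (nat_lit 78) (nat_lit 76) (nat_lit 0) (XT.lf (nat_lit 0) (nat_lit 27418741868) (nat_lit 76) (nat_lit 24732488313) (nat_lit 76) (nat_lit 307156130) (nat_lit 8) (nat_lit 4) (nat_lit 9) (nat_lit 5) (nat_lit 9) (nat_lit 4) (nat_lit 383) (nat_lit 243) (nat_lit 154)) (XT.nd (nat_lit 78) (nat_lit 0) (nat_lit 0) (XT.lf (nat_lit 0) (nat_lit 2908456057) (nat_lit 152) (nat_lit 18576383731) (nat_lit 76) (nat_lit 32425885234) (nat_lit 7) (nat_lit 5) (nat_lit 9) (nat_lit 5) (nat_lit 8) (nat_lit 4) (nat_lit 384) (nat_lit 243) (nat_lit 153)) (XT.lf (nat_lit 0) (nat_lit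 6199906430) (nat_lit 152) (nat_lit 11948348547) (nat_lit 76) (nat_lit 37258728426) (nat_lit 7) (nat_lit 5) (nat_lit 9) (nat_lit 5) (nat_lit 8) (nat_lit 4) (nat_lit 385) (nat_lit 243) (nat_lit 152)))) (XT.nd (nat_lit 78) (nat_lit 76) (nat_lit 0) (XT.lf (nat_lit 0) (nat_lit 9576064735) (nat_lit 152) (nat_lit 5146794831) (nat_lit 76) (nat_lit 42225697874) (nat_lit 7) (nat_lit 5) (nat_lit 9) (nat_lit 5) (nat_lit 8) (nat_lit 4) (nat_lit 386) (nat_lit 243) (nat_lit 151)) (XT.nd (nat_lit 78) (nat_lit 0) (nat_lit 0) (XT.lf (nat_lit 0) (nat_lit 1870725105) (nat_lit 76) (nat_lit 11187138462) (nat_lit 152) (nat_lit 45478391099) (nat_lit 6) (nat_lit 5) (nat_lit 7) (nat_lit 5) (nat_lit 8) (nat_lit 4) (nat_lit 387) (nat_lit 243) (nat_lit 150)) (XT.lf (nat_lit 0) (nat_lit 9179930943) (nat_lit 76) (nat_lit 7502694070) (nat_lit 152) (nat_lit 43487808982) (nat_lit 6) (nat_lit 5) (nat_lit 7) (nat_lit 5) (nat_lit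 8) (nat_lit 4) (nat_lit 388) (nat_lit 243) (nat_lit 149))))))) (XT.nd (nat_lit 936) (nat_lit 0) (nat_lit 0) (XT.nd (nat_lit 468) (nat_lit 76) (nat_lit 0) (XT.nd (nat_lit 234) (nat_lit 0) (nat_lit 0) (XT.nd (nat_lit 78) (nat_lit 0) (nat_lit 0) (XT.lf (nat_lit 0) (nat_lit 16684778056) (nat_lit 76) (nat_lit 3718279508) (nat_lit 152) (nat_lit 41450979549) (nat_lit 6) (nat_lit 5) (nat_lit 7) (nat_lit 5) (nat_lit 8) (nat_lit 4) (nat_lit 389) (nat_lit 243) (nat_lit 148)) (XT.nd (nat_lit 78) (nat_lit 0) (nat_lit 0) (XT.lf (nat_lit 0) (nat_lit 24224040580) (nat_lit 152) (nat_lit 39198339545) (nat_lit 0) (nat_lit 166106153) (nat_lit 6) (nat_lit 5) (nat_lit 8) (nat_lit 4) (nat_lit 6) (nat_lit 4) (nat_lit 390) (nat_lit 243) (nat_lit 147)) (XT.lf (nat_lit 0) (nat_lit 28184050657) (nat_lit 152) (nat_lit 33107665084) (nat_lit 0) (nat_lit 4082527148) (nat_lit 6) (nat_lit 5) (nat_lit 8) (nat_lit 4) (nat_lit 6)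 (nat_lit 4) (nat_lit 391) (nat_lit 243) (nat_lit 146)))) (XT.nd (nat_lit 78) (nat_lit 0) (nat_lit 0) (XT.lf (nat_lit 0) (nat_lit 32250805623) (nat_lit 152) (nat_lit 26856171348) (nat_lit 0) (nat_lit 8106962617) (nat_lit 6) (nat_lit 5) (nat_lit 8) (nat_lit 4) (nat_lit 6) (nat_lit 4) (nat_lit 392) (nat_lit 243) (nat_lit 145)) (XT.nd (nat_lit 78) (nat_lit 0) (nat_lit 0) (XT.lf (nat_lit 0) (nat_lit 36427858953) (nat_lit 152) (nat_lit 20438395867) (nat_lit 0) (nat_lit 12242929056) (nat_lit 6) (nat_lit 5) (nat_lit 8) (nat_lit 4) (nat_lit 6) (nat_lit 4) (nat_lit 393) (nat_lit 243) (nat_lit 144)) (XT.lf (nat_lit 0) (nat_lit 40718860500) (nat_lit 152) (nat_lit 13848730877) (nat_lit 0) (nat_lit 16494040418) (nat_lit 6) (nat_lit 5) (nat_lit 8) (nat_lit 4) (nat_lit 6) (nat_lit 4) (nat_lit 394) (nat_lit 243) (nat_lit 143))))) (XT.nd (nat_lit 234) (nat_lit 0) (nat_lit 0) (XT.nd (nat_lit 78) (nat_lit 76) (nat_lit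 0) (XT.lf (nat_lit 0) (nat_lit 45127559681) (nat_lit 152) (nat_lit 7081418417) (nat_lit 0) (nat_lit 20864011264) (nat_lit 6) (nat_lit 5) (nat_lit 8) (nat_lit 4) (nat_lit 6) (nat_lit 4) (nat_lit 395) (nat_lit 243) (nat_lit 142)) (XT.nd (nat_lit 78) (nat_lit 76) (nat_lit 0) (XT.lf (nat_lit 0) (nat_lit 49657808760) (nat_lit 152) (nat_lit 130545302) (nat_lit 0) (nat_lit 25356660017) (nat_lit 6) (nat_lit 5) (nat_lit 8) (nat_lit 4) (nat_lit 6) (nat_lit 4) (nat_lit 396) (nat_lit 243) (nat_lit 141)) (XT.lf (nat_lit 0) (nat_lit 7149474035) (nat_lit 76) (nat_lit 47232817287) (nat_lit 76) (nat_lit 22895163375) (nat_lit 5) (nat_lit 4) (nat_lit 6) (nat_lit 5) (nat_lit 6) (nat_lit 4) (nat_lit 397) (nat_lit 243) (nat_lit 140)))) (XT.nd (nat_lit 78) (nat_lit 0) (nat_lit 0) (XT.lf (nat_lit 0) (nat_lit 14631863259) (nat_lit 76) (nat_lit 44607687315) (nat_lit 76) (nat_lit 20234591490) (nat_lit 5) (nat_lit 4) (nat_lit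 6) (nat_lit 5) (nat_lit 6) (nat_lit 4) (nat_lit 398) (nat_lit 243) (nat_lit 139)) (XT.nd (nat_lit 78) (nat_lit 0) (nat_lit 0) (XT.lf (nat_lit 0) (nat_lit 22320562272) (nat_lit 76) (nat_lit 41911988594) (nat_lit 76) (nat_lit 17504483145) (nat_lit 5) (nat_lit 4) (nat_lit 6) (nat_lit 5) (nat_lit 6) (nat_lit 4) (nat_lit 399) (nat_lit 243) (nat_lit 138)) (XT.lf (nat_lit 0) (nat_lit 30222289354) (nat_lit 76) (nat_lit 39143365659) (nat_lit 76) (nat_lit 14702452808) (nat_lit 5) (nat_lit 4) (nat_lit 6) (nat_lit 5) (nat_lit 6) (nat_lit 4) (nat_lit 400) (nat_lit 243) (nat_lit 137)))))) (XT.nd (nat_lit 32448) (nat_lit 0) (nat_lit 7372) (XT.nd (nat_lit 32214) (nat_lit 0) (nat_lit 9196) (XT.nd (nat_lit 78) (nat_lit 0) (nat_lit 0) (XT.lf (nat_lit 0) (nat_lit 38343948927) (nat_lit 76) (nat_lit 36299399326) (nat_lit 76) (nat_lit 11826052104) (nat_lit 5) (nat_lit 4) (nat_lit 6) (nat_lit 5) (nat_lit 6) (nat_lit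 4) (nat_lit 401) (nat_lit 243) (nat_lit 136)) (XT.nd (nat_lit 32058) (nat_lit 0) (nat_lit 10260) (XT.lf (nat_lit 0) (nat_lit 46692637587) (nat_lit 76) (nat_lit 33377604575) (nat_lit 76) (nat_lit 8872767672) (nat_lit 5) (nat_lit 4) (nat_lit 6) (nat_lit 5) (nat_lit 6) (nat_lit 4) (nat_lit 402) (nat_lit 243) (nat_lit 135)) (XT.lf (nat_lit 0) (nat_lit 1058363641) (nat_lit 608) (nat_lit 1719128126) (nat_lit 0) (nat_lit 1058363641) (nat_lit 140) (nat_lit 5) (nat_lit 148) (nat_lit 4) (nat_lit 140) (nat_lit 4) (nat_lit 292) (nat_lit 244) (nat_lit 244)))) (XT.nd (nat_lit 78) (nat_lit 532) (nat_lit 0) (XT.lf (nat_lit 0) (nat_lit 1705613882) (nat_lit 532) (nat_lit 3696603642) (nat_lit 532) (nat_lit 2352304901) (nat_lit 133) (nat_lit 4) (nat_lit 140) (nat_lit 5) (nat_lit 140) (nat_lit 4) (nat_lit 293) (nat_lit 244) (nat_lit 243)) (XT.nd (nat_lit 78) (nat_lit 456) (nat_lit 0) (XT.lf (nat_lit 0) (nat_lit 872306406)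 (nat_lit 608) (nat_lit 878661143) (nat_lit 76) (nat_lit 6090419750) (nat_lit 132) (nat_lit 5) (nat_lit 140) (nat_lit 5) (nat_lit 133) (nat_lit 4) (nat_lit 294) (nat_lit 244) (nat_lit 242)) (XT.lf (nat_lit 0) (nat_lit 4103599545) (nat_lit 532) (nat_lit 3526908822) (nat_lit 0) (nat_lit 301100864) (nat_lit 126) (nat_lit 5) (nat_lit 133) (nat_lit 4) (nat_lit 126) (nat_lit 4) (nat_lit 295) (nat_lit 244) (nat_lit 241))))) (XT.nd (nat_lit 234) (nat_lit 912) (nat_lit 0) (XT.nd (nat_lit 78) (nat_lit 456) (nat_lit 0) (XT.lf (nat_lit 0) (nat_lit 1753804640) (nat_lit 456) (nat_lit 5634544989) (nat_lit 456) (nat_lit 637654288) (nat_lit 120) (nat_lit 4) (nat_lit 126) (nat_lit 5) (nat_lit 126) (nat_lit 4) (nat_lit 296) (nat_lit 244) (nat_lit 240)) (XT.nd (nat_lit 78) (nat_lit 380) (nat_lit 0) (XT.lf (nat_lit 0) (nat_lit 2546605578) (nat_lit 532) (nat_lit 986885278) (nat_lit 76) (nat_lit 4590631989) (nat_lit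 119) (nat_lit 5) (nat_lit 126) (nat_lit 5) (nat_lit 120) (nat_lit 4) (nat_lit 297) (nat_lit 244) (nat_lit 239)) (XT.lf (nat_lit 0) (nat_lit 4436122781) (nat_lit 380) (nat_lit 1336510921) (nat_lit 456) (nat_lit 2453738462) (nat_lit 114) (nat_lit 5) (nat_lit 119) (nat_lit 5) (nat_lit 120) (nat_lit 4) (nat_lit 298) (nat_lit 244) (nat_lit 238)))) (XT.nd (nat_lit 78) (nat_lit 380) (nat_lit 0) (XT.lf (nat_lit 0) (nat_lit 700597145) (nat_lit 532) (nat_lit 6709206754) (nat_lit 76) (nat_lit 923251834) (nat_lit 107) (nat_lit 5) (nat_lit 114) (nat_lit 5) (nat_lit 108) (nat_lit 4) (nat_lit 299) (nat_lit 244) (nat_lit 237)) (XT.nd (nat_lit 78) (nat_lit 380) (nat_lit 0) (XT.lf (nat_lit 0) (nat_lit 3870326969) (nat_lit 532) (nat_lit 1304948261) (nat_lit 76) (nat_lit 3267968664) (nat_lit 107) (nat_lit 5) (nat_lit 114) (nat_lit 5) (nat_lit 108) (nat_lit 4) (nat_lit 300) (nat_lit 244) (nat_lit 236)) (XT.lf (nat_lit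 0) (nat_lit 4243944682) (nat_lit 380) (nat_lit 2852578078) (nat_lit 456) (nat_lit 1461505145) (nat_lit 102) (nat_lit 5) (nat_lit 107) (nat_lit 5) (nat_lit 108) (nat_lit 4) (nat_lit 301) (nat_lit 244) (nat_lit 235))))))))
noncomputable def xc66 : XT := (XT.nd (nat_lit 1794) (nat_lit 1900) (nat_lit 0) (XT.nd (nat_lit 858) (nat_lit 1672) (nat_lit 0) (XT.nd (nat_lit 390) (nat_lit 1368) (nat_lit 0) (XT.nd (nat_lit 156) (nat_lit 760) (nat_lit 0) (XT.nd (nat_lit 78) (nat_lit 0) (nat_lit 0) (XT.lf (nat_lit 0) (nat_lit 1216015760) (nat_lit 380) (nat_lit 439252280) (nat_lit 456) (nat_lit 7022227483) (nat_lit 96) (nat_lit 5) (nat_lit 101) (nat_lit 5) (nat_lit 102) (nat_lit 5) (nat_lit 302) (nat_lit 244) (nat_lit 234)) (XT.lf (nat_lit 0) (nat_lit 4821998716) (nat_lit 456) (nat_lit 1935624764) (nat_lit 76) (nat_lit 2043034981) (nat_lit 96) (nat_lit 5) (nat_lit 102) (nat_lit 5) (nat_lit 97) (nat_lit 4) (nat_lit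 303) (nat_lit 244) (nat_lit 233))) (XT.nd (nat_lit 78) (nat_lit 456) (nat_lit 0) (XT.lf (nat_lit 0) (nat_lit 3725061685) (nat_lit 304) (nat_lit 4323255396) (nat_lit 380) (nat_lit 880378405) (nat_lit 92) (nat_lit 5) (nat_lit 96) (nat_lit 5) (nat_lit 97) (nat_lit 4) (nat_lit 304) (nat_lit 244) (nat_lit 232)) (XT.nd (nat_lit 78) (nat_lit 0) (nat_lit 0) (XT.lf (nat_lit 0) (nat_lit 421154192) (nat_lit 380) (nat_lit 1793230361) (nat_lit 456) (nat_lit 6847173955) (nat_lit 86) (nat_lit 5) (nat_lit 91) (nat_lit 5) (nat_lit 92) (nat_lit 5) (nat_lit 305) (nat_lit 244) (nat_lit 231)) (XT.lf (nat_lit 0) (nat_lit 5371010515) (nat_lit 456) (nat_lit 2993546450) (nat_lit 76) (nat_lit 834094375) (nat_lit 86) (nat_lit 5) (nat_lit 92) (nat_lit 5) (nat_lit 87) (nat_lit 4) (nat_lit 306) (nat_lit 244) (nat_lit 230))))) (XT.nd (nat_lit 234) (nat_lit 684) (nat_lit 0) (XT.nd (nat_lit 78) (nat_lit 380) (nat_lit 0) (XT.lf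 (nat_lit 0) (nat_lit 2760755417) (nat_lit 304) (nat_lit 5833868742) (nat_lit 380) (nat_lit 746167881) (nat_lit 82) (nat_lit 5) (nat_lit 86) (nat_lit 5) (nat_lit 87) (nat_lit 4) (nat_lit 307) (nat_lit 244) (nat_lit 229)) (XT.nd (nat_lit 78) (nat_lit 304) (nat_lit 0) (XT.lf (nat_lit 0) (nat_lit 2339262938) (nat_lit 380) (nat_lit 859516571) (nat_lit 76) (nat_lit 6289048504) (nat_lit 81) (nat_lit 5) (nat_lit 86) (nat_lit 5) (nat_lit 82) (nat_lit 5) (nat_lit 308) (nat_lit 244) (nat_lit 228)) (XT.lf (nat_lit 0) (nat_lit 5027569030) (nat_lit 304) (nat_lit 453464673) (nat_lit 380) (nat_lit 4158751446) (nat_lit 77) (nat_lit 5) (nat_lit 81) (nat_lit 5) (nat_lit 82) (nat_lit 5) (nat_lit 309) (nat_lit 244) (nat_lit 227)))) (XT.nd (nat_lit 78) (nat_lit 380) (nat_lit 0) (XT.lf (nat_lit 0) (nat_lit 1216963866) (nat_lit 304) (nat_lit 7474686442) (nat_lit 380) (nat_lit 1105505092) (nat_lit 73) (nat_lit 5) (nat_lit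 77) (nat_lit 5) (nat_lit 78) (nat_lit 4) (nat_lit 310) (nat_lit 244) (nat_lit 226)) (XT.nd (nat_lit 78) (nat_lit 304) (nat_lit 0) (XT.lf (nat_lit 0) (nat_lit 1982698785) (nat_lit 380) (nat_lit 2764058987) (nat_lit 76) (nat_lit 5212493127) (nat_lit 72) (nat_lit 5) (nat_lit 77) (nat_lit 5) (nat_lit 73) (nat_lit 5) (nat_lit 311) (nat_lit 244) (nat_lit 225)) (XT.lf (nat_lit 0) (nat_lit 3183341699) (nat_lit 304) (nat_lit 1922208871) (nat_lit 380) (nat_lit 5021488043) (nat_lit 68) (nat_lit 5) (nat_lit 72) (nat_lit 5) (nat_lit 73) (nat_lit 5) (nat_lit 312) (nat_lit 244) (nat_lit 224)))))) (XT.nd (nat_lit 468) (nat_lit 760) (nat_lit 0) (XT.nd (nat_lit 234) (nat_lit 304) (nat_lit 0) (XT.nd (nat_lit 78) (nat_lit 608) (nat_lit 0) (XT.lf (nat_lit 0) (nat_lit 8294149978) (nat_lit 380) (nat_lit 1038197688) (nat_lit 76) (nat_lit 968432332) (nat_lit 68) (nat_lit 5) (nat_lit 73) (nat_lit 5) (nat_lit 69) (nat_lit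 4) (nat_lit 313) (nat_lit 244) (nat_lit 223)) (XT.nd (nat_lit 78) (nat_lit 304) (nat_lit 0) (XT.lf (nat_lit 0) (nat_lit 1080884348) (nat_lit 304) (nat_lit 5459150133) (nat_lit 76) (nat_lit 3939350020) (nat_lit 64) (nat_lit 5) (nat_lit 68) (nat_lit 5) (nat_lit 65) (nat_lit 5) (nat_lit 314) (nat_lit 244) (nat_lit 222)) (XT.lf (nat_lit 0) (nat_lit 515871742) (nat_lit 304) (nat_lit 3656943006) (nat_lit 380) (nat_lit 6491447659) (nat_lit 60) (nat_lit 5) (nat_lit 64) (nat_lit 5) (nat_lit 65) (nat_lit 5) (nat_lit 315) (nat_lit 244) (nat_lit 221)))) (XT.nd (nat_lit 78) (nat_lit 304) (nat_lit 0) (XT.lf (nat_lit 0) (nat_lit 6690070062) (nat_lit 304) (nat_lit 660098286) (nat_lit 380) (nat_lit 3504811112) (nat_lit 60) (nat_lit 5) (nat_lit 64) (nat_lit 5) (nat_lit 65) (nat_lit 5) (nat_lit 316) (nat_lit 244) (nat_lit 220)) (XT.nd (nat_lit 78) (nat_lit 76) (nat_lit 0) (XT.lf (nat_lit 0) (nat_lit 1921325035)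 (nat_lit 228) (nat_lit 8682395277) (nat_lit 304) (nat_lit 448342030) (nat_lit 57) (nat_lit 5) (nat_lit 60) (nat_lit 5) (nat_lit 61) (nat_lit 4) (nat_lit 317) (nat_lit 244) (nat_lit 219)) (XT.lf (nat_lit 0) (nat_lit 2635477208) (nat_lit 304) (nat_lit 3102476784) (nat_lit 76) (nat_lit 5516741562) (nat_lit 56) (nat_lit 5) (nat_lit 60) (nat_lit 5) (nat_lit 57) (nat_lit 5) (nat_lit 318) (nat_lit 244) (nat_lit 218))))) (XT.nd (nat_lit 234) (nat_lit 228) (nat_lit 0) (XT.nd (nat_lit 78) (nat_lit 304) (nat_lit 0) (XT.lf (nat_lit 0) (nat_lit 3073527842) (nat_lit 228) (nat_lit 2699913535) (nat_lit 304) (nat_lit 5690778622) (nat_lit 53) (nat_lit 5) (nat_lit 56) (nat_lit 5) (nat_lit 57) (nat_lit 5) (nat_lit 319) (nat_lit 244) (nat_lit 217)) (XT.nd (nat_lit 78) (nat_lit 304) (nat_lit 0) (XT.lf (nat_lit 0) (nat_lit 8982992967) (nat_lit 304) (nat_lit 2274405628) (nat_lit 76) (nat_lit 423370899) (nat_lit 53) (nat_lit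 5) (nat_lit 57) (nat_lit 5) (nat_lit 54) (nat_lit 4) (nat_lit 320) (nat_lit 244) (nat_lit 216)) (XT.lf (nat_lit 0) (nat_lit 385992454) (nat_lit 304) (nat_lit 7917601972) (nat_lit 76) (nat_lit 3599914488) (nat_lit 49) (nat_lit 5) (nat_lit 53) (nat_lit 5) (nat_lit 50) (nat_lit 5) (nat_lit 321) (nat_lit 244) (nat_lit 215)))) (XT.nd (nat_lit 78) (nat_lit 228) (nat_lit 0) (XT.lf (nat_lit 0) (nat_lit 3474841357) (nat_lit 304) (nat_lit 1765546143) (nat_lit 76) (nat_lit 6892795458) (nat_lit 49) (nat_lit 5) (nat_lit 53) (nat_lit 5) (nat_lit 50) (nat_lit 5) (nat_lit 322) (nat_lit 244) (nat_lit 214)) (XT.nd (nat_lit 78) (nat_lit 0) (nat_lit 0) (XT.lf (nat_lit 0) (nat_lit 4575879209) (nat_lit 228) (nat_lit 2069700585) (nat_lit 304) (nat_lit 5724546478) (nat_lit 46) (nat_lit 5) (nat_lit 49) (nat_lit 5) (nat_lit 50) (nat_lit 5) (nat_lit 323) (nat_lit 244) (nat_lit 213)) (XT.lf (nat_lit 0) (nat_lit 9886686605)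 (nat_lit 304) (nat_lit 1566621674) (nat_lit 76) (nat_lit 1161666369) (nat_lit 46) (nat_lit 5) (nat_lit 50) (nat_lit 5) (nat_lit 47) (nat_lit 4) (nat_lit 324) (nat_lit 244) (nat_lit 212))))))) (XT.nd (nat_lit 936) (nat_lit 684) (nat_lit 0) (XT.nd (nat_lit 468) (nat_lit 532) (nat_lit 0) (XT.nd (nat_lit 234) (nat_lit 228) (nat_lit 0) (XT.nd (nat_lit 78) (nat_lit 228) (nat_lit 0) (XT.lf (nat_lit 0) (nat_lit 365298608) (nat_lit 228) (nat_lit 8031168412) (nat_lit 76) (nat_lit 4470216587) (nat_lit 43) (nat_lit 5) (nat_lit 46) (nat_lit 5) (nat_lit 44) (nat_lit 5) (nat_lit 325) (nat_lit 244) (nat_lit 211)) (XT.nd (nat_lit 78) (nat_lit 228) (nat_lit 0) (XT.lf (nat_lit 0) (nat_lit 3460341310) (nat_lit 228) (nat_lit 1773659715) (nat_lit 76) (nat_lit 7892277449) (nat_lit 43) (nat_lit 5) (nat_lit 46) (nat_lit 5) (nat_lit 44) (nat_lit 5) (nat_lit 326) (nat_lit 244) (nat_lit 210)) (XT.lf (nat_lit 0) (nat_lit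 4682508531) (nat_lit 228) (nat_lit 1959774695) (nat_lit 304) (nat_lit 6751604631) (nat_lit 40) (nat_lit 5) (nat_lit 43) (nat_lit 5) (nat_lit 44) (nat_lit 5) (nat_lit 327) (nat_lit 244) (nat_lit 209)))) (XT.nd (nat_lit 78) (nat_lit 228) (nat_lit 0) (XT.lf (nat_lit 0) (nat_lit 9900823607) (nat_lit 304) (nat_lit 2394946048) (nat_lit 76) (nat_lit 1374368369) (nat_lit 40) (nat_lit 5) (nat_lit 44) (nat_lit 5) (nat_lit 41) (nat_lit 4) (nat_lit 328) (nat_lit 244) (nat_lit 208)) (XT.nd (nat_lit 78) (nat_lit 76) (nat_lit 0) (XT.lf (nat_lit 0) (nat_lit 4092879169) (nat_lit 152) (nat_lit 9173932521) (nat_lit 228) (nat_lit 687618609) (nat_lit 38) (nat_lit 5) (nat_lit 40) (nat_lit 5) (nat_lit 41) (nat_lit 4) (nat_lit 329) (nat_lit 244) (nat_lit 207)) (XT.lf (nat_lit 0) (nat_lit 2413534060) (nat_lit 228) (nat_lit 3525043912) (nat_lit 76) (nat_lit 8308733240) (nat_lit 37) (nat_lit 5) (nat_lit 40) (nat_lit 5)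 (nat_lit 38) (nat_lit 5) (nat_lit 330) (nat_lit 244) (nat_lit 206))))) (XT.nd (nat_lit 234) (nat_lit 228) (nat_lit 0) (XT.nd (nat_lit 78) (nat_lit 152) (nat_lit 0) (XT.lf (nat_lit 0) (nat_lit 2976314658) (nat_lit 152) (nat_lit 2598723926) (nat_lit 228) (nat_lit 8974343091) (nat_lit 35) (nat_lit 5) (nat_lit 37) (nat_lit 5) (nat_lit 38) (nat_lit 5) (nat_lit 331) (nat_lit 244) (nat_lit 205)) (XT.nd (nat_lit 78) (nat_lit 152) (nat_lit 0) (XT.lf (nat_lit 0) (nat_lit 8828327774) (nat_lit 228) (nat_lit 5199843036) (nat_lit 76) (nat_lit 832475549) (nat_lit 35) (nat_lit 5) (nat_lit 38) (nat_lit 5) (nat_lit 36) (nat_lit 4) (nat_lit 332) (nat_lit 244) (nat_lit 204)) (XT.lf (nat_lit 0) (nat_lit 1289316823) (nat_lit 152) (nat_lit 10882297916) (nat_lit 228) (nat_lit 3009901387) (nat_lit 33) (nat_lit 5) (nat_lit 35) (nat_lit 5) (nat_lit 36) (nat_lit 4) (nat_lit 333) (nat_lit 244) (nat_lit 203)))) (XT.nd (nat_lit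 78) (nat_lit 152) (nat_lit 0) (XT.lf (nat_lit 0) (nat_lit 108615358) (nat_lit 228) (nat_lit 7507107381) (nat_lit 76) (nat_lit 7896073142) (nat_lit 32) (nat_lit 5) (nat_lit 35) (nat_lit 5) (nat_lit 33) (nat_lit 5) (nat_lit 334) (nat_lit 244) (nat_lit 202)) (XT.nd (nat_lit 78) (nat_lit 152) (nat_lit 0) (XT.lf (nat_lit 0) (nat_lit 3215931866) (nat_lit 228) (nat_lit 1032984106) (nat_lit 76) (nat_lit 11603537617) (nat_lit 32) (nat_lit 5) (nat_lit 35) (nat_lit 5) (nat_lit 33) (nat_lit 5) (nat_lit 335) (nat_lit 244) (nat_lit 201)) (XT.lf (nat_lit 0) (nat_lit 5675510182) (nat_lit 152) (nat_lit 752543577) (nat_lit 228) (nat_lit 9774964448) (nat_lit 30) (nat_lit 5) (nat_lit 32) (nat_lit 5) (nat_lit 33) (nat_lit 5) (nat_lit 336) (nat_lit 244) (nat_lit 200)))))) (XT.nd (nat_lit 468) (nat_lit 304) (nat_lit 0) (XT.nd (nat_lit 234) (nat_lit 228) (nat_lit 0) (XT.nd (nat_lit 78) (nat_lit 152) (nat_lit 0) (XT.lf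 (nat_lit 0) (nat_lit 9731801775) (nat_lit 228) (nat_lit 4055790380) (nat_lit 76) (nat_lit 2776683476) (nat_lit 30) (nat_lit 5) (nat_lit 33) (nat_lit 5) (nat_lit 31) (nat_lit 4) (nat_lit 337) (nat_lit 244) (nat_lit 199)) (XT.nd (nat_lit 78) (nat_lit 0) (nat_lit 0) (XT.lf (nat_lit 0) (nat_lit 2584169771) (nat_lit 152) (nat_lit 10541370838) (nat_lit 228) (nat_lit 3811136576) (nat_lit 28) (nat_lit 5) (nat_lit 30) (nat_lit 5) (nat_lit 31) (nat_lit 4) (nat_lit 338) (nat_lit 244) (nat_lit 198)) (XT.lf (nat_lit 0) (nat_lit 9438259236) (nat_lit 152) (nat_lit 7182925274) (nat_lit 228) (nat_lit 699095297) (nat_lit 28) (nat_lit 5) (nat_lit 30) (nat_lit 5) (nat_lit 31) (nat_lit 4) (nat_lit 339) (nat_lit 244) (nat_lit 197)))) (XT.nd (nat_lit 78) (nat_lit 152) (nat_lit 0) (XT.lf (nat_lit 0) (nat_lit 2417304609) (nat_lit 228) (nat_lit 1308561782) (nat_lit 76) (nat_lit 13990034195) (nat_lit 27) (nat_lit 5) (nat_lit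 30) (nat_lit 5) (nat_lit 28) (nat_lit 5) (nat_lit 340) (nat_lit 244) (nat_lit 196)) (XT.nd (nat_lit 78) (nat_lit 0) (nat_lit 0) (XT.lf (nat_lit 0) (nat_lit 5497354651) (nat_lit 152) (nat_lit 129706977) (nat_lit 228) (nat_lit 12495732330) (nat_lit 25) (nat_lit 5) (nat_lit 27) (nat_lit 5) (nat_lit 28) (nat_lit 5) (nat_lit 341) (nat_lit 244) (nat_lit 195)) (XT.lf (nat_lit 0) (nat_lit 8942150939) (nat_lit 228) (nat_lit 6107104107) (nat_lit 76) (nat_lit 3492396155) (nat_lit 25) (nat_lit 5) (nat_lit 28) (nat_lit 5) (nat_lit 26) (nat_lit 4) (nat_lit 342) (nat_lit 244) (nat_lit 194))))) (XT.nd (nat_lit 234) (nat_lit 228) (nat_lit 0) (XT.nd (nat_lit 78) (nat_lit 0) (nat_lit 0) (XT.lf (nat_lit 0) (nat_lit 552798914) (nat_lit 76) (nat_lit 11772954343) (nat_lit 152) (nat_lit 6648276531) (nat_lit 24) (nat_lit 5) (nat_lit 25) (nat_lit 5) (nat_lit 26) (nat_lit 4) (nat_lit 343) (nat_lit 244) (nat_lit 193)) (XT.nd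 (nat_lit 78) (nat_lit 0) (nat_lit 0) (XT.lf (nat_lit 0) (nat_lit 7474825971) (nat_lit 76) (nat_lit 8360658766) (nat_lit 152) (nat_lit 3583182999) (nat_lit 24) (nat_lit 5) (nat_lit 25) (nat_lit 5) (nat_lit 26) (nat_lit 4) (nat_lit 344) (nat_lit 244) (nat_lit 192)) (XT.lf (nat_lit 0) (nat_lit 14543482090) (nat_lit 76) (nat_lit 4871056476) (nat_lit 152) (nat_lit 463211206) (nat_lit 24) (nat_lit 5) (nat_lit 25) (nat_lit 5) (nat_lit 26) (nat_lit 4) (nat_lit 345) (nat_lit 244) (nat_lit 191)))) (XT.nd (nat_lit 78) (nat_lit 0) (nat_lit 0) (XT.lf (nat_lit 0) (nat_lit 1414782088) (nat_lit 152) (nat_lit 1260215660) (nat_lit 228) (nat_lit 17675488530) (nat_lit 21) (nat_lit 5) (nat_lit 23) (nat_lit 5) (nat_lit 24) (nat_lit 5) (nat_lit 346) (nat_lit 244) (nat_lit 190)) (XT.nd (nat_lit 78) (nat_lit 0) (nat_lit 0) (XT.lf (nat_lit 0) (nat_lit 5941007422) (nat_lit 228) (nat_lit 12449120312) (nat_lit 76) (nat_lit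 2445874289) (nat_lit 21) (nat_lit 5) (nat_lit 24) (nat_lit 5) (nat_lit 22) (nat_lit 4) (nat_lit 347) (nat_lit 244) (nat_lit 189)) (XT.lf (nat_lit 0) (nat_lit 9283424895) (nat_lit 228) (nat_lit 5838887662) (nat_lit 76) (nat_lit 6214440832) (nat_lit 21) (nat_lit 5) (nat_lit 24) (nat_lit 5) (nat_lit 22) (nat_lit 4) (nat_lit 348) (nat_lit 244) (nat_lit 188))))))))
noncomputable def xc67 : XT := (XT.nd (nat_lit 1872) (nat_lit 304) (nat_lit 0) (XT.nd (nat_lit 936) (nat_lit 304) (nat_lit 0) (XT.nd (nat_lit 468) (nat_lit 228) (nat_lit 0) (XT.nd (nat_lit 234) (nat_lit 228) (nat_lit 0) (XT.nd (nat_lit 78) (nat_lit 0) (nat_lit 0) (XT.lf (nat_lit 0) (nat_lit 931051826) (nat_lit 76) (nat_lit 11770954778) (nat_lit 152) (nat_lit 9151266251) (nat_lit 20) (nat_lit 5) (nat_lit 21) (nat_lit 5) (nat_lit 22) (nat_lit 4) (nat_lit 349) (nat_lit 244) (nat_lit 187)) (XT.nd (nat_lit 78) (nat_lit 0) (nat_lit 0) (XT.lf (nat_lit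 0) (nat_lit 7967569212) (nat_lit 76) (nat_lit 8281902259) (nat_lit 152) (nat_lit 6135048322) (nat_lit 20) (nat_lit 5) (nat_lit 21) (nat_lit 5) (nat_lit 22) (nat_lit 4) (nat_lit 350) (nat_lit 244) (nat_lit 186)) (XT.lf (nat_lit 0) (nat_lit 15160607593) (nat_lit 76) (nat_lit 4711067630) (nat_lit 152) (nat_lit 3061000493) (nat_lit 20) (nat_lit 5) (nat_lit 21) (nat_lit 5) (nat_lit 22) (nat_lit 4) (nat_lit 351) (nat_lit 244) (nat_lit 185)))) (XT.nd (nat_lit 78) (nat_lit 152) (nat_lit 0) (XT.lf (nat_lit 0) (nat_lit 72127809) (nat_lit 152) (nat_lit 982474585) (nat_lit 76) (nat_lit 22443595990) (nat_lit 19) (nat_lit 5) (nat_lit 21) (nat_lit 5) (nat_lit 20) (nat_lit 5) (nat_lit 352) (nat_lit 244) (nat_lit 184)) (XT.nd (nat_lit 78) (nat_lit 0) (nat_lit 0) (XT.lf (nat_lit 0) (nat_lit 3292397829) (nat_lit 228) (nat_lit 18059263167) (nat_lit 76) (nat_lit 2726495643) (nat_lit 17) (nat_lit 5) (nat_lit 20) (nat_lit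 5) (nat_lit 18) (nat_lit 4) (nat_lit 353) (nat_lit 244) (nat_lit 183)) (XT.lf (nat_lit 0) (nat_lit 6599729925) (nat_lit 228) (nat_lit 11487568245) (nat_lit 76) (nat_lit 6588520534) (nat_lit 17) (nat_lit 5) (nat_lit 20) (nat_lit 5) (nat_lit 18) (nat_lit 4) (nat_lit 354) (nat_lit 244) (nat_lit 182))))) (XT.nd (nat_lit 234) (nat_lit 152) (nat_lit 0) (XT.nd (nat_lit 78) (nat_lit 76) (nat_lit 0) (XT.lf (nat_lit 0) (nat_lit 9977149045) (nat_lit 228) (nat_lit 4769455231) (nat_lit 76) (nat_lit 10545698482) (nat_lit 17) (nat_lit 5) (nat_lit 20) (nat_lit 5) (nat_lit 18) (nat_lit 4) (nat_lit 355) (nat_lit 244) (nat_lit 181)) (XT.nd (nat_lit 78) (nat_lit 0) (nat_lit 0) (XT.lf (nat_lit 0) (nat_lit 2142759017) (nat_lit 76) (nat_lit 11305444825) (nat_lit 152) (nat_lit 12479325708) (nat_lit 16) (nat_lit 5) (nat_lit 17) (nat_lit 5) (nat_lit 18) (nat_lit 4) (nat_lit 356) (nat_lit 244) (nat_lit 180)) (XT.lf (nat_lit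 0) (nat_lit 9311336642) (nat_lit 76) (nat_lit 7732286371) (nat_lit 152) (nat_lit 9537600249) (nat_lit 16) (nat_lit 5) (nat_lit 17) (nat_lit 5) (nat_lit 18) (nat_lit 4) (nat_lit 357) (nat_lit 244) (nat_lit 179)))) (XT.nd (nat_lit 78) (nat_lit 152) (nat_lit 0) (XT.lf (nat_lit 0) (nat_lit 16647619936) (nat_lit 76) (nat_lit 4072168883) (nat_lit 152) (nat_lit 6535569042) (nat_lit 16) (nat_lit 5) (nat_lit 17) (nat_lit 5) (nat_lit 18) (nat_lit 4) (nat_lit 358) (nat_lit 244) (nat_lit 178)) (XT.nd (nat_lit 78) (nat_lit 152) (nat_lit 0) (XT.lf (nat_lit 0) (nat_lit 24158019245) (nat_lit 76) (nat_lit 321894201) (nat_lit 152) (nat_lit 3470608954) (nat_lit 16) (nat_lit 5) (nat_lit 17) (nat_lit 5) (nat_lit 18) (nat_lit 4) (nat_lit 359) (nat_lit 244) (nat_lit 177)) (XT.lf (nat_lit 0) (nat_lit 3210568672) (nat_lit 152) (nat_lit 25181429552) (nat_lit 152) (nat_lit 273384605) (nat_lit 14) (nat_lit 4) (nat_lit 16)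 (nat_lit 5) (nat_lit 16) (nat_lit 4) (nat_lit 360) (nat_lit 244) (nat_lit 176)))))) (XT.nd (nat_lit 468) (nat_lit 152) (nat_lit 0) (XT.nd (nat_lit 234) (nat_lit 76) (nat_lit 0) (XT.nd (nat_lit 78) (nat_lit 0) (nat_lit 0) (XT.lf (nat_lit 0) (nat_lit 2977003154) (nat_lit 228) (nat_lit 18976974038) (nat_lit 76) (nat_lit 7446370603) (nat_lit 13) (nat_lit 5) (nat_lit 16) (nat_lit 5) (nat_lit 14) (nat_lit 4) (nat_lit 361) (nat_lit 244) (nat_lit 175)) (XT.nd (nat_lit 78) (nat_lit 0) (nat_lit 0) (XT.lf (nat_lit 0) (nat_lit 6294465952) (nat_lit 228) (nat_lit 12351500766) (nat_lit 76) (nat_lit 11512076363) (nat_lit 13) (nat_lit 5) (nat_lit 16) (nat_lit 5) (nat_lit 14) (nat_lit 4) (nat_lit 362) (nat_lit 244) (nat_lit 174)) (XT.lf (nat_lit 0) (nat_lit 9687237261) (nat_lit 228) (nat_lit 5569977152) (nat_lit 76) (nat_lit 15681995176) (nat_lit 13) (nat_lit 5) (nat_lit 16) (nat_lit 5) (nat_lit 14) (nat_lit 4)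 (nat_lit 363) (nat_lit 244) (nat_lit 173)))) (XT.nd (nat_lit 78) (nat_lit 0) (nat_lit 0) (XT.lf (nat_lit 0) (nat_lit 1400858195) (nat_lit 76) (nat_lit 11770889349) (nat_lit 152) (nat_lit 18572378368) (nat_lit 12) (nat_lit 5) (nat_lit 13) (nat_lit 5) (nat_lit 14) (nat_lit 4) (nat_lit 364) (nat_lit 244) (nat_lit 172)) (XT.nd (nat_lit 78) (nat_lit 0) (nat_lit 0) (XT.lf (nat_lit 0) (nat_lit 8653934478) (nat_lit 76) (nat_lit 8139884471) (nat_lit 152) (nat_lit 15778393107) (nat_lit 12) (nat_lit 5) (nat_lit 13) (nat_lit 5) (nat_lit 14) (nat_lit 4) (nat_lit 365) (nat_lit 244) (nat_lit 171)) (XT.lf (nat_lit 0) (nat_lit 16084735866) (nat_lit 76) (nat_lit 4417272904) (nat_lit 152) (nat_lit 12923821046) (nat_lit 12) (nat_lit 5) (nat_lit 13) (nat_lit 5) (nat_lit 14) (nat_lit 4) (nat_lit 366) (nat_lit 244) (nat_lit 170))))) (XT.nd (nat_lit 234) (nat_lit 76) (nat_lit 0) (XT.nd (nat_lit 78) (nat_lit 76) (nat_lit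 0) (XT.lf (nat_lit 0) (nat_lit 23699755295) (nat_lit 76) (nat_lit 599801880) (nat_lit 152) (nat_lit 10006167899) (nat_lit 12) (nat_lit 5) (nat_lit 13) (nat_lit 5) (nat_lit 14) (nat_lit 4) (nat_lit 367) (nat_lit 244) (nat_lit 169)) (XT.nd (nat_lit 78) (nat_lit 76) (nat_lit 0) (XT.lf (nat_lit 0) (nat_lit 28221656527) (nat_lit 152) (nat_lit 3738894122) (nat_lit 0) (nat_lit 3251159798) (nat_lit 12) (nat_lit 5) (nat_lit 14) (nat_lit 4) (nat_lit 12) (nat_lit 4) (nat_lit 368) (nat_lit 244) (nat_lit 168)) (XT.lf (nat_lit 0) (nat_lit 3356796063) (nat_lit 76) (nat_lit 28922045910) (nat_lit 76) (nat_lit 3865522356) (nat_lit 11) (nat_lit 4) (nat_lit 12) (nat_lit 5) (nat_lit 12) (nat_lit 4) (nat_lit 369) (nat_lit 244) (nat_lit 167)))) (XT.nd (nat_lit 78) (nat_lit 76) (nat_lit 0) (XT.lf (nat_lit 0) (nat_lit 10705400706) (nat_lit 76) (nat_lit 25769568196) (nat_lit 76) (nat_lit 629523453) (nat_lit 11) (nat_lit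 4) (nat_lit 12) (nat_lit 5) (nat_lit 12) (nat_lit 4) (nat_lit 370) (nat_lit 244) (nat_lit 166)) (XT.nd (nat_lit 78) (nat_lit 0) (nat_lit 0) (XT.lf (nat_lit 0) (nat_lit 2630659577) (nat_lit 152) (nat_lit 19880894334) (nat_lit 76) (nat_lit 15581705509) (nat_lit 10) (nat_lit 5) (nat_lit 12) (nat_lit 5) (nat_lit 11) (nat_lit 4) (nat_lit 371) (nat_lit 244) (nat_lit 165)) (XT.lf (nat_lit 0) (nat_lit 5956442159) (nat_lit 152) (nat_lit 13208282423) (nat_lit 76) (nat_lit 19947374866) (nat_lit 10) (nat_lit 5) (nat_lit 12) (nat_lit 5) (nat_lit 11) (nat_lit 4) (nat_lit 372) (nat_lit 244) (nat_lit 164))))))) (XT.nd (nat_lit 936) (nat_lit 76) (nat_lit 0) (XT.nd (nat_lit 468) (nat_lit 152) (nat_lit 0) (XT.nd (nat_lit 234) (nat_lit 0) (nat_lit 0) (XT.nd (nat_lit 78) (nat_lit 76) (nat_lit 0) (XT.lf (nat_lit 0) (nat_lit 9363014586) (nat_lit 152) (nat_lit 6369374116) (nat_lit 76) (nat_lit 24429695527) (nat_lit 10)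 (nat_lit 5) (nat_lit 12) (nat_lit 5) (nat_lit 11) (nat_lit 4) (nat_lit 373) (nat_lit 244) (nat_lit 163)) (XT.nd (nat_lit 78) (nat_lit 0) (nat_lit 0) (XT.lf (nat_lit 0) (nat_lit 654579537) (nat_lit 76) (nat_lit 12205066156) (nat_lit 152) (nat_lit 28384296765) (nat_lit 9) (nat_lit 5) (nat_lit 10) (nat_lit 5) (nat_lit 11) (nat_lit 4) (nat_lit 374) (nat_lit 244) (nat_lit 162)) (XT.lf (nat_lit 0) (nat_lit 7987245120) (nat_lit 76) (nat_lit 8520041803) (nat_lit 152) (nat_lit 25849595643) (nat_lit 9) (nat_lit 5) (nat_lit 10) (nat_lit 5) (nat_lit 11) (nat_lit 4) (nat_lit 375) (nat_lit 244) (nat_lit 161)))) (XT.nd (nat_lit 78) (nat_lit 0) (nat_lit 0) (XT.lf (nat_lit 0) (nat_lit 15508266780) (nat_lit 76) (nat_lit 4738413906) (nat_lit 152) (nat_lit 23257069680) (nat_lit 9) (nat_lit 5) (nat_lit 10) (nat_lit 5) (nat_lit 11) (nat_lit 4) (nat_lit 376) (nat_lit 244) (nat_lit 160)) (XT.nd (nat_lit 78) (nat_lit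 0) (nat_lit 0) (XT.lf (nat_lit 0) (nat_lit 23224216285) (nat_lit 76) (nat_lit 856878133) (nat_lit 152) (nat_lit 20604453563) (nat_lit 9) (nat_lit 5) (nat_lit 10) (nat_lit 5) (nat_lit 11) (nat_lit 4) (nat_lit 377) (nat_lit 244) (nat_lit 159)) (XT.lf (nat_lit 0) (nat_lit 28043946414) (nat_lit 152) (nat_lit 14791540157) (nat_lit 0) (nat_lit 3066919440) (nat_lit 9) (nat_lit 5) (nat_lit 11) (nat_lit 4) (nat_lit 9) (nat_lit 4) (nat_lit 378) (nat_lit 244) (nat_lit 158))))) (XT.nd (nat_lit 234) (nat_lit 76) (nat_lit 0) (XT.nd (nat_lit 78) (nat_lit 76) (nat_lit 0) (XT.lf (nat_lit 0) (nat_lit 32117868533) (nat_lit 152) (nat_lit 7959450172) (nat_lit 0) (nat_lit 7078693950) (nat_lit 9) (nat_lit 5) (nat_lit 11) (nat_lit 4) (nat_lit 9) (nat_lit 4) (nat_lit 379) (nat_lit 244) (nat_lit 157)) (XT.nd (nat_lit 78) (nat_lit 76) (nat_lit 0) (XT.lf (nat_lit 0) (nat_lit 36298183677) (nat_lit 152) (nat_lit 950855115)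 (nat_lit 0) (nat_lit 11198671611) (nat_lit 9) (nat_lit 5) (nat_lit 11) (nat_lit 4) (nat_lit 9) (nat_lit 4) (nat_lit 380) (nat_lit 244) (nat_lit 156)) (XT.lf (nat_lit 0) (nat_lit 6364564605) (nat_lit 76) (nat_lit 34285160032) (nat_lit 76) (nat_lit 9127067884) (nat_lit 8) (nat_lit 4) (nat_lit 9) (nat_lit 5) (nat_lit 9) (nat_lit 4) (nat_lit 381) (nat_lit 244) (nat_lit 155)))) (XT.nd (nat_lit 78) (nat_lit 76) (nat_lit 0) (XT.lf (nat_lit 0) (nat_lit 13891580620) (nat_lit 76) (nat_lit 31234653758) (nat_lit 76) (nat_lit 6019687744) (nat_lit 8) (nat_lit 4) (nat_lit 9) (nat_lit 5) (nat_lit 9) (nat_lit 4) (nat_lit 382) (nat_lit 244) (nat_lit 154)) (XT.nd (nat_lit 78) (nat_lit 76) (nat_lit 0) (XT.lf (nat_lit 0) (nat_lit 21617846052) (nat_lit 76) (nat_lit 28104456253) (nat_lit 76) (nat_lit 2834272894) (nat_lit 8) (nat_lit 4) (nat_lit 9) (nat_lit 5) (nat_lit 9) (nat_lit 4) (nat_lit 383) (nat_lit 244) (nat_lit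 153)) (XT.lf (nat_lit 0) (nat_lit 423530943) (nat_lit 152) (nat_lit 24464024617) (nat_lit 76) (nat_lit 29122304230) (nat_lit 7) (nat_lit 5) (nat_lit 9) (nat_lit 5) (nat_lit 8) (nat_lit 4) (nat_lit 384) (nat_lit 244) (nat_lit 152)))))) (XT.nd (nat_lit 468) (nat_lit 0) (nat_lit 0) (XT.nd (nat_lit 234) (nat_lit 76) (nat_lit 0) (XT.nd (nat_lit 78) (nat_lit 0) (nat_lit 0) (XT.lf (nat_lit 0) (nat_lit 3708067238) (nat_lit 152) (nat_lit 17848463582) (nat_lit 76) (nat_lit 33949798142) (nat_lit 7) (nat_lit 5) (nat_lit 9) (nat_lit 5) (nat_lit 8) (nat_lit 4) (nat_lit 385) (nat_lit 244) (nat_lit 151)) (XT.nd (nat_lit 78) (nat_lit 0) (nat_lit 0) (XT.lf (nat_lit 0) (nat_lit 7077512845) (nat_lit 152) (nat_lit 11059020692) (nat_lit 76) (nat_lit 38911574115) (nat_lit 7) (nat_lit 5) (nat_lit 9) (nat_lit 5) (nat_lit 8) (nat_lit 4) (nat_lit 386) (nat_lit 244) (nat_lit 150)) (XT.lf (nat_lit 0) (nat_lit 10534811942)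 (nat_lit 152) (nat_lit 4089763422) (nat_lit 76) (nat_lit 44011967681) (nat_lit 7) (nat_lit 5) (nat_lit 9) (nat_lit 5) (nat_lit 8) (nat_lit 4) (nat_lit 387) (nat_lit 244) (nat_lit 149)))) (XT.nd (nat_lit 78) (nat_lit 0) (nat_lit 0) (XT.lf (nat_lit 0) (nat_lit 3126405296) (nat_lit 76) (nat_lit 10986633092) (nat_lit 152) (nat_lit 46159083119) (nat_lit 6) (nat_lit 5) (nat_lit 7) (nat_lit 5) (nat_lit 8) (nat_lit 4) (nat_lit 388) (nat_lit 244) (nat_lit 148)) (XT.nd (nat_lit 78) (nat_lit 0) (nat_lit 0) (XT.lf (nat_lit 0) (nat_lit 10619948713) (nat_lit 76) (nat_lit 7207270500) (nat_lit 152) (nat_lit 44128695958) (nat_lit 6) (nat_lit 5) (nat_lit 7) (nat_lit 5) (nat_lit 8) (nat_lit 4) (nat_lit 389) (nat_lit 244) (nat_lit 147)) (XT.lf (nat_lit 0) (nat_lit 18316020274) (nat_lit 76) (nat_lit 3324483823) (nat_lit 152) (nat_lit 42050094087) (nat_lit 6) (nat_lit 5) (nat_lit 7) (nat_lit 5) (nat_lit 8) (nat_lit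 4) (nat_lit 390) (nat_lit 244) (nat_lit 146))))) (XT.nd (nat_lit 234) (nat_lit 0) (nat_lit 0) (XT.nd (nat_lit 78) (nat_lit 0) (nat_lit 0) (XT.lf (nat_lit 0) (nat_lit 25562618576) (nat_lit 152) (nat_lit 39262735127) (nat_lit 0) (nat_lit 652140782) (nat_lit 6) (nat_lit 5) (nat_lit 8) (nat_lit 4) (nat_lit 6) (nat_lit 4) (nat_lit 391) (nat_lit 244) (nat_lit 145)) (XT.nd (nat_lit 78) (nat_lit 0) (nat_lit 0) (XT.lf (nat_lit 0) (nat_lit 29623607884) (nat_lit 152) (nat_lit 33021715808) (nat_lit 0) (nat_lit 4672043200) (nat_lit 6) (nat_lit 5) (nat_lit 8) (nat_lit 4) (nat_lit 6) (nat_lit 4) (nat_lit 392) (nat_lit 244) (nat_lit 144)) (XT.lf (nat_lit 0) (nat_lit 33795063488) (nat_lit 152) (nat_lit 26614109665) (nat_lit 0) (nat_lit 8803608619) (nat_lit 6) (nat_lit 5) (nat_lit 8) (nat_lit 4) (nat_lit 6) (nat_lit 4) (nat_lit 393) (nat_lit 244) (nat_lit 143)))) (XT.nd (nat_lit 78) (nat_lit 0) (nat_lit 0) (XT.lf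 (nat_lit 0) (nat_lit 38080630349) (nat_lit 152) (nat_lit 20034317818) (nat_lit 0) (nat_lit 13050447145) (nat_lit 6) (nat_lit 5) (nat_lit 8) (nat_lit 4) (nat_lit 6) (nat_lit 4) (nat_lit 394) (nat_lit 244) (nat_lit 142)) (XT.nd (nat_lit 78) (nat_lit 0) (nat_lit 0) (XT.lf (nat_lit 0) (nat_lit 42484053138) (nat_lit 152) (nat_lit 13276590934) (nat_lit 0) (nat_lit 17416269608) (nat_lit 6) (nat_lit 5) (nat_lit 8) (nat_lit 4) (nat_lit 6) (nat_lit 4) (nat_lit 395) (nat_lit 244) (nat_lit 141)) (XT.lf (nat_lit 0) (nat_lit 47009179504) (nat_lit 152) (nat_lit 6335024203) (nat_lit 0) (nat_lit 21904890804) (nat_lit 6) (nat_lit 5) (nat_lit 8) (nat_lit 4) (nat_lit 6) (nat_lit 4) (nat_lit 396) (nat_lit 244) (nat_lit 140))))))))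
noncomputable def xc68 : XT := (XT.nd (nat_lit 33618) (nat_lit 0) (nat_lit 2432) (XT.nd (nat_lit 32682) (nat_lit 0) (nat_lit 6156) (XT.nd (nat_lit 390) (nat_lit 0) (nat_lit 0) (XT.nd (nat_lit 156) (nat_lit 0) (nat_lit 0) (XT.nd (nat_lit 78) (nat_lit 0) (nat_lit 0) (XT.lf (nat_lit 0) (nat_lit 812298693) (nat_lit 76) (nat_lit 50855473060) (nat_lit 76) (nat_lit 25715742448) (nat_lit 5) (nat_lit 4) (nat_lit 6) (nat_lit 5) (nat_lit 6) (nat_lit 4) (nat_lit 397) (nat_lit 244) (nat_lit 139)) (XT.lf (nat_lit 0) (nat_lit 8285741174) (nat_lit 76) (nat_lit 48234375182) (nat_lit 76) (nat_lit 23060234945) (nat_lit 5) (nat_lit 4) (nat_lit 6) (nat_lit 5) (nat_lit 6) (nat_lit 4) (nat_lit 398) (nat_lit 244) (nat_lit 138))) (XT.nd (nat_lit 78) (nat_lit 0) (nat_lit 0) (XT.lf (nat_lit 0) (nat_lit 15965754029) (nat_lit 76) (nat_lit 45542591115) (nat_lit 76) (nat_lit 20335043476) (nat_lit 5) (nat_lit 4) (nat_lit 6)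 (nat_lit 5) (nat_lit 6) (nat_lit 4) (nat_lit 399) (nat_lit 244) (nat_lit 137)) (XT.nd (nat_lit 78) (nat_lit 0) (nat_lit 0) (XT.lf (nat_lit 0) (nat_lit 23859047948) (nat_lit 76) (nat_lit 42777768816) (nat_lit 76) (nat_lit 17537786806) (nat_lit 5) (nat_lit 4) (nat_lit 6) (nat_lit 5) (nat_lit 6) (nat_lit 4) (nat_lit 400) (nat_lit 244) (nat_lit 136)) (XT.lf (nat_lit 0) (nat_lit 31972519984) (nat_lit 76) (nat_lit 39937492419) (nat_lit 76) (nat_lit 14666020729) (nat_lit 5) (nat_lit 4) (nat_lit 6) (nat_lit 5) (nat_lit 6) (nat_lit 4) (nat_lit 401) (nat_lit 244) (nat_lit 135))))) (XT.nd (nat_lit 32058) (nat_lit 0) (nat_lit 9652) (XT.nd (nat_lit 31902) (nat_lit 0) (nat_lit 10792) (XT.lf (nat_lit 0) (nat_lit 40313259579) (nat_lit 76) (nat_lit 37019280131) (nat_lit 76) (nat_lit 11717235935) (nat_lit 5) (nat_lit 4) (nat_lit 6) (nat_lit 5) (nat_lit 6) (nat_lit 4) (nat_lit 402) (nat_lit 244) (nat_lit 134)) (XT.nd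 (nat_lit 78) (nat_lit 76) (nat_lit 0) (XT.lf (nat_lit 0) (nat_lit 813337845) (nat_lit 608) (nat_lit 1472305193) (nat_lit 608) (nat_lit 1472305193) (nat_lit 148) (nat_lit 4) (nat_lit 156) (nat_lit 5) (nat_lit 156) (nat_lit 4) (nat_lit 290) (nat_lit 245) (nat_lit 245)) (XT.lf (nat_lit 0) (nat_lit 258847147) (nat_lit 684) (nat_lit 900706824) (nat_lit 76) (nat_lit 6433515198) (nat_lit 147) (nat_lit 5) (nat_lit 156) (nat_lit 5) (nat_lit 148) (nat_lit 4) (nat_lit 291) (nat_lit 245) (nat_lit 244)))) (XT.nd (nat_lit 78) (nat_lit 608) (nat_lit 0) (XT.lf (nat_lit 0) (nat_lit 3456352821) (nat_lit 608) (nat_lit 3489371302) (nat_lit 0) (nat_lit 727426377) (nat_lit 140) (nat_lit 5) (nat_lit 148) (nat_lit 4) (nat_lit 140) (nat_lit 4) (nat_lit 292) (nat_lit 245) (nat_lit 243)) (XT.nd (nat_lit 78) (nat_lit 76) (nat_lit 0) (XT.lf (nat_lit 0) (nat_lit 1602867619) (nat_lit 532) (nat_lit 5094296362) (nat_lit 532)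 (nat_lit 1060225510) (nat_lit 133) (nat_lit 4) (nat_lit 140) (nat_lit 5) (nat_lit 140) (nat_lit 4) (nat_lit 293) (nat_lit 245) (nat_lit 242)) (XT.lf (nat_lit 0) (nat_lit 2095773965) (nat_lit 608) (nat_lit 1046780196) (nat_lit 76) (nat_lit 4702711575) (nat_lit 132) (nat_lit 5) (nat_lit 140) (nat_lit 5) (nat_lit 133) (nat_lit 4) (nat_lit 294) (nat_lit 245) (nat_lit 241)))))) (XT.nd (nat_lit 468) (nat_lit 1596) (nat_lit 0) (XT.nd (nat_lit 234) (nat_lit 912) (nat_lit 0) (XT.nd (nat_lit 78) (nat_lit 532) (nat_lit 0) (XT.lf (nat_lit 0) (nat_lit 4186681556) (nat_lit 456) (nat_lit 1093173951) (nat_lit 532) (nat_lit 2657128133) (nat_lit 126) (nat_lit 5) (nat_lit 132) (nat_lit 5) (nat_lit 133) (nat_lit 4) (nat_lit 295) (nat_lit 245) (nat_lit 240)) (XT.nd (nat_lit 78) (nat_lit 0) (nat_lit 0) (XT.lf (nat_lit 0) (nat_lit 467691355) (nat_lit 532) (nat_lit 6551379892) (nat_lit 76) (nat_lit 1013882285) (nat_lit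 119) (nat_lit 5) (nat_lit 126) (nat_lit 5) (nat_lit 120) (nat_lit 4) (nat_lit 296) (nat_lit 245) (nat_lit 239)) (XT.lf (nat_lit 0) (nat_lit 3598332898) (nat_lit 532) (nat_lit 1322006590) (nat_lit 76) (nat_lit 3211857217) (nat_lit 119) (nat_lit 5) (nat_lit 126) (nat_lit 5) (nat_lit 120) (nat_lit 4) (nat_lit 297) (nat_lit 245) (nat_lit 238)))) (XT.nd (nat_lit 78) (nat_lit 532) (nat_lit 0) (XT.lf (nat_lit 0) (nat_lit 4045009069) (nat_lit 380) (nat_lit 2735616221) (nat_lit 456) (nat_lit 1455203553) (nat_lit 114) (nat_lit 5) (nat_lit 119) (nat_lit 5) (nat_lit 120) (nat_lit 4) (nat_lit 298) (nat_lit 245) (nat_lit 237)) (XT.nd (nat_lit 78) (nat_lit 0) (nat_lit 0) (XT.lf (nat_lit 0) (nat_lit 1165126237) (nat_lit 456) (nat_lit 461241927) (nat_lit 532) (nat_lit 6717521345) (nat_lit 107) (nat_lit 5) (nat_lit 113) (nat_lit 5) (nat_lit 114) (nat_lit 5) (nat_lit 299) (nat_lit 245) (nat_lit 236)) (XT.lf (nat_lit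 0) (nat_lit 4752540446) (nat_lit 532) (nat_lit 1819483824) (nat_lit 76) (nat_lit 1883424869) (nat_lit 107) (nat_lit 5) (nat_lit 114) (nat_lit 5) (nat_lit 108) (nat_lit 4) (nat_lit 300) (nat_lit 245) (nat_lit 235))))) (XT.nd (nat_lit 234) (nat_lit 760) (nat_lit 0) (XT.nd (nat_lit 78) (nat_lit 456) (nat_lit 0) (XT.lf (nat_lit 0) (nat_lit 3670240507) (nat_lit 380) (nat_lit 4264996659) (nat_lit 456) (nat_lit 636363813) (nat_lit 102) (nat_lit 5) (nat_lit 107) (nat_lit 5) (nat_lit 108) (nat_lit 4) (nat_lit 301) (nat_lit 245) (nat_lit 234)) (XT.nd (nat_lit 78) (nat_lit 0) (nat_lit 0) (XT.lf (nat_lit 0) (nat_lit 559685301) (nat_lit 380) (nat_lit 1860549490) (nat_lit 456) (nat_lit 6271977296) (nat_lit 96) (nat_lit 5) (nat_lit 101) (nat_lit 5) (nat_lit 102) (nat_lit 5) (nat_lit 302) (nat_lit 245) (nat_lit 233)) (XT.lf (nat_lit 0) (nat_lit 5536076077) (nat_lit 456) (nat_lit 2641918048) (nat_lit 76) (nat_lit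 638965105) (nat_lit 96) (nat_lit 5) (nat_lit 102) (nat_lit 5) (nat_lit 97) (nat_lit 4) (nat_lit 303) (nat_lit 245) (nat_lit 232)))) (XT.nd (nat_lit 78) (nat_lit 456) (nat_lit 0) (XT.lf (nat_lit 0) (nat_lit 2956282638) (nat_lit 304) (nat_lit 5762579101) (nat_lit 380) (nat_lit 227496347) (nat_lit 92) (nat_lit 5) (nat_lit 96) (nat_lit 5) (nat_lit 97) (nat_lit 4) (nat_lit 304) (nat_lit 245) (nat_lit 231)) (XT.nd (nat_lit 78) (nat_lit 380) (nat_lit 0) (XT.lf (nat_lit 0) (nat_lit 2814531074) (nat_lit 380) (nat_lit 427568235) (nat_lit 76) (nat_lit 5838186027) (nat_lit 91) (nat_lit 5) (nat_lit 96) (nat_lit 5) (nat_lit 92) (nat_lit 5) (nat_lit 305) (nat_lit 245) (nat_lit 230)) (XT.lf (nat_lit 0) (nat_lit 5308977586) (nat_lit 380) (nat_lit 614455294) (nat_lit 456) (nat_lit 3295428121) (nat_lit 86) (nat_lit 5) (nat_lit 91) (nat_lit 5) (nat_lit 92) (nat_lit 5) (nat_lit 306) (nat_lit 245) (nat_lit 229)))))))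 (XT.nd (nat_lit 936) (nat_lit 1444) (nat_lit 0) (XT.nd (nat_lit 468) (nat_lit 912) (nat_lit 0) (XT.nd (nat_lit 234) (nat_lit 684) (nat_lit 0) (XT.nd (nat_lit 78) (nat_lit 380) (nat_lit 0) (XT.lf (nat_lit 0) (nat_lit 1784364391) (nat_lit 304) (nat_lit 7312953139) (nat_lit 380) (nat_lit 265225662) (nat_lit 82) (nat_lit 5) (nat_lit 86) (nat_lit 5) (nat_lit 87) (nat_lit 4) (nat_lit 307) (nat_lit 245) (nat_lit 228)) (XT.nd (nat_lit 78) (nat_lit 304) (nat_lit 0) (XT.lf (nat_lit 0) (nat_lit 2776557280) (nat_lit 380) (nat_lit 1909458329) (nat_lit 76) (nat_lit 4824499523) (nat_lit 81) (nat_lit 5) (nat_lit 86) (nat_lit 5) (nat_lit 82) (nat_lit 5) (nat_lit 308) (nat_lit 245) (nat_lit 227)) (XT.lf (nat_lit 0) (nat_lit 3910017418) (nat_lit 304) (nat_lit 1964303025) (nat_lit 380) (nat_lit 3789517463) (nat_lit 77) (nat_lit 5) (nat_lit 81) (nat_lit 5) (nat_lit 82) (nat_lit 5) (nat_lit 309) (nat_lit 245) (nat_lit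 226)))) (XT.nd (nat_lit 78) (nat_lit 380) (nat_lit 0) (XT.lf (nat_lit 0) (nat_lit 20272766) (nat_lit 304) (nat_lit 9005784439) (nat_lit 380) (nat_lit 796961435) (nat_lit 73) (nat_lit 5) (nat_lit 77) (nat_lit 5) (nat_lit 78) (nat_lit 4) (nat_lit 310) (nat_lit 245) (nat_lit 225)) (XT.nd (nat_lit 78) (nat_lit 304) (nat_lit 0) (XT.lf (nat_lit 0) (nat_lit 2252522688) (nat_lit 380) (nat_lit 4036076136) (nat_lit 76) (nat_lit 3697448861) (nat_lit 72) (nat_lit 5) (nat_lit 77) (nat_lit 5) (nat_lit 73) (nat_lit 5) (nat_lit 311) (nat_lit 245) (nat_lit 224)) (XT.lf (nat_lit 0) (nat_lit 1839967866) (nat_lit 304) (nat_lit 3490746716) (nat_lit 380) (nat_lit 4824500959) (nat_lit 68) (nat_lit 5) (nat_lit 72) (nat_lit 5) (nat_lit 73) (nat_lit 5) (nat_lit 312) (nat_lit 245) (nat_lit 223))))) (XT.nd (nat_lit 234) (nat_lit 608) (nat_lit 0) (XT.nd (nat_lit 78) (nat_lit 304) (nat_lit 0) (XT.lf (nat_lit 0) (nat_lit 7884287700)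 (nat_lit 304) (nat_lit 594280271) (nat_lit 380) (nat_lit 1851650508) (nat_lit 68) (nat_lit 5) (nat_lit 72) (nat_lit 5) (nat_lit 73) (nat_lit 5) (nat_lit 313) (nat_lit 245) (nat_lit 222)) (XT.nd (nat_lit 78) (nat_lit 0) (nat_lit 0) (XT.lf (nat_lit 0) (nat_lit 1181945490) (nat_lit 304) (nat_lit 6966152596) (nat_lit 76) (nat_lit 2362243951) (nat_lit 64) (nat_lit 5) (nat_lit 68) (nat_lit 5) (nat_lit 65) (nat_lit 5) (nat_lit 314) (nat_lit 245) (nat_lit 221)) (XT.lf (nat_lit 0) (nat_lit 4238583398) (nat_lit 304) (nat_lit 1045624107) (nat_lit 76) (nat_lit 5412107058) (nat_lit 64) (nat_lit 5) (nat_lit 68) (nat_lit 5) (nat_lit 65) (nat_lit 5) (nat_lit 315) (nat_lit 245) (nat_lit 220)))) (XT.nd (nat_lit 78) (nat_lit 304) (nat_lit 0) (XT.lf (nat_lit 0) (nat_lit 5063772929) (nat_lit 304) (nat_lit 2312039869) (nat_lit 380) (nat_lit 3512457348) (nat_lit 60) (nat_lit 5) (nat_lit 64) (nat_lit 5) (nat_lit 65)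 (nat_lit 5) (nat_lit 316) (nat_lit 245) (nat_lit 219)) (XT.nd (nat_lit 78) (nat_lit 76) (nat_lit 0) (XT.lf (nat_lit 0) (nat_lit 200556162) (nat_lit 228) (nat_lit 10367253384) (nat_lit 304) (nat_lit 519423927) (nat_lit 57) (nat_lit 5) (nat_lit 60) (nat_lit 5) (nat_lit 61) (nat_lit 4) (nat_lit 317) (nat_lit 245) (nat_lit 218)) (XT.lf (nat_lit 0) (nat_lit 2536766097) (nat_lit 304) (nat_lit 4901398668) (nat_lit 76) (nat_lit 3852624757) (nat_lit 56) (nat_lit 5) (nat_lit 60) (nat_lit 5) (nat_lit 57) (nat_lit 5) (nat_lit 318) (nat_lit 245) (nat_lit 217)))))) (XT.nd (nat_lit 468) (nat_lit 684) (nat_lit 0) (XT.nd (nat_lit 234) (nat_lit 228) (nat_lit 0) (XT.nd (nat_lit 78) (nat_lit 304) (nat_lit 0) (XT.lf (nat_lit 0) (nat_lit 1195566813) (nat_lit 228) (nat_lit 4432940199) (nat_lit 304) (nat_lit 5873224574) (nat_lit 53) (nat_lit 5) (nat_lit 56) (nat_lit 5) (nat_lit 57) (nat_lit 5) (nat_lit 319) (nat_lit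 245) (nat_lit 216)) (XT.nd (nat_lit 78) (nat_lit 304) (nat_lit 0) (XT.lf (nat_lit 0) (nat_lit 7490700312) (nat_lit 228) (nat_lit 1315453453) (nat_lit 304) (nat_lit 2913114482) (nat_lit 53) (nat_lit 5) (nat_lit 56) (nat_lit 5) (nat_lit 57) (nat_lit 5) (nat_lit 320) (nat_lit 245) (nat_lit 215)) (XT.lf (nat_lit 0) (nat_lit 115077746) (nat_lit 304) (nat_lit 9977691141) (nat_lit 76) (nat_lit 1851122540) (nat_lit 49) (nat_lit 5) (nat_lit 53) (nat_lit 5) (nat_lit 50) (nat_lit 5) (nat_lit 321) (nat_lit 245) (nat_lit 214)))) (XT.nd (nat_lit 78) (nat_lit 228) (nat_lit 0) (XT.lf (nat_lit 0) (nat_lit 3176950254) (nat_lit 304) (nat_lit 3867253063) (nat_lit 76) (nat_lit 5130198919) (nat_lit 49) (nat_lit 5) (nat_lit 53) (nat_lit 5) (nat_lit 50) (nat_lit 5) (nat_lit 322) (nat_lit 245) (nat_lit 213)) (XT.nd (nat_lit 78) (nat_lit 0) (nat_lit 0) (XT.lf (nat_lit 0) (nat_lit 2391134466) (nat_lit 228) (nat_lit 3909362447)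 (nat_lit 304) (nat_lit 6112291065) (nat_lit 46) (nat_lit 5) (nat_lit 49) (nat_lit 5) (nat_lit 50) (nat_lit 5) (nat_lit 323) (nat_lit 245) (nat_lit 212)) (XT.lf (nat_lit 0) (nat_lit 8835329332) (nat_lit 228) (nat_lit 669073070) (nat_lit 304) (nat_lit 3154375887) (nat_lit 46) (nat_lit 5) (nat_lit 49) (nat_lit 5) (nat_lit 50) (nat_lit 5) (nat_lit 324) (nat_lit 245) (nat_lit 211))))) (XT.nd (nat_lit 234) (nat_lit 228) (nat_lit 0) (XT.nd (nat_lit 78) (nat_lit 304) (nat_lit 0) (XT.lf (nat_lit 0) (nat_lit 2503746470) (nat_lit 152) (nat_lit 10299254642) (nat_lit 228) (nat_lit 109240952) (nat_lit 44) (nat_lit 5) (nat_lit 46) (nat_lit 5) (nat_lit 47) (nat_lit 4) (nat_lit 325) (nat_lit 245) (nat_lit 210)) (XT.nd (nat_lit 78) (nat_lit 228) (nat_lit 0) (XT.lf (nat_lit 0) (nat_lit 2962828407) (nat_lit 228) (nat_lit 4189561595) (nat_lit 76) (nat_lit 6020255282) (nat_lit 43) (nat_lit 5) (nat_lit 46) (nat_lit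 5) (nat_lit 44) (nat_lit 5) (nat_lit 326) (nat_lit 245) (nat_lit 209)) (XT.lf (nat_lit 0) (nat_lit 2179289157) (nat_lit 228) (nat_lit 3917044879) (nat_lit 304) (nat_lit 7345396730) (nat_lit 40) (nat_lit 5) (nat_lit 43) (nat_lit 5) (nat_lit 44) (nat_lit 5) (nat_lit 327) (nat_lit 245) (nat_lit 208)))) (XT.nd (nat_lit 78) (nat_lit 228) (nat_lit 0) (XT.lf (nat_lit 0) (nat_lit 8747757524) (nat_lit 228) (nat_lit 569612619) (nat_lit 304) (nat_lit 4401758256) (nat_lit 40) (nat_lit 5) (nat_lit 43) (nat_lit 5) (nat_lit 44) (nat_lit 5) (nat_lit 328) (nat_lit 245) (nat_lit 207)) (XT.nd (nat_lit 78) (nat_lit 76) (nat_lit 0) (XT.lf (nat_lit 0) (nat_lit 1432440741) (nat_lit 152) (nat_lit 11196406842) (nat_lit 228) (nat_lit 1376230098) (nat_lit 38) (nat_lit 5) (nat_lit 40) (nat_lit 5) (nat_lit 41) (nat_lit 4) (nat_lit 329) (nat_lit 245) (nat_lit 206)) (XT.lf (nat_lit 0) (nat_lit 1714974428) (nat_lit 228) (nat_lit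 6267202179) (nat_lit 76) (nat_lit 6316702573) (nat_lit 37) (nat_lit 5) (nat_lit 40) (nat_lit 5) (nat_lit 38) (nat_lit 5) (nat_lit 330) (nat_lit 245) (nat_lit 205))))))))
noncomputable def xc69 : XT := (XT.nd (nat_lit 1794) (nat_lit 608) (nat_lit 0) (XT.nd (nat_lit 858) (nat_lit 608) (nat_lit 0) (XT.nd (nat_lit 390) (nat_lit 532) (nat_lit 0) (XT.nd (nat_lit 156) (nat_lit 228) (nat_lit 0) (XT.nd (nat_lit 78) (nat_lit 0) (nat_lit 0) (XT.lf (nat_lit 0) (nat_lit 142259780) (nat_lit 152) (nat_lit 4684272200) (nat_lit 228) (nat_lit 9775935921) (nat_lit 35) (nat_lit 5) (nat_lit 37) (nat_lit 5) (nat_lit 38) (nat_lit 5) (nat_lit 331) (nat_lit 245) (nat_lit 204)) (XT.lf (nat_lit 0) (nat_lit 6798919588) (nat_lit 152) (nat_lit 1250348727) (nat_lit 228) (nat_lit 6865400124) (nat_lit 35) (nat_lit 5) (nat_lit 37) (nat_lit 5) (nat_lit 38) (nat_lit 5) (nat_lit 332) (nat_lit 245) (nat_lit 203))) (XT.nd (nat_lit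 78) (nat_lit 228) (nat_lit 0) (XT.lf (nat_lit 0) (nat_lit 11346274109) (nat_lit 228) (nat_lit 1675450605) (nat_lit 76) (nat_lit 2215220636) (nat_lit 35) (nat_lit 5) (nat_lit 38) (nat_lit 5) (nat_lit 36) (nat_lit 4) (nat_lit 333) (nat_lit 245) (nat_lit 202)) (XT.nd (nat_lit 78) (nat_lit 76) (nat_lit 0) (XT.lf (nat_lit 0) (nat_lit 4972301817) (nat_lit 152) (nat_lit 9786964989) (nat_lit 228) (nat_lit 809148331) (nat_lit 33) (nat_lit 5) (nat_lit 35) (nat_lit 5) (nat_lit 36) (nat_lit 4) (nat_lit 334) (nat_lit 245) (nat_lit 201)) (XT.lf (nat_lit 0) (nat_lit 2292789798) (nat_lit 228) (nat_lit 4148991490) (nat_lit 76) (nat_lit 9468177052) (nat_lit 32) (nat_lit 5) (nat_lit 35) (nat_lit 5) (nat_lit 33) (nat_lit 5) (nat_lit 335) (nat_lit 245) (nat_lit 200))))) (XT.nd (nat_lit 234) (nat_lit 380) (nat_lit 0) (XT.nd (nat_lit 78) (nat_lit 0) (nat_lit 0) (XT.lf (nat_lit 0) (nat_lit 2463049643) (nat_lit 152) (nat_lit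 2990430672) (nat_lit 228) (nat_lit 10808602205) (nat_lit 30) (nat_lit 5) (nat_lit 32) (nat_lit 5) (nat_lit 33) (nat_lit 5) (nat_lit 336) (nat_lit 245) (nat_lit 199)) (XT.nd (nat_lit 78) (nat_lit 0) (nat_lit 0) (XT.lf (nat_lit 0) (nat_lit 8715315816) (nat_lit 228) (nat_lit 7339736571) (nat_lit 76) (nat_lit 569561070) (nat_lit 30) (nat_lit 5) (nat_lit 33) (nat_lit 5) (nat_lit 31) (nat_lit 4) (nat_lit 337) (nat_lit 245) (nat_lit 198)) (XT.lf (nat_lit 0) (nat_lit 12064407645) (nat_lit 228) (nat_lit 783147811) (nat_lit 76) (nat_lit 4150814635) (nat_lit 30) (nat_lit 5) (nat_lit 33) (nat_lit 5) (nat_lit 31) (nat_lit 4) (nat_lit 338) (nat_lit 245) (nat_lit 197)))) (XT.nd (nat_lit 78) (nat_lit 228) (nat_lit 0) (XT.lf (nat_lit 0) (nat_lit 6022733534) (nat_lit 152) (nat_lit 9510097009) (nat_lit 228) (nat_lit 1849974009) (nat_lit 28) (nat_lit 5) (nat_lit 30) (nat_lit 5) (nat_lit 31) (nat_lit 4) (nat_lit 339)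 (nat_lit 245) (nat_lit 196)) (XT.nd (nat_lit 78) (nat_lit 152) (nat_lit 0) (XT.lf (nat_lit 0) (nat_lit 1269707480) (nat_lit 228) (nat_lit 4807617050) (nat_lit 76) (nat_lit 11702022316) (nat_lit 27) (nat_lit 5) (nat_lit 30) (nat_lit 5) (nat_lit 28) (nat_lit 5) (nat_lit 340) (nat_lit 245) (nat_lit 195)) (XT.lf (nat_lit 0) (nat_lit 1896907941) (nat_lit 152) (nat_lit 2529329185) (nat_lit 228) (nat_lit 13761613832) (nat_lit 25) (nat_lit 5) (nat_lit 27) (nat_lit 5) (nat_lit 28) (nat_lit 5) (nat_lit 341) (nat_lit 245) (nat_lit 194)))))) (XT.nd (nat_lit 468) (nat_lit 304) (nat_lit 0) (XT.nd (nat_lit 234) (nat_lit 228) (nat_lit 0) (XT.nd (nat_lit 78) (nat_lit 76) (nat_lit 0) (XT.lf (nat_lit 0) (nat_lit 7699768303) (nat_lit 228) (nat_lit 9780814632) (nat_lit 76) (nat_lit 1127385526) (nat_lit 25) (nat_lit 5) (nat_lit 28) (nat_lit 5) (nat_lit 26) (nat_lit 4) (nat_lit 342) (nat_lit 245) (nat_lit 193)) (XT.nd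 (nat_lit 78) (nat_lit 76) (nat_lit 0) (XT.lf (nat_lit 0) (nat_lit 11060103869) (nat_lit 228) (nat_lit 3162061282) (nat_lit 76) (nat_lit 4818893022) (nat_lit 25) (nat_lit 5) (nat_lit 28) (nat_lit 5) (nat_lit 26) (nat_lit 4) (nat_lit 343) (nat_lit 245) (nat_lit 192)) (XT.lf (nat_lit 0) (nat_lit 3666969653) (nat_lit 76) (nat_lit 10854146082) (nat_lit 152) (nat_lit 4966054714) (nat_lit 24) (nat_lit 5) (nat_lit 25) (nat_lit 5) (nat_lit 26) (nat_lit 4) (nat_lit 344) (nat_lit 245) (nat_lit 191)))) (XT.nd (nat_lit 78) (nat_lit 228) (nat_lit 0) (XT.lf (nat_lit 0) (nat_lit 10706436548) (nat_lit 76) (nat_lit 7376530091) (nat_lit 152) (nat_lit 1863814301) (nat_lit 24) (nat_lit 5) (nat_lit 25) (nat_lit 5) (nat_lit 26) (nat_lit 4) (nat_lit 345) (nat_lit 245) (nat_lit 190)) (XT.nd (nat_lit 78) (nat_lit 152) (nat_lit 0) (XT.lf (nat_lit 0) (nat_lit 1271246706) (nat_lit 152) (nat_lit 2534125298) (nat_lit 76) (nat_lit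 16615475367) (nat_lit 23) (nat_lit 5) (nat_lit 25) (nat_lit 5) (nat_lit 24) (nat_lit 5) (nat_lit 346) (nat_lit 245) (nat_lit 189)) (XT.lf (nat_lit 0) (nat_lit 4383833401) (nat_lit 152) (nat_lit 87939016) (nat_lit 228) (nat_lit 16436566536) (nat_lit 21) (nat_lit 5) (nat_lit 23) (nat_lit 5) (nat_lit 24) (nat_lit 5) (nat_lit 347) (nat_lit 245) (nat_lit 188))))) (XT.nd (nat_lit 234) (nat_lit 228) (nat_lit 0) (XT.nd (nat_lit 78) (nat_lit 76) (nat_lit 0) (XT.lf (nat_lit 0) (nat_lit 7797059775) (nat_lit 228) (nat_lit 9941392266) (nat_lit 76) (nat_lit 3671163172) (nat_lit 21) (nat_lit 5) (nat_lit 24) (nat_lit 5) (nat_lit 22) (nat_lit 4) (nat_lit 348) (nat_lit 245) (nat_lit 187)) (XT.nd (nat_lit 78) (nat_lit 76) (nat_lit 0) (XT.lf (nat_lit 0) (nat_lit 11190881168) (nat_lit 228) (nat_lit 3216771132) (nat_lit 76) (nat_lit 7519235858) (nat_lit 21) (nat_lit 5) (nat_lit 24) (nat_lit 5) (nat_lit 22) (nat_lit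 4) (nat_lit 349) (nat_lit 245) (nat_lit 186)) (XT.lf (nat_lit 0) (nat_lit 3728842197) (nat_lit 76) (nat_lit 10962358461) (nat_lit 152) (nat_lit 7768359156) (nat_lit 20) (nat_lit 5) (nat_lit 21) (nat_lit 5) (nat_lit 22) (nat_lit 4) (nat_lit 350) (nat_lit 245) (nat_lit 185)))) (XT.nd (nat_lit 78) (nat_lit 228) (nat_lit 0) (XT.lf (nat_lit 0) (nat_lit 10895779604) (nat_lit 76) (nat_lit 7402471015) (nat_lit 152) (nat_lit 4709929788) (nat_lit 20) (nat_lit 5) (nat_lit 21) (nat_lit 5) (nat_lit 22) (nat_lit 4) (nat_lit 351) (nat_lit 245) (nat_lit 184)) (XT.nd (nat_lit 78) (nat_lit 228) (nat_lit 0) (XT.lf (nat_lit 0) (nat_lit 18226283410) (nat_lit 76) (nat_lit 3757362463) (nat_lit 152) (nat_lit 1590529554) (nat_lit 20) (nat_lit 5) (nat_lit 21) (nat_lit 5) (nat_lit 22) (nat_lit 4) (nat_lit 352) (nat_lit 245) (nat_lit 183)) (XT.lf (nat_lit 0) (nat_lit 1576793150) (nat_lit 228) (nat_lit 22572869733) (nat_lit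 76) (nat_lit 7458204) (nat_lit 17) (nat_lit 5) (nat_lit 20) (nat_lit 5) (nat_lit 18) (nat_lit 4) (nat_lit 353) (nat_lit 245) (nat_lit 182))))))) (XT.nd (nat_lit 936) (nat_lit 228) (nat_lit 0) (XT.nd (nat_lit 468) (nat_lit 304) (nat_lit 0) (XT.nd (nat_lit 234) (nat_lit 76) (nat_lit 0) (XT.nd (nat_lit 78) (nat_lit 0) (nat_lit 0) (XT.lf (nat_lit 0) (nat_lit 4869774045) (nat_lit 228) (nat_lit 16026166316) (nat_lit 76) (nat_lit 3859282262) (nat_lit 17) (nat_lit 5) (nat_lit 20) (nat_lit 5) (nat_lit 18) (nat_lit 4) (nat_lit 354) (nat_lit 245) (nat_lit 181)) (XT.nd (nat_lit 78) (nat_lit 0) (nat_lit 0) (XT.lf (nat_lit 0) (nat_lit 8233259960) (nat_lit 228) (nat_lit 9332316899) (nat_lit 76) (nat_lit 7806556489) (nat_lit 17) (nat_lit 5) (nat_lit 20) (nat_lit 5) (nat_lit 18) (nat_lit 4) (nat_lit 355) (nat_lit 245) (nat_lit 180)) (XT.lf (nat_lit 0) (nat_lit 11670189863) (nat_lit 228) (nat_lit 2485472486) (nat_lit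 76) (nat_lit 11852729960) (nat_lit 17) (nat_lit 5) (nat_lit 20) (nat_lit 5) (nat_lit 18) (nat_lit 4) (nat_lit 356) (nat_lit 245) (nat_lit 179)))) (XT.nd (nat_lit 78) (nat_lit 0) (nat_lit 0) (XT.lf (nat_lit 0) (nat_lit 4610313421) (nat_lit 76) (nat_lit 10617570629) (nat_lit 152) (nat_lit 11435341896) (nat_lit 16) (nat_lit 5) (nat_lit 17) (nat_lit 5) (nat_lit 18) (nat_lit 4) (nat_lit 357) (nat_lit 245) (nat_lit 178)) (XT.nd (nat_lit 78) (nat_lit 0) (nat_lit 0) (XT.lf (nat_lit 0) (nat_lit 11923950172) (nat_lit 76) (nat_lit 6967131136) (nat_lit 152) (nat_lit 8446676234) (nat_lit 16) (nat_lit 5) (nat_lit 17) (nat_lit 5) (nat_lit 18) (nat_lit 4) (nat_lit 358) (nat_lit 245) (nat_lit 177)) (XT.lf (nat_lit 0) (nat_lit 19412362544) (nat_lit 76) (nat_lit 3226252565) (nat_lit 152) (nat_lit 5394692403) (nat_lit 16) (nat_lit 5) (nat_lit 17) (nat_lit 5) (nat_lit 18) (nat_lit 4) (nat_lit 359) (nat_lit 245) (nat_lit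 176))))) (XT.nd (nat_lit 234) (nat_lit 76) (nat_lit 0) (XT.nd (nat_lit 78) (nat_lit 228) (nat_lit 0) (XT.lf (nat_lit 0) (nat_lit 26479607677) (nat_lit 152) (nat_lit 1674237485) (nat_lit 0) (nat_lit 596463028) (nat_lit 16) (nat_lit 5) (nat_lit 18) (nat_lit 4) (nat_lit 16) (nat_lit 4) (nat_lit 360) (nat_lit 245) (nat_lit 175)) (XT.nd (nat_lit 78) (nat_lit 0) (nat_lit 0) (XT.lf (nat_lit 0) (nat_lit 989798846) (nat_lit 228) (nat_lit 23982829199) (nat_lit 76) (nat_lit 4514094045) (nat_lit 13) (nat_lit 5) (nat_lit 16) (nat_lit 5) (nat_lit 14) (nat_lit 4) (nat_lit 361) (nat_lit 245) (nat_lit 174)) (XT.lf (nat_lit 0) (nat_lit 4295332889) (nat_lit 228) (nat_lit 17378397235) (nat_lit 76) (nat_lit 8571051963) (nat_lit 13) (nat_lit 5) (nat_lit 16) (nat_lit 5) (nat_lit 14) (nat_lit 4) (nat_lit 362) (nat_lit 245) (nat_lit 173)))) (XT.nd (nat_lit 78) (nat_lit 76) (nat_lit 0) (XT.lf (nat_lit 0) (nat_lit 7676522882)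 (nat_lit 228) (nat_lit 10617302076) (nat_lit 76) (nat_lit 12732477723) (nat_lit 13) (nat_lit 5) (nat_lit 16) (nat_lit 5) (nat_lit 14) (nat_lit 4) (nat_lit 363) (nat_lit 245) (nat_lit 172)) (XT.nd (nat_lit 78) (nat_lit 76) (nat_lit 0) (XT.lf (nat_lit 0) (nat_lit 11136323264) (nat_lit 228) (nat_lit 3693635969) (nat_lit 76) (nat_lit 17002007525) (nat_lit 13) (nat_lit 5) (nat_lit 16) (nat_lit 5) (nat_lit 14) (nat_lit 4) (nat_lit 364) (nat_lit 245) (nat_lit 171)) (XT.lf (nat_lit 0) (nat_lit 3466290708) (nat_lit 76) (nat_lit 11244786559) (nat_lit 152) (nat_lit 17950401423) (nat_lit 12) (nat_lit 5) (nat_lit 13) (nat_lit 5) (nat_lit 14) (nat_lit 4) (nat_lit 365) (nat_lit 245) (nat_lit 170)))))) (XT.nd (nat_lit 468) (nat_lit 76) (nat_lit 0) (XT.nd (nat_lit 234) (nat_lit 152) (nat_lit 0) (XT.nd (nat_lit 78) (nat_lit 0) (nat_lit 0) (XT.lf (nat_lit 0) (nat_lit 10878025101) (nat_lit 76) (nat_lit 7530460160)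 (nat_lit 152) (nat_lit 15106940729) (nat_lit 12) (nat_lit 5) (nat_lit 13) (nat_lit 5) (nat_lit 14) (nat_lit 4) (nat_lit 366) (nat_lit 245) (nat_lit 169)) (XT.nd (nat_lit 78) (nat_lit 0) (nat_lit 0) (XT.lf (nat_lit 0) (nat_lit 18474532883) (nat_lit 76) (nat_lit 3721032989) (nat_lit 152) (nat_lit 12200075317) (nat_lit 12) (nat_lit 5) (nat_lit 13) (nat_lit 5) (nat_lit 14) (nat_lit 4) (nat_lit 367) (nat_lit 245) (nat_lit 168)) (XT.lf (nat_lit 0) (nat_lit 26077424063) (nat_lit 152) (nat_lit 9042237491) (nat_lit 0) (nat_lit 183177978) (nat_lit 12) (nat_lit 5) (nat_lit 14) (nat_lit 4) (nat_lit 12) (nat_lit 4) (nat_lit 368) (nat_lit 245) (nat_lit 167)))) (XT.nd (nat_lit 78) (nat_lit 152) (nat_lit 0) (XT.lf (nat_lit 0) (nat_lit 30092402150) (nat_lit 152) (nat_lit 2029728179) (nat_lit 0) (nat_lit 4114634875) (nat_lit 12) (nat_lit 5) (nat_lit 14) (nat_lit 4) (nat_lit 12) (nat_lit 4) (nat_lit 369) (nat_lit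 245) (nat_lit 166)) (XT.nd (nat_lit 78) (nat_lit 76) (nat_lit 0) (XT.lf (nat_lit 0) (nat_lit 5260976509) (nat_lit 76) (nat_lit 28997834734) (nat_lit 76) (nat_lit 2938978926) (nat_lit 11) (nat_lit 4) (nat_lit 12) (nat_lit 5) (nat_lit 12) (nat_lit 4) (nat_lit 370) (nat_lit 245) (nat_lit 165)) (XT.lf (nat_lit 0) (nat_lit 356637809) (nat_lit 152) (nat_lit 25413607786) (nat_lit 76) (nat_lit 12417271695) (nat_lit 10) (nat_lit 5) (nat_lit 12) (nat_lit 5) (nat_lit 11) (nat_lit 4) (nat_lit 371) (nat_lit 245) (nat_lit 164))))) (XT.nd (nat_lit 234) (nat_lit 76) (nat_lit 0) (XT.nd (nat_lit 78) (nat_lit 0) (nat_lit 0) (XT.lf (nat_lit 0) (nat_lit 3673068848) (nat_lit 152) (nat_lit 18757686496) (nat_lit 76) (nat_lit 16775887467) (nat_lit 10) (nat_lit 5) (nat_lit 12) (nat_lit 5) (nat_lit 11) (nat_lit 4) (nat_lit 372) (nat_lit 245) (nat_lit 163)) (XT.nd (nat_lit 78) (nat_lit 0) (nat_lit 0) (XT.lf (nat_lit 0) (nat_lit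 7070562107) (nat_lit 152) (nat_lit 11934982675) (nat_lit 76) (nat_lit 21251359988) (nat_lit 10) (nat_lit 5) (nat_lit 12) (nat_lit 5) (nat_lit 11) (nat_lit 4) (nat_lit 373) (nat_lit 245) (nat_lit 162)) (XT.lf (nat_lit 0) (nat_lit 10552086270) (nat_lit 152) (nat_lit 4939534737) (nat_lit 76) (nat_lit 25847599865) (nat_lit 10) (nat_lit 5) (nat_lit 12) (nat_lit 5) (nat_lit 11) (nat_lit 4) (nat_lit 374) (nat_lit 245) (nat_lit 161)))) (XT.nd (nat_lit 78) (nat_lit 0) (nat_lit 0) (XT.lf (nat_lit 0) (nat_lit 2279246148) (nat_lit 76) (nat_lit 11863346804) (nat_lit 152) (nat_lit 28311286590) (nat_lit 9) (nat_lit 5) (nat_lit 10) (nat_lit 5) (nat_lit 11) (nat_lit 4) (nat_lit 375) (nat_lit 245) (nat_lit 160)) (XT.nd (nat_lit 78) (nat_lit 0) (nat_lit 0) (XT.lf (nat_lit 0) (nat_lit 9785143274) (nat_lit 76) (nat_lit 8088389332) (nat_lit 152) (nat_lit 25727472757) (nat_lit 9) (nat_lit 5) (nat_lit 10) (nat_lit 5)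 (nat_lit 11) (nat_lit 4) (nat_lit 376) (nat_lit 245) (nat_lit 159)) (XT.lf (nat_lit 0) (nat_lit 17486408764) (nat_lit 76) (nat_lit 4213329697) (nat_lit 152) (nat_lit 23083315018) (nat_lit 9) (nat_lit 5) (nat_lit 10) (nat_lit 5) (nat_lit 11) (nat_lit 4) (nat_lit 377) (nat_lit 245) (nat_lit 158))))))))
noncomputable def xc70 : XT := (XT.nd (nat_lit 1794) (nat_lit 0) (nat_lit 0) (XT.nd (nat_lit 858) (nat_lit 152) (nat_lit 0) (XT.nd (nat_lit 390) (nat_lit 76) (nat_lit 0) (XT.nd (nat_lit 156) (nat_lit 76) (nat_lit 0) (XT.nd (nat_lit 78) (nat_lit 0) (nat_lit 0) (XT.lf (nat_lit 0) (nat_lit 25389771881) (nat_lit 76) (nat_lit 234781927) (nat_lit 152) (nat_lit 20376502944) (nat_lit 9) (nat_lit 5) (nat_lit 10) (nat_lit 5) (nat_lit 11) (nat_lit 4) (nat_lit 378) (nat_lit 245) (nat_lit 157)) (XT.lf (nat_lit 0) (nat_lit 29688423672) (nat_lit 152) (nat_lit 13790956555) (nat_lit 0) (nat_lit 3775588760) (nat_lit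 9) (nat_lit 5) (nat_lit 11) (nat_lit 4) (nat_lit 9) (nat_lit 4) (nat_lit 379) (nat_lit 245) (nat_lit 156))) (XT.nd (nat_lit 78) (nat_lit 76) (nat_lit 0) (XT.lf (nat_lit 0) (nat_lit 33861170478) (nat_lit 152) (nat_lit 6795971728) (nat_lit 0) (nat_lit 7889755484) (nat_lit 9) (nat_lit 5) (nat_lit 11) (nat_lit 4) (nat_lit 9) (nat_lit 4) (nat_lit 380) (nat_lit 245) (nat_lit 155)) (XT.nd (nat_lit 78) (nat_lit 0) (nat_lit 0) (XT.lf (nat_lit 0) (nat_lit 389641915) (nat_lit 76) (nat_lit 37758287011) (nat_lit 76) (nat_lit 11729998150) (nat_lit 8) (nat_lit 4) (nat_lit 9) (nat_lit 5) (nat_lit 9) (nat_lit 4) (nat_lit 381) (nat_lit 245) (nat_lit 154)) (XT.lf (nat_lit 0) (nat_lit 7903573662) (nat_lit 76) (nat_lit 34713605346) (nat_lit 76) (nat_lit 8630099140) (nat_lit 8) (nat_lit 4) (nat_lit 9) (nat_lit 5) (nat_lit 9) (nat_lit 4) (nat_lit 382) (nat_lit 245) (nat_lit 153))))) (XT.nd (nat_lit 234) (nat_lit 0)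 (nat_lit 0) (XT.nd (nat_lit 78) (nat_lit 76) (nat_lit 0) (XT.lf (nat_lit 0) (nat_lit 15617135921) (nat_lit 76) (nat_lit 31589062801) (nat_lit 76) (nat_lit 5451947522) (nat_lit 8) (nat_lit 4) (nat_lit 9) (nat_lit 5) (nat_lit 9) (nat_lit 4) (nat_lit 383) (nat_lit 245) (nat_lit 152)) (XT.nd (nat_lit 78) (nat_lit 76) (nat_lit 0) (XT.lf (nat_lit 0) (nat_lit 23537068698) (nat_lit 76) (nat_lit 28381929193) (nat_lit 76) (nat_lit 2192766271) (nat_lit 8) (nat_lit 4) (nat_lit 9) (nat_lit 5) (nat_lit 9) (nat_lit 4) (nat_lit 384) (nat_lit 245) (nat_lit 151)) (XT.lf (nat_lit 0) (nat_lit 1127846094) (nat_lit 152) (nat_lit 23950167044) (nat_lit 76) (nat_lit 30531057194) (nat_lit 7) (nat_lit 5) (nat_lit 9) (nat_lit 5) (nat_lit 8) (nat_lit 4) (nat_lit 385) (nat_lit 245) (nat_lit 150)))) (XT.nd (nat_lit 78) (nat_lit 0) (nat_lit 0) (XT.lf (nat_lit 0) (nat_lit 4490774519) (nat_lit 152) (nat_lit 17172482236) (nat_lit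 76) (nat_lit 35487790956) (nat_lit 7) (nat_lit 5) (nat_lit 9) (nat_lit 5) (nat_lit 8) (nat_lit 4) (nat_lit 386) (nat_lit 245) (nat_lit 149)) (XT.nd (nat_lit 78) (nat_lit 0) (nat_lit 0) (XT.lf (nat_lit 0) (nat_lit 7941746255) (nat_lit 152) (nat_lit 10214640581) (nat_lit 76) (nat_lit 40583289173) (nat_lit 7) (nat_lit 5) (nat_lit 9) (nat_lit 5) (nat_lit 8) (nat_lit 4) (nat_lit 387) (nat_lit 245) (nat_lit 148)) (XT.lf (nat_lit 0) (nat_lit 11483776712) (nat_lit 152) (nat_lit 3070562410) (nat_lit 76) (nat_lit 45822004221) (nat_lit 7) (nat_lit 5) (nat_lit 9) (nat_lit 5) (nat_lit 8) (nat_lit 4) (nat_lit 388) (nat_lit 245) (nat_lit 147)))))) (XT.nd (nat_lit 468) (nat_lit 76) (nat_lit 0) (XT.nd (nat_lit 234) (nat_lit 0) (nat_lit 0) (XT.nd (nat_lit 78) (nat_lit 0) (nat_lit 0) (XT.lf (nat_lit 0) (nat_lit 4350896331) (nat_lit 76) (nat_lit 10810888014) (nat_lit 152) (nat_lit 46899440764) (nat_lit 6) (nat_lit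 5) (nat_lit 7) (nat_lit 5) (nat_lit 8) (nat_lit 4) (nat_lit 389) (nat_lit 245) (nat_lit 146)) (XT.nd (nat_lit 78) (nat_lit 0) (nat_lit 0) (XT.lf (nat_lit 0) (nat_lit 12036313074) (nat_lit 76) (nat_lit 6932863303) (nat_lit 152) (nat_lit 44826911352) (nat_lit 6) (nat_lit 5) (nat_lit 7) (nat_lit 5) (nat_lit 8) (nat_lit 4) (nat_lit 390) (nat_lit 245) (nat_lit 145)) (XT.lf (nat_lit 0) (nat_lit 19931293017) (nat_lit 76) (nat_lit 2947883084) (nat_lit 152) (nat_lit 42704174109) (nat_lit 6) (nat_lit 5) (nat_lit 7) (nat_lit 5) (nat_lit 8) (nat_lit 4) (nat_lit 391) (nat_lit 245) (nat_lit 144)))) (XT.nd (nat_lit 78) (nat_lit 0) (nat_lit 0) (XT.lf (nat_lit 0) (nat_lit 26906230829) (nat_lit 152) (nat_lit 39392870358) (nat_lit 0) (nat_lit 1125142129) (nat_lit 6) (nat_lit 5) (nat_lit 8) (nat_lit 4) (nat_lit 6) (nat_lit 4) (nat_lit 392) (nat_lit 245) (nat_lit 143)) (XT.nd (nat_lit 78) (nat_lit 0) (nat_lit 0) (XT.lf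 (nat_lit 0) (nat_lit 31072251748) (nat_lit 152) (nat_lit 32995137357) (nat_lit 0) (nat_lit 5252434713) (nat_lit 6) (nat_lit 5) (nat_lit 8) (nat_lit 4) (nat_lit 6) (nat_lit 4) (nat_lit 393) (nat_lit 245) (nat_lit 142)) (XT.lf (nat_lit 0) (nat_lit 35352542216) (nat_lit 152) (nat_lit 26424931086) (nat_lit 0) (nat_lit 9495124855) (nat_lit 6) (nat_lit 5) (nat_lit 8) (nat_lit 4) (nat_lit 6) (nat_lit 4) (nat_lit 394) (nat_lit 245) (nat_lit 141))))) (XT.nd (nat_lit 234) (nat_lit 76) (nat_lit 0) (XT.nd (nat_lit 78) (nat_lit 0) (nat_lit 0) (XT.lf (nat_lit 0) (nat_lit 39750842292) (nat_lit 152) (nat_lit 19676510586) (nat_lit 0) (nat_lit 13856919761) (nat_lit 6) (nat_lit 5) (nat_lit 8) (nat_lit 4) (nat_lit 6) (nat_lit 4) (nat_lit 395) (nat_lit 245) (nat_lit 140)) (XT.nd (nat_lit 78) (nat_lit 0) (nat_lit 0) (XT.lf (nat_lit 0) (nat_lit 44270995151) (nat_lit 152) (nat_lit 12743979180) (nat_lit 0) (nat_lit 18341630707)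 (nat_lit 6) (nat_lit 5) (nat_lit 8) (nat_lit 4) (nat_lit 6) (nat_lit 4) (nat_lit 396) (nat_lit 245) (nat_lit 139)) (XT.lf (nat_lit 0) (nat_lit 48916950442) (nat_lit 152) (nat_lit 5621279316) (nat_lit 0) (nat_lit 22953176374) (nat_lit 6) (nat_lit 5) (nat_lit 8) (nat_lit 4) (nat_lit 6) (nat_lit 4) (nat_lit 397) (nat_lit 245) (nat_lit 138)))) (XT.nd (nat_lit 78) (nat_lit 0) (nat_lit 0) (XT.lf (nat_lit 0) (nat_lit 1731602526) (nat_lit 76) (nat_lit 51977810433) (nat_lit 76) (nat_lit 25980628963) (nat_lit 5) (nat_lit 4) (nat_lit 6) (nat_lit 5) (nat_lit 6) (nat_lit 4) (nat_lit 398) (nat_lit 245) (nat_lit 137)) (XT.nd (nat_lit 78) (nat_lit 0) (nat_lit 0) (XT.lf (nat_lit 0) (nat_lit 9403182217) (nat_lit 76) (nat_lit 49289827001) (nat_lit 76) (nat_lit 23260211160) (nat_lit 5) (nat_lit 4) (nat_lit 6) (nat_lit 5) (nat_lit 6) (nat_lit 4) (nat_lit 399) (nat_lit 245) (nat_lit 136)) (XT.lf (nat_lit 0) (nat_lit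 17288288599) (nat_lit 76) (nat_lit 46528694638) (nat_lit 76) (nat_lit 20467589117) (nat_lit 5) (nat_lit 4) (nat_lit 6) (nat_lit 5) (nat_lit 6) (nat_lit 4) (nat_lit 400) (nat_lit 245) (nat_lit 135))))))) (XT.nd (nat_lit 32604) (nat_lit 0) (nat_lit 5472) (XT.nd (nat_lit 32136) (nat_lit 0) (nat_lit 8664) (XT.nd (nat_lit 31902) (nat_lit 0) (nat_lit 10792) (XT.nd (nat_lit 78) (nat_lit 0) (nat_lit 0) (XT.lf (nat_lit 0) (nat_lit 25393811570) (nat_lit 76) (nat_lit 43692000705) (nat_lit 76) (nat_lit 17600322678) (nat_lit 5) (nat_lit 4) (nat_lit 6) (nat_lit 5) (nat_lit 6) (nat_lit 4) (nat_lit 401) (nat_lit 245) (nat_lit 134)) (XT.nd (nat_lit 31746) (nat_lit 0) (nat_lit 12084) (XT.lf (nat_lit 0) (nat_lit 33726833626) (nat_lit 76) (nat_lit 40777266536) (nat_lit 76) (nat_lit 14655906466) (nat_lit 5) (nat_lit 4) (nat_lit 6) (nat_lit 5) (nat_lit 6) (nat_lit 4) (nat_lit 402) (nat_lit 245) (nat_lit 133)) (XT.lf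 (nat_lit 0) (nat_lit 3301599517) (nat_lit 1140) (nat_lit 192283738) (nat_lit 1140) (nat_lit 192283738) (nat_lit 164) (nat_lit 4) (nat_lit 179) (nat_lit 5) (nat_lit 179) (nat_lit 4) (nat_lit 288) (nat_lit 246) (nat_lit 246)))) (XT.nd (nat_lit 78) (nat_lit 684) (nat_lit 0) (XT.lf (nat_lit 0) (nat_lit 2793456583) (nat_lit 608) (nat_lit 3324822177) (nat_lit 0) (nat_lit 1324505053) (nat_lit 156) (nat_lit 5) (nat_lit 164) (nat_lit 4) (nat_lit 156) (nat_lit 4) (nat_lit 289) (nat_lit 246) (nat_lit 245)) (XT.nd (nat_lit 78) (nat_lit 76) (nat_lit 0) (XT.lf (nat_lit 0) (nat_lit 1577464905) (nat_lit 608) (nat_lit 4417501420) (nat_lit 608) (nat_lit 1522383357) (nat_lit 148) (nat_lit 4) (nat_lit 156) (nat_lit 5) (nat_lit 156) (nat_lit 4) (nat_lit 290) (nat_lit 246) (nat_lit 244)) (XT.lf (nat_lit 0) (nat_lit 1608843021) (nat_lit 684) (nat_lit 1013794432) (nat_lit 76) (nat_lit 4972898764) (nat_lit 147) (nat_lit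 5) (nat_lit 156) (nat_lit 5) (nat_lit 148) (nat_lit 4) (nat_lit 291) (nat_lit 246) (nat_lit 243))))) (XT.nd (nat_lit 234) (nat_lit 988) (nat_lit 0) (XT.nd (nat_lit 78) (nat_lit 608) (nat_lit 0) (XT.lf (nat_lit 0) (nat_lit 4027512179) (nat_lit 532) (nat_lit 726949242) (nat_lit 608) (nat_lit 2922799756) (nat_lit 140) (nat_lit 5) (nat_lit 147) (nat_lit 5) (nat_lit 148) (nat_lit 4) (nat_lit 292) (nat_lit 246) (nat_lit 242)) (XT.nd (nat_lit 78) (nat_lit 0) (nat_lit 0) (XT.lf (nat_lit 0) (nat_lit 177236183) (nat_lit 608) (nat_lit 6367578425) (nat_lit 76) (nat_lit 1218259394) (nat_lit 132) (nat_lit 5) (nat_lit 140) (nat_lit 5) (nat_lit 133) (nat_lit 4) (nat_lit 293) (nat_lit 246) (nat_lit 241)) (XT.lf (nat_lit 0) (nat_lit 3270412171) (nat_lit 608) (nat_lit 1318654949) (nat_lit 76) (nat_lit 3262921045) (nat_lit 132) (nat_lit 5) (nat_lit 140) (nat_lit 5) (nat_lit 133) (nat_lit 4) (nat_lit 294) (nat_lit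 246) (nat_lit 240)))) (XT.nd (nat_lit 78) (nat_lit 532) (nat_lit 0) (XT.lf (nat_lit 0) (nat_lit 3861246028) (nat_lit 456) (nat_lit 2549211955) (nat_lit 532) (nat_lit 1534646467) (nat_lit 126) (nat_lit 5) (nat_lit 132) (nat_lit 5) (nat_lit 133) (nat_lit 4) (nat_lit 295) (nat_lit 246) (nat_lit 239)) (XT.nd (nat_lit 78) (nat_lit 0) (nat_lit 0) (XT.lf (nat_lit 0) (nat_lit 1092035341) (nat_lit 456) (nat_lit 421814501) (nat_lit 532) (nat_lit 6528606256) (nat_lit 119) (nat_lit 5) (nat_lit 125) (nat_lit 5) (nat_lit 126) (nat_lit 5) (nat_lit 296) (nat_lit 246) (nat_lit 238)) (XT.lf (nat_lit 0) (nat_lit 4600460538) (nat_lit 532) (nat_lit 1765353079) (nat_lit 76) (nat_lit 1777277326) (nat_lit 119) (nat_lit 5) (nat_lit 126) (nat_lit 5) (nat_lit 120) (nat_lit 4) (nat_lit 297) (nat_lit 246) (nat_lit 237)))))) (XT.nd (nat_lit 468) (nat_lit 1444) (nat_lit 0) (XT.nd (nat_lit 234) (nat_lit 836) (nat_lit 0) (XT.nd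 (nat_lit 78) (nat_lit 532) (nat_lit 0) (XT.lf (nat_lit 0) (nat_lit 3544952874) (nat_lit 380) (nat_lit 4194181453) (nat_lit 456) (nat_lit 508965997) (nat_lit 114) (nat_lit 5) (nat_lit 119) (nat_lit 5) (nat_lit 120) (nat_lit 4) (nat_lit 298) (nat_lit 246) (nat_lit 236)) (XT.nd (nat_lit 78) (nat_lit 0) (nat_lit 0) (XT.lf (nat_lit 0) (nat_lit 585059677) (nat_lit 456) (nat_lit 1924934474) (nat_lit 532) (nat_lit 5847283121) (nat_lit 107) (nat_lit 5) (nat_lit 113) (nat_lit 5) (nat_lit 114) (nat_lit 5) (nat_lit 299) (nat_lit 246) (nat_lit 235)) (XT.lf (nat_lit 0) (nat_lit 5584112250) (nat_lit 532) (nat_lit 2446841814) (nat_lit 76) (nat_lit 439507320) (nat_lit 107) (nat_lit 5) (nat_lit 114) (nat_lit 5) (nat_lit 108) (nat_lit 4) (nat_lit 300) (nat_lit 246) (nat_lit 234)))) (XT.nd (nat_lit 78) (nat_lit 380) (nat_lit 0) (XT.lf (nat_lit 0) (nat_lit 132703959) (nat_lit 456) (nat_lit 5606386210) (nat_lit 76)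 (nat_lit 2848849605) (nat_lit 101) (nat_lit 5) (nat_lit 107) (nat_lit 5) (nat_lit 102) (nat_lit 5) (nat_lit 301) (nat_lit 246) (nat_lit 233)) (XT.nd (nat_lit 78) (nat_lit 380) (nat_lit 0) (XT.lf (nat_lit 0) (nat_lit 3134840649) (nat_lit 456) (nat_lit 209285900) (nat_lit 76) (nat_lit 5365559668) (nat_lit 101) (nat_lit 5) (nat_lit 107) (nat_lit 5) (nat_lit 102) (nat_lit 5) (nat_lit 302) (nat_lit 246) (nat_lit 232)) (XT.lf (nat_lit 0) (nat_lit 5361910078) (nat_lit 380) (nat_lit 844412953) (nat_lit 456) (nat_lit 2629496945) (nat_lit 96) (nat_lit 5) (nat_lit 101) (nat_lit 5) (nat_lit 102) (nat_lit 5) (nat_lit 303) (nat_lit 246) (nat_lit 231))))) (XT.nd (nat_lit 234) (nat_lit 684) (nat_lit 0) (XT.nd (nat_lit 78) (nat_lit 380) (nat_lit 0) (XT.lf (nat_lit 0) (nat_lit 363316620) (nat_lit 380) (nat_lit 6901394577) (nat_lit 76) (nat_lit 1702007085) (nat_lit 91) (nat_lit 5) (nat_lit 96) (nat_lit 5) (nat_lit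 92) (nat_lit 5) (nat_lit 304) (nat_lit 246) (nat_lit 230)) (XT.nd (nat_lit 78) (nat_lit 380) (nat_lit 0) (XT.lf (nat_lit 0) (nat_lit 3366004706) (nat_lit 380) (nat_lit 1387468997) (nat_lit 76) (nat_lit 4348204334) (nat_lit 91) (nat_lit 5) (nat_lit 96) (nat_lit 5) (nat_lit 92) (nat_lit 5) (nat_lit 305) (nat_lit 246) (nat_lit 229)) (XT.lf (nat_lit 0) (nat_lit 4284032967) (nat_lit 380) (nat_lit 2147137595) (nat_lit 456) (nat_lit 2810444841) (nat_lit 86) (nat_lit 5) (nat_lit 91) (nat_lit 5) (nat_lit 92) (nat_lit 5) (nat_lit 306) (nat_lit 246) (nat_lit 228)))) (XT.nd (nat_lit 78) (nat_lit 304) (nat_lit 0) (XT.lf (nat_lit 0) (nat_lit 156100055) (nat_lit 380) (nat_lit 8704245770) (nat_lit 76) (nat_lit 526716246) (nat_lit 81) (nat_lit 5) (nat_lit 86) (nat_lit 5) (nat_lit 82) (nat_lit 5) (nat_lit 307) (nat_lit 246) (nat_lit 227)) (XT.nd (nat_lit 78) (nat_lit 304) (nat_lit 0) (XT.lf (nat_lit 0) (nat_lit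 3159442478) (nat_lit 380) (nat_lit 3083877206) (nat_lit 76) (nat_lit 3292681201) (nat_lit 81) (nat_lit 5) (nat_lit 86) (nat_lit 5) (nat_lit 82) (nat_lit 5) (nat_lit 308) (nat_lit 246) (nat_lit 226)) (XT.lf (nat_lit 0) (nat_lit 2666871949) (nat_lit 304) (nat_lit 3546087690) (nat_lit 380) (nat_lit 3477735487) (nat_lit 77) (nat_lit 5) (nat_lit 81) (nat_lit 5) (nat_lit 82) (nat_lit 5) (nat_lit 309) (nat_lit 246) (nat_lit 225))))))))
noncomputable def xc71 : XT := (XT.nd (nat_lit 1872) (nat_lit 1368) (nat_lit 0) (XT.nd (nat_lit 936) (nat_lit 1368) (nat_lit 0) (XT.nd (nat_lit 468) (nat_lit 836) (nat_lit 0) (XT.nd (nat_lit 234) (nat_lit 304) (nat_lit 0) (XT.nd (nat_lit 78) (nat_lit 684) (nat_lit 0) (XT.lf (nat_lit 0) (nat_lit 8563974302) (nat_lit 304) (nat_lit 760738305) (nat_lit 380) (nat_lit 526405570) (nat_lit 77) (nat_lit 5) (nat_lit 81) (nat_lit 5) (nat_lit 82) (nat_lit 5) (nat_lit 310) (nat_lit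 246) (nat_lit 224)) (XT.nd (nat_lit 78) (nat_lit 304) (nat_lit 0) (XT.lf (nat_lit 0) (nat_lit 2465995794) (nat_lit 380) (nat_lit 5437893320) (nat_lit 76) (nat_lit 2111774529) (nat_lit 72) (nat_lit 5) (nat_lit 77) (nat_lit 5) (nat_lit 73) (nat_lit 5) (nat_lit 311) (nat_lit 246) (nat_lit 223)) (XT.lf (nat_lit 0) (nat_lit 365551725) (nat_lit 304) (nat_lit 5133641072) (nat_lit 380) (nat_lit 4687027720) (nat_lit 68) (nat_lit 5) (nat_lit 72) (nat_lit 5) (nat_lit 73) (nat_lit 5) (nat_lit 312) (nat_lit 246) (nat_lit 222)))) (XT.nd (nat_lit 78) (nat_lit 304) (nat_lit 0) (XT.lf (nat_lit 0) (nat_lit 6366473456) (nat_lit 304) (nat_lit 2250231384) (nat_lit 380) (nat_lit 1745466885) (nat_lit 68) (nat_lit 5) (nat_lit 72) (nat_lit 5) (nat_lit 73) (nat_lit 5) (nat_lit 313) (nat_lit 246) (nat_lit 221)) (XT.nd (nat_lit 78) (nat_lit 0) (nat_lit 0) (XT.lf (nat_lit 0) (nat_lit 1224461224) (nat_lit 304) (nat_lit 8608551682)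 (nat_lit 76) (nat_lit 711135478) (nat_lit 64) (nat_lit 5) (nat_lit 68) (nat_lit 5) (nat_lit 65) (nat_lit 5) (nat_lit 314) (nat_lit 246) (nat_lit 220)) (XT.lf (nat_lit 0) (nat_lit 4251649019) (nat_lit 304) (nat_lit 2731156077) (nat_lit 76) (nat_lit 3748234120) (nat_lit 64) (nat_lit 5) (nat_lit 68) (nat_lit 5) (nat_lit 65) (nat_lit 5) (nat_lit 315) (nat_lit 246) (nat_lit 219))))) (XT.nd (nat_lit 234) (nat_lit 228) (nat_lit 0) (XT.nd (nat_lit 78) (nat_lit 304) (nat_lit 0) (XT.lf (nat_lit 0) (nat_lit 3301985554) (nat_lit 304) (nat_lit 4041365143) (nat_lit 380) (nat_lit 3581043722) (nat_lit 60) (nat_lit 5) (nat_lit 64) (nat_lit 5) (nat_lit 65) (nat_lit 5) (nat_lit 316) (nat_lit 246) (nat_lit 218)) (XT.nd (nat_lit 78) (nat_lit 304) (nat_lit 0) (XT.lf (nat_lit 0) (nat_lit 9487931412) (nat_lit 304) (nat_lit 1010290284) (nat_lit 380) (nat_lit 626282627) (nat_lit 60) (nat_lit 5) (nat_lit 64) (nat_lit 5)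 (nat_lit 65) (nat_lit 5) (nat_lit 317) (nat_lit 246) (nat_lit 217)) (XT.lf (nat_lit 0) (nat_lit 2377906229) (nat_lit 304) (nat_lit 6840346732) (nat_lit 76) (nat_lit 2111491739) (nat_lit 56) (nat_lit 5) (nat_lit 60) (nat_lit 5) (nat_lit 57) (nat_lit 5) (nat_lit 318) (nat_lit 246) (nat_lit 216)))) (XT.nd (nat_lit 78) (nat_lit 228) (nat_lit 0) (XT.lf (nat_lit 0) (nat_lit 5430804000) (nat_lit 304) (nat_lit 807869670) (nat_lit 76) (nat_lit 5303208411) (nat_lit 56) (nat_lit 5) (nat_lit 60) (nat_lit 5) (nat_lit 57) (nat_lit 5) (nat_lit 319) (nat_lit 246) (nat_lit 215)) (XT.nd (nat_lit 78) (nat_lit 0) (nat_lit 0) (XT.lf (nat_lit 0) (nat_lit 5430430550) (nat_lit 228) (nat_lit 3143154144) (nat_lit 304) (nat_lit 3186909177) (nat_lit 53) (nat_lit 5) (nat_lit 56) (nat_lit 5) (nat_lit 57) (nat_lit 5) (nat_lit 320) (nat_lit 246) (nat_lit 214)) (XT.lf (nat_lit 0) (nat_lit 11765953939) (nat_lit 304) (nat_lit 195206683)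 (nat_lit 76) (nat_lit 25901683) (nat_lit 53) (nat_lit 5) (nat_lit 57) (nat_lit 5) (nat_lit 54) (nat_lit 4) (nat_lit 321) (nat_lit 246) (nat_lit 213)))))) (XT.nd (nat_lit 468) (nat_lit 608) (nat_lit 0) (XT.nd (nat_lit 234) (nat_lit 228) (nat_lit 0) (XT.nd (nat_lit 78) (nat_lit 228) (nat_lit 0) (XT.lf (nat_lit 0) (nat_lit 2816955347) (nat_lit 304) (nat_lit 6114034527) (nat_lit 76) (nat_lit 3287517378) (nat_lit 49) (nat_lit 5) (nat_lit 53) (nat_lit 5) (nat_lit 50) (nat_lit 5) (nat_lit 322) (nat_lit 246) (nat_lit 212)) (XT.nd (nat_lit 78) (nat_lit 0) (nat_lit 0) (XT.lf (nat_lit 0) (nat_lit 59628194) (nat_lit 228) (nat_lit 5833034107) (nat_lit 304) (nat_lit 6565691780) (nat_lit 46) (nat_lit 5) (nat_lit 49) (nat_lit 5) (nat_lit 50) (nat_lit 5) (nat_lit 323) (nat_lit 246) (nat_lit 211)) (XT.lf (nat_lit 0) (nat_lit 6464978933) (nat_lit 228) (nat_lit 2606528240) (nat_lit 304) (nat_lit 3633614179) (nat_lit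 46) (nat_lit 5) (nat_lit 49) (nat_lit 5) (nat_lit 50) (nat_lit 5) (nat_lit 324) (nat_lit 246) (nat_lit 210)))) (XT.nd (nat_lit 78) (nat_lit 76) (nat_lit 0) (XT.lf (nat_lit 0) (nat_lit 18849278) (nat_lit 152) (nat_lit 12284286917) (nat_lit 228) (nat_lit 657482434) (nat_lit 44) (nat_lit 5) (nat_lit 46) (nat_lit 5) (nat_lit 47) (nat_lit 4) (nat_lit 325) (nat_lit 246) (nat_lit 209)) (XT.nd (nat_lit 78) (nat_lit 0) (nat_lit 0) (XT.lf (nat_lit 0) (nat_lit 2400911280) (nat_lit 228) (nat_lit 6756035986) (nat_lit 76) (nat_lit 4064986907) (nat_lit 43) (nat_lit 5) (nat_lit 46) (nat_lit 5) (nat_lit 44) (nat_lit 5) (nat_lit 326) (nat_lit 246) (nat_lit 208)) (XT.lf (nat_lit 0) (nat_lit 5489804354) (nat_lit 228) (nat_lit 467061177) (nat_lit 76) (nat_lit 7535514839) (nat_lit 43) (nat_lit 5) (nat_lit 46) (nat_lit 5) (nat_lit 44) (nat_lit 5) (nat_lit 327) (nat_lit 246) (nat_lit 207))))) (XT.nd (nat_lit 234) (nat_lit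 152) (nat_lit 0) (XT.nd (nat_lit 78) (nat_lit 228) (nat_lit 0) (XT.lf (nat_lit 0) (nat_lit 6055127771) (nat_lit 228) (nat_lit 2627803490) (nat_lit 304) (nat_lit 5087705706) (nat_lit 40) (nat_lit 5) (nat_lit 43) (nat_lit 5) (nat_lit 44) (nat_lit 5) (nat_lit 328) (nat_lit 246) (nat_lit 206)) (XT.nd (nat_lit 78) (nat_lit 228) (nat_lit 0) (XT.lf (nat_lit 0) (nat_lit 11938076540) (nat_lit 304) (nat_lit 1356344998) (nat_lit 76) (nat_lit 763875731) (nat_lit 40) (nat_lit 5) (nat_lit 44) (nat_lit 5) (nat_lit 41) (nat_lit 4) (nat_lit 329) (nat_lit 246) (nat_lit 205)) (XT.lf (nat_lit 0) (nat_lit 949368271) (nat_lit 228) (nat_lit 9165910999) (nat_lit 76) (nat_lit 4238137901) (nat_lit 37) (nat_lit 5) (nat_lit 40) (nat_lit 5) (nat_lit 38) (nat_lit 5) (nat_lit 330) (nat_lit 246) (nat_lit 204)))) (XT.nd (nat_lit 78) (nat_lit 152) (nat_lit 0) (XT.lf (nat_lit 0) (nat_lit 4037515322) (nat_lit 228) (nat_lit 2794753186)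 (nat_lit 76) (nat_lit 7825458968) (nat_lit 37) (nat_lit 5) (nat_lit 40) (nat_lit 5) (nat_lit 38) (nat_lit 5) (nat_lit 331) (nat_lit 246) (nat_lit 203)) (XT.nd (nat_lit 78) (nat_lit 0) (nat_lit 0) (XT.lf (nat_lit 0) (nat_lit 3771105720) (nat_lit 152) (nat_lit 3440007243) (nat_lit 228) (nat_lit 7760307921) (nat_lit 35) (nat_lit 5) (nat_lit 37) (nat_lit 5) (nat_lit 38) (nat_lit 5) (nat_lit 332) (nat_lit 246) (nat_lit 202)) (XT.lf (nat_lit 0) (nat_lit 10465839007) (nat_lit 228) (nat_lit 4773649664) (nat_lit 76) (nat_lit 55495679) (nat_lit 35) (nat_lit 5) (nat_lit 38) (nat_lit 5) (nat_lit 36) (nat_lit 4) (nat_lit 333) (nat_lit 246) (nat_lit 201))))))) (XT.nd (nat_lit 936) (nat_lit 532) (nat_lit 0) (XT.nd (nat_lit 468) (nat_lit 304) (nat_lit 0) (XT.nd (nat_lit 234) (nat_lit 304) (nat_lit 0) (XT.nd (nat_lit 78) (nat_lit 76) (nat_lit 0) (XT.lf (nat_lit 0) (nat_lit 1778101450) (nat_lit 152) (nat_lit 12049412626)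 (nat_lit 228) (nat_lit 1800497225) (nat_lit 33) (nat_lit 5) (nat_lit 35) (nat_lit 5) (nat_lit 36) (nat_lit 4) (nat_lit 334) (nat_lit 246) (nat_lit 200)) (XT.nd (nat_lit 78) (nat_lit 0) (nat_lit 0) (XT.lf (nat_lit 0) (nat_lit 1300234452) (nat_lit 228) (nat_lit 7427025047) (nat_lit 76) (nat_lit 7243214047) (nat_lit 32) (nat_lit 5) (nat_lit 35) (nat_lit 5) (nat_lit 33) (nat_lit 5) (nat_lit 335) (nat_lit 246) (nat_lit 199)) (XT.lf (nat_lit 0) (nat_lit 4417295971) (nat_lit 228) (nat_lit 895829872) (nat_lit 76) (nat_lit 11010796891) (nat_lit 32) (nat_lit 5) (nat_lit 35) (nat_lit 5) (nat_lit 33) (nat_lit 5) (nat_lit 336) (nat_lit 246) (nat_lit 198)))) (XT.nd (nat_lit 78) (nat_lit 152) (nat_lit 0) (XT.lf (nat_lit 0) (nat_lit 5881458463) (nat_lit 152) (nat_lit 1763622876) (nat_lit 228) (nat_lit 9042409504) (nat_lit 30) (nat_lit 5) (nat_lit 32) (nat_lit 5) (nat_lit 33) (nat_lit 5) (nat_lit 337) (nat_lit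 246) (nat_lit 197)) (XT.nd (nat_lit 78) (nat_lit 152) (nat_lit 0) (XT.lf (nat_lit 0) (nat_lit 10957990647) (nat_lit 228) (nat_lit 4264475969) (nat_lit 76) (nat_lit 1839881548) (nat_lit 30) (nat_lit 5) (nat_lit 33) (nat_lit 5) (nat_lit 31) (nat_lit 4) (nat_lit 338) (nat_lit 246) (nat_lit 196)) (XT.lf (nat_lit 0) (nat_lit 2440448331) (nat_lit 152) (nat_lit 11932860680) (nat_lit 228) (nat_lit 3075081519) (nat_lit 28) (nat_lit 5) (nat_lit 30) (nat_lit 5) (nat_lit 31) (nat_lit 4) (nat_lit 339) (nat_lit 246) (nat_lit 195))))) (XT.nd (nat_lit 234) (nat_lit 76) (nat_lit 0) (XT.nd (nat_lit 78) (nat_lit 152) (nat_lit 0) (XT.lf (nat_lit 0) (nat_lit 49888555) (nat_lit 228) (nat_lit 8474845505) (nat_lit 76) (nat_lit 9321124509) (nat_lit 27) (nat_lit 5) (nat_lit 30) (nat_lit 5) (nat_lit 28) (nat_lit 5) (nat_lit 340) (nat_lit 246) (nat_lit 194)) (XT.nd (nat_lit 78) (nat_lit 152) (nat_lit 0) (XT.lf (nat_lit 0)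 (nat_lit 3170108549) (nat_lit 228) (nat_lit 1837562969) (nat_lit 76) (nat_lit 13247793969) (nat_lit 27) (nat_lit 5) (nat_lit 30) (nat_lit 5) (nat_lit 28) (nat_lit 5) (nat_lit 341) (nat_lit 246) (nat_lit 193)) (XT.lf (nat_lit 0) (nat_lit 5037565590) (nat_lit 152) (nat_lit 1359169356) (nat_lit 228) (nat_lit 12280268308) (nat_lit 25) (nat_lit 5) (nat_lit 27) (nat_lit 5) (nat_lit 28) (nat_lit 5) (nat_lit 342) (nat_lit 246) (nat_lit 192)))) (XT.nd (nat_lit 78) (nat_lit 76) (nat_lit 0) (XT.lf (nat_lit 0) (nat_lit 9726575334) (nat_lit 228) (nat_lit 7037097373) (nat_lit 76) (nat_lit 2347347852) (nat_lit 25) (nat_lit 5) (nat_lit 28) (nat_lit 5) (nat_lit 26) (nat_lit 4) (nat_lit 343) (nat_lit 246) (nat_lit 191)) (XT.nd (nat_lit 78) (nat_lit 76) (nat_lit 0) (XT.lf (nat_lit 0) (nat_lit 13135415705) (nat_lit 228) (nat_lit 308241861) (nat_lit 76) (nat_lit 6115052783) (nat_lit 25) (nat_lit 5) (nat_lit 28) (nat_lit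 5) (nat_lit 26) (nat_lit 4) (nat_lit 344) (nat_lit 246) (nat_lit 190)) (XT.lf (nat_lit 0) (nat_lit 6696751363) (nat_lit 76) (nat_lit 9980791397) (nat_lit 152) (nat_lit 3341381804) (nat_lit 24) (nat_lit 5) (nat_lit 25) (nat_lit 5) (nat_lit 26) (nat_lit 4) (nat_lit 345) (nat_lit 246) (nat_lit 189)))))) (XT.nd (nat_lit 468) (nat_lit 228) (nat_lit 0) (XT.nd (nat_lit 234) (nat_lit 76) (nat_lit 0) (XT.nd (nat_lit 78) (nat_lit 228) (nat_lit 0) (XT.lf (nat_lit 0) (nat_lit 13862360344) (nat_lit 76) (nat_lit 6433768647) (nat_lit 152) (nat_lit 197734020) (nat_lit 24) (nat_lit 5) (nat_lit 25) (nat_lit 5) (nat_lit 26) (nat_lit 4) (nat_lit 346) (nat_lit 246) (nat_lit 188)) (XT.nd (nat_lit 78) (nat_lit 0) (nat_lit 0) (XT.lf (nat_lit 0) (nat_lit 179270703) (nat_lit 152) (nat_lit 2771052577) (nat_lit 228) (nat_lit 18032789132) (nat_lit 21) (nat_lit 5) (nat_lit 23) (nat_lit 5) (nat_lit 24) (nat_lit 5) (nat_lit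 347) (nat_lit 246) (nat_lit 187)) (XT.lf (nat_lit 0) (nat_lit 6234008432) (nat_lit 228) (nat_lit 14222086875) (nat_lit 76) (nat_lit 1029552100) (nat_lit 21) (nat_lit 5) (nat_lit 24) (nat_lit 5) (nat_lit 22) (nat_lit 4) (nat_lit 348) (nat_lit 246) (nat_lit 186)))) (XT.nd (nat_lit 78) (nat_lit 76) (nat_lit 0) (XT.lf (nat_lit 0) (nat_lit 9612479846) (nat_lit 228) (nat_lit 7523825140) (nat_lit 76) (nat_lit 4867086223) (nat_lit 21) (nat_lit 5) (nat_lit 24) (nat_lit 5) (nat_lit 22) (nat_lit 4) (nat_lit 349) (nat_lit 246) (nat_lit 185)) (XT.nd (nat_lit 78) (nat_lit 76) (nat_lit 0) (XT.lf (nat_lit 0) (nat_lit 13062052532) (nat_lit 228) (nat_lit 676566602) (nat_lit 76) (nat_lit 8798976192) (nat_lit 21) (nat_lit 5) (nat_lit 24) (nat_lit 5) (nat_lit 22) (nat_lit 4) (nat_lit 350) (nat_lit 246) (nat_lit 184)) (XT.lf (nat_lit 0) (nat_lit 6451565051) (nat_lit 76) (nat_lit 10196192019) (nat_lit 152) (nat_lit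 6439108976) (nat_lit 20) (nat_lit 5) (nat_lit 21) (nat_lit 5) (nat_lit 22) (nat_lit 4) (nat_lit 351) (nat_lit 246) (nat_lit 183))))) (XT.nd (nat_lit 234) (nat_lit 0) (nat_lit 0) (XT.nd (nat_lit 78) (nat_lit 228) (nat_lit 0) (XT.lf (nat_lit 0) (nat_lit 13757466185) (nat_lit 76) (nat_lit 6561402237) (nat_lit 152) (nat_lit 3334430639) (nat_lit 20) (nat_lit 5) (nat_lit 21) (nat_lit 5) (nat_lit 22) (nat_lit 4) (nat_lit 352) (nat_lit 246) (nat_lit 182)) (XT.nd (nat_lit 78) (nat_lit 228) (nat_lit 0) (XT.lf (nat_lit 0) (nat_lit 21234055594) (nat_lit 76) (nat_lit 2837905755) (nat_lit 152) (nat_lit 165626952) (nat_lit 20) (nat_lit 5) (nat_lit 21) (nat_lit 5) (nat_lit 22) (nat_lit 4) (nat_lit 353) (nat_lit 246) (nat_lit 181)) (XT.lf (nat_lit 0) (nat_lit 3059635081) (nat_lit 228) (nat_lit 20750177431) (nat_lit 76) (nat_lit 1028062289) (nat_lit 17) (nat_lit 5) (nat_lit 20) (nat_lit 5) (nat_lit 18) (nat_lit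 4) (nat_lit 354) (nat_lit 246) (nat_lit 180)))) (XT.nd (nat_lit 78) (nat_lit 0) (nat_lit 0) (XT.lf (nat_lit 0) (nat_lit 6409593613) (nat_lit 228) (nat_lit 14079884904) (nat_lit 76) (nat_lit 4965721254) (nat_lit 17) (nat_lit 5) (nat_lit 20) (nat_lit 5) (nat_lit 18) (nat_lit 4) (nat_lit 355) (nat_lit 246) (nat_lit 179)) (XT.nd (nat_lit 78) (nat_lit 0) (nat_lit 0) (XT.lf (nat_lit 0) (nat_lit 9833390134) (nat_lit 228) (nat_lit 7255911258) (nat_lit 76) (nat_lit 9002559518) (nat_lit 17) (nat_lit 5) (nat_lit 20) (nat_lit 5) (nat_lit 18) (nat_lit 4) (nat_lit 356) (nat_lit 246) (nat_lit 178)) (XT.lf (nat_lit 0) (nat_lit 13334016312) (nat_lit 228) (nat_lit 272293799) (nat_lit 76) (nat_lit 13142104416) (nat_lit 17) (nat_lit 5) (nat_lit 20) (nat_lit 5) (nat_lit 18) (nat_lit 4) (nat_lit 357) (nat_lit 246) (nat_lit 177))))))))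
noncomputable def xc72 : XT := (XT.nd (nat_lit 1794) (nat_lit 304) (nat_lit 0) (XT.nd (nat_lit 858) (nat_lit 228) (nat_lit 0) (XT.nd (nat_lit 390) (nat_lit 76) (nat_lit 0) (XT.nd (nat_lit 156) (nat_lit 228) (nat_lit 0) (XT.nd (nat_lit 78) (nat_lit 0) (nat_lit 0) (XT.lf (nat_lit 0) (nat_lit 7013936834) (nat_lit 76) (nat_lit 9968016363) (nat_lit 152) (nat_lit 10441458443) (nat_lit 16) (nat_lit 5) (nat_lit 17) (nat_lit 5) (nat_lit 18) (nat_lit 4) (nat_lit 358) (nat_lit 246) (nat_lit 176)) (XT.lf (nat_lit 0) (nat_lit 14481002667) (nat_lit 76) (nat_lit 6236260231) (nat_lit 152) (nat_lit 7402072919) (nat_lit 16) (nat_lit 5) (nat_lit 17) (nat_lit 5) (nat_lit 18) (nat_lit 4) (nat_lit 359) (nat_lit 246) (nat_lit 175))) (XT.nd (nat_lit 78) (nat_lit 228) (nat_lit 0) (XT.lf (nat_lit 0) (nat_lit 22130009140) (nat_lit 76) (nat_lit 2410530589) (nat_lit 152) (nat_lit 4296335503) (nat_lit 16) (nat_lit 5) (nat_lit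 17) (nat_lit 5) (nat_lit 18) (nat_lit 4) (nat_lit 360) (nat_lit 246) (nat_lit 174)) (XT.nd (nat_lit 78) (nat_lit 76) (nat_lit 0) (XT.lf (nat_lit 0) (nat_lit 383935732) (nat_lit 152) (nat_lit 28089418534) (nat_lit 152) (nat_lit 1102755700) (nat_lit 14) (nat_lit 4) (nat_lit 16) (nat_lit 5) (nat_lit 16) (nat_lit 4) (nat_lit 361) (nat_lit 246) (nat_lit 173)) (XT.lf (nat_lit 0) (nat_lit 2212715763) (nat_lit 228) (nat_lit 22597570363) (nat_lit 76) (nat_lit 5524555936) (nat_lit 13) (nat_lit 5) (nat_lit 16) (nat_lit 5) (nat_lit 14) (nat_lit 4) (nat_lit 362) (nat_lit 246) (nat_lit 172))))) (XT.nd (nat_lit 234) (nat_lit 76) (nat_lit 0) (XT.nd (nat_lit 78) (nat_lit 0) (nat_lit 0) (XT.lf (nat_lit 0) (nat_lit 5582661760) (nat_lit 228) (nat_lit 15856308655) (nat_lit 76) (nat_lit 9677736016) (nat_lit 13) (nat_lit 5) (nat_lit 16) (nat_lit 5) (nat_lit 14) (nat_lit 4) (nat_lit 363) (nat_lit 246) (nat_lit 171))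 (XT.nd (nat_lit 78) (nat_lit 0) (nat_lit 0) (XT.lf (nat_lit 0) (nat_lit 9031545641) (nat_lit 228) (nat_lit 8951898326) (nat_lit 76) (nat_lit 13939260302) (nat_lit 13) (nat_lit 5) (nat_lit 16) (nat_lit 5) (nat_lit 14) (nat_lit 4) (nat_lit 364) (nat_lit 246) (nat_lit 170)) (XT.lf (nat_lit 0) (nat_lit 12562380994) (nat_lit 228) (nat_lit 1878306395) (nat_lit 76) (nat_lit 18312852457) (nat_lit 13) (nat_lit 5) (nat_lit 16) (nat_lit 5) (nat_lit 14) (nat_lit 4) (nat_lit 365) (nat_lit 246) (nat_lit 169)))) (XT.nd (nat_lit 78) (nat_lit 0) (nat_lit 0) (XT.lf (nat_lit 0) (nat_lit 5477534371) (nat_lit 76) (nat_lit 10753372054) (nat_lit 152) (nat_lit 17377453105) (nat_lit 12) (nat_lit 5) (nat_lit 13) (nat_lit 5) (nat_lit 14) (nat_lit 4) (nat_lit 366) (nat_lit 246) (nat_lit 168)) (XT.nd (nat_lit 78) (nat_lit 0) (nat_lit 0) (XT.lf (nat_lit 0) (nat_lit 13056069680) (nat_lit 76) (nat_lit 6951754448) (nat_lit 152)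 (nat_lit 14481061222) (nat_lit 12) (nat_lit 5) (nat_lit 13) (nat_lit 5) (nat_lit 14) (nat_lit 4) (nat_lit 367) (nat_lit 246) (nat_lit 167)) (XT.lf (nat_lit 0) (nat_lit 20826539575) (nat_lit 76) (nat_lit 3051479982) (nat_lit 152) (nat_lit 11518419588) (nat_lit 12) (nat_lit 5) (nat_lit 13) (nat_lit 5) (nat_lit 14) (nat_lit 4) (nat_lit 368) (nat_lit 246) (nat_lit 166)))))) (XT.nd (nat_lit 468) (nat_lit 76) (nat_lit 0) (XT.nd (nat_lit 234) (nat_lit 76) (nat_lit 0) (XT.nd (nat_lit 78) (nat_lit 76) (nat_lit 0) (XT.lf (nat_lit 0) (nat_lit 27854014676) (nat_lit 152) (nat_lit 7545220375) (nat_lit 0) (nat_lit 932304660) (nat_lit 12) (nat_lit 5) (nat_lit 14) (nat_lit 4) (nat_lit 12) (nat_lit 4) (nat_lit 369) (nat_lit 246) (nat_lit 165)) (XT.nd (nat_lit 78) (nat_lit 76) (nat_lit 0) (XT.lf (nat_lit 0) (nat_lit 31960482845) (nat_lit 152) (nat_lit 373839209) (nat_lit 0) (nat_lit 4960046099) (nat_lit 12) (nat_lit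 5) (nat_lit 14) (nat_lit 4) (nat_lit 12) (nat_lit 4) (nat_lit 370) (nat_lit 246) (nat_lit 164)) (XT.lf (nat_lit 0) (nat_lit 7118755435) (nat_lit 76) (nat_lit 29121353947) (nat_lit 76) (nat_lit 2044483481) (nat_lit 11) (nat_lit 4) (nat_lit 12) (nat_lit 5) (nat_lit 12) (nat_lit 4) (nat_lit 371) (nat_lit 246) (nat_lit 163)))) (XT.nd (nat_lit 78) (nat_lit 0) (nat_lit 0) (XT.lf (nat_lit 0) (nat_lit 1302763626) (nat_lit 152) (nat_lit 24506467799) (nat_lit 76) (nat_lit 13495353722) (nat_lit 10) (nat_lit 5) (nat_lit 12) (nat_lit 5) (nat_lit 11) (nat_lit 4) (nat_lit 372) (nat_lit 246) (nat_lit 162)) (XT.nd (nat_lit 78) (nat_lit 0) (nat_lit 0) (XT.lf (nat_lit 0) (nat_lit 4691442159) (nat_lit 152) (nat_lit 17699496489) (nat_lit 76) (nat_lit 17964177564) (nat_lit 10) (nat_lit 5) (nat_lit 12) (nat_lit 5) (nat_lit 11) (nat_lit 4) (nat_lit 373) (nat_lit 246) (nat_lit 161)) (XT.lf (nat_lit 0) (nat_lit 8164408335)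 (nat_lit 152) (nat_lit 10719322832) (nat_lit 76) (nat_lit 22553962412) (nat_lit 10) (nat_lit 5) (nat_lit 12) (nat_lit 5) (nat_lit 11) (nat_lit 4) (nat_lit 374) (nat_lit 246) (nat_lit 160))))) (XT.nd (nat_lit 234) (nat_lit 0) (nat_lit 0) (XT.nd (nat_lit 78) (nat_lit 76) (nat_lit 0) (XT.lf (nat_lit 0) (nat_lit 11724696785) (nat_lit 152) (nat_lit 3559847650) (nat_lit 76) (nat_lit 27268718758) (nat_lit 10) (nat_lit 5) (nat_lit 12) (nat_lit 5) (nat_lit 11) (nat_lit 4) (nat_lit 375) (nat_lit 246) (nat_lit 159)) (XT.nd (nat_lit 78) (nat_lit 0) (nat_lit 0) (XT.lf (nat_lit 0) (nat_lit 3860517513) (nat_lit 76) (nat_lit 11552010582) (nat_lit 152) (nat_lit 28289158435) (nat_lit 9) (nat_lit 5) (nat_lit 10) (nat_lit 5) (nat_lit 11) (nat_lit 4) (nat_lit 376) (nat_lit 246) (nat_lit 158)) (XT.lf (nat_lit 0) (nat_lit 11547526679) (nat_lit 76) (nat_lit 7683238462) (nat_lit 152) (nat_lit 25653212714) (nat_lit 9)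 (nat_lit 5) (nat_lit 10) (nat_lit 5) (nat_lit 11) (nat_lit 4) (nat_lit 377) (nat_lit 246) (nat_lit 157)))) (XT.nd (nat_lit 78) (nat_lit 0) (nat_lit 0) (XT.lf (nat_lit 0) (nat_lit 19437048705) (nat_lit 76) (nat_lit 3710795074) (nat_lit 152) (nat_lit 22954373473) (nat_lit 9) (nat_lit 5) (nat_lit 10) (nat_lit 5) (nat_lit 11) (nat_lit 4) (nat_lit 378) (nat_lit 246) (nat_lit 156)) (XT.nd (nat_lit 78) (nat_lit 0) (nat_lit 0) (XT.lf (nat_lit 0) (nat_lit 27170731739) (nat_lit 152) (nat_lit 19825036895) (nat_lit 0) (nat_lit 361594213) (nat_lit 9) (nat_lit 5) (nat_lit 11) (nat_lit 4) (nat_lit 9) (nat_lit 4) (nat_lit 379) (nat_lit 246) (nat_lit 155)) (XT.lf (nat_lit 0) (nat_lit 31336130644) (nat_lit 152) (nat_lit 12843265884) (nat_lit 0) (nat_lit 4470119253) (nat_lit 9) (nat_lit 5) (nat_lit 11) (nat_lit 4) (nat_lit 9) (nat_lit 4) (nat_lit 380) (nat_lit 246) (nat_lit 154))))))) (XT.nd (nat_lit 936) (nat_lit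 76) (nat_lit 0) (XT.nd (nat_lit 468) (nat_lit 76) (nat_lit 0) (XT.nd (nat_lit 234) (nat_lit 76) (nat_lit 0) (XT.nd (nat_lit 78) (nat_lit 76) (nat_lit 0) (XT.lf (nat_lit 0) (nat_lit 35612009730) (nat_lit 152) (nat_lit 5678084504) (nat_lit 0) (nat_lit 8690780993) (nat_lit 9) (nat_lit 5) (nat_lit 11) (nat_lit 4) (nat_lit 9) (nat_lit 4) (nat_lit 381) (nat_lit 246) (nat_lit 153)) (XT.nd (nat_lit 78) (nat_lit 0) (nat_lit 0) (XT.lf (nat_lit 0) (nat_lit 1710139054) (nat_lit 76) (nat_lit 38308405051) (nat_lit 76) (nat_lit 11333567241) (nat_lit 8) (nat_lit 4) (nat_lit 9) (nat_lit 5) (nat_lit 9) (nat_lit 4) (nat_lit 382) (nat_lit 246) (nat_lit 152)) (XT.lf (nat_lit 0) (nat_lit 9411368136) (nat_lit 76) (nat_lit 35189352759) (nat_lit 76) (nat_lit 8162467305) (nat_lit 8) (nat_lit 4) (nat_lit 9) (nat_lit 5) (nat_lit 9) (nat_lit 4) (nat_lit 383) (nat_lit 246) (nat_lit 151)))) (XT.nd (nat_lit 78) (nat_lit 76)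 (nat_lit 0) (XT.lf (nat_lit 0) (nat_lit 17319326954) (nat_lit 76) (nat_lit 31987549493) (nat_lit 76) (nat_lit 4910132346) (nat_lit 8) (nat_lit 4) (nat_lit 9) (nat_lit 5) (nat_lit 9) (nat_lit 4) (nat_lit 384) (nat_lit 246) (nat_lit 150)) (XT.nd (nat_lit 78) (nat_lit 76) (nat_lit 0) (XT.lf (nat_lit 0) (nat_lit 25440925376) (nat_lit 76) (nat_lit 28700197562) (nat_lit 76) (nat_lit 1573720519) (nat_lit 8) (nat_lit 4) (nat_lit 9) (nat_lit 5) (nat_lit 9) (nat_lit 4) (nat_lit 385) (nat_lit 246) (nat_lit 149)) (XT.lf (nat_lit 0) (nat_lit 1813589500) (nat_lit 152) (nat_lit 23492521323) (nat_lit 76) (nat_lit 31951356745) (nat_lit 7) (nat_lit 5) (nat_lit 9) (nat_lit 5) (nat_lit 8) (nat_lit 4) (nat_lit 386) (nat_lit 246) (nat_lit 148))))) (XT.nd (nat_lit 234) (nat_lit 76) (nat_lit 0) (XT.nd (nat_lit 78) (nat_lit 0) (nat_lit 0) (XT.lf (nat_lit 0) (nat_lit 5258418166) (nat_lit 152) (nat_lit 16545762789) (nat_lit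 76) (nat_lit 37042102195) (nat_lit 7) (nat_lit 5) (nat_lit 9) (nat_lit 5) (nat_lit 8) (nat_lit 4) (nat_lit 387) (nat_lit 246) (nat_lit 147)) (XT.nd (nat_lit 78) (nat_lit 0) (nat_lit 0) (XT.lf (nat_lit 0) (nat_lit 8794484479) (nat_lit 152) (nat_lit 9412444930) (nat_lit 76) (nat_lit 42276202907) (nat_lit 7) (nat_lit 5) (nat_lit 9) (nat_lit 5) (nat_lit 8) (nat_lit 4) (nat_lit 388) (nat_lit 246) (nat_lit 146)) (XT.lf (nat_lit 0) (nat_lit 12424878204) (nat_lit 152) (nat_lit 2086334750) (nat_lit 76) (nat_lit 47658232365) (nat_lit 7) (nat_lit 5) (nat_lit 9) (nat_lit 5) (nat_lit 8) (nat_lit 4) (nat_lit 389) (nat_lit 246) (nat_lit 145)))) (XT.nd (nat_lit 78) (nat_lit 0) (nat_lit 0) (XT.lf (nat_lit 0) (nat_lit 5547215356) (nat_lit 76) (nat_lit 10658879401) (nat_lit 152) (nat_lit 47699001186) (nat_lit 6) (nat_lit 5) (nat_lit 7) (nat_lit 5) (nat_lit 8) (nat_lit 4) (nat_lit 390) (nat_lit 246) (nat_lit 144))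 (XT.nd (nat_lit 78) (nat_lit 0) (nat_lit 0) (XT.lf (nat_lit 0) (nat_lit 13432152111) (nat_lit 76) (nat_lit 6678387791) (nat_lit 152) (nat_lit 45581987819) (nat_lit 6) (nat_lit 5) (nat_lit 7) (nat_lit 5) (nat_lit 8) (nat_lit 4) (nat_lit 391) (nat_lit 246) (nat_lit 143)) (XT.lf (nat_lit 0) (nat_lit 21533843114) (nat_lit 76) (nat_lit 2587327916) (nat_lit 152) (nat_lit 43412745086) (nat_lit 6) (nat_lit 5) (nat_lit 7) (nat_lit 5) (nat_lit 8) (nat_lit 4) (nat_lit 392) (nat_lit 246) (nat_lit 142)))))) (XT.nd (nat_lit 468) (nat_lit 76) (nat_lit 0) (XT.nd (nat_lit 234) (nat_lit 0) (nat_lit 0) (XT.nd (nat_lit 78) (nat_lit 0) (nat_lit 0) (XT.lf (nat_lit 0) (nat_lit 28257044577) (nat_lit 152) (nat_lit 39587054599) (nat_lit 0) (nat_lit 1586304370) (nat_lit 6) (nat_lit 5) (nat_lit 8) (nat_lit 4) (nat_lit 6) (nat_lit 4) (nat_lit 393) (nat_lit 246) (nat_lit 141)) (XT.nd (nat_lit 78) (nat_lit 0) (nat_lit 0) (XT.lf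 (nat_lit 0) (nat_lit 32532212333) (nat_lit 152) (nat_lit 33026154712) (nat_lit 0) (nat_lit 5824966955) (nat_lit 6) (nat_lit 5) (nat_lit 8) (nat_lit 4) (nat_lit 6) (nat_lit 4) (nat_lit 394) (nat_lit 246) (nat_lit 140)) (XT.lf (nat_lit 0) (nat_lit 36925538902) (nat_lit 152) (nat_lit 26286769537) (nat_lit 0) (nat_lit 10182851612) (nat_lit 6) (nat_lit 5) (nat_lit 8) (nat_lit 4) (nat_lit 6) (nat_lit 4) (nat_lit 395) (nat_lit 246) (nat_lit 139)))) (XT.nd (nat_lit 78) (nat_lit 0) (nat_lit 0) (XT.lf (nat_lit 0) (nat_lit 41440863114) (nat_lit 152) (nat_lit 19363010290) (nat_lit 0) (nat_lit 14663766199) (nat_lit 6) (nat_lit 5) (nat_lit 8) (nat_lit 4) (nat_lit 6) (nat_lit 4) (nat_lit 396) (nat_lit 246) (nat_lit 138)) (XT.nd (nat_lit 78) (nat_lit 0) (nat_lit 0) (XT.lf (nat_lit 0) (nat_lit 46082130397) (nat_lit 152) (nat_lit 12248827086) (nat_lit 0) (nat_lit 19271626081) (nat_lit 6) (nat_lit 5) (nat_lit 8)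 (nat_lit 4) (nat_lit 6) (nat_lit 4) (nat_lit 397) (nat_lit 246) (nat_lit 137)) (XT.lf (nat_lit 0) (nat_lit 50853396228) (nat_lit 152) (nat_lit 4938003648) (nat_lit 0) (nat_lit 24010457541) (nat_lit 6) (nat_lit 5) (nat_lit 8) (nat_lit 4) (nat_lit 6) (nat_lit 4) (nat_lit 398) (nat_lit 246) (nat_lit 136))))) (XT.nd (nat_lit 31824) (nat_lit 0) (nat_lit 12008) (XT.nd (nat_lit 78) (nat_lit 0) (nat_lit 0) (XT.lf (nat_lit 0) (nat_lit 2627112551) (nat_lit 76) (nat_lit 53156970536) (nat_lit 76) (nat_lit 26282542168) (nat_lit 5) (nat_lit 4) (nat_lit 6) (nat_lit 5) (nat_lit 6) (nat_lit 4) (nat_lit 399) (nat_lit 246) (nat_lit 135)) (XT.nd (nat_lit 156) (nat_lit 0) (nat_lit 0) (XT.lf (nat_lit 0) (nat_lit 10504269867) (nat_lit 76) (nat_lit 50399420636) (nat_lit 76) (nat_lit 23494419763) (nat_lit 5) (nat_lit 4) (nat_lit 6) (nat_lit 5) (nat_lit 6) (nat_lit 4) (nat_lit 400) (nat_lit 246) (nat_lit 134)) (XT.lf (nat_lit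 0) (nat_lit 26927604599) (nat_lit 76) (nat_lit 44654847469) (nat_lit 76) (nat_lit 17691347033) (nat_lit 5) (nat_lit 4) (nat_lit 6) (nat_lit 5) (nat_lit 6) (nat_lit 4) (nat_lit 402) (nat_lit 246) (nat_lit 132)))) (XT.nd (nat_lit 78) (nat_lit 1216) (nat_lit 0) (XT.lf (nat_lit 0) (nat_lit 1065529166) (nat_lit 1140) (nat_lit 1488536795) (nat_lit 0) (nat_lit 1065529166) (nat_lit 179) (nat_lit 5) (nat_lit 194) (nat_lit 4) (nat_lit 179) (nat_lit 4) (nat_lit 286) (nat_lit 247) (nat_lit 247)) (XT.nd (nat_lit 78) (nat_lit 76) (nat_lit 0) (XT.lf (nat_lit 0) (nat_lit 1735696397) (nat_lit 1140) (nat_lit 3563599494) (nat_lit 1140) (nat_lit 2005188816) (nat_lit 164) (nat_lit 4) (nat_lit 179) (nat_lit 5) (nat_lit 179) (nat_lit 4) (nat_lit 287) (nat_lit 247) (nat_lit 246)) (XT.lf (nat_lit 0) (nat_lit 1105279116) (nat_lit 1216) (nat_lit 827714146) (nat_lit 76) (nat_lit 5440469890) (nat_lit 163) (nat_lit 5) (nat_lit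 179) (nat_lit 5) (nat_lit 164) (nat_lit 4) (nat_lit 288) (nat_lit 247) (nat_lit 245))))))))
noncomputable def xc73 : XT := (XT.nd (nat_lit 1794) (nat_lit 3040) (nat_lit 0) (XT.nd (nat_lit 858) (nat_lit 3116) (nat_lit 0) (XT.nd (nat_lit 390) (nat_lit 1444) (nat_lit 0) (XT.nd (nat_lit 156) (nat_lit 1216) (nat_lit 0) (XT.nd (nat_lit 78) (nat_lit 608) (nat_lit 0) (XT.lf (nat_lit 0) (nat_lit 4020989427) (nat_lit 532) (nat_lit 196435060) (nat_lit 608) (nat_lit 3228223899) (nat_lit 156) (nat_lit 5) (nat_lit 163) (nat_lit 5) (nat_lit 164) (nat_lit 4) (nat_lit 289) (nat_lit 247) (nat_lit 244)) (XT.lf (nat_lit 0) (nat_lit 1429789545) (nat_lit 608) (nat_lit 5942343449) (nat_lit 608) (nat_lit 149577607) (nat_lit 148) (nat_lit 4) (nat_lit 156) (nat_lit 5) (nat_lit 156) (nat_lit 4) (nat_lit 290) (nat_lit 247) (nat_lit 243))) (XT.nd (nat_lit 78) (nat_lit 1140) (nat_lit 0) (XT.lf (nat_lit 0) (nat_lit 2911677489)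 (nat_lit 684) (nat_lit 1226359279) (nat_lit 76) (nat_lit 3462846977) (nat_lit 147) (nat_lit 5) (nat_lit 156) (nat_lit 5) (nat_lit 148) (nat_lit 4) (nat_lit 291) (nat_lit 247) (nat_lit 242)) (XT.nd (nat_lit 78) (nat_lit 608) (nat_lit 0) (XT.lf (nat_lit 0) (nat_lit 3763848597) (nat_lit 532) (nat_lit 2248987652) (nat_lit 608) (nat_lit 1671190719) (nat_lit 140) (nat_lit 5) (nat_lit 147) (nat_lit 5) (nat_lit 148) (nat_lit 4) (nat_lit 292) (nat_lit 247) (nat_lit 241)) (XT.lf (nat_lit 0) (nat_lit 1072380496) (nat_lit 532) (nat_lit 275244186) (nat_lit 608) (nat_lit 6423637716) (nat_lit 132) (nat_lit 5) (nat_lit 139) (nat_lit 5) (nat_lit 140) (nat_lit 5) (nat_lit 293) (nat_lit 247) (nat_lit 240))))) (XT.nd (nat_lit 234) (nat_lit 456) (nat_lit 0) (XT.nd (nat_lit 78) (nat_lit 988) (nat_lit 0) (XT.lf (nat_lit 0) (nat_lit 4397247410) (nat_lit 608) (nat_lit 1694522965) (nat_lit 76) (nat_lit 1769790091) (nat_lit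 132) (nat_lit 5) (nat_lit 140) (nat_lit 5) (nat_lit 133) (nat_lit 4) (nat_lit 294) (nat_lit 247) (nat_lit 239)) (XT.nd (nat_lit 78) (nat_lit 532) (nat_lit 0) (XT.lf (nat_lit 0) (nat_lit 3431149994) (nat_lit 456) (nat_lit 4062292914) (nat_lit 532) (nat_lit 462624407) (nat_lit 126) (nat_lit 5) (nat_lit 132) (nat_lit 5) (nat_lit 133) (nat_lit 4) (nat_lit 295) (nat_lit 247) (nat_lit 238)) (XT.lf (nat_lit 0) (nat_lit 584526312) (nat_lit 456) (nat_lit 1936095081) (nat_lit 532) (nat_lit 5533889112) (nat_lit 119) (nat_lit 5) (nat_lit 125) (nat_lit 5) (nat_lit 126) (nat_lit 5) (nat_lit 296) (nat_lit 247) (nat_lit 237)))) (XT.nd (nat_lit 78) (nat_lit 456) (nat_lit 0) (XT.lf (nat_lit 0) (nat_lit 5553864143) (nat_lit 532) (nat_lit 2317312134) (nat_lit 76) (nat_lit 285638799) (nat_lit 119) (nat_lit 5) (nat_lit 126) (nat_lit 5) (nat_lit 120) (nat_lit 4) (nat_lit 297) (nat_lit 247) (nat_lit 236)) (XT.nd (nat_lit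 78) (nat_lit 0) (nat_lit 0) (XT.lf (nat_lit 0) (nat_lit 378272649) (nat_lit 456) (nat_lit 5331388632) (nat_lit 76) (nat_lit 2553424793) (nat_lit 113) (nat_lit 5) (nat_lit 119) (nat_lit 5) (nat_lit 114) (nat_lit 5) (nat_lit 298) (nat_lit 247) (nat_lit 235)) (XT.lf (nat_lit 0) (nat_lit 3344229405) (nat_lit 456) (nat_lit 105436133) (nat_lit 76) (nat_lit 4923805715) (nat_lit 113) (nat_lit 5) (nat_lit 119) (nat_lit 5) (nat_lit 114) (nat_lit 5) (nat_lit 299) (nat_lit 247) (nat_lit 234)))))) (XT.nd (nat_lit 468) (nat_lit 1444) (nat_lit 0) (XT.nd (nat_lit 234) (nat_lit 760) (nat_lit 0) (XT.nd (nat_lit 78) (nat_lit 456) (nat_lit 0) (XT.lf (nat_lit 0) (nat_lit 5289968466) (nat_lit 456) (nat_lit 1086242155) (nat_lit 532) (nat_lit 2111769878) (nat_lit 107) (nat_lit 5) (nat_lit 113) (nat_lit 5) (nat_lit 114) (nat_lit 5) (nat_lit 300) (nat_lit 247) (nat_lit 233)) (XT.nd (nat_lit 78) (nat_lit 0) (nat_lit 0)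 (XT.lf (nat_lit 0) (nat_lit 837625304) (nat_lit 456) (nat_lit 6434084297) (nat_lit 76) (nat_lit 1335219733) (nat_lit 101) (nat_lit 5) (nat_lit 107) (nat_lit 5) (nat_lit 102) (nat_lit 5) (nat_lit 301) (nat_lit 247) (nat_lit 232)) (XT.lf (nat_lit 0) (nat_lit 3804165753) (nat_lit 456) (nat_lit 1082524636) (nat_lit 76) (nat_lit 3843109122) (nat_lit 101) (nat_lit 5) (nat_lit 107) (nat_lit 5) (nat_lit 102) (nat_lit 5) (nat_lit 302) (nat_lit 247) (nat_lit 231)))) (XT.nd (nat_lit 78) (nat_lit 380) (nat_lit 0) (XT.lf (nat_lit 0) (nat_lit 4426198006) (nat_lit 380) (nat_lit 2405896035) (nat_lit 456) (nat_lit 2025200074) (nat_lit 96) (nat_lit 5) (nat_lit 101) (nat_lit 5) (nat_lit 102) (nat_lit 5) (nat_lit 303) (nat_lit 247) (nat_lit 230)) (XT.nd (nat_lit 78) (nat_lit 0) (nat_lit 0) (XT.lf (nat_lit 0) (nat_lit 896434398) (nat_lit 380) (nat_lit 7936487163) (nat_lit 76) (nat_lit 156929315) (nat_lit 91) (nat_lit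 5) (nat_lit 96) (nat_lit 5) (nat_lit 92) (nat_lit 5) (nat_lit 304) (nat_lit 247) (nat_lit 229)) (XT.lf (nat_lit 0) (nat_lit 3865238928) (nat_lit 380) (nat_lit 2467605079) (nat_lit 76) (nat_lit 2793032752) (nat_lit 91) (nat_lit 5) (nat_lit 96) (nat_lit 5) (nat_lit 92) (nat_lit 5) (nat_lit 305) (nat_lit 247) (nat_lit 228))))) (XT.nd (nat_lit 234) (nat_lit 684) (nat_lit 0) (XT.nd (nat_lit 78) (nat_lit 380) (nat_lit 0) (XT.lf (nat_lit 0) (nat_lit 3137798167) (nat_lit 380) (nat_lit 3748691650) (nat_lit 456) (nat_lit 2380689931) (nat_lit 86) (nat_lit 5) (nat_lit 91) (nat_lit 5) (nat_lit 92) (nat_lit 5) (nat_lit 306) (nat_lit 247) (nat_lit 227)) (XT.nd (nat_lit 78) (nat_lit 304) (nat_lit 0) (XT.lf (nat_lit 0) (nat_lit 532969280) (nat_lit 456) (nat_lit 545222533) (nat_lit 76) (nat_lit 8335691070) (nat_lit 85) (nat_lit 5) (nat_lit 91) (nat_lit 5) (nat_lit 86) (nat_lit 5) (nat_lit 307) (nat_lit 247) (nat_lit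 226)) (XT.lf (nat_lit 0) (nat_lit 3488253093) (nat_lit 380) (nat_lit 4383799392) (nat_lit 76) (nat_lit 1692255057) (nat_lit 81) (nat_lit 5) (nat_lit 86) (nat_lit 5) (nat_lit 82) (nat_lit 5) (nat_lit 308) (nat_lit 247) (nat_lit 225)))) (XT.nd (nat_lit 78) (nat_lit 380) (nat_lit 0) (XT.lf (nat_lit 0) (nat_lit 1297046379) (nat_lit 304) (nat_lit 5200200810) (nat_lit 380) (nat_lit 3223133089) (nat_lit 77) (nat_lit 5) (nat_lit 81) (nat_lit 5) (nat_lit 82) (nat_lit 5) (nat_lit 309) (nat_lit 247) (nat_lit 224)) (XT.nd (nat_lit 78) (nat_lit 380) (nat_lit 0) (XT.lf (nat_lit 0) (nat_lit 7151398847) (nat_lit 304) (nat_lit 2426748174) (nat_lit 380) (nat_lit 303623458) (nat_lit 77) (nat_lit 5) (nat_lit 81) (nat_lit 5) (nat_lit 82) (nat_lit 5) (nat_lit 310) (nat_lit 247) (nat_lit 223)) (XT.lf (nat_lit 0) (nat_lit 2623304633) (nat_lit 380) (nat_lit 6970735428) (nat_lit 76) (nat_lit 454084589) (nat_lit 72) (nat_lit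 5) (nat_lit 77) (nat_lit 5) (nat_lit 73) (nat_lit 5) (nat_lit 311) (nat_lit 247) (nat_lit 222))))))) (XT.nd (nat_lit 936) (nat_lit 1292) (nat_lit 0) (XT.nd (nat_lit 468) (nat_lit 836) (nat_lit 0) (XT.nd (nat_lit 234) (nat_lit 304) (nat_lit 0) (XT.nd (nat_lit 78) (nat_lit 608) (nat_lit 0) (XT.lf (nat_lit 0) (nat_lit 5623063554) (nat_lit 380) (nat_lit 1216974862) (nat_lit 76) (nat_lit 3379684281) (nat_lit 72) (nat_lit 5) (nat_lit 77) (nat_lit 5) (nat_lit 73) (nat_lit 5) (nat_lit 312) (nat_lit 247) (nat_lit 221)) (XT.nd (nat_lit 78) (nat_lit 304) (nat_lit 0) (XT.lf (nat_lit 0) (nat_lit 4717592601) (nat_lit 304) (nat_lit 3981594251) (nat_lit 380) (nat_lit 1697765636) (nat_lit 68) (nat_lit 5) (nat_lit 72) (nat_lit 5) (nat_lit 73) (nat_lit 5) (nat_lit 313) (nat_lit 247) (nat_lit 220)) (XT.lf (nat_lit 0) (nat_lit 182796856) (nat_lit 228) (nat_lit 1035626923) (nat_lit 304) (nat_lit 9362110651) (nat_lit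 64) (nat_lit 5) (nat_lit 67) (nat_lit 5) (nat_lit 68) (nat_lit 5) (nat_lit 314) (nat_lit 247) (nat_lit 219)))) (XT.nd (nat_lit 78) (nat_lit 304) (nat_lit 0) (XT.lf (nat_lit 0) (nat_lit 4207064153) (nat_lit 304) (nat_lit 4552263478) (nat_lit 76) (nat_lit 2009287845) (nat_lit 64) (nat_lit 5) (nat_lit 68) (nat_lit 5) (nat_lit 65) (nat_lit 5) (nat_lit 315) (nat_lit 247) (nat_lit 218)) (XT.nd (nat_lit 78) (nat_lit 0) (nat_lit 0) (XT.lf (nat_lit 0) (nat_lit 1403168513) (nat_lit 304) (nat_lit 5849585170) (nat_lit 380) (nat_lit 3710630164) (nat_lit 60) (nat_lit 5) (nat_lit 64) (nat_lit 5) (nat_lit 65) (nat_lit 5) (nat_lit 316) (nat_lit 247) (nat_lit 217)) (XT.lf (nat_lit 0) (nat_lit 7548856088) (nat_lit 304) (nat_lit 2831430582) (nat_lit 380) (nat_lit 784059072) (nat_lit 60) (nat_lit 5) (nat_lit 64) (nat_lit 5) (nat_lit 65) (nat_lit 5) (nat_lit 317) (nat_lit 247) (nat_lit 216))))) (XT.nd (nat_lit 234)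 (nat_lit 304) (nat_lit 0) (XT.nd (nat_lit 78) (nat_lit 228) (nat_lit 0) (XT.lf (nat_lit 0) (nat_lit 2158758797) (nat_lit 304) (nat_lit 8921015205) (nat_lit 76) (nat_lit 291821131) (nat_lit 56) (nat_lit 5) (nat_lit 60) (nat_lit 5) (nat_lit 57) (nat_lit 5) (nat_lit 318) (nat_lit 247) (nat_lit 215)) (XT.nd (nat_lit 78) (nat_lit 228) (nat_lit 0) (XT.lf (nat_lit 0) (nat_lit 5185102562) (nat_lit 304) (nat_lit 2928497952) (nat_lit 76) (nat_lit 3470957765) (nat_lit 56) (nat_lit 5) (nat_lit 60) (nat_lit 5) (nat_lit 57) (nat_lit 5) (nat_lit 319) (nat_lit 247) (nat_lit 214)) (XT.lf (nat_lit 0) (nat_lit 3228029559) (nat_lit 228) (nat_lit 5052902283) (nat_lit 304) (nat_lit 3523675066) (nat_lit 53) (nat_lit 5) (nat_lit 56) (nat_lit 5) (nat_lit 57) (nat_lit 5) (nat_lit 320) (nat_lit 247) (nat_lit 213)))) (XT.nd (nat_lit 78) (nat_lit 304) (nat_lit 0) (XT.lf (nat_lit 0) (nat_lit 9551300609) (nat_lit 228) (nat_lit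 1896347570) (nat_lit 304) (nat_lit 584324225) (nat_lit 53) (nat_lit 5) (nat_lit 56) (nat_lit 5) (nat_lit 57) (nat_lit 5) (nat_lit 321) (nat_lit 247) (nat_lit 212)) (XT.nd (nat_lit 78) (nat_lit 0) (nat_lit 0) (XT.lf (nat_lit 0) (nat_lit 2394542077) (nat_lit 304) (nat_lit 8507853741) (nat_lit 76) (nat_lit 1363140724) (nat_lit 49) (nat_lit 5) (nat_lit 53) (nat_lit 5) (nat_lit 50) (nat_lit 5) (nat_lit 322) (nat_lit 247) (nat_lit 211)) (XT.lf (nat_lit 0) (nat_lit 5444988626) (nat_lit 304) (nat_lit 2373440719) (nat_lit 76) (nat_lit 4687736982) (nat_lit 49) (nat_lit 5) (nat_lit 53) (nat_lit 5) (nat_lit 50) (nat_lit 5) (nat_lit 323) (nat_lit 247) (nat_lit 210)))))) (XT.nd (nat_lit 468) (nat_lit 608) (nat_lit 0) (XT.nd (nat_lit 234) (nat_lit 228) (nat_lit 0) (XT.nd (nat_lit 78) (nat_lit 228) (nat_lit 0) (XT.lf (nat_lit 0) (nat_lit 3946961150) (nat_lit 228) (nat_lit 4629272625) (nat_lit 304) (nat_lit 4178152225)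 (nat_lit 46) (nat_lit 5) (nat_lit 49) (nat_lit 5) (nat_lit 50) (nat_lit 5) (nat_lit 324) (nat_lit 247) (nat_lit 209)) (XT.nd (nat_lit 78) (nat_lit 228) (nat_lit 0) (XT.lf (nat_lit 0) (nat_lit 10431301224) (nat_lit 228) (nat_lit 1346129421) (nat_lit 304) (nat_lit 1233389295) (nat_lit 46) (nat_lit 5) (nat_lit 49) (nat_lit 5) (nat_lit 50) (nat_lit 5) (nat_lit 325) (nat_lit 247) (nat_lit 208)) (XT.lf (nat_lit 0) (nat_lit 1774098932) (nat_lit 228) (nat_lit 9475325440) (nat_lit 76) (nat_lit 2024763835) (nat_lit 43) (nat_lit 5) (nat_lit 46) (nat_lit 5) (nat_lit 44) (nat_lit 5) (nat_lit 326) (nat_lit 247) (nat_lit 207)))) (XT.nd (nat_lit 78) (nat_lit 228) (nat_lit 0) (XT.lf (nat_lit 0) (nat_lit 4840017350) (nat_lit 228) (nat_lit 3222612925) (nat_lit 76) (nat_lit 5482715056) (nat_lit 43) (nat_lit 5) (nat_lit 46) (nat_lit 5) (nat_lit 44) (nat_lit 5) (nat_lit 327) (nat_lit 247) (nat_lit 206)) (XT.nd (nat_lit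 78) (nat_lit 0) (nat_lit 0) (XT.lf (nat_lit 0) (nat_lit 3208828359) (nat_lit 228) (nat_lit 4774650037) (nat_lit 304) (nat_lit 5841634564) (nat_lit 40) (nat_lit 5) (nat_lit 43) (nat_lit 5) (nat_lit 44) (nat_lit 5) (nat_lit 328) (nat_lit 247) (nat_lit 205)) (XT.lf (nat_lit 0) (nat_lit 9828505555) (nat_lit 228) (nat_lit 1380638221) (nat_lit 304) (nat_lit 2904534327) (nat_lit 40) (nat_lit 5) (nat_lit 43) (nat_lit 5) (nat_lit 44) (nat_lit 5) (nat_lit 329) (nat_lit 247) (nat_lit 204))))) (XT.nd (nat_lit 234) (nat_lit 228) (nat_lit 0) (XT.nd (nat_lit 78) (nat_lit 152) (nat_lit 0) (XT.lf (nat_lit 0) (nat_lit 116046613) (nat_lit 228) (nat_lit 12223703222) (nat_lit 76) (nat_lit 2071223003) (nat_lit 37) (nat_lit 5) (nat_lit 40) (nat_lit 5) (nat_lit 38) (nat_lit 5) (nat_lit 330) (nat_lit 247) (nat_lit 203)) (XT.nd (nat_lit 78) (nat_lit 152) (nat_lit 0) (XT.lf (nat_lit 0) (nat_lit 3182792680) (nat_lit 228)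 (nat_lit 5887038758) (nat_lit 76) (nat_lit 5646112444) (nat_lit 37) (nat_lit 5) (nat_lit 40) (nat_lit 5) (nat_lit 38) (nat_lit 5) (nat_lit 331) (nat_lit 247) (nat_lit 202)) (XT.lf (nat_lit 0) (nat_lit 583122425) (nat_lit 152) (nat_lit 5721845395) (nat_lit 228) (nat_lit 8726230306) (nat_lit 35) (nat_lit 5) (nat_lit 37) (nat_lit 5) (nat_lit 38) (nat_lit 5) (nat_lit 332) (nat_lit 247) (nat_lit 201)))) (XT.nd (nat_lit 78) (nat_lit 228) (nat_lit 0) (XT.lf (nat_lit 0) (nat_lit 7300751424) (nat_lit 152) (nat_lit 2237907128) (nat_lit 228) (nat_lit 5816751735) (nat_lit 35) (nat_lit 5) (nat_lit 37) (nat_lit 5) (nat_lit 38) (nat_lit 5) (nat_lit 333) (nat_lit 247) (nat_lit 200)) (XT.nd (nat_lit 78) (nat_lit 228) (nat_lit 0) (XT.lf (nat_lit 0) (nat_lit 12841716648) (nat_lit 228) (nat_lit 1548783027) (nat_lit 76) (nat_lit 1299713192) (nat_lit 35) (nat_lit 5) (nat_lit 38) (nat_lit 5) (nat_lit 36) (nat_lit 4)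 (nat_lit 334) (nat_lit 247) (nat_lit 199)) (XT.lf (nat_lit 0) (nat_lit 237398548) (nat_lit 228) (nat_lit 10869949078) (nat_lit 76) (nat_lit 4926704458) (nat_lit 32) (nat_lit 5) (nat_lit 35) (nat_lit 5) (nat_lit 33) (nat_lit 5) (nat_lit 335) (nat_lit 247) (nat_lit 198))))))))
noncomputable def xc74 : XT := (XT.nd (nat_lit 1794) (nat_lit 532) (nat_lit 0) (XT.nd (nat_lit 858) (nat_lit 608) (nat_lit 0) (XT.nd (nat_lit 390) (nat_lit 304) (nat_lit 0) (XT.nd (nat_lit 156) (nat_lit 152) (nat_lit 0) (XT.nd (nat_lit 78) (nat_lit 152) (nat_lit 0) (XT.lf (nat_lit 0) (nat_lit 3335088554) (nat_lit 228) (nat_lit 4370582048) (nat_lit 76) (nat_lit 8682427484) (nat_lit 32) (nat_lit 5) (nat_lit 35) (nat_lit 5) (nat_lit 33) (nat_lit 5) (nat_lit 336) (nat_lit 247) (nat_lit 197)) (XT.lf (nat_lit 0) (nat_lit 2306035801) (nat_lit 152) (nat_lit 4203661676) (nat_lit 228) (nat_lit 10243579223) (nat_lit 30) (nat_lit 5) (nat_lit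 32) (nat_lit 5) (nat_lit 33) (nat_lit 5) (nat_lit 337) (nat_lit 247) (nat_lit 196))) (XT.nd (nat_lit 78) (nat_lit 152) (nat_lit 0) (XT.lf (nat_lit 0) (nat_lit 9210430570) (nat_lit 152) (nat_lit 575584522) (nat_lit 228) (nat_lit 7343231448) (nat_lit 30) (nat_lit 5) (nat_lit 32) (nat_lit 5) (nat_lit 33) (nat_lit 5) (nat_lit 338) (nat_lit 247) (nat_lit 195)) (XT.nd (nat_lit 78) (nat_lit 152) (nat_lit 0) (XT.lf (nat_lit 0) (nat_lit 13154215856) (nat_lit 228) (nat_lit 1286130015) (nat_lit 76) (nat_lit 3076370901) (nat_lit 30) (nat_lit 5) (nat_lit 33) (nat_lit 5) (nat_lit 31) (nat_lit 4) (nat_lit 339) (nat_lit 247) (nat_lit 194)) (XT.lf (nat_lit 0) (nat_lit 5589488287) (nat_lit 152) (nat_lit 11057679429) (nat_lit 228) (nat_lit 1267960503) (nat_lit 28) (nat_lit 5) (nat_lit 30) (nat_lit 5) (nat_lit 31) (nat_lit 4) (nat_lit 340) (nat_lit 247) (nat_lit 193))))) (XT.nd (nat_lit 234) (nat_lit 76) (nat_lit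 0) (XT.nd (nat_lit 78) (nat_lit 152) (nat_lit 0) (XT.lf (nat_lit 0) (nat_lit 1859453021) (nat_lit 228) (nat_lit 5705515537) (nat_lit 76) (nat_lit 10760671820) (nat_lit 27) (nat_lit 5) (nat_lit 30) (nat_lit 5) (nat_lit 28) (nat_lit 5) (nat_lit 341) (nat_lit 247) (nat_lit 192)) (XT.nd (nat_lit 78) (nat_lit 0) (nat_lit 0) (XT.lf (nat_lit 0) (nat_lit 1063574339) (nat_lit 152) (nat_lit 3967266833) (nat_lit 228) (nat_lit 13718006860) (nat_lit 25) (nat_lit 5) (nat_lit 27) (nat_lit 5) (nat_lit 28) (nat_lit 5) (nat_lit 342) (nat_lit 247) (nat_lit 191)) (XT.lf (nat_lit 0) (nat_lit 8095423079) (nat_lit 152) (nat_lit 225432507) (nat_lit 228) (nat_lit 10863216899) (nat_lit 25) (nat_lit 5) (nat_lit 27) (nat_lit 5) (nat_lit 28) (nat_lit 5) (nat_lit 343) (nat_lit 247) (nat_lit 190)))) (XT.nd (nat_lit 78) (nat_lit 76) (nat_lit 0) (XT.lf (nat_lit 0) (nat_lit 11711099506) (nat_lit 228) (nat_lit 4385412955) (nat_lit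 76) (nat_lit 3535819716) (nat_lit 25) (nat_lit 5) (nat_lit 28) (nat_lit 5) (nat_lit 26) (nat_lit 4) (nat_lit 344) (nat_lit 247) (nat_lit 189)) (XT.nd (nat_lit 78) (nat_lit 0) (nat_lit 0) (XT.lf (nat_lit 0) (nat_lit 2510922926) (nat_lit 76) (nat_lit 12686115964) (nat_lit 152) (nat_lit 4897204791) (nat_lit 24) (nat_lit 5) (nat_lit 25) (nat_lit 5) (nat_lit 26) (nat_lit 4) (nat_lit 345) (nat_lit 247) (nat_lit 188)) (XT.lf (nat_lit 0) (nat_lit 9649819631) (nat_lit 76) (nat_lit 9150062376) (nat_lit 152) (nat_lit 1769783733) (nat_lit 24) (nat_lit 5) (nat_lit 25) (nat_lit 5) (nat_lit 26) (nat_lit 4) (nat_lit 346) (nat_lit 247) (nat_lit 187)))))) (XT.nd (nat_lit 468) (nat_lit 304) (nat_lit 0) (XT.nd (nat_lit 234) (nat_lit 76) (nat_lit 0) (XT.nd (nat_lit 78) (nat_lit 152) (nat_lit 0) (XT.lf (nat_lit 0) (nat_lit 1391779977) (nat_lit 152) (nat_lit 4123711788) (nat_lit 76) (nat_lit 15544402488) (nat_lit 23)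 (nat_lit 5) (nat_lit 25) (nat_lit 5) (nat_lit 24) (nat_lit 5) (nat_lit 347) (nat_lit 247) (nat_lit 186)) (XT.nd (nat_lit 78) (nat_lit 0) (nat_lit 0) (XT.lf (nat_lit 0) (nat_lit 2862909588) (nat_lit 152) (nat_lit 1746786686) (nat_lit 228) (nat_lit 16954716399) (nat_lit 21) (nat_lit 5) (nat_lit 23) (nat_lit 5) (nat_lit 24) (nat_lit 5) (nat_lit 348) (nat_lit 247) (nat_lit 185)) (XT.lf (nat_lit 0) (nat_lit 7956473614) (nat_lit 228) (nat_lit 12012041818) (nat_lit 76) (nat_lit 2114601921) (nat_lit 21) (nat_lit 5) (nat_lit 24) (nat_lit 5) (nat_lit 22) (nat_lit 4) (nat_lit 349) (nat_lit 247) (nat_lit 184)))) (XT.nd (nat_lit 78) (nat_lit 76) (nat_lit 0) (XT.lf (nat_lit 0) (nat_lit 11391577474) (nat_lit 228) (nat_lit 5189629542) (nat_lit 76) (nat_lit 6036558284) (nat_lit 21) (nat_lit 5) (nat_lit 24) (nat_lit 5) (nat_lit 22) (nat_lit 4) (nat_lit 350) (nat_lit 247) (nat_lit 183)) (XT.nd (nat_lit 78) (nat_lit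 0) (nat_lit 0) (XT.lf (nat_lit 0) (nat_lit 1824080639) (nat_lit 76) (nat_lit 13094671756) (nat_lit 152) (nat_lit 8250048991) (nat_lit 20) (nat_lit 5) (nat_lit 21) (nat_lit 5) (nat_lit 22) (nat_lit 4) (nat_lit 351) (nat_lit 247) (nat_lit 182)) (XT.lf (nat_lit 0) (nat_lit 9106095685) (nat_lit 76) (nat_lit 9469900198) (nat_lit 152) (nat_lit 5159663757) (nat_lit 20) (nat_lit 5) (nat_lit 21) (nat_lit 5) (nat_lit 22) (nat_lit 4) (nat_lit 352) (nat_lit 247) (nat_lit 181))))) (XT.nd (nat_lit 234) (nat_lit 76) (nat_lit 0) (XT.nd (nat_lit 78) (nat_lit 228) (nat_lit 0) (XT.lf (nat_lit 0) (nat_lit 16559494717) (nat_lit 76) (nat_lit 5756130147) (nat_lit 152) (nat_lit 2004736870) (nat_lit 20) (nat_lit 5) (nat_lit 21) (nat_lit 5) (nat_lit 22) (nat_lit 4) (nat_lit 353) (nat_lit 247) (nat_lit 180)) (XT.nd (nat_lit 78) (nat_lit 152) (nat_lit 0) (XT.lf (nat_lit 0) (nat_lit 1193730817) (nat_lit 152) (nat_lit 744331404)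 (nat_lit 76) (nat_lit 22985005255) (nat_lit 19) (nat_lit 5) (nat_lit 21) (nat_lit 5) (nat_lit 20) (nat_lit 5) (nat_lit 354) (nat_lit 247) (nat_lit 179)) (XT.lf (nat_lit 0) (nat_lit 4504556509) (nat_lit 228) (nat_lit 19016307606) (nat_lit 76) (nat_lit 2020710492) (nat_lit 17) (nat_lit 5) (nat_lit 20) (nat_lit 5) (nat_lit 18) (nat_lit 4) (nat_lit 355) (nat_lit 247) (nat_lit 178)))) (XT.nd (nat_lit 78) (nat_lit 76) (nat_lit 0) (XT.lf (nat_lit 0) (nat_lit 7915602174) (nat_lit 228) (nat_lit 12214538589) (nat_lit 76) (nat_lit 6048485448) (nat_lit 17) (nat_lit 5) (nat_lit 20) (nat_lit 5) (nat_lit 18) (nat_lit 4) (nat_lit 356) (nat_lit 247) (nat_lit 177)) (XT.nd (nat_lit 78) (nat_lit 76) (nat_lit 0) (XT.lf (nat_lit 0) (nat_lit 11403848879) (nat_lit 228) (nat_lit 5252479021) (nat_lit 76) (nat_lit 10179231019) (nat_lit 17) (nat_lit 5) (nat_lit 20) (nat_lit 5) (nat_lit 18) (nat_lit 4) (nat_lit 357) (nat_lit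 247) (nat_lit 176)) (XT.lf (nat_lit 0) (nat_lit 1913289621) (nat_lit 76) (nat_lit 13077446698) (nat_lit 152) (nat_lit 12521658682) (nat_lit 16) (nat_lit 5) (nat_lit 17) (nat_lit 5) (nat_lit 18) (nat_lit 4) (nat_lit 358) (nat_lit 247) (nat_lit 175))))))) (XT.nd (nat_lit 936) (nat_lit 228) (nat_lit 0) (XT.nd (nat_lit 468) (nat_lit 76) (nat_lit 0) (XT.nd (nat_lit 234) (nat_lit 228) (nat_lit 0) (XT.nd (nat_lit 78) (nat_lit 0) (nat_lit 0) (XT.lf (nat_lit 0) (nat_lit 9359630658) (nat_lit 76) (nat_lit 9354547301) (nat_lit 152) (nat_lit 9494504524) (nat_lit 16) (nat_lit 5) (nat_lit 17) (nat_lit 5) (nat_lit 18) (nat_lit 4) (nat_lit 359) (nat_lit 247) (nat_lit 174)) (XT.nd (nat_lit 78) (nat_lit 0) (nat_lit 0) (XT.lf (nat_lit 0) (nat_lit 16988515969) (nat_lit 76) (nat_lit 5537416433) (nat_lit 152) (nat_lit 6400642221) (nat_lit 16) (nat_lit 5) (nat_lit 17) (nat_lit 5) (nat_lit 18) (nat_lit 4) (nat_lit 360)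 (nat_lit 247) (nat_lit 173)) (XT.lf (nat_lit 0) (nat_lit 24806611571) (nat_lit 76) (nat_lit 1622718735) (nat_lit 152) (nat_lit 3237368398) (nat_lit 16) (nat_lit 5) (nat_lit 17) (nat_lit 5) (nat_lit 18) (nat_lit 4) (nat_lit 361) (nat_lit 247) (nat_lit 172)))) (XT.nd (nat_lit 78) (nat_lit 0) (nat_lit 0) (XT.lf (nat_lit 0) (nat_lit 44794811) (nat_lit 228) (nat_lit 28013580590) (nat_lit 76) (nat_lit 2369926296) (nat_lit 13) (nat_lit 5) (nat_lit 16) (nat_lit 5) (nat_lit 14) (nat_lit 4) (nat_lit 362) (nat_lit 247) (nat_lit 171)) (XT.nd (nat_lit 78) (nat_lit 0) (nat_lit 0) (XT.lf (nat_lit 0) (nat_lit 3403824308) (nat_lit 228) (nat_lit 21291574661) (nat_lit 76) (nat_lit 6515100861) (nat_lit 13) (nat_lit 5) (nat_lit 16) (nat_lit 5) (nat_lit 14) (nat_lit 4) (nat_lit 363) (nat_lit 247) (nat_lit 170)) (XT.lf (nat_lit 0) (nat_lit 6842109645) (nat_lit 228) (nat_lit 14405859262) (nat_lit 76) (nat_lit 10768852802)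 (nat_lit 13) (nat_lit 5) (nat_lit 16) (nat_lit 5) (nat_lit 14) (nat_lit 4) (nat_lit 364) (nat_lit 247) (nat_lit 169))))) (XT.nd (nat_lit 234) (nat_lit 0) (nat_lit 0) (XT.nd (nat_lit 78) (nat_lit 76) (nat_lit 0) (XT.lf (nat_lit 0) (nat_lit 10362655149) (nat_lit 228) (nat_lit 7350417748) (nat_lit 76) (nat_lit 15134898991) (nat_lit 13) (nat_lit 5) (nat_lit 16) (nat_lit 5) (nat_lit 14) (nat_lit 4) (nat_lit 365) (nat_lit 247) (nat_lit 168)) (XT.nd (nat_lit 78) (nat_lit 76) (nat_lit 0) (XT.lf (nat_lit 0) (nat_lit 13968537024) (nat_lit 228) (nat_lit 119085171) (nat_lit 76) (nat_lit 19617054418) (nat_lit 13) (nat_lit 5) (nat_lit 16) (nat_lit 5) (nat_lit 14) (nat_lit 4) (nat_lit 366) (nat_lit 247) (nat_lit 167)) (XT.lf (nat_lit 0) (nat_lit 7439631107) (nat_lit 76) (nat_lit 10294789219) (nat_lit 152) (nat_lit 16851118709) (nat_lit 12) (nat_lit 5) (nat_lit 13) (nat_lit 5) (nat_lit 14) (nat_lit 4) (nat_lit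 367) (nat_lit 247) (nat_lit 166)))) (XT.nd (nat_lit 78) (nat_lit 0) (nat_lit 0) (XT.lf (nat_lit 0) (nat_lit 15193160222) (nat_lit 76) (nat_lit 6401876017) (nat_lit 152) (nat_lit 13898349380) (nat_lit 12) (nat_lit 5) (nat_lit 13) (nat_lit 5) (nat_lit 14) (nat_lit 4) (nat_lit 368) (nat_lit 247) (nat_lit 165)) (XT.nd (nat_lit 78) (nat_lit 0) (nat_lit 0) (XT.lf (nat_lit 0) (nat_lit 23145907074) (nat_lit 76) (nat_lit 2406683542) (nat_lit 152) (nat_lit 10876454041) (nat_lit 12) (nat_lit 5) (nat_lit 13) (nat_lit 5) (nat_lit 14) (nat_lit 4) (nat_lit 369) (nat_lit 247) (nat_lit 164)) (XT.lf (nat_lit 0) (nat_lit 29626827962) (nat_lit 152) (nat_lit 6104799496) (nat_lit 0) (nat_lit 1661217662) (nat_lit 12) (nat_lit 5) (nat_lit 14) (nat_lit 4) (nat_lit 12) (nat_lit 4) (nat_lit 370) (nat_lit 247) (nat_lit 163)))))) (XT.nd (nat_lit 468) (nat_lit 76) (nat_lit 0) (XT.nd (nat_lit 234) (nat_lit 0) (nat_lit 0) (XT.nd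 (nat_lit 78) (nat_lit 76) (nat_lit 0) (XT.lf (nat_lit 0) (nat_lit 1257718811) (nat_lit 76) (nat_lit 32583564449) (nat_lit 76) (nat_lit 4543746653) (nat_lit 11) (nat_lit 4) (nat_lit 12) (nat_lit 5) (nat_lit 12) (nat_lit 4) (nat_lit 371) (nat_lit 247) (nat_lit 162)) (XT.nd (nat_lit 78) (nat_lit 76) (nat_lit 0) (XT.lf (nat_lit 0) (nat_lit 8934683666) (nat_lit 76) (nat_lit 29291426058) (nat_lit 76) (nat_lit 1179562152) (nat_lit 11) (nat_lit 4) (nat_lit 12) (nat_lit 5) (nat_lit 12) (nat_lit 4) (nat_lit 372) (nat_lit 247) (nat_lit 161)) (XT.lf (nat_lit 0) (nat_lit 2223575900) (nat_lit 152) (nat_lit 23667952510) (nat_lit 76) (nat_lit 14565275958) (nat_lit 10) (nat_lit 5) (nat_lit 12) (nat_lit 5) (nat_lit 11) (nat_lit 4) (nat_lit 373) (nat_lit 247) (nat_lit 160)))) (XT.nd (nat_lit 78) (nat_lit 0) (nat_lit 0) (XT.lf (nat_lit 0) (nat_lit 5688233351) (nat_lit 152) (nat_lit 16702608254) (nat_lit 76) (nat_lit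 19148793787) (nat_lit 10) (nat_lit 5) (nat_lit 12) (nat_lit 5) (nat_lit 11) (nat_lit 4) (nat_lit 374) (nat_lit 247) (nat_lit 159)) (XT.nd (nat_lit 78) (nat_lit 0) (nat_lit 0) (XT.lf (nat_lit 0) (nat_lit 9240455077) (nat_lit 152) (nat_lit 9557530547) (nat_lit 76) (nat_lit 23857465650) (nat_lit 10) (nat_lit 5) (nat_lit 12) (nat_lit 5) (nat_lit 11) (nat_lit 4) (nat_lit 375) (nat_lit 247) (nat_lit 158)) (XT.lf (nat_lit 0) (nat_lit 12883344962) (nat_lit 152) (nat_lit 2226476118) (nat_lit 76) (nat_lit 28695405919) (nat_lit 10) (nat_lit 5) (nat_lit 12) (nat_lit 5) (nat_lit 11) (nat_lit 4) (nat_lit 376) (nat_lit 247) (nat_lit 157))))) (XT.nd (nat_lit 234) (nat_lit 0) (nat_lit 0) (XT.nd (nat_lit 78) (nat_lit 0) (nat_lit 0) (XT.lf (nat_lit 0) (nat_lit 5402380716) (nat_lit 76) (nat_lit 11269636386) (nat_lit 152) (nat_lit 28316392192) (nat_lit 9) (nat_lit 5) (nat_lit 10) (nat_lit 5) (nat_lit 11) (nat_lit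 4) (nat_lit 377) (nat_lit 247) (nat_lit 156)) (XT.nd (nat_lit 78) (nat_lit 0) (nat_lit 0) (XT.lf (nat_lit 0) (nat_lit 13278464788) (nat_lit 76) (nat_lit 7303119583) (nat_lit 152) (nat_lit 25625293566) (nat_lit 9) (nat_lit 5) (nat_lit 10) (nat_lit 5) (nat_lit 11) (nat_lit 4) (nat_lit 378) (nat_lit 247) (nat_lit 155)) (XT.lf (nat_lit 0) (nat_lit 21364346873) (nat_lit 76) (nat_lit 3229287826) (nat_lit 152) (nat_lit 22868717755) (nat_lit 9) (nat_lit 5) (nat_lit 10) (nat_lit 5) (nat_lit 11) (nat_lit 4) (nat_lit 379) (nat_lit 247) (nat_lit 154)))) (XT.nd (nat_lit 78) (nat_lit 0) (nat_lit 0) (XT.lf (nat_lit 0) (nat_lit 28720857829) (nat_lit 152) (nat_lit 19098021626) (nat_lit 0) (nat_lit 936774885) (nat_lit 9) (nat_lit 5) (nat_lit 11) (nat_lit 4) (nat_lit 9) (nat_lit 4) (nat_lit 380) (nat_lit 247) (nat_lit 153)) (XT.nd (nat_lit 78) (nat_lit 0) (nat_lit 0) (XT.lf (nat_lit 0) (nat_lit 32989810814) (nat_lit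 152) (nat_lit 11945295534) (nat_lit 0) (nat_lit 5152118796) (nat_lit 9) (nat_lit 5) (nat_lit 11) (nat_lit 4) (nat_lit 9) (nat_lit 4) (nat_lit 381) (nat_lit 247) (nat_lit 152)) (XT.lf (nat_lit 0) (nat_lit 37373181916) (nat_lit 152) (nat_lit 4602535460) (nat_lit 0) (nat_lit 9483442254) (nat_lit 9) (nat_lit 5) (nat_lit 11) (nat_lit 4) (nat_lit 9) (nat_lit 4) (nat_lit 382) (nat_lit 247) (nat_lit 151))))))))
noncomputable def xc75 : XT := (XT.nd (nat_lit 33306) (nat_lit 0) (nat_lit 5092) (XT.nd (nat_lit 936) (nat_lit 76) (nat_lit 0) (XT.nd (nat_lit 468) (nat_lit 76) (nat_lit 0) (XT.nd (nat_lit 234) (nat_lit 76) (nat_lit 0) (XT.nd (nat_lit 78) (nat_lit 0) (nat_lit 0) (XT.lf (nat_lit 0) (nat_lit 2995120182) (nat_lit 76) (nat_lit 38908472010) (nat_lit 76) (nat_lit 10968200656) (nat_lit 8) (nat_lit 4) (nat_lit 9) (nat_lit 5) (nat_lit 9) (nat_lit 4) (nat_lit 383) (nat_lit 247) (nat_lit 150)) (XT.nd (nat_lit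 78) (nat_lit 0) (nat_lit 0) (XT.lf (nat_lit 0) (nat_lit 10891453797) (nat_lit 76) (nat_lit 35711843835) (nat_lit 76) (nat_lit 7722512584) (nat_lit 8) (nat_lit 4) (nat_lit 9) (nat_lit 5) (nat_lit 9) (nat_lit 4) (nat_lit 384) (nat_lit 247) (nat_lit 149)) (XT.lf (nat_lit 0) (nat_lit 19001765615) (nat_lit 76) (nat_lit 32429516263) (nat_lit 76) (nat_lit 4392554045) (nat_lit 8) (nat_lit 4) (nat_lit 9) (nat_lit 5) (nat_lit 9) (nat_lit 4) (nat_lit 385) (nat_lit 247) (nat_lit 148)))) (XT.nd (nat_lit 78) (nat_lit 76) (nat_lit 0) (XT.lf (nat_lit 0) (nat_lit 27333142314) (nat_lit 76) (nat_lit 29058621241) (nat_lit 76) (nat_lit 975415366) (nat_lit 8) (nat_lit 4) (nat_lit 9) (nat_lit 5) (nat_lit 9) (nat_lit 4) (nat_lit 386) (nat_lit 247) (nat_lit 147)) (XT.nd (nat_lit 78) (nat_lit 0) (nat_lit 0) (XT.lf (nat_lit 0) (nat_lit 2482483022) (nat_lit 152) (nat_lit 23088662095) (nat_lit 76) (nat_lit 33385312505) (nat_lit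 7) (nat_lit 5) (nat_lit 9) (nat_lit 5) (nat_lit 8) (nat_lit 4) (nat_lit 387) (nat_lit 247) (nat_lit 146)) (XT.lf (nat_lit 0) (nat_lit 6012758902) (nat_lit 152) (nat_lit 15965791140) (nat_lit 76) (nat_lit 38614933278) (nat_lit 7) (nat_lit 5) (nat_lit 9) (nat_lit 5) (nat_lit 8) (nat_lit 4) (nat_lit 388) (nat_lit 247) (nat_lit 145))))) (XT.nd (nat_lit 234) (nat_lit 0) (nat_lit 0) (XT.nd (nat_lit 78) (nat_lit 76) (nat_lit 0) (XT.lf (nat_lit 0) (nat_lit 9637530848) (nat_lit 152) (nat_lit 8649823586) (nat_lit 76) (nat_lit 43992613283) (nat_lit 7) (nat_lit 5) (nat_lit 9) (nat_lit 5) (nat_lit 8) (nat_lit 4) (nat_lit 389) (nat_lit 247) (nat_lit 144)) (XT.nd (nat_lit 78) (nat_lit 76) (nat_lit 0) (XT.lf (nat_lit 0) (nat_lit 13359966138) (nat_lit 152) (nat_lit 1134366840) (nat_lit 76) (nat_lit 49523051461) (nat_lit 7) (nat_lit 5) (nat_lit 9) (nat_lit 5) (nat_lit 8) (nat_lit 4) (nat_lit 390) (nat_lit 247)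 (nat_lit 143)) (XT.lf (nat_lit 0) (nat_lit 6718243123) (nat_lit 76) (nat_lit 10529654122) (nat_lit 152) (nat_lit 48557416975) (nat_lit 6) (nat_lit 5) (nat_lit 7) (nat_lit 5) (nat_lit 8) (nat_lit 4) (nat_lit 391) (nat_lit 247) (nat_lit 142)))) (XT.nd (nat_lit 78) (nat_lit 0) (nat_lit 0) (XT.lf (nat_lit 0) (nat_lit 14810467458) (nat_lit 76) (nat_lit 6442825191) (nat_lit 152) (nat_lit 46393569544) (nat_lit 6) (nat_lit 5) (nat_lit 7) (nat_lit 5) (nat_lit 8) (nat_lit 4) (nat_lit 392) (nat_lit 247) (nat_lit 141)) (XT.nd (nat_lit 78) (nat_lit 0) (nat_lit 0) (XT.lf (nat_lit 0) (nat_lit 23126800915) (nat_lit 76) (nat_lit 2241730050) (nat_lit 152) (nat_lit 44175440148) (nat_lit 6) (nat_lit 5) (nat_lit 7) (nat_lit 5) (nat_lit 8) (nat_lit 4) (nat_lit 393) (nat_lit 247) (nat_lit 140)) (XT.lf (nat_lit 0) (nat_lit 29617176334) (nat_lit 152) (nat_lit 39843756755) (nat_lit 0) (nat_lit 2036766512) (nat_lit 6) (nat_lit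 5) (nat_lit 8) (nat_lit 4) (nat_lit 6) (nat_lit 4) (nat_lit 394) (nat_lit 247) (nat_lit 139)))))) (XT.nd (nat_lit 546) (nat_lit 0) (nat_lit 0) (XT.nd (nat_lit 234) (nat_lit 76) (nat_lit 0) (XT.nd (nat_lit 78) (nat_lit 0) (nat_lit 0) (XT.lf (nat_lit 0) (nat_lit 34005674256) (nat_lit 152) (nat_lit 33113143740) (nat_lit 0) (nat_lit 6390854810) (nat_lit 6) (nat_lit 5) (nat_lit 8) (nat_lit 4) (nat_lit 6) (nat_lit 4) (nat_lit 395) (nat_lit 247) (nat_lit 138)) (XT.nd (nat_lit 78) (nat_lit 0) (nat_lit 0) (XT.lf (nat_lit 0) (nat_lit 38516310460) (nat_lit 152) (nat_lit 26197901153) (nat_lit 0) (nat_lit 10868083612) (nat_lit 6) (nat_lit 5) (nat_lit 8) (nat_lit 4) (nat_lit 6) (nat_lit 4) (nat_lit 396) (nat_lit 247) (nat_lit 137)) (XT.lf (nat_lit 0) (nat_lit 43153026280) (nat_lit 152) (nat_lit 19091986551) (nat_lit 0) (nat_lit 15472365061) (nat_lit 6) (nat_lit 5) (nat_lit 8) (nat_lit 4) (nat_lit 6) (nat_lit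 4) (nat_lit 397) (nat_lit 247) (nat_lit 136)))) (XT.nd (nat_lit 78) (nat_lit 76) (nat_lit 0) (XT.lf (nat_lit 0) (nat_lit 47919873214) (nat_lit 152) (nat_lit 11789190881) (nat_lit 0) (nat_lit 20207722315) (nat_lit 6) (nat_lit 5) (nat_lit 8) (nat_lit 4) (nat_lit 6) (nat_lit 4) (nat_lit 398) (nat_lit 247) (nat_lit 135)) (XT.nd (nat_lit 78) (nat_lit 76) (nat_lit 0) (XT.lf (nat_lit 0) (nat_lit 52821016470) (nat_lit 152) (nat_lit 4283133061) (nat_lit 0) (nat_lit 25078293065) (nat_lit 6) (nat_lit 5) (nat_lit 8) (nat_lit 4) (nat_lit 6) (nat_lit 4) (nat_lit 399) (nat_lit 247) (nat_lit 134)) (XT.lf (nat_lit 0) (nat_lit 3501063970) (nat_lit 76) (nat_lit 54393328997) (nat_lit 76) (nat_lit 26620923548) (nat_lit 5) (nat_lit 4) (nat_lit 6) (nat_lit 5) (nat_lit 6) (nat_lit 4) (nat_lit 400) (nat_lit 247) (nat_lit 133))))) (XT.nd (nat_lit 31590) (nat_lit 0) (nat_lit 12008) (XT.nd (nat_lit 31434) (nat_lit 0) (nat_lit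 14288) (XT.lf (nat_lit 0) (nat_lit 19909631425) (nat_lit 76) (nat_lit 48655411106) (nat_lit 76) (nat_lit 20826209965) (nat_lit 5) (nat_lit 4) (nat_lit 6) (nat_lit 5) (nat_lit 6) (nat_lit 4) (nat_lit 402) (nat_lit 247) (nat_lit 131)) (XT.nd (nat_lit 78) (nat_lit 76) (nat_lit 0) (XT.lf (nat_lit 0) (nat_lit 1064609052) (nat_lit 988) (nat_lit 1247101039) (nat_lit 988) (nat_lit 1247101039) (nat_lit 194) (nat_lit 4) (nat_lit 207) (nat_lit 5) (nat_lit 207) (nat_lit 4) (nat_lit 284) (nat_lit 248) (nat_lit 248)) (XT.lf (nat_lit 0) (nat_lit 600046595) (nat_lit 1064) (nat_lit 435223299) (nat_lit 76) (nat_lit 6142538933) (nat_lit 193) (nat_lit 5) (nat_lit 207) (nat_lit 5) (nat_lit 194) (nat_lit 4) (nat_lit 285) (nat_lit 248) (nat_lit 247)))) (XT.nd (nat_lit 78) (nat_lit 1216) (nat_lit 0) (XT.lf (nat_lit 0) (nat_lit 3690213643) (nat_lit 1140) (nat_lit 3023820773) (nat_lit 0) (nat_lit 526639966) (nat_lit 179)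 (nat_lit 5) (nat_lit 194) (nat_lit 4) (nat_lit 179) (nat_lit 4) (nat_lit 286) (nat_lit 248) (nat_lit 246)) (XT.nd (nat_lit 78) (nat_lit 76) (nat_lit 0) (XT.lf (nat_lit 0) (nat_lit 1641729980) (nat_lit 1140) (nat_lit 5171150300) (nat_lit 1140) (nat_lit 494556548) (nat_lit 164) (nat_lit 4) (nat_lit 179) (nat_lit 5) (nat_lit 179) (nat_lit 4) (nat_lit 287) (nat_lit 248) (nat_lit 245)) (XT.lf (nat_lit 0) (nat_lit 2542105182) (nat_lit 1216) (nat_lit 985071760) (nat_lit 76) (nat_lit 3850227624) (nat_lit 163) (nat_lit 5) (nat_lit 179) (nat_lit 5) (nat_lit 164) (nat_lit 4) (nat_lit 288) (nat_lit 248) (nat_lit 244))))))) (XT.nd (nat_lit 936) (nat_lit 2660) (nat_lit 0) (XT.nd (nat_lit 468) (nat_lit 1900) (nat_lit 0) (XT.nd (nat_lit 234) (nat_lit 1140) (nat_lit 0) (XT.nd (nat_lit 78) (nat_lit 684) (nat_lit 0) (XT.lf (nat_lit 0) (nat_lit 3815032310) (nat_lit 532) (nat_lit 1794201249) (nat_lit 608) (nat_lit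 1841799060) (nat_lit 156) (nat_lit 5) (nat_lit 163) (nat_lit 5) (nat_lit 164) (nat_lit 4) (nat_lit 289) (nat_lit 248) (nat_lit 243)) (XT.nd (nat_lit 78) (nat_lit 0) (nat_lit 0) (XT.lf (nat_lit 0) (nat_lit 1152077794) (nat_lit 684) (nat_lit 6356757337) (nat_lit 76) (nat_lit 19809054) (nat_lit 147) (nat_lit 5) (nat_lit 156) (nat_lit 5) (nat_lit 148) (nat_lit 4) (nat_lit 290) (nat_lit 248) (nat_lit 242)) (XT.lf (nat_lit 0) (nat_lit 4168488949) (nat_lit 684) (nat_lit 1538587100) (nat_lit 76) (nat_lit 1902040375) (nat_lit 147) (nat_lit 5) (nat_lit 156) (nat_lit 5) (nat_lit 148) (nat_lit 4) (nat_lit 291) (nat_lit 248) (nat_lit 241)))) (XT.nd (nat_lit 78) (nat_lit 608) (nat_lit 0) (XT.lf (nat_lit 0) (nat_lit 3399903648) (nat_lit 532) (nat_lit 3825541578) (nat_lit 608) (nat_lit 468222512) (nat_lit 140) (nat_lit 5) (nat_lit 147) (nat_lit 5) (nat_lit 148) (nat_lit 4) (nat_lit 292) (nat_lit 248) (nat_lit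 240)) (XT.nd (nat_lit 78) (nat_lit 0) (nat_lit 0) (XT.lf (nat_lit 0) (nat_lit 633609585) (nat_lit 532) (nat_lit 1848874645) (nat_lit 608) (nat_lit 5299488366) (nat_lit 132) (nat_lit 5) (nat_lit 139) (nat_lit 5) (nat_lit 140) (nat_lit 5) (nat_lit 293) (nat_lit 248) (nat_lit 239)) (XT.lf (nat_lit 0) (nat_lit 5477264292) (nat_lit 608) (nat_lit 2174712671) (nat_lit 76) (nat_lit 222014036) (nat_lit 132) (nat_lit 5) (nat_lit 140) (nat_lit 5) (nat_lit 133) (nat_lit 4) (nat_lit 294) (nat_lit 248) (nat_lit 238))))) (XT.nd (nat_lit 234) (nat_lit 912) (nat_lit 0) (XT.nd (nat_lit 78) (nat_lit 456) (nat_lit 0) (XT.lf (nat_lit 0) (nat_lit 548949592) (nat_lit 532) (nat_lit 5079246032) (nat_lit 76) (nat_lit 2341524735) (nat_lit 125) (nat_lit 5) (nat_lit 132) (nat_lit 5) (nat_lit 126) (nat_lit 5) (nat_lit 295) (nat_lit 248) (nat_lit 237)) (XT.nd (nat_lit 78) (nat_lit 456) (nat_lit 0) (XT.lf (nat_lit 0) (nat_lit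 3479245208) (nat_lit 532) (nat_lit 30550659) (nat_lit 76) (nat_lit 4559620640) (nat_lit 125) (nat_lit 5) (nat_lit 132) (nat_lit 5) (nat_lit 126) (nat_lit 5) (nat_lit 296) (nat_lit 248) (nat_lit 236)) (XT.lf (nat_lit 0) (nat_lit 5182247474) (nat_lit 456) (nat_lit 1289525013) (nat_lit 532) (nat_lit 1701236739) (nat_lit 119) (nat_lit 5) (nat_lit 125) (nat_lit 5) (nat_lit 126) (nat_lit 5) (nat_lit 297) (nat_lit 248) (nat_lit 235)))) (XT.nd (nat_lit 78) (nat_lit 456) (nat_lit 0) (XT.lf (nat_lit 0) (nat_lit 1205879949) (nat_lit 456) (nat_lit 6076785713) (nat_lit 76) (nat_lit 998112722) (nat_lit 113) (nat_lit 5) (nat_lit 119) (nat_lit 5) (nat_lit 114) (nat_lit 5) (nat_lit 298) (nat_lit 248) (nat_lit 234)) (XT.nd (nat_lit 78) (nat_lit 456) (nat_lit 0) (XT.lf (nat_lit 0) (nat_lit 4135479731) (nat_lit 456) (nat_lit 895440511) (nat_lit 76) (nat_lit 3361395056) (nat_lit 113) (nat_lit 5) (nat_lit 119) (nat_lit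 5) (nat_lit 114) (nat_lit 5) (nat_lit 299) (nat_lit 248) (nat_lit 233)) (XT.lf (nat_lit 0) (nat_lit 4440071482) (nat_lit 456) (nat_lit 2683921704) (nat_lit 532) (nat_lit 1384194640) (nat_lit 107) (nat_lit 5) (nat_lit 113) (nat_lit 5) (nat_lit 114) (nat_lit 5) (nat_lit 300) (nat_lit 248) (nat_lit 232)))))) (XT.nd (nat_lit 468) (nat_lit 1064) (nat_lit 0) (XT.nd (nat_lit 234) (nat_lit 760) (nat_lit 0) (XT.nd (nat_lit 78) (nat_lit 380) (nat_lit 0) (XT.lf (nat_lit 0) (nat_lit 1247267969) (nat_lit 380) (nat_lit 246535803) (nat_lit 456) (nat_lit 7134894894) (nat_lit 101) (nat_lit 5) (nat_lit 106) (nat_lit 5) (nat_lit 107) (nat_lit 5) (nat_lit 301) (nat_lit 248) (nat_lit 231)) (XT.nd (nat_lit 78) (nat_lit 380) (nat_lit 0) (XT.lf (nat_lit 0) (nat_lit 4423414913) (nat_lit 456) (nat_lit 2071715408) (nat_lit 76) (nat_lit 2257600625) (nat_lit 101) (nat_lit 5) (nat_lit 107) (nat_lit 5) (nat_lit 102) (nat_lit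 5) (nat_lit 302) (nat_lit 248) (nat_lit 230)) (XT.lf (nat_lit 0) (nat_lit 3373539648) (nat_lit 380) (nat_lit 4034131886) (nat_lit 456) (nat_lit 1473916808) (nat_lit 96) (nat_lit 5) (nat_lit 101) (nat_lit 5) (nat_lit 102) (nat_lit 5) (nat_lit 303) (nat_lit 248) (nat_lit 229)))) (XT.nd (nat_lit 78) (nat_lit 684) (nat_lit 0) (XT.lf (nat_lit 0) (nat_lit 1391919930) (nat_lit 456) (nat_lit 91108456) (nat_lit 76) (nat_lit 7532358565) (nat_lit 95) (nat_lit 5) (nat_lit 101) (nat_lit 5) (nat_lit 96) (nat_lit 5) (nat_lit 304) (nat_lit 248) (nat_lit 228)) (XT.nd (nat_lit 78) (nat_lit 380) (nat_lit 0) (XT.lf (nat_lit 0) (nat_lit 4312669963) (nat_lit 380) (nat_lit 3668920287) (nat_lit 76) (nat_lit 1171312393) (nat_lit 91) (nat_lit 5) (nat_lit 96) (nat_lit 5) (nat_lit 92) (nat_lit 5) (nat_lit 305) (nat_lit 248) (nat_lit 227)) (XT.lf (nat_lit 0) (nat_lit 1869271622) (nat_lit 380) (nat_lit 5420516875) (nat_lit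 456) (nat_lit 2005787878) (nat_lit 86) (nat_lit 5) (nat_lit 91) (nat_lit 5) (nat_lit 92) (nat_lit 5) (nat_lit 306) (nat_lit 248) (nat_lit 226))))) (XT.nd (nat_lit 234) (nat_lit 684) (nat_lit 0) (XT.nd (nat_lit 78) (nat_lit 304) (nat_lit 0) (XT.lf (nat_lit 0) (nat_lit 868787723) (nat_lit 456) (nat_lit 1888467385) (nat_lit 76) (nat_lit 6685913412) (nat_lit 85) (nat_lit 5) (nat_lit 91) (nat_lit 5) (nat_lit 86) (nat_lit 5) (nat_lit 307) (nat_lit 248) (nat_lit 225)) (XT.nd (nat_lit 78) (nat_lit 0) (nat_lit 0) (XT.lf (nat_lit 0) (nat_lit 3763276435) (nat_lit 380) (nat_lit 5810360743) (nat_lit 76) (nat_lit 21822658) (nat_lit 81) (nat_lit 5) (nat_lit 86) (nat_lit 5) (nat_lit 82) (nat_lit 5) (nat_lit 308) (nat_lit 248) (nat_lit 224)) (XT.lf (nat_lit 0) (nat_lit 6729360331) (nat_lit 380) (nat_lit 196740699) (nat_lit 76) (nat_lit 2826760406) (nat_lit 81) (nat_lit 5) (nat_lit 86) (nat_lit 5) (nat_lit 82)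 (nat_lit 5) (nat_lit 309) (nat_lit 248) (nat_lit 223)))) (XT.nd (nat_lit 78) (nat_lit 380) (nat_lit 0) (XT.lf (nat_lit 0) (nat_lit 5612191498) (nat_lit 304) (nat_lit 4166185332) (nat_lit 380) (nat_lit 136871651) (nat_lit 77) (nat_lit 5) (nat_lit 81) (nat_lit 5) (nat_lit 82) (nat_lit 5) (nat_lit 310) (nat_lit 248) (nat_lit 222)) (XT.nd (nat_lit 78) (nat_lit 0) (nat_lit 0) (XT.lf (nat_lit 0) (nat_lit 1434621338) (nat_lit 304) (nat_lit 1302485610) (nat_lit 380) (nat_lit 7345976514) (nat_lit 72) (nat_lit 5) (nat_lit 76) (nat_lit 5) (nat_lit 77) (nat_lit 5) (nat_lit 311) (nat_lit 248) (nat_lit 221)) (XT.lf (nat_lit 0) (nat_lit 5695292982) (nat_lit 380) (nat_lit 2923493163) (nat_lit 76) (nat_lit 1637179473) (nat_lit 72) (nat_lit 5) (nat_lit 77) (nat_lit 5) (nat_lit 73) (nat_lit 5) (nat_lit 312) (nat_lit 248) (nat_lit 220))))))))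
noncomputable def xc76 : XT := (XT.nd (nat_lit 1794) (nat_lit 1292) (nat_lit 0) (XT.nd (nat_lit 858) (nat_lit 1216) (nat_lit 0) (XT.nd (nat_lit 390) (nat_lit 836) (nat_lit 0) (XT.nd (nat_lit 156) (nat_lit 532) (nat_lit 0) (XT.nd (nat_lit 78) (nat_lit 76) (nat_lit 0) (XT.lf (nat_lit 0) (nat_lit 2936204365) (nat_lit 304) (nat_lit 5789881715) (nat_lit 380) (nat_lit 1708505081) (nat_lit 68) (nat_lit 5) (nat_lit 72) (nat_lit 5) (nat_lit 73) (nat_lit 5) (nat_lit 313) (nat_lit 248) (nat_lit 219)) (XT.lf (nat_lit 0) (nat_lit 1178061075) (nat_lit 380) (nat_lit 1680001805) (nat_lit 76) (nat_lit 7761042096) (nat_lit 67) (nat_lit 5) (nat_lit 72) (nat_lit 5) (nat_lit 68) (nat_lit 5) (nat_lit 314) (nat_lit 248) (nat_lit 218))) (XT.nd (nat_lit 78) (nat_lit 304) (nat_lit 0) (XT.lf (nat_lit 0) (nat_lit 4104789841) (nat_lit 304) (nat_lit 6510537568) (nat_lit 76) (nat_lit 193748764) (nat_lit 64) (nat_lit 5) (nat_lit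 68) (nat_lit 5) (nat_lit 65) (nat_lit 5) (nat_lit 315) (nat_lit 248) (nat_lit 217)) (XT.nd (nat_lit 78) (nat_lit 304) (nat_lit 0) (XT.lf (nat_lit 0) (nat_lit 7110040233) (nat_lit 304) (nat_lit 621959147) (nat_lit 76) (nat_lit 3273090189) (nat_lit 64) (nat_lit 5) (nat_lit 68) (nat_lit 5) (nat_lit 65) (nat_lit 5) (nat_lit 316) (nat_lit 248) (nat_lit 216)) (XT.lf (nat_lit 0) (nat_lit 5472264508) (nat_lit 304) (nat_lit 4732669313) (nat_lit 380) (nat_lit 1002127746) (nat_lit 60) (nat_lit 5) (nat_lit 64) (nat_lit 5) (nat_lit 65) (nat_lit 5) (nat_lit 317) (nat_lit 248) (nat_lit 215))))) (XT.nd (nat_lit 234) (nat_lit 304) (nat_lit 0) (XT.nd (nat_lit 78) (nat_lit 228) (nat_lit 0) (XT.lf (nat_lit 0) (nat_lit 254917823) (nat_lit 228) (nat_lit 1639978968) (nat_lit 304) (nat_lit 9521007658) (nat_lit 56) (nat_lit 5) (nat_lit 59) (nat_lit 5) (nat_lit 60) (nat_lit 5) (nat_lit 318) (nat_lit 248) (nat_lit 214))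 (XT.nd (nat_lit 78) (nat_lit 228) (nat_lit 0) (XT.lf (nat_lit 0) (nat_lit 4879695489) (nat_lit 304) (nat_lit 5191500824) (nat_lit 76) (nat_lit 1558945932) (nat_lit 56) (nat_lit 5) (nat_lit 60) (nat_lit 5) (nat_lit 57) (nat_lit 5) (nat_lit 319) (nat_lit 248) (nat_lit 213)) (XT.lf (nat_lit 0) (nat_lit 881572914) (nat_lit 228) (nat_lit 7046366582) (nat_lit 304) (nat_lit 3923706411) (nat_lit 53) (nat_lit 5) (nat_lit 56) (nat_lit 5) (nat_lit 57) (nat_lit 5) (nat_lit 320) (nat_lit 248) (nat_lit 212)))) (XT.nd (nat_lit 78) (nat_lit 304) (nat_lit 0) (XT.lf (nat_lit 0) (nat_lit 7167547284) (nat_lit 228) (nat_lit 3902449354) (nat_lit 304) (nat_lit 1009781214) (nat_lit 53) (nat_lit 5) (nat_lit 56) (nat_lit 5) (nat_lit 57) (nat_lit 5) (nat_lit 321) (nat_lit 248) (nat_lit 211)) (XT.nd (nat_lit 78) (nat_lit 0) (nat_lit 0) (XT.lf (nat_lit 0) (nat_lit 1258219488) (nat_lit 228) (nat_lit 657441588) (nat_lit 304)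 (nat_lit 10399680535) (nat_lit 49) (nat_lit 5) (nat_lit 52) (nat_lit 5) (nat_lit 53) (nat_lit 5) (nat_lit 322) (nat_lit 248) (nat_lit 210)) (XT.lf (nat_lit 0) (nat_lit 4935819717) (nat_lit 304) (nat_lit 4953366204) (nat_lit 76) (nat_lit 2667718521) (nat_lit 49) (nat_lit 5) (nat_lit 53) (nat_lit 5) (nat_lit 50) (nat_lit 5) (nat_lit 323) (nat_lit 248) (nat_lit 209)))))) (XT.nd (nat_lit 468) (nat_lit 532) (nat_lit 0) (XT.nd (nat_lit 234) (nat_lit 228) (nat_lit 0) (XT.nd (nat_lit 78) (nat_lit 228) (nat_lit 0) (XT.lf (nat_lit 0) (nat_lit 1279075773) (nat_lit 228) (nat_lit 6739073670) (nat_lit 304) (nat_lit 4788465833) (nat_lit 46) (nat_lit 5) (nat_lit 49) (nat_lit 5) (nat_lit 50) (nat_lit 5) (nat_lit 324) (nat_lit 248) (nat_lit 208)) (XT.nd (nat_lit 78) (nat_lit 228) (nat_lit 0) (XT.lf (nat_lit 0) (nat_lit 7727867968) (nat_lit 228) (nat_lit 3468544332) (nat_lit 304) (nat_lit 1867347948) (nat_lit 46)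 (nat_lit 5) (nat_lit 49) (nat_lit 5) (nat_lit 50) (nat_lit 5) (nat_lit 325) (nat_lit 248) (nat_lit 207)) (XT.lf (nat_lit 0) (nat_lit 978615025) (nat_lit 152) (nat_lit 104230566) (nat_lit 228) (nat_lit 12246577396) (nat_lit 43) (nat_lit 5) (nat_lit 45) (nat_lit 5) (nat_lit 46) (nat_lit 5) (nat_lit 326) (nat_lit 248) (nat_lit 206)))) (XT.nd (nat_lit 78) (nat_lit 228) (nat_lit 0) (XT.lf (nat_lit 0) (nat_lit 4125456591) (nat_lit 228) (nat_lit 6132299629) (nat_lit 76) (nat_lit 3343544169) (nat_lit 43) (nat_lit 5) (nat_lit 46) (nat_lit 5) (nat_lit 44) (nat_lit 5) (nat_lit 327) (nat_lit 248) (nat_lit 205)) (XT.nd (nat_lit 78) (nat_lit 0) (nat_lit 0) (XT.lf (nat_lit 0) (nat_lit 206372232) (nat_lit 228) (nat_lit 7012028144) (nat_lit 304) (nat_lit 6664203604) (nat_lit 40) (nat_lit 5) (nat_lit 43) (nat_lit 5) (nat_lit 44) (nat_lit 5) (nat_lit 328) (nat_lit 248) (nat_lit 204)) (XT.lf (nat_lit 0) (nat_lit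 6792203842) (nat_lit 228) (nat_lit 3630511505) (nat_lit 304) (nat_lit 3749114135) (nat_lit 40) (nat_lit 5) (nat_lit 43) (nat_lit 5) (nat_lit 44) (nat_lit 5) (nat_lit 329) (nat_lit 248) (nat_lit 203))))) (XT.nd (nat_lit 234) (nat_lit 304) (nat_lit 0) (XT.nd (nat_lit 78) (nat_lit 228) (nat_lit 0) (XT.lf (nat_lit 0) (nat_lit 13508905024) (nat_lit 228) (nat_lit 172175783) (nat_lit 304) (nat_lit 789952428) (nat_lit 40) (nat_lit 5) (nat_lit 43) (nat_lit 5) (nat_lit 44) (nat_lit 5) (nat_lit 330) (nat_lit 248) (nat_lit 202)) (XT.nd (nat_lit 78) (nat_lit 0) (nat_lit 0) (XT.lf (nat_lit 0) (nat_lit 2260249720) (nat_lit 228) (nat_lit 9140074930) (nat_lit 76) (nat_lit 3376884359) (nat_lit 37) (nat_lit 5) (nat_lit 40) (nat_lit 5) (nat_lit 38) (nat_lit 5) (nat_lit 331) (nat_lit 248) (nat_lit 201)) (XT.lf (nat_lit 0) (nat_lit 5356647052) (nat_lit 228) (nat_lit 2713805853) (nat_lit 76) (nat_lit 7022801318) (nat_lit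 37) (nat_lit 5) (nat_lit 40) (nat_lit 5) (nat_lit 38) (nat_lit 5) (nat_lit 332) (nat_lit 248) (nat_lit 200)))) (XT.nd (nat_lit 78) (nat_lit 152) (nat_lit 0) (XT.lf (nat_lit 0) (nat_lit 3917618557) (nat_lit 152) (nat_lit 4626218881) (nat_lit 228) (nat_lit 6875041076) (nat_lit 35) (nat_lit 5) (nat_lit 37) (nat_lit 5) (nat_lit 38) (nat_lit 5) (nat_lit 333) (nat_lit 248) (nat_lit 199)) (XT.nd (nat_lit 78) (nat_lit 152) (nat_lit 0) (XT.lf (nat_lit 0) (nat_lit 10740164703) (nat_lit 152) (nat_lit 1074673588) (nat_lit 228) (nat_lit 3939821142) (nat_lit 35) (nat_lit 5) (nat_lit 37) (nat_lit 5) (nat_lit 38) (nat_lit 5) (nat_lit 334) (nat_lit 248) (nat_lit 198)) (XT.lf (nat_lit 0) (nat_lit 1610923174) (nat_lit 152) (nat_lit 13575070987) (nat_lit 228) (nat_lit 914491630) (nat_lit 33) (nat_lit 5) (nat_lit 35) (nat_lit 5) (nat_lit 36) (nat_lit 4) (nat_lit 335) (nat_lit 248) (nat_lit 197))))))) (XT.nd (nat_lit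 936) (nat_lit 608) (nat_lit 0) (XT.nd (nat_lit 468) (nat_lit 228) (nat_lit 0) (XT.nd (nat_lit 234) (nat_lit 228) (nat_lit 0) (XT.nd (nat_lit 78) (nat_lit 152) (nat_lit 0) (XT.lf (nat_lit 0) (nat_lit 2182236105) (nat_lit 228) (nat_lit 8012306045) (nat_lit 76) (nat_lit 6260832792) (nat_lit 32) (nat_lit 5) (nat_lit 35) (nat_lit 5) (nat_lit 33) (nat_lit 5) (nat_lit 336) (nat_lit 248) (nat_lit 196)) (XT.nd (nat_lit 78) (nat_lit 152) (nat_lit 0) (XT.lf (nat_lit 0) (nat_lit 5316418491) (nat_lit 228) (nat_lit 1410688339) (nat_lit 76) (nat_lit 10094674290) (nat_lit 32) (nat_lit 5) (nat_lit 35) (nat_lit 5) (nat_lit 33) (nat_lit 5) (nat_lit 337) (nat_lit 248) (nat_lit 195)) (XT.lf (nat_lit 0) (nat_lit 5435924014) (nat_lit 152) (nat_lit 3124968573) (nat_lit 228) (nat_lit 8637828016) (nat_lit 30) (nat_lit 5) (nat_lit 32) (nat_lit 5) (nat_lit 33) (nat_lit 5) (nat_lit 338) (nat_lit 248) (nat_lit 194)))) (XT.nd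 (nat_lit 78) (nat_lit 228) (nat_lit 0) (XT.lf (nat_lit 0) (nat_lit 11886989397) (nat_lit 228) (nat_lit 5134875541) (nat_lit 76) (nat_lit 565602939) (nat_lit 30) (nat_lit 5) (nat_lit 33) (nat_lit 5) (nat_lit 31) (nat_lit 4) (nat_lit 339) (nat_lit 248) (nat_lit 193)) (XT.nd (nat_lit 78) (nat_lit 76) (nat_lit 0) (XT.lf (nat_lit 0) (nat_lit 1635161005) (nat_lit 152) (nat_lit 13689683677) (nat_lit 228) (nat_lit 2662701053) (nat_lit 28) (nat_lit 5) (nat_lit 30) (nat_lit 5) (nat_lit 31) (nat_lit 4) (nat_lit 340) (nat_lit 248) (nat_lit 192)) (XT.lf (nat_lit 0) (nat_lit 474891072) (nat_lit 228) (nat_lit 9747345034) (nat_lit 76) (nat_lit 8176747875) (nat_lit 27) (nat_lit 5) (nat_lit 30) (nat_lit 5) (nat_lit 28) (nat_lit 5) (nat_lit 341) (nat_lit 248) (nat_lit 191))))) (XT.nd (nat_lit 234) (nat_lit 76) (nat_lit 0) (XT.nd (nat_lit 78) (nat_lit 152) (nat_lit 0) (XT.lf (nat_lit 0) (nat_lit 3619513933) (nat_lit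 228) (nat_lit 3026671263) (nat_lit 76) (nat_lit 12176821766) (nat_lit 27) (nat_lit 5) (nat_lit 30) (nat_lit 5) (nat_lit 28) (nat_lit 5) (nat_lit 342) (nat_lit 248) (nat_lit 190)) (XT.nd (nat_lit 78) (nat_lit 0) (nat_lit 0) (XT.lf (nat_lit 0) (nat_lit 3917550037) (nat_lit 152) (nat_lit 2945981994) (nat_lit 228) (nat_lit 12396091282) (nat_lit 25) (nat_lit 5) (nat_lit 27) (nat_lit 5) (nat_lit 28) (nat_lit 5) (nat_lit 343) (nat_lit 248) (nat_lit 189)) (XT.lf (nat_lit 0) (nat_lit 10211673437) (nat_lit 228) (nat_lit 8639661992) (nat_lit 76) (nat_lit 857822310) (nat_lit 25) (nat_lit 5) (nat_lit 28) (nat_lit 5) (nat_lit 26) (nat_lit 4) (nat_lit 344) (nat_lit 248) (nat_lit 188)))) (XT.nd (nat_lit 78) (nat_lit 76) (nat_lit 0) (XT.lf (nat_lit 0) (nat_lit 13657989955) (nat_lit 228) (nat_lit 1818514283) (nat_lit 76) (nat_lit 4695765009) (nat_lit 25) (nat_lit 5) (nat_lit 28) (nat_lit 5) (nat_lit 26) (nat_lit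 4) (nat_lit 345) (nat_lit 248) (nat_lit 187)) (XT.nd (nat_lit 78) (nat_lit 0) (nat_lit 0) (XT.lf (nat_lit 0) (nat_lit 5258256174) (nat_lit 76) (nat_lit 11969463750) (nat_lit 152) (nat_lit 3420975766) (nat_lit 24) (nat_lit 5) (nat_lit 25) (nat_lit 5) (nat_lit 26) (nat_lit 4) (nat_lit 346) (nat_lit 248) (nat_lit 186)) (XT.lf (nat_lit 0) (nat_lit 12533494376) (nat_lit 76) (nat_lit 8359286876) (nat_lit 152) (nat_lit 247008149) (nat_lit 24) (nat_lit 5) (nat_lit 25) (nat_lit 5) (nat_lit 26) (nat_lit 4) (nat_lit 347) (nat_lit 248) (nat_lit 185)))))) (XT.nd (nat_lit 468) (nat_lit 304) (nat_lit 0) (XT.nd (nat_lit 234) (nat_lit 76) (nat_lit 0) (XT.nd (nat_lit 78) (nat_lit 152) (nat_lit 0) (XT.lf (nat_lit 0) (nat_lit 2933648147) (nat_lit 152) (nat_lit 1697910277) (nat_lit 76) (nat_lit 17014093084) (nat_lit 23) (nat_lit 5) (nat_lit 25) (nat_lit 5) (nat_lit 24) (nat_lit 5) (nat_lit 348) (nat_lit 248) (nat_lit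 184)) (XT.nd (nat_lit 78) (nat_lit 0) (nat_lit 0) (XT.lf (nat_lit 0) (nat_lit 5473314516) (nat_lit 152) (nat_lit 755361962) (nat_lit 228) (nat_lit 15937241946) (nat_lit 21) (nat_lit 5) (nat_lit 23) (nat_lit 5) (nat_lit 24) (nat_lit 5) (nat_lit 349) (nat_lit 248) (nat_lit 183)) (XT.lf (nat_lit 0) (nat_lit 9642471932) (nat_lit 228) (nat_lit 9887053215) (nat_lit 76) (nat_lit 3171689954) (nat_lit 21) (nat_lit 5) (nat_lit 24) (nat_lit 5) (nat_lit 22) (nat_lit 4) (nat_lit 350) (nat_lit 248) (nat_lit 182)))) (XT.nd (nat_lit 78) (nat_lit 76) (nat_lit 0) (XT.lf (nat_lit 0) (nat_lit 13138474418) (nat_lit 228) (nat_lit 2932357401) (nat_lit 76) (nat_lit 7182363745) (nat_lit 21) (nat_lit 5) (nat_lit 24) (nat_lit 5) (nat_lit 22) (nat_lit 4) (nat_lit 351) (nat_lit 248) (nat_lit 181)) (XT.nd (nat_lit 78) (nat_lit 0) (nat_lit 0) (XT.lf (nat_lit 0) (nat_lit 4268107604) (nat_lit 76) (nat_lit 12485397752) (nat_lit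 152) (nat_lit 7067823773) (nat_lit 20) (nat_lit 5) (nat_lit 21) (nat_lit 5) (nat_lit 22) (nat_lit 4) (nat_lit 352) (nat_lit 248) (nat_lit 180)) (XT.lf (nat_lit 0) (nat_lit 11698991707) (nat_lit 76) (nat_lit 8781070838) (nat_lit 152) (nat_lit 3926369507) (nat_lit 20) (nat_lit 5) (nat_lit 21) (nat_lit 5) (nat_lit 22) (nat_lit 4) (nat_lit 353) (nat_lit 248) (nat_lit 179))))) (XT.nd (nat_lit 234) (nat_lit 76) (nat_lit 0) (XT.nd (nat_lit 78) (nat_lit 228) (nat_lit 0) (XT.lf (nat_lit 0) (nat_lit 19308428249) (nat_lit 76) (nat_lit 4984225347) (nat_lit 152) (nat_lit 717224449) (nat_lit 20) (nat_lit 5) (nat_lit 21) (nat_lit 5) (nat_lit 22) (nat_lit 4) (nat_lit 354) (nat_lit 248) (nat_lit 178)) (XT.nd (nat_lit 78) (nat_lit 0) (nat_lit 0) (XT.lf (nat_lit 0) (nat_lit 1475023373) (nat_lit 152) (nat_lit 1051569005) (nat_lit 228) (nat_lit 23104437704) (nat_lit 17) (nat_lit 5) (nat_lit 19) (nat_lit 5) (nat_lit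 20) (nat_lit 5) (nat_lit 355) (nat_lit 248) (nat_lit 177)) (XT.lf (nat_lit 0) (nat_lit 5915150246) (nat_lit 228) (nat_lit 17365687260) (nat_lit 76) (nat_lit 2987926522) (nat_lit 17) (nat_lit 5) (nat_lit 20) (nat_lit 5) (nat_lit 18) (nat_lit 4) (nat_lit 356) (nat_lit 248) (nat_lit 176)))) (XT.nd (nat_lit 78) (nat_lit 76) (nat_lit 0) (XT.lf (nat_lit 0) (nat_lit 9391378046) (nat_lit 228) (nat_lit 10424557684) (nat_lit 76) (nat_lit 7110129056) (nat_lit 17) (nat_lit 5) (nat_lit 20) (nat_lit 5) (nat_lit 18) (nat_lit 4) (nat_lit 357) (nat_lit 248) (nat_lit 175)) (XT.nd (nat_lit 78) (nat_lit 76) (nat_lit 0) (XT.lf (nat_lit 0) (nat_lit 12948204935) (nat_lit 228) (nat_lit 3316444593) (nat_lit 76) (nat_lit 11339160420) (nat_lit 17) (nat_lit 5) (nat_lit 20) (nat_lit 5) (nat_lit 18) (nat_lit 4) (nat_lit 358) (nat_lit 248) (nat_lit 174)) (XT.lf (nat_lit 0) (nat_lit 4043771532) (nat_lit 76) (nat_lit 12583838494)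 (nat_lit 152) (nat_lit 11673815556) (nat_lit 16) (nat_lit 5) (nat_lit 17) (nat_lit 5) (nat_lit 18) (nat_lit 4) (nat_lit 359) (nat_lit 248) (nat_lit 173))))))))
noncomputable def xc77 : XT := (XT.nd (nat_lit 1872) (nat_lit 304) (nat_lit 0) (XT.nd (nat_lit 936) (nat_lit 228) (nat_lit 0) (XT.nd (nat_lit 468) (nat_lit 76) (nat_lit 0) (XT.nd (nat_lit 234) (nat_lit 228) (nat_lit 0) (XT.nd (nat_lit 78) (nat_lit 0) (nat_lit 0) (XT.lf (nat_lit 0) (nat_lit 11653121735) (nat_lit 76) (nat_lit 8775055949) (nat_lit 152) (nat_lit 8591482489) (nat_lit 16) (nat_lit 5) (nat_lit 17) (nat_lit 5) (nat_lit 18) (nat_lit 4) (nat_lit 360) (nat_lit 248) (nat_lit 172)) (XT.nd (nat_lit 78) (nat_lit 0) (nat_lit 0) (XT.lf (nat_lit 0) (nat_lit 19452251213) (nat_lit 76) (nat_lit 4868463420) (nat_lit 152) (nat_lit 5439402099) (nat_lit 16) (nat_lit 5) (nat_lit 17) (nat_lit 5) (nat_lit 18) (nat_lit 4) (nat_lit 361) (nat_lit 248)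 (nat_lit 171)) (XT.lf (nat_lit 0) (nat_lit 27447974738) (nat_lit 76) (nat_lit 860647379) (nat_lit 152) (nat_lit 2214820140) (nat_lit 16) (nat_lit 5) (nat_lit 17) (nat_lit 5) (nat_lit 18) (nat_lit 4) (nat_lit 362) (nat_lit 248) (nat_lit 170)))) (XT.nd (nat_lit 78) (nat_lit 0) (nat_lit 0) (XT.lf (nat_lit 0) (nat_lit 1138106687) (nat_lit 228) (nat_lit 26927849355) (nat_lit 76) (nat_lit 3241808791) (nat_lit 13) (nat_lit 5) (nat_lit 16) (nat_lit 5) (nat_lit 14) (nat_lit 4) (nat_lit 363) (nat_lit 248) (nat_lit 169)) (XT.nd (nat_lit 78) (nat_lit 0) (nat_lit 0) (XT.lf (nat_lit 0) (nat_lit 4566102175) (nat_lit 228) (nat_lit 20060284373) (nat_lit 76) (nat_lit 7488014766) (nat_lit 13) (nat_lit 5) (nat_lit 16) (nat_lit 5) (nat_lit 14) (nat_lit 4) (nat_lit 364) (nat_lit 248) (nat_lit 168)) (XT.lf (nat_lit 0) (nat_lit 8076657534) (nat_lit 228) (nat_lit 13022464624) (nat_lit 76) (nat_lit 11846734774) (nat_lit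 13) (nat_lit 5) (nat_lit 16) (nat_lit 5) (nat_lit 14) (nat_lit 4) (nat_lit 365) (nat_lit 248) (nat_lit 167))))) (XT.nd (nat_lit 234) (nat_lit 0) (nat_lit 0) (XT.nd (nat_lit 78) (nat_lit 76) (nat_lit 0) (XT.lf (nat_lit 0) (nat_lit 11672840240) (nat_lit 228) (nat_lit 5808240557) (nat_lit 76) (nat_lit 16321777405) (nat_lit 13) (nat_lit 5) (nat_lit 16) (nat_lit 5) (nat_lit 14) (nat_lit 4) (nat_lit 366) (nat_lit 248) (nat_lit 166)) (XT.nd (nat_lit 78) (nat_lit 0) (nat_lit 0) (XT.lf (nat_lit 0) (nat_lit 1620309595) (nat_lit 76) (nat_lit 13753058399) (nat_lit 152) (nat_lit 19312318702) (nat_lit 12) (nat_lit 5) (nat_lit 13) (nat_lit 5) (nat_lit 14) (nat_lit 4) (nat_lit 367) (nat_lit 248) (nat_lit 165)) (XT.lf (nat_lit 0) (nat_lit 9357391352) (nat_lit 76) (nat_lit 9867292056) (nat_lit 152) (nat_lit 16369134136) (nat_lit 12) (nat_lit 5) (nat_lit 13) (nat_lit 5) (nat_lit 14) (nat_lit 4) (nat_lit 368) (nat_lit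 248) (nat_lit 164)))) (XT.nd (nat_lit 78) (nat_lit 0) (nat_lit 0) (XT.lf (nat_lit 0) (nat_lit 17294169895) (nat_lit 76) (nat_lit 5879038278) (nat_lit 152) (nat_lit 13356544391) (nat_lit 12) (nat_lit 5) (nat_lit 13) (nat_lit 5) (nat_lit 14) (nat_lit 4) (nat_lit 369) (nat_lit 248) (nat_lit 163)) (XT.nd (nat_lit 78) (nat_lit 0) (nat_lit 0) (XT.lf (nat_lit 0) (nat_lit 25437580273) (nat_lit 76) (nat_lit 1784812185) (nat_lit 152) (nat_lit 10271917108) (nat_lit 12) (nat_lit 5) (nat_lit 13) (nat_lit 5) (nat_lit 14) (nat_lit 4) (nat_lit 370) (nat_lit 248) (nat_lit 162)) (XT.lf (nat_lit 0) (nat_lit 31399026943) (nat_lit 152) (nat_lit 4716845837) (nat_lit 0) (nat_lit 2371761008) (nat_lit 12) (nat_lit 5) (nat_lit 14) (nat_lit 4) (nat_lit 12) (nat_lit 4) (nat_lit 371) (nat_lit 248) (nat_lit 161)))))) (XT.nd (nat_lit 468) (nat_lit 76) (nat_lit 0) (XT.nd (nat_lit 234) (nat_lit 0) (nat_lit 0) (XT.nd (nat_lit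 78) (nat_lit 76) (nat_lit 0) (XT.lf (nat_lit 0) (nat_lit 2851145102) (nat_lit 76) (nat_lit 32877995161) (nat_lit 76) (nat_lit 3780781545) (nat_lit 11) (nat_lit 4) (nat_lit 12) (nat_lit 5) (nat_lit 12) (nat_lit 4) (nat_lit 372) (nat_lit 248) (nat_lit 160)) (XT.nd (nat_lit 78) (nat_lit 76) (nat_lit 0) (XT.lf (nat_lit 0) (nat_lit 10713107405) (nat_lit 76) (nat_lit 29506988043) (nat_lit 76) (nat_lit 341864057) (nat_lit 11) (nat_lit 4) (nat_lit 12) (nat_lit 5) (nat_lit 12) (nat_lit 4) (nat_lit 373) (nat_lit 248) (nat_lit 159)) (XT.lf (nat_lit 0) (nat_lit 3121397669) (nat_lit 152) (nat_lit 22894619115) (nat_lit 76) (nat_lit 15629118602) (nat_lit 10) (nat_lit 5) (nat_lit 12) (nat_lit 5) (nat_lit 11) (nat_lit 4) (nat_lit 374) (nat_lit 248) (nat_lit 158)))) (XT.nd (nat_lit 78) (nat_lit 0) (nat_lit 0) (XT.lf (nat_lit 0) (nat_lit 6665787625) (nat_lit 152) (nat_lit 15763519540) (nat_lit 76) (nat_lit 20331883199)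 (nat_lit 10) (nat_lit 5) (nat_lit 12) (nat_lit 5) (nat_lit 11) (nat_lit 4) (nat_lit 375) (nat_lit 248) (nat_lit 157)) (XT.nd (nat_lit 78) (nat_lit 0) (nat_lit 0) (XT.lf (nat_lit 0) (nat_lit 10301073850) (nat_lit 152) (nat_lit 8446036113) (nat_lit 76) (nat_lit 25164088258) (nat_lit 10) (nat_lit 5) (nat_lit 12) (nat_lit 5) (nat_lit 11) (nat_lit 4) (nat_lit 376) (nat_lit 248) (nat_lit 156)) (XT.lf (nat_lit 0) (nat_lit 14030432807) (nat_lit 152) (nat_lit 935774915) (nat_lit 76) (nat_lit 30129956095) (nat_lit 10) (nat_lit 5) (nat_lit 12) (nat_lit 5) (nat_lit 11) (nat_lit 4) (nat_lit 377) (nat_lit 248) (nat_lit 155))))) (XT.nd (nat_lit 234) (nat_lit 0) (nat_lit 0) (XT.nd (nat_lit 78) (nat_lit 0) (nat_lit 0) (XT.lf (nat_lit 0) (nat_lit 6908638844) (nat_lit 76) (nat_lit 11014894377) (nat_lit 152) (nat_lit 28391597036) (nat_lit 9) (nat_lit 5) (nat_lit 10) (nat_lit 5) (nat_lit 11) (nat_lit 4) (nat_lit 378)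 (nat_lit 248) (nat_lit 154)) (XT.nd (nat_lit 78) (nat_lit 0) (nat_lit 0) (XT.lf (nat_lit 0) (nat_lit 14981854369) (nat_lit 76) (nat_lit 6946648995) (nat_lit 152) (nat_lit 25642317496) (nat_lit 9) (nat_lit 5) (nat_lit 10) (nat_lit 5) (nat_lit 11) (nat_lit 4) (nat_lit 379) (nat_lit 248) (nat_lit 153)) (XT.lf (nat_lit 0) (nat_lit 23272302170) (nat_lit 76) (nat_lit 2767366291) (nat_lit 152) (nat_lit 22824939602) (nat_lit 9) (nat_lit 5) (nat_lit 10) (nat_lit 5) (nat_lit 11) (nat_lit 4) (nat_lit 380) (nat_lit 248) (nat_lit 152)))) (XT.nd (nat_lit 78) (nat_lit 0) (nat_lit 0) (XT.lf (nat_lit 0) (nat_lit 30275295458) (nat_lit 152) (nat_lit 18425070696) (nat_lit 0) (nat_lit 1496815962) (nat_lit 9) (nat_lit 5) (nat_lit 11) (nat_lit 4) (nat_lit 9) (nat_lit 4) (nat_lit 381) (nat_lit 248) (nat_lit 151)) (XT.nd (nat_lit 78) (nat_lit 0) (nat_lit 0) (XT.lf (nat_lit 0) (nat_lit 34652138044) (nat_lit 152) (nat_lit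 11094050925) (nat_lit 0) (nat_lit 5823126856) (nat_lit 9) (nat_lit 5) (nat_lit 11) (nat_lit 4) (nat_lit 9) (nat_lit 4) (nat_lit 382) (nat_lit 248) (nat_lit 150)) (XT.lf (nat_lit 0) (nat_lit 39147419030) (nat_lit 152) (nat_lit 3566239218) (nat_lit 0) (nat_lit 10269347945) (nat_lit 9) (nat_lit 5) (nat_lit 11) (nat_lit 4) (nat_lit 9) (nat_lit 4) (nat_lit 383) (nat_lit 248) (nat_lit 149))))))) (XT.nd (nat_lit 936) (nat_lit 76) (nat_lit 0) (XT.nd (nat_lit 468) (nat_lit 76) (nat_lit 0) (XT.nd (nat_lit 234) (nat_lit 76) (nat_lit 0) (XT.nd (nat_lit 78) (nat_lit 0) (nat_lit 0) (XT.lf (nat_lit 0) (nat_lit 4247832639) (nat_lit 76) (nat_lit 39558066455) (nat_lit 76) (nat_lit 10632364404) (nat_lit 8) (nat_lit 4) (nat_lit 9) (nat_lit 5) (nat_lit 9) (nat_lit 4) (nat_lit 384) (nat_lit 248) (nat_lit 148)) (XT.nd (nat_lit 78) (nat_lit 0) (nat_lit 0) (XT.lf (nat_lit 0) (nat_lit 12347186588) (nat_lit 76) (nat_lit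 36280616902) (nat_lit 76) (nat_lit 7308671193) (nat_lit 8) (nat_lit 4) (nat_lit 9) (nat_lit 5) (nat_lit 9) (nat_lit 4) (nat_lit 385) (nat_lit 248) (nat_lit 147)) (XT.lf (nat_lit 0) (nat_lit 20667924580) (nat_lit 76) (nat_lit 32914457821) (nat_lit 76) (nat_lit 3897615357) (nat_lit 8) (nat_lit 4) (nat_lit 9) (nat_lit 5) (nat_lit 9) (nat_lit 4) (nat_lit 386) (nat_lit 248) (nat_lit 146)))) (XT.nd (nat_lit 78) (nat_lit 76) (nat_lit 0) (XT.lf (nat_lit 0) (nat_lit 29217317162) (nat_lit 76) (nat_lit 29456647908) (nat_lit 76) (nat_lit 396216361) (nat_lit 8) (nat_lit 4) (nat_lit 9) (nat_lit 5) (nat_lit 9) (nat_lit 4) (nat_lit 387) (nat_lit 248) (nat_lit 145)) (XT.nd (nat_lit 78) (nat_lit 0) (nat_lit 0) (XT.lf (nat_lit 0) (nat_lit 3136169348) (nat_lit 152) (nat_lit 22736327266) (nat_lit 76) (nat_lit 34834996169) (nat_lit 7) (nat_lit 5) (nat_lit 9) (nat_lit 5) (nat_lit 8) (nat_lit 4) (nat_lit 388) (nat_lit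 248) (nat_lit 144)) (XT.lf (nat_lit 0) (nat_lit 6755483257) (nat_lit 152) (nat_lit 15430206921) (nat_lit 76) (nat_lit 40208453402) (nat_lit 7) (nat_lit 5) (nat_lit 9) (nat_lit 5) (nat_lit 8) (nat_lit 4) (nat_lit 389) (nat_lit 248) (nat_lit 143))))) (XT.nd (nat_lit 234) (nat_lit 0) (nat_lit 0) (XT.nd (nat_lit 78) (nat_lit 76) (nat_lit 0) (XT.lf (nat_lit 0) (nat_lit 10472619481) (nat_lit 152) (nat_lit 7924310572) (nat_lit 76) (nat_lit 45734791803) (nat_lit 7) (nat_lit 5) (nat_lit 9) (nat_lit 5) (nat_lit 8) (nat_lit 4) (nat_lit 390) (nat_lit 248) (nat_lit 142)) (XT.nd (nat_lit 78) (nat_lit 76) (nat_lit 0) (XT.lf (nat_lit 0) (nat_lit 14290826002) (nat_lit 152) (nat_lit 212079669) (nat_lit 76) (nat_lit 51418840210) (nat_lit 7) (nat_lit 5) (nat_lit 9) (nat_lit 5) (nat_lit 8) (nat_lit 4) (nat_lit 391) (nat_lit 248) (nat_lit 141)) (XT.lf (nat_lit 0) (nat_lit 7866732924) (nat_lit 76) (nat_lit 10422326043)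 (nat_lit 152) (nat_lit 49474452194) (nat_lit 6) (nat_lit 5) (nat_lit 7) (nat_lit 5) (nat_lit 8) (nat_lit 4) (nat_lit 392) (nat_lit 248) (nat_lit 140)))) (XT.nd (nat_lit 78) (nat_lit 0) (nat_lit 0) (XT.lf (nat_lit 0) (nat_lit 16174143140) (nat_lit 76) (nat_lit 6225218973) (nat_lit 152) (nat_lit 47261408387) (nat_lit 6) (nat_lit 5) (nat_lit 7) (nat_lit 5) (nat_lit 8) (nat_lit 4) (nat_lit 393) (nat_lit 248) (nat_lit 139)) (XT.nd (nat_lit 78) (nat_lit 0) (nat_lit 0) (XT.lf (nat_lit 0) (nat_lit 24713189077) (nat_lit 76) (nat_lit 1910058676) (nat_lit 152) (nat_lit 44991996321) (nat_lit 6) (nat_lit 5) (nat_lit 7) (nat_lit 5) (nat_lit 8) (nat_lit 4) (nat_lit 394) (nat_lit 248) (nat_lit 138)) (XT.lf (nat_lit 0) (nat_lit 30988697015) (nat_lit 152) (nat_lit 40161597989) (nat_lit 0) (nat_lit 2477615960) (nat_lit 6) (nat_lit 5) (nat_lit 8) (nat_lit 4) (nat_lit 6) (nat_lit 4) (nat_lit 395) (nat_lit 248) (nat_lit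 137)))))) (XT.nd (nat_lit 31746) (nat_lit 0) (nat_lit 12008) (XT.nd (nat_lit 234) (nat_lit 76) (nat_lit 0) (XT.nd (nat_lit 78) (nat_lit 0) (nat_lit 0) (XT.lf (nat_lit 0) (nat_lit 35494781756) (nat_lit 152) (nat_lit 33254624004) (nat_lit 0) (nat_lit 6951266330) (nat_lit 6) (nat_lit 5) (nat_lit 8) (nat_lit 4) (nat_lit 6) (nat_lit 4) (nat_lit 396) (nat_lit 248) (nat_lit 136)) (XT.nd (nat_lit 78) (nat_lit 0) (nat_lit 0) (XT.lf (nat_lit 0) (nat_lit 40127078680) (nat_lit 152) (nat_lit 26156737171) (nat_lit 0) (nat_lit 11552073573) (nat_lit 6) (nat_lit 5) (nat_lit 8) (nat_lit 4) (nat_lit 6) (nat_lit 4) (nat_lit 397) (nat_lit 248) (nat_lit 135)) (XT.lf (nat_lit 0) (nat_lit 44889635423) (nat_lit 152) (nat_lit 18861735451) (nat_lit 0) (nat_lit 16284057811) (nat_lit 6) (nat_lit 5) (nat_lit 8) (nat_lit 4) (nat_lit 6) (nat_lit 4) (nat_lit 398) (nat_lit 248) (nat_lit 134)))) (XT.nd (nat_lit 78) (nat_lit 76)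 (nat_lit 0) (XT.lf (nat_lit 0) (nat_lit 49786613445) (nat_lit 152) (nat_lit 11363244572) (nat_lit 0) (nat_lit 21151353789) (nat_lit 6) (nat_lit 5) (nat_lit 8) (nat_lit 4) (nat_lit 6) (nat_lit 4) (nat_lit 399) (nat_lit 248) (nat_lit 133)) (XT.nd (nat_lit 156) (nat_lit 76) (nat_lit 0) (XT.lf (nat_lit 0) (nat_lit 54822291657) (nat_lit 152) (nat_lit 3654712455) (nat_lit 0) (nat_lit 26158214483) (nat_lit 6) (nat_lit 5) (nat_lit 8) (nat_lit 4) (nat_lit 6) (nat_lit 4) (nat_lit 400) (nat_lit 248) (nat_lit 132)) (XT.lf (nat_lit 0) (nat_lit 12666781893) (nat_lit 76) (nat_lit 52782453085) (nat_lit 76) (nat_lit 24063234462) (nat_lit 5) (nat_lit 4) (nat_lit 6) (nat_lit 5) (nat_lit 6) (nat_lit 4) (nat_lit 402) (nat_lit 248) (nat_lit 130))))) (XT.nd (nat_lit 234) (nat_lit 2356) (nat_lit 0) (XT.nd (nat_lit 78) (nat_lit 988) (nat_lit 0) (XT.lf (nat_lit 0) (nat_lit 53646659) (nat_lit 988) (nat_lit 3396434655) (nat_lit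 0) (nat_lit 53646659) (nat_lit 207) (nat_lit 5) (nat_lit 220) (nat_lit 4) (nat_lit 207) (nat_lit 4) (nat_lit 282) (nat_lit 249) (nat_lit 249)) (XT.nd (nat_lit 78) (nat_lit 988) (nat_lit 0) (XT.lf (nat_lit 0) (nat_lit 3184094417) (nat_lit 988) (nat_lit 2396000759) (nat_lit 0) (nat_lit 1481176993) (nat_lit 207) (nat_lit 5) (nat_lit 220) (nat_lit 4) (nat_lit 207) (nat_lit 4) (nat_lit 283) (nat_lit 249) (nat_lit 248)) (XT.lf (nat_lit 0) (nat_lit 2084555849) (nat_lit 988) (nat_lit 4195401676) (nat_lit 988) (nat_lit 839166363) (nat_lit 194) (nat_lit 4) (nat_lit 207) (nat_lit 5) (nat_lit 207) (nat_lit 4) (nat_lit 284) (nat_lit 249) (nat_lit 247)))) (XT.nd (nat_lit 78) (nat_lit 2280) (nat_lit 0) (XT.lf (nat_lit 0) (nat_lit 2177206638) (nat_lit 1064) (nat_lit 541668834) (nat_lit 76) (nat_lit 4461428994) (nat_lit 193) (nat_lit 5) (nat_lit 207) (nat_lit 5) (nat_lit 194) (nat_lit 4) (nat_lit 285) (nat_lit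 249) (nat_lit 246)) (XT.nd (nat_lit 78) (nat_lit 1216) (nat_lit 0) (XT.lf (nat_lit 0) (nat_lit 4069670216) (nat_lit 1064) (nat_lit 1146822003) (nat_lit 1140) (nat_lit 2028305115) (nat_lit 179) (nat_lit 5) (nat_lit 193) (nat_lit 5) (nat_lit 194) (nat_lit 4) (nat_lit 286) (nat_lit 249) (nat_lit 245)) (XT.lf (nat_lit 0) (nat_lit 950696553) (nat_lit 1216) (nat_lit 5868949166) (nat_lit 76) (nat_lit 493418313) (nat_lit 163) (nat_lit 5) (nat_lit 179) (nat_lit 5) (nat_lit 164) (nat_lit 4) (nat_lit 287) (nat_lit 249) (nat_lit 244))))))))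
noncomputable def xc78 : XT := (XT.nd (nat_lit 1794) (nat_lit 3192) (nat_lit 0) (XT.nd (nat_lit 858) (nat_lit 2736) (nat_lit 0) (XT.nd (nat_lit 390) (nat_lit 1976) (nat_lit 0) (XT.nd (nat_lit 156) (nat_lit 1292) (nat_lit 0) (XT.nd (nat_lit 78) (nat_lit 532) (nat_lit 0) (XT.lf (nat_lit 0) (nat_lit 3934670496) (nat_lit 1216) (nat_lit 1237648596) (nat_lit 76) (nat_lit 2211953484) (nat_lit 163) (nat_lit 5) (nat_lit 179) (nat_lit 5) (nat_lit 164) (nat_lit 4) (nat_lit 288) (nat_lit 249) (nat_lit 243)) (XT.lf (nat_lit 0) (nat_lit 3513285226) (nat_lit 532) (nat_lit 3443829371) (nat_lit 608) (nat_lit 502216180) (nat_lit 156) (nat_lit 5) (nat_lit 163) (nat_lit 5) (nat_lit 164) (nat_lit 4) (nat_lit 289) (nat_lit 249) (nat_lit 242))) (XT.nd (nat_lit 78) (nat_lit 608) (nat_lit 0) (XT.lf (nat_lit 0) (nat_lit 798099361) (nat_lit 608) (nat_lit 1622162310) (nat_lit 684) (nat_lit 5117736607) (nat_lit 147) (nat_lit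 5) (nat_lit 155) (nat_lit 5) (nat_lit 156) (nat_lit 5) (nat_lit 290) (nat_lit 249) (nat_lit 241)) (XT.nd (nat_lit 78) (nat_lit 608) (nat_lit 0) (XT.lf (nat_lit 0) (nat_lit 5380375588) (nat_lit 684) (nat_lit 1950750716) (nat_lit 76) (nat_lit 289115146) (nat_lit 147) (nat_lit 5) (nat_lit 156) (nat_lit 5) (nat_lit 148) (nat_lit 4) (nat_lit 291) (nat_lit 249) (nat_lit 240)) (XT.lf (nat_lit 0) (nat_lit 673747114) (nat_lit 608) (nat_lit 4777437952) (nat_lit 76) (nat_lit 2254808682) (nat_lit 139) (nat_lit 5) (nat_lit 147) (nat_lit 5) (nat_lit 140) (nat_lit 5) (nat_lit 292) (nat_lit 249) (nat_lit 239))))) (XT.nd (nat_lit 234) (nat_lit 912) (nat_lit 0) (XT.nd (nat_lit 78) (nat_lit 532) (nat_lit 0) (XT.lf (nat_lit 0) (nat_lit 91101485) (nat_lit 532) (nat_lit 3479761248) (nat_lit 608) (nat_lit 4224709536) (nat_lit 132) (nat_lit 5) (nat_lit 139) (nat_lit 5) (nat_lit 140) (nat_lit 5) (nat_lit 293) (nat_lit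 249) (nat_lit 238)) (XT.nd (nat_lit 78) (nat_lit 532) (nat_lit 0) (XT.lf (nat_lit 0) (nat_lit 5115693916) (nat_lit 532) (nat_lit 1409259270) (nat_lit 608) (nat_lit 1363931043) (nat_lit 132) (nat_lit 5) (nat_lit 139) (nat_lit 5) (nat_lit 140) (nat_lit 5) (nat_lit 294) (nat_lit 249) (nat_lit 237)) (XT.lf (nat_lit 0) (nat_lit 1503815617) (nat_lit 532) (nat_lit 5745921931) (nat_lit 76) (nat_lit 736380172) (nat_lit 125) (nat_lit 5) (nat_lit 132) (nat_lit 5) (nat_lit 126) (nat_lit 5) (nat_lit 295) (nat_lit 249) (nat_lit 236)))) (XT.nd (nat_lit 78) (nat_lit 912) (nat_lit 0) (XT.lf (nat_lit 0) (nat_lit 4396922988) (nat_lit 532) (nat_lit 740813954) (nat_lit 76) (nat_lit 2949259259) (nat_lit 125) (nat_lit 5) (nat_lit 132) (nat_lit 5) (nat_lit 126) (nat_lit 5) (nat_lit 296) (nat_lit 249) (nat_lit 235)) (XT.nd (nat_lit 78) (nat_lit 456) (nat_lit 0) (XT.lf (nat_lit 0) (nat_lit 4414688477) (nat_lit 456) (nat_lit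 2931278451) (nat_lit 532) (nat_lit 845991237) (nat_lit 119) (nat_lit 5) (nat_lit 125) (nat_lit 5) (nat_lit 126) (nat_lit 5) (nat_lit 297) (nat_lit 249) (nat_lit 234)) (XT.lf (nat_lit 0) (nat_lit 1359998664) (nat_lit 380) (nat_lit 630573607) (nat_lit 456) (nat_lit 6310585371) (nat_lit 113) (nat_lit 5) (nat_lit 118) (nat_lit 5) (nat_lit 119) (nat_lit 5) (nat_lit 298) (nat_lit 249) (nat_lit 233)))))) (XT.nd (nat_lit 468) (nat_lit 1368) (nat_lit 0) (XT.nd (nat_lit 234) (nat_lit 456) (nat_lit 0) (XT.nd (nat_lit 78) (nat_lit 912) (nat_lit 0) (XT.lf (nat_lit 0) (nat_lit 4878812563) (nat_lit 456) (nat_lit 1797060371) (nat_lit 76) (nat_lit 1738121656) (nat_lit 113) (nat_lit 5) (nat_lit 119) (nat_lit 5) (nat_lit 114) (nat_lit 5) (nat_lit 299) (nat_lit 249) (nat_lit 232)) (XT.nd (nat_lit 78) (nat_lit 456) (nat_lit 0) (XT.lf (nat_lit 0) (nat_lit 3477624152) (nat_lit 456) (nat_lit 4346180299) (nat_lit 532)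 (nat_lit 707425838) (nat_lit 107) (nat_lit 5) (nat_lit 113) (nat_lit 5) (nat_lit 114) (nat_lit 5) (nat_lit 300) (nat_lit 249) (nat_lit 231)) (XT.lf (nat_lit 0) (nat_lit 192320314) (nat_lit 380) (nat_lit 1920845122) (nat_lit 456) (nat_lit 6539760779) (nat_lit 101) (nat_lit 5) (nat_lit 106) (nat_lit 5) (nat_lit 107) (nat_lit 5) (nat_lit 301) (nat_lit 249) (nat_lit 230)))) (XT.nd (nat_lit 78) (nat_lit 456) (nat_lit 0) (XT.lf (nat_lit 0) (nat_lit 4993129219) (nat_lit 456) (nat_lit 3177722556) (nat_lit 76) (nat_lit 607648780) (nat_lit 101) (nat_lit 5) (nat_lit 107) (nat_lit 5) (nat_lit 102) (nat_lit 5) (nat_lit 302) (nat_lit 249) (nat_lit 229)) (XT.nd (nat_lit 78) (nat_lit 76) (nat_lit 0) (XT.lf (nat_lit 0) (nat_lit 2203015206) (nat_lit 380) (nat_lit 5730543235) (nat_lit 456) (nat_lit 975165442) (nat_lit 96) (nat_lit 5) (nat_lit 101) (nat_lit 5) (nat_lit 102) (nat_lit 5) (nat_lit 303) (nat_lit 249)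 (nat_lit 228)) (XT.lf (nat_lit 0) (nat_lit 1848549655) (nat_lit 456) (nat_lit 1335523083) (nat_lit 76) (nat_lit 5859325776) (nat_lit 95) (nat_lit 5) (nat_lit 101) (nat_lit 5) (nat_lit 96) (nat_lit 5) (nat_lit 304) (nat_lit 249) (nat_lit 227))))) (XT.nd (nat_lit 234) (nat_lit 608) (nat_lit 0) (XT.nd (nat_lit 78) (nat_lit 456) (nat_lit 0) (XT.lf (nat_lit 0) (nat_lit 4185080434) (nat_lit 304) (nat_lit 528690433) (nat_lit 380) (nat_lit 4468855977) (nat_lit 91) (nat_lit 5) (nat_lit 95) (nat_lit 5) (nat_lit 96) (nat_lit 5) (nat_lit 305) (nat_lit 249) (nat_lit 226)) (XT.nd (nat_lit 78) (nat_lit 76) (nat_lit 0) (XT.lf (nat_lit 0) (nat_lit 477344911) (nat_lit 380) (nat_lit 7164074089) (nat_lit 456) (nat_lit 1685411097) (nat_lit 86) (nat_lit 5) (nat_lit 91) (nat_lit 5) (nat_lit 92) (nat_lit 5) (nat_lit 306) (nat_lit 249) (nat_lit 225)) (XT.lf (nat_lit 0) (nat_lit 1152070158) (nat_lit 456) (nat_lit 3356201158)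 (nat_lit 76) (nat_lit 4967026619) (nat_lit 85) (nat_lit 5) (nat_lit 91) (nat_lit 5) (nat_lit 86) (nat_lit 5) (nat_lit 307) (nat_lit 249) (nat_lit 224)))) (XT.nd (nat_lit 78) (nat_lit 304) (nat_lit 0) (XT.lf (nat_lit 0) (nat_lit 2247307830) (nat_lit 304) (nat_lit 1754308472) (nat_lit 380) (nat_lit 5627362782) (nat_lit 81) (nat_lit 5) (nat_lit 85) (nat_lit 5) (nat_lit 86) (nat_lit 5) (nat_lit 308) (nat_lit 249) (nat_lit 223)) (XT.nd (nat_lit 78) (nat_lit 304) (nat_lit 0) (XT.lf (nat_lit 0) (nat_lit 6921281179) (nat_lit 380) (nat_lit 1791882560) (nat_lit 76) (nat_lit 1074649860) (nat_lit 81) (nat_lit 5) (nat_lit 86) (nat_lit 5) (nat_lit 82) (nat_lit 5) (nat_lit 309) (nat_lit 249) (nat_lit 222)) (XT.lf (nat_lit 0) (nat_lit 3945007318) (nat_lit 304) (nat_lit 5980569675) (nat_lit 380) (nat_lit 26004443) (nat_lit 77) (nat_lit 5) (nat_lit 81) (nat_lit 5) (nat_lit 82) (nat_lit 5) (nat_lit 310) (nat_lit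 249) (nat_lit 221))))))) (XT.nd (nat_lit 936) (nat_lit 1292) (nat_lit 0) (XT.nd (nat_lit 468) (nat_lit 912) (nat_lit 0) (XT.nd (nat_lit 234) (nat_lit 304) (nat_lit 0) (XT.nd (nat_lit 78) (nat_lit 608) (nat_lit 0) (XT.lf (nat_lit 0) (nat_lit 2803468447) (nat_lit 380) (nat_lit 337683510) (nat_lit 76) (nat_lit 6979539679) (nat_lit 76) (nat_lit 5) (nat_lit 81) (nat_lit 5) (nat_lit 77) (nat_lit 5) (nat_lit 311) (nat_lit 249) (nat_lit 220)) (XT.nd (nat_lit 78) (nat_lit 304) (nat_lit 0) (XT.lf (nat_lit 0) (nat_lit 5530641467) (nat_lit 304) (nat_lit 183553247) (nat_lit 380) (nat_lit 4580838718) (nat_lit 72) (nat_lit 5) (nat_lit 76) (nat_lit 5) (nat_lit 77) (nat_lit 5) (nat_lit 312) (nat_lit 249) (nat_lit 219)) (XT.lf (nat_lit 0) (nat_lit 1020752196) (nat_lit 304) (nat_lit 7676673832) (nat_lit 380) (nat_lit 1777694604) (nat_lit 68) (nat_lit 5) (nat_lit 72) (nat_lit 5) (nat_lit 73) (nat_lit 5) (nat_lit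 313) (nat_lit 249) (nat_lit 218)))) (XT.nd (nat_lit 78) (nat_lit 228) (nat_lit 0) (XT.lf (nat_lit 0) (nat_lit 1082963757) (nat_lit 380) (nat_lit 3674452296) (nat_lit 76) (nat_lit 5903088889) (nat_lit 67) (nat_lit 5) (nat_lit 72) (nat_lit 5) (nat_lit 68) (nat_lit 5) (nat_lit 314) (nat_lit 249) (nat_lit 217)) (XT.nd (nat_lit 78) (nat_lit 0) (nat_lit 0) (XT.lf (nat_lit 0) (nat_lit 2227600844) (nat_lit 228) (nat_lit 1733802242) (nat_lit 304) (nat_lit 6890553586) (nat_lit 64) (nat_lit 5) (nat_lit 67) (nat_lit 5) (nat_lit 68) (nat_lit 5) (nat_lit 315) (nat_lit 249) (nat_lit 216)) (XT.lf (nat_lit 0) (nat_lit 6923821066) (nat_lit 304) (nat_lit 2757434049) (nat_lit 76) (nat_lit 1368030847) (nat_lit 64) (nat_lit 5) (nat_lit 68) (nat_lit 5) (nat_lit 65) (nat_lit 5) (nat_lit 316) (nat_lit 249) (nat_lit 215))))) (XT.nd (nat_lit 234) (nat_lit 304) (nat_lit 0) (XT.nd (nat_lit 78) (nat_lit 304) (nat_lit 0) (XT.lf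 (nat_lit 0) (nat_lit 3256342174) (nat_lit 304) (nat_lit 6715667752) (nat_lit 380) (nat_lit 1280679197) (nat_lit 60) (nat_lit 5) (nat_lit 64) (nat_lit 5) (nat_lit 65) (nat_lit 5) (nat_lit 317) (nat_lit 249) (nat_lit 214)) (XT.nd (nat_lit 78) (nat_lit 228) (nat_lit 0) (XT.lf (nat_lit 0) (nat_lit 1594036021) (nat_lit 380) (nat_lit 2046302563) (nat_lit 76) (nat_lit 7822134394) (nat_lit 59) (nat_lit 5) (nat_lit 64) (nat_lit 5) (nat_lit 60) (nat_lit 5) (nat_lit 318) (nat_lit 249) (nat_lit 213)) (XT.lf (nat_lit 0) (nat_lit 4075430569) (nat_lit 228) (nat_lit 443145132) (nat_lit 304) (nat_lit 7159970317) (nat_lit 56) (nat_lit 5) (nat_lit 59) (nat_lit 5) (nat_lit 60) (nat_lit 5) (nat_lit 319) (nat_lit 249) (nat_lit 212)))) (XT.nd (nat_lit 78) (nat_lit 304) (nat_lit 0) (XT.lf (nat_lit 0) (nat_lit 7529785033) (nat_lit 304) (nat_lit 1579553478) (nat_lit 76) (nat_lit 2791848883) (nat_lit 56) (nat_lit 5) (nat_lit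 60) (nat_lit 5) (nat_lit 57) (nat_lit 5) (nat_lit 320) (nat_lit 249) (nat_lit 211)) (XT.nd (nat_lit 78) (nat_lit 76) (nat_lit 0) (XT.lf (nat_lit 0) (nat_lit 4638774312) (nat_lit 228) (nat_lit 5993641077) (nat_lit 304) (nat_lit 1498112648) (nat_lit 53) (nat_lit 5) (nat_lit 56) (nat_lit 5) (nat_lit 57) (nat_lit 5) (nat_lit 321) (nat_lit 249) (nat_lit 210)) (XT.lf (nat_lit 0) (nat_lit 1401265530) (nat_lit 304) (nat_lit 1376809694) (nat_lit 76) (nat_lit 9589249605) (nat_lit 52) (nat_lit 5) (nat_lit 56) (nat_lit 5) (nat_lit 53) (nat_lit 5) (nat_lit 322) (nat_lit 249) (nat_lit 209)))))) (XT.nd (nat_lit 468) (nat_lit 608) (nat_lit 0) (XT.nd (nat_lit 234) (nat_lit 228) (nat_lit 0) (XT.nd (nat_lit 78) (nat_lit 228) (nat_lit 0) (XT.lf (nat_lit 0) (nat_lit 4364137487) (nat_lit 304) (nat_lit 7683566126) (nat_lit 76) (nat_lit 562926345) (nat_lit 49) (nat_lit 5) (nat_lit 53) (nat_lit 5) (nat_lit 50) (nat_lit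 5) (nat_lit 323) (nat_lit 249) (nat_lit 208)) (XT.nd (nat_lit 78) (nat_lit 228) (nat_lit 0) (XT.lf (nat_lit 0) (nat_lit 7411579649) (nat_lit 304) (nat_lit 1510937735) (nat_lit 76) (nat_lit 3938893045) (nat_lit 49) (nat_lit 5) (nat_lit 53) (nat_lit 5) (nat_lit 50) (nat_lit 5) (nat_lit 324) (nat_lit 249) (nat_lit 207)) (XT.lf (nat_lit 0) (nat_lit 4873271331) (nat_lit 228) (nat_lit 5679492024) (nat_lit 304) (nat_lit 2566926756) (nat_lit 46) (nat_lit 5) (nat_lit 49) (nat_lit 5) (nat_lit 50) (nat_lit 5) (nat_lit 325) (nat_lit 249) (nat_lit 206)))) (XT.nd (nat_lit 78) (nat_lit 152) (nat_lit 0) (XT.lf (nat_lit 0) (nat_lit 365658231) (nat_lit 304) (nat_lit 1978246255) (nat_lit 76) (nat_lit 11042608960) (nat_lit 45) (nat_lit 5) (nat_lit 49) (nat_lit 5) (nat_lit 46) (nat_lit 5) (nat_lit 326) (nat_lit 249) (nat_lit 205)) (XT.nd (nat_lit 78) (nat_lit 0) (nat_lit 0) (XT.lf (nat_lit 0) (nat_lit 3345497703)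 (nat_lit 228) (nat_lit 9198663735) (nat_lit 76) (nat_lit 1116133000) (nat_lit 43) (nat_lit 5) (nat_lit 46) (nat_lit 5) (nat_lit 44) (nat_lit 5) (nat_lit 327) (nat_lit 249) (nat_lit 204)) (XT.lf (nat_lit 0) (nat_lit 6415432648) (nat_lit 228) (nat_lit 2897204075) (nat_lit 76) (nat_lit 4629671419) (nat_lit 43) (nat_lit 5) (nat_lit 46) (nat_lit 5) (nat_lit 44) (nat_lit 5) (nat_lit 328) (nat_lit 249) (nat_lit 203))))) (XT.nd (nat_lit 234) (nat_lit 152) (nat_lit 0) (XT.nd (nat_lit 78) (nat_lit 228) (nat_lit 0) (XT.lf (nat_lit 0) (nat_lit 3598107701) (nat_lit 228) (nat_lit 5972507404) (nat_lit 304) (nat_lit 4662411783) (nat_lit 40) (nat_lit 5) (nat_lit 43) (nat_lit 5) (nat_lit 44) (nat_lit 5) (nat_lit 329) (nat_lit 249) (nat_lit 202)) (XT.nd (nat_lit 78) (nat_lit 228) (nat_lit 0) (XT.lf (nat_lit 0) (nat_lit 10282906173) (nat_lit 228) (nat_lit 2525949584) (nat_lit 304) (nat_lit 1723997337) (nat_lit 40)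 (nat_lit 5) (nat_lit 43) (nat_lit 5) (nat_lit 44) (nat_lit 5) (nat_lit 330) (nat_lit 249) (nat_lit 201)) (XT.lf (nat_lit 0) (nat_lit 1269080338) (nat_lit 228) (nat_lit 12556704162) (nat_lit 76) (nat_lit 1015791892) (nat_lit 37) (nat_lit 5) (nat_lit 40) (nat_lit 5) (nat_lit 38) (nat_lit 5) (nat_lit 331) (nat_lit 249) (nat_lit 200)))) (XT.nd (nat_lit 78) (nat_lit 152) (nat_lit 0) (XT.lf (nat_lit 0) (nat_lit 4345892738) (nat_lit 228) (nat_lit 6162001384) (nat_lit 76) (nat_lit 4650332152) (nat_lit 37) (nat_lit 5) (nat_lit 40) (nat_lit 5) (nat_lit 38) (nat_lit 5) (nat_lit 332) (nat_lit 249) (nat_lit 199)) (XT.nd (nat_lit 78) (nat_lit 0) (nat_lit 0) (XT.lf (nat_lit 0) (nat_lit 369540348) (nat_lit 152) (nat_lit 7110421980) (nat_lit 228) (nat_lit 8005498483) (nat_lit 35) (nat_lit 5) (nat_lit 37) (nat_lit 5) (nat_lit 38) (nat_lit 5) (nat_lit 333) (nat_lit 249) (nat_lit 198)) (XT.lf (nat_lit 0) (nat_lit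 7161740062) (nat_lit 152) (nat_lit 3570470735) (nat_lit 228) (nat_lit 5089609644) (nat_lit 35) (nat_lit 5) (nat_lit 37) (nat_lit 5) (nat_lit 38) (nat_lit 5) (nat_lit 334) (nat_lit 249) (nat_lit 197))))))))
noncomputable def xc79 : XT := (XT.nd (nat_lit 1872) (nat_lit 608) (nat_lit 0) (XT.nd (nat_lit 936) (nat_lit 532) (nat_lit 0) (XT.nd (nat_lit 468) (nat_lit 456) (nat_lit 0) (XT.nd (nat_lit 234) (nat_lit 152) (nat_lit 0) (XT.nd (nat_lit 78) (nat_lit 228) (nat_lit 0) (XT.lf (nat_lit 0) (nat_lit 14045575957) (nat_lit 228) (nat_lit 2072022465) (nat_lit 76) (nat_lit 51797765) (nat_lit 35) (nat_lit 5) (nat_lit 38) (nat_lit 5) (nat_lit 36) (nat_lit 4) (nat_lit 335) (nat_lit 249) (nat_lit 196)) (XT.nd (nat_lit 78) (nat_lit 0) (nat_lit 0) (XT.lf (nat_lit 0) (nat_lit 957731277) (nat_lit 228) (nat_lit 11824183953) (nat_lit 76) (nat_lit 3743896857) (nat_lit 32) (nat_lit 5) (nat_lit 35) (nat_lit 5) (nat_lit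 33) (nat_lit 5) (nat_lit 336) (nat_lit 249) (nat_lit 195)) (XT.lf (nat_lit 0) (nat_lit 4074185985) (nat_lit 228) (nat_lit 5251693508) (nat_lit 76) (nat_lit 7566884942) (nat_lit 32) (nat_lit 5) (nat_lit 35) (nat_lit 5) (nat_lit 33) (nat_lit 5) (nat_lit 337) (nat_lit 249) (nat_lit 194)))) (XT.nd (nat_lit 78) (nat_lit 0) (nat_lit 0) (XT.lf (nat_lit 0) (nat_lit 1489633611) (nat_lit 152) (nat_lit 5773880974) (nat_lit 228) (nat_lit 10007857619) (nat_lit 30) (nat_lit 5) (nat_lit 32) (nat_lit 5) (nat_lit 33) (nat_lit 5) (nat_lit 338) (nat_lit 249) (nat_lit 193)) (XT.nd (nat_lit 78) (nat_lit 0) (nat_lit 0) (XT.lf (nat_lit 0) (nat_lit 8484011763) (nat_lit 152) (nat_lit 2083075296) (nat_lit 228) (nat_lit 7093721662) (nat_lit 30) (nat_lit 5) (nat_lit 32) (nat_lit 5) (nat_lit 33) (nat_lit 5) (nat_lit 339) (nat_lit 249) (nat_lit 192)) (XT.lf (nat_lit 0) (nat_lit 13952612848) (nat_lit 228) (nat_lit 2446235360)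 (nat_lit 76) (nat_lit 1663621378) (nat_lit 30) (nat_lit 5) (nat_lit 33) (nat_lit 5) (nat_lit 31) (nat_lit 4) (nat_lit 340) (nat_lit 249) (nat_lit 191))))) (XT.nd (nat_lit 234) (nat_lit 228) (nat_lit 0) (XT.nd (nat_lit 78) (nat_lit 76) (nat_lit 0) (XT.lf (nat_lit 0) (nat_lit 4499032807) (nat_lit 152) (nat_lit 12971851628) (nat_lit 228) (nat_lit 1004386303) (nat_lit 28) (nat_lit 5) (nat_lit 30) (nat_lit 5) (nat_lit 31) (nat_lit 4) (nat_lit 341) (nat_lit 249) (nat_lit 190)) (XT.nd (nat_lit 78) (nat_lit 0) (nat_lit 0) (XT.lf (nat_lit 0) (nat_lit 2143775980) (nat_lit 228) (nat_lit 7272765638) (nat_lit 76) (nat_lit 9483535546) (nat_lit 27) (nat_lit 5) (nat_lit 30) (nat_lit 5) (nat_lit 28) (nat_lit 5) (nat_lit 342) (nat_lit 249) (nat_lit 189)) (XT.lf (nat_lit 0) (nat_lit 5334544182) (nat_lit 228) (nat_lit 431063880) (nat_lit 76) (nat_lit 13572694608) (nat_lit 27) (nat_lit 5) (nat_lit 30) (nat_lit 5)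 (nat_lit 28) (nat_lit 5) (nat_lit 343) (nat_lit 249) (nat_lit 188)))) (XT.nd (nat_lit 78) (nat_lit 76) (nat_lit 0) (XT.lf (nat_lit 0) (nat_lit 6695146732) (nat_lit 152) (nat_lit 1959516659) (nat_lit 228) (nat_lit 11134025689) (nat_lit 25) (nat_lit 5) (nat_lit 27) (nat_lit 5) (nat_lit 28) (nat_lit 5) (nat_lit 344) (nat_lit 249) (nat_lit 187)) (XT.nd (nat_lit 78) (nat_lit 76) (nat_lit 0) (XT.lf (nat_lit 0) (nat_lit 12067108556) (nat_lit 228) (nat_lit 6278986744) (nat_lit 76) (nat_lit 1906732418) (nat_lit 25) (nat_lit 5) (nat_lit 28) (nat_lit 5) (nat_lit 26) (nat_lit 4) (nat_lit 345) (nat_lit 249) (nat_lit 186)) (XT.lf (nat_lit 0) (nat_lit 683832683) (nat_lit 76) (nat_lit 14894436325) (nat_lit 152) (nat_lit 5152752906) (nat_lit 24) (nat_lit 5) (nat_lit 25) (nat_lit 5) (nat_lit 26) (nat_lit 4) (nat_lit 346) (nat_lit 249) (nat_lit 185)))))) (XT.nd (nat_lit 468) (nat_lit 304) (nat_lit 0) (XT.nd (nat_lit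 234) (nat_lit 0) (nat_lit 0) (XT.nd (nat_lit 78) (nat_lit 228) (nat_lit 0) (XT.lf (nat_lit 0) (nat_lit 7934625369) (nat_lit 76) (nat_lit 11294297788) (nat_lit 152) (nat_lit 1993635042) (nat_lit 24) (nat_lit 5) (nat_lit 25) (nat_lit 5) (nat_lit 26) (nat_lit 4) (nat_lit 347) (nat_lit 249) (nat_lit 184)) (XT.nd (nat_lit 78) (nat_lit 152) (nat_lit 0) (XT.lf (nat_lit 0) (nat_lit 1206968333) (nat_lit 152) (nat_lit 6386783043) (nat_lit 76) (nat_lit 14135606462) (nat_lit 23) (nat_lit 5) (nat_lit 25) (nat_lit 5) (nat_lit 24) (nat_lit 5) (nat_lit 348) (nat_lit 249) (nat_lit 183)) (XT.lf (nat_lit 0) (nat_lit 667334917) (nat_lit 152) (nat_lit 3774739552) (nat_lit 228) (nat_lit 17809357428) (nat_lit 21) (nat_lit 5) (nat_lit 23) (nat_lit 5) (nat_lit 24) (nat_lit 5) (nat_lit 349) (nat_lit 249) (nat_lit 182)))) (XT.nd (nat_lit 78) (nat_lit 0) (nat_lit 0) (XT.lf (nat_lit 0) (nat_lit 7813207562) (nat_lit 228) (nat_lit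 14772942168) (nat_lit 76) (nat_lit 201867919) (nat_lit 21) (nat_lit 5) (nat_lit 24) (nat_lit 5) (nat_lit 22) (nat_lit 4) (nat_lit 350) (nat_lit 249) (nat_lit 181)) (XT.nd (nat_lit 78) (nat_lit 0) (nat_lit 0) (XT.lf (nat_lit 0) (nat_lit 11295969022) (nat_lit 228) (nat_lit 7840984203) (nat_lit 76) (nat_lit 4203451053) (nat_lit 21) (nat_lit 5) (nat_lit 24) (nat_lit 5) (nat_lit 22) (nat_lit 4) (nat_lit 351) (nat_lit 249) (nat_lit 180)) (XT.lf (nat_lit 0) (nat_lit 14857116935) (nat_lit 228) (nat_lit 745880931) (nat_lit 76) (nat_lit 8307165144) (nat_lit 21) (nat_lit 5) (nat_lit 24) (nat_lit 5) (nat_lit 22) (nat_lit 4) (nat_lit 352) (nat_lit 249) (nat_lit 179))))) (XT.nd (nat_lit 234) (nat_lit 152) (nat_lit 0) (XT.nd (nat_lit 78) (nat_lit 76) (nat_lit 0) (XT.lf (nat_lit 0) (nat_lit 6648299523) (nat_lit 76) (nat_lit 11915370981) (nat_lit 152) (nat_lit 5932203959) (nat_lit 20) (nat_lit 5) (nat_lit 21)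 (nat_lit 5) (nat_lit 22) (nat_lit 4) (nat_lit 353) (nat_lit 249) (nat_lit 178)) (XT.nd (nat_lit 78) (nat_lit 76) (nat_lit 0) (XT.lf (nat_lit 0) (nat_lit 14236513585) (nat_lit 76) (nat_lit 8127426552) (nat_lit 152) (nat_lit 2735758139) (nat_lit 20) (nat_lit 5) (nat_lit 21) (nat_lit 5) (nat_lit 22) (nat_lit 4) (nat_lit 354) (nat_lit 249) (nat_lit 177)) (XT.lf (nat_lit 0) (nat_lit 521179957) (nat_lit 152) (nat_lit 3716943806) (nat_lit 76) (nat_lit 21484104386) (nat_lit 19) (nat_lit 5) (nat_lit 21) (nat_lit 5) (nat_lit 20) (nat_lit 5) (nat_lit 355) (nat_lit 249) (nat_lit 176)))) (XT.nd (nat_lit 78) (nat_lit 0) (nat_lit 0) (XT.lf (nat_lit 0) (nat_lit 3646659109) (nat_lit 152) (nat_lit 185409543) (nat_lit 228) (nat_lit 22530231001) (nat_lit 17) (nat_lit 5) (nat_lit 19) (nat_lit 5) (nat_lit 20) (nat_lit 5) (nat_lit 356) (nat_lit 249) (nat_lit 175)) (XT.nd (nat_lit 78) (nat_lit 0) (nat_lit 0) (XT.lf (nat_lit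 0) (nat_lit 7294845343) (nat_lit 228) (nat_lit 15793049079) (nat_lit 76) (nat_lit 3932116788) (nat_lit 17) (nat_lit 5) (nat_lit 20) (nat_lit 5) (nat_lit 18) (nat_lit 4) (nat_lit 357) (nat_lit 249) (nat_lit 174)) (XT.lf (nat_lit 0) (nat_lit 10840343261) (nat_lit 228) (nat_lit 8704664513) (nat_lit 76) (nat_lit 8153095520) (nat_lit 17) (nat_lit 5) (nat_lit 20) (nat_lit 5) (nat_lit 18) (nat_lit 4) (nat_lit 358) (nat_lit 249) (nat_lit 173))))))) (XT.nd (nat_lit 936) (nat_lit 228) (nat_lit 0) (XT.nd (nat_lit 468) (nat_lit 76) (nat_lit 0) (XT.nd (nat_lit 234) (nat_lit 228) (nat_lit 0) (XT.nd (nat_lit 78) (nat_lit 76) (nat_lit 0) (XT.lf (nat_lit 0) (nat_lit 14469878145) (nat_lit 228) (nat_lit 1442510842) (nat_lit 76) (nat_lit 12484832895) (nat_lit 17) (nat_lit 5) (nat_lit 20) (nat_lit 5) (nat_lit 18) (nat_lit 4) (nat_lit 359) (nat_lit 249) (nat_lit 172)) (XT.nd (nat_lit 78) (nat_lit 0) (nat_lit 0) (XT.lf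 (nat_lit 0) (nat_lit 6119164442) (nat_lit 76) (nat_lit 12126278142) (nat_lit 152) (nat_lit 10870770634) (nat_lit 16) (nat_lit 5) (nat_lit 17) (nat_lit 5) (nat_lit 18) (nat_lit 4) (nat_lit 360) (nat_lit 249) (nat_lit 171)) (XT.lf (nat_lit 0) (nat_lit 13899880207) (nat_lit 76) (nat_lit 8227554709) (nat_lit 152) (nat_lit 7729557654) (nat_lit 16) (nat_lit 5) (nat_lit 17) (nat_lit 5) (nat_lit 18) (nat_lit 4) (nat_lit 361) (nat_lit 249) (nat_lit 170)))) (XT.nd (nat_lit 78) (nat_lit 228) (nat_lit 0) (XT.lf (nat_lit 0) (nat_lit 21877726341) (nat_lit 76) (nat_lit 4227378566) (nat_lit 152) (nat_lit 4515526580) (nat_lit 16) (nat_lit 5) (nat_lit 17) (nat_lit 5) (nat_lit 18) (nat_lit 4) (nat_lit 362) (nat_lit 249) (nat_lit 169)) (XT.nd (nat_lit 78) (nat_lit 228) (nat_lit 0) (XT.lf (nat_lit 0) (nat_lit 30059673779) (nat_lit 76) (nat_lit 122254415) (nat_lit 152) (nat_lit 1225869033) (nat_lit 16) (nat_lit 5)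 (nat_lit 17) (nat_lit 5) (nat_lit 18) (nat_lit 4) (nat_lit 363) (nat_lit 249) (nat_lit 168)) (XT.lf (nat_lit 0) (nat_lit 2201534488) (nat_lit 228) (nat_lit 25920114420) (nat_lit 76) (nat_lit 4093879442) (nat_lit 13) (nat_lit 5) (nat_lit 16) (nat_lit 5) (nat_lit 14) (nat_lit 4) (nat_lit 364) (nat_lit 249) (nat_lit 167))))) (XT.nd (nat_lit 234) (nat_lit 76) (nat_lit 0) (XT.nd (nat_lit 78) (nat_lit 0) (nat_lit 0) (XT.lf (nat_lit 0) (nat_lit 5702390677) (nat_lit 228) (nat_lit 18899403181) (nat_lit 76) (nat_lit 8445486653) (nat_lit 13) (nat_lit 5) (nat_lit 16) (nat_lit 5) (nat_lit 14) (nat_lit 4) (nat_lit 365) (nat_lit 249) (nat_lit 166)) (XT.nd (nat_lit 78) (nat_lit 0) (nat_lit 0) (XT.lf (nat_lit 0) (nat_lit 9289156713) (nat_lit 228) (nat_lit 11701789317) (nat_lit 76) (nat_lit 12913623656) (nat_lit 13) (nat_lit 5) (nat_lit 16) (nat_lit 5) (nat_lit 14) (nat_lit 4) (nat_lit 366) (nat_lit 249) (nat_lit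 165)) (XT.lf (nat_lit 0) (nat_lit 12964966663) (nat_lit 228) (nat_lit 4320983652) (nat_lit 76) (nat_lit 17502194648) (nat_lit 13) (nat_lit 5) (nat_lit 16) (nat_lit 5) (nat_lit 14) (nat_lit 4) (nat_lit 367) (nat_lit 249) (nat_lit 164)))) (XT.nd (nat_lit 78) (nat_lit 0) (nat_lit 0) (XT.lf (nat_lit 0) (nat_lit 3314133749) (nat_lit 76) (nat_lit 13450756132) (nat_lit 152) (nat_lit 18932932792) (nat_lit 12) (nat_lit 5) (nat_lit 13) (nat_lit 5) (nat_lit 14) (nat_lit 4) (nat_lit 368) (nat_lit 249) (nat_lit 163)) (XT.nd (nat_lit 78) (nat_lit 0) (nat_lit 0) (XT.lf (nat_lit 0) (nat_lit 11235409079) (nat_lit 76) (nat_lit 9469238954) (nat_lit 152) (nat_lit 15929377606) (nat_lit 12) (nat_lit 5) (nat_lit 13) (nat_lit 5) (nat_lit 14) (nat_lit 4) (nat_lit 369) (nat_lit 249) (nat_lit 162)) (XT.lf (nat_lit 0) (nat_lit 19363767795) (nat_lit 76) (nat_lit 5381553249) (nat_lit 152) (nat_lit 12853521739) (nat_lit 12)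 (nat_lit 5) (nat_lit 13) (nat_lit 5) (nat_lit 14) (nat_lit 4) (nat_lit 370) (nat_lit 249) (nat_lit 161)))))) (XT.nd (nat_lit 468) (nat_lit 76) (nat_lit 0) (XT.nd (nat_lit 234) (nat_lit 76) (nat_lit 0) (XT.nd (nat_lit 78) (nat_lit 76) (nat_lit 0) (XT.lf (nat_lit 0) (nat_lit 27706312344) (nat_lit 76) (nat_lit 1184127252) (nat_lit 152) (nat_lit 9702677549) (nat_lit 12) (nat_lit 5) (nat_lit 13) (nat_lit 5) (nat_lit 14) (nat_lit 4) (nat_lit 371) (nat_lit 249) (nat_lit 160)) (XT.nd (nat_lit 78) (nat_lit 76) (nat_lit 0) (XT.lf (nat_lit 0) (nat_lit 33173681457) (nat_lit 152) (nat_lit 3377440999) (nat_lit 0) (nat_lit 3065693381) (nat_lit 12) (nat_lit 5) (nat_lit 14) (nat_lit 4) (nat_lit 12) (nat_lit 4) (nat_lit 372) (nat_lit 249) (nat_lit 159)) (XT.lf (nat_lit 0) (nat_lit 4403070940) (nat_lit 76) (nat_lit 33220470165) (nat_lit 76) (nat_lit 3046549691) (nat_lit 11) (nat_lit 4) (nat_lit 12) (nat_lit 5) (nat_lit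 12) (nat_lit 4) (nat_lit 373) (nat_lit 249) (nat_lit 158)))) (XT.nd (nat_lit 78) (nat_lit 0) (nat_lit 0) (XT.lf (nat_lit 0) (nat_lit 461658423) (nat_lit 152) (nat_lit 29300765910) (nat_lit 76) (nat_lit 11991861412) (nat_lit 10) (nat_lit 5) (nat_lit 12) (nat_lit 5) (nat_lit 11) (nat_lit 4) (nat_lit 374) (nat_lit 249) (nat_lit 157)) (XT.nd (nat_lit 78) (nat_lit 0) (nat_lit 0) (XT.lf (nat_lit 0) (nat_lit 3998444719) (nat_lit 152) (nat_lit 22183237338) (nat_lit 76) (nat_lit 16688890799) (nat_lit 10) (nat_lit 5) (nat_lit 12) (nat_lit 5) (nat_lit 11) (nat_lit 4) (nat_lit 375) (nat_lit 249) (nat_lit 156)) (XT.lf (nat_lit 0) (nat_lit 7626348750) (nat_lit 152) (nat_lit 14878929641) (nat_lit 76) (nat_lit 21515527694) (nat_lit 10) (nat_lit 5) (nat_lit 12) (nat_lit 5) (nat_lit 11) (nat_lit 4) (nat_lit 376) (nat_lit 249) (nat_lit 155))))) (XT.nd (nat_lit 234) (nat_lit 0) (nat_lit 0) (XT.nd (nat_lit 78) (nat_lit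 76) (nat_lit 0) (XT.lf (nat_lit 0) (nat_lit 11348540527) (nat_lit 152) (nat_lit 7381460414) (nat_lit 76) (nat_lit 26475989545) (nat_lit 10) (nat_lit 5) (nat_lit 12) (nat_lit 5) (nat_lit 11) (nat_lit 4) (nat_lit 377) (nat_lit 249) (nat_lit 154)) (XT.nd (nat_lit 78) (nat_lit 0) (nat_lit 0) (XT.lf (nat_lit 0) (nat_lit 322005006) (nat_lit 76) (nat_lit 14849362756) (nat_lit 152) (nat_lit 31255701041) (nat_lit 9) (nat_lit 5) (nat_lit 10) (nat_lit 5) (nat_lit 11) (nat_lit 4) (nat_lit 378) (nat_lit 249) (nat_lit 153)) (XT.lf (nat_lit 0) (nat_lit 8382922900) (nat_lit 76) (nat_lit 10786541038) (nat_lit 152) (nat_lit 28513505261) (nat_lit 9) (nat_lit 5) (nat_lit 10) (nat_lit 5) (nat_lit 11) (nat_lit 4) (nat_lit 379) (nat_lit 249) (nat_lit 152)))) (XT.nd (nat_lit 78) (nat_lit 0) (nat_lit 0) (XT.lf (nat_lit 0) (nat_lit 16661431254) (nat_lit 76) (nat_lit 6612524028) (nat_lit 152) (nat_lit 25703004802) (nat_lit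 9) (nat_lit 5) (nat_lit 10) (nat_lit 5) (nat_lit 11) (nat_lit 4) (nat_lit 380) (nat_lit 249) (nat_lit 151)) (XT.nd (nat_lit 78) (nat_lit 0) (nat_lit 0) (XT.lf (nat_lit 0) (nat_lit 25164763714) (nat_lit 76) (nat_lit 2323664525) (nat_lit 152) (nat_lit 22821743888) (nat_lit 9) (nat_lit 5) (nat_lit 10) (nat_lit 5) (nat_lit 11) (nat_lit 4) (nat_lit 381) (nat_lit 249) (nat_lit 150)) (XT.lf (nat_lit 0) (nat_lit 31836595978) (nat_lit 152) (nat_lit 17803450511) (nat_lit 0) (nat_lit 2043122865) (nat_lit 9) (nat_lit 5) (nat_lit 11) (nat_lit 4) (nat_lit 9) (nat_lit 4) (nat_lit 382) (nat_lit 249) (nat_lit 149))))))))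
noncomputable def xc80 : XT := (XT.nd (nat_lit 32916) (nat_lit 0) (nat_lit 6080) (XT.nd (nat_lit 858) (nat_lit 76) (nat_lit 0) (XT.nd (nat_lit 390) (nat_lit 152) (nat_lit 0) (XT.nd (nat_lit 156) (nat_lit 76) (nat_lit 0) (XT.nd (nat_lit 78) (nat_lit 0) (nat_lit 0) (XT.lf (nat_lit 0) (nat_lit 36325723211) (nat_lit 152) (nat_lit 10286705166) (nat_lit 0) (nat_lit 6484619131) (nat_lit 9) (nat_lit 5) (nat_lit 11) (nat_lit 4) (nat_lit 9) (nat_lit 4) (nat_lit 383) (nat_lit 249) (nat_lit 148)) (XT.lf (nat_lit 0) (nat_lit 40937395994) (nat_lit 152) (nat_lit 2566267864) (nat_lit 0) (nat_lit 11050048257) (nat_lit 9) (nat_lit 5) (nat_lit 11) (nat_lit 4) (nat_lit 9) (nat_lit 4) (nat_lit 384) (nat_lit 249) (nat_lit 147))) (XT.nd (nat_lit 78) (nat_lit 0) (nat_lit 0) (XT.lf (nat_lit 0) (nat_lit 5471373615) (nat_lit 76) (nat_lit 40256864519) (nat_lit 76) (nat_lit 10324620027) (nat_lit 8) (nat_lit 4) (nat_lit 9)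 (nat_lit 5) (nat_lit 9) (nat_lit 4) (nat_lit 385) (nat_lit 249) (nat_lit 146)) (XT.nd (nat_lit 78) (nat_lit 0) (nat_lit 0) (XT.lf (nat_lit 0) (nat_lit 13781782764) (nat_lit 76) (nat_lit 36895303438) (nat_lit 76) (nat_lit 6919469863) (nat_lit 8) (nat_lit 4) (nat_lit 9) (nat_lit 5) (nat_lit 9) (nat_lit 4) (nat_lit 386) (nat_lit 249) (nat_lit 145)) (XT.lf (nat_lit 0) (nat_lit 22321147345) (nat_lit 76) (nat_lit 33441957603) (nat_lit 76) (nat_lit 3423804531) (nat_lit 8) (nat_lit 4) (nat_lit 9) (nat_lit 5) (nat_lit 9) (nat_lit 4) (nat_lit 387) (nat_lit 249) (nat_lit 144))))) (XT.nd (nat_lit 234) (nat_lit 76) (nat_lit 0) (XT.nd (nat_lit 78) (nat_lit 0) (nat_lit 0) (XT.lf (nat_lit 0) (nat_lit 162202291) (nat_lit 152) (nat_lit 29729969310) (nat_lit 76) (nat_lit 30933088721) (nat_lit 7) (nat_lit 5) (nat_lit 9) (nat_lit 5) (nat_lit 8) (nat_lit 4) (nat_lit 388) (nat_lit 249) (nat_lit 143)) (XT.nd (nat_lit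 78) (nat_lit 0) (nat_lit 0) (XT.lf (nat_lit 0) (nat_lit 3776217135) (nat_lit 152) (nat_lit 22433409363) (nat_lit 76) (nat_lit 36302446175) (nat_lit 7) (nat_lit 5) (nat_lit 9) (nat_lit 5) (nat_lit 8) (nat_lit 4) (nat_lit 389) (nat_lit 249) (nat_lit 142)) (XT.lf (nat_lit 0) (nat_lit 7488208635) (nat_lit 152) (nat_lit 14936794953) (nat_lit 76) (nat_lit 41824804209) (nat_lit 7) (nat_lit 5) (nat_lit 9) (nat_lit 5) (nat_lit 8) (nat_lit 4) (nat_lit 390) (nat_lit 249) (nat_lit 141)))) (XT.nd (nat_lit 78) (nat_lit 76) (nat_lit 0) (XT.lf (nat_lit 0) (nat_lit 11301420279) (nat_lit 152) (nat_lit 7233575641) (nat_lit 76) (nat_lit 47504988183) (nat_lit 7) (nat_lit 5) (nat_lit 9) (nat_lit 5) (nat_lit 8) (nat_lit 4) (nat_lit 391) (nat_lit 249) (nat_lit 140)) (XT.nd (nat_lit 78) (nat_lit 0) (nat_lit 0) (XT.lf (nat_lit 0) (nat_lit 696572173) (nat_lit 76) (nat_lit 14529307704) (nat_lit 152) (nat_lit 52658085069)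 (nat_lit 6) (nat_lit 5) (nat_lit 7) (nat_lit 5) (nat_lit 8) (nat_lit 4) (nat_lit 392) (nat_lit 249) (nat_lit 139)) (XT.lf (nat_lit 0) (nat_lit 8995319046) (nat_lit 76) (nat_lit 10336072548) (nat_lit 152) (nat_lit 50449978728) (nat_lit 6) (nat_lit 5) (nat_lit 7) (nat_lit 5) (nat_lit 8) (nat_lit 4) (nat_lit 393) (nat_lit 249) (nat_lit 138)))))) (XT.nd (nat_lit 468) (nat_lit 76) (nat_lit 0) (XT.nd (nat_lit 234) (nat_lit 0) (nat_lit 0) (XT.nd (nat_lit 78) (nat_lit 0) (nat_lit 0) (XT.lf (nat_lit 0) (nat_lit 17525953972) (nat_lit 76) (nat_lit 6024671391) (nat_lit 152) (nat_lit 48185360316) (nat_lit 6) (nat_lit 5) (nat_lit 7) (nat_lit 5) (nat_lit 8) (nat_lit 4) (nat_lit 394) (nat_lit 249) (nat_lit 137)) (XT.nd (nat_lit 78) (nat_lit 0) (nat_lit 0) (XT.lf (nat_lit 0) (nat_lit 26295930902) (nat_lit 76) (nat_lit 1591336988) (nat_lit 152) (nat_lit 45862251043) (nat_lit 6) (nat_lit 5) (nat_lit 7) (nat_lit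 5) (nat_lit 8) (nat_lit 4) (nat_lit 395) (nat_lit 249) (nat_lit 136)) (XT.lf (nat_lit 0) (nat_lit 32373636831) (nat_lit 152) (nat_lit 40539344911) (nat_lit 0) (nat_lit 2909891891) (nat_lit 6) (nat_lit 5) (nat_lit 8) (nat_lit 4) (nat_lit 6) (nat_lit 4) (nat_lit 396) (nat_lit 249) (nat_lit 135)))) (XT.nd (nat_lit 78) (nat_lit 0) (nat_lit 0) (XT.lf (nat_lit 0) (nat_lit 37001643564) (nat_lit 152) (nat_lit 33449252028) (nat_lit 0) (nat_lit 7507326118) (nat_lit 6) (nat_lit 5) (nat_lit 8) (nat_lit 4) (nat_lit 6) (nat_lit 4) (nat_lit 397) (nat_lit 249) (nat_lit 134)) (XT.nd (nat_lit 78) (nat_lit 0) (nat_lit 0) (XT.lf (nat_lit 0) (nat_lit 41760035074) (nat_lit 152) (nat_lit 26161817250) (nat_lit 0) (nat_lit 12236035584) (nat_lit 6) (nat_lit 5) (nat_lit 8) (nat_lit 4) (nat_lit 6) (nat_lit 4) (nat_lit 398) (nat_lit 249) (nat_lit 133)) (XT.lf (nat_lit 0) (nat_lit 46652969179) (nat_lit 152) (nat_lit 18670672917)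 (nat_lit 0) (nat_lit 17100152171) (nat_lit 6) (nat_lit 5) (nat_lit 8) (nat_lit 4) (nat_lit 6) (nat_lit 4) (nat_lit 399) (nat_lit 249) (nat_lit 132))))) (XT.nd (nat_lit 31356) (nat_lit 0) (nat_lit 15352) (XT.nd (nat_lit 156) (nat_lit 76) (nat_lit 0) (XT.lf (nat_lit 0) (nat_lit 51684721259) (nat_lit 152) (nat_lit 10969273368) (nat_lit 0) (nat_lit 22103926078) (nat_lit 6) (nat_lit 5) (nat_lit 8) (nat_lit 4) (nat_lit 6) (nat_lit 4) (nat_lit 400) (nat_lit 249) (nat_lit 131)) (XT.nd (nat_lit 31122) (nat_lit 0) (nat_lit 17176) (XT.lf (nat_lit 0) (nat_lit 5192727300) (nat_lit 76) (nat_lit 57039579559) (nat_lit 76) (nat_lit 27405248991) (nat_lit 5) (nat_lit 4) (nat_lit 6) (nat_lit 5) (nat_lit 6) (nat_lit 4) (nat_lit 402) (nat_lit 249) (nat_lit 129)) (XT.lf (nat_lit 0) (nat_lit 1353090716) (nat_lit 836) (nat_lit 747115999) (nat_lit 0) (nat_lit 1353090716) (nat_lit 231) (nat_lit 5) (nat_lit 242) (nat_lit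 4) (nat_lit 231) (nat_lit 4) (nat_lit 280) (nat_lit 250) (nat_lit 250)))) (XT.nd (nat_lit 78) (nat_lit 988) (nat_lit 0) (XT.lf (nat_lit 0) (nat_lit 2804560955) (nat_lit 836) (nat_lit 2978931655) (nat_lit 836) (nat_lit 1172306559) (nat_lit 220) (nat_lit 4) (nat_lit 231) (nat_lit 5) (nat_lit 231) (nat_lit 4) (nat_lit 281) (nat_lit 250) (nat_lit 249)) (XT.nd (nat_lit 78) (nat_lit 0) (nat_lit 0) (XT.lf (nat_lit 0) (nat_lit 154424978) (nat_lit 912) (nat_lit 1675651387) (nat_lit 988) (nat_lit 5178429766) (nat_lit 207) (nat_lit 5) (nat_lit 219) (nat_lit 5) (nat_lit 220) (nat_lit 4) (nat_lit 282) (nat_lit 250) (nat_lit 248)) (XT.lf (nat_lit 0) (nat_lit 4576718138) (nat_lit 912) (nat_lit 270703343) (nat_lit 988) (nat_lit 2216794774) (nat_lit 207) (nat_lit 5) (nat_lit 219) (nat_lit 5) (nat_lit 220) (nat_lit 4) (nat_lit 283) (nat_lit 250) (nat_lit 247))))))) (XT.nd (nat_lit 936) (nat_lit 3040) (nat_lit 0)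 (XT.nd (nat_lit 468) (nat_lit 2280) (nat_lit 0) (XT.nd (nat_lit 234) (nat_lit 1824) (nat_lit 0) (XT.nd (nat_lit 78) (nat_lit 1064) (nat_lit 0) (XT.lf (nat_lit 0) (nat_lit 756103674) (nat_lit 1064) (nat_lit 5180512799) (nat_lit 76) (nat_lit 1186791214) (nat_lit 193) (nat_lit 5) (nat_lit 207) (nat_lit 5) (nat_lit 194) (nat_lit 4) (nat_lit 284) (nat_lit 250) (nat_lit 246)) (XT.nd (nat_lit 78) (nat_lit 1064) (nat_lit 0) (XT.lf (nat_lit 0) (nat_lit 3711849125) (nat_lit 1064) (nat_lit 738760212) (nat_lit 76) (nat_lit 2735165372) (nat_lit 193) (nat_lit 5) (nat_lit 207) (nat_lit 5) (nat_lit 194) (nat_lit 4) (nat_lit 285) (nat_lit 250) (nat_lit 245)) (XT.lf (nat_lit 0) (nat_lit 3825998649) (nat_lit 1064) (nat_lit 2879830248) (nat_lit 1140) (nat_lit 545895784) (nat_lit 179) (nat_lit 5) (nat_lit 193) (nat_lit 5) (nat_lit 194) (nat_lit 4) (nat_lit 286) (nat_lit 250) (nat_lit 244)))) (XT.nd (nat_lit 78) (nat_lit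 608) (nat_lit 0) (XT.lf (nat_lit 0) (nat_lit 1135778947) (nat_lit 1140) (nat_lit 1217930159) (nat_lit 1216) (nat_lit 4967461175) (nat_lit 163) (nat_lit 5) (nat_lit 178) (nat_lit 5) (nat_lit 179) (nat_lit 5) (nat_lit 287) (nat_lit 250) (nat_lit 243)) (XT.nd (nat_lit 78) (nat_lit 608) (nat_lit 0) (XT.lf (nat_lit 0) (nat_lit 5284191862) (nat_lit 1216) (nat_lit 1585665350) (nat_lit 76) (nat_lit 524215969) (nat_lit 163) (nat_lit 5) (nat_lit 179) (nat_lit 5) (nat_lit 164) (nat_lit 4) (nat_lit 288) (nat_lit 250) (nat_lit 242)) (XT.lf (nat_lit 0) (nat_lit 776246426) (nat_lit 608) (nat_lit 4362675855) (nat_lit 76) (nat_lit 2331399520) (nat_lit 155) (nat_lit 5) (nat_lit 163) (nat_lit 5) (nat_lit 156) (nat_lit 5) (nat_lit 289) (nat_lit 250) (nat_lit 241))))) (XT.nd (nat_lit 234) (nat_lit 1064) (nat_lit 0) (XT.nd (nat_lit 78) (nat_lit 608) (nat_lit 0) (XT.lf (nat_lit 0) (nat_lit 324915157) (nat_lit 608) (nat_lit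 3319198681) (nat_lit 684) (nat_lit 3906156964) (nat_lit 147) (nat_lit 5) (nat_lit 155) (nat_lit 5) (nat_lit 156) (nat_lit 5) (nat_lit 290) (nat_lit 250) (nat_lit 240)) (XT.nd (nat_lit 78) (nat_lit 608) (nat_lit 0) (XT.lf (nat_lit 0) (nat_lit 5157149859) (nat_lit 608) (nat_lit 1404749789) (nat_lit 684) (nat_lit 1071963795) (nat_lit 147) (nat_lit 5) (nat_lit 155) (nat_lit 5) (nat_lit 156) (nat_lit 5) (nat_lit 291) (nat_lit 250) (nat_lit 239)) (XT.lf (nat_lit 0) (nat_lit 1760908841) (nat_lit 608) (nat_lit 5369064532) (nat_lit 76) (nat_lit 591119136) (nat_lit 139) (nat_lit 5) (nat_lit 147) (nat_lit 5) (nat_lit 140) (nat_lit 5) (nat_lit 292) (nat_lit 250) (nat_lit 238)))) (XT.nd (nat_lit 78) (nat_lit 1064) (nat_lit 0) (XT.lf (nat_lit 0) (nat_lit 4619052138) (nat_lit 608) (nat_lit 544775736) (nat_lit 76) (nat_lit 2648085194) (nat_lit 139) (nat_lit 5) (nat_lit 147) (nat_lit 5) (nat_lit 140) (nat_lit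 5) (nat_lit 293) (nat_lit 250) (nat_lit 237)) (XT.nd (nat_lit 78) (nat_lit 532) (nat_lit 0) (XT.lf (nat_lit 0) (nat_lit 4426918066) (nat_lit 532) (nat_lit 3103492324) (nat_lit 608) (nat_lit 376167352) (nat_lit 132) (nat_lit 5) (nat_lit 139) (nat_lit 5) (nat_lit 140) (nat_lit 5) (nat_lit 294) (nat_lit 250) (nat_lit 236)) (XT.lf (nat_lit 0) (nat_lit 1474960596) (nat_lit 456) (nat_lit 945968112) (nat_lit 532) (nat_lit 5584205634) (nat_lit 125) (nat_lit 5) (nat_lit 131) (nat_lit 5) (nat_lit 132) (nat_lit 5) (nat_lit 295) (nat_lit 250) (nat_lit 235)))))) (XT.nd (nat_lit 468) (nat_lit 1596) (nat_lit 0) (XT.nd (nat_lit 234) (nat_lit 532) (nat_lit 0) (XT.nd (nat_lit 78) (nat_lit 912) (nat_lit 0) (XT.lf (nat_lit 0) (nat_lit 5268837763) (nat_lit 532) (nat_lit 1558290406) (nat_lit 76) (nat_lit 1280305347) (nat_lit 125) (nat_lit 5) (nat_lit 132) (nat_lit 5) (nat_lit 126) (nat_lit 5) (nat_lit 296) (nat_lit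 250) (nat_lit 234)) (XT.nd (nat_lit 78) (nat_lit 456) (nat_lit 0) (XT.lf (nat_lit 0) (nat_lit 3539039661) (nat_lit 456) (nat_lit 4635371282) (nat_lit 532) (nat_lit 39351517) (nat_lit 119) (nat_lit 5) (nat_lit 125) (nat_lit 5) (nat_lit 126) (nat_lit 5) (nat_lit 297) (nat_lit 250) (nat_lit 233)) (XT.lf (nat_lit 0) (nat_lit 394516786) (nat_lit 380) (nat_lit 2342849716) (nat_lit 456) (nat_lit 5586745219) (nat_lit 113) (nat_lit 5) (nat_lit 118) (nat_lit 5) (nat_lit 119) (nat_lit 5) (nat_lit 298) (nat_lit 250) (nat_lit 232)))) (XT.nd (nat_lit 78) (nat_lit 532) (nat_lit 0) (XT.lf (nat_lit 0) (nat_lit 5574877414) (nat_lit 456) (nat_lit 2811083538) (nat_lit 76) (nat_lit 52567121) (nat_lit 113) (nat_lit 5) (nat_lit 119) (nat_lit 5) (nat_lit 114) (nat_lit 5) (nat_lit 299) (nat_lit 250) (nat_lit 231)) (XT.nd (nat_lit 78) (nat_lit 76) (nat_lit 0) (XT.lf (nat_lit 0) (nat_lit 2401785502) (nat_lit 456) (nat_lit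 6074470401) (nat_lit 532) (nat_lit 80872120) (nat_lit 107) (nat_lit 5) (nat_lit 113) (nat_lit 5) (nat_lit 114) (nat_lit 5) (nat_lit 300) (nat_lit 250) (nat_lit 230)) (XT.lf (nat_lit 0) (nat_lit 2692576036) (nat_lit 532) (nat_lit 960324290) (nat_lit 76) (nat_lit 5026843083) (nat_lit 106) (nat_lit 5) (nat_lit 113) (nat_lit 5) (nat_lit 107) (nat_lit 5) (nat_lit 301) (nat_lit 250) (nat_lit 229))))) (XT.nd (nat_lit 234) (nat_lit 760) (nat_lit 0) (XT.nd (nat_lit 78) (nat_lit 456) (nat_lit 0) (XT.lf (nat_lit 0) (nat_lit 4394427838) (nat_lit 380) (nat_lit 1130243232) (nat_lit 456) (nat_lit 3282133852) (nat_lit 101) (nat_lit 5) (nat_lit 106) (nat_lit 5) (nat_lit 107) (nat_lit 5) (nat_lit 302) (nat_lit 250) (nat_lit 228)) (XT.nd (nat_lit 78) (nat_lit 76) (nat_lit 0) (XT.lf (nat_lit 0) (nat_lit 913601891) (nat_lit 380) (nat_lit 7496612383) (nat_lit 456) (nat_lit 528510176) (nat_lit 96) (nat_lit 5) (nat_lit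 101) (nat_lit 5) (nat_lit 102) (nat_lit 5) (nat_lit 303) (nat_lit 250) (nat_lit 227)) (XT.lf (nat_lit 0) (nat_lit 2255043239) (nat_lit 456) (nat_lit 2699968683) (nat_lit 76) (nat_lit 4119248501) (nat_lit 95) (nat_lit 5) (nat_lit 101) (nat_lit 5) (nat_lit 96) (nat_lit 5) (nat_lit 304) (nat_lit 250) (nat_lit 226)))) (XT.nd (nat_lit 78) (nat_lit 456) (nat_lit 0) (XT.lf (nat_lit 0) (nat_lit 2753140891) (nat_lit 304) (nat_lit 2322828950) (nat_lit 380) (nat_lit 4138893160) (nat_lit 91) (nat_lit 5) (nat_lit 95) (nat_lit 5) (nat_lit 96) (nat_lit 5) (nat_lit 305) (nat_lit 250) (nat_lit 225)) (XT.nd (nat_lit 78) (nat_lit 456) (nat_lit 0) (XT.lf (nat_lit 0) (nat_lit 7951677985) (nat_lit 380) (nat_lit 1018919712) (nat_lit 76) (nat_lit 390070844) (nat_lit 91) (nat_lit 5) (nat_lit 96) (nat_lit 5) (nat_lit 92) (nat_lit 5) (nat_lit 306) (nat_lit 250) (nat_lit 224)) (XT.lf (nat_lit 0) (nat_lit 1383064113) (nat_lit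 456) (nat_lit 4949706336) (nat_lit 76) (nat_lit 3177528751) (nat_lit 85) (nat_lit 5) (nat_lit 91) (nat_lit 5) (nat_lit 86) (nat_lit 5) (nat_lit 307) (nat_lit 250) (nat_lit 223))))))))
noncomputable def xc81 : XT := (XT.nd (nat_lit 1794) (nat_lit 1520) (nat_lit 0) (XT.nd (nat_lit 858) (nat_lit 1444) (nat_lit 0) (XT.nd (nat_lit 390) (nat_lit 988) (nat_lit 0) (XT.nd (nat_lit 156) (nat_lit 684) (nat_lit 0) (XT.nd (nat_lit 78) (nat_lit 0) (nat_lit 0) (XT.lf (nat_lit 0) (nat_lit 582217826) (nat_lit 304) (nat_lit 3605314420) (nat_lit 380) (nat_lit 5477840789) (nat_lit 81) (nat_lit 5) (nat_lit 85) (nat_lit 5) (nat_lit 86) (nat_lit 5) (nat_lit 308) (nat_lit 250) (nat_lit 222)) (XT.lf (nat_lit 0) (nat_lit 6302983232) (nat_lit 304) (nat_lit 765080621) (nat_lit 380) (nat_lit 2757356866) (nat_lit 81) (nat_lit 5) (nat_lit 85) (nat_lit 5) (nat_lit 86) (nat_lit 5) (nat_lit 309) (nat_lit 250) (nat_lit 221))) (XT.nd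 (nat_lit 78) (nat_lit 304) (nat_lit 0) (XT.lf (nat_lit 0) (nat_lit 28507680) (nat_lit 380) (nat_lit 7842691036) (nat_lit 76) (nat_lit 2119593992) (nat_lit 76) (nat_lit 5) (nat_lit 81) (nat_lit 5) (nat_lit 77) (nat_lit 5) (nat_lit 310) (nat_lit 250) (nat_lit 220)) (XT.nd (nat_lit 78) (nat_lit 304) (nat_lit 0) (XT.lf (nat_lit 0) (nat_lit 2829752906) (nat_lit 380) (nat_lit 2212620652) (nat_lit 76) (nat_lit 5118389305) (nat_lit 76) (nat_lit 5) (nat_lit 81) (nat_lit 5) (nat_lit 77) (nat_lit 5) (nat_lit 311) (nat_lit 250) (nat_lit 219)) (XT.lf (nat_lit 0) (nat_lit 3580197286) (nat_lit 304) (nat_lit 2114620183) (nat_lit 380) (nat_lit 4641691842) (nat_lit 72) (nat_lit 5) (nat_lit 76) (nat_lit 5) (nat_lit 77) (nat_lit 5) (nat_lit 312) (nat_lit 250) (nat_lit 218))))) (XT.nd (nat_lit 234) (nat_lit 380) (nat_lit 0) (XT.nd (nat_lit 78) (nat_lit 608) (nat_lit 0) (XT.lf (nat_lit 0) (nat_lit 8623086850) (nat_lit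 380) (nat_lit 1010330052) (nat_lit 76) (nat_lit 884862257) (nat_lit 72) (nat_lit 5) (nat_lit 77) (nat_lit 5) (nat_lit 73) (nat_lit 5) (nat_lit 313) (nat_lit 250) (nat_lit 217)) (XT.nd (nat_lit 78) (nat_lit 228) (nat_lit 0) (XT.lf (nat_lit 0) (nat_lit 931291575) (nat_lit 380) (nat_lit 5805864366) (nat_lit 76) (nat_lit 3967667278) (nat_lit 67) (nat_lit 5) (nat_lit 72) (nat_lit 5) (nat_lit 68) (nat_lit 5) (nat_lit 314) (nat_lit 250) (nat_lit 216)) (XT.lf (nat_lit 0) (nat_lit 16147866) (nat_lit 228) (nat_lit 3746631985) (nat_lit 304) (nat_lit 7134934553) (nat_lit 64) (nat_lit 5) (nat_lit 67) (nat_lit 5) (nat_lit 68) (nat_lit 5) (nat_lit 315) (nat_lit 250) (nat_lit 215)))) (XT.nd (nat_lit 78) (nat_lit 380) (nat_lit 0) (XT.lf (nat_lit 0) (nat_lit 6057687511) (nat_lit 228) (nat_lit 628802274) (nat_lit 304) (nat_lit 4409745171) (nat_lit 64) (nat_lit 5) (nat_lit 67) (nat_lit 5) (nat_lit 68) (nat_lit 5)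 (nat_lit 316) (nat_lit 250) (nat_lit 214)) (XT.nd (nat_lit 78) (nat_lit 76) (nat_lit 0) (XT.lf (nat_lit 0) (nat_lit 899152845) (nat_lit 304) (nat_lit 8782158617) (nat_lit 380) (nat_lit 1619956818) (nat_lit 60) (nat_lit 5) (nat_lit 64) (nat_lit 5) (nat_lit 65) (nat_lit 5) (nat_lit 317) (nat_lit 250) (nat_lit 213)) (XT.lf (nat_lit 0) (nat_lit 1236821223) (nat_lit 380) (nat_lit 4485094888) (nat_lit 76) (nat_lit 5789998068) (nat_lit 59) (nat_lit 5) (nat_lit 64) (nat_lit 5) (nat_lit 60) (nat_lit 5) (nat_lit 318) (nat_lit 250) (nat_lit 212)))))) (XT.nd (nat_lit 468) (nat_lit 684) (nat_lit 0) (XT.nd (nat_lit 234) (nat_lit 304) (nat_lit 0) (XT.nd (nat_lit 78) (nat_lit 228) (nat_lit 0) (XT.lf (nat_lit 0) (nat_lit 1552172048) (nat_lit 228) (nat_lit 2561091318) (nat_lit 304) (nat_lit 7616193453) (nat_lit 56) (nat_lit 5) (nat_lit 59) (nat_lit 5) (nat_lit 60) (nat_lit 5) (nat_lit 319) (nat_lit 250) (nat_lit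 211)) (XT.nd (nat_lit 78) (nat_lit 228) (nat_lit 0) (XT.lf (nat_lit 0) (nat_lit 7080520813) (nat_lit 304) (nat_lit 4168867579) (nat_lit 76) (nat_lit 704054255) (nat_lit 56) (nat_lit 5) (nat_lit 60) (nat_lit 5) (nat_lit 57) (nat_lit 5) (nat_lit 320) (nat_lit 250) (nat_lit 210)) (XT.lf (nat_lit 0) (nat_lit 1962772086) (nat_lit 228) (nat_lit 8171749995) (nat_lit 304) (nat_lit 2049745224) (nat_lit 53) (nat_lit 5) (nat_lit 56) (nat_lit 5) (nat_lit 57) (nat_lit 5) (nat_lit 321) (nat_lit 250) (nat_lit 209)))) (XT.nd (nat_lit 78) (nat_lit 228) (nat_lit 0) (XT.lf (nat_lit 0) (nat_lit 837583269) (nat_lit 304) (nat_lit 4135858046) (nat_lit 76) (nat_lit 7448489980) (nat_lit 52) (nat_lit 5) (nat_lit 56) (nat_lit 5) (nat_lit 53) (nat_lit 5) (nat_lit 322) (nat_lit 250) (nat_lit 208)) (XT.nd (nat_lit 78) (nat_lit 0) (nat_lit 0) (XT.lf (nat_lit 0) (nat_lit 2084519282) (nat_lit 228) (nat_lit 1660888603) (nat_lit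 304) (nat_lit 8921502970) (nat_lit 49) (nat_lit 5) (nat_lit 52) (nat_lit 5) (nat_lit 53) (nat_lit 5) (nat_lit 323) (nat_lit 250) (nat_lit 207)) (XT.lf (nat_lit 0) (nat_lit 6754950292) (nat_lit 304) (nat_lit 4427636745) (nat_lit 76) (nat_lit 1736263619) (nat_lit 49) (nat_lit 5) (nat_lit 53) (nat_lit 5) (nat_lit 50) (nat_lit 5) (nat_lit 324) (nat_lit 250) (nat_lit 206))))) (XT.nd (nat_lit 234) (nat_lit 228) (nat_lit 0) (XT.nd (nat_lit 78) (nat_lit 228) (nat_lit 0) (XT.lf (nat_lit 0) (nat_lit 1865017006) (nat_lit 228) (nat_lit 7980904396) (nat_lit 304) (nat_lit 3332737003) (nat_lit 46) (nat_lit 5) (nat_lit 49) (nat_lit 5) (nat_lit 50) (nat_lit 5) (nat_lit 325) (nat_lit 250) (nat_lit 205)) (XT.nd (nat_lit 78) (nat_lit 228) (nat_lit 0) (XT.lf (nat_lit 0) (nat_lit 8371173953) (nat_lit 228) (nat_lit 4660552762) (nat_lit 304) (nat_lit 414513264) (nat_lit 46) (nat_lit 5) (nat_lit 49) (nat_lit 5) (nat_lit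 50) (nat_lit 5) (nat_lit 326) (nat_lit 250) (nat_lit 204)) (XT.lf (nat_lit 0) (nat_lit 1285861997) (nat_lit 152) (nat_lit 1225376236) (nat_lit 228) (nat_lit 11210787420) (nat_lit 43) (nat_lit 5) (nat_lit 45) (nat_lit 5) (nat_lit 46) (nat_lit 5) (nat_lit 327) (nat_lit 250) (nat_lit 203)))) (XT.nd (nat_lit 78) (nat_lit 228) (nat_lit 0) (XT.lf (nat_lit 0) (nat_lit 5548981429) (nat_lit 228) (nat_lit 6155143508) (nat_lit 76) (nat_lit 2300899441) (nat_lit 43) (nat_lit 5) (nat_lit 46) (nat_lit 5) (nat_lit 44) (nat_lit 5) (nat_lit 328) (nat_lit 250) (nat_lit 202)) (XT.nd (nat_lit 78) (nat_lit 0) (nat_lit 0) (XT.lf (nat_lit 0) (nat_lit 243426175) (nat_lit 228) (nat_lit 8408672321) (nat_lit 304) (nat_lit 5645225300) (nat_lit 40) (nat_lit 5) (nat_lit 43) (nat_lit 5) (nat_lit 44) (nat_lit 5) (nat_lit 329) (nat_lit 250) (nat_lit 201)) (XT.lf (nat_lit 0) (nat_lit 6897251142) (nat_lit 228) (nat_lit 4973549357)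 (nat_lit 304) (nat_lit 2726953824) (nat_lit 40) (nat_lit 5) (nat_lit 43) (nat_lit 5) (nat_lit 44) (nat_lit 5) (nat_lit 330) (nat_lit 250) (nat_lit 200))))))) (XT.nd (nat_lit 936) (nat_lit 532) (nat_lit 0) (XT.nd (nat_lit 468) (nat_lit 456) (nat_lit 0) (XT.nd (nat_lit 234) (nat_lit 304) (nat_lit 0) (XT.nd (nat_lit 78) (nat_lit 152) (nat_lit 0) (XT.lf (nat_lit 0) (nat_lit 234499540) (nat_lit 304) (nat_lit 1221041838) (nat_lit 76) (nat_lit 13452778463) (nat_lit 39) (nat_lit 5) (nat_lit 43) (nat_lit 5) (nat_lit 40) (nat_lit 5) (nat_lit 331) (nat_lit 250) (nat_lit 199)) (XT.nd (nat_lit 78) (nat_lit 0) (nat_lit 0) (XT.lf (nat_lit 0) (nat_lit 3266216365) (nat_lit 228) (nat_lit 9775855973) (nat_lit 76) (nat_lit 2184266874) (nat_lit 37) (nat_lit 5) (nat_lit 40) (nat_lit 5) (nat_lit 38) (nat_lit 5) (nat_lit 332) (nat_lit 250) (nat_lit 198)) (XT.lf (nat_lit 0) (nat_lit 6378273032) (nat_lit 228) (nat_lit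 3281279567) (nat_lit 76) (nat_lit 5894697676) (nat_lit 37) (nat_lit 5) (nat_lit 40) (nat_lit 5) (nat_lit 38) (nat_lit 5) (nat_lit 333) (nat_lit 250) (nat_lit 197)))) (XT.nd (nat_lit 78) (nat_lit 152) (nat_lit 0) (XT.lf (nat_lit 0) (nat_lit 3416153692) (nat_lit 152) (nat_lit 6163992201) (nat_lit 228) (nat_lit 6311990947) (nat_lit 35) (nat_lit 5) (nat_lit 37) (nat_lit 5) (nat_lit 38) (nat_lit 5) (nat_lit 334) (nat_lit 250) (nat_lit 196)) (XT.nd (nat_lit 78) (nat_lit 152) (nat_lit 0) (XT.lf (nat_lit 0) (nat_lit 10323705986) (nat_lit 152) (nat_lit 2551621324) (nat_lit 228) (nat_lit 3364946000) (nat_lit 35) (nat_lit 5) (nat_lit 37) (nat_lit 5) (nat_lit 38) (nat_lit 5) (nat_lit 335) (nat_lit 250) (nat_lit 195)) (XT.lf (nat_lit 0) (nat_lit 786496290) (nat_lit 152) (nat_lit 15466622413) (nat_lit 228) (nat_lit 346252516) (nat_lit 33) (nat_lit 5) (nat_lit 35) (nat_lit 5) (nat_lit 36) (nat_lit 4) (nat_lit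 336) (nat_lit 250) (nat_lit 194))))) (XT.nd (nat_lit 234) (nat_lit 228) (nat_lit 0) (XT.nd (nat_lit 78) (nat_lit 152) (nat_lit 0) (XT.lf (nat_lit 0) (nat_lit 2759747485) (nat_lit 228) (nat_lit 9265334988) (nat_lit 76) (nat_lit 4941871205) (nat_lit 32) (nat_lit 5) (nat_lit 35) (nat_lit 5) (nat_lit 33) (nat_lit 5) (nat_lit 337) (nat_lit 250) (nat_lit 193)) (XT.nd (nat_lit 78) (nat_lit 152) (nat_lit 0) (XT.lf (nat_lit 0) (nat_lit 5918046777) (nat_lit 228) (nat_lit 2580531222) (nat_lit 76) (nat_lit 8847927842) (nat_lit 32) (nat_lit 5) (nat_lit 35) (nat_lit 5) (nat_lit 33) (nat_lit 5) (nat_lit 338) (nat_lit 250) (nat_lit 192)) (XT.lf (nat_lit 0) (nat_lit 4335303229) (nat_lit 152) (nat_lit 4844532030) (nat_lit 228) (nat_lit 8557373741) (nat_lit 30) (nat_lit 5) (nat_lit 32) (nat_lit 5) (nat_lit 33) (nat_lit 5) (nat_lit 339) (nat_lit 250) (nat_lit 191)))) (XT.nd (nat_lit 78) (nat_lit 228) (nat_lit 0)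 (XT.lf (nat_lit 0) (nat_lit 11457930766) (nat_lit 152) (nat_lit 1075115737) (nat_lit 228) (nat_lit 5606805538) (nat_lit 30) (nat_lit 5) (nat_lit 32) (nat_lit 5) (nat_lit 33) (nat_lit 5) (nat_lit 340) (nat_lit 250) (nat_lit 190)) (XT.nd (nat_lit 78) (nat_lit 76) (nat_lit 0) (XT.lf (nat_lit 0) (nat_lit 163064163) (nat_lit 152) (nat_lit 15820603931) (nat_lit 228) (nat_lit 2571026967) (nat_lit 28) (nat_lit 5) (nat_lit 30) (nat_lit 5) (nat_lit 31) (nat_lit 4) (nat_lit 341) (nat_lit 250) (nat_lit 189)) (XT.lf (nat_lit 0) (nat_lit 592114108) (nat_lit 228) (nat_lit 11699173129) (nat_lit 76) (nat_lit 6689145454) (nat_lit 27) (nat_lit 5) (nat_lit 30) (nat_lit 5) (nat_lit 28) (nat_lit 5) (nat_lit 342) (nat_lit 250) (nat_lit 188)))))) (XT.nd (nat_lit 468) (nat_lit 304) (nat_lit 0) (XT.nd (nat_lit 234) (nat_lit 76) (nat_lit 0) (XT.nd (nat_lit 78) (nat_lit 152) (nat_lit 0) (XT.lf (nat_lit 0) (nat_lit 3767744435)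 (nat_lit 228) (nat_lit 4882785965) (nat_lit 76) (nat_lit 10768593252) (nat_lit 27) (nat_lit 5) (nat_lit 30) (nat_lit 5) (nat_lit 28) (nat_lit 5) (nat_lit 343) (nat_lit 250) (nat_lit 187)) (XT.nd (nat_lit 78) (nat_lit 0) (nat_lit 0) (XT.lf (nat_lit 0) (nat_lit 2129760236) (nat_lit 152) (nat_lit 4899521154) (nat_lit 228) (nat_lit 12841997127) (nat_lit 25) (nat_lit 5) (nat_lit 27) (nat_lit 5) (nat_lit 28) (nat_lit 5) (nat_lit 344) (nat_lit 250) (nat_lit 186)) (XT.lf (nat_lit 0) (nat_lit 9403372415) (nat_lit 152) (nat_lit 1005157851) (nat_lit 228) (nat_lit 9927893447) (nat_lit 25) (nat_lit 5) (nat_lit 27) (nat_lit 5) (nat_lit 28) (nat_lit 5) (nat_lit 345) (nat_lit 250) (nat_lit 185)))) (XT.nd (nat_lit 78) (nat_lit 76) (nat_lit 0) (XT.lf (nat_lit 0) (nat_lit 13889282917) (nat_lit 228) (nat_lit 3997882213) (nat_lit 76) (nat_lit 2928375374) (nat_lit 25) (nat_lit 5) (nat_lit 28) (nat_lit 5) (nat_lit 26)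 (nat_lit 4) (nat_lit 346) (nat_lit 250) (nat_lit 184)) (XT.nd (nat_lit 78) (nat_lit 0) (nat_lit 0) (XT.lf (nat_lit 0) (nat_lit 3149611266) (nat_lit 76) (nat_lit 14337143323) (nat_lit 152) (nat_lit 3821927730) (nat_lit 24) (nat_lit 5) (nat_lit 25) (nat_lit 5) (nat_lit 26) (nat_lit 4) (nat_lit 347) (nat_lit 250) (nat_lit 183)) (XT.lf (nat_lit 0) (nat_lit 10546706463) (nat_lit 76) (nat_lit 10658247020) (nat_lit 152) (nat_lit 611300633) (nat_lit 24) (nat_lit 5) (nat_lit 25) (nat_lit 5) (nat_lit 26) (nat_lit 4) (nat_lit 348) (nat_lit 250) (nat_lit 182))))) (XT.nd (nat_lit 234) (nat_lit 76) (nat_lit 0) (XT.nd (nat_lit 78) (nat_lit 152) (nat_lit 0) (XT.lf (nat_lit 0) (nat_lit 2615994904) (nat_lit 152) (nat_lit 4245221101) (nat_lit 76) (nat_lit 15477889838) (nat_lit 23) (nat_lit 5) (nat_lit 25) (nat_lit 5) (nat_lit 24) (nat_lit 5) (nat_lit 349) (nat_lit 250) (nat_lit 181)) (XT.nd (nat_lit 78) (nat_lit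 0) (nat_lit 0) (XT.lf (nat_lit 0) (nat_lit 2997646227) (nat_lit 152) (nat_lit 2932730954) (nat_lit 228) (nat_lit 16947025873) (nat_lit 21) (nat_lit 5) (nat_lit 23) (nat_lit 5) (nat_lit 24) (nat_lit 5) (nat_lit 350) (nat_lit 250) (nat_lit 180)) (XT.lf (nat_lit 0) (nat_lit 9372092072) (nat_lit 228) (nat_lit 12941683240) (nat_lit 76) (nat_lit 1117254443) (nat_lit 21) (nat_lit 5) (nat_lit 24) (nat_lit 5) (nat_lit 22) (nat_lit 4) (nat_lit 351) (nat_lit 250) (nat_lit 179)))) (XT.nd (nat_lit 78) (nat_lit 76) (nat_lit 0) (XT.lf (nat_lit 0) (nat_lit 12920759048) (nat_lit 228) (nat_lit 5868012572) (nat_lit 76) (nat_lit 5212399718) (nat_lit 21) (nat_lit 5) (nat_lit 24) (nat_lit 5) (nat_lit 22) (nat_lit 4) (nat_lit 352) (nat_lit 250) (nat_lit 178)) (XT.nd (nat_lit 78) (nat_lit 0) (nat_lit 0) (XT.lf (nat_lit 0) (nat_lit 1403004939) (nat_lit 76) (nat_lit 15161769283) (nat_lit 152) (nat_lit 8023992897) (nat_lit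 20) (nat_lit 5) (nat_lit 21) (nat_lit 5) (nat_lit 22) (nat_lit 4) (nat_lit 353) (nat_lit 250) (nat_lit 177)) (XT.lf (nat_lit 0) (nat_lit 8970614651) (nat_lit 76) (nat_lit 11382466661) (nat_lit 152) (nat_lit 4839876434) (nat_lit 20) (nat_lit 5) (nat_lit 21) (nat_lit 5) (nat_lit 22) (nat_lit 4) (nat_lit 354) (nat_lit 250) (nat_lit 176))))))))
noncomputable def xc82 : XT := (XT.nd (nat_lit 1794) (nat_lit 304) (nat_lit 0) (XT.nd (nat_lit 858) (nat_lit 228) (nat_lit 0) (XT.nd (nat_lit 390) (nat_lit 304) (nat_lit 0) (XT.nd (nat_lit 156) (nat_lit 152) (nat_lit 0) (XT.nd (nat_lit 78) (nat_lit 76) (nat_lit 0) (XT.lf (nat_lit 0) (nat_lit 16724644082) (nat_lit 76) (nat_lit 7506816874) (nat_lit 152) (nat_lit 1584536083) (nat_lit 20) (nat_lit 5) (nat_lit 21) (nat_lit 5) (nat_lit 22) (nat_lit 4) (nat_lit 355) (nat_lit 250) (nat_lit 175)) (XT.lf (nat_lit 0) (nat_lit 1710823877) (nat_lit 152) (nat_lit 1803333586)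 (nat_lit 76) (nat_lit 22943768754) (nat_lit 19) (nat_lit 5) (nat_lit 21) (nat_lit 5) (nat_lit 20) (nat_lit 5) (nat_lit 356) (nat_lit 250) (nat_lit 174))) (XT.nd (nat_lit 78) (nat_lit 0) (nat_lit 0) (XT.lf (nat_lit 0) (nat_lit 5112418847) (nat_lit 228) (nat_lit 21362644121) (nat_lit 76) (nat_lit 642417310) (nat_lit 17) (nat_lit 5) (nat_lit 20) (nat_lit 5) (nat_lit 18) (nat_lit 4) (nat_lit 357) (nat_lit 250) (nat_lit 173)) (XT.nd (nat_lit 78) (nat_lit 0) (nat_lit 0) (XT.lf (nat_lit 0) (nat_lit 8646917764) (nat_lit 228) (nat_lit 14293413463) (nat_lit 76) (nat_lit 4855577954) (nat_lit 17) (nat_lit 5) (nat_lit 20) (nat_lit 5) (nat_lit 18) (nat_lit 4) (nat_lit 358) (nat_lit 250) (nat_lit 172)) (XT.lf (nat_lit 0) (nat_lit 12265774007) (nat_lit 228) (nat_lit 7049855818) (nat_lit 76) (nat_lit 9179724951) (nat_lit 17) (nat_lit 5) (nat_lit 20) (nat_lit 5) (nat_lit 18) (nat_lit 4) (nat_lit 359) (nat_lit 250)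 (nat_lit 171))))) (XT.nd (nat_lit 234) (nat_lit 228) (nat_lit 0) (XT.nd (nat_lit 78) (nat_lit 0) (nat_lit 0) (XT.lf (nat_lit 0) (nat_lit 381808593) (nat_lit 76) (nat_lit 15594011265) (nat_lit 152) (nat_lit 13240498267) (nat_lit 16) (nat_lit 5) (nat_lit 17) (nat_lit 5) (nat_lit 18) (nat_lit 4) (nat_lit 360) (nat_lit 250) (nat_lit 170)) (XT.nd (nat_lit 78) (nat_lit 0) (nat_lit 0) (XT.lf (nat_lit 0) (nat_lit 8144646967) (nat_lit 76) (nat_lit 11702927730) (nat_lit 152) (nat_lit 10109836171) (nat_lit 16) (nat_lit 5) (nat_lit 17) (nat_lit 5) (nat_lit 18) (nat_lit 4) (nat_lit 361) (nat_lit 250) (nat_lit 169)) (XT.lf (nat_lit 0) (nat_lit 16105136411) (nat_lit 76) (nat_lit 7710168965) (nat_lit 152) (nat_lit 6906048673) (nat_lit 16) (nat_lit 5) (nat_lit 17) (nat_lit 5) (nat_lit 18) (nat_lit 4) (nat_lit 362) (nat_lit 250) (nat_lit 168)))) (XT.nd (nat_lit 78) (nat_lit 228) (nat_lit 0) (XT.lf (nat_lit 0) (nat_lit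 24270232693) (nat_lit 76) (nat_lit 3612246152) (nat_lit 152) (nat_lit 3626336347) (nat_lit 16) (nat_lit 5) (nat_lit 17) (nat_lit 5) (nat_lit 18) (nat_lit 4) (nat_lit 363) (nat_lit 250) (nat_lit 167)) (XT.nd (nat_lit 78) (nat_lit 76) (nat_lit 0) (XT.lf (nat_lit 0) (nat_lit 327260074) (nat_lit 152) (nat_lit 31734248636) (nat_lit 152) (nat_lit 258707866) (nat_lit 14) (nat_lit 4) (nat_lit 16) (nat_lit 5) (nat_lit 16) (nat_lit 4) (nat_lit 364) (nat_lit 250) (nat_lit 166)) (XT.lf (nat_lit 0) (nat_lit 3237779976) (nat_lit 228) (nat_lit 24986368607) (nat_lit 76) (nat_lit 4928182665) (nat_lit 13) (nat_lit 5) (nat_lit 16) (nat_lit 5) (nat_lit 14) (nat_lit 4) (nat_lit 365) (nat_lit 250) (nat_lit 165)))))) (XT.nd (nat_lit 468) (nat_lit 152) (nat_lit 0) (XT.nd (nat_lit 234) (nat_lit 76) (nat_lit 0) (XT.nd (nat_lit 78) (nat_lit 0) (nat_lit 0) (XT.lf (nat_lit 0) (nat_lit 6815403614) (nat_lit 228) (nat_lit 17804881154)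 (nat_lit 76) (nat_lit 9389615174) (nat_lit 13) (nat_lit 5) (nat_lit 16) (nat_lit 5) (nat_lit 14) (nat_lit 4) (nat_lit 366) (nat_lit 250) (nat_lit 164)) (XT.nd (nat_lit 78) (nat_lit 0) (nat_lit 0) (XT.lf (nat_lit 0) (nat_lit 10482337450) (nat_lit 228) (nat_lit 10439732198) (nat_lit 76) (nat_lit 13971676950) (nat_lit 13) (nat_lit 5) (nat_lit 16) (nat_lit 5) (nat_lit 14) (nat_lit 4) (nat_lit 367) (nat_lit 250) (nat_lit 163)) (XT.lf (nat_lit 0) (nat_lit 14241785601) (nat_lit 228) (nat_lit 2884486172) (nat_lit 76) (nat_lit 18678371734) (nat_lit 13) (nat_lit 5) (nat_lit 16) (nat_lit 5) (nat_lit 14) (nat_lit 4) (nat_lit 368) (nat_lit 250) (nat_lit 162)))) (XT.nd (nat_lit 78) (nat_lit 0) (nat_lit 0) (XT.lf (nat_lit 0) (nat_lit 4964330564) (nat_lit 76) (nat_lit 13180422638) (nat_lit 152) (nat_lit 18597201792) (nat_lit 12) (nat_lit 5) (nat_lit 13) (nat_lit 5) (nat_lit 14) (nat_lit 4) (nat_lit 369) (nat_lit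 250) (nat_lit 161)) (XT.nd (nat_lit 78) (nat_lit 0) (nat_lit 0) (XT.lf (nat_lit 0) (nat_lit 13078076014) (nat_lit 76) (nat_lit 9099086824) (nat_lit 152) (nat_lit 15529861862) (nat_lit 12) (nat_lit 5) (nat_lit 13) (nat_lit 5) (nat_lit 14) (nat_lit 4) (nat_lit 370) (nat_lit 250) (nat_lit 160)) (XT.lf (nat_lit 0) (nat_lit 21406432928) (nat_lit 76) (nat_lit 4907825770) (nat_lit 152) (nat_lit 12387285573) (nat_lit 12) (nat_lit 5) (nat_lit 13) (nat_lit 5) (nat_lit 14) (nat_lit 4) (nat_lit 371) (nat_lit 250) (nat_lit 159))))) (XT.nd (nat_lit 234) (nat_lit 76) (nat_lit 0) (XT.nd (nat_lit 78) (nat_lit 76) (nat_lit 0) (XT.lf (nat_lit 0) (nat_lit 29956678510) (nat_lit 76) (nat_lit 602977209) (nat_lit 152) (nat_lit 9166726985) (nat_lit 12) (nat_lit 5) (nat_lit 13) (nat_lit 5) (nat_lit 14) (nat_lit 4) (nat_lit 372) (nat_lit 250) (nat_lit 158)) (XT.nd (nat_lit 78) (nat_lit 76) (nat_lit 0) (XT.lf (nat_lit 0)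 (nat_lit 34953776154) (nat_lit 152) (nat_lit 2082864322) (nat_lit 0) (nat_lit 3744693631) (nat_lit 12) (nat_lit 5) (nat_lit 14) (nat_lit 4) (nat_lit 12) (nat_lit 4) (nat_lit 373) (nat_lit 250) (nat_lit 157)) (XT.lf (nat_lit 0) (nat_lit 5917377682) (nat_lit 76) (nat_lit 33610179895) (nat_lit 76) (nat_lit 2338949764) (nat_lit 11) (nat_lit 4) (nat_lit 12) (nat_lit 5) (nat_lit 12) (nat_lit 4) (nat_lit 374) (nat_lit 250) (nat_lit 156)))) (XT.nd (nat_lit 78) (nat_lit 0) (nat_lit 0) (XT.lf (nat_lit 0) (nat_lit 1236095671) (nat_lit 152) (nat_lit 28822293401) (nat_lit 76) (nat_lit 12925305253) (nat_lit 10) (nat_lit 5) (nat_lit 12) (nat_lit 5) (nat_lit 11) (nat_lit 4) (nat_lit 375) (nat_lit 250) (nat_lit 155)) (XT.nd (nat_lit 78) (nat_lit 0) (nat_lit 0) (XT.lf (nat_lit 0) (nat_lit 4856832523) (nat_lit 152) (nat_lit 21530777675) (nat_lit 76) (nat_lit 17746536162) (nat_lit 10) (nat_lit 5) (nat_lit 12) (nat_lit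 5) (nat_lit 11) (nat_lit 4) (nat_lit 376) (nat_lit 250) (nat_lit 154)) (XT.lf (nat_lit 0) (nat_lit 8572065874) (nat_lit 152) (nat_lit 14045727838) (nat_lit 76) (nat_lit 22701749485) (nat_lit 10) (nat_lit 5) (nat_lit 12) (nat_lit 5) (nat_lit 11) (nat_lit 4) (nat_lit 377) (nat_lit 250) (nat_lit 153))))))) (XT.nd (nat_lit 936) (nat_lit 76) (nat_lit 0) (XT.nd (nat_lit 468) (nat_lit 152) (nat_lit 0) (XT.nd (nat_lit 234) (nat_lit 0) (nat_lit 0) (XT.nd (nat_lit 78) (nat_lit 76) (nat_lit 0) (XT.lf (nat_lit 0) (nat_lit 12385042046) (nat_lit 152) (nat_lit 6360603555) (nat_lit 76) (nat_lit 27795275019) (nat_lit 10) (nat_lit 5) (nat_lit 12) (nat_lit 5) (nat_lit 11) (nat_lit 4) (nat_lit 378) (nat_lit 250) (nat_lit 152)) (XT.nd (nat_lit 78) (nat_lit 0) (nat_lit 0) (XT.lf (nat_lit 0) (nat_lit 1561786409) (nat_lit 76) (nat_lit 14752319201) (nat_lit 152) (nat_lit 31484789854) (nat_lit 9) (nat_lit 5) (nat_lit 10)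 (nat_lit 5) (nat_lit 11) (nat_lit 4) (nat_lit 379) (nat_lit 250) (nat_lit 151)) (XT.lf (nat_lit 0) (nat_lit 9828703066) (nat_lit 76) (nat_lit 10583414515) (nat_lit 152) (nat_lit 28680966517) (nat_lit 9) (nat_lit 5) (nat_lit 10) (nat_lit 5) (nat_lit 11) (nat_lit 4) (nat_lit 380) (nat_lit 250) (nat_lit 150)))) (XT.nd (nat_lit 78) (nat_lit 0) (nat_lit 0) (XT.lf (nat_lit 0) (nat_lit 18320781452) (nat_lit 76) (nat_lit 6299518434) (nat_lit 152) (nat_lit 25806188245) (nat_lit 9) (nat_lit 5) (nat_lit 10) (nat_lit 5) (nat_lit 11) (nat_lit 4) (nat_lit 381) (nat_lit 250) (nat_lit 149)) (XT.nd (nat_lit 78) (nat_lit 0) (nat_lit 0) (XT.lf (nat_lit 0) (nat_lit 27045441830) (nat_lit 76) (nat_lit 1896887748) (nat_lit 152) (nat_lit 22857943097) (nat_lit 9) (nat_lit 5) (nat_lit 10) (nat_lit 5) (nat_lit 11) (nat_lit 4) (nat_lit 382) (nat_lit 250) (nat_lit 148)) (XT.lf (nat_lit 0) (nat_lit 33407248251) (nat_lit 152)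 (nat_lit 17230595496) (nat_lit 0) (nat_lit 2577036424) (nat_lit 9) (nat_lit 5) (nat_lit 11) (nat_lit 4) (nat_lit 9) (nat_lit 4) (nat_lit 383) (nat_lit 250) (nat_lit 147))))) (XT.nd (nat_lit 234) (nat_lit 76) (nat_lit 0) (XT.nd (nat_lit 78) (nat_lit 76) (nat_lit 0) (XT.lf (nat_lit 0) (nat_lit 38013120533) (nat_lit 152) (nat_lit 9520589301) (nat_lit 0) (nat_lit 7138011951) (nat_lit 9) (nat_lit 5) (nat_lit 11) (nat_lit 4) (nat_lit 9) (nat_lit 4) (nat_lit 384) (nat_lit 250) (nat_lit 146)) (XT.nd (nat_lit 78) (nat_lit 76) (nat_lit 0) (XT.lf (nat_lit 0) (nat_lit 42745736928) (nat_lit 152) (nat_lit 1599841317) (nat_lit 0) (nat_lit 11827039263) (nat_lit 9) (nat_lit 5) (nat_lit 11) (nat_lit 4) (nat_lit 9) (nat_lit 4) (nat_lit 385) (nat_lit 250) (nat_lit 145)) (XT.lf (nat_lit 0) (nat_lit 6668699851) (nat_lit 76) (nat_lit 41004636502) (nat_lit 76) (nat_lit 10043619341) (nat_lit 8) (nat_lit 4) (nat_lit 9)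 (nat_lit 5) (nat_lit 9) (nat_lit 4) (nat_lit 386) (nat_lit 250) (nat_lit 144)))) (XT.nd (nat_lit 78) (nat_lit 76) (nat_lit 0) (XT.lf (nat_lit 0) (nat_lit 15198328508) (nat_lit 76) (nat_lit 37555624724) (nat_lit 76) (nat_lit 6553520671) (nat_lit 8) (nat_lit 4) (nat_lit 9) (nat_lit 5) (nat_lit 9) (nat_lit 4) (nat_lit 387) (nat_lit 250) (nat_lit 143)) (XT.nd (nat_lit 78) (nat_lit 76) (nat_lit 0) (XT.lf (nat_lit 0) (nat_lit 23964657747) (nat_lit 76) (nat_lit 34011684469) (nat_lit 76) (nat_lit 2969690232) (nat_lit 8) (nat_lit 4) (nat_lit 9) (nat_lit 5) (nat_lit 9) (nat_lit 4) (nat_lit 388) (nat_lit 250) (nat_lit 142)) (XT.lf (nat_lit 0) (nat_lit 697129240) (nat_lit 152) (nat_lit 29665550213) (nat_lit 76) (nat_lit 32271178587) (nat_lit 7) (nat_lit 5) (nat_lit 9) (nat_lit 5) (nat_lit 8) (nat_lit 4) (nat_lit 389) (nat_lit 250) (nat_lit 141)))))) (XT.nd (nat_lit 468) (nat_lit 0) (nat_lit 0) (XT.nd (nat_lit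 234) (nat_lit 76) (nat_lit 0) (XT.nd (nat_lit 78) (nat_lit 0) (nat_lit 0) (XT.lf (nat_lit 0) (nat_lit 4404125863) (nat_lit 152) (nat_lit 22177947395) (nat_lit 76) (nat_lit 37789672187) (nat_lit 7) (nat_lit 5) (nat_lit 9) (nat_lit 5) (nat_lit 8) (nat_lit 4) (nat_lit 390) (nat_lit 250) (nat_lit 140)) (XT.nd (nat_lit 78) (nat_lit 0) (nat_lit 0) (XT.lf (nat_lit 0) (nat_lit 8212488111) (nat_lit 152) (nat_lit 14483477201) (nat_lit 76) (nat_lit 43466104284) (nat_lit 7) (nat_lit 5) (nat_lit 9) (nat_lit 5) (nat_lit 8) (nat_lit 4) (nat_lit 391) (nat_lit 250) (nat_lit 139)) (XT.lf (nat_lit 0) (nat_lit 12125543681) (nat_lit 152) (nat_lit 6575416307) (nat_lit 76) (nat_lit 49305434866) (nat_lit 7) (nat_lit 5) (nat_lit 9) (nat_lit 5) (nat_lit 8) (nat_lit 4) (nat_lit 392) (nat_lit 250) (nat_lit 138)))) (XT.nd (nat_lit 78) (nat_lit 0) (nat_lit 0) (XT.lf (nat_lit 0) (nat_lit 1584055876) (nat_lit 76) (nat_lit 14577882784)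 (nat_lit 152) (nat_lit 53743937299) (nat_lit 6) (nat_lit 5) (nat_lit 7) (nat_lit 5) (nat_lit 8) (nat_lit 4) (nat_lit 393) (nat_lit 250) (nat_lit 137)) (XT.nd (nat_lit 78) (nat_lit 0) (nat_lit 0) (XT.lf (nat_lit 0) (nat_lit 10106524771) (nat_lit 76) (nat_lit 10270131277) (nat_lit 152) (nat_lit 51483972922) (nat_lit 6) (nat_lit 5) (nat_lit 7) (nat_lit 5) (nat_lit 8) (nat_lit 4) (nat_lit 394) (nat_lit 250) (nat_lit 136)) (XT.lf (nat_lit 0) (nat_lit 18868573516) (nat_lit 76) (nat_lit 5840340224) (nat_lit 152) (nat_lit 49165382128) (nat_lit 6) (nat_lit 5) (nat_lit 7) (nat_lit 5) (nat_lit 8) (nat_lit 4) (nat_lit 395) (nat_lit 250) (nat_lit 135))))) (XT.nd (nat_lit 234) (nat_lit 0) (nat_lit 0) (XT.nd (nat_lit 78) (nat_lit 0) (nat_lit 0) (XT.lf (nat_lit 0) (nat_lit 27877858272) (nat_lit 76) (nat_lit 1284638935) (nat_lit 152) (nat_lit 46786138965) (nat_lit 6) (nat_lit 5) (nat_lit 7) (nat_lit 5) (nat_lit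 8) (nat_lit 4) (nat_lit 396) (nat_lit 250) (nat_lit 134)) (XT.nd (nat_lit 78) (nat_lit 0) (nat_lit 0) (XT.lf (nat_lit 0) (nat_lit 33773989970) (nat_lit 152) (nat_lit 40975903223) (nat_lit 0) (nat_lit 3334588452) (nat_lit 6) (nat_lit 5) (nat_lit 8) (nat_lit 4) (nat_lit 6) (nat_lit 4) (nat_lit 397) (nat_lit 250) (nat_lit 133)) (XT.lf (nat_lit 0) (nat_lit 38528337564) (nat_lit 152) (nat_lit 33695814991) (nat_lit 0) (nat_lit 8060118527) (nat_lit 6) (nat_lit 5) (nat_lit 8) (nat_lit 4) (nat_lit 6) (nat_lit 4) (nat_lit 398) (nat_lit 250) (nat_lit 132)))) (XT.nd (nat_lit 78) (nat_lit 0) (nat_lit 0) (XT.lf (nat_lit 0) (nat_lit 43417345537) (nat_lit 152) (nat_lit 26211803227) (nat_lit 0) (nat_lit 12921148327) (nat_lit 6) (nat_lit 5) (nat_lit 8) (nat_lit 4) (nat_lit 6) (nat_lit 4) (nat_lit 399) (nat_lit 250) (nat_lit 131)) (XT.nd (nat_lit 156) (nat_lit 0) (nat_lit 0) (XT.lf (nat_lit 0) (nat_lit 48445285838)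 (nat_lit 152) (nat_lit 18517328502) (nat_lit 0) (nat_lit 17921925353) (nat_lit 6) (nat_lit 5) (nat_lit 8) (nat_lit 4) (nat_lit 6) (nat_lit 4) (nat_lit 400) (nat_lit 250) (nat_lit 130)) (XT.lf (nat_lit 0) (nat_lit 58935662044) (nat_lit 152) (nat_lit 2469907086) (nat_lit 0) (nat_lit 28360325455) (nat_lit 6) (nat_lit 5) (nat_lit 8) (nat_lit 4) (nat_lit 6) (nat_lit 4) (nat_lit 402) (nat_lit 250) (nat_lit 128))))))))
noncomputable def xc83 : XT := (XT.nd (nat_lit 1872) (nat_lit 4332) (nat_lit 0) (XT.nd (nat_lit 936) (nat_lit 3724) (nat_lit 0) (XT.nd (nat_lit 468) (nat_lit 3952) (nat_lit 0) (XT.nd (nat_lit 234) (nat_lit 1824) (nat_lit 0) (XT.nd (nat_lit 78) (nat_lit 836) (nat_lit 0) (XT.lf (nat_lit 0) (nat_lit 1922019135) (nat_lit 684) (nat_lit 743161192) (nat_lit 684) (nat_lit 743161192) (nat_lit 242) (nat_lit 4) (nat_lit 251) (nat_lit 5) (nat_lit 251) (nat_lit 4) (nat_lit 278) (nat_lit 251) (nat_lit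 251)) (XT.nd (nat_lit 78) (nat_lit 0) (nat_lit 0) (XT.lf (nat_lit 0) (nat_lit 1159999404) (nat_lit 760) (nat_lit 355590728) (nat_lit 836) (nat_lit 5345382964) (nat_lit 231) (nat_lit 5) (nat_lit 241) (nat_lit 5) (nat_lit 242) (nat_lit 4) (nat_lit 279) (nat_lit 251) (nat_lit 250)) (XT.lf (nat_lit 0) (nat_lit 4519652433) (nat_lit 836) (nat_lit 1536279967) (nat_lit 0) (nat_lit 852203488) (nat_lit 231) (nat_lit 5) (nat_lit 242) (nat_lit 4) (nat_lit 231) (nat_lit 4) (nat_lit 280) (nat_lit 251) (nat_lit 249)))) (XT.nd (nat_lit 78) (nat_lit 912) (nat_lit 0) (XT.lf (nat_lit 0) (nat_lit 579778076) (nat_lit 912) (nat_lit 4244504396) (nat_lit 76) (nat_lit 2134407717) (nat_lit 219) (nat_lit 5) (nat_lit 231) (nat_lit 5) (nat_lit 220) (nat_lit 4) (nat_lit 281) (nat_lit 251) (nat_lit 248)) (XT.nd (nat_lit 78) (nat_lit 0) (nat_lit 0) (XT.lf (nat_lit 0) (nat_lit 5544269) (nat_lit 912) (nat_lit 3506729418) (nat_lit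 988) (nat_lit 3500305960) (nat_lit 207) (nat_lit 5) (nat_lit 219) (nat_lit 5) (nat_lit 220) (nat_lit 4) (nat_lit 282) (nat_lit 251) (nat_lit 247)) (XT.lf (nat_lit 0) (nat_lit 4386803306) (nat_lit 912) (nat_lit 2098168374) (nat_lit 988) (nat_lit 584764515) (nat_lit 207) (nat_lit 5) (nat_lit 219) (nat_lit 5) (nat_lit 220) (nat_lit 4) (nat_lit 283) (nat_lit 251) (nat_lit 246))))) (XT.nd (nat_lit 234) (nat_lit 1748) (nat_lit 0) (XT.nd (nat_lit 78) (nat_lit 1140) (nat_lit 0) (XT.lf (nat_lit 0) (nat_lit 1697929215) (nat_lit 988) (nat_lit 600374999) (nat_lit 1064) (nat_lit 4831993128) (nat_lit 193) (nat_lit 5) (nat_lit 206) (nat_lit 5) (nat_lit 207) (nat_lit 5) (nat_lit 284) (nat_lit 251) (nat_lit 245)) (XT.nd (nat_lit 78) (nat_lit 1140) (nat_lit 0) (XT.lf (nat_lit 0) (nat_lit 5205315005) (nat_lit 1064) (nat_lit 1026669648) (nat_lit 76) (nat_lit 962239680) (nat_lit 193) (nat_lit 5) (nat_lit 207) (nat_lit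 5) (nat_lit 194) (nat_lit 4) (nat_lit 285) (nat_lit 251) (nat_lit 244)) (XT.lf (nat_lit 0) (nat_lit 875323870) (nat_lit 1140) (nat_lit 3779254953) (nat_lit 76) (nat_lit 2606781097) (nat_lit 178) (nat_lit 5) (nat_lit 193) (nat_lit 5) (nat_lit 179) (nat_lit 5) (nat_lit 286) (nat_lit 251) (nat_lit 243)))) (XT.nd (nat_lit 78) (nat_lit 608) (nat_lit 0) (XT.lf (nat_lit 0) (nat_lit 727921676) (nat_lit 1140) (nat_lit 2991055101) (nat_lit 1216) (nat_lit 3613119927) (nat_lit 163) (nat_lit 5) (nat_lit 178) (nat_lit 5) (nat_lit 179) (nat_lit 5) (nat_lit 287) (nat_lit 251) (nat_lit 242)) (XT.nd (nat_lit 78) (nat_lit 608) (nat_lit 0) (XT.lf (nat_lit 0) (nat_lit 5365125168) (nat_lit 1140) (nat_lit 1238629772) (nat_lit 1216) (nat_lit 802702811) (nat_lit 163) (nat_lit 5) (nat_lit 178) (nat_lit 5) (nat_lit 179) (nat_lit 5) (nat_lit 288) (nat_lit 251) (nat_lit 241)) (XT.lf (nat_lit 0) (nat_lit 2001237292) (nat_lit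 608) (nat_lit 4883037814) (nat_lit 76) (nat_lit 599836714) (nat_lit 155) (nat_lit 5) (nat_lit 163) (nat_lit 5) (nat_lit 156) (nat_lit 5) (nat_lit 289) (nat_lit 251) (nat_lit 240)))))) (XT.nd (nat_lit 468) (nat_lit 1444) (nat_lit 0) (XT.nd (nat_lit 234) (nat_lit 1064) (nat_lit 0) (XT.nd (nat_lit 78) (nat_lit 1216) (nat_lit 0) (XT.lf (nat_lit 0) (nat_lit 4826892239) (nat_lit 608) (nat_lit 243042176) (nat_lit 76) (nat_lit 2495472406) (nat_lit 155) (nat_lit 5) (nat_lit 163) (nat_lit 5) (nat_lit 156) (nat_lit 5) (nat_lit 290) (nat_lit 251) (nat_lit 239)) (XT.nd (nat_lit 78) (nat_lit 532) (nat_lit 0) (XT.lf (nat_lit 0) (nat_lit 52606414) (nat_lit 684) (nat_lit 3107309442) (nat_lit 76) (nat_lit 4490367225) (nat_lit 146) (nat_lit 5) (nat_lit 155) (nat_lit 5) (nat_lit 147) (nat_lit 5) (nat_lit 291) (nat_lit 251) (nat_lit 238)) (XT.lf (nat_lit 0) (nat_lit 1663052649) (nat_lit 532) (nat_lit 1151364292) (nat_lit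 608) (nat_lit 4924363269) (nat_lit 139) (nat_lit 5) (nat_lit 146) (nat_lit 5) (nat_lit 147) (nat_lit 5) (nat_lit 292) (nat_lit 251) (nat_lit 237)))) (XT.nd (nat_lit 78) (nat_lit 1064) (nat_lit 0) (XT.lf (nat_lit 0) (nat_lit 5624505631) (nat_lit 608) (nat_lit 1281606998) (nat_lit 76) (nat_lit 925000527) (nat_lit 139) (nat_lit 5) (nat_lit 147) (nat_lit 5) (nat_lit 140) (nat_lit 5) (nat_lit 293) (nat_lit 251) (nat_lit 236)) (XT.nd (nat_lit 78) (nat_lit 456) (nat_lit 0) (XT.lf (nat_lit 0) (nat_lit 554156747) (nat_lit 608) (nat_lit 4297994364) (nat_lit 76) (nat_lit 3074838198) (nat_lit 131) (nat_lit 5) (nat_lit 139) (nat_lit 5) (nat_lit 132) (nat_lit 5) (nat_lit 294) (nat_lit 251) (nat_lit 235)) (XT.lf (nat_lit 0) (nat_lit 595430418) (nat_lit 456) (nat_lit 2704368234) (nat_lit 532) (nat_lit 4727026936) (nat_lit 125) (nat_lit 5) (nat_lit 131) (nat_lit 5) (nat_lit 132) (nat_lit 5) (nat_lit 295) (nat_lit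 251) (nat_lit 234))))) (XT.nd (nat_lit 234) (nat_lit 912) (nat_lit 0) (XT.nd (nat_lit 78) (nat_lit 532) (nat_lit 0) (XT.lf (nat_lit 0) (nat_lit 5642521011) (nat_lit 456) (nat_lit 457629403) (nat_lit 532) (nat_lit 2030463923) (nat_lit 125) (nat_lit 5) (nat_lit 131) (nat_lit 5) (nat_lit 132) (nat_lit 5) (nat_lit 296) (nat_lit 251) (nat_lit 233)) (XT.nd (nat_lit 78) (nat_lit 0) (nat_lit 0) (XT.lf (nat_lit 0) (nat_lit 705349415) (nat_lit 532) (nat_lit 5690820458) (nat_lit 76) (nat_lit 1842063836) (nat_lit 118) (nat_lit 5) (nat_lit 125) (nat_lit 5) (nat_lit 119) (nat_lit 5) (nat_lit 297) (nat_lit 251) (nat_lit 232)) (XT.lf (nat_lit 0) (nat_lit 3443697265) (nat_lit 532) (nat_lit 669885571) (nat_lit 76) (nat_lit 4236174376) (nat_lit 118) (nat_lit 5) (nat_lit 125) (nat_lit 5) (nat_lit 119) (nat_lit 5) (nat_lit 298) (nat_lit 251) (nat_lit 231)))) (XT.nd (nat_lit 78) (nat_lit 532) (nat_lit 0) (XT.lf (nat_lit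 0) (nat_lit 4510407373) (nat_lit 380) (nat_lit 1730509842) (nat_lit 456) (nat_lit 2224520927) (nat_lit 113) (nat_lit 5) (nat_lit 118) (nat_lit 5) (nat_lit 119) (nat_lit 5) (nat_lit 299) (nat_lit 251) (nat_lit 230)) (XT.nd (nat_lit 78) (nat_lit 0) (nat_lit 0) (XT.lf (nat_lit 0) (nat_lit 486334968) (nat_lit 532) (nat_lit 7379056166) (nat_lit 76) (nat_lit 720369482) (nat_lit 106) (nat_lit 5) (nat_lit 113) (nat_lit 5) (nat_lit 107) (nat_lit 5) (nat_lit 300) (nat_lit 251) (nat_lit 229)) (XT.lf (nat_lit 0) (nat_lit 3226100070) (nat_lit 532) (nat_lit 2224749834) (nat_lit 76) (nat_lit 3258517035) (nat_lit 106) (nat_lit 5) (nat_lit 113) (nat_lit 5) (nat_lit 107) (nat_lit 5) (nat_lit 301) (nat_lit 251) (nat_lit 228))))))) (XT.nd (nat_lit 936) (nat_lit 1748) (nat_lit 0) (XT.nd (nat_lit 468) (nat_lit 988) (nat_lit 0) (XT.nd (nat_lit 234) (nat_lit 760) (nat_lit 0) (XT.nd (nat_lit 78) (nat_lit 456) (nat_lit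 0) (XT.lf (nat_lit 0) (nat_lit 3065294754) (nat_lit 380) (nat_lit 2948954055) (nat_lit 456) (nat_lit 2823547651) (nat_lit 101) (nat_lit 5) (nat_lit 106) (nat_lit 5) (nat_lit 107) (nat_lit 5) (nat_lit 302) (nat_lit 251) (nat_lit 227)) (XT.nd (nat_lit 78) (nat_lit 456) (nat_lit 0) (XT.lf (nat_lit 0) (nat_lit 8481711626) (nat_lit 380) (nat_lit 364614999) (nat_lit 456) (nat_lit 125041500) (nat_lit 101) (nat_lit 5) (nat_lit 106) (nat_lit 5) (nat_lit 107) (nat_lit 5) (nat_lit 303) (nat_lit 251) (nat_lit 226)) (XT.lf (nat_lit 0) (nat_lit 2611755870) (nat_lit 456) (nat_lit 4185637490) (nat_lit 76) (nat_lit 2310606283) (nat_lit 95) (nat_lit 5) (nat_lit 101) (nat_lit 5) (nat_lit 96) (nat_lit 5) (nat_lit 304) (nat_lit 251) (nat_lit 225)))) (XT.nd (nat_lit 78) (nat_lit 456) (nat_lit 0) (XT.lf (nat_lit 0) (nat_lit 1198740477) (nat_lit 304) (nat_lit 4189359437) (nat_lit 380) (nat_lit 3861883871) (nat_lit 91)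 (nat_lit 5) (nat_lit 95) (nat_lit 5) (nat_lit 96) (nat_lit 5) (nat_lit 305) (nat_lit 251) (nat_lit 224)) (XT.nd (nat_lit 78) (nat_lit 456) (nat_lit 0) (XT.lf (nat_lit 0) (nat_lit 6753264179) (nat_lit 304) (nat_lit 1477576765) (nat_lit 380) (nat_lit 1165980197) (nat_lit 91) (nat_lit 5) (nat_lit 95) (nat_lit 5) (nat_lit 96) (nat_lit 5) (nat_lit 306) (nat_lit 251) (nat_lit 223)) (XT.lf (nat_lit 0) (nat_lit 1561971428) (nat_lit 456) (nat_lit 6670375303) (nat_lit 76) (nat_lit 1315856168) (nat_lit 85) (nat_lit 5) (nat_lit 91) (nat_lit 5) (nat_lit 86) (nat_lit 5) (nat_lit 307) (nat_lit 251) (nat_lit 222))))) (XT.nd (nat_lit 234) (nat_lit 304) (nat_lit 0) (XT.nd (nat_lit 78) (nat_lit 684) (nat_lit 0) (XT.lf (nat_lit 0) (nat_lit 4332617541) (nat_lit 456) (nat_lit 1187766601) (nat_lit 76) (nat_lit 4183946423) (nat_lit 85) (nat_lit 5) (nat_lit 91) (nat_lit 5) (nat_lit 86) (nat_lit 5) (nat_lit 308) (nat_lit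 251) (nat_lit 221)) (XT.nd (nat_lit 78) (nat_lit 380) (nat_lit 0) (XT.lf (nat_lit 0) (nat_lit 4471777727) (nat_lit 304) (nat_lit 2701962100) (nat_lit 380) (nat_lit 2691858732) (nat_lit 81) (nat_lit 5) (nat_lit 85) (nat_lit 5) (nat_lit 86) (nat_lit 5) (nat_lit 309) (nat_lit 251) (nat_lit 220)) (XT.lf (nat_lit 0) (nat_lit 27860447) (nat_lit 380) (nat_lit 9812446545) (nat_lit 76) (nat_lit 192626532) (nat_lit 76) (nat_lit 5) (nat_lit 81) (nat_lit 5) (nat_lit 77) (nat_lit 5) (nat_lit 310) (nat_lit 251) (nat_lit 219)))) (XT.nd (nat_lit 78) (nat_lit 304) (nat_lit 0) (XT.lf (nat_lit 0) (nat_lit 2802192833) (nat_lit 380) (nat_lit 4219823009) (nat_lit 76) (nat_lit 3181730025) (nat_lit 76) (nat_lit 5) (nat_lit 81) (nat_lit 5) (nat_lit 77) (nat_lit 5) (nat_lit 311) (nat_lit 251) (nat_lit 218)) (XT.nd (nat_lit 78) (nat_lit 0) (nat_lit 0) (XT.lf (nat_lit 0) (nat_lit 1495967944) (nat_lit 304) (nat_lit 4125125593)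 (nat_lit 380) (nat_lit 4759817483) (nat_lit 72) (nat_lit 5) (nat_lit 76) (nat_lit 5) (nat_lit 77) (nat_lit 5) (nat_lit 312) (nat_lit 251) (nat_lit 217)) (XT.lf (nat_lit 0) (nat_lit 7396655409) (nat_lit 304) (nat_lit 1118318404) (nat_lit 380) (nat_lit 2048771533) (nat_lit 72) (nat_lit 5) (nat_lit 76) (nat_lit 5) (nat_lit 77) (nat_lit 5) (nat_lit 313) (nat_lit 251) (nat_lit 216)))))) (XT.nd (nat_lit 468) (nat_lit 760) (nat_lit 0) (XT.nd (nat_lit 234) (nat_lit 380) (nat_lit 0) (XT.nd (nat_lit 78) (nat_lit 228) (nat_lit 0) (XT.lf (nat_lit 0) (nat_lit 722912002) (nat_lit 380) (nat_lit 8076100413) (nat_lit 76) (nat_lit 1953086119) (nat_lit 67) (nat_lit 5) (nat_lit 72) (nat_lit 5) (nat_lit 68) (nat_lit 5) (nat_lit 314) (nat_lit 251) (nat_lit 215)) (XT.nd (nat_lit 78) (nat_lit 228) (nat_lit 0) (XT.lf (nat_lit 0) (nat_lit 3529300185) (nat_lit 380) (nat_lit 2290216385) (nat_lit 76) (nat_lit 5126256171)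 (nat_lit 67) (nat_lit 5) (nat_lit 72) (nat_lit 5) (nat_lit 68) (nat_lit 5) (nat_lit 315) (nat_lit 251) (nat_lit 214)) (XT.lf (nat_lit 0) (nat_lit 3670281469) (nat_lit 228) (nat_lit 2735716347) (nat_lit 304) (nat_lit 4739734994) (nat_lit 64) (nat_lit 5) (nat_lit 67) (nat_lit 5) (nat_lit 68) (nat_lit 5) (nat_lit 316) (nat_lit 251) (nat_lit 213)))) (XT.nd (nat_lit 78) (nat_lit 380) (nat_lit 0) (XT.lf (nat_lit 0) (nat_lit 9347977701) (nat_lit 304) (nat_lit 1570114797) (nat_lit 76) (nat_lit 434287187) (nat_lit 64) (nat_lit 5) (nat_lit 68) (nat_lit 5) (nat_lit 65) (nat_lit 5) (nat_lit 317) (nat_lit 251) (nat_lit 212)) (XT.nd (nat_lit 78) (nat_lit 0) (nat_lit 0) (XT.lf (nat_lit 0) (nat_lit 820489843) (nat_lit 380) (nat_lit 7068564501) (nat_lit 76) (nat_lit 3675290424) (nat_lit 59) (nat_lit 5) (nat_lit 64) (nat_lit 5) (nat_lit 60) (nat_lit 5) (nat_lit 318) (nat_lit 251) (nat_lit 211)) (XT.lf (nat_lit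 0) (nat_lit 3658863566) (nat_lit 380) (nat_lit 1095788297) (nat_lit 76) (nat_lit 7028403494) (nat_lit 59) (nat_lit 5) (nat_lit 64) (nat_lit 5) (nat_lit 60) (nat_lit 5) (nat_lit 319) (nat_lit 251) (nat_lit 210))))) (XT.nd (nat_lit 234) (nat_lit 228) (nat_lit 0) (XT.nd (nat_lit 78) (nat_lit 304) (nat_lit 0) (XT.lf (nat_lit 0) (nat_lit 5088049005) (nat_lit 228) (nat_lit 1497627162) (nat_lit 304) (nat_lit 5422603504) (nat_lit 56) (nat_lit 5) (nat_lit 59) (nat_lit 5) (nat_lit 60) (nat_lit 5) (nat_lit 320) (nat_lit 251) (nat_lit 209)) (XT.nd (nat_lit 78) (nat_lit 304) (nat_lit 0) (XT.lf (nat_lit 0) (nat_lit 9584175401) (nat_lit 304) (nat_lit 845961357) (nat_lit 76) (nat_lit 1810657043) (nat_lit 56) (nat_lit 5) (nat_lit 60) (nat_lit 5) (nat_lit 57) (nat_lit 5) (nat_lit 321) (nat_lit 251) (nat_lit 208)) (XT.lf (nat_lit 0) (nat_lit 212026983) (nat_lit 304) (nat_lit 7045888781) (nat_lit 76) (nat_lit 5221655808)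 (nat_lit 52) (nat_lit 5) (nat_lit 56) (nat_lit 5) (nat_lit 53) (nat_lit 5) (nat_lit 322) (nat_lit 251) (nat_lit 207)))) (XT.nd (nat_lit 78) (nat_lit 228) (nat_lit 0) (XT.lf (nat_lit 0) (nat_lit 3078309520) (nat_lit 304) (nat_lit 898810692) (nat_lit 76) (nat_lit 8748699519) (nat_lit 52) (nat_lit 5) (nat_lit 56) (nat_lit 5) (nat_lit 53) (nat_lit 5) (nat_lit 323) (nat_lit 251) (nat_lit 206)) (XT.nd (nat_lit 78) (nat_lit 0) (nat_lit 0) (XT.lf (nat_lit 0) (nat_lit 5475225769) (nat_lit 228) (nat_lit 565603517) (nat_lit 304) (nat_lit 6938362613) (nat_lit 49) (nat_lit 5) (nat_lit 52) (nat_lit 5) (nat_lit 53) (nat_lit 5) (nat_lit 324) (nat_lit 251) (nat_lit 205)) (XT.lf (nat_lit 0) (nat_lit 9087760625) (nat_lit 304) (nat_lit 1274165193) (nat_lit 76) (nat_lit 2878416080) (nat_lit 49) (nat_lit 5) (nat_lit 53) (nat_lit 5) (nat_lit 50) (nat_lit 5) (nat_lit 325) (nat_lit 251) (nat_lit 204))))))))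
noncomputable def xc84 : XT := (XT.nd (nat_lit 1794) (nat_lit 912) (nat_lit 0) (XT.nd (nat_lit 858) (nat_lit 836) (nat_lit 0) (XT.nd (nat_lit 390) (nat_lit 380) (nat_lit 0) (XT.nd (nat_lit 156) (nat_lit 380) (nat_lit 0) (XT.nd (nat_lit 78) (nat_lit 76) (nat_lit 0) (XT.lf (nat_lit 0) (nat_lit 5175049537) (nat_lit 228) (nat_lit 7065648010) (nat_lit 304) (nat_lit 1268232419) (nat_lit 46) (nat_lit 5) (nat_lit 49) (nat_lit 5) (nat_lit 50) (nat_lit 5) (nat_lit 326) (nat_lit 251) (nat_lit 203)) (XT.lf (nat_lit 0) (nat_lit 1641819307) (nat_lit 304) (nat_lit 2020918923) (nat_lit 76) (nat_lit 10123213641) (nat_lit 45) (nat_lit 5) (nat_lit 49) (nat_lit 5) (nat_lit 46) (nat_lit 5) (nat_lit 327) (nat_lit 251) (nat_lit 202))) (XT.nd (nat_lit 78) (nat_lit 228) (nat_lit 0) (XT.lf (nat_lit 0) (nat_lit 4495337800) (nat_lit 152) (nat_lit 122142155) (nat_lit 228) (nat_lit 9453351827) (nat_lit 43) (nat_lit 5) (nat_lit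 45) (nat_lit 5) (nat_lit 46) (nat_lit 5) (nat_lit 328) (nat_lit 251) (nat_lit 201)) (XT.nd (nat_lit 78) (nat_lit 228) (nat_lit 0) (XT.lf (nat_lit 0) (nat_lit 7697842044) (nat_lit 228) (nat_lit 3210869414) (nat_lit 76) (nat_lit 3455120553) (nat_lit 43) (nat_lit 5) (nat_lit 46) (nat_lit 5) (nat_lit 44) (nat_lit 5) (nat_lit 329) (nat_lit 251) (nat_lit 200)) (XT.lf (nat_lit 0) (nat_lit 3348981591) (nat_lit 228) (nat_lit 7517113783) (nat_lit 304) (nat_lit 3799698260) (nat_lit 40) (nat_lit 5) (nat_lit 43) (nat_lit 5) (nat_lit 44) (nat_lit 5) (nat_lit 330) (nat_lit 251) (nat_lit 199))))) (XT.nd (nat_lit 234) (nat_lit 152) (nat_lit 0) (XT.nd (nat_lit 78) (nat_lit 228) (nat_lit 0) (XT.lf (nat_lit 0) (nat_lit 10112180939) (nat_lit 228) (nat_lit 4012252238) (nat_lit 304) (nat_lit 852564576) (nat_lit 40) (nat_lit 5) (nat_lit 43) (nat_lit 5) (nat_lit 44) (nat_lit 5) (nat_lit 331) (nat_lit 251) (nat_lit 198))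 (XT.nd (nat_lit 78) (nat_lit 0) (nat_lit 0) (XT.lf (nat_lit 0) (nat_lit 1735312691) (nat_lit 152) (nat_lit 385063301) (nat_lit 228) (nat_lit 13177165518) (nat_lit 37) (nat_lit 5) (nat_lit 39) (nat_lit 5) (nat_lit 40) (nat_lit 5) (nat_lit 332) (nat_lit 251) (nat_lit 197)) (XT.lf (nat_lit 0) (nat_lit 5210808208) (nat_lit 228) (nat_lit 7092838586) (nat_lit 76) (nat_lit 3322470181) (nat_lit 37) (nat_lit 5) (nat_lit 40) (nat_lit 5) (nat_lit 38) (nat_lit 5) (nat_lit 333) (nat_lit 251) (nat_lit 196)))) (XT.nd (nat_lit 78) (nat_lit 152) (nat_lit 0) (XT.lf (nat_lit 0) (nat_lit 8362441952) (nat_lit 228) (nat_lit 490113036) (nat_lit 76) (nat_lit 7112970936) (nat_lit 37) (nat_lit 5) (nat_lit 40) (nat_lit 5) (nat_lit 38) (nat_lit 5) (nat_lit 334) (nat_lit 251) (nat_lit 195)) (XT.nd (nat_lit 78) (nat_lit 0) (nat_lit 0) (XT.lf (nat_lit 0) (nat_lit 6379913762) (nat_lit 152) (nat_lit 5255743488) (nat_lit 228)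 (nat_lit 4678678896) (nat_lit 35) (nat_lit 5) (nat_lit 37) (nat_lit 5) (nat_lit 38) (nat_lit 5) (nat_lit 335) (nat_lit 251) (nat_lit 194)) (XT.lf (nat_lit 0) (nat_lit 13411354504) (nat_lit 152) (nat_lit 1566841344) (nat_lit 228) (nat_lit 1696310129) (nat_lit 35) (nat_lit 5) (nat_lit 37) (nat_lit 5) (nat_lit 38) (nat_lit 5) (nat_lit 336) (nat_lit 251) (nat_lit 193)))))) (XT.nd (nat_lit 468) (nat_lit 304) (nat_lit 0) (XT.nd (nat_lit 234) (nat_lit 152) (nat_lit 0) (XT.nd (nat_lit 78) (nat_lit 152) (nat_lit 0) (XT.lf (nat_lit 0) (nat_lit 1371954453) (nat_lit 228) (nat_lit 13455119843) (nat_lit 76) (nat_lit 2217339380) (nat_lit 32) (nat_lit 5) (nat_lit 35) (nat_lit 5) (nat_lit 33) (nat_lit 5) (nat_lit 337) (nat_lit 251) (nat_lit 192)) (XT.nd (nat_lit 78) (nat_lit 152) (nat_lit 0) (XT.lf (nat_lit 0) (nat_lit 4514030407) (nat_lit 228) (nat_lit 6796971648) (nat_lit 76) (nat_lit 6113463606) (nat_lit 32)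 (nat_lit 5) (nat_lit 35) (nat_lit 5) (nat_lit 33) (nat_lit 5) (nat_lit 338) (nat_lit 251) (nat_lit 191)) (XT.lf (nat_lit 0) (nat_lit 8553131) (nat_lit 152) (nat_lit 7709923576) (nat_lit 228) (nat_lit 10098425118) (nat_lit 30) (nat_lit 5) (nat_lit 32) (nat_lit 5) (nat_lit 33) (nat_lit 5) (nat_lit 339) (nat_lit 251) (nat_lit 190)))) (XT.nd (nat_lit 78) (nat_lit 152) (nat_lit 0) (XT.lf (nat_lit 0) (nat_lit 7105555191) (nat_lit 152) (nat_lit 3950594380) (nat_lit 228) (nat_lit 7163873814) (nat_lit 30) (nat_lit 5) (nat_lit 32) (nat_lit 5) (nat_lit 33) (nat_lit 5) (nat_lit 340) (nat_lit 251) (nat_lit 189)) (XT.nd (nat_lit 78) (nat_lit 152) (nat_lit 0) (XT.lf (nat_lit 0) (nat_lit 14364962733) (nat_lit 152) (nat_lit 98365704) (nat_lit 228) (nat_lit 4172853258) (nat_lit 30) (nat_lit 5) (nat_lit 32) (nat_lit 5) (nat_lit 33) (nat_lit 5) (nat_lit 341) (nat_lit 251) (nat_lit 188)) (XT.lf (nat_lit 0) (nat_lit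 2743912363) (nat_lit 152) (nat_lit 15262464041) (nat_lit 228) (nat_lit 1057462404) (nat_lit 28) (nat_lit 5) (nat_lit 30) (nat_lit 5) (nat_lit 31) (nat_lit 4) (nat_lit 342) (nat_lit 251) (nat_lit 187))))) (XT.nd (nat_lit 234) (nat_lit 76) (nat_lit 0) (XT.nd (nat_lit 78) (nat_lit 152) (nat_lit 0) (XT.lf (nat_lit 0) (nat_lit 2124105857) (nat_lit 228) (nat_lit 9517951582) (nat_lit 76) (nat_lit 7861229177) (nat_lit 27) (nat_lit 5) (nat_lit 30) (nat_lit 5) (nat_lit 28) (nat_lit 5) (nat_lit 343) (nat_lit 251) (nat_lit 186)) (XT.nd (nat_lit 78) (nat_lit 152) (nat_lit 0) (XT.lf (nat_lit 0) (nat_lit 5350901356) (nat_lit 228) (nat_lit 2570826106) (nat_lit 76) (nat_lit 12034766932) (nat_lit 27) (nat_lit 5) (nat_lit 30) (nat_lit 5) (nat_lit 28) (nat_lit 5) (nat_lit 344) (nat_lit 251) (nat_lit 185)) (XT.lf (nat_lit 0) (nat_lit 4627994094) (nat_lit 152) (nat_lit 4062871539) (nat_lit 228) (nat_lit 11731962854)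 (nat_lit 25) (nat_lit 5) (nat_lit 27) (nat_lit 5) (nat_lit 28) (nat_lit 5) (nat_lit 345) (nat_lit 251) (nat_lit 184)))) (XT.nd (nat_lit 78) (nat_lit 76) (nat_lit 0) (XT.lf (nat_lit 0) (nat_lit 12048911501) (nat_lit 152) (nat_lit 80326907) (nat_lit 228) (nat_lit 8773988321) (nat_lit 25) (nat_lit 5) (nat_lit 27) (nat_lit 5) (nat_lit 28) (nat_lit 5) (nat_lit 346) (nat_lit 251) (nat_lit 183)) (XT.nd (nat_lit 78) (nat_lit 76) (nat_lit 0) (XT.lf (nat_lit 0) (nat_lit 15682303288) (nat_lit 228) (nat_lit 1790102464) (nat_lit 76) (nat_lit 3925304760) (nat_lit 25) (nat_lit 5) (nat_lit 28) (nat_lit 5) (nat_lit 26) (nat_lit 4) (nat_lit 347) (nat_lit 251) (nat_lit 182)) (XT.lf (nat_lit 0) (nat_lit 5548995072) (nat_lit 76) (nat_lit 13820772475) (nat_lit 152) (nat_lit 2536446280) (nat_lit 24) (nat_lit 5) (nat_lit 25) (nat_lit 5) (nat_lit 26) (nat_lit 4) (nat_lit 348) (nat_lit 251) (nat_lit 181))))))) (XT.nd (nat_lit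 936) (nat_lit 380) (nat_lit 0) (XT.nd (nat_lit 468) (nat_lit 228) (nat_lit 0) (XT.nd (nat_lit 234) (nat_lit 76) (nat_lit 0) (XT.nd (nat_lit 78) (nat_lit 152) (nat_lit 0) (XT.lf (nat_lit 0) (nat_lit 715479429) (nat_lit 152) (nat_lit 9336372444) (nat_lit 76) (nat_lit 12378165879) (nat_lit 23) (nat_lit 5) (nat_lit 25) (nat_lit 5) (nat_lit 24) (nat_lit 5) (nat_lit 349) (nat_lit 251) (nat_lit 180)) (XT.nd (nat_lit 78) (nat_lit 152) (nat_lit 0) (XT.lf (nat_lit 0) (nat_lit 3988486930) (nat_lit 152) (nat_lit 2173345542) (nat_lit 76) (nat_lit 16807732408) (nat_lit 23) (nat_lit 5) (nat_lit 25) (nat_lit 5) (nat_lit 24) (nat_lit 5) (nat_lit 350) (nat_lit 251) (nat_lit 179)) (XT.lf (nat_lit 0) (nat_lit 5265246706) (nat_lit 152) (nat_lit 2120297401) (nat_lit 228) (nat_lit 16138995628) (nat_lit 21) (nat_lit 5) (nat_lit 23) (nat_lit 5) (nat_lit 24) (nat_lit 5) (nat_lit 351) (nat_lit 251) (nat_lit 178)))) (XT.nd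 (nat_lit 78) (nat_lit 76) (nat_lit 0) (XT.lf (nat_lit 0) (nat_lit 10901712073) (nat_lit 228) (nat_lit 11186049118) (nat_lit 76) (nat_lit 2007903273) (nat_lit 21) (nat_lit 5) (nat_lit 24) (nat_lit 5) (nat_lit 22) (nat_lit 4) (nat_lit 352) (nat_lit 251) (nat_lit 177)) (XT.nd (nat_lit 78) (nat_lit 76) (nat_lit 0) (XT.lf (nat_lit 0) (nat_lit 14520476225) (nat_lit 228) (nat_lit 3962611571) (nat_lit 76) (nat_lit 6200937919) (nat_lit 21) (nat_lit 5) (nat_lit 24) (nat_lit 5) (nat_lit 22) (nat_lit 4) (nat_lit 353) (nat_lit 251) (nat_lit 176)) (XT.lf (nat_lit 0) (nat_lit 3506130177) (nat_lit 76) (nat_lit 14752189887) (nat_lit 152) (nat_lit 7031417884) (nat_lit 20) (nat_lit 5) (nat_lit 21) (nat_lit 5) (nat_lit 22) (nat_lit 4) (nat_lit 354) (nat_lit 251) (nat_lit 175))))) (XT.nd (nat_lit 234) (nat_lit 0) (nat_lit 0) (XT.nd (nat_lit 78) (nat_lit 228) (nat_lit 0) (XT.lf (nat_lit 0) (nat_lit 11240738033) (nat_lit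 76) (nat_lit 10884685832) (nat_lit 152) (nat_lit 3787699135) (nat_lit 20) (nat_lit 5) (nat_lit 21) (nat_lit 5) (nat_lit 22) (nat_lit 4) (nat_lit 355) (nat_lit 251) (nat_lit 174)) (XT.nd (nat_lit 78) (nat_lit 228) (nat_lit 0) (XT.lf (nat_lit 0) (nat_lit 19169106649) (nat_lit 76) (nat_lit 6917210866) (nat_lit 152) (nat_lit 469573532) (nat_lit 20) (nat_lit 5) (nat_lit 21) (nat_lit 5) (nat_lit 22) (nat_lit 4) (nat_lit 356) (nat_lit 251) (nat_lit 173)) (XT.lf (nat_lit 0) (nat_lit 52458506) (nat_lit 152) (nat_lit 2816809979) (nat_lit 228) (nat_lit 24348476368) (nat_lit 17) (nat_lit 5) (nat_lit 19) (nat_lit 5) (nat_lit 20) (nat_lit 5) (nat_lit 357) (nat_lit 251) (nat_lit 172)))) (XT.nd (nat_lit 78) (nat_lit 0) (nat_lit 0) (XT.lf (nat_lit 0) (nat_lit 6366011860) (nat_lit 228) (nat_lit 20087574815) (nat_lit 76) (nat_lit 1443726395) (nat_lit 17) (nat_lit 5) (nat_lit 20) (nat_lit 5) (nat_lit 18) (nat_lit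 4) (nat_lit 358) (nat_lit 251) (nat_lit 171)) (XT.nd (nat_lit 78) (nat_lit 0) (nat_lit 0) (XT.lf (nat_lit 0) (nat_lit 9974500490) (nat_lit 228) (nat_lit 12862071565) (nat_lit 76) (nat_lit 5760504094) (nat_lit 17) (nat_lit 5) (nat_lit 20) (nat_lit 5) (nat_lit 18) (nat_lit 4) (nat_lit 359) (nat_lit 251) (nat_lit 170)) (XT.lf (nat_lit 0) (nat_lit 13670810520) (nat_lit 228) (nat_lit 5455386152) (nat_lit 76) (nat_lit 10192261167) (nat_lit 17) (nat_lit 5) (nat_lit 20) (nat_lit 5) (nat_lit 18) (nat_lit 4) (nat_lit 360) (nat_lit 251) (nat_lit 169)))))) (XT.nd (nat_lit 468) (nat_lit 76) (nat_lit 0) (XT.nd (nat_lit 234) (nat_lit 228) (nat_lit 0) (XT.nd (nat_lit 78) (nat_lit 0) (nat_lit 0) (XT.lf (nat_lit 0) (nat_lit 2181522649) (nat_lit 76) (nat_lit 15297619219) (nat_lit 152) (nat_lit 12582317504) (nat_lit 16) (nat_lit 5) (nat_lit 17) (nat_lit 5) (nat_lit 18) (nat_lit 4) (nat_lit 361) (nat_lit 251) (nat_lit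 168)) (XT.nd (nat_lit 78) (nat_lit 0) (nat_lit 0) (XT.lf (nat_lit 0) (nat_lit 10125160938) (nat_lit 76) (nat_lit 11312061791) (nat_lit 152) (nat_lit 9388475226) (nat_lit 16) (nat_lit 5) (nat_lit 17) (nat_lit 5) (nat_lit 18) (nat_lit 4) (nat_lit 362) (nat_lit 251) (nat_lit 167)) (XT.lf (nat_lit 0) (nat_lit 18273896874) (nat_lit 76) (nat_lit 7221130567) (nat_lit 152) (nat_lit 6118418454) (nat_lit 16) (nat_lit 5) (nat_lit 17) (nat_lit 5) (nat_lit 18) (nat_lit 4) (nat_lit 363) (nat_lit 251) (nat_lit 166)))) (XT.nd (nat_lit 78) (nat_lit 228) (nat_lit 0) (XT.lf (nat_lit 0) (nat_lit 26634850713) (nat_lit 76) (nat_lit 3021250947) (nat_lit 152) (nat_lit 2769289856) (nat_lit 16) (nat_lit 5) (nat_lit 17) (nat_lit 5) (nat_lit 18) (nat_lit 4) (nat_lit 364) (nat_lit 251) (nat_lit 165)) (XT.nd (nat_lit 78) (nat_lit 0) (nat_lit 0) (XT.lf (nat_lit 0) (nat_lit 680671886) (nat_lit 228) (nat_lit 31288679610) (nat_lit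 76) (nat_lit 1291749435) (nat_lit 13) (nat_lit 5) (nat_lit 16) (nat_lit 5) (nat_lit 14) (nat_lit 4) (nat_lit 365) (nat_lit 251) (nat_lit 164)) (XT.lf (nat_lit 0) (nat_lit 4249419410) (nat_lit 228) (nat_lit 24122848867) (nat_lit 76) (nat_lit 5746672729) (nat_lit 13) (nat_lit 5) (nat_lit 16) (nat_lit 5) (nat_lit 14) (nat_lit 4) (nat_lit 366) (nat_lit 251) (nat_lit 163))))) (XT.nd (nat_lit 234) (nat_lit 76) (nat_lit 0) (XT.nd (nat_lit 78) (nat_lit 0) (nat_lit 0) (XT.lf (nat_lit 0) (nat_lit 7907735660) (nat_lit 228) (nat_lit 16772900600) (nat_lit 76) (nat_lit 10322414876) (nat_lit 13) (nat_lit 5) (nat_lit 16) (nat_lit 5) (nat_lit 14) (nat_lit 4) (nat_lit 367) (nat_lit 251) (nat_lit 162)) (XT.nd (nat_lit 78) (nat_lit 0) (nat_lit 0) (XT.lf (nat_lit 0) (nat_lit 11658817222) (nat_lit 228) (nat_lit 9232412525) (nat_lit 76) (nat_lit 15022974100) (nat_lit 13) (nat_lit 5) (nat_lit 16) (nat_lit 5) (nat_lit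 14) (nat_lit 4) (nat_lit 368) (nat_lit 251) (nat_lit 161)) (XT.lf (nat_lit 0) (nat_lit 15505941740) (nat_lit 228) (nat_lit 1494795865) (nat_lit 76) (nat_lit 19852457684) (nat_lit 13) (nat_lit 5) (nat_lit 16) (nat_lit 5) (nat_lit 14) (nat_lit 4) (nat_lit 369) (nat_lit 251) (nat_lit 160)))) (XT.nd (nat_lit 78) (nat_lit 0) (nat_lit 0) (XT.lf (nat_lit 0) (nat_lit 6575012580) (nat_lit 76) (nat_lit 12940661241) (nat_lit 152) (nat_lit 18303276028) (nat_lit 12) (nat_lit 5) (nat_lit 13) (nat_lit 5) (nat_lit 14) (nat_lit 4) (nat_lit 370) (nat_lit 251) (nat_lit 159)) (XT.nd (nat_lit 78) (nat_lit 0) (nat_lit 0) (XT.lf (nat_lit 0) (nat_lit 14889595091) (nat_lit 76) (nat_lit 8755385568) (nat_lit 152) (nat_lit 15168726827) (nat_lit 12) (nat_lit 5) (nat_lit 13) (nat_lit 5) (nat_lit 14) (nat_lit 4) (nat_lit 371) (nat_lit 251) (nat_lit 158)) (XT.lf (nat_lit 0) (nat_lit 23426467465) (nat_lit 76) (nat_lit 4456348057)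 (nat_lit 152) (nat_lit 11955961528) (nat_lit 12) (nat_lit 5) (nat_lit 13) (nat_lit 5) (nat_lit 14) (nat_lit 4) (nat_lit 372) (nat_lit 251) (nat_lit 157))))))))
noncomputable def xc85 : XT := (XT.nd (nat_lit 1872) (nat_lit 0) (nat_lit 0) (XT.nd (nat_lit 936) (nat_lit 228) (nat_lit 0) (XT.nd (nat_lit 468) (nat_lit 76) (nat_lit 0) (XT.nd (nat_lit 234) (nat_lit 76) (nat_lit 0) (XT.nd (nat_lit 78) (nat_lit 76) (nat_lit 0) (XT.lf (nat_lit 0) (nat_lit 32193089108) (nat_lit 76) (nat_lit 39792267) (nat_lit 152) (nat_lit 8662172860) (nat_lit 12) (nat_lit 5) (nat_lit 13) (nat_lit 5) (nat_lit 14) (nat_lit 4) (nat_lit 373) (nat_lit 251) (nat_lit 156)) (XT.nd (nat_lit 78) (nat_lit 76) (nat_lit 0) (XT.lf (nat_lit 0) (nat_lit 36742218126) (nat_lit 152) (nat_lit 829580709) (nat_lit 0) (nat_lit 4410365997) (nat_lit 12) (nat_lit 5) (nat_lit 14) (nat_lit 4) (nat_lit 12) (nat_lit 4) (nat_lit 374) (nat_lit 251) (nat_lit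 155)) (XT.lf (nat_lit 0) (nat_lit 7397768854) (nat_lit 76) (nat_lit 34046419711) (nat_lit 76) (nat_lit 1655987501) (nat_lit 11) (nat_lit 4) (nat_lit 12) (nat_lit 5) (nat_lit 12) (nat_lit 4) (nat_lit 375) (nat_lit 251) (nat_lit 154)))) (XT.nd (nat_lit 78) (nat_lit 0) (nat_lit 0) (XT.lf (nat_lit 0) (nat_lit 1990105203) (nat_lit 152) (nat_lit 28407392511) (nat_lit 76) (nat_lit 13853820371) (nat_lit 10) (nat_lit 5) (nat_lit 12) (nat_lit 5) (nat_lit 11) (nat_lit 4) (nat_lit 376) (nat_lit 251) (nat_lit 153)) (XT.nd (nat_lit 78) (nat_lit 0) (nat_lit 0) (XT.lf (nat_lit 0) (nat_lit 5698582801) (nat_lit 152) (nat_lit 20934400334) (nat_lit 76) (nat_lit 18803938034) (nat_lit 10) (nat_lit 5) (nat_lit 12) (nat_lit 5) (nat_lit 11) (nat_lit 4) (nat_lit 377) (nat_lit 251) (nat_lit 152)) (XT.lf (nat_lit 0) (nat_lit 9504999989) (nat_lit 152) (nat_lit 13260982516) (nat_lit 76) (nat_lit 23892516326) (nat_lit 10) (nat_lit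 5) (nat_lit 12) (nat_lit 5) (nat_lit 11) (nat_lit 4) (nat_lit 378) (nat_lit 251) (nat_lit 151))))) (XT.nd (nat_lit 234) (nat_lit 0) (nat_lit 0) (XT.nd (nat_lit 78) (nat_lit 76) (nat_lit 0) (XT.lf (nat_lit 0) (nat_lit 13412682762) (nat_lit 152) (nat_lit 5380434130) (nat_lit 76) (nat_lit 29124001576) (nat_lit 10) (nat_lit 5) (nat_lit 12) (nat_lit 5) (nat_lit 11) (nat_lit 4) (nat_lit 379) (nat_lit 251) (nat_lit 150)) (XT.nd (nat_lit 78) (nat_lit 0) (nat_lit 0) (XT.lf (nat_lit 0) (nat_lit 2768147263) (nat_lit 76) (nat_lit 14683507463) (nat_lit 152) (nat_lit 31761426848) (nat_lit 9) (nat_lit 5) (nat_lit 10) (nat_lit 5) (nat_lit 11) (nat_lit 4) (nat_lit 380) (nat_lit 251) (nat_lit 149)) (XT.lf (nat_lit 0) (nat_lit 11249299363) (nat_lit 76) (nat_lit 10404430237) (nat_lit 152) (nat_lit 28892942405) (nat_lit 9) (nat_lit 5) (nat_lit 10) (nat_lit 5) (nat_lit 11) (nat_lit 4) (nat_lit 381) (nat_lit 251) (nat_lit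 148)))) (XT.nd (nat_lit 78) (nat_lit 0) (nat_lit 0) (XT.lf (nat_lit 0) (nat_lit 19963351697) (nat_lit 76) (nat_lit 6006478052) (nat_lit 152) (nat_lit 25950807769) (nat_lit 9) (nat_lit 5) (nat_lit 10) (nat_lit 5) (nat_lit 11) (nat_lit 4) (nat_lit 382) (nat_lit 251) (nat_lit 147)) (XT.nd (nat_lit 78) (nat_lit 0) (nat_lit 0) (XT.lf (nat_lit 0) (nat_lit 28917918484) (nat_lit 76) (nat_lit 1485808035) (nat_lit 152) (nat_lit 22932452143) (nat_lit 9) (nat_lit 5) (nat_lit 10) (nat_lit 5) (nat_lit 11) (nat_lit 4) (nat_lit 383) (nat_lit 251) (nat_lit 146)) (XT.lf (nat_lit 0) (nat_lit 34989684752) (nat_lit 152) (nat_lit 16704098777) (nat_lit 0) (nat_lit 3099837075) (nat_lit 9) (nat_lit 5) (nat_lit 11) (nat_lit 4) (nat_lit 9) (nat_lit 4) (nat_lit 384) (nat_lit 251) (nat_lit 145)))))) (XT.nd (nat_lit 468) (nat_lit 76) (nat_lit 0) (XT.nd (nat_lit 234) (nat_lit 76) (nat_lit 0) (XT.nd (nat_lit 78) (nat_lit 76)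 (nat_lit 0) (XT.lf (nat_lit 0) (nat_lit 39716833618) (nat_lit 152) (nat_lit 8793183113) (nat_lit 0) (nat_lit 7784666444) (nat_lit 9) (nat_lit 5) (nat_lit 11) (nat_lit 4) (nat_lit 9) (nat_lit 4) (nat_lit 385) (nat_lit 251) (nat_lit 144)) (XT.nd (nat_lit 78) (nat_lit 76) (nat_lit 0) (XT.lf (nat_lit 0) (nat_lit 44575021142) (nat_lit 152) (nat_lit 664318239) (nat_lit 0) (nat_lit 12601767077) (nat_lit 9) (nat_lit 5) (nat_lit 11) (nat_lit 4) (nat_lit 9) (nat_lit 4) (nat_lit 386) (nat_lit 251) (nat_lit 143)) (XT.lf (nat_lit 0) (nat_lit 7842636828) (nat_lit 76) (nat_lit 41801243736) (nat_lit 76) (nat_lit 9788099486) (nat_lit 8) (nat_lit 4) (nat_lit 9) (nat_lit 5) (nat_lit 9) (nat_lit 4) (nat_lit 387) (nat_lit 251) (nat_lit 142)))) (XT.nd (nat_lit 78) (nat_lit 76) (nat_lit 0) (XT.lf (nat_lit 0) (nat_lit 16599789024) (nat_lit 76) (nat_lit 38261388745) (nat_lit 76) (nat_lit 6209516160) (nat_lit 8) (nat_lit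 4) (nat_lit 9) (nat_lit 5) (nat_lit 9) (nat_lit 4) (nat_lit 388) (nat_lit 251) (nat_lit 141)) (XT.nd (nat_lit 78) (nat_lit 76) (nat_lit 0) (XT.lf (nat_lit 0) (nat_lit 25601568995) (nat_lit 76) (nat_lit 34623389644) (nat_lit 76) (nat_lit 2533916734) (nat_lit 8) (nat_lit 4) (nat_lit 9) (nat_lit 5) (nat_lit 9) (nat_lit 4) (nat_lit 389) (nat_lit 251) (nat_lit 140)) (XT.lf (nat_lit 0) (nat_lit 1217676335) (nat_lit 152) (nat_lit 29654095119) (nat_lit 76) (nat_lit 33625869893) (nat_lit 7) (nat_lit 5) (nat_lit 9) (nat_lit 5) (nat_lit 8) (nat_lit 4) (nat_lit 390) (nat_lit 251) (nat_lit 139))))) (XT.nd (nat_lit 234) (nat_lit 76) (nat_lit 0) (XT.nd (nat_lit 78) (nat_lit 0) (nat_lit 0) (XT.lf (nat_lit 0) (nat_lit 5021330432) (nat_lit 152) (nat_lit 21968119214) (nat_lit 76) (nat_lit 39298659390) (nat_lit 7) (nat_lit 5) (nat_lit 9) (nat_lit 5) (nat_lit 8) (nat_lit 4) (nat_lit 391) (nat_lit 251) (nat_lit 138))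 (XT.nd (nat_lit 78) (nat_lit 0) (nat_lit 0) (XT.lf (nat_lit 0) (nat_lit 8929814981) (nat_lit 152) (nat_lit 14068305203) (nat_lit 76) (nat_lit 45134453467) (nat_lit 7) (nat_lit 5) (nat_lit 9) (nat_lit 5) (nat_lit 8) (nat_lit 4) (nat_lit 392) (nat_lit 251) (nat_lit 137)) (XT.lf (nat_lit 0) (nat_lit 12946545163) (nat_lit 152) (nat_lit 5947750337) (nat_lit 76) (nat_lit 51138351363) (nat_lit 7) (nat_lit 5) (nat_lit 9) (nat_lit 5) (nat_lit 8) (nat_lit 4) (nat_lit 393) (nat_lit 251) (nat_lit 136)))) (XT.nd (nat_lit 78) (nat_lit 0) (nat_lit 0) (XT.lf (nat_lit 0) (nat_lit 2448418477) (nat_lit 76) (nat_lit 14650147959) (nat_lit 152) (nat_lit 54890716420) (nat_lit 6) (nat_lit 5) (nat_lit 7) (nat_lit 5) (nat_lit 8) (nat_lit 4) (nat_lit 394) (nat_lit 251) (nat_lit 135)) (XT.nd (nat_lit 78) (nat_lit 0) (nat_lit 0) (XT.lf (nat_lit 0) (nat_lit 11202769956) (nat_lit 76) (nat_lit 10223797052) (nat_lit 152) (nat_lit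 52576512500) (nat_lit 6) (nat_lit 5) (nat_lit 7) (nat_lit 5) (nat_lit 8) (nat_lit 4) (nat_lit 395) (nat_lit 251) (nat_lit 134)) (XT.lf (nat_lit 0) (nat_lit 20204581636) (nat_lit 76) (nat_lit 5671435709) (nat_lit 152) (nat_lit 50201528437) (nat_lit 6) (nat_lit 5) (nat_lit 7) (nat_lit 5) (nat_lit 8) (nat_lit 4) (nat_lit 396) (nat_lit 251) (nat_lit 133))))))) (XT.nd (nat_lit 31746) (nat_lit 0) (nat_lit 9500) (XT.nd (nat_lit 31278) (nat_lit 0) (nat_lit 16188) (XT.nd (nat_lit 234) (nat_lit 0) (nat_lit 0) (XT.nd (nat_lit 78) (nat_lit 0) (nat_lit 0) (XT.lf (nat_lit 0) (nat_lit 29461719180) (nat_lit 76) (nat_lit 989086140) (nat_lit 152) (nat_lit 47763689003) (nat_lit 6) (nat_lit 5) (nat_lit 7) (nat_lit 5) (nat_lit 8) (nat_lit 4) (nat_lit 397) (nat_lit 251) (nat_lit 132)) (XT.nd (nat_lit 78) (nat_lit 0) (nat_lit 0) (XT.lf (nat_lit 0) (nat_lit 35191719080) (nat_lit 152) (nat_lit 41470311779) (nat_lit 0)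 (nat_lit 3752657781) (nat_lit 6) (nat_lit 5) (nat_lit 8) (nat_lit 4) (nat_lit 6) (nat_lit 4) (nat_lit 398) (nat_lit 251) (nat_lit 131)) (XT.lf (nat_lit 0) (nat_lit 40076915275) (nat_lit 152) (nat_lit 33993224838) (nat_lit 0) (nat_lit 8610690700) (nat_lit 6) (nat_lit 5) (nat_lit 8) (nat_lit 4) (nat_lit 6) (nat_lit 4) (nat_lit 399) (nat_lit 251) (nat_lit 130)))) (XT.nd (nat_lit 156) (nat_lit 0) (nat_lit 0) (XT.lf (nat_lit 0) (nat_lit 45101154819) (nat_lit 152) (nat_lit 26305473243) (nat_lit 0) (nat_lit 13608558133) (nat_lit 6) (nat_lit 5) (nat_lit 8) (nat_lit 4) (nat_lit 6) (nat_lit 4) (nat_lit 400) (nat_lit 251) (nat_lit 129)) (XT.nd (nat_lit 30810) (nat_lit 0) (nat_lit 18620) (XT.lf (nat_lit 0) (nat_lit 55584449740) (nat_lit 152) (nat_lit 10270916333) (nat_lit 0) (nat_lit 24041390817) (nat_lit 6) (nat_lit 5) (nat_lit 8) (nat_lit 4) (nat_lit 6) (nat_lit 4) (nat_lit 402) (nat_lit 251) (nat_lit 127))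 (XT.lf (nat_lit 0) (nat_lit 623090021) (nat_lit 684) (nat_lit 2122237358) (nat_lit 0) (nat_lit 623090021) (nat_lit 251) (nat_lit 5) (nat_lit 260) (nat_lit 4) (nat_lit 251) (nat_lit 4) (nat_lit 276) (nat_lit 252) (nat_lit 252))))) (XT.nd (nat_lit 234) (nat_lit 912) (nat_lit 0) (XT.nd (nat_lit 78) (nat_lit 1520) (nat_lit 0) (XT.lf (nat_lit 0) (nat_lit 4236457051) (nat_lit 684) (nat_lit 277161634) (nat_lit 0) (nat_lit 2262309030) (nat_lit 251) (nat_lit 5) (nat_lit 260) (nat_lit 4) (nat_lit 251) (nat_lit 4) (nat_lit 277) (nat_lit 252) (nat_lit 251)) (XT.nd (nat_lit 78) (nat_lit 760) (nat_lit 0) (XT.lf (nat_lit 0) (nat_lit 429864213) (nat_lit 760) (nat_lit 3018172233) (nat_lit 76) (nat_lit 3370083236) (nat_lit 241) (nat_lit 5) (nat_lit 251) (nat_lit 5) (nat_lit 242) (nat_lit 4) (nat_lit 278) (nat_lit 252) (nat_lit 250)) (XT.lf (nat_lit 0) (nat_lit 1058556254) (nat_lit 760) (nat_lit 2296210587) (nat_lit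 836) (nat_lit 3508774907) (nat_lit 231) (nat_lit 5) (nat_lit 241) (nat_lit 5) (nat_lit 242) (nat_lit 4) (nat_lit 279) (nat_lit 252) (nat_lit 249)))) (XT.nd (nat_lit 78) (nat_lit 912) (nat_lit 0) (XT.lf (nat_lit 0) (nat_lit 5239758345) (nat_lit 760) (nat_lit 1064677061) (nat_lit 836) (nat_lit 608017880) (nat_lit 231) (nat_lit 5) (nat_lit 241) (nat_lit 5) (nat_lit 242) (nat_lit 4) (nat_lit 280) (nat_lit 252) (nat_lit 248)) (XT.nd (nat_lit 78) (nat_lit 0) (nat_lit 0) (XT.lf (nat_lit 0) (nat_lit 2268335127) (nat_lit 912) (nat_lit 4436299573) (nat_lit 76) (nat_lit 259684618) (nat_lit 219) (nat_lit 5) (nat_lit 231) (nat_lit 5) (nat_lit 220) (nat_lit 4) (nat_lit 281) (nat_lit 252) (nat_lit 247)) (XT.lf (nat_lit 0) (nat_lit 5156524766) (nat_lit 912) (nat_lit 226592494) (nat_lit 76) (nat_lit 1636527706) (nat_lit 219) (nat_lit 5) (nat_lit 231) (nat_lit 5) (nat_lit 220) (nat_lit 4) (nat_lit 282) (nat_lit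 252) (nat_lit 246)))))) (XT.nd (nat_lit 468) (nat_lit 2356) (nat_lit 0) (XT.nd (nat_lit 234) (nat_lit 2356) (nat_lit 0) (XT.nd (nat_lit 78) (nat_lit 988) (nat_lit 0) (XT.lf (nat_lit 0) (nat_lit 985763463) (nat_lit 988) (nat_lit 2977618847) (nat_lit 76) (nat_lit 3114600214) (nat_lit 206) (nat_lit 5) (nat_lit 219) (nat_lit 5) (nat_lit 207) (nat_lit 5) (nat_lit 283) (nat_lit 252) (nat_lit 245)) (XT.nd (nat_lit 78) (nat_lit 0) (nat_lit 0) (XT.lf (nat_lit 0) (nat_lit 1351232496) (nat_lit 988) (nat_lit 2460256403) (nat_lit 1064) (nat_lit 3328362041) (nat_lit 193) (nat_lit 5) (nat_lit 206) (nat_lit 5) (nat_lit 207) (nat_lit 5) (nat_lit 284) (nat_lit 252) (nat_lit 244)) (XT.lf (nat_lit 0) (nat_lit 5791338831) (nat_lit 988) (nat_lit 875990977) (nat_lit 1064) (nat_lit 538078297) (nat_lit 193) (nat_lit 5) (nat_lit 206) (nat_lit 5) (nat_lit 207) (nat_lit 5) (nat_lit 285) (nat_lit 252) (nat_lit 243)))) (XT.nd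 (nat_lit 78) (nat_lit 1216) (nat_lit 0) (XT.lf (nat_lit 0) (nat_lit 2244208744) (nat_lit 1140) (nat_lit 4232272518) (nat_lit 76) (nat_lit 797342719) (nat_lit 178) (nat_lit 5) (nat_lit 193) (nat_lit 5) (nat_lit 179) (nat_lit 5) (nat_lit 286) (nat_lit 252) (nat_lit 242)) (XT.nd (nat_lit 78) (nat_lit 76) (nat_lit 0) (XT.lf (nat_lit 0) (nat_lit 225169228) (nat_lit 1140) (nat_lit 4817685854) (nat_lit 1216) (nat_lit 2303142889) (nat_lit 163) (nat_lit 5) (nat_lit 178) (nat_lit 5) (nat_lit 179) (nat_lit 5) (nat_lit 287) (nat_lit 252) (nat_lit 241)) (XT.lf (nat_lit 0) (nat_lit 457519006) (nat_lit 1216) (nat_lit 2603270721) (nat_lit 76) (nat_lit 4360700713) (nat_lit 162) (nat_lit 5) (nat_lit 178) (nat_lit 5) (nat_lit 163) (nat_lit 5) (nat_lit 288) (nat_lit 252) (nat_lit 240))))) (XT.nd (nat_lit 234) (nat_lit 1140) (nat_lit 0) (XT.nd (nat_lit 78) (nat_lit 684) (nat_lit 0) (XT.lf (nat_lit 0) (nat_lit 1986127704)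 (nat_lit 532) (nat_lit 1209121960) (nat_lit 608) (nat_lit 4305259364) (nat_lit 155) (nat_lit 5) (nat_lit 162) (nat_lit 5) (nat_lit 163) (nat_lit 5) (nat_lit 289) (nat_lit 252) (nat_lit 239)) (XT.nd (nat_lit 78) (nat_lit 684) (nat_lit 0) (XT.lf (nat_lit 0) (nat_lit 5971331130) (nat_lit 608) (nat_lit 902816371) (nat_lit 76) (nat_lit 709221040) (nat_lit 155) (nat_lit 5) (nat_lit 163) (nat_lit 5) (nat_lit 156) (nat_lit 5) (nat_lit 290) (nat_lit 252) (nat_lit 238)) (XT.lf (nat_lit 0) (nat_lit 1112900823) (nat_lit 684) (nat_lit 3849617926) (nat_lit 76) (nat_lit 2706800102) (nat_lit 146) (nat_lit 5) (nat_lit 155) (nat_lit 5) (nat_lit 147) (nat_lit 5) (nat_lit 291) (nat_lit 252) (nat_lit 237)))) (XT.nd (nat_lit 78) (nat_lit 608) (nat_lit 0) (XT.lf (nat_lit 0) (nat_lit 865884292) (nat_lit 532) (nat_lit 2964592618) (nat_lit 608) (nat_lit 3928736852) (nat_lit 139) (nat_lit 5) (nat_lit 146) (nat_lit 5) (nat_lit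 147) (nat_lit 5) (nat_lit 292) (nat_lit 252) (nat_lit 236)) (XT.nd (nat_lit 78) (nat_lit 608) (nat_lit 0) (XT.lf (nat_lit 0) (nat_lit 5722759583) (nat_lit 532) (nat_lit 872856892) (nat_lit 608) (nat_lit 1257347391) (nat_lit 139) (nat_lit 5) (nat_lit 146) (nat_lit 5) (nat_lit 147) (nat_lit 5) (nat_lit 293) (nat_lit 252) (nat_lit 235)) (XT.lf (nat_lit 0) (nat_lit 1432441814) (nat_lit 608) (nat_lit 5226649499) (nat_lit 76) (nat_lit 1291113251) (nat_lit 131) (nat_lit 5) (nat_lit 139) (nat_lit 5) (nat_lit 132) (nat_lit 5) (nat_lit 294) (nat_lit 252) (nat_lit 234))))))))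
noncomputable def xc86 : XT := (XT.nd (nat_lit 1794) (nat_lit 2584) (nat_lit 0) (XT.nd (nat_lit 858) (nat_lit 2356) (nat_lit 0) (XT.nd (nat_lit 390) (nat_lit 1368) (nat_lit 0) (XT.nd (nat_lit 156) (nat_lit 912) (nat_lit 0) (XT.nd (nat_lit 78) (nat_lit 456) (nat_lit 0) (XT.lf (nat_lit 0) (nat_lit 4137739501) (nat_lit 608) (nat_lit 384083259) (nat_lit 76) (nat_lit 3529491268) (nat_lit 131) (nat_lit 5) (nat_lit 139) (nat_lit 5) (nat_lit 132) (nat_lit 5) (nat_lit 295) (nat_lit 252) (nat_lit 233)) (XT.lf (nat_lit 0) (nat_lit 4616508474) (nat_lit 456) (nat_lit 2283831560) (nat_lit 532) (nat_lit 1255956307) (nat_lit 125) (nat_lit 5) (nat_lit 131) (nat_lit 5) (nat_lit 132) (nat_lit 5) (nat_lit 296) (nat_lit 252) (nat_lit 232))) (XT.nd (nat_lit 78) (nat_lit 380) (nat_lit 0) (XT.lf (nat_lit 0) (nat_lit 1402966265) (nat_lit 532) (nat_lit 6819453475) (nat_lit 76) (nat_lit 43183464) (nat_lit 118) (nat_lit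 5) (nat_lit 125) (nat_lit 5) (nat_lit 119) (nat_lit 5) (nat_lit 297) (nat_lit 252) (nat_lit 231)) (XT.nd (nat_lit 78) (nat_lit 380) (nat_lit 0) (XT.lf (nat_lit 0) (nat_lit 4108488929) (nat_lit 532) (nat_lit 1837574885) (nat_lit 76) (nat_lit 2432103499) (nat_lit 118) (nat_lit 5) (nat_lit 125) (nat_lit 5) (nat_lit 119) (nat_lit 5) (nat_lit 298) (nat_lit 252) (nat_lit 230)) (XT.lf (nat_lit 0) (nat_lit 3280805362) (nat_lit 380) (nat_lit 3581214717) (nat_lit 456) (nat_lit 1633193050) (nat_lit 113) (nat_lit 5) (nat_lit 118) (nat_lit 5) (nat_lit 119) (nat_lit 5) (nat_lit 299) (nat_lit 252) (nat_lit 229))))) (XT.nd (nat_lit 234) (nat_lit 456) (nat_lit 0) (XT.nd (nat_lit 78) (nat_lit 836) (nat_lit 0) (XT.lf (nat_lit 0) (nat_lit 1015728611) (nat_lit 456) (nat_lit 112999783) (nat_lit 76) (nat_lit 7488199649) (nat_lit 112) (nat_lit 5) (nat_lit 118) (nat_lit 5) (nat_lit 113) (nat_lit 5) (nat_lit 300) (nat_lit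 252) (nat_lit 228)) (XT.nd (nat_lit 78) (nat_lit 380) (nat_lit 0) (XT.lf (nat_lit 0) (nat_lit 3712355021) (nat_lit 532) (nat_lit 3605814018) (nat_lit 76) (nat_lit 1423709108) (nat_lit 106) (nat_lit 5) (nat_lit 113) (nat_lit 5) (nat_lit 107) (nat_lit 5) (nat_lit 301) (nat_lit 252) (nat_lit 227)) (XT.lf (nat_lit 0) (nat_lit 1618353432) (nat_lit 380) (nat_lit 4837979451) (nat_lit 456) (nat_lit 2415348088) (nat_lit 101) (nat_lit 5) (nat_lit 106) (nat_lit 5) (nat_lit 107) (nat_lit 5) (nat_lit 302) (nat_lit 252) (nat_lit 226)))) (XT.nd (nat_lit 78) (nat_lit 380) (nat_lit 0) (XT.lf (nat_lit 0) (nat_lit 247553457) (nat_lit 456) (nat_lit 2011121327) (nat_lit 76) (nat_lit 6747443978) (nat_lit 100) (nat_lit 5) (nat_lit 106) (nat_lit 5) (nat_lit 101) (nat_lit 5) (nat_lit 303) (nat_lit 252) (nat_lit 225)) (XT.nd (nat_lit 78) (nat_lit 0) (nat_lit 0) (XT.lf (nat_lit 0) (nat_lit 2918999239) (nat_lit 456) (nat_lit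 5793827662) (nat_lit 76) (nat_lit 431818756) (nat_lit 95) (nat_lit 5) (nat_lit 101) (nat_lit 5) (nat_lit 96) (nat_lit 5) (nat_lit 304) (nat_lit 252) (nat_lit 224)) (XT.lf (nat_lit 0) (nat_lit 5655042868) (nat_lit 456) (nat_lit 470122656) (nat_lit 76) (nat_lit 3162716089) (nat_lit 95) (nat_lit 5) (nat_lit 101) (nat_lit 5) (nat_lit 96) (nat_lit 5) (nat_lit 305) (nat_lit 252) (nat_lit 223)))))) (XT.nd (nat_lit 468) (nat_lit 912) (nat_lit 0) (XT.nd (nat_lit 234) (nat_lit 684) (nat_lit 0) (XT.nd (nat_lit 78) (nat_lit 456) (nat_lit 0) (XT.lf (nat_lit 0) (nat_lit 5038128965) (nat_lit 304) (nat_lit 3426751818) (nat_lit 380) (nat_lit 970866836) (nat_lit 91) (nat_lit 5) (nat_lit 95) (nat_lit 5) (nat_lit 96) (nat_lit 5) (nat_lit 306) (nat_lit 252) (nat_lit 222)) (XT.nd (nat_lit 78) (nat_lit 0) (nat_lit 0) (XT.lf (nat_lit 0) (nat_lit 1063073670) (nat_lit 380) (nat_lit 631949443) (nat_lit 456) (nat_lit 7893836798)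 (nat_lit 85) (nat_lit 5) (nat_lit 90) (nat_lit 5) (nat_lit 91) (nat_lit 5) (nat_lit 307) (nat_lit 252) (nat_lit 221)) (XT.lf (nat_lit 0) (nat_lit 4432191254) (nat_lit 456) (nat_lit 3073951684) (nat_lit 76) (nat_lit 2239887008) (nat_lit 85) (nat_lit 5) (nat_lit 91) (nat_lit 5) (nat_lit 86) (nat_lit 5) (nat_lit 308) (nat_lit 252) (nat_lit 220)))) (XT.nd (nat_lit 78) (nat_lit 380) (nat_lit 0) (XT.lf (nat_lit 0) (nat_lit 2511566296) (nat_lit 304) (nat_lit 4716299359) (nat_lit 380) (nat_lit 2680832643) (nat_lit 81) (nat_lit 5) (nat_lit 85) (nat_lit 5) (nat_lit 86) (nat_lit 5) (nat_lit 309) (nat_lit 252) (nat_lit 219)) (XT.nd (nat_lit 78) (nat_lit 304) (nat_lit 0) (XT.lf (nat_lit 0) (nat_lit 8179713) (nat_lit 380) (nat_lit 1821311811) (nat_lit 76) (nat_lit 8247488113) (nat_lit 80) (nat_lit 5) (nat_lit 85) (nat_lit 5) (nat_lit 81) (nat_lit 5) (nat_lit 310) (nat_lit 252) (nat_lit 218)) (XT.lf (nat_lit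 0) (nat_lit 2720764146) (nat_lit 380) (nat_lit 6361044448) (nat_lit 76) (nat_lit 1167869613) (nat_lit 76) (nat_lit 5) (nat_lit 81) (nat_lit 5) (nat_lit 77) (nat_lit 5) (nat_lit 311) (nat_lit 252) (nat_lit 217))))) (XT.nd (nat_lit 234) (nat_lit 228) (nat_lit 0) (XT.nd (nat_lit 78) (nat_lit 684) (nat_lit 0) (XT.lf (nat_lit 0) (nat_lit 5499916759) (nat_lit 380) (nat_lit 709742462) (nat_lit 76) (nat_lit 4218409387) (nat_lit 76) (nat_lit 5) (nat_lit 81) (nat_lit 5) (nat_lit 77) (nat_lit 5) (nat_lit 312) (nat_lit 252) (nat_lit 216)) (XT.nd (nat_lit 78) (nat_lit 380) (nat_lit 0) (XT.lf (nat_lit 0) (nat_lit 5141868541) (nat_lit 304) (nat_lit 3220005201) (nat_lit 380) (nat_lit 2250018740) (nat_lit 72) (nat_lit 5) (nat_lit 76) (nat_lit 5) (nat_lit 77) (nat_lit 5) (nat_lit 313) (nat_lit 252) (nat_lit 215)) (XT.lf (nat_lit 0) (nat_lit 313789944) (nat_lit 304) (nat_lit 145249237) (nat_lit 380) (nat_lit 10343291126)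 (nat_lit 67) (nat_lit 5) (nat_lit 71) (nat_lit 5) (nat_lit 72) (nat_lit 5) (nat_lit 314) (nat_lit 252) (nat_lit 214)))) (XT.nd (nat_lit 78) (nat_lit 228) (nat_lit 0) (XT.lf (nat_lit 0) (nat_lit 3239812821) (nat_lit 380) (nat_lit 4736030113) (nat_lit 76) (nat_lit 3020959164) (nat_lit 67) (nat_lit 5) (nat_lit 72) (nat_lit 5) (nat_lit 68) (nat_lit 5) (nat_lit 315) (nat_lit 252) (nat_lit 213)) (XT.nd (nat_lit 78) (nat_lit 0) (nat_lit 0) (XT.lf (nat_lit 0) (nat_lit 1141362132) (nat_lit 228) (nat_lit 4927325867) (nat_lit 304) (nat_lit 5129537137) (nat_lit 64) (nat_lit 5) (nat_lit 67) (nat_lit 5) (nat_lit 68) (nat_lit 5) (nat_lit 316) (nat_lit 252) (nat_lit 212)) (XT.lf (nat_lit 0) (nat_lit 7224304671) (nat_lit 228) (nat_lit 1758956093) (nat_lit 304) (nat_lit 2422460935) (nat_lit 64) (nat_lit 5) (nat_lit 67) (nat_lit 5) (nat_lit 68) (nat_lit 5) (nat_lit 317) (nat_lit 252) (nat_lit 211))))))) (XT.nd (nat_lit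 936) (nat_lit 988) (nat_lit 0) (XT.nd (nat_lit 468) (nat_lit 684) (nat_lit 0) (XT.nd (nat_lit 234) (nat_lit 304) (nat_lit 0) (XT.nd (nat_lit 78) (nat_lit 228) (nat_lit 0) (XT.lf (nat_lit 0) (nat_lit 344678095) (nat_lit 380) (nat_lit 9798968801) (nat_lit 76) (nat_lit 1476163660) (nat_lit 59) (nat_lit 5) (nat_lit 64) (nat_lit 5) (nat_lit 60) (nat_lit 5) (nat_lit 318) (nat_lit 252) (nat_lit 210)) (XT.nd (nat_lit 78) (nat_lit 228) (nat_lit 0) (XT.lf (nat_lit 0) (nat_lit 3160578039) (nat_lit 380) (nat_lit 3859398681) (nat_lit 76) (nat_lit 4819243781) (nat_lit 59) (nat_lit 5) (nat_lit 64) (nat_lit 5) (nat_lit 60) (nat_lit 5) (nat_lit 319) (nat_lit 252) (nat_lit 209)) (XT.lf (nat_lit 0) (nat_lit 2236556823) (nat_lit 228) (nat_lit 3801604328) (nat_lit 304) (nat_lit 6027784961) (nat_lit 56) (nat_lit 5) (nat_lit 59) (nat_lit 5) (nat_lit 60) (nat_lit 5) (nat_lit 320) (nat_lit 252) (nat_lit 208)))) (XT.nd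 (nat_lit 78) (nat_lit 304) (nat_lit 0) (XT.lf (nat_lit 0) (nat_lit 8529701500) (nat_lit 228) (nat_lit 467716789) (nat_lit 304) (nat_lit 3302242914) (nat_lit 56) (nat_lit 5) (nat_lit 59) (nat_lit 5) (nat_lit 60) (nat_lit 5) (nat_lit 321) (nat_lit 252) (nat_lit 207)) (XT.nd (nat_lit 78) (nat_lit 76) (nat_lit 0) (XT.lf (nat_lit 0) (nat_lit 2426045218) (nat_lit 228) (nat_lit 9628688549) (nat_lit 304) (nat_lit 485422269) (nat_lit 53) (nat_lit 5) (nat_lit 56) (nat_lit 5) (nat_lit 57) (nat_lit 5) (nat_lit 322) (nat_lit 252) (nat_lit 206)) (XT.lf (nat_lit 0) (nat_lit 2369454542) (nat_lit 304) (nat_lit 3994039137) (nat_lit 76) (nat_lit 6423698531) (nat_lit 52) (nat_lit 5) (nat_lit 56) (nat_lit 5) (nat_lit 53) (nat_lit 5) (nat_lit 323) (nat_lit 252) (nat_lit 205))))) (XT.nd (nat_lit 234) (nat_lit 228) (nat_lit 0) (XT.nd (nat_lit 78) (nat_lit 228) (nat_lit 0) (XT.lf (nat_lit 0) (nat_lit 2287034140) (nat_lit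 228) (nat_lit 2994023357) (nat_lit 304) (nat_lit 7761055443) (nat_lit 49) (nat_lit 5) (nat_lit 52) (nat_lit 5) (nat_lit 53) (nat_lit 5) (nat_lit 324) (nat_lit 252) (nat_lit 204)) (XT.nd (nat_lit 78) (nat_lit 228) (nat_lit 0) (XT.lf (nat_lit 0) (nat_lit 8284572407) (nat_lit 304) (nat_lit 4532901920) (nat_lit 76) (nat_lit 487111546) (nat_lit 49) (nat_lit 5) (nat_lit 53) (nat_lit 5) (nat_lit 50) (nat_lit 5) (nat_lit 325) (nat_lit 252) (nat_lit 203)) (XT.lf (nat_lit 0) (nat_lit 1820793646) (nat_lit 228) (nat_lit 9564984201) (nat_lit 304) (nat_lit 2188967886) (nat_lit 46) (nat_lit 5) (nat_lit 49) (nat_lit 5) (nat_lit 50) (nat_lit 5) (nat_lit 326) (nat_lit 252) (nat_lit 202)))) (XT.nd (nat_lit 78) (nat_lit 152) (nat_lit 0) (XT.lf (nat_lit 0) (nat_lit 719634768) (nat_lit 304) (nat_lit 5462315822) (nat_lit 76) (nat_lit 7670683755) (nat_lit 45) (nat_lit 5) (nat_lit 49) (nat_lit 5) (nat_lit 46) (nat_lit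 5) (nat_lit 327) (nat_lit 252) (nat_lit 201)) (XT.nd (nat_lit 78) (nat_lit 0) (nat_lit 0) (XT.lf (nat_lit 0) (nat_lit 955570285) (nat_lit 152) (nat_lit 2686848296) (nat_lit 228) (nat_lit 10496700142) (nat_lit 43) (nat_lit 5) (nat_lit 45) (nat_lit 5) (nat_lit 46) (nat_lit 5) (nat_lit 328) (nat_lit 252) (nat_lit 200)) (XT.lf (nat_lit 0) (nat_lit 6679446649) (nat_lit 228) (nat_lit 6823754910) (nat_lit 76) (nat_lit 930235049) (nat_lit 43) (nat_lit 5) (nat_lit 46) (nat_lit 5) (nat_lit 44) (nat_lit 5) (nat_lit 329) (nat_lit 252) (nat_lit 199)))))) (XT.nd (nat_lit 468) (nat_lit 380) (nat_lit 0) (XT.nd (nat_lit 234) (nat_lit 304) (nat_lit 0) (XT.nd (nat_lit 78) (nat_lit 304) (nat_lit 0) (XT.lf (nat_lit 0) (nat_lit 9797371115) (nat_lit 228) (nat_lit 357880387) (nat_lit 76) (nat_lit 4581673716) (nat_lit 43) (nat_lit 5) (nat_lit 46) (nat_lit 5) (nat_lit 44) (nat_lit 5) (nat_lit 330) (nat_lit 252) (nat_lit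 198)) (XT.nd (nat_lit 78) (nat_lit 76) (nat_lit 0) (XT.lf (nat_lit 0) (nat_lit 6369851294) (nat_lit 228) (nat_lit 6664468362) (nat_lit 304) (nat_lit 2014467982) (nat_lit 40) (nat_lit 5) (nat_lit 43) (nat_lit 5) (nat_lit 44) (nat_lit 5) (nat_lit 331) (nat_lit 252) (nat_lit 197)) (XT.lf (nat_lit 0) (nat_lit 946917082) (nat_lit 304) (nat_lit 2129384568) (nat_lit 76) (nat_lit 12294407333) (nat_lit 39) (nat_lit 5) (nat_lit 43) (nat_lit 5) (nat_lit 40) (nat_lit 5) (nat_lit 332) (nat_lit 252) (nat_lit 196)))) (XT.nd (nat_lit 78) (nat_lit 152) (nat_lit 0) (XT.lf (nat_lit 0) (nat_lit 3972995494) (nat_lit 228) (nat_lit 11075678257) (nat_lit 76) (nat_lit 652556521) (nat_lit 37) (nat_lit 5) (nat_lit 40) (nat_lit 5) (nat_lit 38) (nat_lit 5) (nat_lit 333) (nat_lit 252) (nat_lit 195)) (XT.nd (nat_lit 78) (nat_lit 152) (nat_lit 0) (XT.lf (nat_lit 0) (nat_lit 7107735104) (nat_lit 228) (nat_lit 4500182074) (nat_lit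 76) (nat_lit 4433243636) (nat_lit 37) (nat_lit 5) (nat_lit 40) (nat_lit 5) (nat_lit 38) (nat_lit 5) (nat_lit 334) (nat_lit 252) (nat_lit 194)) (XT.lf (nat_lit 0) (nat_lit 2263074074) (nat_lit 152) (nat_lit 8061900674) (nat_lit 228) (nat_lit 6066689896) (nat_lit 35) (nat_lit 5) (nat_lit 37) (nat_lit 5) (nat_lit 38) (nat_lit 5) (nat_lit 335) (nat_lit 252) (nat_lit 193))))) (XT.nd (nat_lit 234) (nat_lit 152) (nat_lit 0) (XT.nd (nat_lit 78) (nat_lit 228) (nat_lit 0) (XT.lf (nat_lit 0) (nat_lit 9268337717) (nat_lit 152) (nat_lit 4382999657) (nat_lit 228) (nat_lit 3100996301) (nat_lit 35) (nat_lit 5) (nat_lit 37) (nat_lit 5) (nat_lit 38) (nat_lit 5) (nat_lit 336) (nat_lit 252) (nat_lit 192)) (XT.nd (nat_lit 78) (nat_lit 228) (nat_lit 0) (XT.lf (nat_lit 0) (nat_lit 16432167511) (nat_lit 152) (nat_lit 613442568) (nat_lit 228) (nat_lit 79196557) (nat_lit 35) (nat_lit 5) (nat_lit 37) (nat_lit 5) (nat_lit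 38) (nat_lit 5) (nat_lit 337) (nat_lit 252) (nat_lit 191)) (XT.lf (nat_lit 0) (nat_lit 3035919395) (nat_lit 228) (nat_lit 11192440051) (nat_lit 76) (nat_lit 3277389915) (nat_lit 32) (nat_lit 5) (nat_lit 35) (nat_lit 5) (nat_lit 33) (nat_lit 5) (nat_lit 338) (nat_lit 252) (nat_lit 190)))) (XT.nd (nat_lit 78) (nat_lit 152) (nat_lit 0) (XT.lf (nat_lit 0) (nat_lit 6224991425) (nat_lit 228) (nat_lit 4412207605) (nat_lit 76) (nat_lit 7261460090) (nat_lit 32) (nat_lit 5) (nat_lit 35) (nat_lit 5) (nat_lit 33) (nat_lit 5) (nat_lit 339) (nat_lit 252) (nat_lit 189)) (XT.nd (nat_lit 78) (nat_lit 0) (nat_lit 0) (XT.lf (nat_lit 0) (nat_lit 2572103768) (nat_lit 152) (nat_lit 6932217778) (nat_lit 228) (nat_lit 8799221425) (nat_lit 30) (nat_lit 5) (nat_lit 32) (nat_lit 5) (nat_lit 33) (nat_lit 5) (nat_lit 340) (nat_lit 252) (nat_lit 188)) (XT.lf (nat_lit 0) (nat_lit 9807356840) (nat_lit 152) (nat_lit 3089497158)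 (nat_lit 228) (nat_lit 5823298333) (nat_lit 30) (nat_lit 5) (nat_lit 32) (nat_lit 5) (nat_lit 33) (nat_lit 5) (nat_lit 341) (nat_lit 252) (nat_lit 187))))))))
noncomputable def xc87 : XT := (XT.nd (nat_lit 1872) (nat_lit 608) (nat_lit 0) (XT.nd (nat_lit 936) (nat_lit 380) (nat_lit 0) (XT.nd (nat_lit 468) (nat_lit 304) (nat_lit 0) (XT.nd (nat_lit 234) (nat_lit 152) (nat_lit 0) (XT.nd (nat_lit 78) (nat_lit 228) (nat_lit 0) (XT.lf (nat_lit 0) (nat_lit 16370464663) (nat_lit 228) (nat_lit 1946255313) (nat_lit 76) (nat_lit 833183907) (nat_lit 30) (nat_lit 5) (nat_lit 33) (nat_lit 5) (nat_lit 31) (nat_lit 4) (nat_lit 342) (nat_lit 252) (nat_lit 186)) (XT.nd (nat_lit 78) (nat_lit 0) (nat_lit 0) (XT.lf (nat_lit 0) (nat_lit 402192258) (nat_lit 228) (nat_lit 14340610877) (nat_lit 76) (nat_lit 4848061968) (nat_lit 27) (nat_lit 5) (nat_lit 30) (nat_lit 5) (nat_lit 28) (nat_lit 5) (nat_lit 343) (nat_lit 252)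 (nat_lit 185)) (XT.lf (nat_lit 0) (nat_lit 3615134458) (nat_lit 228) (nat_lit 7416651841) (nat_lit 76) (nat_lit 9012712540) (nat_lit 27) (nat_lit 5) (nat_lit 30) (nat_lit 5) (nat_lit 28) (nat_lit 5) (nat_lit 344) (nat_lit 252) (nat_lit 184)))) (XT.nd (nat_lit 78) (nat_lit 152) (nat_lit 0) (XT.lf (nat_lit 0) (nat_lit 6897161820) (nat_lit 228) (nat_lit 330632163) (nat_lit 76) (nat_lit 13284787113) (nat_lit 27) (nat_lit 5) (nat_lit 30) (nat_lit 5) (nat_lit 28) (nat_lit 5) (nat_lit 345) (nat_lit 252) (nat_lit 183)) (XT.nd (nat_lit 78) (nat_lit 0) (nat_lit 0) (XT.lf (nat_lit 0) (nat_lit 7061433832) (nat_lit 152) (nat_lit 3257587123) (nat_lit 228) (nat_lit 10674463556) (nat_lit 25) (nat_lit 5) (nat_lit 27) (nat_lit 5) (nat_lit 28) (nat_lit 5) (nat_lit 346) (nat_lit 252) (nat_lit 182)) (XT.lf (nat_lit 0) (nat_lit 13828574501) (nat_lit 228) (nat_lit 6859230714) (nat_lit 76) (nat_lit 801477897) (nat_lit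 25) (nat_lit 5) (nat_lit 28) (nat_lit 5) (nat_lit 26) (nat_lit 4) (nat_lit 347) (nat_lit 252) (nat_lit 181))))) (XT.nd (nat_lit 234) (nat_lit 152) (nat_lit 0) (XT.nd (nat_lit 78) (nat_lit 76) (nat_lit 0) (XT.lf (nat_lit 0) (nat_lit 357261706) (nat_lit 76) (nat_lit 17096279128) (nat_lit 152) (nat_lit 4546129736) (nat_lit 24) (nat_lit 5) (nat_lit 25) (nat_lit 5) (nat_lit 26) (nat_lit 4) (nat_lit 348) (nat_lit 252) (nat_lit 180)) (XT.nd (nat_lit 78) (nat_lit 76) (nat_lit 0) (XT.lf (nat_lit 0) (nat_lit 7888049964) (nat_lit 76) (nat_lit 13343242622) (nat_lit 152) (nat_lit 1292774110) (nat_lit 24) (nat_lit 5) (nat_lit 25) (nat_lit 5) (nat_lit 26) (nat_lit 4) (nat_lit 349) (nat_lit 252) (nat_lit 179)) (XT.lf (nat_lit 0) (nat_lit 1993266316) (nat_lit 152) (nat_lit 7481286731) (nat_lit 76) (nat_lit 13589807821) (nat_lit 23) (nat_lit 5) (nat_lit 25) (nat_lit 5) (nat_lit 24) (nat_lit 5) (nat_lit 350) (nat_lit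 252) (nat_lit 178)))) (XT.nd (nat_lit 78) (nat_lit 152) (nat_lit 0) (XT.lf (nat_lit 0) (nat_lit 5327872125) (nat_lit 152) (nat_lit 165558640) (nat_lit 76) (nat_lit 18127786677) (nat_lit 23) (nat_lit 5) (nat_lit 25) (nat_lit 5) (nat_lit 24) (nat_lit 5) (nat_lit 351) (nat_lit 252) (nat_lit 177)) (XT.nd (nat_lit 78) (nat_lit 0) (nat_lit 0) (XT.lf (nat_lit 0) (nat_lit 7475867971) (nat_lit 152) (nat_lit 1335178373) (nat_lit 228) (nat_lit 15382293577) (nat_lit 21) (nat_lit 5) (nat_lit 23) (nat_lit 5) (nat_lit 24) (nat_lit 5) (nat_lit 352) (nat_lit 252) (nat_lit 176)) (XT.lf (nat_lit 0) (nat_lit 12405554120) (nat_lit 228) (nat_lit 9500813720) (nat_lit 76) (nat_lit 2876068731) (nat_lit 21) (nat_lit 5) (nat_lit 24) (nat_lit 5) (nat_lit 22) (nat_lit 4) (nat_lit 353) (nat_lit 252) (nat_lit 175)))))) (XT.nd (nat_lit 468) (nat_lit 76) (nat_lit 0) (XT.nd (nat_lit 234) (nat_lit 228) (nat_lit 0) (XT.nd (nat_lit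 78) (nat_lit 76) (nat_lit 0) (XT.lf (nat_lit 0) (nat_lit 16098605741) (nat_lit 228) (nat_lit 2119531790) (nat_lit 76) (nat_lit 7171362523) (nat_lit 21) (nat_lit 5) (nat_lit 24) (nat_lit 5) (nat_lit 22) (nat_lit 4) (nat_lit 354) (nat_lit 252) (nat_lit 174)) (XT.nd (nat_lit 78) (nat_lit 0) (nat_lit 0) (XT.lf (nat_lit 0) (nat_lit 5554037327) (nat_lit 76) (nat_lit 14379945070) (nat_lit 152) (nat_lit 6079861787) (nat_lit 20) (nat_lit 5) (nat_lit 21) (nat_lit 5) (nat_lit 22) (nat_lit 4) (nat_lit 355) (nat_lit 252) (nat_lit 173)) (XT.lf (nat_lit 0) (nat_lit 13464099246) (nat_lit 76) (nat_lit 10420148238) (nat_lit 152) (nat_lit 2772690659) (nat_lit 20) (nat_lit 5) (nat_lit 21) (nat_lit 5) (nat_lit 22) (nat_lit 4) (nat_lit 356) (nat_lit 252) (nat_lit 172)))) (XT.nd (nat_lit 78) (nat_lit 152) (nat_lit 0) (XT.lf (nat_lit 0) (nat_lit 600161330) (nat_lit 152) (nat_lit 5750468352) (nat_lit 76) (nat_lit 20969161048)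 (nat_lit 19) (nat_lit 5) (nat_lit 21) (nat_lit 5) (nat_lit 20) (nat_lit 5) (nat_lit 357) (nat_lit 252) (nat_lit 171)) (XT.nd (nat_lit 78) (nat_lit 0) (nat_lit 0) (XT.lf (nat_lit 0) (nat_lit 1889133280) (nat_lit 152) (nat_lit 2126944738) (nat_lit 228) (nat_lit 23985712185) (nat_lit 17) (nat_lit 5) (nat_lit 19) (nat_lit 5) (nat_lit 20) (nat_lit 5) (nat_lit 358) (nat_lit 252) (nat_lit 170)) (XT.lf (nat_lit 0) (nat_lit 7594055510) (nat_lit 228) (nat_lit 18884236718) (nat_lit 76) (nat_lit 2224182655) (nat_lit 17) (nat_lit 5) (nat_lit 20) (nat_lit 5) (nat_lit 18) (nat_lit 4) (nat_lit 359) (nat_lit 252) (nat_lit 169))))) (XT.nd (nat_lit 234) (nat_lit 0) (nat_lit 0) (XT.nd (nat_lit 78) (nat_lit 76) (nat_lit 0) (XT.lf (nat_lit 0) (nat_lit 11280593071) (nat_lit 228) (nat_lit 11494569304) (nat_lit 76) (nat_lit 6648993457) (nat_lit 17) (nat_lit 5) (nat_lit 20) (nat_lit 5) (nat_lit 18) (nat_lit 4) (nat_lit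 360) (nat_lit 252) (nat_lit 168)) (XT.nd (nat_lit 78) (nat_lit 76) (nat_lit 0) (XT.lf (nat_lit 0) (nat_lit 15058466454) (nat_lit 228) (nat_lit 3916752195) (nat_lit 76) (nat_lit 11192858362) (nat_lit 17) (nat_lit 5) (nat_lit 20) (nat_lit 5) (nat_lit 18) (nat_lit 4) (nat_lit 361) (nat_lit 252) (nat_lit 167)) (XT.lf (nat_lit 0) (nat_lit 3932574699) (nat_lit 76) (nat_lit 15036204328) (nat_lit 152) (nat_lit 11964975350) (nat_lit 16) (nat_lit 5) (nat_lit 17) (nat_lit 5) (nat_lit 18) (nat_lit 4) (nat_lit 362) (nat_lit 252) (nat_lit 166)))) (XT.nd (nat_lit 78) (nat_lit 0) (nat_lit 0) (XT.lf (nat_lit 0) (nat_lit 12065426805) (nat_lit 76) (nat_lit 10952061055) (nat_lit 152) (nat_lit 8704292901) (nat_lit 16) (nat_lit 5) (nat_lit 17) (nat_lit 5) (nat_lit 18) (nat_lit 4) (nat_lit 363) (nat_lit 252) (nat_lit 165)) (XT.nd (nat_lit 78) (nat_lit 0) (nat_lit 0) (XT.lf (nat_lit 0) (nat_lit 20410959449) (nat_lit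 76) (nat_lit 6758771678) (nat_lit 152) (nat_lit 5364265588) (nat_lit 16) (nat_lit 5) (nat_lit 17) (nat_lit 5) (nat_lit 18) (nat_lit 4) (nat_lit 364) (nat_lit 252) (nat_lit 164)) (XT.lf (nat_lit 0) (nat_lit 28976464845) (nat_lit 76) (nat_lit 2452672159) (nat_lit 152) (nat_lit 1941974940) (nat_lit 16) (nat_lit 5) (nat_lit 17) (nat_lit 5) (nat_lit 18) (nat_lit 4) (nat_lit 365) (nat_lit 252) (nat_lit 163))))))) (XT.nd (nat_lit 936) (nat_lit 152) (nat_lit 0) (XT.nd (nat_lit 468) (nat_lit 152) (nat_lit 0) (XT.nd (nat_lit 234) (nat_lit 76) (nat_lit 0) (XT.nd (nat_lit 78) (nat_lit 0) (nat_lit 0) (XT.lf (nat_lit 0) (nat_lit 1588961980) (nat_lit 228) (nat_lit 30661213010) (nat_lit 76) (nat_lit 1981613165) (nat_lit 13) (nat_lit 5) (nat_lit 16) (nat_lit 5) (nat_lit 14) (nat_lit 4) (nat_lit 366) (nat_lit 252) (nat_lit 162)) (XT.nd (nat_lit 78) (nat_lit 0) (nat_lit 0) (XT.lf (nat_lit 0) (nat_lit 5238911641)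 (nat_lit 228) (nat_lit 23326022694) (nat_lit 76) (nat_lit 6551219752) (nat_lit 13) (nat_lit 5) (nat_lit 16) (nat_lit 5) (nat_lit 14) (nat_lit 4) (nat_lit 367) (nat_lit 252) (nat_lit 161)) (XT.lf (nat_lit 0) (nat_lit 8981870301) (nat_lit 228) (nat_lit 15799862725) (nat_lit 76) (nat_lit 11245822120) (nat_lit 13) (nat_lit 5) (nat_lit 16) (nat_lit 5) (nat_lit 14) (nat_lit 4) (nat_lit 368) (nat_lit 252) (nat_lit 160)))) (XT.nd (nat_lit 78) (nat_lit 76) (nat_lit 0) (XT.lf (nat_lit 0) (nat_lit 12821108506) (nat_lit 228) (nat_lit 8076156849) (nat_lit 76) (nat_lit 16069522350) (nat_lit 13) (nat_lit 5) (nat_lit 16) (nat_lit 5) (nat_lit 14) (nat_lit 4) (nat_lit 369) (nat_lit 252) (nat_lit 159)) (XT.nd (nat_lit 78) (nat_lit 76) (nat_lit 0) (XT.lf (nat_lit 0) (nat_lit 16759980931) (nat_lit 228) (nat_lit 148156196) (nat_lit 76) (nat_lit 21026535324) (nat_lit 13) (nat_lit 5) (nat_lit 16) (nat_lit 5) (nat_lit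 14) (nat_lit 4) (nat_lit 370) (nat_lit 252) (nat_lit 158)) (XT.lf (nat_lit 0) (nat_lit 8150104507) (nat_lit 76) (nat_lit 12730168592) (nat_lit 152) (nat_lit 18049431696) (nat_lit 12) (nat_lit 5) (nat_lit 13) (nat_lit 5) (nat_lit 14) (nat_lit 4) (nat_lit 371) (nat_lit 252) (nat_lit 157))))) (XT.nd (nat_lit 234) (nat_lit 152) (nat_lit 0) (XT.nd (nat_lit 78) (nat_lit 0) (nat_lit 0) (XT.lf (nat_lit 0) (nat_lit 16673993185) (nat_lit 76) (nat_lit 8436772877) (nat_lit 152) (nat_lit 14844232698) (nat_lit 12) (nat_lit 5) (nat_lit 13) (nat_lit 5) (nat_lit 14) (nat_lit 4) (nat_lit 372) (nat_lit 252) (nat_lit 156)) (XT.nd (nat_lit 78) (nat_lit 0) (nat_lit 0) (XT.lf (nat_lit 0) (nat_lit 25428009297) (nat_lit 76) (nat_lit 4025694559) (nat_lit 152) (nat_lit 11557789952) (nat_lit 12) (nat_lit 5) (nat_lit 13) (nat_lit 5) (nat_lit 14) (nat_lit 4) (nat_lit 373) (nat_lit 252) (nat_lit 155)) (XT.lf (nat_lit 0) (nat_lit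 33917754112) (nat_lit 152) (nat_lit 7685183940) (nat_lit 0) (nat_lit 497028853) (nat_lit 12) (nat_lit 5) (nat_lit 14) (nat_lit 4) (nat_lit 12) (nat_lit 4) (nat_lit 374) (nat_lit 252) (nat_lit 154)))) (XT.nd (nat_lit 78) (nat_lit 76) (nat_lit 0) (XT.lf (nat_lit 0) (nat_lit 393448454) (nat_lit 76) (nat_lit 38152177776) (nat_lit 76) (nat_lit 4674578652) (nat_lit 11) (nat_lit 4) (nat_lit 12) (nat_lit 5) (nat_lit 12) (nat_lit 4) (nat_lit 375) (nat_lit 252) (nat_lit 153)) (XT.nd (nat_lit 78) (nat_lit 76) (nat_lit 0) (XT.lf (nat_lit 0) (nat_lit 8847781702) (nat_lit 76) (nat_lit 34528585627) (nat_lit 76) (nat_lit 995769157) (nat_lit 11) (nat_lit 4) (nat_lit 12) (nat_lit 5) (nat_lit 12) (nat_lit 4) (nat_lit 376) (nat_lit 252) (nat_lit 152)) (XT.lf (nat_lit 0) (nat_lit 2725580498) (nat_lit 152) (nat_lit 28053497130) (nat_lit 76) (nat_lit 14779149339) (nat_lit 10) (nat_lit 5) (nat_lit 12) (nat_lit 5) (nat_lit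 11) (nat_lit 4) (nat_lit 377) (nat_lit 252) (nat_lit 151)))))) (XT.nd (nat_lit 468) (nat_lit 76) (nat_lit 0) (XT.nd (nat_lit 234) (nat_lit 76) (nat_lit 0) (XT.nd (nat_lit 78) (nat_lit 0) (nat_lit 0) (XT.lf (nat_lit 0) (nat_lit 6525629740) (nat_lit 152) (nat_lit 20391444813) (nat_lit 76) (nat_lit 19862924483) (nat_lit 10) (nat_lit 5) (nat_lit 12) (nat_lit 5) (nat_lit 11) (nat_lit 4) (nat_lit 378) (nat_lit 252) (nat_lit 150)) (XT.nd (nat_lit 78) (nat_lit 0) (nat_lit 0) (XT.lf (nat_lit 0) (nat_lit 10427130042) (nat_lit 152) (nat_lit 12521930893) (nat_lit 76) (nat_lit 25089746483) (nat_lit 10) (nat_lit 5) (nat_lit 12) (nat_lit 5) (nat_lit 11) (nat_lit 4) (nat_lit 379) (nat_lit 252) (nat_lit 149)) (XT.lf (nat_lit 0) (nat_lit 14433490481) (nat_lit 152) (nat_lit 4438079098) (nat_lit 76) (nat_lit 30464182466) (nat_lit 10) (nat_lit 5) (nat_lit 12) (nat_lit 5) (nat_lit 11) (nat_lit 4) (nat_lit 380) (nat_lit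 252) (nat_lit 148)))) (XT.nd (nat_lit 78) (nat_lit 0) (nat_lit 0) (XT.lf (nat_lit 0) (nat_lit 3944138482) (nat_lit 76) (nat_lit 14641986751) (nat_lit 152) (nat_lit 32084703530) (nat_lit 9) (nat_lit 5) (nat_lit 10) (nat_lit 5) (nat_lit 11) (nat_lit 4) (nat_lit 381) (nat_lit 252) (nat_lit 147)) (XT.nd (nat_lit 78) (nat_lit 0) (nat_lit 0) (XT.lf (nat_lit 0) (nat_lit 12647891743) (nat_lit 76) (nat_lit 10248576800) (nat_lit 152) (nat_lit 29148501430) (nat_lit 9) (nat_lit 5) (nat_lit 10) (nat_lit 5) (nat_lit 11) (nat_lit 4) (nat_lit 382) (nat_lit 252) (nat_lit 146)) (XT.lf (nat_lit 0) (nat_lit 21592459431) (nat_lit 76) (nat_lit 5732316719) (nat_lit 152) (nat_lit 26135905549) (nat_lit 9) (nat_lit 5) (nat_lit 10) (nat_lit 5) (nat_lit 11) (nat_lit 4) (nat_lit 383) (nat_lit 252) (nat_lit 145))))) (XT.nd (nat_lit 234) (nat_lit 76) (nat_lit 0) (XT.nd (nat_lit 78) (nat_lit 0) (nat_lit 0) (XT.lf (nat_lit 0)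 (nat_lit 30785657188) (nat_lit 76) (nat_lit 1089260262) (nat_lit 152) (nat_lit 23044283520) (nat_lit 9) (nat_lit 5) (nat_lit 10) (nat_lit 5) (nat_lit 11) (nat_lit 4) (nat_lit 384) (nat_lit 252) (nat_lit 144)) (XT.nd (nat_lit 78) (nat_lit 0) (nat_lit 0) (XT.lf (nat_lit 0) (nat_lit 36586287401) (nat_lit 152) (nat_lit 16221703423) (nat_lit 0) (nat_lit 3612748823) (nat_lit 9) (nat_lit 5) (nat_lit 11) (nat_lit 4) (nat_lit 9) (nat_lit 4) (nat_lit 385) (nat_lit 252) (nat_lit 143)) (XT.lf (nat_lit 0) (nat_lit 41439321254) (nat_lit 152) (nat_lit 8102106453) (nat_lit 0) (nat_lit 8425892492) (nat_lit 9) (nat_lit 5) (nat_lit 11) (nat_lit 4) (nat_lit 9) (nat_lit 4) (nat_lit 386) (nat_lit 252) (nat_lit 142)))) (XT.nd (nat_lit 78) (nat_lit 0) (nat_lit 0) (XT.lf (nat_lit 0) (nat_lit 247645002) (nat_lit 76) (nat_lit 46182524403) (nat_lit 76) (nat_lit 13130367306) (nat_lit 8) (nat_lit 4) (nat_lit 9) (nat_lit 5)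 (nat_lit 9) (nat_lit 4) (nat_lit 387) (nat_lit 252) (nat_lit 141)) (XT.nd (nat_lit 78) (nat_lit 0) (nat_lit 0) (XT.lf (nat_lit 0) (nat_lit 8995887448) (nat_lit 76) (nat_lit 42646635688) (nat_lit 76) (nat_lit 9556878265) (nat_lit 8) (nat_lit 4) (nat_lit 9) (nat_lit 5) (nat_lit 9) (nat_lit 4) (nat_lit 388) (nat_lit 252) (nat_lit 140)) (XT.lf (nat_lit 0) (nat_lit 17989017176) (nat_lit 76) (nat_lit 39012487340) (nat_lit 76) (nat_lit 5886224747) (nat_lit 8) (nat_lit 4) (nat_lit 9) (nat_lit 5) (nat_lit 9) (nat_lit 4) (nat_lit 389) (nat_lit 252) (nat_lit 139))))))))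
noncomputable def xc88 : XT := (XT.nd (nat_lit 32448) (nat_lit 0) (nat_lit 6004) (XT.nd (nat_lit 936) (nat_lit 0) (nat_lit 0) (XT.nd (nat_lit 390) (nat_lit 76) (nat_lit 0) (XT.nd (nat_lit 156) (nat_lit 0) (nat_lit 0) (XT.nd (nat_lit 78) (nat_lit 76) (nat_lit 0) (XT.lf (nat_lit 0) (nat_lit 27234892260) (nat_lit 76) (nat_lit 35276903889) (nat_lit 76) (nat_lit 2115199383) (nat_lit 8) (nat_lit 4) (nat_lit 9) (nat_lit 5) (nat_lit 9) (nat_lit 4) (nat_lit 390) (nat_lit 252) (nat_lit 138)) (XT.lf (nat_lit 0) (nat_lit 1725158852) (nat_lit 152) (nat_lit 29694041660) (nat_lit 76) (nat_lit 34999012045) (nat_lit 7) (nat_lit 5) (nat_lit 9) (nat_lit 5) (nat_lit 8) (nat_lit 4) (nat_lit 391) (nat_lit 252) (nat_lit 137))) (XT.nd (nat_lit 78) (nat_lit 0) (nat_lit 0) (XT.lf (nat_lit 0) (nat_lit 5629205517) (nat_lit 152) (nat_lit 21802234331) (nat_lit 76) (nat_lit 40831372623) (nat_lit 7) (nat_lit 5) (nat_lit 9) (nat_lit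 5) (nat_lit 8) (nat_lit 4) (nat_lit 392) (nat_lit 252) (nat_lit 136)) (XT.nd (nat_lit 78) (nat_lit 0) (nat_lit 0) (XT.lf (nat_lit 0) (nat_lit 9641627073) (nat_lit 152) (nat_lit 13689452943) (nat_lit 76) (nat_lit 46831937025) (nat_lit 7) (nat_lit 5) (nat_lit 9) (nat_lit 5) (nat_lit 8) (nat_lit 4) (nat_lit 393) (nat_lit 252) (nat_lit 135)) (XT.lf (nat_lit 0) (nat_lit 13765929520) (nat_lit 152) (nat_lit 5348608656) (nat_lit 76) (nat_lit 53005948461) (nat_lit 7) (nat_lit 5) (nat_lit 9) (nat_lit 5) (nat_lit 8) (nat_lit 4) (nat_lit 394) (nat_lit 252) (nat_lit 134))))) (XT.nd (nat_lit 234) (nat_lit 0) (nat_lit 0) (XT.nd (nat_lit 78) (nat_lit 0) (nat_lit 0) (XT.lf (nat_lit 0) (nat_lit 3291821946) (nat_lit 76) (nat_lit 14745537676) (nat_lit 152) (nat_lit 56098622758) (nat_lit 6) (nat_lit 5) (nat_lit 7) (nat_lit 5) (nat_lit 8) (nat_lit 4) (nat_lit 395) (nat_lit 252) (nat_lit 133)) (XT.nd (nat_lit 78) (nat_lit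 0) (nat_lit 0) (XT.lf (nat_lit 0) (nat_lit 12286378214) (nat_lit 76) (nat_lit 10196419000) (nat_lit 152) (nat_lit 53727773745) (nat_lit 6) (nat_lit 5) (nat_lit 7) (nat_lit 5) (nat_lit 8) (nat_lit 4) (nat_lit 396) (nat_lit 252) (nat_lit 132)) (XT.lf (nat_lit 0) (nat_lit 21536471668) (nat_lit 76) (nat_lit 5517217651) (nat_lit 152) (nat_lit 51293948921) (nat_lit 6) (nat_lit 5) (nat_lit 7) (nat_lit 5) (nat_lit 8) (nat_lit 4) (nat_lit 397) (nat_lit 252) (nat_lit 131)))) (XT.nd (nat_lit 78) (nat_lit 0) (nat_lit 0) (XT.lf (nat_lit 0) (nat_lit 31050184913) (nat_lit 76) (nat_lit 703845006) (nat_lit 152) (nat_lit 48795021644) (nat_lit 6) (nat_lit 5) (nat_lit 7) (nat_lit 5) (nat_lit 8) (nat_lit 4) (nat_lit 398) (nat_lit 252) (nat_lit 130)) (XT.nd (nat_lit 78) (nat_lit 0) (nat_lit 0) (XT.lf (nat_lit 0) (nat_lit 36628759569) (nat_lit 152) (nat_lit 42021737051) (nat_lit 0) (nat_lit 4165012870) (nat_lit 6) (nat_lit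 5) (nat_lit 8) (nat_lit 4) (nat_lit 6) (nat_lit 4) (nat_lit 399) (nat_lit 252) (nat_lit 129)) (XT.lf (nat_lit 0) (nat_lit 41649406146) (nat_lit 152) (nat_lit 34340512767) (nat_lit 0) (nat_lit 9160055456) (nat_lit 6) (nat_lit 5) (nat_lit 8) (nat_lit 4) (nat_lit 6) (nat_lit 4) (nat_lit 400) (nat_lit 252) (nat_lit 128)))))) (XT.nd (nat_lit 31044) (nat_lit 0) (nat_lit 14212) (XT.nd (nat_lit 30810) (nat_lit 0) (nat_lit 17860) (XT.nd (nat_lit 30654) (nat_lit 0) (nat_lit 19228) (XT.lf (nat_lit 0) (nat_lit 52125826033) (nat_lit 152) (nat_lit 18318445668) (nat_lit 0) (nat_lit 19587482880) (nat_lit 6) (nat_lit 5) (nat_lit 8) (nat_lit 4) (nat_lit 6) (nat_lit 4) (nat_lit 402) (nat_lit 252) (nat_lit 126)) (XT.nd (nat_lit 78) (nat_lit 76) (nat_lit 0) (XT.lf (nat_lit 0) (nat_lit 678626472) (nat_lit 532) (nat_lit 1327369122) (nat_lit 532) (nat_lit 1327369122) (nat_lit 260) (nat_lit 4) (nat_lit 267) (nat_lit 5)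 (nat_lit 267) (nat_lit 4) (nat_lit 274) (nat_lit 253) (nat_lit 253)) (XT.lf (nat_lit 0) (nat_lit 311547246) (nat_lit 608) (nat_lit 1461932724) (nat_lit 76) (nat_lit 4927604640) (nat_lit 259) (nat_lit 5) (nat_lit 267) (nat_lit 5) (nat_lit 260) (nat_lit 4) (nat_lit 275) (nat_lit 253) (nat_lit 252)))) (XT.nd (nat_lit 78) (nat_lit 760) (nat_lit 0) (XT.lf (nat_lit 0) (nat_lit 2445969950) (nat_lit 608) (nat_lit 792313817) (nat_lit 684) (nat_lit 3499920706) (nat_lit 251) (nat_lit 5) (nat_lit 259) (nat_lit 5) (nat_lit 260) (nat_lit 4) (nat_lit 276) (nat_lit 253) (nat_lit 251)) (XT.nd (nat_lit 78) (nat_lit 760) (nat_lit 0) (XT.lf (nat_lit 0) (nat_lit 6173483463) (nat_lit 684) (nat_lit 356279605) (nat_lit 0) (nat_lit 249314415) (nat_lit 251) (nat_lit 5) (nat_lit 260) (nat_lit 4) (nat_lit 251) (nat_lit 4) (nat_lit 277) (nat_lit 253) (nat_lit 250)) (XT.lf (nat_lit 0) (nat_lit 2278189360) (nat_lit 760) (nat_lit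 3160268495) (nat_lit 76) (nat_lit 1383808786) (nat_lit 241) (nat_lit 5) (nat_lit 251) (nat_lit 5) (nat_lit 242) (nat_lit 4) (nat_lit 278) (nat_lit 253) (nat_lit 249))))) (XT.nd (nat_lit 234) (nat_lit 1976) (nat_lit 0) (XT.nd (nat_lit 78) (nat_lit 912) (nat_lit 0) (XT.lf (nat_lit 0) (nat_lit 874371987) (nat_lit 760) (nat_lit 4281288101) (nat_lit 836) (nat_lit 1713568510) (nat_lit 231) (nat_lit 5) (nat_lit 241) (nat_lit 5) (nat_lit 242) (nat_lit 4) (nat_lit 279) (nat_lit 253) (nat_lit 248)) (XT.nd (nat_lit 78) (nat_lit 836) (nat_lit 0) (XT.lf (nat_lit 0) (nat_lit 1118770462) (nat_lit 836) (nat_lit 1913105376) (nat_lit 76) (nat_lit 3887389712) (nat_lit 230) (nat_lit 5) (nat_lit 241) (nat_lit 5) (nat_lit 231) (nat_lit 5) (nat_lit 280) (nat_lit 253) (nat_lit 247)) (XT.lf (nat_lit 0) (nat_lit 2240742284) (nat_lit 836) (nat_lit 1693250227) (nat_lit 912) (nat_lit 3038548732) (nat_lit 219) (nat_lit 5)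 (nat_lit 230) (nat_lit 5) (nat_lit 231) (nat_lit 5) (nat_lit 281) (nat_lit 253) (nat_lit 246)))) (XT.nd (nat_lit 78) (nat_lit 1976) (nat_lit 0) (XT.lf (nat_lit 0) (nat_lit 6482063151) (nat_lit 836) (nat_lit 283604861) (nat_lit 912) (nat_lit 263998197) (nat_lit 219) (nat_lit 5) (nat_lit 230) (nat_lit 5) (nat_lit 231) (nat_lit 5) (nat_lit 282) (nat_lit 253) (nat_lit 245)) (XT.nd (nat_lit 78) (nat_lit 988) (nat_lit 0) (XT.lf (nat_lit 0) (nat_lit 2505176559) (nat_lit 988) (nat_lit 3367372551) (nat_lit 76) (nat_lit 1216546563) (nat_lit 206) (nat_lit 5) (nat_lit 219) (nat_lit 5) (nat_lit 207) (nat_lit 5) (nat_lit 283) (nat_lit 253) (nat_lit 244)) (XT.lf (nat_lit 0) (nat_lit 914486059) (nat_lit 988) (nat_lit 4370858663) (nat_lit 1064) (nat_lit 1867081164) (nat_lit 193) (nat_lit 5) (nat_lit 206) (nat_lit 5) (nat_lit 207) (nat_lit 5) (nat_lit 284) (nat_lit 253) (nat_lit 243))))))) (XT.nd (nat_lit 936)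 (nat_lit 3040) (nat_lit 0) (XT.nd (nat_lit 468) (nat_lit 2280) (nat_lit 0) (XT.nd (nat_lit 234) (nat_lit 1748) (nat_lit 0) (XT.nd (nat_lit 78) (nat_lit 1064) (nat_lit 0) (XT.lf (nat_lit 0) (nat_lit 864175328) (nat_lit 1064) (nat_lit 1911263969) (nat_lit 76) (nat_lit 4443597511) (nat_lit 192) (nat_lit 5) (nat_lit 206) (nat_lit 5) (nat_lit 193) (nat_lit 5) (nat_lit 285) (nat_lit 253) (nat_lit 242)) (XT.nd (nat_lit 78) (nat_lit 0) (nat_lit 0) (XT.lf (nat_lit 0) (nat_lit 2498621362) (nat_lit 1064) (nat_lit 1084409991) (nat_lit 1140) (nat_lit 3705941104) (nat_lit 178) (nat_lit 5) (nat_lit 192) (nat_lit 5) (nat_lit 193) (nat_lit 5) (nat_lit 286) (nat_lit 253) (nat_lit 241)) (XT.lf (nat_lit 0) (nat_lit 6330085522) (nat_lit 1140) (nat_lit 365640724) (nat_lit 76) (nat_lit 667052441) (nat_lit 178) (nat_lit 5) (nat_lit 193) (nat_lit 5) (nat_lit 179) (nat_lit 5) (nat_lit 287) (nat_lit 253) (nat_lit 240))))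 (XT.nd (nat_lit 78) (nat_lit 532) (nat_lit 0) (XT.lf (nat_lit 0) (nat_lit 1660861869) (nat_lit 1216) (nat_lit 3269654003) (nat_lit 76) (nat_lit 2508738015) (nat_lit 162) (nat_lit 5) (nat_lit 178) (nat_lit 5) (nat_lit 163) (nat_lit 5) (nat_lit 288) (nat_lit 253) (nat_lit 239)) (XT.nd (nat_lit 78) (nat_lit 0) (nat_lit 0) (XT.lf (nat_lit 0) (nat_lit 1267635454) (nat_lit 532) (nat_lit 3086481939) (nat_lit 608) (nat_lit 3165566644) (nat_lit 155) (nat_lit 5) (nat_lit 162) (nat_lit 5) (nat_lit 163) (nat_lit 5) (nat_lit 289) (nat_lit 253) (nat_lit 238)) (XT.lf (nat_lit 0) (nat_lit 5931506482) (nat_lit 532) (nat_lit 1154902368) (nat_lit 608) (nat_lit 517523455) (nat_lit 155) (nat_lit 5) (nat_lit 162) (nat_lit 5) (nat_lit 163) (nat_lit 5) (nat_lit 290) (nat_lit 253) (nat_lit 237))))) (XT.nd (nat_lit 234) (nat_lit 1064) (nat_lit 0) (XT.nd (nat_lit 78) (nat_lit 532) (nat_lit 0) (XT.lf (nat_lit 0) (nat_lit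 2130763776) (nat_lit 684) (nat_lit 4693983285) (nat_lit 76) (nat_lit 866549459) (nat_lit 146) (nat_lit 5) (nat_lit 155) (nat_lit 5) (nat_lit 147) (nat_lit 5) (nat_lit 291) (nat_lit 253) (nat_lit 236)) (XT.nd (nat_lit 78) (nat_lit 532) (nat_lit 0) (XT.lf (nat_lit 0) (nat_lit 4804510076) (nat_lit 684) (nat_lit 33537049) (nat_lit 76) (nat_lit 2944527886) (nat_lit 146) (nat_lit 5) (nat_lit 155) (nat_lit 5) (nat_lit 147) (nat_lit 5) (nat_lit 292) (nat_lit 253) (nat_lit 235)) (XT.lf (nat_lit 0) (nat_lit 4784885438) (nat_lit 532) (nat_lit 2749599980) (nat_lit 608) (nat_lit 342961310) (nat_lit 139) (nat_lit 5) (nat_lit 146) (nat_lit 5) (nat_lit 147) (nat_lit 5) (nat_lit 293) (nat_lit 253) (nat_lit 234)))) (XT.nd (nat_lit 78) (nat_lit 456) (nat_lit 0) (XT.lf (nat_lit 0) (nat_lit 1707944815) (nat_lit 532) (nat_lit 564275003) (nat_lit 608) (nat_lit 5703969729) (nat_lit 131) (nat_lit 5) (nat_lit 138) (nat_lit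 5) (nat_lit 139) (nat_lit 5) (nat_lit 294) (nat_lit 253) (nat_lit 233)) (XT.nd (nat_lit 78) (nat_lit 456) (nat_lit 0) (XT.lf (nat_lit 0) (nat_lit 4938481139) (nat_lit 608) (nat_lit 1458350987) (nat_lit 76) (nat_lit 1681699002) (nat_lit 131) (nat_lit 5) (nat_lit 139) (nat_lit 5) (nat_lit 132) (nat_lit 5) (nat_lit 295) (nat_lit 253) (nat_lit 232)) (XT.lf (nat_lit 0) (nat_lit 3483137556) (nat_lit 456) (nat_lit 4174416247) (nat_lit 532) (nat_lit 527324725) (nat_lit 125) (nat_lit 5) (nat_lit 131) (nat_lit 5) (nat_lit 132) (nat_lit 5) (nat_lit 296) (nat_lit 253) (nat_lit 231)))))) (XT.nd (nat_lit 468) (nat_lit 1216) (nat_lit 0) (XT.nd (nat_lit 234) (nat_lit 912) (nat_lit 0) (XT.nd (nat_lit 78) (nat_lit 380) (nat_lit 0) (XT.lf (nat_lit 0) (nat_lit 216295996) (nat_lit 456) (nat_lit 1856425593) (nat_lit 532) (nat_lit 6222649269) (nat_lit 118) (nat_lit 5) (nat_lit 124) (nat_lit 5) (nat_lit 125) (nat_lit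 5) (nat_lit 297) (nat_lit 253) (nat_lit 230)) (XT.nd (nat_lit 78) (nat_lit 380) (nat_lit 0) (XT.lf (nat_lit 0) (nat_lit 4728530041) (nat_lit 532) (nat_lit 3117269908) (nat_lit 76) (nat_lit 563680665) (nat_lit 118) (nat_lit 5) (nat_lit 125) (nat_lit 5) (nat_lit 119) (nat_lit 5) (nat_lit 298) (nat_lit 253) (nat_lit 229)) (XT.lf (nat_lit 0) (nat_lit 1938094917) (nat_lit 380) (nat_lit 5500118432) (nat_lit 456) (nat_lit 1089681158) (nat_lit 113) (nat_lit 5) (nat_lit 118) (nat_lit 5) (nat_lit 119) (nat_lit 5) (nat_lit 299) (nat_lit 253) (nat_lit 228)))) (XT.nd (nat_lit 78) (nat_lit 836) (nat_lit 0) (XT.lf (nat_lit 0) (nat_lit 1517893516) (nat_lit 456) (nat_lit 1530730984) (nat_lit 76) (nat_lit 5601800038) (nat_lit 112) (nat_lit 5) (nat_lit 118) (nat_lit 5) (nat_lit 113) (nat_lit 5) (nat_lit 300) (nat_lit 253) (nat_lit 227)) (XT.nd (nat_lit 78) (nat_lit 380) (nat_lit 0) (XT.lf (nat_lit 0) (nat_lit 3667743029)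 (nat_lit 456) (nat_lit 488720626) (nat_lit 532) (nat_lit 4620700850) (nat_lit 106) (nat_lit 5) (nat_lit 112) (nat_lit 5) (nat_lit 113) (nat_lit 5) (nat_lit 301) (nat_lit 253) (nat_lit 226)) (XT.lf (nat_lit 0) (nat_lit 52339552) (nat_lit 380) (nat_lit 6798970024) (nat_lit 456) (nat_lit 2057178483) (nat_lit 101) (nat_lit 5) (nat_lit 106) (nat_lit 5) (nat_lit 107) (nat_lit 5) (nat_lit 302) (nat_lit 253) (nat_lit 225))))) (XT.nd (nat_lit 234) (nat_lit 760) (nat_lit 0) (XT.nd (nat_lit 78) (nat_lit 380) (nat_lit 0) (XT.lf (nat_lit 0) (nat_lit 569530803) (nat_lit 456) (nat_lit 3654197967) (nat_lit 76) (nat_lit 4820013973) (nat_lit 100) (nat_lit 5) (nat_lit 106) (nat_lit 5) (nat_lit 101) (nat_lit 5) (nat_lit 303) (nat_lit 253) (nat_lit 224)) (XT.nd (nat_lit 78) (nat_lit 0) (nat_lit 0) (XT.lf (nat_lit 0) (nat_lit 1642949616) (nat_lit 380) (nat_lit 1548981956) (nat_lit 456) (nat_lit 5991852218) (nat_lit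 95) (nat_lit 5) (nat_lit 100) (nat_lit 5) (nat_lit 101) (nat_lit 5) (nat_lit 304) (nat_lit 253) (nat_lit 223)) (XT.lf (nat_lit 0) (nat_lit 5885146227) (nat_lit 456) (nat_lit 2238434765) (nat_lit 76) (nat_lit 1204765180) (nat_lit 95) (nat_lit 5) (nat_lit 101) (nat_lit 5) (nat_lit 96) (nat_lit 5) (nat_lit 305) (nat_lit 253) (nat_lit 222)))) (XT.nd (nat_lit 78) (nat_lit 456) (nat_lit 0) (XT.lf (nat_lit 0) (nat_lit 3198783477) (nat_lit 304) (nat_lit 5451394303) (nat_lit 380) (nat_lit 827418935) (nat_lit 91) (nat_lit 5) (nat_lit 95) (nat_lit 5) (nat_lit 96) (nat_lit 5) (nat_lit 306) (nat_lit 253) (nat_lit 221)) (XT.nd (nat_lit 78) (nat_lit 380) (nat_lit 0) (XT.lf (nat_lit 0) (nat_lit 1798480576) (nat_lit 380) (nat_lit 875615654) (nat_lit 76) (nat_lit 6957725175) (nat_lit 90) (nat_lit 5) (nat_lit 95) (nat_lit 5) (nat_lit 91) (nat_lit 5) (nat_lit 307) (nat_lit 253) (nat_lit 220)) (XT.lf (nat_lit 0) (nat_lit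 4480743758) (nat_lit 456) (nat_lit 5089346711) (nat_lit 76) (nat_lit 220585044) (nat_lit 85) (nat_lit 5) (nat_lit 91) (nat_lit 5) (nat_lit 86) (nat_lit 5) (nat_lit 308) (nat_lit 253) (nat_lit 219))))))))
noncomputable def xc89 : XT := (XT.nd (nat_lit 1794) (nat_lit 1444) (nat_lit 0) (XT.nd (nat_lit 858) (nat_lit 1444) (nat_lit 0) (XT.nd (nat_lit 390) (nat_lit 988) (nat_lit 0) (XT.nd (nat_lit 156) (nat_lit 684) (nat_lit 0) (XT.nd (nat_lit 78) (nat_lit 0) (nat_lit 0) (XT.lf (nat_lit 0) (nat_lit 420636136) (nat_lit 304) (nat_lit 6809852498) (nat_lit 380) (nat_lit 2724268964) (nat_lit 81) (nat_lit 5) (nat_lit 85) (nat_lit 5) (nat_lit 86) (nat_lit 5) (nat_lit 309) (nat_lit 253) (nat_lit 218)) (XT.lf (nat_lit 0) (nat_lit 6130427234) (nat_lit 304) (nat_lit 3932111796) (nat_lit 380) (nat_lit 61299369) (nat_lit 81) (nat_lit 5) (nat_lit 85) (nat_lit 5) (nat_lit 86) (nat_lit 5) (nat_lit 310) (nat_lit 253)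 (nat_lit 217))) (XT.nd (nat_lit 78) (nat_lit 304) (nat_lit 0) (XT.lf (nat_lit 0) (nat_lit 1651103882) (nat_lit 304) (nat_lit 943359965) (nat_lit 380) (nat_lit 7703864126) (nat_lit 76) (nat_lit 5) (nat_lit 80) (nat_lit 5) (nat_lit 81) (nat_lit 5) (nat_lit 311) (nat_lit 253) (nat_lit 216)) (XT.nd (nat_lit 78) (nat_lit 304) (nat_lit 0) (XT.lf (nat_lit 0) (nat_lit 5339919246) (nat_lit 380) (nat_lit 3021123124) (nat_lit 76) (nat_lit 2116718770) (nat_lit 76) (nat_lit 5) (nat_lit 81) (nat_lit 5) (nat_lit 77) (nat_lit 5) (nat_lit 312) (nat_lit 253) (nat_lit 215)) (XT.lf (nat_lit 0) (nat_lit 2750553673) (nat_lit 304) (nat_lit 5404424065) (nat_lit 380) (nat_lit 2508045154) (nat_lit 72) (nat_lit 5) (nat_lit 76) (nat_lit 5) (nat_lit 77) (nat_lit 5) (nat_lit 313) (nat_lit 253) (nat_lit 214))))) (XT.nd (nat_lit 234) (nat_lit 608) (nat_lit 0) (XT.nd (nat_lit 78) (nat_lit 304) (nat_lit 0) (XT.lf (nat_lit 0) (nat_lit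 179237089) (nat_lit 380) (nat_lit 2165745750) (nat_lit 76) (nat_lit 8509385754) (nat_lit 71) (nat_lit 5) (nat_lit 76) (nat_lit 5) (nat_lit 72) (nat_lit 5) (nat_lit 314) (nat_lit 253) (nat_lit 213)) (XT.nd (nat_lit 78) (nat_lit 0) (nat_lit 0) (XT.lf (nat_lit 0) (nat_lit 2893909584) (nat_lit 380) (nat_lit 7323745539) (nat_lit 76) (nat_lit 833196593) (nat_lit 67) (nat_lit 5) (nat_lit 72) (nat_lit 5) (nat_lit 68) (nat_lit 5) (nat_lit 315) (nat_lit 253) (nat_lit 212)) (XT.lf (nat_lit 0) (nat_lit 5688985204) (nat_lit 380) (nat_lit 1501399440) (nat_lit 76) (nat_lit 4062931572) (nat_lit 67) (nat_lit 5) (nat_lit 72) (nat_lit 5) (nat_lit 68) (nat_lit 5) (nat_lit 316) (nat_lit 253) (nat_lit 211)))) (XT.nd (nat_lit 78) (nat_lit 380) (nat_lit 0) (XT.lf (nat_lit 0) (nat_lit 4519209558) (nat_lit 228) (nat_lit 4047153659) (nat_lit 304) (nat_lit 2895592077) (nat_lit 64) (nat_lit 5) (nat_lit 67) (nat_lit 5) (nat_lit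 68) (nat_lit 5) (nat_lit 317) (nat_lit 253) (nat_lit 210)) (XT.nd (nat_lit 78) (nat_lit 380) (nat_lit 0) (XT.lf (nat_lit 0) (nat_lit 10687253774) (nat_lit 228) (nat_lit 813674305) (nat_lit 304) (nat_lit 176852069) (nat_lit 64) (nat_lit 5) (nat_lit 67) (nat_lit 5) (nat_lit 68) (nat_lit 5) (nat_lit 318) (nat_lit 253) (nat_lit 209)) (XT.lf (nat_lit 0) (nat_lit 2603050964) (nat_lit 380) (nat_lit 6771362375) (nat_lit 76) (nat_lit 2524035603) (nat_lit 59) (nat_lit 5) (nat_lit 64) (nat_lit 5) (nat_lit 60) (nat_lit 5) (nat_lit 319) (nat_lit 253) (nat_lit 208)))))) (XT.nd (nat_lit 468) (nat_lit 684) (nat_lit 0) (XT.nd (nat_lit 234) (nat_lit 532) (nat_lit 0) (XT.nd (nat_lit 78) (nat_lit 228) (nat_lit 0) (XT.lf (nat_lit 0) (nat_lit 5437951231) (nat_lit 380) (nat_lit 750350068) (nat_lit 76) (nat_lit 5938177438) (nat_lit 59) (nat_lit 5) (nat_lit 64) (nat_lit 5) (nat_lit 60) (nat_lit 5) (nat_lit 320) (nat_lit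 253) (nat_lit 207)) (XT.nd (nat_lit 78) (nat_lit 0) (nat_lit 0) (XT.lf (nat_lit 0) (nat_lit 5496868115) (nat_lit 228) (nat_lit 2872119265) (nat_lit 304) (nat_lit 3992076086) (nat_lit 56) (nat_lit 5) (nat_lit 59) (nat_lit 5) (nat_lit 60) (nat_lit 5) (nat_lit 321) (nat_lit 253) (nat_lit 206)) (XT.lf (nat_lit 0) (nat_lit 11359518206) (nat_lit 304) (nat_lit 723044589) (nat_lit 76) (nat_lit 521021382) (nat_lit 56) (nat_lit 5) (nat_lit 60) (nat_lit 5) (nat_lit 57) (nat_lit 5) (nat_lit 322) (nat_lit 253) (nat_lit 205)))) (XT.nd (nat_lit 78) (nat_lit 228) (nat_lit 0) (XT.lf (nat_lit 0) (nat_lit 1598185890) (nat_lit 304) (nat_lit 7244547101) (nat_lit 76) (nat_lit 4008950058) (nat_lit 52) (nat_lit 5) (nat_lit 56) (nat_lit 5) (nat_lit 53) (nat_lit 5) (nat_lit 323) (nat_lit 253) (nat_lit 204)) (XT.nd (nat_lit 78) (nat_lit 228) (nat_lit 0) (XT.lf (nat_lit 0) (nat_lit 4468124898) (nat_lit 304) (nat_lit 1037956544)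 (nat_lit 76) (nat_lit 7601792697) (nat_lit 52) (nat_lit 5) (nat_lit 56) (nat_lit 5) (nat_lit 53) (nat_lit 5) (nat_lit 324) (nat_lit 253) (nat_lit 203)) (XT.lf (nat_lit 0) (nat_lit 5401393012) (nat_lit 228) (nat_lit 2035904596) (nat_lit 304) (nat_lit 5934099579) (nat_lit 49) (nat_lit 5) (nat_lit 52) (nat_lit 5) (nat_lit 53) (nat_lit 5) (nat_lit 325) (nat_lit 253) (nat_lit 202))))) (XT.nd (nat_lit 234) (nat_lit 380) (nat_lit 0) (XT.nd (nat_lit 78) (nat_lit 304) (nat_lit 0) (XT.lf (nat_lit 0) (nat_lit 10482509406) (nat_lit 304) (nat_lit 1661458344) (nat_lit 76) (nat_lit 1499288376) (nat_lit 49) (nat_lit 5) (nat_lit 53) (nat_lit 5) (nat_lit 50) (nat_lit 5) (nat_lit 326) (nat_lit 253) (nat_lit 201)) (XT.nd (nat_lit 78) (nat_lit 76) (nat_lit 0) (XT.lf (nat_lit 0) (nat_lit 4853363476) (nat_lit 228) (nat_lit 8795234737) (nat_lit 304) (nat_lit 273824978) (nat_lit 46) (nat_lit 5) (nat_lit 49) (nat_lit 5)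 (nat_lit 50) (nat_lit 5) (nat_lit 327) (nat_lit 253) (nat_lit 200)) (XT.lf (nat_lit 0) (nat_lit 2626815238) (nat_lit 304) (nat_lit 2695631744) (nat_lit 76) (nat_lit 8887381794) (nat_lit 45) (nat_lit 5) (nat_lit 49) (nat_lit 5) (nat_lit 46) (nat_lit 5) (nat_lit 328) (nat_lit 253) (nat_lit 199)))) (XT.nd (nat_lit 78) (nat_lit 228) (nat_lit 0) (XT.lf (nat_lit 0) (nat_lit 3886060029) (nat_lit 152) (nat_lit 1724196492) (nat_lit 228) (nat_lit 8895514863) (nat_lit 43) (nat_lit 5) (nat_lit 45) (nat_lit 5) (nat_lit 46) (nat_lit 5) (nat_lit 329) (nat_lit 253) (nat_lit 198)) (XT.nd (nat_lit 78) (nat_lit 228) (nat_lit 0) (XT.lf (nat_lit 0) (nat_lit 8693998796) (nat_lit 228) (nat_lit 4165054830) (nat_lit 76) (nat_lit 1951248456) (nat_lit 43) (nat_lit 5) (nat_lit 46) (nat_lit 5) (nat_lit 44) (nat_lit 5) (nat_lit 330) (nat_lit 253) (nat_lit 197)) (XT.lf (nat_lit 0) (nat_lit 2459387057) (nat_lit 228) (nat_lit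 9416875204) (nat_lit 304) (nat_lit 3247558931) (nat_lit 40) (nat_lit 5) (nat_lit 43) (nat_lit 5) (nat_lit 44) (nat_lit 5) (nat_lit 331) (nat_lit 253) (nat_lit 196))))))) (XT.nd (nat_lit 936) (nat_lit 532) (nat_lit 0) (XT.nd (nat_lit 468) (nat_lit 532) (nat_lit 0) (XT.nd (nat_lit 234) (nat_lit 152) (nat_lit 0) (XT.nd (nat_lit 78) (nat_lit 228) (nat_lit 0) (XT.lf (nat_lit 0) (nat_lit 9313704167) (nat_lit 228) (nat_lit 5848134306) (nat_lit 304) (nat_lit 284703863) (nat_lit 40) (nat_lit 5) (nat_lit 43) (nat_lit 5) (nat_lit 44) (nat_lit 5) (nat_lit 332) (nat_lit 253) (nat_lit 195)) (XT.nd (nat_lit 78) (nat_lit 0) (nat_lit 0) (XT.lf (nat_lit 0) (nat_lit 524995719) (nat_lit 152) (nat_lit 2159516177) (nat_lit 228) (nat_lit 13094521147) (nat_lit 37) (nat_lit 5) (nat_lit 39) (nat_lit 5) (nat_lit 40) (nat_lit 5) (nat_lit 333) (nat_lit 253) (nat_lit 194)) (XT.lf (nat_lit 0) (nat_lit 5782090844) (nat_lit 228)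 (nat_lit 8684218830) (nat_lit 76) (nat_lit 1653783070) (nat_lit 37) (nat_lit 5) (nat_lit 40) (nat_lit 5) (nat_lit 38) (nat_lit 5) (nat_lit 334) (nat_lit 253) (nat_lit 193)))) (XT.nd (nat_lit 78) (nat_lit 152) (nat_lit 0) (XT.lf (nat_lit 0) (nat_lit 8961652094) (nat_lit 228) (nat_lit 1990789697) (nat_lit 76) (nat_lit 5519299056) (nat_lit 37) (nat_lit 5) (nat_lit 40) (nat_lit 5) (nat_lit 38) (nat_lit 5) (nat_lit 335) (nat_lit 253) (nat_lit 192)) (XT.nd (nat_lit 78) (nat_lit 0) (nat_lit 0) (XT.lf (nat_lit 0) (nat_lit 4949438668) (nat_lit 152) (nat_lit 7303353679) (nat_lit 228) (nat_lit 4580687717) (nat_lit 35) (nat_lit 5) (nat_lit 37) (nat_lit 5) (nat_lit 38) (nat_lit 5) (nat_lit 336) (nat_lit 253) (nat_lit 191)) (XT.lf (nat_lit 0) (nat_lit 12088594034) (nat_lit 152) (nat_lit 3543223612) (nat_lit 228) (nat_lit 1574605922) (nat_lit 35) (nat_lit 5) (nat_lit 37) (nat_lit 5) (nat_lit 38) (nat_lit 5)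 (nat_lit 337) (nat_lit 253) (nat_lit 190))))) (XT.nd (nat_lit 234) (nat_lit 304) (nat_lit 0) (XT.nd (nat_lit 78) (nat_lit 0) (nat_lit 0) (XT.lf (nat_lit 0) (nat_lit 1482422187) (nat_lit 228) (nat_lit 15770777131) (nat_lit 76) (nat_lit 337228646) (nat_lit 32) (nat_lit 5) (nat_lit 35) (nat_lit 5) (nat_lit 33) (nat_lit 5) (nat_lit 338) (nat_lit 253) (nat_lit 189)) (XT.nd (nat_lit 78) (nat_lit 0) (nat_lit 0) (XT.lf (nat_lit 0) (nat_lit 4656647565) (nat_lit 228) (nat_lit 9014938308) (nat_lit 76) (nat_lit 4312209259) (nat_lit 32) (nat_lit 5) (nat_lit 35) (nat_lit 5) (nat_lit 33) (nat_lit 5) (nat_lit 339) (nat_lit 253) (nat_lit 188)) (XT.lf (nat_lit 0) (nat_lit 7896838826) (nat_lit 228) (nat_lit 2104501072) (nat_lit 76) (nat_lit 8388524909) (nat_lit 32) (nat_lit 5) (nat_lit 35) (nat_lit 5) (nat_lit 33) (nat_lit 5) (nat_lit 340) (nat_lit 253) (nat_lit 187)))) (XT.nd (nat_lit 78) (nat_lit 152) (nat_lit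 0) (XT.lf (nat_lit 0) (nat_lit 5065417360) (nat_lit 152) (nat_lit 6189101736) (nat_lit 228) (nat_lit 7553011956) (nat_lit 30) (nat_lit 5) (nat_lit 32) (nat_lit 5) (nat_lit 33) (nat_lit 5) (nat_lit 341) (nat_lit 253) (nat_lit 186)) (XT.nd (nat_lit 78) (nat_lit 152) (nat_lit 0) (XT.lf (nat_lit 0) (nat_lit 12447354710) (nat_lit 152) (nat_lit 2258800931) (nat_lit 228) (nat_lit 4531797175) (nat_lit 30) (nat_lit 5) (nat_lit 32) (nat_lit 5) (nat_lit 33) (nat_lit 5) (nat_lit 342) (nat_lit 253) (nat_lit 185)) (XT.lf (nat_lit 0) (nat_lit 312825600) (nat_lit 152) (nat_lit 17941344662) (nat_lit 228) (nat_lit 1427353759) (nat_lit 28) (nat_lit 5) (nat_lit 30) (nat_lit 5) (nat_lit 31) (nat_lit 4) (nat_lit 343) (nat_lit 253) (nat_lit 184)))))) (XT.nd (nat_lit 468) (nat_lit 228) (nat_lit 0) (XT.nd (nat_lit 234) (nat_lit 76) (nat_lit 0) (XT.nd (nat_lit 78) (nat_lit 152) (nat_lit 0) (XT.lf (nat_lit 0) (nat_lit 1799991448)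 (nat_lit 228) (nat_lit 12453510477) (nat_lit 76) (nat_lit 5882481000) (nat_lit 27) (nat_lit 5) (nat_lit 30) (nat_lit 5) (nat_lit 28) (nat_lit 5) (nat_lit 344) (nat_lit 253) (nat_lit 183)) (XT.nd (nat_lit 78) (nat_lit 152) (nat_lit 0) (XT.lf (nat_lit 0) (nat_lit 5068960747) (nat_lit 228) (nat_lit 5389327390) (nat_lit 76) (nat_lit 10146178550) (nat_lit 27) (nat_lit 5) (nat_lit 30) (nat_lit 5) (nat_lit 28) (nat_lit 5) (nat_lit 345) (nat_lit 253) (nat_lit 182)) (XT.lf (nat_lit 0) (nat_lit 1880438144) (nat_lit 152) (nat_lit 6547901107) (nat_lit 228) (nat_lit 12658914750) (nat_lit 25) (nat_lit 5) (nat_lit 27) (nat_lit 5) (nat_lit 28) (nat_lit 5) (nat_lit 346) (nat_lit 253) (nat_lit 181)))) (XT.nd (nat_lit 78) (nat_lit 76) (nat_lit 0) (XT.lf (nat_lit 0) (nat_lit 9436157341) (nat_lit 152) (nat_lit 2481367557) (nat_lit 228) (nat_lit 9666147945) (nat_lit 25) (nat_lit 5) (nat_lit 27) (nat_lit 5) (nat_lit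 28) (nat_lit 5) (nat_lit 347) (nat_lit 253) (nat_lit 180)) (XT.nd (nat_lit 78) (nat_lit 76) (nat_lit 0) (XT.lf (nat_lit 0) (nat_lit 15502979532) (nat_lit 228) (nat_lit 4934817556) (nat_lit 76) (nat_lit 1657457498) (nat_lit 25) (nat_lit 5) (nat_lit 28) (nat_lit 5) (nat_lit 26) (nat_lit 4) (nat_lit 348) (nat_lit 253) (nat_lit 179)) (XT.lf (nat_lit 0) (nat_lit 2477285421) (nat_lit 76) (nat_lit 16742999513) (nat_lit 152) (nat_lit 3401187843) (nat_lit 24) (nat_lit 5) (nat_lit 25) (nat_lit 5) (nat_lit 26) (nat_lit 4) (nat_lit 349) (nat_lit 253) (nat_lit 178))))) (XT.nd (nat_lit 234) (nat_lit 0) (nat_lit 0) (XT.nd (nat_lit 78) (nat_lit 228) (nat_lit 0) (XT.lf (nat_lit 0) (nat_lit 10172561233) (nat_lit 76) (nat_lit 12902600107) (nat_lit 152) (nat_lit 87551716) (nat_lit 24) (nat_lit 5) (nat_lit 25) (nat_lit 5) (nat_lit 26) (nat_lit 4) (nat_lit 350) (nat_lit 253) (nat_lit 177)) (XT.nd (nat_lit 78) (nat_lit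 152) (nat_lit 0) (XT.lf (nat_lit 0) (nat_lit 3237268758) (nat_lit 152) (nat_lit 5693116335) (nat_lit 76) (nat_lit 14789562537) (nat_lit 23) (nat_lit 5) (nat_lit 25) (nat_lit 5) (nat_lit 24) (nat_lit 5) (nat_lit 351) (nat_lit 253) (nat_lit 176)) (XT.lf (nat_lit 0) (nat_lit 1818958347) (nat_lit 152) (nat_lit 4835947942) (nat_lit 228) (nat_lit 17639137629) (nat_lit 21) (nat_lit 5) (nat_lit 23) (nat_lit 5) (nat_lit 24) (nat_lit 5) (nat_lit 352) (nat_lit 253) (nat_lit 175)))) (XT.nd (nat_lit 78) (nat_lit 0) (nat_lit 0) (XT.lf (nat_lit 0) (nat_lit 9634976570) (nat_lit 152) (nat_lit 575226231) (nat_lit 228) (nat_lit 14674121588) (nat_lit 21) (nat_lit 5) (nat_lit 23) (nat_lit 5) (nat_lit 24) (nat_lit 5) (nat_lit 353) (nat_lit 253) (nat_lit 174)) (XT.nd (nat_lit 78) (nat_lit 0) (nat_lit 0) (XT.lf (nat_lit 0) (nat_lit 13886958830) (nat_lit 228) (nat_lit 7881024416) (nat_lit 76) (nat_lit 3723900759) (nat_lit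 21) (nat_lit 5) (nat_lit 24) (nat_lit 5) (nat_lit 22) (nat_lit 4) (nat_lit 354) (nat_lit 253) (nat_lit 173)) (XT.lf (nat_lit 0) (nat_lit 17658494093) (nat_lit 228) (nat_lit 333784039) (nat_lit 76) (nat_lit 8125872298) (nat_lit 21) (nat_lit 5) (nat_lit 24) (nat_lit 5) (nat_lit 22) (nat_lit 4) (nat_lit 355) (nat_lit 253) (nat_lit 172))))))))
noncomputable def xc90 : XT := (XT.nd (nat_lit 1794) (nat_lit 304) (nat_lit 0) (XT.nd (nat_lit 858) (nat_lit 456) (nat_lit 0) (XT.nd (nat_lit 390) (nat_lit 76) (nat_lit 0) (XT.nd (nat_lit 156) (nat_lit 228) (nat_lit 0) (XT.nd (nat_lit 78) (nat_lit 0) (nat_lit 0) (XT.lf (nat_lit 0) (nat_lit 7551861429) (nat_lit 76) (nat_lit 14043306364) (nat_lit 152) (nat_lit 5166491185) (nat_lit 20) (nat_lit 5) (nat_lit 21) (nat_lit 5) (nat_lit 22) (nat_lit 4) (nat_lit 356) (nat_lit 253) (nat_lit 171)) (XT.lf (nat_lit 0) (nat_lit 15645889196) (nat_lit 76) (nat_lit 9987085639)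 (nat_lit 152) (nat_lit 1792020450) (nat_lit 20) (nat_lit 5) (nat_lit 21) (nat_lit 5) (nat_lit 22) (nat_lit 4) (nat_lit 357) (nat_lit 253) (nat_lit 170))) (XT.nd (nat_lit 78) (nat_lit 152) (nat_lit 0) (XT.lf (nat_lit 0) (nat_lit 1630876233) (nat_lit 152) (nat_lit 4176097365) (nat_lit 76) (nat_lit 22301383871) (nat_lit 19) (nat_lit 5) (nat_lit 21) (nat_lit 5) (nat_lit 20) (nat_lit 5) (nat_lit 358) (nat_lit 253) (nat_lit 169)) (XT.nd (nat_lit 78) (nat_lit 0) (nat_lit 0) (XT.lf (nat_lit 0) (nat_lit 3675565992) (nat_lit 152) (nat_lit 1460835519) (nat_lit 228) (nat_lit 23674820289) (nat_lit 17) (nat_lit 5) (nat_lit 19) (nat_lit 5) (nat_lit 20) (nat_lit 5) (nat_lit 359) (nat_lit 253) (nat_lit 168)) (XT.lf (nat_lit 0) (nat_lit 8799408793) (nat_lit 228) (nat_lit 17748468278) (nat_lit 76) (nat_lit 2985737494) (nat_lit 17) (nat_lit 5) (nat_lit 20) (nat_lit 5) (nat_lit 18) (nat_lit 4) (nat_lit 360) (nat_lit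 253) (nat_lit 167))))) (XT.nd (nat_lit 234) (nat_lit 0) (nat_lit 0) (XT.nd (nat_lit 78) (nat_lit 76) (nat_lit 0) (XT.lf (nat_lit 0) (nat_lit 12568070686) (nat_lit 228) (nat_lit 10186692264) (nat_lit 76) (nat_lit 7523054872) (nat_lit 17) (nat_lit 5) (nat_lit 20) (nat_lit 5) (nat_lit 18) (nat_lit 4) (nat_lit 361) (nat_lit 253) (nat_lit 166)) (XT.nd (nat_lit 78) (nat_lit 76) (nat_lit 0) (XT.lf (nat_lit 0) (nat_lit 16431637752) (nat_lit 228) (nat_lit 2429677946) (nat_lit 76) (nat_lit 12183587425) (nat_lit 17) (nat_lit 5) (nat_lit 20) (nat_lit 5) (nat_lit 18) (nat_lit 4) (nat_lit 362) (nat_lit 253) (nat_lit 165)) (XT.lf (nat_lit 0) (nat_lit 5639397609) (nat_lit 76) (nat_lit 14808297652) (nat_lit 152) (nat_lit 11386219191) (nat_lit 16) (nat_lit 5) (nat_lit 17) (nat_lit 5) (nat_lit 18) (nat_lit 4) (nat_lit 363) (nat_lit 253) (nat_lit 164)))) (XT.nd (nat_lit 78) (nat_lit 0) (nat_lit 0) (XT.lf (nat_lit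 0) (nat_lit 13969958220) (nat_lit 76) (nat_lit 10621406570) (nat_lit 152) (nat_lit 8055028077) (nat_lit 16) (nat_lit 5) (nat_lit 17) (nat_lit 5) (nat_lit 18) (nat_lit 4) (nat_lit 364) (nat_lit 253) (nat_lit 163)) (XT.nd (nat_lit 78) (nat_lit 0) (nat_lit 0) (XT.lf (nat_lit 0) (nat_lit 22520927661) (nat_lit 76) (nat_lit 6321518988) (nat_lit 152) (nat_lit 4641316263) (nat_lit 16) (nat_lit 5) (nat_lit 17) (nat_lit 5) (nat_lit 18) (nat_lit 4) (nat_lit 365) (nat_lit 253) (nat_lit 162)) (XT.lf (nat_lit 0) (nat_lit 31299777652) (nat_lit 76) (nat_lit 1904877721) (nat_lit 152) (nat_lit 1142100895) (nat_lit 16) (nat_lit 5) (nat_lit 17) (nat_lit 5) (nat_lit 18) (nat_lit 4) (nat_lit 366) (nat_lit 253) (nat_lit 161)))))) (XT.nd (nat_lit 468) (nat_lit 152) (nat_lit 0) (XT.nd (nat_lit 234) (nat_lit 76) (nat_lit 0) (XT.nd (nat_lit 78) (nat_lit 0) (nat_lit 0) (XT.lf (nat_lit 0) (nat_lit 2473533410) (nat_lit 228)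 (nat_lit 30104824508) (nat_lit 76) (nat_lit 2654796357) (nat_lit 13) (nat_lit 5) (nat_lit 16) (nat_lit 5) (nat_lit 14) (nat_lit 4) (nat_lit 367) (nat_lit 253) (nat_lit 160)) (XT.nd (nat_lit 78) (nat_lit 0) (nat_lit 0) (XT.lf (nat_lit 0) (nat_lit 6208605758) (nat_lit 228) (nat_lit 22592575323) (nat_lit 76) (nat_lit 7343615371) (nat_lit 13) (nat_lit 5) (nat_lit 16) (nat_lit 5) (nat_lit 14) (nat_lit 4) (nat_lit 368) (nat_lit 253) (nat_lit 159)) (XT.lf (nat_lit 0) (nat_lit 10040187349) (nat_lit 228) (nat_lit 14882375062) (nat_lit 76) (nat_lit 12161700693) (nat_lit 13) (nat_lit 5) (nat_lit 16) (nat_lit 5) (nat_lit 14) (nat_lit 4) (nat_lit 369) (nat_lit 253) (nat_lit 158)))) (XT.nd (nat_lit 78) (nat_lit 76) (nat_lit 0) (XT.lf (nat_lit 0) (nat_lit 13971626169) (nat_lit 228) (nat_lit 6967486657) (nat_lit 76) (nat_lit 17113262301) (nat_lit 13) (nat_lit 5) (nat_lit 16) (nat_lit 5) (nat_lit 14) (nat_lit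 4) (nat_lit 370) (nat_lit 253) (nat_lit 157)) (XT.nd (nat_lit 78) (nat_lit 0) (nat_lit 0) (XT.lf (nat_lit 0) (nat_lit 1182072302) (nat_lit 76) (nat_lit 16835647953) (nat_lit 152) (nat_lit 21031917301) (nat_lit 12) (nat_lit 5) (nat_lit 13) (nat_lit 5) (nat_lit 14) (nat_lit 4) (nat_lit 371) (nat_lit 253) (nat_lit 156)) (XT.lf (nat_lit 0) (nat_lit 9693355450) (nat_lit 76) (nat_lit 12547729710) (nat_lit 152) (nat_lit 17834064225) (nat_lit 12) (nat_lit 5) (nat_lit 13) (nat_lit 5) (nat_lit 14) (nat_lit 4) (nat_lit 372) (nat_lit 253) (nat_lit 155))))) (XT.nd (nat_lit 234) (nat_lit 152) (nat_lit 0) (XT.nd (nat_lit 78) (nat_lit 0) (nat_lit 0) (XT.lf (nat_lit 0) (nat_lit 18435133183) (nat_lit 76) (nat_lit 8141969326) (nat_lit 152) (nat_lit 14554753444) (nat_lit 12) (nat_lit 5) (nat_lit 13) (nat_lit 5) (nat_lit 14) (nat_lit 4) (nat_lit 373) (nat_lit 253) (nat_lit 154)) (XT.nd (nat_lit 78) (nat_lit 0) (nat_lit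 0) (XT.lf (nat_lit 0) (nat_lit 27415043947) (nat_lit 76) (nat_lit 3614517106) (nat_lit 152) (nat_lit 11191119539) (nat_lit 12) (nat_lit 5) (nat_lit 13) (nat_lit 5) (nat_lit 14) (nat_lit 4) (nat_lit 374) (nat_lit 253) (nat_lit 153)) (XT.lf (nat_lit 0) (nat_lit 35612334787) (nat_lit 152) (nat_lit 6711623936) (nat_lit 0) (nat_lit 1018316479) (nat_lit 12) (nat_lit 5) (nat_lit 14) (nat_lit 4) (nat_lit 12) (nat_lit 4) (nat_lit 375) (nat_lit 253) (nat_lit 152)))) (XT.nd (nat_lit 78) (nat_lit 76) (nat_lit 0) (XT.lf (nat_lit 0) (nat_lit 1597562376) (nat_lit 76) (nat_lit 38773222064) (nat_lit 76) (nat_lit 4125594682) (nat_lit 11) (nat_lit 4) (nat_lit 12) (nat_lit 5) (nat_lit 12) (nat_lit 4) (nat_lit 376) (nat_lit 253) (nat_lit 151)) (XT.nd (nat_lit 78) (nat_lit 76) (nat_lit 0) (XT.lf (nat_lit 0) (nat_lit 10270798133) (nat_lit 76) (nat_lit 35056170336) (nat_lit 76) (nat_lit 356495310) (nat_lit 11) (nat_lit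 4) (nat_lit 12) (nat_lit 5) (nat_lit 12) (nat_lit 4) (nat_lit 377) (nat_lit 253) (nat_lit 150)) (XT.lf (nat_lit 0) (nat_lit 3444327966) (nat_lit 152) (nat_lit 27758220946) (nat_lit 76) (nat_lit 15702978486) (nat_lit 10) (nat_lit 5) (nat_lit 12) (nat_lit 5) (nat_lit 11) (nat_lit 4) (nat_lit 378) (nat_lit 253) (nat_lit 149))))))) (XT.nd (nat_lit 936) (nat_lit 152) (nat_lit 0) (XT.nd (nat_lit 468) (nat_lit 76) (nat_lit 0) (XT.nd (nat_lit 234) (nat_lit 76) (nat_lit 0) (XT.nd (nat_lit 78) (nat_lit 0) (nat_lit 0) (XT.lf (nat_lit 0) (nat_lit 7339825868) (nat_lit 152) (nat_lit 19899420101) (nat_lit 76) (nat_lit 20925273059) (nat_lit 10) (nat_lit 5) (nat_lit 12) (nat_lit 5) (nat_lit 11) (nat_lit 4) (nat_lit 379) (nat_lit 253) (nat_lit 148)) (XT.nd (nat_lit 78) (nat_lit 0) (nat_lit 0) (XT.lf (nat_lit 0) (nat_lit 11340358735) (nat_lit 152) (nat_lit 11825969348) (nat_lit 76) (nat_lit 26295313481) (nat_lit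 10) (nat_lit 5) (nat_lit 12) (nat_lit 5) (nat_lit 11) (nat_lit 4) (nat_lit 380) (nat_lit 253) (nat_lit 147)) (XT.lf (nat_lit 0) (nat_lit 15449422178) (nat_lit 152) (nat_lit 3530814216) (nat_lit 76) (nat_lit 31817792021) (nat_lit 10) (nat_lit 5) (nat_lit 12) (nat_lit 5) (nat_lit 11) (nat_lit 4) (nat_lit 381) (nat_lit 253) (nat_lit 146)))) (XT.nd (nat_lit 78) (nat_lit 0) (nat_lit 0) (XT.lf (nat_lit 0) (nat_lit 5092669820) (nat_lit 76) (nat_lit 14626890679) (nat_lit 152) (nat_lit 32453818183) (nat_lit 9) (nat_lit 5) (nat_lit 10) (nat_lit 5) (nat_lit 11) (nat_lit 4) (nat_lit 382) (nat_lit 253) (nat_lit 145)) (XT.nd (nat_lit 78) (nat_lit 0) (nat_lit 0) (XT.lf (nat_lit 0) (nat_lit 14027529645) (nat_lit 76) (nat_lit 10114912089) (nat_lit 152) (nat_lit 29446814286) (nat_lit 9) (nat_lit 5) (nat_lit 10) (nat_lit 5) (nat_lit 11) (nat_lit 4) (nat_lit 383) (nat_lit 253) (nat_lit 144)) (XT.lf (nat_lit 0) (nat_lit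 23211302291) (nat_lit 76) (nat_lit 5476012420) (nat_lit 152) (nat_lit 26360621369) (nat_lit 9) (nat_lit 5) (nat_lit 10) (nat_lit 5) (nat_lit 11) (nat_lit 4) (nat_lit 384) (nat_lit 253) (nat_lit 143))))) (XT.nd (nat_lit 234) (nat_lit 76) (nat_lit 0) (XT.nd (nat_lit 78) (nat_lit 0) (nat_lit 0) (XT.lf (nat_lit 0) (nat_lit 32652012415) (nat_lit 76) (nat_lit 706138264) (nat_lit 152) (nat_lit 23192542757) (nat_lit 9) (nat_lit 5) (nat_lit 10) (nat_lit 5) (nat_lit 11) (nat_lit 4) (nat_lit 385) (nat_lit 253) (nat_lit 142)) (XT.nd (nat_lit 78) (nat_lit 0) (nat_lit 0) (XT.lf (nat_lit 0) (nat_lit 38199393137) (nat_lit 152) (nat_lit 15781294183) (nat_lit 0) (nat_lit 4116942991) (nat_lit 9) (nat_lit 5) (nat_lit 11) (nat_lit 4) (nat_lit 9) (nat_lit 4) (nat_lit 386) (nat_lit 253) (nat_lit 141)) (XT.lf (nat_lit 0) (nat_lit 43183002944) (nat_lit 152) (nat_lit 7445111062) (nat_lit 0) (nat_lit 9062952474) (nat_lit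 9) (nat_lit 5) (nat_lit 11) (nat_lit 4) (nat_lit 9) (nat_lit 4) (nat_lit 387) (nat_lit 253) (nat_lit 140)))) (XT.nd (nat_lit 78) (nat_lit 0) (nat_lit 0) (XT.lf (nat_lit 0) (nat_lit 1146308833) (nat_lit 76) (nat_lit 47171257068) (nat_lit 76) (nat_lit 13014701427) (nat_lit 8) (nat_lit 4) (nat_lit 9) (nat_lit 5) (nat_lit 9) (nat_lit 4) (nat_lit 388) (nat_lit 253) (nat_lit 139)) (XT.nd (nat_lit 78) (nat_lit 0) (nat_lit 0) (XT.lf (nat_lit 0) (nat_lit 10131040267) (nat_lit 76) (nat_lit 43540847315) (nat_lit 76) (nat_lit 9348849761) (nat_lit 8) (nat_lit 4) (nat_lit 9) (nat_lit 5) (nat_lit 9) (nat_lit 4) (nat_lit 389) (nat_lit 253) (nat_lit 138)) (XT.lf (nat_lit 0) (nat_lit 19368761668) (nat_lit 76) (nat_lit 39808893568) (nat_lit 76) (nat_lit 5582486390) (nat_lit 8) (nat_lit 4) (nat_lit 9) (nat_lit 5) (nat_lit 9) (nat_lit 4) (nat_lit 390) (nat_lit 253) (nat_lit 137)))))) (XT.nd (nat_lit 468) (nat_lit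 0) (nat_lit 0) (XT.nd (nat_lit 234) (nat_lit 76) (nat_lit 0) (XT.nd (nat_lit 78) (nat_lit 76) (nat_lit 0) (XT.lf (nat_lit 0) (nat_lit 28867544830) (nat_lit 76) (nat_lit 35972134897) (nat_lit 76) (nat_lit 1712320317) (nat_lit 8) (nat_lit 4) (nat_lit 9) (nat_lit 5) (nat_lit 9) (nat_lit 4) (nat_lit 391) (nat_lit 253) (nat_lit 136)) (XT.nd (nat_lit 78) (nat_lit 0) (nat_lit 0) (XT.lf (nat_lit 0) (nat_lit 2220831260) (nat_lit 152) (nat_lit 29783961493) (nat_lit 76) (nat_lit 36392432360) (nat_lit 7) (nat_lit 5) (nat_lit 9) (nat_lit 5) (nat_lit 8) (nat_lit 4) (nat_lit 392) (nat_lit 253) (nat_lit 135)) (XT.lf (nat_lit 0) (nat_lit 6229069685) (nat_lit 152) (nat_lit 21678727170) (nat_lit 76) (nat_lit 42389760359) (nat_lit 7) (nat_lit 5) (nat_lit 9) (nat_lit 5) (nat_lit 8) (nat_lit 4) (nat_lit 393) (nat_lit 253) (nat_lit 134)))) (XT.nd (nat_lit 78) (nat_lit 76) (nat_lit 0) (XT.lf (nat_lit 0) (nat_lit 10349310839)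 (nat_lit 152) (nat_lit 13345210132) (nat_lit 76) (nat_lit 48560629656) (nat_lit 7) (nat_lit 5) (nat_lit 9) (nat_lit 5) (nat_lit 8) (nat_lit 4) (nat_lit 394) (nat_lit 253) (nat_lit 133)) (XT.nd (nat_lit 78) (nat_lit 76) (nat_lit 0) (XT.lf (nat_lit 0) (nat_lit 14585154933) (nat_lit 152) (nat_lit 4776128664) (nat_lit 76) (nat_lit 54910432275) (nat_lit 7) (nat_lit 5) (nat_lit 9) (nat_lit 5) (nat_lit 8) (nat_lit 4) (nat_lit 395) (nat_lit 253) (nat_lit 132)) (XT.lf (nat_lit 0) (nat_lit 4116329187) (nat_lit 76) (nat_lit 14863542677) (nat_lit 152) (nat_lit 57367956071) (nat_lit 6) (nat_lit 5) (nat_lit 7) (nat_lit 5) (nat_lit 8) (nat_lit 4) (nat_lit 396) (nat_lit 253) (nat_lit 131))))) (XT.nd (nat_lit 234) (nat_lit 0) (nat_lit 0) (XT.nd (nat_lit 78) (nat_lit 0) (nat_lit 0) (XT.lf (nat_lit 0) (nat_lit 13359583719) (nat_lit 76) (nat_lit 10187397853) (nat_lit 152) (nat_lit 54938028928) (nat_lit 6) (nat_lit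 5) (nat_lit 7) (nat_lit 5) (nat_lit 8) (nat_lit 4) (nat_lit 397) (nat_lit 253) (nat_lit 130)) (XT.nd (nat_lit 78) (nat_lit 0) (nat_lit 0) (XT.lf (nat_lit 0) (nat_lit 22866657233) (nat_lit 76) (nat_lit 5376992707) (nat_lit 152) (nat_lit 52442885807) (nat_lit 6) (nat_lit 5) (nat_lit 7) (nat_lit 5) (nat_lit 8) (nat_lit 4) (nat_lit 398) (nat_lit 253) (nat_lit 129)) (XT.lf (nat_lit 0) (nat_lit 32645856883) (nat_lit 76) (nat_lit 428123974) (nat_lit 152) (nat_lit 49880346486) (nat_lit 6) (nat_lit 5) (nat_lit 7) (nat_lit 5) (nat_lit 8) (nat_lit 4) (nat_lit 399) (nat_lit 253) (nat_lit 128)))) (XT.nd (nat_lit 156) (nat_lit 0) (nat_lit 0) (XT.lf (nat_lit 0) (nat_lit 38087023728) (nat_lit 152) (nat_lit 42629467982) (nat_lit 0) (nat_lit 4572530281) (nat_lit 6) (nat_lit 5) (nat_lit 8) (nat_lit 4) (nat_lit 6) (nat_lit 4) (nat_lit 400) (nat_lit 253) (nat_lit 127)) (XT.nd (nat_lit 30498) (nat_lit 0) (nat_lit 19836)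 (XT.lf (nat_lit 0) (nat_lit 48556768825) (nat_lit 152) (nat_lit 26619526913) (nat_lit 0) (nat_lit 14994709879) (nat_lit 6) (nat_lit 5) (nat_lit 8) (nat_lit 4) (nat_lit 6) (nat_lit 4) (nat_lit 402) (nat_lit 253) (nat_lit 125)) (XT.lf (nat_lit 0) (nat_lit 117089336) (nat_lit 532) (nat_lit 3069290713) (nat_lit 0) (nat_lit 117089336) (nat_lit 267) (nat_lit 5) (nat_lit 274) (nat_lit 4) (nat_lit 267) (nat_lit 4) (nat_lit 272) (nat_lit 254) (nat_lit 254))))))))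
noncomputable def xc91 : XT := (XT.nd (nat_lit 1872) (nat_lit 4940) (nat_lit 0) (XT.nd (nat_lit 936) (nat_lit 5244) (nat_lit 0) (XT.nd (nat_lit 468) (nat_lit 3648) (nat_lit 0) (XT.nd (nat_lit 234) (nat_lit 1368) (nat_lit 0) (XT.nd (nat_lit 78) (nat_lit 608) (nat_lit 0) (XT.lf (nat_lit 0) (nat_lit 3176311539) (nat_lit 532) (nat_lit 2440348852) (nat_lit 0) (nat_lit 1019106694) (nat_lit 267) (nat_lit 5) (nat_lit 274) (nat_lit 4) (nat_lit 267) (nat_lit 4) (nat_lit 273) (nat_lit 254) (nat_lit 253)) (XT.nd (nat_lit 78) (nat_lit 76) (nat_lit 0) (XT.lf (nat_lit 0) (nat_lit 1319563461) (nat_lit 532) (nat_lit 4800183772) (nat_lit 532) (nat_lit 548605291) (nat_lit 260) (nat_lit 4) (nat_lit 267) (nat_lit 5) (nat_lit 267) (nat_lit 4) (nat_lit 274) (nat_lit 254) (nat_lit 252)) (XT.lf (nat_lit 0) (nat_lit 2327965170) (nat_lit 608) (nat_lit 1559181647) (nat_lit 76) (nat_lit 2816543633) (nat_lit 259) (nat_lit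 5) (nat_lit 267) (nat_lit 5) (nat_lit 260) (nat_lit 4) (nat_lit 275) (nat_lit 254) (nat_lit 251)))) (XT.nd (nat_lit 78) (nat_lit 760) (nat_lit 0) (XT.lf (nat_lit 0) (nat_lit 2309464190) (nat_lit 608) (nat_lit 2896724555) (nat_lit 684) (nat_lit 1536204731) (nat_lit 251) (nat_lit 5) (nat_lit 259) (nat_lit 5) (nat_lit 260) (nat_lit 4) (nat_lit 276) (nat_lit 254) (nat_lit 250)) (XT.nd (nat_lit 78) (nat_lit 684) (nat_lit 0) (XT.lf (nat_lit 0) (nat_lit 1282398541) (nat_lit 684) (nat_lit 544846291) (nat_lit 76) (nat_lit 4957227091) (nat_lit 250) (nat_lit 5) (nat_lit 259) (nat_lit 5) (nat_lit 251) (nat_lit 5) (nat_lit 277) (nat_lit 254) (nat_lit 249)) (XT.lf (nat_lit 0) (nat_lit 3438277847) (nat_lit 684) (nat_lit 657312242) (nat_lit 760) (nat_lit 2733776521) (nat_lit 241) (nat_lit 5) (nat_lit 250) (nat_lit 5) (nat_lit 251) (nat_lit 5) (nat_lit 278) (nat_lit 254) (nat_lit 248))))) (XT.nd (nat_lit 234)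 (nat_lit 1976) (nat_lit 0) (XT.nd (nat_lit 78) (nat_lit 836) (nat_lit 0) (XT.lf (nat_lit 0) (nat_lit 40989088) (nat_lit 836) (nat_lit 6271154805) (nat_lit 76) (nat_lit 565882666) (nat_lit 230) (nat_lit 5) (nat_lit 241) (nat_lit 5) (nat_lit 231) (nat_lit 5) (nat_lit 279) (nat_lit 254) (nat_lit 247)) (XT.nd (nat_lit 78) (nat_lit 836) (nat_lit 0) (XT.lf (nat_lit 0) (nat_lit 2795956450) (nat_lit 836) (nat_lit 2243863142) (nat_lit 76) (nat_lit 1889174786) (nat_lit 230) (nat_lit 5) (nat_lit 241) (nat_lit 5) (nat_lit 231) (nat_lit 5) (nat_lit 280) (nat_lit 254) (nat_lit 246)) (XT.lf (nat_lit 0) (nat_lit 1865786515) (nat_lit 836) (nat_lit 3699133585) (nat_lit 912) (nat_lit 1418841618) (nat_lit 219) (nat_lit 5) (nat_lit 230) (nat_lit 5) (nat_lit 231) (nat_lit 5) (nat_lit 281) (nat_lit 254) (nat_lit 245)))) (XT.nd (nat_lit 78) (nat_lit 1900) (nat_lit 0) (XT.lf (nat_lit 0) (nat_lit 1286978967) (nat_lit 912)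 (nat_lit 984270180) (nat_lit 76) (nat_lit 4770612764) (nat_lit 218) (nat_lit 5) (nat_lit 230) (nat_lit 5) (nat_lit 219) (nat_lit 5) (nat_lit 282) (nat_lit 254) (nat_lit 244)) (XT.nd (nat_lit 78) (nat_lit 988) (nat_lit 0) (XT.lf (nat_lit 0) (nat_lit 3248970258) (nat_lit 912) (nat_lit 744398636) (nat_lit 988) (nat_lit 3109670426) (nat_lit 206) (nat_lit 5) (nat_lit 218) (nat_lit 5) (nat_lit 219) (nat_lit 5) (nat_lit 283) (nat_lit 254) (nat_lit 243)) (XT.lf (nat_lit 0) (nat_lit 387308280) (nat_lit 988) (nat_lit 6333851238) (nat_lit 1064) (nat_lit 446873649) (nat_lit 193) (nat_lit 5) (nat_lit 206) (nat_lit 5) (nat_lit 207) (nat_lit 5) (nat_lit 284) (nat_lit 254) (nat_lit 242)))))) (XT.nd (nat_lit 468) (nat_lit 2280) (nat_lit 0) (XT.nd (nat_lit 234) (nat_lit 1748) (nat_lit 0) (XT.nd (nat_lit 78) (nat_lit 1140) (nat_lit 0) (XT.lf (nat_lit 0) (nat_lit 2216851766) (nat_lit 1064) (nat_lit 2505563964) (nat_lit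 76) (nat_lit 2513100343) (nat_lit 192) (nat_lit 5) (nat_lit 206) (nat_lit 5) (nat_lit 193) (nat_lit 5) (nat_lit 285) (nat_lit 254) (nat_lit 241)) (XT.nd (nat_lit 78) (nat_lit 76) (nat_lit 0) (XT.lf (nat_lit 0) (nat_lit 1855001806) (nat_lit 1064) (nat_lit 3035861147) (nat_lit 1140) (nat_lit 2416018590) (nat_lit 178) (nat_lit 5) (nat_lit 192) (nat_lit 5) (nat_lit 193) (nat_lit 5) (nat_lit 286) (nat_lit 254) (nat_lit 240)) (XT.lf (nat_lit 0) (nat_lit 207268003) (nat_lit 1140) (nat_lit 1060279978) (nat_lit 76) (nat_lit 6114493496) (nat_lit 177) (nat_lit 5) (nat_lit 192) (nat_lit 5) (nat_lit 178) (nat_lit 5) (nat_lit 287) (nat_lit 254) (nat_lit 239)))) (XT.nd (nat_lit 78) (nat_lit 608) (nat_lit 0) (XT.lf (nat_lit 0) (nat_lit 2824040866) (nat_lit 1216) (nat_lit 4033348635) (nat_lit 76) (nat_lit 602605595) (nat_lit 162) (nat_lit 5) (nat_lit 178) (nat_lit 5) (nat_lit 163) (nat_lit 5) (nat_lit 288) (nat_lit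 254) (nat_lit 238)) (XT.nd (nat_lit 78) (nat_lit 76) (nat_lit 0) (XT.lf (nat_lit 0) (nat_lit 451026621) (nat_lit 532) (nat_lit 5021945705) (nat_lit 608) (nat_lit 2068857696) (nat_lit 155) (nat_lit 5) (nat_lit 162) (nat_lit 5) (nat_lit 163) (nat_lit 5) (nat_lit 289) (nat_lit 254) (nat_lit 237)) (XT.lf (nat_lit 0) (nat_lit 531694010) (nat_lit 608) (nat_lit 2554155794) (nat_lit 76) (nat_lit 4541217892) (nat_lit 154) (nat_lit 5) (nat_lit 162) (nat_lit 5) (nat_lit 155) (nat_lit 5) (nat_lit 290) (nat_lit 254) (nat_lit 236))))) (XT.nd (nat_lit 234) (nat_lit 1064) (nat_lit 0) (XT.nd (nat_lit 78) (nat_lit 608) (nat_lit 0) (XT.lf (nat_lit 0) (nat_lit 2064670875) (nat_lit 608) (nat_lit 1052531369) (nat_lit 684) (nat_lit 4598729519) (nat_lit 146) (nat_lit 5) (nat_lit 154) (nat_lit 5) (nat_lit 155) (nat_lit 5) (nat_lit 291) (nat_lit 254) (nat_lit 235)) (XT.nd (nat_lit 78) (nat_lit 608) (nat_lit 0) (XT.lf (nat_lit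 0) (nat_lit 5746358756) (nat_lit 684) (nat_lit 1017745099) (nat_lit 76) (nat_lit 1044510778) (nat_lit 146) (nat_lit 5) (nat_lit 155) (nat_lit 5) (nat_lit 147) (nat_lit 5) (nat_lit 292) (nat_lit 254) (nat_lit 234)) (XT.lf (nat_lit 0) (nat_lit 517705645) (nat_lit 608) (nat_lit 4165525825) (nat_lit 76) (nat_lit 3221471454) (nat_lit 138) (nat_lit 5) (nat_lit 146) (nat_lit 5) (nat_lit 139) (nat_lit 5) (nat_lit 293) (nat_lit 254) (nat_lit 233)))) (XT.nd (nat_lit 78) (nat_lit 532) (nat_lit 0) (XT.lf (nat_lit 0) (nat_lit 573202073) (nat_lit 532) (nat_lit 2508861980) (nat_lit 608) (nat_lit 4922667724) (nat_lit 131) (nat_lit 5) (nat_lit 138) (nat_lit 5) (nat_lit 139) (nat_lit 5) (nat_lit 294) (nat_lit 254) (nat_lit 232)) (XT.nd (nat_lit 78) (nat_lit 532) (nat_lit 0) (XT.lf (nat_lit 0) (nat_lit 5466436987) (nat_lit 532) (nat_lit 232800433) (nat_lit 608) (nat_lit 2409367826) (nat_lit 131) (nat_lit 5) (nat_lit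 138) (nat_lit 5) (nat_lit 139) (nat_lit 5) (nat_lit 295) (nat_lit 254) (nat_lit 231)) (XT.lf (nat_lit 0) (nat_lit 153022052) (nat_lit 532) (nat_lit 5976468154) (nat_lit 76) (nat_lit 2086850658) (nat_lit 124) (nat_lit 5) (nat_lit 131) (nat_lit 5) (nat_lit 125) (nat_lit 5) (nat_lit 296) (nat_lit 254) (nat_lit 230))))))) (XT.nd (nat_lit 936) (nat_lit 1976) (nat_lit 0) (XT.nd (nat_lit 468) (nat_lit 1596) (nat_lit 0) (XT.nd (nat_lit 234) (nat_lit 532) (nat_lit 0) (XT.nd (nat_lit 78) (nat_lit 836) (nat_lit 0) (XT.lf (nat_lit 0) (nat_lit 2709234761) (nat_lit 532) (nat_lit 1103958983) (nat_lit 76) (nat_lit 4514547911) (nat_lit 124) (nat_lit 5) (nat_lit 131) (nat_lit 5) (nat_lit 125) (nat_lit 5) (nat_lit 297) (nat_lit 254) (nat_lit 229)) (XT.nd (nat_lit 78) (nat_lit 380) (nat_lit 0) (XT.lf (nat_lit 0) (nat_lit 3919794006) (nat_lit 456) (nat_lit 1398006877) (nat_lit 532) (nat_lit 3125520440) (nat_lit 118)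 (nat_lit 5) (nat_lit 124) (nat_lit 5) (nat_lit 125) (nat_lit 5) (nat_lit 298) (nat_lit 254) (nat_lit 228)) (XT.lf (nat_lit 0) (nat_lit 481102797) (nat_lit 380) (nat_lit 7488897702) (nat_lit 456) (nat_lit 593510338) (nat_lit 113) (nat_lit 5) (nat_lit 118) (nat_lit 5) (nat_lit 119) (nat_lit 5) (nat_lit 299) (nat_lit 254) (nat_lit 227)))) (XT.nd (nat_lit 78) (nat_lit 456) (nat_lit 0) (XT.lf (nat_lit 0) (nat_lit 1974536516) (nat_lit 456) (nat_lit 3064142726) (nat_lit 76) (nat_lit 3648162087) (nat_lit 112) (nat_lit 5) (nat_lit 118) (nat_lit 5) (nat_lit 113) (nat_lit 5) (nat_lit 300) (nat_lit 254) (nat_lit 226)) (XT.nd (nat_lit 78) (nat_lit 0) (nat_lit 0) (XT.lf (nat_lit 0) (nat_lit 2068132864) (nat_lit 456) (nat_lit 2500620913) (nat_lit 532) (nat_lit 4246204878) (nat_lit 106) (nat_lit 5) (nat_lit 112) (nat_lit 5) (nat_lit 113) (nat_lit 5) (nat_lit 301) (nat_lit 254) (nat_lit 225)) (XT.lf (nat_lit 0)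 (nat_lit 7215232131) (nat_lit 532) (nat_lit 1602227771) (nat_lit 76) (nat_lit 130318744) (nat_lit 106) (nat_lit 5) (nat_lit 113) (nat_lit 5) (nat_lit 107) (nat_lit 5) (nat_lit 302) (nat_lit 254) (nat_lit 224))))) (XT.nd (nat_lit 234) (nat_lit 760) (nat_lit 0) (XT.nd (nat_lit 78) (nat_lit 380) (nat_lit 0) (XT.lf (nat_lit 0) (nat_lit 843611887) (nat_lit 456) (nat_lit 5419120140) (nat_lit 76) (nat_lit 2821576973) (nat_lit 100) (nat_lit 5) (nat_lit 106) (nat_lit 5) (nat_lit 101) (nat_lit 5) (nat_lit 303) (nat_lit 254) (nat_lit 223)) (XT.nd (nat_lit 78) (nat_lit 380) (nat_lit 0) (XT.lf (nat_lit 0) (nat_lit 3422692917) (nat_lit 456) (nat_lit 188731945) (nat_lit 76) (nat_lit 5614266334) (nat_lit 100) (nat_lit 5) (nat_lit 106) (nat_lit 5) (nat_lit 101) (nat_lit 5) (nat_lit 304) (nat_lit 254) (nat_lit 222)) (XT.lf (nat_lit 0) (nat_lit 5232280144) (nat_lit 380) (nat_lit 842910453) (nat_lit 456) (nat_lit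 3296324835) (nat_lit 95) (nat_lit 5) (nat_lit 100) (nat_lit 5) (nat_lit 101) (nat_lit 5) (nat_lit 305) (nat_lit 254) (nat_lit 221)))) (XT.nd (nat_lit 78) (nat_lit 456) (nat_lit 0) (XT.lf (nat_lit 0) (nat_lit 1233620519) (nat_lit 304) (nat_lit 7553273324) (nat_lit 380) (nat_lit 735511151) (nat_lit 91) (nat_lit 5) (nat_lit 95) (nat_lit 5) (nat_lit 96) (nat_lit 5) (nat_lit 306) (nat_lit 254) (nat_lit 220)) (XT.nd (nat_lit 78) (nat_lit 380) (nat_lit 0) (XT.lf (nat_lit 0) (nat_lit 1862408173) (nat_lit 380) (nat_lit 2920811566) (nat_lit 76) (nat_lit 4894205968) (nat_lit 90) (nat_lit 5) (nat_lit 95) (nat_lit 5) (nat_lit 91) (nat_lit 5) (nat_lit 307) (nat_lit 254) (nat_lit 219)) (XT.lf (nat_lit 0) (nat_lit 2583652437) (nat_lit 380) (nat_lit 1913054491) (nat_lit 456) (nat_lit 5341047665) (nat_lit 85) (nat_lit 5) (nat_lit 90) (nat_lit 5) (nat_lit 91) (nat_lit 5) (nat_lit 308) (nat_lit 254) (nat_lit 218))))))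 (XT.nd (nat_lit 468) (nat_lit 988) (nat_lit 0) (XT.nd (nat_lit 234) (nat_lit 608) (nat_lit 0) (XT.nd (nat_lit 78) (nat_lit 380) (nat_lit 0) (XT.lf (nat_lit 0) (nat_lit 7198941052) (nat_lit 456) (nat_lit 1767659884) (nat_lit 76) (nat_lit 1036695867) (nat_lit 85) (nat_lit 5) (nat_lit 91) (nat_lit 5) (nat_lit 86) (nat_lit 5) (nat_lit 309) (nat_lit 254) (nat_lit 217)) (XT.nd (nat_lit 78) (nat_lit 76) (nat_lit 0) (XT.lf (nat_lit 0) (nat_lit 3873560024) (nat_lit 304) (nat_lit 6115432982) (nat_lit 380) (nat_lit 184678341) (nat_lit 81) (nat_lit 5) (nat_lit 85) (nat_lit 5) (nat_lit 86) (nat_lit 5) (nat_lit 310) (nat_lit 254) (nat_lit 216)) (XT.lf (nat_lit 0) (nat_lit 2433401785) (nat_lit 380) (nat_lit 719561855) (nat_lit 76) (nat_lit 7196467430) (nat_lit 80) (nat_lit 5) (nat_lit 85) (nat_lit 5) (nat_lit 81) (nat_lit 5) (nat_lit 311) (nat_lit 254) (nat_lit 215)))) (XT.nd (nat_lit 78) (nat_lit 304) (nat_lit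 0) (XT.lf (nat_lit 0) (nat_lit 5060416576) (nat_lit 304) (nat_lit 66806647) (nat_lit 380) (nat_lit 5403220955) (nat_lit 76) (nat_lit 5) (nat_lit 80) (nat_lit 5) (nat_lit 81) (nat_lit 5) (nat_lit 312) (nat_lit 254) (nat_lit 214)) (XT.nd (nat_lit 78) (nat_lit 0) (nat_lit 0) (XT.lf (nat_lit 0) (nat_lit 220621308) (nat_lit 304) (nat_lit 7673483710) (nat_lit 380) (nat_lit 2823076232) (nat_lit 72) (nat_lit 5) (nat_lit 76) (nat_lit 5) (nat_lit 77) (nat_lit 5) (nat_lit 313) (nat_lit 254) (nat_lit 213)) (XT.lf (nat_lit 0) (nat_lit 6128515127) (nat_lit 304) (nat_lit 4624991181) (nat_lit 380) (nat_lit 155787904) (nat_lit 72) (nat_lit 5) (nat_lit 76) (nat_lit 5) (nat_lit 77) (nat_lit 5) (nat_lit 314) (nat_lit 254) (nat_lit 212))))) (XT.nd (nat_lit 234) (nat_lit 380) (nat_lit 0) (XT.nd (nat_lit 78) (nat_lit 228) (nat_lit 0) (XT.lf (nat_lit 0) (nat_lit 1037814549) (nat_lit 304) (nat_lit 1467580967) (nat_lit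 380) (nat_lit 8602150090) (nat_lit 67) (nat_lit 5) (nat_lit 71) (nat_lit 5) (nat_lit 72) (nat_lit 5) (nat_lit 315) (nat_lit 254) (nat_lit 211)) (XT.nd (nat_lit 78) (nat_lit 228) (nat_lit 0) (XT.lf (nat_lit 0) (nat_lit 5264200657) (nat_lit 380) (nat_lit 4265097151) (nat_lit 76) (nat_lit 1781827086) (nat_lit 67) (nat_lit 5) (nat_lit 72) (nat_lit 5) (nat_lit 68) (nat_lit 5) (nat_lit 316) (nat_lit 254) (nat_lit 210)) (XT.lf (nat_lit 0) (nat_lit 1669001322) (nat_lit 228) (nat_lit 6423661739) (nat_lit 304) (nat_lit 3428594275) (nat_lit 64) (nat_lit 5) (nat_lit 67) (nat_lit 5) (nat_lit 68) (nat_lit 5) (nat_lit 317) (nat_lit 254) (nat_lit 209)))) (XT.nd (nat_lit 78) (nat_lit 380) (nat_lit 0) (XT.lf (nat_lit 0) (nat_lit 7806455711) (nat_lit 228) (nat_lit 3199587229) (nat_lit 304) (nat_lit 731699943) (nat_lit 64) (nat_lit 5) (nat_lit 67) (nat_lit 5) (nat_lit 68) (nat_lit 5) (nat_lit 318) (nat_lit 254) (nat_lit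 208)) (XT.nd (nat_lit 78) (nat_lit 0) (nat_lit 0) (XT.lf (nat_lit 0) (nat_lit 1985795180) (nat_lit 380) (nat_lit 9834223814) (nat_lit 76) (nat_lit 140773437) (nat_lit 59) (nat_lit 5) (nat_lit 64) (nat_lit 5) (nat_lit 60) (nat_lit 5) (nat_lit 319) (nat_lit 254) (nat_lit 207)) (XT.lf (nat_lit 0) (nat_lit 4800128755) (nat_lit 380) (nat_lit 3843599777) (nat_lit 76) (nat_lit 3545733703) (nat_lit 59) (nat_lit 5) (nat_lit 64) (nat_lit 5) (nat_lit 60) (nat_lit 5) (nat_lit 320) (nat_lit 254) (nat_lit 206))))))))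
noncomputable def xc92 : XT := (XT.nd (nat_lit 1794) (nat_lit 1064) (nat_lit 0) (XT.nd (nat_lit 858) (nat_lit 988) (nat_lit 0) (XT.nd (nat_lit 390) (nat_lit 456) (nat_lit 0) (XT.nd (nat_lit 156) (nat_lit 532) (nat_lit 0) (XT.nd (nat_lit 78) (nat_lit 0) (nat_lit 0) (XT.lf (nat_lit 0) (nat_lit 2311966325) (nat_lit 228) (nat_lit 5368615692) (nat_lit 304) (nat_lit 4745004772) (nat_lit 56) (nat_lit 5) (nat_lit 59) (nat_lit 5) (nat_lit 60) (nat_lit 5) (nat_lit 321) (nat_lit 254) (nat_lit 205)) (XT.lf (nat_lit 0) (nat_lit 8671685165) (nat_lit 228) (nat_lit 1974652724) (nat_lit 304) (nat_lit 2022534549) (nat_lit 56) (nat_lit 5) (nat_lit 59) (nat_lit 5) (nat_lit 60) (nat_lit 5) (nat_lit 322) (nat_lit 254) (nat_lit 204))) (XT.nd (nat_lit 78) (nat_lit 228) (nat_lit 0) (XT.lf (nat_lit 0) (nat_lit 763829638) (nat_lit 304) (nat_lit 10653174834) (nat_lit 76) (nat_lit 1502344126) (nat_lit 52) (nat_lit 5) (nat_lit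 56) (nat_lit 5) (nat_lit 53) (nat_lit 5) (nat_lit 323) (nat_lit 254) (nat_lit 203)) (XT.nd (nat_lit 78) (nat_lit 228) (nat_lit 0) (XT.lf (nat_lit 0) (nat_lit 3614662262) (nat_lit 304) (nat_lit 4475569178) (nat_lit 76) (nat_lit 5085901288) (nat_lit 52) (nat_lit 5) (nat_lit 56) (nat_lit 5) (nat_lit 53) (nat_lit 5) (nat_lit 324) (nat_lit 254) (nat_lit 202)) (XT.lf (nat_lit 0) (nat_lit 1866664412) (nat_lit 228) (nat_lit 4664642699) (nat_lit 304) (nat_lit 6909943769) (nat_lit 49) (nat_lit 5) (nat_lit 52) (nat_lit 5) (nat_lit 53) (nat_lit 5) (nat_lit 325) (nat_lit 254) (nat_lit 201))))) (XT.nd (nat_lit 234) (nat_lit 152) (nat_lit 0) (XT.nd (nat_lit 78) (nat_lit 304) (nat_lit 0) (XT.lf (nat_lit 0) (nat_lit 8434344264) (nat_lit 228) (nat_lit 1109198285) (nat_lit 304) (nat_lit 4170575269) (nat_lit 49) (nat_lit 5) (nat_lit 52) (nat_lit 5) (nat_lit 53) (nat_lit 5) (nat_lit 326) (nat_lit 254) (nat_lit 200))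 (XT.nd (nat_lit 78) (nat_lit 76) (nat_lit 0) (XT.lf (nat_lit 0) (nat_lit 1145849366) (nat_lit 228) (nat_lit 11499646229) (nat_lit 304) (nat_lit 1349731524) (nat_lit 46) (nat_lit 5) (nat_lit 49) (nat_lit 5) (nat_lit 50) (nat_lit 5) (nat_lit 327) (nat_lit 254) (nat_lit 199)) (XT.lf (nat_lit 0) (nat_lit 1554135171) (nat_lit 304) (nat_lit 6493222745) (nat_lit 76) (nat_lit 6236135227) (nat_lit 45) (nat_lit 5) (nat_lit 49) (nat_lit 5) (nat_lit 46) (nat_lit 5) (nat_lit 328) (nat_lit 254) (nat_lit 198)))) (XT.nd (nat_lit 78) (nat_lit 152) (nat_lit 0) (XT.lf (nat_lit 0) (nat_lit 4482970460) (nat_lit 304) (nat_lit 14172906) (nat_lit 76) (nat_lit 10083947187) (nat_lit 45) (nat_lit 5) (nat_lit 49) (nat_lit 5) (nat_lit 46) (nat_lit 5) (nat_lit 329) (nat_lit 254) (nat_lit 197)) (XT.nd (nat_lit 78) (nat_lit 0) (nat_lit 0) (XT.lf (nat_lit 0) (nat_lit 6737887975) (nat_lit 152) (nat_lit 792552368) (nat_lit 228)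 (nat_lit 7356285217) (nat_lit 43) (nat_lit 5) (nat_lit 45) (nat_lit 5) (nat_lit 46) (nat_lit 5) (nat_lit 330) (nat_lit 254) (nat_lit 196)) (XT.lf (nat_lit 0) (nat_lit 10664846799) (nat_lit 228) (nat_lit 1590965352) (nat_lit 76) (nat_lit 2945883898) (nat_lit 43) (nat_lit 5) (nat_lit 46) (nat_lit 5) (nat_lit 44) (nat_lit 5) (nat_lit 331) (nat_lit 254) (nat_lit 195)))))) (XT.nd (nat_lit 468) (nat_lit 380) (nat_lit 0) (XT.nd (nat_lit 234) (nat_lit 152) (nat_lit 0) (XT.nd (nat_lit 78) (nat_lit 228) (nat_lit 0) (XT.lf (nat_lit 0) (nat_lit 5205748604) (nat_lit 228) (nat_lit 8712713395) (nat_lit 304) (nat_lit 1606929234) (nat_lit 40) (nat_lit 5) (nat_lit 43) (nat_lit 5) (nat_lit 44) (nat_lit 5) (nat_lit 332) (nat_lit 254) (nat_lit 194)) (XT.nd (nat_lit 78) (nat_lit 152) (nat_lit 0) (XT.lf (nat_lit 0) (nat_lit 1366982841) (nat_lit 304) (nat_lit 3684861487) (nat_lit 76) (nat_lit 10807066405) (nat_lit 39)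 (nat_lit 5) (nat_lit 43) (nat_lit 5) (nat_lit 40) (nat_lit 5) (nat_lit 333) (nat_lit 254) (nat_lit 193)) (XT.lf (nat_lit 0) (nat_lit 3144112657) (nat_lit 152) (nat_lit 1252275826) (nat_lit 228) (nat_lit 11805641071) (nat_lit 37) (nat_lit 5) (nat_lit 39) (nat_lit 5) (nat_lit 40) (nat_lit 5) (nat_lit 334) (nat_lit 254) (nat_lit 192)))) (XT.nd (nat_lit 78) (nat_lit 152) (nat_lit 0) (XT.lf (nat_lit 0) (nat_lit 7548451567) (nat_lit 228) (nat_lit 6377368851) (nat_lit 76) (nat_lit 2628695699) (nat_lit 37) (nat_lit 5) (nat_lit 40) (nat_lit 5) (nat_lit 38) (nat_lit 5) (nat_lit 335) (nat_lit 254) (nat_lit 191)) (XT.nd (nat_lit 78) (nat_lit 0) (nat_lit 0) (XT.lf (nat_lit 0) (nat_lit 450883560) (nat_lit 152) (nat_lit 10330455175) (nat_lit 228) (nat_lit 6136677312) (nat_lit 35) (nat_lit 5) (nat_lit 37) (nat_lit 5) (nat_lit 38) (nat_lit 5) (nat_lit 336) (nat_lit 254) (nat_lit 190)) (XT.lf (nat_lit 0) (nat_lit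 7566083173) (nat_lit 152) (nat_lit 6579477557) (nat_lit 228) (nat_lit 3145855661) (nat_lit 35) (nat_lit 5) (nat_lit 37) (nat_lit 5) (nat_lit 38) (nat_lit 5) (nat_lit 337) (nat_lit 254) (nat_lit 189))))) (XT.nd (nat_lit 234) (nat_lit 152) (nat_lit 0) (XT.nd (nat_lit 78) (nat_lit 228) (nat_lit 0) (XT.lf (nat_lit 0) (nat_lit 14847525006) (nat_lit 152) (nat_lit 2734008929) (nat_lit 228) (nat_lit 95385179) (nat_lit 35) (nat_lit 5) (nat_lit 37) (nat_lit 5) (nat_lit 38) (nat_lit 5) (nat_lit 338) (nat_lit 254) (nat_lit 188)) (XT.nd (nat_lit 78) (nat_lit 0) (nat_lit 0) (XT.lf (nat_lit 0) (nat_lit 3011992511) (nat_lit 228) (nat_lit 13803827684) (nat_lit 76) (nat_lit 1256566522) (nat_lit 32) (nat_lit 5) (nat_lit 35) (nat_lit 5) (nat_lit 33) (nat_lit 5) (nat_lit 339) (nat_lit 254) (nat_lit 187)) (XT.lf (nat_lit 0) (nat_lit 6238189378) (nat_lit 228) (nat_lit 6916383777) (nat_lit 76) (nat_lit 5324314388) (nat_lit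 32) (nat_lit 5) (nat_lit 35) (nat_lit 5) (nat_lit 33) (nat_lit 5) (nat_lit 340) (nat_lit 254) (nat_lit 186)))) (XT.nd (nat_lit 78) (nat_lit 0) (nat_lit 0) (XT.lf (nat_lit 0) (nat_lit 135000850) (nat_lit 152) (nat_lit 9399887828) (nat_lit 228) (nat_lit 9363505527) (nat_lit 30) (nat_lit 5) (nat_lit 32) (nat_lit 5) (nat_lit 33) (nat_lit 5) (nat_lit 341) (nat_lit 254) (nat_lit 185)) (XT.nd (nat_lit 78) (nat_lit 0) (nat_lit 0) (XT.lf (nat_lit 0) (nat_lit 7494833438) (nat_lit 152) (nat_lit 5478288242) (nat_lit 228) (nat_lit 6356107064) (nat_lit 30) (nat_lit 5) (nat_lit 32) (nat_lit 5) (nat_lit 33) (nat_lit 5) (nat_lit 342) (nat_lit 254) (nat_lit 184)) (XT.lf (nat_lit 0) (nat_lit 15031895310) (nat_lit 152) (nat_lit 1456189672) (nat_lit 228) (nat_lit 3285716866) (nat_lit 30) (nat_lit 5) (nat_lit 32) (nat_lit 5) (nat_lit 33) (nat_lit 5) (nat_lit 343) (nat_lit 254) (nat_lit 183))))))) (XT.nd (nat_lit 936)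 (nat_lit 380) (nat_lit 0) (XT.nd (nat_lit 468) (nat_lit 304) (nat_lit 0) (XT.nd (nat_lit 234) (nat_lit 152) (nat_lit 0) (XT.nd (nat_lit 78) (nat_lit 76) (nat_lit 0) (XT.lf (nat_lit 0) (nat_lit 2544252879) (nat_lit 152) (nat_lit 17588718873) (nat_lit 228) (nat_lit 98026571) (nat_lit 28) (nat_lit 5) (nat_lit 30) (nat_lit 5) (nat_lit 31) (nat_lit 4) (nat_lit 344) (nat_lit 254) (nat_lit 182)) (XT.nd (nat_lit 78) (nat_lit 0) (nat_lit 0) (XT.lf (nat_lit 0) (nat_lit 3160177847) (nat_lit 228) (nat_lit 10642820639) (nat_lit 76) (nat_lit 6896901677) (nat_lit 27) (nat_lit 5) (nat_lit 30) (nat_lit 5) (nat_lit 28) (nat_lit 5) (nat_lit 345) (nat_lit 254) (nat_lit 181)) (XT.lf (nat_lit 0) (nat_lit 6489171953) (nat_lit 228) (nat_lit 3430332307) (nat_lit 76) (nat_lit 11264103952) (nat_lit 27) (nat_lit 5) (nat_lit 30) (nat_lit 5) (nat_lit 28) (nat_lit 5) (nat_lit 346) (nat_lit 254) (nat_lit 180)))) (XT.nd (nat_lit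 78) (nat_lit 0) (nat_lit 0) (XT.lf (nat_lit 0) (nat_lit 4036735263) (nat_lit 152) (nat_lit 5895845733) (nat_lit 228) (nat_lit 11748828291) (nat_lit 25) (nat_lit 5) (nat_lit 27) (nat_lit 5) (nat_lit 28) (nat_lit 5) (nat_lit 347) (nat_lit 254) (nat_lit 179)) (XT.nd (nat_lit 78) (nat_lit 0) (nat_lit 0) (XT.lf (nat_lit 0) (nat_lit 11757964366) (nat_lit 152) (nat_lit 1732029548) (nat_lit 228) (nat_lit 8703847042) (nat_lit 25) (nat_lit 5) (nat_lit 27) (nat_lit 5) (nat_lit 28) (nat_lit 5) (nat_lit 348) (nat_lit 254) (nat_lit 178)) (XT.lf (nat_lit 0) (nat_lit 17155313517) (nat_lit 228) (nat_lit 3074953628) (nat_lit 76) (nat_lit 2491360000) (nat_lit 25) (nat_lit 5) (nat_lit 28) (nat_lit 5) (nat_lit 26) (nat_lit 4) (nat_lit 349) (nat_lit 254) (nat_lit 177))))) (XT.nd (nat_lit 234) (nat_lit 152) (nat_lit 0) (XT.nd (nat_lit 78) (nat_lit 76) (nat_lit 0) (XT.lf (nat_lit 0) (nat_lit 4539827061) (nat_lit 76)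 (nat_lit 16428843097) (nat_lit 152) (nat_lit 2295451035) (nat_lit 24) (nat_lit 5) (nat_lit 25) (nat_lit 5) (nat_lit 26) (nat_lit 4) (nat_lit 350) (nat_lit 254) (nat_lit 176)) (XT.nd (nat_lit 78) (nat_lit 0) (nat_lit 0) (XT.lf (nat_lit 0) (nat_lit 1061294495) (nat_lit 152) (nat_lit 11425000211) (nat_lit 76) (nat_lit 11336040249) (nat_lit 23) (nat_lit 5) (nat_lit 25) (nat_lit 5) (nat_lit 24) (nat_lit 5) (nat_lit 351) (nat_lit 254) (nat_lit 175)) (XT.lf (nat_lit 0) (nat_lit 4450613094) (nat_lit 152) (nat_lit 3966832817) (nat_lit 76) (nat_lit 15979842384) (nat_lit 23) (nat_lit 5) (nat_lit 25) (nat_lit 5) (nat_lit 24) (nat_lit 5) (nat_lit 352) (nat_lit 254) (nat_lit 174)))) (XT.nd (nat_lit 78) (nat_lit 0) (nat_lit 0) (XT.lf (nat_lit 0) (nat_lit 3752005312) (nat_lit 152) (nat_lit 4204320076) (nat_lit 228) (nat_lit 17032738170) (nat_lit 21) (nat_lit 5) (nat_lit 23) (nat_lit 5) (nat_lit 24) (nat_lit 5)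 (nat_lit 353) (nat_lit 254) (nat_lit 173)) (XT.nd (nat_lit 78) (nat_lit 0) (nat_lit 0) (XT.lf (nat_lit 0) (nat_lit 11587743758) (nat_lit 228) (nat_lit 13851799240) (nat_lit 76) (nat_lit 158447358) (nat_lit 21) (nat_lit 5) (nat_lit 24) (nat_lit 5) (nat_lit 22) (nat_lit 4) (nat_lit 354) (nat_lit 254) (nat_lit 172)) (XT.lf (nat_lit 0) (nat_lit 15349130877) (nat_lit 228) (nat_lit 6321985531) (nat_lit 76) (nat_lit 4553451665) (nat_lit 21) (nat_lit 5) (nat_lit 24) (nat_lit 5) (nat_lit 22) (nat_lit 4) (nat_lit 355) (nat_lit 254) (nat_lit 171)))))) (XT.nd (nat_lit 468) (nat_lit 76) (nat_lit 0) (XT.nd (nat_lit 234) (nat_lit 228) (nat_lit 0) (XT.nd (nat_lit 78) (nat_lit 0) (nat_lit 0) (XT.lf (nat_lit 0) (nat_lit 1427227167) (nat_lit 76) (nat_lit 17789851112) (nat_lit 152) (nat_lit 7653066780) (nat_lit 20) (nat_lit 5) (nat_lit 21) (nat_lit 5) (nat_lit 22) (nat_lit 4) (nat_lit 356) (nat_lit 254) (nat_lit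 170)) (XT.nd (nat_lit 78) (nat_lit 0) (nat_lit 0) (XT.lf (nat_lit 0) (nat_lit 9504501712) (nat_lit 76) (nat_lit 13740656967) (nat_lit 152) (nat_lit 4288620941) (nat_lit 20) (nat_lit 5) (nat_lit 21) (nat_lit 5) (nat_lit 22) (nat_lit 4) (nat_lit 357) (nat_lit 254) (nat_lit 169)) (XT.lf (nat_lit 0) (nat_lit 17791076008) (nat_lit 76) (nat_lit 9583835501) (nat_lit 152) (nat_lit 842999531) (nat_lit 20) (nat_lit 5) (nat_lit 21) (nat_lit 5) (nat_lit 22) (nat_lit 4) (nat_lit 358) (nat_lit 254) (nat_lit 168)))) (XT.nd (nat_lit 78) (nat_lit 152) (nat_lit 0) (XT.lf (nat_lit 0) (nat_lit 2634378882) (nat_lit 152) (nat_lit 2654773596) (nat_lit 76) (nat_lit 23633209807) (nat_lit 19) (nat_lit 5) (nat_lit 21) (nat_lit 5) (nat_lit 20) (nat_lit 5) (nat_lit 359) (nat_lit 254) (nat_lit 167)) (XT.nd (nat_lit 78) (nat_lit 0) (nat_lit 0) (XT.lf (nat_lit 0) (nat_lit 5416296459) (nat_lit 152) (nat_lit 816643278) (nat_lit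 228) (nat_lit 23413754442) (nat_lit 17) (nat_lit 5) (nat_lit 19) (nat_lit 5) (nat_lit 20) (nat_lit 5) (nat_lit 360) (nat_lit 254) (nat_lit 166)) (XT.lf (nat_lit 0) (nat_lit 9984808361) (nat_lit 228) (nat_lit 16676345512) (nat_lit 76) (nat_lit 3730252930) (nat_lit 17) (nat_lit 5) (nat_lit 20) (nat_lit 5) (nat_lit 18) (nat_lit 4) (nat_lit 361) (nat_lit 254) (nat_lit 165))))) (XT.nd (nat_lit 234) (nat_lit 0) (nat_lit 0) (XT.nd (nat_lit 78) (nat_lit 76) (nat_lit 0) (XT.lf (nat_lit 0) (nat_lit 13839692714) (nat_lit 228) (nat_lit 8934451465) (nat_lit 76) (nat_lit 8384613811) (nat_lit 17) (nat_lit 5) (nat_lit 20) (nat_lit 5) (nat_lit 18) (nat_lit 4) (nat_lit 362) (nat_lit 254) (nat_lit 164)) (XT.nd (nat_lit 78) (nat_lit 76) (nat_lit 0) (XT.lf (nat_lit 0) (nat_lit 17793111066) (nat_lit 228) (nat_lit 990100744) (nat_lit 76) (nat_lit 13166441934) (nat_lit 17) (nat_lit 5) (nat_lit 20) (nat_lit 5) (nat_lit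 18) (nat_lit 4) (nat_lit 363) (nat_lit 254) (nat_lit 163)) (XT.lf (nat_lit 0) (nat_lit 7306218965) (nat_lit 76) (nat_lit 14612530741) (nat_lit 152) (nat_lit 10843928474) (nat_lit 16) (nat_lit 5) (nat_lit 17) (nat_lit 5) (nat_lit 18) (nat_lit 4) (nat_lit 364) (nat_lit 254) (nat_lit 162)))) (XT.nd (nat_lit 78) (nat_lit 0) (nat_lit 0) (XT.lf (nat_lit 0) (nat_lit 15843075828) (nat_lit 76) (nat_lit 10318674165) (nat_lit 152) (nat_lit 7438545626) (nat_lit 16) (nat_lit 5) (nat_lit 17) (nat_lit 5) (nat_lit 18) (nat_lit 4) (nat_lit 365) (nat_lit 254) (nat_lit 161)) (XT.nd (nat_lit 78) (nat_lit 0) (nat_lit 0) (XT.lf (nat_lit 0) (nat_lit 24608224289) (nat_lit 76) (nat_lit 5907888244) (nat_lit 152) (nat_lit 3947416631) (nat_lit 16) (nat_lit 5) (nat_lit 17) (nat_lit 5) (nat_lit 18) (nat_lit 4) (nat_lit 366) (nat_lit 254) (nat_lit 160)) (XT.lf (nat_lit 0) (nat_lit 33609323213) (nat_lit 76) (nat_lit 1376318894)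 (nat_lit 152) (nat_lit 367490990) (nat_lit 16) (nat_lit 5) (nat_lit 17) (nat_lit 5) (nat_lit 18) (nat_lit 4) (nat_lit 367) (nat_lit 254) (nat_lit 159))))))))
noncomputable def xc93 : XT := (XT.nd (nat_lit 1872) (nat_lit 152) (nat_lit 0) (XT.nd (nat_lit 936) (nat_lit 152) (nat_lit 0) (XT.nd (nat_lit 468) (nat_lit 152) (nat_lit 0) (XT.nd (nat_lit 234) (nat_lit 76) (nat_lit 0) (XT.nd (nat_lit 78) (nat_lit 0) (nat_lit 0) (XT.lf (nat_lit 0) (nat_lit 3336600352) (nat_lit 228) (nat_lit 29616485698) (nat_lit 76) (nat_lit 3312944158) (nat_lit 13) (nat_lit 5) (nat_lit 16) (nat_lit 5) (nat_lit 14) (nat_lit 4) (nat_lit 368) (nat_lit 254) (nat_lit 158)) (XT.nd (nat_lit 78) (nat_lit 0) (nat_lit 0) (XT.lf (nat_lit 0) (nat_lit 7160748338) (nat_lit 228) (nat_lit 21919397685) (nat_lit 76) (nat_lit 8125578113) (nat_lit 13) (nat_lit 5) (nat_lit 16) (nat_lit 5) (nat_lit 14) (nat_lit 4) (nat_lit 369) (nat_lit 254)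 (nat_lit 157)) (XT.lf (nat_lit 0) (nat_lit 11084970064) (nat_lit 228) (nat_lit 14017239617) (nat_lit 76) (nat_lit 13071847132) (nat_lit 13) (nat_lit 5) (nat_lit 16) (nat_lit 5) (nat_lit 14) (nat_lit 4) (nat_lit 370) (nat_lit 254) (nat_lit 156)))) (XT.nd (nat_lit 78) (nat_lit 76) (nat_lit 0) (XT.lf (nat_lit 0) (nat_lit 15112694463) (nat_lit 228) (nat_lit 5903106696) (nat_lit 76) (nat_lit 18156073198) (nat_lit 13) (nat_lit 5) (nat_lit 16) (nat_lit 5) (nat_lit 14) (nat_lit 4) (nat_lit 371) (nat_lit 254) (nat_lit 155)) (XT.nd (nat_lit 78) (nat_lit 0) (nat_lit 0) (XT.lf (nat_lit 0) (nat_lit 2478454673) (nat_lit 76) (nat_lit 16792810654) (nat_lit 152) (nat_lit 20928068585) (nat_lit 12) (nat_lit 5) (nat_lit 13) (nat_lit 5) (nat_lit 14) (nat_lit 4) (nat_lit 372) (nat_lit 254) (nat_lit 154)) (XT.lf (nat_lit 0) (nat_lit 11208350484) (nat_lit 76) (nat_lit 12392213312) (nat_lit 152) (nat_lit 17655682041)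 (nat_lit 12) (nat_lit 5) (nat_lit 13) (nat_lit 5) (nat_lit 14) (nat_lit 4) (nat_lit 373) (nat_lit 254) (nat_lit 153))))) (XT.nd (nat_lit 234) (nat_lit 152) (nat_lit 0) (XT.nd (nat_lit 78) (nat_lit 0) (nat_lit 0) (XT.lf (nat_lit 0) (nat_lit 20176725402) (nat_lit 76) (nat_lit 7869773756) (nat_lit 152) (nat_lit 14298770696) (nat_lit 12) (nat_lit 5) (nat_lit 13) (nat_lit 5) (nat_lit 14) (nat_lit 4) (nat_lit 374) (nat_lit 254) (nat_lit 152)) (XT.nd (nat_lit 78) (nat_lit 0) (nat_lit 0) (XT.lf (nat_lit 0) (nat_lit 29391415871) (nat_lit 76) (nat_lit 3221540338) (nat_lit 152) (nat_lit 10854401329) (nat_lit 12) (nat_lit 5) (nat_lit 13) (nat_lit 5) (nat_lit 14) (nat_lit 4) (nat_lit 375) (nat_lit 254) (nat_lit 151)) (XT.lf (nat_lit 0) (nat_lit 37318887555) (nat_lit 152) (nat_lit 5777978288) (nat_lit 0) (nat_lit 1526174635) (nat_lit 12) (nat_lit 5) (nat_lit 14) (nat_lit 4) (nat_lit 12) (nat_lit 4) (nat_lit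 376) (nat_lit 254) (nat_lit 150)))) (XT.nd (nat_lit 78) (nat_lit 76) (nat_lit 0) (XT.lf (nat_lit 0) (nat_lit 2769356217) (nat_lit 76) (nat_lit 39442949931) (nat_lit 76) (nat_lit 3599705318) (nat_lit 11) (nat_lit 4) (nat_lit 12) (nat_lit 5) (nat_lit 12) (nat_lit 4) (nat_lit 377) (nat_lit 254) (nat_lit 149)) (XT.nd (nat_lit 78) (nat_lit 0) (nat_lit 0) (XT.lf (nat_lit 0) (nat_lit 258402268) (nat_lit 152) (nat_lit 35367747903) (nat_lit 76) (nat_lit 11409043432) (nat_lit 10) (nat_lit 5) (nat_lit 12) (nat_lit 5) (nat_lit 11) (nat_lit 4) (nat_lit 378) (nat_lit 254) (nat_lit 148)) (XT.lf (nat_lit 0) (nat_lit 4148072598) (nat_lit 152) (nat_lit 27519348102) (nat_lit 76) (nat_lit 16626942445) (nat_lit 10) (nat_lit 5) (nat_lit 12) (nat_lit 5) (nat_lit 11) (nat_lit 4) (nat_lit 379) (nat_lit 254) (nat_lit 147)))))) (XT.nd (nat_lit 468) (nat_lit 76) (nat_lit 0) (XT.nd (nat_lit 234) (nat_lit 76) (nat_lit 0) (XT.nd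 (nat_lit 78) (nat_lit 0) (nat_lit 0) (XT.lf (nat_lit 0) (nat_lit 8142947627) (nat_lit 152) (nat_lit 19455995449) (nat_lit 76) (nat_lit 21992715332) (nat_lit 10) (nat_lit 5) (nat_lit 12) (nat_lit 5) (nat_lit 11) (nat_lit 4) (nat_lit 380) (nat_lit 254) (nat_lit 146)) (XT.nd (nat_lit 78) (nat_lit 0) (nat_lit 0) (XT.lf (nat_lit 0) (nat_lit 12246518025) (nat_lit 152) (nat_lit 11170644298) (nat_lit 76) (nat_lit 27511050635) (nat_lit 10) (nat_lit 5) (nat_lit 12) (nat_lit 5) (nat_lit 11) (nat_lit 4) (nat_lit 381) (nat_lit 254) (nat_lit 145)) (XT.lf (nat_lit 0) (nat_lit 16462369433) (nat_lit 152) (nat_lit 2656055020) (nat_lit 76) (nat_lit 33186770198) (nat_lit 10) (nat_lit 5) (nat_lit 12) (nat_lit 5) (nat_lit 11) (nat_lit 4) (nat_lit 382) (nat_lit 254) (nat_lit 144)))) (XT.nd (nat_lit 78) (nat_lit 0) (nat_lit 0) (XT.lf (nat_lit 0) (nat_lit 6216518991) (nat_lit 76) (nat_lit 14637423599) (nat_lit 152) (nat_lit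 32868071381) (nat_lit 9) (nat_lit 5) (nat_lit 10) (nat_lit 5) (nat_lit 11) (nat_lit 4) (nat_lit 383) (nat_lit 254) (nat_lit 143)) (XT.nd (nat_lit 78) (nat_lit 0) (nat_lit 0) (XT.lf (nat_lit 0) (nat_lit 15391141045) (nat_lit 76) (nat_lit 10002559646) (nat_lit 152) (nat_lit 29787149446) (nat_lit 9) (nat_lit 5) (nat_lit 10) (nat_lit 5) (nat_lit 11) (nat_lit 4) (nat_lit 384) (nat_lit 254) (nat_lit 142)) (XT.lf (nat_lit 0) (nat_lit 24822967099) (nat_lit 76) (nat_lit 5236603661) (nat_lit 152) (nat_lit 26624188292) (nat_lit 9) (nat_lit 5) (nat_lit 10) (nat_lit 5) (nat_lit 11) (nat_lit 4) (nat_lit 385) (nat_lit 254) (nat_lit 141))))) (XT.nd (nat_lit 234) (nat_lit 76) (nat_lit 0) (XT.nd (nat_lit 78) (nat_lit 0) (nat_lit 0) (XT.lf (nat_lit 0) (nat_lit 34520238554) (nat_lit 76) (nat_lit 335391216) (nat_lit 152) (nat_lit 23376424168) (nat_lit 9) (nat_lit 5) (nat_lit 10) (nat_lit 5) (nat_lit 11) (nat_lit 4)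 (nat_lit 386) (nat_lit 254) (nat_lit 140)) (XT.nd (nat_lit 78) (nat_lit 0) (nat_lit 0) (XT.lf (nat_lit 0) (nat_lit 39831299254) (nat_lit 152) (nat_lit 15380889723) (nat_lit 0) (nat_lit 4613541773) (nat_lit 9) (nat_lit 5) (nat_lit 11) (nat_lit 4) (nat_lit 9) (nat_lit 4) (nat_lit 387) (nat_lit 254) (nat_lit 139)) (XT.lf (nat_lit 0) (nat_lit 44950264220) (nat_lit 152) (nat_lit 6820072854) (nat_lit 0) (nat_lit 9697064827) (nat_lit 9) (nat_lit 5) (nat_lit 11) (nat_lit 4) (nat_lit 9) (nat_lit 4) (nat_lit 388) (nat_lit 254) (nat_lit 138)))) (XT.nd (nat_lit 78) (nat_lit 0) (nat_lit 0) (XT.lf (nat_lit 0) (nat_lit 2020772074) (nat_lit 76) (nat_lit 48212426388) (nat_lit 76) (nat_lit 12924817370) (nat_lit 8) (nat_lit 4) (nat_lit 9) (nat_lit 5) (nat_lit 9) (nat_lit 4) (nat_lit 389) (nat_lit 254) (nat_lit 137)) (XT.nd (nat_lit 78) (nat_lit 0) (nat_lit 0) (XT.lf (nat_lit 0) (nat_lit 11250577277) (nat_lit 76)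 (nat_lit 44483996625) (nat_lit 76) (nat_lit 9162980206) (nat_lit 8) (nat_lit 4) (nat_lit 9) (nat_lit 5) (nat_lit 9) (nat_lit 4) (nat_lit 390) (nat_lit 254) (nat_lit 136)) (XT.lf (nat_lit 0) (nat_lit 20741674811) (nat_lit 76) (nat_lit 40650659298) (nat_lit 76) (nat_lit 5297208508) (nat_lit 8) (nat_lit 4) (nat_lit 9) (nat_lit 5) (nat_lit 9) (nat_lit 4) (nat_lit 391) (nat_lit 254) (nat_lit 135))))))) (XT.nd (nat_lit 31356) (nat_lit 0) (nat_lit 15124) (XT.nd (nat_lit 468) (nat_lit 0) (nat_lit 0) (XT.nd (nat_lit 234) (nat_lit 76) (nat_lit 0) (XT.nd (nat_lit 78) (nat_lit 76) (nat_lit 0) (XT.lf (nat_lit 0) (nat_lit 30502357867) (nat_lit 76) (nat_lit 36709064888) (nat_lit 76) (nat_lit 1324124418) (nat_lit 8) (nat_lit 4) (nat_lit 9) (nat_lit 5) (nat_lit 9) (nat_lit 4) (nat_lit 392) (nat_lit 254) (nat_lit 134)) (XT.nd (nat_lit 78) (nat_lit 0) (nat_lit 0) (XT.lf (nat_lit 0) (nat_lit 2705891151) (nat_lit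 152) (nat_lit 29922553938) (nat_lit 76) (nat_lit 37807939851) (nat_lit 7) (nat_lit 5) (nat_lit 9) (nat_lit 5) (nat_lit 8) (nat_lit 4) (nat_lit 393) (nat_lit 254) (nat_lit 133)) (XT.lf (nat_lit 0) (nat_lit 6822189303) (nat_lit 152) (nat_lit 21596150734) (nat_lit 76) (nat_lit 43975758529) (nat_lit 7) (nat_lit 5) (nat_lit 9) (nat_lit 5) (nat_lit 8) (nat_lit 4) (nat_lit 394) (nat_lit 254) (nat_lit 132)))) (XT.nd (nat_lit 78) (nat_lit 76) (nat_lit 0) (XT.lf (nat_lit 0) (nat_lit 11054205240) (nat_lit 152) (nat_lit 13033975900) (nat_lit 76) (nat_lit 50322599381) (nat_lit 7) (nat_lit 5) (nat_lit 9) (nat_lit 5) (nat_lit 8) (nat_lit 4) (nat_lit 395) (nat_lit 254) (nat_lit 131)) (XT.nd (nat_lit 78) (nat_lit 76) (nat_lit 0) (XT.lf (nat_lit 0) (nat_lit 15405636839) (nat_lit 152) (nat_lit 4228547927) (nat_lit 76) (nat_lit 56854008189) (nat_lit 7) (nat_lit 5) (nat_lit 9) (nat_lit 5) (nat_lit 8) (nat_lit 4) (nat_lit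 396) (nat_lit 254) (nat_lit 130)) (XT.lf (nat_lit 0) (nat_lit 4923910478) (nat_lit 76) (nat_lit 15003707484) (nat_lit 152) (nat_lit 58699113172) (nat_lit 6) (nat_lit 5) (nat_lit 7) (nat_lit 5) (nat_lit 8) (nat_lit 4) (nat_lit 397) (nat_lit 254) (nat_lit 129))))) (XT.nd (nat_lit 30654) (nat_lit 0) (nat_lit 19836) (XT.nd (nat_lit 78) (nat_lit 0) (nat_lit 0) (XT.lf (nat_lit 0) (nat_lit 14424537653) (nat_lit 76) (nat_lit 10196183406) (nat_lit 152) (nat_lit 56207643989) (nat_lit 6) (nat_lit 5) (nat_lit 7) (nat_lit 5) (nat_lit 8) (nat_lit 4) (nat_lit 398) (nat_lit 254) (nat_lit 128)) (XT.nd (nat_lit 78) (nat_lit 0) (nat_lit 0) (XT.lf (nat_lit 0) (nat_lit 24197478720) (nat_lit 76) (nat_lit 5250111826) (nat_lit 152) (nat_lit 53648671598) (nat_lit 6) (nat_lit 5) (nat_lit 7) (nat_lit 5) (nat_lit 8) (nat_lit 4) (nat_lit 399) (nat_lit 254) (nat_lit 127)) (XT.lf (nat_lit 0) (nat_lit 34251273142) (nat_lit 76)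 (nat_lit 161170934) (nat_lit 152) (nat_lit 51019960003) (nat_lit 6) (nat_lit 5) (nat_lit 7) (nat_lit 5) (nat_lit 8) (nat_lit 4) (nat_lit 400) (nat_lit 254) (nat_lit 126)))) (XT.nd (nat_lit 78) (nat_lit 912) (nat_lit 0) (XT.lf (nat_lit 0) (nat_lit 1585511188) (nat_lit 380) (nat_lit 106907174) (nat_lit 0) (nat_lit 1585511188) (nat_lit 279) (nat_lit 5) (nat_lit 284) (nat_lit 4) (nat_lit 279) (nat_lit 4) (nat_lit 270) (nat_lit 255) (nat_lit 255)) (XT.nd (nat_lit 78) (nat_lit 532) (nat_lit 0) (XT.lf (nat_lit 0) (nat_lit 3390050230) (nat_lit 380) (nat_lit 2739441840) (nat_lit 380) (nat_lit 450863220) (nat_lit 274) (nat_lit 4) (nat_lit 279) (nat_lit 5) (nat_lit 279) (nat_lit 4) (nat_lit 271) (nat_lit 255) (nat_lit 254)) (XT.lf (nat_lit 0) (nat_lit 412025942) (nat_lit 456) (nat_lit 2012863492) (nat_lit 532) (nat_lit 4183129456) (nat_lit 267) (nat_lit 5) (nat_lit 273) (nat_lit 5) (nat_lit 274) (nat_lit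 4) (nat_lit 272) (nat_lit 255) (nat_lit 253)))))) (XT.nd (nat_lit 468) (nat_lit 2736) (nat_lit 0) (XT.nd (nat_lit 234) (nat_lit 1368) (nat_lit 0) (XT.nd (nat_lit 78) (nat_lit 608) (nat_lit 0) (XT.lf (nat_lit 0) (nat_lit 4111810054) (nat_lit 456) (nat_lit 1198295615) (nat_lit 532) (nat_lit 1328588661) (nat_lit 267) (nat_lit 5) (nat_lit 273) (nat_lit 5) (nat_lit 274) (nat_lit 4) (nat_lit 273) (nat_lit 255) (nat_lit 252)) (XT.nd (nat_lit 78) (nat_lit 0) (nat_lit 0) (XT.lf (nat_lit 0) (nat_lit 1188392895) (nat_lit 532) (nat_lit 304931941) (nat_lit 608) (nat_lit 5179372086) (nat_lit 259) (nat_lit 5) (nat_lit 266) (nat_lit 5) (nat_lit 267) (nat_lit 5) (nat_lit 274) (nat_lit 255) (nat_lit 251)) (XT.lf (nat_lit 0) (nat_lit 4309058072) (nat_lit 608) (nat_lit 1733632067) (nat_lit 76) (nat_lit 666818239) (nat_lit 259) (nat_lit 5) (nat_lit 267) (nat_lit 5) (nat_lit 260) (nat_lit 4) (nat_lit 275) (nat_lit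 255) (nat_lit 250)))) (XT.nd (nat_lit 78) (nat_lit 684) (nat_lit 0) (XT.lf (nat_lit 0) (nat_lit 382022068) (nat_lit 684) (nat_lit 4658209809) (nat_lit 76) (nat_lit 1709427760) (nat_lit 250) (nat_lit 5) (nat_lit 259) (nat_lit 5) (nat_lit 251) (nat_lit 5) (nat_lit 276) (nat_lit 255) (nat_lit 249)) (XT.nd (nat_lit 78) (nat_lit 684) (nat_lit 0) (XT.lf (nat_lit 0) (nat_lit 3125257095) (nat_lit 684) (nat_lit 821093055) (nat_lit 76) (nat_lit 2846423601) (nat_lit 250) (nat_lit 5) (nat_lit 259) (nat_lit 5) (nat_lit 251) (nat_lit 5) (nat_lit 277) (nat_lit 255) (nat_lit 248)) (XT.lf (nat_lit 0) (nat_lit 3120688823) (nat_lit 684) (nat_lit 2770637678) (nat_lit 760) (nat_lit 947869127) (nat_lit 241) (nat_lit 5) (nat_lit 250) (nat_lit 5) (nat_lit 251) (nat_lit 5) (nat_lit 278) (nat_lit 255) (nat_lit 247))))) (XT.nd (nat_lit 234) (nat_lit 988) (nat_lit 0) (XT.nd (nat_lit 78) (nat_lit 912) (nat_lit 0) (XT.lf (nat_lit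 0) (nat_lit 224654611) (nat_lit 760) (nat_lit 1514460244) (nat_lit 836) (nat_lit 5149920681) (nat_lit 230) (nat_lit 5) (nat_lit 240) (nat_lit 5) (nat_lit 241) (nat_lit 5) (nat_lit 279) (nat_lit 255) (nat_lit 246)) (XT.nd (nat_lit 78) (nat_lit 912) (nat_lit 0) (XT.lf (nat_lit 0) (nat_lit 4280851264) (nat_lit 760) (nat_lit 157533245) (nat_lit 836) (nat_lit 2503393671) (nat_lit 230) (nat_lit 5) (nat_lit 240) (nat_lit 5) (nat_lit 241) (nat_lit 5) (nat_lit 280) (nat_lit 255) (nat_lit 245)) (XT.lf (nat_lit 0) (nat_lit 158770284) (nat_lit 912) (nat_lit 5594176382) (nat_lit 76) (nat_lit 1245073558) (nat_lit 218) (nat_lit 5) (nat_lit 230) (nat_lit 5) (nat_lit 219) (nat_lit 5) (nat_lit 281) (nat_lit 255) (nat_lit 244)))) (XT.nd (nat_lit 78) (nat_lit 988) (nat_lit 0) (XT.lf (nat_lit 0) (nat_lit 2795860291) (nat_lit 912) (nat_lit 1510478068) (nat_lit 76) (nat_lit 2750699290) (nat_lit 218) (nat_lit 5) (nat_lit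 230) (nat_lit 5) (nat_lit 219) (nat_lit 5) (nat_lit 282) (nat_lit 255) (nat_lit 243)) (XT.nd (nat_lit 78) (nat_lit 76) (nat_lit 0) (XT.lf (nat_lit 0) (nat_lit 2676278413) (nat_lit 912) (nat_lit 2780618323) (nat_lit 988) (nat_lit 1662771234) (nat_lit 206) (nat_lit 5) (nat_lit 218) (nat_lit 5) (nat_lit 219) (nat_lit 5) (nat_lit 283) (nat_lit 255) (nat_lit 242)) (XT.lf (nat_lit 0) (nat_lit 929031060) (nat_lit 988) (nat_lit 246759236) (nat_lit 76) (nat_lit 6010214558) (nat_lit 205) (nat_lit 5) (nat_lit 218) (nat_lit 5) (nat_lit 206) (nat_lit 5) (nat_lit 284) (nat_lit 255) (nat_lit 241))))))))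
noncomputable def xc94 : XT := (XT.nd (nat_lit 1794) (nat_lit 3572) (nat_lit 0) (XT.nd (nat_lit 858) (nat_lit 3116) (nat_lit 0) (XT.nd (nat_lit 390) (nat_lit 2356) (nat_lit 0) (XT.nd (nat_lit 156) (nat_lit 1216) (nat_lit 0) (XT.nd (nat_lit 78) (nat_lit 1064) (nat_lit 0) (XT.lf (nat_lit 0) (nat_lit 3531632812) (nat_lit 1064) (nat_lit 3192316215) (nat_lit 76) (nat_lit 531066445) (nat_lit 192) (nat_lit 5) (nat_lit 206) (nat_lit 5) (nat_lit 193) (nat_lit 5) (nat_lit 285) (nat_lit 255) (nat_lit 240)) (XT.lf (nat_lit 0) (nat_lit 1118182009) (nat_lit 1064) (nat_lit 5042847215) (nat_lit 1140) (nat_lit 1166772176) (nat_lit 178) (nat_lit 5) (nat_lit 192) (nat_lit 5) (nat_lit 193) (nat_lit 5) (nat_lit 286) (nat_lit 255) (nat_lit 239))) (XT.nd (nat_lit 78) (nat_lit 1140) (nat_lit 0) (XT.lf (nat_lit 0) (nat_lit 1394916350) (nat_lit 1140) (nat_lit 1866185867) (nat_lit 76) (nat_lit 4142692791) (nat_lit 177)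 (nat_lit 5) (nat_lit 192) (nat_lit 5) (nat_lit 178) (nat_lit 5) (nat_lit 287) (nat_lit 255) (nat_lit 238)) (XT.nd (nat_lit 78) (nat_lit 0) (nat_lit 0) (XT.lf (nat_lit 0) (nat_lit 2574983372) (nat_lit 1140) (nat_lit 1386416071) (nat_lit 1216) (nat_lit 3521932932) (nat_lit 162) (nat_lit 5) (nat_lit 177) (nat_lit 5) (nat_lit 178) (nat_lit 5) (nat_lit 288) (nat_lit 255) (nat_lit 237)) (XT.lf (nat_lit 0) (nat_lit 6557256322) (nat_lit 1216) (nat_lit 455349977) (nat_lit 76) (nat_lit 554226110) (nat_lit 162) (nat_lit 5) (nat_lit 178) (nat_lit 5) (nat_lit 163) (nat_lit 5) (nat_lit 289) (nat_lit 255) (nat_lit 236))))) (XT.nd (nat_lit 234) (nat_lit 1140) (nat_lit 0) (XT.nd (nat_lit 78) (nat_lit 608) (nat_lit 0) (XT.lf (nat_lit 0) (nat_lit 1530661379) (nat_lit 608) (nat_lit 3541187450) (nat_lit 76) (nat_lit 2581173782) (nat_lit 154) (nat_lit 5) (nat_lit 162) (nat_lit 5) (nat_lit 155) (nat_lit 5) (nat_lit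 290) (nat_lit 255) (nat_lit 235)) (XT.nd (nat_lit 78) (nat_lit 0) (nat_lit 0) (XT.lf (nat_lit 0) (nat_lit 1022033290) (nat_lit 608) (nat_lit 3050001790) (nat_lit 684) (nat_lit 3671242320) (nat_lit 146) (nat_lit 5) (nat_lit 154) (nat_lit 5) (nat_lit 155) (nat_lit 5) (nat_lit 291) (nat_lit 255) (nat_lit 234)) (XT.lf (nat_lit 0) (nat_lit 5723864834) (nat_lit 608) (nat_lit 933632326) (nat_lit 684) (nat_lit 1179838685) (nat_lit 146) (nat_lit 5) (nat_lit 154) (nat_lit 5) (nat_lit 155) (nat_lit 5) (nat_lit 292) (nat_lit 255) (nat_lit 233)))) (XT.nd (nat_lit 78) (nat_lit 532) (nat_lit 0) (XT.lf (nat_lit 0) (nat_lit 1329857815) (nat_lit 608) (nat_lit 5347842179) (nat_lit 76) (nat_lit 1257122076) (nat_lit 138) (nat_lit 5) (nat_lit 146) (nat_lit 5) (nat_lit 139) (nat_lit 5) (nat_lit 293) (nat_lit 255) (nat_lit 232)) (XT.nd (nat_lit 78) (nat_lit 532) (nat_lit 0) (XT.lf (nat_lit 0) (nat_lit 3856451430) (nat_lit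 608) (nat_lit 655579648) (nat_lit 76) (nat_lit 3524012038) (nat_lit 138) (nat_lit 5) (nat_lit 146) (nat_lit 5) (nat_lit 139) (nat_lit 5) (nat_lit 294) (nat_lit 255) (nat_lit 231)) (XT.lf (nat_lit 0) (nat_lit 4189673696) (nat_lit 532) (nat_lit 2245872674) (nat_lit 608) (nat_lit 1705570091) (nat_lit 131) (nat_lit 5) (nat_lit 138) (nat_lit 5) (nat_lit 139) (nat_lit 5) (nat_lit 295) (nat_lit 255) (nat_lit 230)))))) (XT.nd (nat_lit 468) (nat_lit 1216) (nat_lit 0) (XT.nd (nat_lit 234) (nat_lit 912) (nat_lit 0) (XT.nd (nat_lit 78) (nat_lit 456) (nat_lit 0) (XT.lf (nat_lit 0) (nat_lit 779307731) (nat_lit 532) (nat_lit 7368221565) (nat_lit 76) (nat_lit 103087398) (nat_lit 124) (nat_lit 5) (nat_lit 131) (nat_lit 5) (nat_lit 125) (nat_lit 5) (nat_lit 296) (nat_lit 255) (nat_lit 229)) (XT.nd (nat_lit 78) (nat_lit 456) (nat_lit 0) (XT.lf (nat_lit 0) (nat_lit 3304972446) (nat_lit 532) (nat_lit 2530895032) (nat_lit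 76) (nat_lit 2527119088) (nat_lit 124) (nat_lit 5) (nat_lit 131) (nat_lit 5) (nat_lit 125) (nat_lit 5) (nat_lit 297) (nat_lit 255) (nat_lit 228)) (XT.lf (nat_lit 0) (nat_lit 2429621422) (nat_lit 456) (nat_lit 3439934450) (nat_lit 532) (nat_lit 2610380953) (nat_lit 118) (nat_lit 5) (nat_lit 124) (nat_lit 5) (nat_lit 125) (nat_lit 5) (nat_lit 298) (nat_lit 255) (nat_lit 227)))) (XT.nd (nat_lit 78) (nat_lit 912) (nat_lit 0) (XT.lf (nat_lit 0) (nat_lit 7522173508) (nat_lit 456) (nat_lit 955347701) (nat_lit 532) (nat_lit 123981778) (nat_lit 118) (nat_lit 5) (nat_lit 124) (nat_lit 5) (nat_lit 125) (nat_lit 5) (nat_lit 299) (nat_lit 255) (nat_lit 226)) (XT.nd (nat_lit 78) (nat_lit 456) (nat_lit 0) (XT.lf (nat_lit 0) (nat_lit 2386056619) (nat_lit 456) (nat_lit 4714574883) (nat_lit 76) (nat_lit 1625578735) (nat_lit 112) (nat_lit 5) (nat_lit 118) (nat_lit 5) (nat_lit 113) (nat_lit 5) (nat_lit 300) (nat_lit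 255) (nat_lit 225)) (XT.lf (nat_lit 0) (nat_lit 350212587) (nat_lit 456) (nat_lit 4585415121) (nat_lit 532) (nat_lit 3920084651) (nat_lit 106) (nat_lit 5) (nat_lit 112) (nat_lit 5) (nat_lit 113) (nat_lit 5) (nat_lit 301) (nat_lit 255) (nat_lit 224))))) (XT.nd (nat_lit 234) (nat_lit 760) (nat_lit 0) (XT.nd (nat_lit 78) (nat_lit 456) (nat_lit 0) (XT.lf (nat_lit 0) (nat_lit 5595314246) (nat_lit 456) (nat_lit 1957877805) (nat_lit 532) (nat_lit 1436251804) (nat_lit 106) (nat_lit 5) (nat_lit 112) (nat_lit 5) (nat_lit 113) (nat_lit 5) (nat_lit 302) (nat_lit 255) (nat_lit 223)) (XT.nd (nat_lit 78) (nat_lit 0) (nat_lit 0) (XT.lf (nat_lit 0) (nat_lit 1070036197) (nat_lit 456) (nat_lit 7307430012) (nat_lit 76) (nat_lit 750386771) (nat_lit 100) (nat_lit 5) (nat_lit 106) (nat_lit 5) (nat_lit 101) (nat_lit 5) (nat_lit 303) (nat_lit 255) (nat_lit 222)) (XT.lf (nat_lit 0) (nat_lit 3622392272) (nat_lit 456) (nat_lit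 2110730675) (nat_lit 76) (nat_lit 3536954323) (nat_lit 100) (nat_lit 5) (nat_lit 106) (nat_lit 5) (nat_lit 101) (nat_lit 5) (nat_lit 304) (nat_lit 255) (nat_lit 221)))) (XT.nd (nat_lit 78) (nat_lit 380) (nat_lit 0) (XT.lf (nat_lit 0) (nat_lit 3238671295) (nat_lit 380) (nat_lit 2991108313) (nat_lit 456) (nat_lit 3187514381) (nat_lit 95) (nat_lit 5) (nat_lit 100) (nat_lit 5) (nat_lit 101) (nat_lit 5) (nat_lit 305) (nat_lit 255) (nat_lit 220)) (XT.nd (nat_lit 78) (nat_lit 380) (nat_lit 0) (XT.lf (nat_lit 0) (nat_lit 8726077693) (nat_lit 380) (nat_lit 158855735) (nat_lit 456) (nat_lit 684984635) (nat_lit 95) (nat_lit 5) (nat_lit 100) (nat_lit 5) (nat_lit 101) (nat_lit 5) (nat_lit 306) (nat_lit 255) (nat_lit 219)) (XT.lf (nat_lit 0) (nat_lit 1876642846) (nat_lit 380) (nat_lit 5095045525) (nat_lit 76) (nat_lit 2754330857) (nat_lit 90) (nat_lit 5) (nat_lit 95) (nat_lit 5) (nat_lit 91) (nat_lit 5) (nat_lit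 307) (nat_lit 255) (nat_lit 218))))))) (XT.nd (nat_lit 936) (nat_lit 1520) (nat_lit 0) (XT.nd (nat_lit 468) (nat_lit 988) (nat_lit 0) (XT.nd (nat_lit 234) (nat_lit 380) (nat_lit 0) (XT.nd (nat_lit 78) (nat_lit 304) (nat_lit 0) (XT.lf (nat_lit 0) (nat_lit 333132861) (nat_lit 380) (nat_lit 4131491859) (nat_lit 456) (nat_lit 5423147703) (nat_lit 85) (nat_lit 5) (nat_lit 90) (nat_lit 5) (nat_lit 91) (nat_lit 5) (nat_lit 308) (nat_lit 255) (nat_lit 217)) (XT.nd (nat_lit 78) (nat_lit 304) (nat_lit 0) (XT.lf (nat_lit 0) (nat_lit 5963533416) (nat_lit 380) (nat_lit 1168889062) (nat_lit 456) (nat_lit 2921959036) (nat_lit 85) (nat_lit 5) (nat_lit 90) (nat_lit 5) (nat_lit 91) (nat_lit 5) (nat_lit 309) (nat_lit 255) (nat_lit 216)) (XT.lf (nat_lit 0) (nat_lit 1483176776) (nat_lit 304) (nat_lit 8381445437) (nat_lit 380) (nat_lit 361902216) (nat_lit 81) (nat_lit 5) (nat_lit 85) (nat_lit 5) (nat_lit 86) (nat_lit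 5) (nat_lit 310) (nat_lit 255) (nat_lit 215)))) (XT.nd (nat_lit 78) (nat_lit 304) (nat_lit 0) (XT.lf (nat_lit 0) (nat_lit 2236122363) (nat_lit 380) (nat_lit 3193067988) (nat_lit 76) (nat_lit 4973881244) (nat_lit 80) (nat_lit 5) (nat_lit 85) (nat_lit 5) (nat_lit 81) (nat_lit 5) (nat_lit 311) (nat_lit 255) (nat_lit 214)) (XT.nd (nat_lit 78) (nat_lit 0) (nat_lit 0) (XT.lf (nat_lit 0) (nat_lit 2506022896) (nat_lit 304) (nat_lit 2376537555) (nat_lit 380) (nat_lit 5702975774) (nat_lit 76) (nat_lit 5) (nat_lit 80) (nat_lit 5) (nat_lit 81) (nat_lit 5) (nat_lit 312) (nat_lit 255) (nat_lit 213)) (XT.lf (nat_lit 0) (nat_lit 7602579874) (nat_lit 380) (nat_lit 2402328133) (nat_lit 76) (nat_lit 768800308) (nat_lit 76) (nat_lit 5) (nat_lit 81) (nat_lit 5) (nat_lit 77) (nat_lit 5) (nat_lit 313) (nat_lit 255) (nat_lit 212))))) (XT.nd (nat_lit 234) (nat_lit 304) (nat_lit 0) (XT.nd (nat_lit 78) (nat_lit 380) (nat_lit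 0) (XT.lf (nat_lit 0) (nat_lit 3426700961) (nat_lit 304) (nat_lit 6989546857) (nat_lit 380) (nat_lit 550973758) (nat_lit 72) (nat_lit 5) (nat_lit 76) (nat_lit 5) (nat_lit 77) (nat_lit 5) (nat_lit 314) (nat_lit 255) (nat_lit 211)) (XT.nd (nat_lit 78) (nat_lit 304) (nat_lit 0) (XT.lf (nat_lit 0) (nat_lit 2086169841) (nat_lit 380) (nat_lit 1768988962) (nat_lit 76) (nat_lit 7311407343) (nat_lit 71) (nat_lit 5) (nat_lit 76) (nat_lit 5) (nat_lit 72) (nat_lit 5) (nat_lit 315) (nat_lit 255) (nat_lit 210)) (XT.lf (nat_lit 0) (nat_lit 4191701683) (nat_lit 304) (nat_lit 597029042) (nat_lit 380) (nat_lit 6583127933) (nat_lit 67) (nat_lit 5) (nat_lit 71) (nat_lit 5) (nat_lit 72) (nat_lit 5) (nat_lit 316) (nat_lit 255) (nat_lit 209)))) (XT.nd (nat_lit 78) (nat_lit 304) (nat_lit 0) (XT.lf (nat_lit 0) (nat_lit 7574519725) (nat_lit 380) (nat_lit 1302880629) (nat_lit 76) (nat_lit 2705896090) (nat_lit 67) (nat_lit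 5) (nat_lit 72) (nat_lit 5) (nat_lit 68) (nat_lit 5) (nat_lit 317) (nat_lit 255) (nat_lit 208)) (XT.nd (nat_lit 78) (nat_lit 76) (nat_lit 0) (XT.lf (nat_lit 0) (nat_lit 4778945018) (nat_lit 228) (nat_lit 5675613301) (nat_lit 304) (nat_lit 1346248321) (nat_lit 64) (nat_lit 5) (nat_lit 67) (nat_lit 5) (nat_lit 68) (nat_lit 5) (nat_lit 318) (nat_lit 255) (nat_lit 207)) (XT.lf (nat_lit 0) (nat_lit 1341213353) (nat_lit 304) (nat_lit 1027460304) (nat_lit 76) (nat_lit 9656643527) (nat_lit 63) (nat_lit 5) (nat_lit 67) (nat_lit 5) (nat_lit 64) (nat_lit 5) (nat_lit 319) (nat_lit 255) (nat_lit 206)))))) (XT.nd (nat_lit 468) (nat_lit 684) (nat_lit 0) (XT.nd (nat_lit 234) (nat_lit 304) (nat_lit 0) (XT.nd (nat_lit 78) (nat_lit 228) (nat_lit 0) (XT.lf (nat_lit 0) (nat_lit 4102637251) (nat_lit 380) (nat_lit 7089538422) (nat_lit 76) (nat_lit 1063420943) (nat_lit 59) (nat_lit 5) (nat_lit 64) (nat_lit 5) (nat_lit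 60) (nat_lit 5) (nat_lit 320) (nat_lit 255) (nat_lit 205)) (XT.nd (nat_lit 78) (nat_lit 228) (nat_lit 0) (XT.lf (nat_lit 0) (nat_lit 6941480400) (nat_lit 380) (nat_lit 1007730968) (nat_lit 76) (nat_lit 4543779795) (nat_lit 59) (nat_lit 5) (nat_lit 64) (nat_lit 5) (nat_lit 60) (nat_lit 5) (nat_lit 321) (nat_lit 255) (nat_lit 204)) (XT.lf (nat_lit 0) (nat_lit 5303569011) (nat_lit 228) (nat_lit 4574693465) (nat_lit 304) (nat_lit 2858904604) (nat_lit 56) (nat_lit 5) (nat_lit 59) (nat_lit 5) (nat_lit 60) (nat_lit 5) (nat_lit 322) (nat_lit 255) (nat_lit 203)))) (XT.nd (nat_lit 78) (nat_lit 304) (nat_lit 0) (XT.lf (nat_lit 0) (nat_lit 11768965522) (nat_lit 228) (nat_lit 1106726580) (nat_lit 304) (nat_lit 113841351) (nat_lit 56) (nat_lit 5) (nat_lit 59) (nat_lit 5) (nat_lit 60) (nat_lit 5) (nat_lit 323) (nat_lit 255) (nat_lit 202)) (XT.nd (nat_lit 78) (nat_lit 0) (nat_lit 0) (XT.lf (nat_lit 0) (nat_lit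 2697939474) (nat_lit 304) (nat_lit 8073435771) (nat_lit 76) (nat_lit 2476232633) (nat_lit 52) (nat_lit 5) (nat_lit 56) (nat_lit 5) (nat_lit 53) (nat_lit 5) (nat_lit 324) (nat_lit 255) (nat_lit 201)) (XT.lf (nat_lit 0) (nat_lit 5578631204) (nat_lit 304) (nat_lit 1794948575) (nat_lit 76) (nat_lit 6140243554) (nat_lit 52) (nat_lit 5) (nat_lit 56) (nat_lit 5) (nat_lit 53) (nat_lit 5) (nat_lit 325) (nat_lit 255) (nat_lit 200))))) (XT.nd (nat_lit 234) (nat_lit 152) (nat_lit 0) (XT.nd (nat_lit 78) (nat_lit 304) (nat_lit 0) (XT.lf (nat_lit 0) (nat_lit 4709955084) (nat_lit 228) (nat_lit 3845568923) (nat_lit 304) (nat_lit 5232244707) (nat_lit 49) (nat_lit 5) (nat_lit 52) (nat_lit 5) (nat_lit 53) (nat_lit 5) (nat_lit 326) (nat_lit 255) (nat_lit 199)) (XT.nd (nat_lit 78) (nat_lit 304) (nat_lit 0) (XT.lf (nat_lit 0) (nat_lit 11393482106) (nat_lit 228) (nat_lit 211393595) (nat_lit 304) (nat_lit 2465597987)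 (nat_lit 49) (nat_lit 5) (nat_lit 52) (nat_lit 5) (nat_lit 53) (nat_lit 5) (nat_lit 327) (nat_lit 255) (nat_lit 198)) (XT.lf (nat_lit 0) (nat_lit 414255562) (nat_lit 304) (nat_lit 10459167617) (nat_lit 76) (nat_lit 3487028579) (nat_lit 45) (nat_lit 5) (nat_lit 49) (nat_lit 5) (nat_lit 46) (nat_lit 5) (nat_lit 328) (nat_lit 255) (nat_lit 197)))) (XT.nd (nat_lit 78) (nat_lit 152) (nat_lit 0) (XT.lf (nat_lit 0) (nat_lit 3326342493) (nat_lit 304) (nat_lit 4006147786) (nat_lit 76) (nat_lit 7326077478) (nat_lit 45) (nat_lit 5) (nat_lit 49) (nat_lit 5) (nat_lit 46) (nat_lit 5) (nat_lit 329) (nat_lit 255) (nat_lit 196)) (XT.nd (nat_lit 78) (nat_lit 0) (nat_lit 0) (XT.lf (nat_lit 0) (nat_lit 2640690157) (nat_lit 152) (nat_lit 3677476906) (nat_lit 228) (nat_lit 8647720728) (nat_lit 43) (nat_lit 5) (nat_lit 45) (nat_lit 5) (nat_lit 46) (nat_lit 5) (nat_lit 330) (nat_lit 255) (nat_lit 195)) (XT.lf (nat_lit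 0) (nat_lit 9408727898) (nat_lit 228) (nat_lit 5765027385) (nat_lit 76) (nat_lit 108433576) (nat_lit 43) (nat_lit 5) (nat_lit 46) (nat_lit 5) (nat_lit 44) (nat_lit 5) (nat_lit 331) (nat_lit 255) (nat_lit 194))))))))
noncomputable def xc95 : XT := (XT.nd (nat_lit 1872) (nat_lit 836) (nat_lit 0) (XT.nd (nat_lit 936) (nat_lit 684) (nat_lit 0) (XT.nd (nat_lit 468) (nat_lit 380) (nat_lit 0) (XT.nd (nat_lit 234) (nat_lit 304) (nat_lit 0) (XT.nd (nat_lit 78) (nat_lit 76) (nat_lit 0) (XT.lf (nat_lit 0) (nat_lit 923430258) (nat_lit 228) (nat_lit 11682103955) (nat_lit 304) (nat_lit 3002068867) (nat_lit 40) (nat_lit 5) (nat_lit 43) (nat_lit 5) (nat_lit 44) (nat_lit 5) (nat_lit 332) (nat_lit 255) (nat_lit 193)) (XT.nd (nat_lit 78) (nat_lit 76) (nat_lit 0) (XT.lf (nat_lit 0) (nat_lit 7881083976) (nat_lit 228) (nat_lit 8044065516) (nat_lit 304) (nat_lit 16852199) (nat_lit 40) (nat_lit 5) (nat_lit 43) (nat_lit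 5) (nat_lit 44) (nat_lit 5) (nat_lit 333) (nat_lit 255) (nat_lit 192)) (XT.lf (nat_lit 0) (nat_lit 2967522495) (nat_lit 304) (nat_lit 1317187916) (nat_lit 76) (nat_lit 12001789269) (nat_lit 39) (nat_lit 5) (nat_lit 43) (nat_lit 5) (nat_lit 40) (nat_lit 5) (nat_lit 334) (nat_lit 255) (nat_lit 191)))) (XT.nd (nat_lit 78) (nat_lit 152) (nat_lit 0) (XT.lf (nat_lit 0) (nat_lit 5692359183) (nat_lit 152) (nat_lit 373616525) (nat_lit 228) (nat_lit 10574631953) (nat_lit 37) (nat_lit 5) (nat_lit 39) (nat_lit 5) (nat_lit 40) (nat_lit 5) (nat_lit 335) (nat_lit 255) (nat_lit 190)) (XT.nd (nat_lit 78) (nat_lit 152) (nat_lit 0) (XT.lf (nat_lit 0) (nat_lit 9276364250) (nat_lit 228) (nat_lit 4148691289) (nat_lit 76) (nat_lit 3579739751) (nat_lit 37) (nat_lit 5) (nat_lit 40) (nat_lit 5) (nat_lit 38) (nat_lit 5) (nat_lit 336) (nat_lit 255) (nat_lit 189)) (XT.lf (nat_lit 0) (nat_lit 2860683218) (nat_lit 152) (nat_lit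 9724857440) (nat_lit 228) (nat_lit 4794318711) (nat_lit 35) (nat_lit 5) (nat_lit 37) (nat_lit 5) (nat_lit 38) (nat_lit 5) (nat_lit 337) (nat_lit 255) (nat_lit 188))))) (XT.nd (nat_lit 234) (nat_lit 152) (nat_lit 0) (XT.nd (nat_lit 78) (nat_lit 228) (nat_lit 0) (XT.lf (nat_lit 0) (nat_lit 10119544455) (nat_lit 152) (nat_lit 5888015873) (nat_lit 228) (nat_lit 1758232379) (nat_lit 35) (nat_lit 5) (nat_lit 37) (nat_lit 5) (nat_lit 38) (nat_lit 5) (nat_lit 338) (nat_lit 255) (nat_lit 187)) (XT.nd (nat_lit 78) (nat_lit 152) (nat_lit 0) (XT.lf (nat_lit 0) (nat_lit 1314427513) (nat_lit 228) (nat_lit 625371251) (nat_lit 76) (nat_lit 16223967371) (nat_lit 34) (nat_lit 5) (nat_lit 37) (nat_lit 5) (nat_lit 35) (nat_lit 5) (nat_lit 339) (nat_lit 255) (nat_lit 186)) (XT.lf (nat_lit 0) (nat_lit 4502199263) (nat_lit 228) (nat_lit 11917939912) (nat_lit 76) (nat_lit 2151291528) (nat_lit 32) (nat_lit 5) (nat_lit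 35) (nat_lit 5) (nat_lit 33) (nat_lit 5) (nat_lit 340) (nat_lit 255) (nat_lit 185)))) (XT.nd (nat_lit 78) (nat_lit 152) (nat_lit 0) (XT.lf (nat_lit 0) (nat_lit 7784409795) (nat_lit 228) (nat_lit 4890863055) (nat_lit 76) (nat_lit 6316109849) (nat_lit 32) (nat_lit 5) (nat_lit 35) (nat_lit 5) (nat_lit 33) (nat_lit 5) (nat_lit 341) (nat_lit 255) (nat_lit 184)) (XT.nd (nat_lit 78) (nat_lit 0) (nat_lit 0) (XT.lf (nat_lit 0) (nat_lit 2350170834) (nat_lit 152) (nat_lit 8811509176) (nat_lit 228) (nat_lit 8262376469) (nat_lit 30) (nat_lit 5) (nat_lit 32) (nat_lit 5) (nat_lit 33) (nat_lit 5) (nat_lit 342) (nat_lit 255) (nat_lit 183)) (XT.lf (nat_lit 0) (nat_lit 9866396848) (nat_lit 152) (nat_lit 4797612339) (nat_lit 228) (nat_lit 5205009476) (nat_lit 30) (nat_lit 5) (nat_lit 32) (nat_lit 5) (nat_lit 33) (nat_lit 5) (nat_lit 343) (nat_lit 255) (nat_lit 182)))))) (XT.nd (nat_lit 468) (nat_lit 304) (nat_lit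 0) (XT.nd (nat_lit 234) (nat_lit 152) (nat_lit 0) (XT.nd (nat_lit 78) (nat_lit 228) (nat_lit 0) (XT.lf (nat_lit 0) (nat_lit 17567044797) (nat_lit 152) (nat_lit 679463178) (nat_lit 228) (nat_lit 2081588566) (nat_lit 30) (nat_lit 5) (nat_lit 32) (nat_lit 5) (nat_lit 33) (nat_lit 5) (nat_lit 344) (nat_lit 255) (nat_lit 181)) (XT.nd (nat_lit 78) (nat_lit 0) (nat_lit 0) (XT.lf (nat_lit 0) (nat_lit 1169145252) (nat_lit 228) (nat_lit 16095702342) (nat_lit 76) (nat_lit 3534117318) (nat_lit 27) (nat_lit 5) (nat_lit 30) (nat_lit 5) (nat_lit 28) (nat_lit 5) (nat_lit 345) (nat_lit 255) (nat_lit 180)) (XT.lf (nat_lit 0) (nat_lit 4486189380) (nat_lit 228) (nat_lit 8903197584) (nat_lit 76) (nat_lit 7893653431) (nat_lit 27) (nat_lit 5) (nat_lit 30) (nat_lit 5) (nat_lit 28) (nat_lit 5) (nat_lit 346) (nat_lit 255) (nat_lit 179)))) (XT.nd (nat_lit 78) (nat_lit 152) (nat_lit 0) (XT.lf (nat_lit 0) (nat_lit 7879192935)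 (nat_lit 228) (nat_lit 1534302787) (nat_lit 76) (nat_lit 12368866589) (nat_lit 27) (nat_lit 5) (nat_lit 30) (nat_lit 5) (nat_lit 28) (nat_lit 5) (nat_lit 347) (nat_lit 255) (nat_lit 178)) (XT.nd (nat_lit 78) (nat_lit 0) (nat_lit 0) (XT.lf (nat_lit 0) (nat_lit 6137179364) (nat_lit 152) (nat_lit 5272935633) (nat_lit 228) (nat_lit 10885482130) (nat_lit 25) (nat_lit 5) (nat_lit 27) (nat_lit 5) (nat_lit 28) (nat_lit 5) (nat_lit 348) (nat_lit 255) (nat_lit 177)) (XT.lf (nat_lit 0) (nat_lit 14032394602) (nat_lit 152) (nat_lit 1007499685) (nat_lit 228) (nat_lit 7784563414) (nat_lit 25) (nat_lit 5) (nat_lit 27) (nat_lit 5) (nat_lit 28) (nat_lit 5) (nat_lit 349) (nat_lit 255) (nat_lit 176))))) (XT.nd (nat_lit 234) (nat_lit 152) (nat_lit 0) (XT.nd (nat_lit 78) (nat_lit 152) (nat_lit 0) (XT.lf (nat_lit 0) (nat_lit 18789064825) (nat_lit 228) (nat_lit 1274555941) (nat_lit 76) (nat_lit 3305264507) (nat_lit 25)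 (nat_lit 5) (nat_lit 28) (nat_lit 5) (nat_lit 26) (nat_lit 4) (nat_lit 350) (nat_lit 255) (nat_lit 175)) (XT.nd (nat_lit 78) (nat_lit 76) (nat_lit 0) (XT.lf (nat_lit 0) (nat_lit 6550112813) (nat_lit 76) (nat_lit 16152129351) (nat_lit 152) (nat_lit 1225873202) (nat_lit 24) (nat_lit 5) (nat_lit 25) (nat_lit 5) (nat_lit 26) (nat_lit 4) (nat_lit 351) (nat_lit 255) (nat_lit 174)) (XT.lf (nat_lit 0) (nat_lit 2176848158) (nat_lit 152) (nat_lit 9925927880) (nat_lit 76) (nat_lit 12400969001) (nat_lit 23) (nat_lit 5) (nat_lit 25) (nat_lit 5) (nat_lit 24) (nat_lit 5) (nat_lit 352) (nat_lit 255) (nat_lit 173)))) (XT.nd (nat_lit 78) (nat_lit 152) (nat_lit 0) (XT.lf (nat_lit 0) (nat_lit 5636281805) (nat_lit 152) (nat_lit 2297660774) (nat_lit 76) (nat_lit 17162973135) (nat_lit 23) (nat_lit 5) (nat_lit 25) (nat_lit 5) (nat_lit 24) (nat_lit 5) (nat_lit 353) (nat_lit 255) (nat_lit 172)) (XT.nd (nat_lit 78) (nat_lit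 0) (nat_lit 0) (XT.lf (nat_lit 0) (nat_lit 5635211351) (nat_lit 152) (nat_lit 3598329494) (nat_lit 228) (nat_lit 16473333296) (nat_lit 21) (nat_lit 5) (nat_lit 23) (nat_lit 5) (nat_lit 24) (nat_lit 5) (nat_lit 354) (nat_lit 255) (nat_lit 171)) (XT.lf (nat_lit 0) (nat_lit 12950486053) (nat_lit 228) (nat_lit 12524178832) (nat_lit 76) (nat_lit 860126879) (nat_lit 21) (nat_lit 5) (nat_lit 24) (nat_lit 5) (nat_lit 22) (nat_lit 4) (nat_lit 355) (nat_lit 255) (nat_lit 170))))))) (XT.nd (nat_lit 936) (nat_lit 456) (nat_lit 0) (XT.nd (nat_lit 468) (nat_lit 76) (nat_lit 0) (XT.nd (nat_lit 234) (nat_lit 228) (nat_lit 0) (XT.nd (nat_lit 78) (nat_lit 76) (nat_lit 0) (XT.lf (nat_lit 0) (nat_lit 16795148476) (nat_lit 228) (nat_lit 4819242782) (nat_lit 76) (nat_lit 5366682497) (nat_lit 21) (nat_lit 5) (nat_lit 24) (nat_lit 5) (nat_lit 22) (nat_lit 4) (nat_lit 356) (nat_lit 255) (nat_lit 169)) (XT.nd (nat_lit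 78) (nat_lit 0) (nat_lit 0) (XT.lf (nat_lit 0) (nat_lit 3145854118) (nat_lit 76) (nat_lit 17620683938) (nat_lit 152) (nat_lit 6879877251) (nat_lit 20) (nat_lit 5) (nat_lit 21) (nat_lit 5) (nat_lit 22) (nat_lit 4) (nat_lit 357) (nat_lit 255) (nat_lit 168)) (XT.lf (nat_lit 0) (nat_lit 11416636896) (nat_lit 76) (nat_lit 13470485699) (nat_lit 152) (nat_lit 3443705266) (nat_lit 20) (nat_lit 5) (nat_lit 21) (nat_lit 5) (nat_lit 22) (nat_lit 4) (nat_lit 358) (nat_lit 255) (nat_lit 167)))) (XT.nd (nat_lit 78) (nat_lit 152) (nat_lit 0) (XT.lf (nat_lit 0) (nat_lit 75427106) (nat_lit 152) (nat_lit 9132646282) (nat_lit 76) (nat_lit 19828231295) (nat_lit 19) (nat_lit 5) (nat_lit 21) (nat_lit 5) (nat_lit 20) (nat_lit 5) (nat_lit 359) (nat_lit 255) (nat_lit 166)) (XT.nd (nat_lit 78) (nat_lit 152) (nat_lit 0) (XT.lf (nat_lit 0) (nat_lit 3613190023) (nat_lit 152) (nat_lit 1182332074) (nat_lit 76) (nat_lit 24966943984)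 (nat_lit 19) (nat_lit 5) (nat_lit 21) (nat_lit 5) (nat_lit 20) (nat_lit 5) (nat_lit 360) (nat_lit 255) (nat_lit 165)) (XT.lf (nat_lit 0) (nat_lit 7115653565) (nat_lit 152) (nat_lit 192620277) (nat_lit 228) (nat_lit 23200613814) (nat_lit 17) (nat_lit 5) (nat_lit 19) (nat_lit 5) (nat_lit 20) (nat_lit 5) (nat_lit 361) (nat_lit 255) (nat_lit 164))))) (XT.nd (nat_lit 234) (nat_lit 0) (nat_lit 0) (XT.nd (nat_lit 78) (nat_lit 76) (nat_lit 0) (XT.lf (nat_lit 0) (nat_lit 11152876793) (nat_lit 228) (nat_lit 15664168336) (nat_lit 76) (nat_lit 4459507405) (nat_lit 17) (nat_lit 5) (nat_lit 20) (nat_lit 5) (nat_lit 18) (nat_lit 4) (nat_lit 362) (nat_lit 255) (nat_lit 163)) (XT.nd (nat_lit 78) (nat_lit 76) (nat_lit 0) (XT.lf (nat_lit 0) (nat_lit 15098110856) (nat_lit 228) (nat_lit 7734069921) (nat_lit 76) (nat_lit 9235518135) (nat_lit 17) (nat_lit 5) (nat_lit 20) (nat_lit 5) (nat_lit 18) (nat_lit 4) (nat_lit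 363) (nat_lit 255) (nat_lit 162)) (XT.lf (nat_lit 0) (nat_lit 413919000) (nat_lit 76) (nat_lit 18735631580) (nat_lit 152) (nat_lit 13733403683) (nat_lit 16) (nat_lit 5) (nat_lit 17) (nat_lit 5) (nat_lit 18) (nat_lit 4) (nat_lit 364) (nat_lit 255) (nat_lit 161)))) (XT.nd (nat_lit 78) (nat_lit 0) (nat_lit 0) (XT.lf (nat_lit 0) (nat_lit 8937074332) (nat_lit 76) (nat_lit 14447630350) (nat_lit 152) (nat_lit 10336107209) (nat_lit 16) (nat_lit 5) (nat_lit 17) (nat_lit 5) (nat_lit 18) (nat_lit 4) (nat_lit 365) (nat_lit 255) (nat_lit 160)) (XT.nd (nat_lit 78) (nat_lit 0) (nat_lit 0) (XT.lf (nat_lit 0) (nat_lit 17688920334) (nat_lit 76) (nat_lit 10042529231) (nat_lit 152) (nat_lit 6852829063) (nat_lit 16) (nat_lit 5) (nat_lit 17) (nat_lit 5) (nat_lit 18) (nat_lit 4) (nat_lit 366) (nat_lit 255) (nat_lit 159)) (XT.lf (nat_lit 0) (nat_lit 26677104251) (nat_lit 76) (nat_lit 5516479106) (nat_lit 152) (nat_lit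 3280525604) (nat_lit 16) (nat_lit 5) (nat_lit 17) (nat_lit 5) (nat_lit 18) (nat_lit 4) (nat_lit 367) (nat_lit 255) (nat_lit 158)))))) (XT.nd (nat_lit 468) (nat_lit 152) (nat_lit 0) (XT.nd (nat_lit 234) (nat_lit 76) (nat_lit 0) (XT.nd (nat_lit 78) (nat_lit 152) (nat_lit 0) (XT.lf (nat_lit 0) (nat_lit 376432845) (nat_lit 152) (nat_lit 485291096) (nat_lit 76) (nat_lit 35529245757) (nat_lit 15) (nat_lit 5) (nat_lit 17) (nat_lit 5) (nat_lit 16) (nat_lit 5) (nat_lit 368) (nat_lit 255) (nat_lit 157)) (XT.nd (nat_lit 78) (nat_lit 0) (nat_lit 0) (XT.lf (nat_lit 0) (nat_lit 4180275457) (nat_lit 228) (nat_lit 29193373572) (nat_lit 76) (nat_lit 3957627901) (nat_lit 13) (nat_lit 5) (nat_lit 16) (nat_lit 5) (nat_lit 14) (nat_lit 4) (nat_lit 369) (nat_lit 255) (nat_lit 156)) (XT.lf (nat_lit 0) (nat_lit 8097490297) (nat_lit 228) (nat_lit 21303575055) (nat_lit 76) (nat_lit 8898758484) (nat_lit 13) (nat_lit 5)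 (nat_lit 16) (nat_lit 5) (nat_lit 14) (nat_lit 4) (nat_lit 370) (nat_lit 255) (nat_lit 155)))) (XT.nd (nat_lit 78) (nat_lit 76) (nat_lit 0) (XT.lf (nat_lit 0) (nat_lit 12118411894) (nat_lit 228) (nat_lit 13201441699) (nat_lit 76) (nat_lit 13977995777) (nat_lit 13) (nat_lit 5) (nat_lit 16) (nat_lit 5) (nat_lit 14) (nat_lit 4) (nat_lit 371) (nat_lit 255) (nat_lit 154)) (XT.nd (nat_lit 78) (nat_lit 76) (nat_lit 0) (XT.lf (nat_lit 0) (nat_lit 16246553673) (nat_lit 228) (nat_lit 4879893968) (nat_lit 76) (nat_lit 19199777948) (nat_lit 13) (nat_lit 5) (nat_lit 16) (nat_lit 5) (nat_lit 14) (nat_lit 4) (nat_lit 372) (nat_lit 255) (nat_lit 153)) (XT.lf (nat_lit 0) (nat_lit 3741346537) (nat_lit 76) (nat_lit 16780140324) (nat_lit 152) (nat_lit 20863285292) (nat_lit 12) (nat_lit 5) (nat_lit 13) (nat_lit 5) (nat_lit 14) (nat_lit 4) (nat_lit 373) (nat_lit 255) (nat_lit 152))))) (XT.nd (nat_lit 234) (nat_lit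 152) (nat_lit 0) (XT.nd (nat_lit 78) (nat_lit 0) (nat_lit 0) (XT.lf (nat_lit 0) (nat_lit 12698521605) (nat_lit 76) (nat_lit 12262567430) (nat_lit 152) (nat_lit 17512900705) (nat_lit 12) (nat_lit 5) (nat_lit 13) (nat_lit 5) (nat_lit 14) (nat_lit 4) (nat_lit 374) (nat_lit 255) (nat_lit 151)) (XT.nd (nat_lit 78) (nat_lit 0) (nat_lit 0) (XT.lf (nat_lit 0) (nat_lit 21902338432) (nat_lit 76) (nat_lit 7619058928) (nat_lit 152) (nat_lit 14074867995) (nat_lit 12) (nat_lit 5) (nat_lit 13) (nat_lit 5) (nat_lit 14) (nat_lit 4) (nat_lit 375) (nat_lit 255) (nat_lit 150)) (XT.lf (nat_lit 0) (nat_lit 31360839190) (nat_lit 76) (nat_lit 2845557383) (nat_lit 152) (nat_lit 10546183056) (nat_lit 12) (nat_lit 5) (nat_lit 13) (nat_lit 5) (nat_lit 14) (nat_lit 4) (nat_lit 376) (nat_lit 255) (nat_lit 149)))) (XT.nd (nat_lit 78) (nat_lit 152) (nat_lit 0) (XT.lf (nat_lit 0) (nat_lit 39040002607) (nat_lit 152) (nat_lit 4881476591)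 (nat_lit 0) (nat_lit 2021869066) (nat_lit 12) (nat_lit 5) (nat_lit 14) (nat_lit 4) (nat_lit 12) (nat_lit 4) (nat_lit 377) (nat_lit 255) (nat_lit 148)) (XT.nd (nat_lit 78) (nat_lit 76) (nat_lit 0) (XT.lf (nat_lit 0) (nat_lit 3911789312) (nat_lit 76) (nat_lit 40161096761) (nat_lit 76) (nat_lit 3095332253) (nat_lit 11) (nat_lit 4) (nat_lit 12) (nat_lit 5) (nat_lit 12) (nat_lit 4) (nat_lit 378) (nat_lit 255) (nat_lit 147)) (XT.lf (nat_lit 0) (nat_lit 849081319) (nat_lit 152) (nat_lit 35388373086) (nat_lit 76) (nat_lit 12190998817) (nat_lit 10) (nat_lit 5) (nat_lit 12) (nat_lit 5) (nat_lit 11) (nat_lit 4) (nat_lit 379) (nat_lit 255) (nat_lit 146))))))))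
noncomputable def xc96 : XT := (XT.nd (nat_lit 32136) (nat_lit 0) (nat_lit 10032) (XT.nd (nat_lit 858) (nat_lit 152) (nat_lit 0) (XT.nd (nat_lit 390) (nat_lit 76) (nat_lit 0) (XT.nd (nat_lit 156) (nat_lit 76) (nat_lit 0) (XT.nd (nat_lit 78) (nat_lit 0) (nat_lit 0) (XT.lf (nat_lit 0) (nat_lit 4838463303) (nat_lit 152) (nat_lit 27334824414) (nat_lit 76) (nat_lit 17552628467) (nat_lit 10) (nat_lit 5) (nat_lit 12) (nat_lit 5) (nat_lit 11) (nat_lit 4) (nat_lit 380) (nat_lit 255) (nat_lit 145)) (XT.lf (nat_lit 0) (nat_lit 8936700646) (nat_lit 152) (nat_lit 19058991691) (nat_lit 76) (nat_lit 23066941209) (nat_lit 10) (nat_lit 5) (nat_lit 12) (nat_lit 5) (nat_lit 11) (nat_lit 4) (nat_lit 381) (nat_lit 255) (nat_lit 144))) (XT.nd (nat_lit 78) (nat_lit 76) (nat_lit 0) (XT.lf (nat_lit 0) (nat_lit 13147374332) (nat_lit 152) (nat_lit 10553643605) (nat_lit 76) (nat_lit 28738755373) (nat_lit 10) (nat_lit 5)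 (nat_lit 12) (nat_lit 5) (nat_lit 11) (nat_lit 4) (nat_lit 382) (nat_lit 255) (nat_lit 143)) (XT.nd (nat_lit 78) (nat_lit 76) (nat_lit 0) (XT.lf (nat_lit 0) (nat_lit 17474163591) (nat_lit 152) (nat_lit 1811348301) (nat_lit 76) (nat_lit 34573026915) (nat_lit 10) (nat_lit 5) (nat_lit 12) (nat_lit 5) (nat_lit 11) (nat_lit 4) (nat_lit 383) (nat_lit 255) (nat_lit 142)) (XT.lf (nat_lit 0) (nat_lit 7318340300) (nat_lit 76) (nat_lit 14672857175) (nat_lit 152) (nat_lit 33326861805) (nat_lit 9) (nat_lit 5) (nat_lit 10) (nat_lit 5) (nat_lit 11) (nat_lit 4) (nat_lit 384) (nat_lit 255) (nat_lit 141))))) (XT.nd (nat_lit 234) (nat_lit 76) (nat_lit 0) (XT.nd (nat_lit 78) (nat_lit 0) (nat_lit 0) (XT.lf (nat_lit 0) (nat_lit 16741541043) (nat_lit 76) (nat_lit 9910705239) (nat_lit 152) (nat_lit 30168869058) (nat_lit 9) (nat_lit 5) (nat_lit 10) (nat_lit 5) (nat_lit 11) (nat_lit 4) (nat_lit 385) (nat_lit 255) (nat_lit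 140)) (XT.nd (nat_lit 78) (nat_lit 0) (nat_lit 0) (XT.lf (nat_lit 0) (nat_lit 26430438409) (nat_lit 76) (nat_lit 5013186046) (nat_lit 152) (nat_lit 26925928629) (nat_lit 9) (nat_lit 5) (nat_lit 10) (nat_lit 5) (nat_lit 11) (nat_lit 4) (nat_lit 386) (nat_lit 255) (nat_lit 139)) (XT.lf (nat_lit 0) (nat_lit 36369749145) (nat_lit 152) (nat_lit 23571457601) (nat_lit 0) (nat_lit 23511857) (nat_lit 9) (nat_lit 5) (nat_lit 11) (nat_lit 4) (nat_lit 9) (nat_lit 4) (nat_lit 387) (nat_lit 255) (nat_lit 138)))) (XT.nd (nat_lit 78) (nat_lit 76) (nat_lit 0) (XT.lf (nat_lit 0) (nat_lit 41484268510) (nat_lit 152) (nat_lit 15018635307) (nat_lit 0) (nat_lit 5103621598) (nat_lit 9) (nat_lit 5) (nat_lit 11) (nat_lit 4) (nat_lit 9) (nat_lit 4) (nat_lit 388) (nat_lit 255) (nat_lit 137)) (XT.nd (nat_lit 78) (nat_lit 76) (nat_lit 0) (XT.lf (nat_lit 0) (nat_lit 46743461738) (nat_lit 152) (nat_lit 6224984644) (nat_lit 0)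 (nat_lit 10329407423) (nat_lit 9) (nat_lit 5) (nat_lit 11) (nat_lit 4) (nat_lit 9) (nat_lit 4) (nat_lit 389) (nat_lit 255) (nat_lit 136)) (XT.lf (nat_lit 0) (nat_lit 2873245529) (nat_lit 76) (nat_lit 49306298103) (nat_lit 76) (nat_lit 12859809418) (nat_lit 8) (nat_lit 4) (nat_lit 9) (nat_lit 5) (nat_lit 9) (nat_lit 4) (nat_lit 390) (nat_lit 255) (nat_lit 135)))))) (XT.nd (nat_lit 468) (nat_lit 76) (nat_lit 0) (XT.nd (nat_lit 234) (nat_lit 76) (nat_lit 0) (XT.nd (nat_lit 78) (nat_lit 0) (nat_lit 0) (XT.lf (nat_lit 0) (nat_lit 12356881288) (nat_lit 76) (nat_lit 45476282469) (nat_lit 76) (nat_lit 8998304103) (nat_lit 8) (nat_lit 4) (nat_lit 9) (nat_lit 5) (nat_lit 9) (nat_lit 4) (nat_lit 391) (nat_lit 255) (nat_lit 134)) (XT.nd (nat_lit 78) (nat_lit 0) (nat_lit 0) (XT.lf (nat_lit 0) (nat_lit 22110319902) (nat_lit 76) (nat_lit 41537913004) (nat_lit 76) (nat_lit 5029362133) (nat_lit 8) (nat_lit 4)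 (nat_lit 9) (nat_lit 5) (nat_lit 9) (nat_lit 4) (nat_lit 392) (nat_lit 255) (nat_lit 133)) (XT.lf (nat_lit 0) (nat_lit 32142083794) (nat_lit 76) (nat_lit 37487748415) (nat_lit 76) (nat_lit 949515500) (nat_lit 8) (nat_lit 4) (nat_lit 9) (nat_lit 5) (nat_lit 9) (nat_lit 4) (nat_lit 393) (nat_lit 255) (nat_lit 132)))) (XT.nd (nat_lit 78) (nat_lit 0) (nat_lit 0) (XT.lf (nat_lit 0) (nat_lit 3181482961) (nat_lit 152) (nat_lit 30108640021) (nat_lit 76) (nat_lit 39247328882) (nat_lit 7) (nat_lit 5) (nat_lit 9) (nat_lit 5) (nat_lit 8) (nat_lit 4) (nat_lit 394) (nat_lit 255) (nat_lit 131)) (XT.nd (nat_lit 78) (nat_lit 0) (nat_lit 0) (XT.lf (nat_lit 0) (nat_lit 7409782240) (nat_lit 152) (nat_lit 21553170658) (nat_lit 76) (nat_lit 45591294232) (nat_lit 7) (nat_lit 5) (nat_lit 9) (nat_lit 5) (nat_lit 8) (nat_lit 4) (nat_lit 395) (nat_lit 255) (nat_lit 130)) (XT.lf (nat_lit 0) (nat_lit 11757605434) (nat_lit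 152) (nat_lit 12754252850) (nat_lit 76) (nat_lit 52119911291) (nat_lit 7) (nat_lit 5) (nat_lit 9) (nat_lit 5) (nat_lit 8) (nat_lit 4) (nat_lit 396) (nat_lit 255) (nat_lit 129))))) (XT.nd (nat_lit 30576) (nat_lit 0) (nat_lit 20748) (XT.nd (nat_lit 78) (nat_lit 76) (nat_lit 0) (XT.lf (nat_lit 0) (nat_lit 16228751611) (nat_lit 152) (nat_lit 3704198221) (nat_lit 76) (nat_lit 58838884677) (nat_lit 7) (nat_lit 5) (nat_lit 9) (nat_lit 5) (nat_lit 8) (nat_lit 4) (nat_lit 397) (nat_lit 255) (nat_lit 128)) (XT.nd (nat_lit 78) (nat_lit 0) (nat_lit 0) (XT.lf (nat_lit 0) (nat_lit 5716449562) (nat_lit 76) (nat_lit 15165628047) (nat_lit 152) (nat_lit 60092585784) (nat_lit 6) (nat_lit 5) (nat_lit 7) (nat_lit 5) (nat_lit 8) (nat_lit 4) (nat_lit 398) (nat_lit 255) (nat_lit 127)) (XT.lf (nat_lit 0) (nat_lit 15483314335) (nat_lit 76) (nat_lit 10222272149) (nat_lit 152) (nat_lit 57537076431) (nat_lit 6) (nat_lit 5)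 (nat_lit 7) (nat_lit 5) (nat_lit 8) (nat_lit 4) (nat_lit 399) (nat_lit 255) (nat_lit 126)))) (XT.nd (nat_lit 78) (nat_lit 380) (nat_lit 0) (XT.lf (nat_lit 0) (nat_lit 2941837668) (nat_lit 228) (nat_lit 157817247) (nat_lit 228) (nat_lit 157817247) (nat_lit 284) (nat_lit 4) (nat_lit 287) (nat_lit 5) (nat_lit 287) (nat_lit 4) (nat_lit 268) (nat_lit 256) (nat_lit 256)) (XT.nd (nat_lit 78) (nat_lit 0) (nat_lit 0) (XT.lf (nat_lit 0) (nat_lit 2587351961) (nat_lit 380) (nat_lit 3716967322) (nat_lit 0) (nat_lit 230115983) (nat_lit 279) (nat_lit 5) (nat_lit 284) (nat_lit 4) (nat_lit 279) (nat_lit 4) (nat_lit 269) (nat_lit 256) (nat_lit 255)) (XT.lf (nat_lit 0) (nat_lit 5477395731) (nat_lit 380) (nat_lit 248560690) (nat_lit 0) (nat_lit 831581132) (nat_lit 279) (nat_lit 5) (nat_lit 284) (nat_lit 4) (nat_lit 279) (nat_lit 4) (nat_lit 270) (nat_lit 256) (nat_lit 254))))))) (XT.nd (nat_lit 936) (nat_lit 6080)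 (nat_lit 0) (XT.nd (nat_lit 468) (nat_lit 2432) (nat_lit 0) (XT.nd (nat_lit 234) (nat_lit 1216) (nat_lit 0) (XT.nd (nat_lit 78) (nat_lit 532) (nat_lit 0) (XT.lf (nat_lit 0) (nat_lit 1766963372) (nat_lit 456) (nat_lit 3280799942) (nat_lit 76) (nat_lit 1535400437) (nat_lit 273) (nat_lit 5) (nat_lit 279) (nat_lit 5) (nat_lit 274) (nat_lit 4) (nat_lit 271) (nat_lit 256) (nat_lit 253)) (XT.nd (nat_lit 78) (nat_lit 76) (nat_lit 0) (XT.lf (nat_lit 0) (nat_lit 280106796) (nat_lit 456) (nat_lit 4303660311) (nat_lit 532) (nat_lit 2028574377) (nat_lit 267) (nat_lit 5) (nat_lit 273) (nat_lit 5) (nat_lit 274) (nat_lit 4) (nat_lit 272) (nat_lit 256) (nat_lit 252)) (XT.lf (nat_lit 0) (nat_lit 761455149) (nat_lit 532) (nat_lit 2706338132) (nat_lit 76) (nat_lit 3176568873) (nat_lit 266) (nat_lit 5) (nat_lit 273) (nat_lit 5) (nat_lit 267) (nat_lit 5) (nat_lit 273) (nat_lit 256) (nat_lit 251)))) (XT.nd (nat_lit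 78) (nat_lit 684) (nat_lit 0) (XT.lf (nat_lit 0) (nat_lit 957415564) (nat_lit 532) (nat_lit 2550823073) (nat_lit 608) (nat_lit 3171346883) (nat_lit 259) (nat_lit 5) (nat_lit 266) (nat_lit 5) (nat_lit 267) (nat_lit 5) (nat_lit 274) (nat_lit 256) (nat_lit 250)) (XT.nd (nat_lit 78) (nat_lit 684) (nat_lit 0) (XT.lf (nat_lit 0) (nat_lit 4717723205) (nat_lit 532) (nat_lit 1553769584) (nat_lit 608) (nat_lit 446602615) (nat_lit 259) (nat_lit 5) (nat_lit 266) (nat_lit 5) (nat_lit 267) (nat_lit 5) (nat_lit 275) (nat_lit 256) (nat_lit 249)) (XT.lf (nat_lit 0) (nat_lit 1776161112) (nat_lit 608) (nat_lit 463065172) (nat_lit 684) (nat_lit 4520329372) (nat_lit 250) (nat_lit 5) (nat_lit 258) (nat_lit 5) (nat_lit 259) (nat_lit 5) (nat_lit 276) (nat_lit 256) (nat_lit 248))))) (XT.nd (nat_lit 234) (nat_lit 1672) (nat_lit 0) (XT.nd (nat_lit 78) (nat_lit 760) (nat_lit 0) (XT.lf (nat_lit 0) (nat_lit 4933940764) (nat_lit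 684) (nat_lit 1176971479) (nat_lit 76) (nat_lit 693326670) (nat_lit 250) (nat_lit 5) (nat_lit 259) (nat_lit 5) (nat_lit 251) (nat_lit 5) (nat_lit 277) (nat_lit 256) (nat_lit 247)) (XT.nd (nat_lit 78) (nat_lit 0) (nat_lit 0) (XT.lf (nat_lit 0) (nat_lit 785596728) (nat_lit 760) (nat_lit 4136943894) (nat_lit 76) (nat_lit 1929397610) (nat_lit 240) (nat_lit 5) (nat_lit 250) (nat_lit 5) (nat_lit 241) (nat_lit 5) (nat_lit 278) (nat_lit 256) (nat_lit 246)) (XT.lf (nat_lit 0) (nat_lit 3409541130) (nat_lit 760) (nat_lit 242012000) (nat_lit 76) (nat_lit 3251391857) (nat_lit 240) (nat_lit 5) (nat_lit 250) (nat_lit 5) (nat_lit 241) (nat_lit 5) (nat_lit 279) (nat_lit 256) (nat_lit 245)))) (XT.nd (nat_lit 78) (nat_lit 912) (nat_lit 0) (XT.lf (nat_lit 0) (nat_lit 3774974465) (nat_lit 760) (nat_lit 2289983792) (nat_lit 836) (nat_lit 892145817) (nat_lit 230) (nat_lit 5) (nat_lit 240) (nat_lit 5) (nat_lit 241) (nat_lit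 5) (nat_lit 280) (nat_lit 256) (nat_lit 244)) (XT.nd (nat_lit 78) (nat_lit 0) (nat_lit 0) (XT.lf (nat_lit 0) (nat_lit 834063518) (nat_lit 836) (nat_lit 845942374) (nat_lit 912) (nat_lit 5334727783) (nat_lit 218) (nat_lit 5) (nat_lit 229) (nat_lit 5) (nat_lit 230) (nat_lit 5) (nat_lit 281) (nat_lit 256) (nat_lit 243)) (XT.lf (nat_lit 0) (nat_lit 4269115768) (nat_lit 912) (nat_lit 2124148805) (nat_lit 76) (nat_lit 682018241) (nat_lit 218) (nat_lit 5) (nat_lit 230) (nat_lit 5) (nat_lit 219) (nat_lit 5) (nat_lit 282) (nat_lit 256) (nat_lit 242)))))) (XT.nd (nat_lit 468) (nat_lit 1824) (nat_lit 0) (XT.nd (nat_lit 234) (nat_lit 2280) (nat_lit 0) (XT.nd (nat_lit 78) (nat_lit 1064) (nat_lit 0) (XT.lf (nat_lit 0) (nat_lit 2015431913) (nat_lit 912) (nat_lit 4869680056) (nat_lit 988) (nat_lit 254241993) (nat_lit 206) (nat_lit 5) (nat_lit 218) (nat_lit 5) (nat_lit 219) (nat_lit 5) (nat_lit 283) (nat_lit 256)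 (nat_lit 241)) (XT.nd (nat_lit 78) (nat_lit 988) (nat_lit 0) (XT.lf (nat_lit 0) (nat_lit 2271727142) (nat_lit 988) (nat_lit 975623228) (nat_lit 76) (nat_lit 3959169191) (nat_lit 205) (nat_lit 5) (nat_lit 218) (nat_lit 5) (nat_lit 206) (nat_lit 5) (nat_lit 284) (nat_lit 256) (nat_lit 240)) (XT.lf (nat_lit 0) (nat_lit 3290241412) (nat_lit 988) (nat_lit 1534173303) (nat_lit 1064) (nat_lit 2452694904) (nat_lit 192) (nat_lit 5) (nat_lit 205) (nat_lit 5) (nat_lit 206) (nat_lit 5) (nat_lit 285) (nat_lit 256) (nat_lit 239)))) (XT.nd (nat_lit 78) (nat_lit 1140) (nat_lit 0) (XT.lf (nat_lit 0) (nat_lit 42052778) (nat_lit 1140) (nat_lit 7064644444) (nat_lit 76) (nat_lit 245040718) (nat_lit 177) (nat_lit 5) (nat_lit 192) (nat_lit 5) (nat_lit 178) (nat_lit 5) (nat_lit 286) (nat_lit 256) (nat_lit 238)) (XT.nd (nat_lit 78) (nat_lit 1140) (nat_lit 0) (XT.lf (nat_lit 0) (nat_lit 2544836708) (nat_lit 1140) (nat_lit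 2767531224) (nat_lit 76) (nat_lit 2116186300) (nat_lit 177) (nat_lit 5) (nat_lit 192) (nat_lit 5) (nat_lit 178) (nat_lit 5) (nat_lit 287) (nat_lit 256) (nat_lit 237)) (XT.lf (nat_lit 0) (nat_lit 1620939061) (nat_lit 1140) (nat_lit 3446125737) (nat_lit 1216) (nat_lit 2442427319) (nat_lit 162) (nat_lit 5) (nat_lit 177) (nat_lit 5) (nat_lit 178) (nat_lit 5) (nat_lit 288) (nat_lit 256) (nat_lit 236))))) (XT.nd (nat_lit 234) (nat_lit 1216) (nat_lit 0) (XT.nd (nat_lit 78) (nat_lit 532) (nat_lit 0) (XT.lf (nat_lit 0) (nat_lit 28281049) (nat_lit 1216) (nat_lit 1465248028) (nat_lit 76) (nat_lit 6100720110) (nat_lit 161) (nat_lit 5) (nat_lit 177) (nat_lit 5) (nat_lit 162) (nat_lit 5) (nat_lit 289) (nat_lit 256) (nat_lit 235)) (XT.nd (nat_lit 78) (nat_lit 0) (nat_lit 0) (XT.lf (nat_lit 0) (nat_lit 2490350281) (nat_lit 608) (nat_lit 4629408494) (nat_lit 76) (nat_lit 562210194) (nat_lit 154) (nat_lit 5) (nat_lit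 162) (nat_lit 5) (nat_lit 155) (nat_lit 5) (nat_lit 290) (nat_lit 256) (nat_lit 234)) (XT.lf (nat_lit 0) (nat_lit 4988781065) (nat_lit 608) (nat_lit 120364619) (nat_lit 76) (nat_lit 2664431104) (nat_lit 154) (nat_lit 5) (nat_lit 162) (nat_lit 5) (nat_lit 155) (nat_lit 5) (nat_lit 291) (nat_lit 256) (nat_lit 233)))) (XT.nd (nat_lit 78) (nat_lit 608) (nat_lit 0) (XT.lf (nat_lit 0) (nat_lit 4545173738) (nat_lit 608) (nat_lit 2995409626) (nat_lit 684) (nat_lit 328124521) (nat_lit 146) (nat_lit 5) (nat_lit 154) (nat_lit 5) (nat_lit 155) (nat_lit 5) (nat_lit 292) (nat_lit 256) (nat_lit 232)) (XT.nd (nat_lit 78) (nat_lit 0) (nat_lit 0) (XT.lf (nat_lit 0) (nat_lit 1322905037) (nat_lit 532) (nat_lit 785543340) (nat_lit 608) (nat_lit 5859254474) (nat_lit 138) (nat_lit 5) (nat_lit 145) (nat_lit 5) (nat_lit 146) (nat_lit 5) (nat_lit 293) (nat_lit 256) (nat_lit 231)) (XT.lf (nat_lit 0) (nat_lit 4596175505)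 (nat_lit 608) (nat_lit 1979236715) (nat_lit 76) (nat_lit 1494735195) (nat_lit 138) (nat_lit 5) (nat_lit 146) (nat_lit 5) (nat_lit 139) (nat_lit 5) (nat_lit 294) (nat_lit 256) (nat_lit 230))))))))
noncomputable def xc97 : XT := (XT.nd (nat_lit 1794) (nat_lit 2660) (nat_lit 0) (XT.nd (nat_lit 858) (nat_lit 2128) (nat_lit 0) (XT.nd (nat_lit 390) (nat_lit 1672) (nat_lit 0) (XT.nd (nat_lit 156) (nat_lit 988) (nat_lit 0) (XT.nd (nat_lit 78) (nat_lit 76) (nat_lit 0) (XT.lf (nat_lit 0) (nat_lit 2805756513) (nat_lit 532) (nat_lit 4325807609) (nat_lit 608) (nat_lit 1045023677) (nat_lit 131) (nat_lit 5) (nat_lit 138) (nat_lit 5) (nat_lit 139) (nat_lit 5) (nat_lit 295) (nat_lit 256) (nat_lit 229)) (XT.lf (nat_lit 0) (nat_lit 1387278897) (nat_lit 608) (nat_lit 593123225) (nat_lit 76) (nat_lit 6306738631) (nat_lit 130) (nat_lit 5) (nat_lit 138) (nat_lit 5) (nat_lit 131) (nat_lit 5) (nat_lit 296) (nat_lit 256)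 (nat_lit 228))) (XT.nd (nat_lit 78) (nat_lit 532) (nat_lit 0) (XT.lf (nat_lit 0) (nat_lit 3858376023) (nat_lit 532) (nat_lit 4069979701) (nat_lit 76) (nat_lit 472843039) (nat_lit 124) (nat_lit 5) (nat_lit 131) (nat_lit 5) (nat_lit 125) (nat_lit 5) (nat_lit 297) (nat_lit 256) (nat_lit 227)) (XT.nd (nat_lit 78) (nat_lit 76) (nat_lit 0) (XT.lf (nat_lit 0) (nat_lit 826082931) (nat_lit 456) (nat_lit 5552667911) (nat_lit 532) (nat_lit 2140774058) (nat_lit 118) (nat_lit 5) (nat_lit 124) (nat_lit 5) (nat_lit 125) (nat_lit 5) (nat_lit 298) (nat_lit 256) (nat_lit 226)) (XT.lf (nat_lit 0) (nat_lit 310282177) (nat_lit 532) (nat_lit 2759232227) (nat_lit 76) (nat_lit 5572381716) (nat_lit 117) (nat_lit 5) (nat_lit 124) (nat_lit 5) (nat_lit 118) (nat_lit 5) (nat_lit 299) (nat_lit 256) (nat_lit 225))))) (XT.nd (nat_lit 234) (nat_lit 836) (nat_lit 0) (XT.nd (nat_lit 78) (nat_lit 456) (nat_lit 0) (XT.lf (nat_lit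 0) (nat_lit 2280373054) (nat_lit 380) (nat_lit 477025816) (nat_lit 456) (nat_lit 6011029228) (nat_lit 112) (nat_lit 5) (nat_lit 117) (nat_lit 5) (nat_lit 118) (nat_lit 5) (nat_lit 300) (nat_lit 256) (nat_lit 224)) (XT.nd (nat_lit 78) (nat_lit 456) (nat_lit 0) (XT.lf (nat_lit 0) (nat_lit 5271704958) (nat_lit 456) (nat_lit 1458492045) (nat_lit 76) (nat_lit 2168835253) (nat_lit 112) (nat_lit 5) (nat_lit 118) (nat_lit 5) (nat_lit 113) (nat_lit 5) (nat_lit 301) (nat_lit 256) (nat_lit 223)) (XT.lf (nat_lit 0) (nat_lit 3724930029) (nat_lit 456) (nat_lit 4123208899) (nat_lit 532) (nat_lit 1185901540) (nat_lit 106) (nat_lit 5) (nat_lit 112) (nat_lit 5) (nat_lit 113) (nat_lit 5) (nat_lit 302) (nat_lit 256) (nat_lit 222)))) (XT.nd (nat_lit 78) (nat_lit 760) (nat_lit 0) (XT.lf (nat_lit 0) (nat_lit 1264224036) (nat_lit 532) (nat_lit 157324234) (nat_lit 76) (nat_lit 7752407788) (nat_lit 105) (nat_lit 5) (nat_lit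 112) (nat_lit 5) (nat_lit 106) (nat_lit 5) (nat_lit 303) (nat_lit 256) (nat_lit 221)) (XT.nd (nat_lit 78) (nat_lit 380) (nat_lit 0) (XT.lf (nat_lit 0) (nat_lit 3775411096) (nat_lit 456) (nat_lit 4156785855) (nat_lit 76) (nat_lit 1385257637) (nat_lit 100) (nat_lit 5) (nat_lit 106) (nat_lit 5) (nat_lit 101) (nat_lit 5) (nat_lit 304) (nat_lit 256) (nat_lit 220)) (XT.lf (nat_lit 0) (nat_lit 1119508638) (nat_lit 380) (nat_lit 5217728273) (nat_lit 456) (nat_lit 3128839271) (nat_lit 95) (nat_lit 5) (nat_lit 100) (nat_lit 5) (nat_lit 101) (nat_lit 5) (nat_lit 305) (nat_lit 256) (nat_lit 219)))))) (XT.nd (nat_lit 468) (nat_lit 988) (nat_lit 0) (XT.nd (nat_lit 234) (nat_lit 760) (nat_lit 0) (XT.nd (nat_lit 78) (nat_lit 380) (nat_lit 0) (XT.lf (nat_lit 0) (nat_lit 6575471380) (nat_lit 380) (nat_lit 2392159978) (nat_lit 456) (nat_lit 651848603) (nat_lit 95) (nat_lit 5) (nat_lit 100) (nat_lit 5) (nat_lit 101)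 (nat_lit 5) (nat_lit 306) (nat_lit 256) (nat_lit 218)) (XT.nd (nat_lit 78) (nat_lit 0) (nat_lit 0) (XT.lf (nat_lit 0) (nat_lit 1841197034) (nat_lit 380) (nat_lit 7400217348) (nat_lit 76) (nat_lit 536230048) (nat_lit 90) (nat_lit 5) (nat_lit 95) (nat_lit 5) (nat_lit 91) (nat_lit 5) (nat_lit 307) (nat_lit 256) (nat_lit 217)) (XT.lf (nat_lit 0) (nat_lit 4402012059) (nat_lit 380) (nat_lit 2009966646) (nat_lit 76) (nat_lit 3528267715) (nat_lit 90) (nat_lit 5) (nat_lit 95) (nat_lit 5) (nat_lit 91) (nat_lit 5) (nat_lit 308) (nat_lit 256) (nat_lit 216)))) (XT.nd (nat_lit 78) (nat_lit 380) (nat_lit 0) (XT.lf (nat_lit 0) (nat_lit 3549312677) (nat_lit 380) (nat_lit 3477225874) (nat_lit 456) (nat_lit 3081647902) (nat_lit 85) (nat_lit 5) (nat_lit 90) (nat_lit 5) (nat_lit 91) (nat_lit 5) (nat_lit 309) (nat_lit 256) (nat_lit 215)) (XT.nd (nat_lit 78) (nat_lit 380) (nat_lit 0) (XT.lf (nat_lit 0) (nat_lit 9255241196)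 (nat_lit 380) (nat_lit 448411325) (nat_lit 456) (nat_lit 578361270) (nat_lit 85) (nat_lit 5) (nat_lit 90) (nat_lit 5) (nat_lit 91) (nat_lit 5) (nat_lit 310) (nat_lit 256) (nat_lit 214)) (XT.lf (nat_lit 0) (nat_lit 1986581781) (nat_lit 380) (nat_lit 5803794819) (nat_lit 76) (nat_lit 2669395964) (nat_lit 80) (nat_lit 5) (nat_lit 85) (nat_lit 5) (nat_lit 81) (nat_lit 5) (nat_lit 311) (nat_lit 256) (nat_lit 213))))) (XT.nd (nat_lit 234) (nat_lit 380) (nat_lit 0) (XT.nd (nat_lit 78) (nat_lit 608) (nat_lit 0) (XT.lf (nat_lit 0) (nat_lit 4586766411) (nat_lit 380) (nat_lit 183743451) (nat_lit 76) (nat_lit 5873144082) (nat_lit 80) (nat_lit 5) (nat_lit 85) (nat_lit 5) (nat_lit 81) (nat_lit 5) (nat_lit 312) (nat_lit 256) (nat_lit 212)) (XT.nd (nat_lit 78) (nat_lit 304) (nat_lit 0) (XT.lf (nat_lit 0) (nat_lit 5655877841) (nat_lit 304) (nat_lit 1619763984) (nat_lit 380) (nat_lit 3557146827) (nat_lit 76) (nat_lit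 5) (nat_lit 80) (nat_lit 5) (nat_lit 81) (nat_lit 5) (nat_lit 313) (nat_lit 256) (nat_lit 211)) (XT.lf (nat_lit 0) (nat_lit 582629479) (nat_lit 304) (nat_lit 9442525928) (nat_lit 380) (nat_lit 1003098610) (nat_lit 72) (nat_lit 5) (nat_lit 76) (nat_lit 5) (nat_lit 77) (nat_lit 5) (nat_lit 314) (nat_lit 256) (nat_lit 210)))) (XT.nd (nat_lit 78) (nat_lit 304) (nat_lit 0) (XT.lf (nat_lit 0) (nat_lit 1621726590) (nat_lit 380) (nat_lit 4699464503) (nat_lit 76) (nat_lit 4907198003) (nat_lit 71) (nat_lit 5) (nat_lit 76) (nat_lit 5) (nat_lit 72) (nat_lit 5) (nat_lit 315) (nat_lit 256) (nat_lit 209)) (XT.nd (nat_lit 78) (nat_lit 0) (nat_lit 0) (XT.lf (nat_lit 0) (nat_lit 1173477565) (nat_lit 304) (nat_lit 3101271666) (nat_lit 380) (nat_lit 7160443666) (nat_lit 67) (nat_lit 5) (nat_lit 71) (nat_lit 5) (nat_lit 72) (nat_lit 5) (nat_lit 316) (nat_lit 256) (nat_lit 208)) (XT.lf (nat_lit 0) (nat_lit 7016183457)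 (nat_lit 380) (nat_lit 4389486005) (nat_lit 76) (nat_lit 242316275) (nat_lit 67) (nat_lit 5) (nat_lit 72) (nat_lit 5) (nat_lit 68) (nat_lit 5) (nat_lit 317) (nat_lit 256) (nat_lit 207))))))) (XT.nd (nat_lit 936) (nat_lit 988) (nat_lit 0) (XT.nd (nat_lit 468) (nat_lit 836) (nat_lit 0) (XT.nd (nat_lit 234) (nat_lit 228) (nat_lit 0) (XT.nd (nat_lit 78) (nat_lit 380) (nat_lit 0) (XT.lf (nat_lit 0) (nat_lit 1602076298) (nat_lit 228) (nat_lit 8243916038) (nat_lit 304) (nat_lit 2021034187) (nat_lit 64) (nat_lit 5) (nat_lit 67) (nat_lit 5) (nat_lit 68) (nat_lit 5) (nat_lit 318) (nat_lit 256) (nat_lit 206)) (XT.nd (nat_lit 78) (nat_lit 304) (nat_lit 0) (XT.lf (nat_lit 0) (nat_lit 659993216) (nat_lit 304) (nat_lit 4292468930) (nat_lit 76) (nat_lit 7139879906) (nat_lit 63) (nat_lit 5) (nat_lit 67) (nat_lit 5) (nat_lit 64) (nat_lit 5) (nat_lit 319) (nat_lit 256) (nat_lit 205)) (XT.lf (nat_lit 0) (nat_lit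 1818679980) (nat_lit 304) (nat_lit 1541000319) (nat_lit 380) (nat_lit 8964814979) (nat_lit 59) (nat_lit 5) (nat_lit 63) (nat_lit 5) (nat_lit 64) (nat_lit 5) (nat_lit 320) (nat_lit 256) (nat_lit 204)))) (XT.nd (nat_lit 78) (nat_lit 228) (nat_lit 0) (XT.lf (nat_lit 0) (nat_lit 6164888973) (nat_lit 380) (nat_lit 4437004379) (nat_lit 76) (nat_lit 1961026562) (nat_lit 59) (nat_lit 5) (nat_lit 64) (nat_lit 5) (nat_lit 60) (nat_lit 5) (nat_lit 321) (nat_lit 256) (nat_lit 203)) (XT.nd (nat_lit 78) (nat_lit 0) (nat_lit 0) (XT.lf (nat_lit 0) (nat_lit 1778509407) (nat_lit 228) (nat_lit 7271003374) (nat_lit 304) (nat_lit 3759168242) (nat_lit 56) (nat_lit 5) (nat_lit 59) (nat_lit 5) (nat_lit 60) (nat_lit 5) (nat_lit 322) (nat_lit 256) (nat_lit 202)) (XT.lf (nat_lit 0) (nat_lit 8217171035) (nat_lit 228) (nat_lit 3811773370) (nat_lit 304) (nat_lit 1032662777) (nat_lit 56) (nat_lit 5) (nat_lit 59) (nat_lit 5)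 (nat_lit 60) (nat_lit 5) (nat_lit 323) (nat_lit 256) (nat_lit 201))))) (XT.nd (nat_lit 234) (nat_lit 304) (nat_lit 0) (XT.nd (nat_lit 78) (nat_lit 228) (nat_lit 0) (XT.lf (nat_lit 0) (nat_lit 1485344520) (nat_lit 228) (nat_lit 234060932) (nat_lit 304) (nat_lit 11602889096) (nat_lit 52) (nat_lit 5) (nat_lit 55) (nat_lit 5) (nat_lit 56) (nat_lit 5) (nat_lit 324) (nat_lit 256) (nat_lit 200)) (XT.nd (nat_lit 78) (nat_lit 228) (nat_lit 0) (XT.lf (nat_lit 0) (nat_lit 4580362197) (nat_lit 304) (nat_lit 5582738186) (nat_lit 76) (nat_lit 3426019832) (nat_lit 52) (nat_lit 5) (nat_lit 56) (nat_lit 5) (nat_lit 53) (nat_lit 5) (nat_lit 325) (nat_lit 256) (nat_lit 199)) (XT.lf (nat_lit 0) (nat_lit 820515794) (nat_lit 228) (nat_lit 6682375760) (nat_lit 304) (nat_lit 6361822579) (nat_lit 49) (nat_lit 5) (nat_lit 52) (nat_lit 5) (nat_lit 53) (nat_lit 5) (nat_lit 326) (nat_lit 256) (nat_lit 198)))) (XT.nd (nat_lit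 78) (nat_lit 304) (nat_lit 0) (XT.lf (nat_lit 0) (nat_lit 7478542585) (nat_lit 228) (nat_lit 3056974206) (nat_lit 304) (nat_lit 3612421233) (nat_lit 49) (nat_lit 5) (nat_lit 52) (nat_lit 5) (nat_lit 53) (nat_lit 5) (nat_lit 327) (nat_lit 256) (nat_lit 197)) (XT.nd (nat_lit 78) (nat_lit 304) (nat_lit 0) (XT.lf (nat_lit 0) (nat_lit 13632498382) (nat_lit 304) (nat_lit 160972241) (nat_lit 76) (nat_lit 647020421) (nat_lit 49) (nat_lit 5) (nat_lit 53) (nat_lit 5) (nat_lit 50) (nat_lit 5) (nat_lit 328) (nat_lit 256) (nat_lit 196)) (XT.lf (nat_lit 0) (nat_lit 2102006789) (nat_lit 304) (nat_lit 8169183771) (nat_lit 76) (nat_lit 4468200789) (nat_lit 45) (nat_lit 5) (nat_lit 49) (nat_lit 5) (nat_lit 46) (nat_lit 5) (nat_lit 329) (nat_lit 256) (nat_lit 195)))))) (XT.nd (nat_lit 468) (nat_lit 380) (nat_lit 0) (XT.nd (nat_lit 234) (nat_lit 456) (nat_lit 0) (XT.nd (nat_lit 78) (nat_lit 152) (nat_lit 0) (XT.lf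 (nat_lit 0) (nat_lit 5052660497) (nat_lit 304) (nat_lit 1598410982) (nat_lit 76) (nat_lit 8396890242) (nat_lit 45) (nat_lit 5) (nat_lit 49) (nat_lit 5) (nat_lit 46) (nat_lit 5) (nat_lit 330) (nat_lit 256) (nat_lit 194)) (XT.nd (nat_lit 78) (nat_lit 0) (nat_lit 0) (XT.lf (nat_lit 0) (nat_lit 5223048558) (nat_lit 152) (nat_lit 2887878343) (nat_lit 228) (nat_lit 7254319490) (nat_lit 43) (nat_lit 5) (nat_lit 45) (nat_lit 5) (nat_lit 46) (nat_lit 5) (nat_lit 331) (nat_lit 256) (nat_lit 193)) (XT.lf (nat_lit 0) (nat_lit 11255907633) (nat_lit 228) (nat_lit 3467973234) (nat_lit 76) (nat_lit 968348850) (nat_lit 43) (nat_lit 5) (nat_lit 46) (nat_lit 5) (nat_lit 44) (nat_lit 5) (nat_lit 332) (nat_lit 256) (nat_lit 192)))) (XT.nd (nat_lit 78) (nat_lit 228) (nat_lit 0) (XT.lf (nat_lit 0) (nat_lit 3396922403) (nat_lit 228) (nat_lit 11129626024) (nat_lit 304) (nat_lit 1501563056) (nat_lit 40) (nat_lit 5) (nat_lit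 43) (nat_lit 5) (nat_lit 44) (nat_lit 5) (nat_lit 333) (nat_lit 256) (nat_lit 191)) (XT.nd (nat_lit 78) (nat_lit 152) (nat_lit 0) (XT.lf (nat_lit 0) (nat_lit 1497087907) (nat_lit 304) (nat_lit 5896540125) (nat_lit 76) (nat_lit 8979863594) (nat_lit 39) (nat_lit 5) (nat_lit 43) (nat_lit 5) (nat_lit 40) (nat_lit 5) (nat_lit 334) (nat_lit 256) (nat_lit 190)) (XT.lf (nat_lit 0) (nat_lit 998745041) (nat_lit 152) (nat_lit 3537410433) (nat_lit 228) (nat_lit 12193238440) (nat_lit 37) (nat_lit 5) (nat_lit 39) (nat_lit 5) (nat_lit 40) (nat_lit 5) (nat_lit 335) (nat_lit 256) (nat_lit 189))))) (XT.nd (nat_lit 234) (nat_lit 228) (nat_lit 0) (XT.nd (nat_lit 78) (nat_lit 152) (nat_lit 0) (XT.lf (nat_lit 0) (nat_lit 7701983122) (nat_lit 228) (nat_lit 8923483528) (nat_lit 76) (nat_lit 469464088) (nat_lit 37) (nat_lit 5) (nat_lit 40) (nat_lit 5) (nat_lit 38) (nat_lit 5) (nat_lit 336) (nat_lit 256) (nat_lit 188))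 (XT.nd (nat_lit 78) (nat_lit 152) (nat_lit 0) (XT.lf (nat_lit 0) (nat_lit 10969924416) (nat_lit 228) (nat_lit 1992071221) (nat_lit 76) (nat_lit 4509248242) (nat_lit 37) (nat_lit 5) (nat_lit 40) (nat_lit 5) (nat_lit 38) (nat_lit 5) (nat_lit 337) (nat_lit 256) (nat_lit 187)) (XT.lf (nat_lit 0) (nat_lit 5205220983) (nat_lit 152) (nat_lit 9153645871) (nat_lit 228) (nat_lit 3499314339) (nat_lit 35) (nat_lit 5) (nat_lit 37) (nat_lit 5) (nat_lit 38) (nat_lit 5) (nat_lit 338) (nat_lit 256) (nat_lit 186)))) (XT.nd (nat_lit 78) (nat_lit 228) (nat_lit 0) (XT.lf (nat_lit 0) (nat_lit 12616060176) (nat_lit 152) (nat_lit 5226833735) (nat_lit 228) (nat_lit 414053202) (nat_lit 35) (nat_lit 5) (nat_lit 37) (nat_lit 5) (nat_lit 38) (nat_lit 5) (nat_lit 339) (nat_lit 256) (nat_lit 185)) (XT.nd (nat_lit 78) (nat_lit 0) (nat_lit 0) (XT.lf (nat_lit 0) (nat_lit 1542591113) (nat_lit 152) (nat_lit 1155871427) (nat_lit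 228) (nat_lit 15968779286) (nat_lit 32) (nat_lit 5) (nat_lit 34) (nat_lit 5) (nat_lit 35) (nat_lit 5) (nat_lit 340) (nat_lit 256) (nat_lit 184)) (XT.lf (nat_lit 0) (nat_lit 5956755275) (nat_lit 228) (nat_lit 10107505065) (nat_lit 76) (nat_lit 3023661371) (nat_lit 32) (nat_lit 5) (nat_lit 35) (nat_lit 5) (nat_lit 33) (nat_lit 5) (nat_lit 341) (nat_lit 256) (nat_lit 183))))))))
noncomputable def xc98 : XT := (XT.nd (nat_lit 1794) (nat_lit 608) (nat_lit 0) (XT.nd (nat_lit 858) (nat_lit 532) (nat_lit 0) (XT.nd (nat_lit 390) (nat_lit 228) (nat_lit 0) (XT.nd (nat_lit 156) (nat_lit 228) (nat_lit 0) (XT.nd (nat_lit 78) (nat_lit 152) (nat_lit 0) (XT.lf (nat_lit 0) (nat_lit 9299000374) (nat_lit 228) (nat_lit 2932760748) (nat_lit 76) (nat_lit 7289895180) (nat_lit 32) (nat_lit 5) (nat_lit 35) (nat_lit 5) (nat_lit 33) (nat_lit 5) (nat_lit 342) (nat_lit 256) (nat_lit 182)) (XT.lf (nat_lit 0) (nat_lit 4504868587)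 (nat_lit 152) (nat_lit 8255442266) (nat_lit 228) (nat_lit 7207547957) (nat_lit 30) (nat_lit 5) (nat_lit 32) (nat_lit 5) (nat_lit 33) (nat_lit 5) (nat_lit 343) (nat_lit 256) (nat_lit 181))) (XT.nd (nat_lit 78) (nat_lit 228) (nat_lit 0) (XT.lf (nat_lit 0) (nat_lit 12185876742) (nat_lit 152) (nat_lit 4145024025) (nat_lit 228) (nat_lit 4096402667) (nat_lit 30) (nat_lit 5) (nat_lit 32) (nat_lit 5) (nat_lit 33) (nat_lit 5) (nat_lit 344) (nat_lit 256) (nat_lit 180)) (XT.nd (nat_lit 78) (nat_lit 228) (nat_lit 0) (XT.lf (nat_lit 0) (nat_lit 19985843729) (nat_lit 228) (nat_lit 843352858) (nat_lit 76) (nat_lit 72036429) (nat_lit 30) (nat_lit 5) (nat_lit 33) (nat_lit 5) (nat_lit 31) (nat_lit 4) (nat_lit 345) (nat_lit 256) (nat_lit 179)) (XT.lf (nat_lit 0) (nat_lit 2399565433) (nat_lit 228) (nat_lit 14579633923) (nat_lit 76) (nat_lit 4406980356) (nat_lit 27) (nat_lit 5) (nat_lit 30) (nat_lit 5) (nat_lit 28)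 (nat_lit 5) (nat_lit 346) (nat_lit 256) (nat_lit 178))))) (XT.nd (nat_lit 234) (nat_lit 76) (nat_lit 0) (XT.nd (nat_lit 78) (nat_lit 152) (nat_lit 0) (XT.lf (nat_lit 0) (nat_lit 5781304987) (nat_lit 228) (nat_lit 7229575560) (nat_lit 76) (nat_lit 8874967421) (nat_lit 27) (nat_lit 5) (nat_lit 30) (nat_lit 5) (nat_lit 28) (nat_lit 5) (nat_lit 347) (nat_lit 256) (nat_lit 177)) (XT.nd (nat_lit 78) (nat_lit 0) (nat_lit 0) (XT.lf (nat_lit 0) (nat_lit 309907731) (nat_lit 152) (nat_lit 8935368097) (nat_lit 228) (nat_lit 13155823671) (nat_lit 25) (nat_lit 5) (nat_lit 27) (nat_lit 5) (nat_lit 28) (nat_lit 5) (nat_lit 348) (nat_lit 256) (nat_lit 176)) (XT.lf (nat_lit 0) (nat_lit 8187014459) (nat_lit 152) (nat_lit 4677249188) (nat_lit 228) (nat_lit 10066028109) (nat_lit 25) (nat_lit 5) (nat_lit 27) (nat_lit 5) (nat_lit 28) (nat_lit 5) (nat_lit 349) (nat_lit 256) (nat_lit 175)))) (XT.nd (nat_lit 78) (nat_lit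 76) (nat_lit 0) (XT.lf (nat_lit 0) (nat_lit 16264744802) (nat_lit 152) (nat_lit 305807672) (nat_lit 228) (nat_lit 6905461011) (nat_lit 25) (nat_lit 5) (nat_lit 27) (nat_lit 5) (nat_lit 28) (nat_lit 5) (nat_lit 350) (nat_lit 256) (nat_lit 174)) (XT.nd (nat_lit 78) (nat_lit 0) (nat_lit 0) (XT.lf (nat_lit 0) (nat_lit 480585999) (nat_lit 76) (nat_lit 19931621905) (nat_lit 152) (nat_lit 3625188815) (nat_lit 24) (nat_lit 5) (nat_lit 25) (nat_lit 5) (nat_lit 26) (nat_lit 4) (nat_lit 351) (nat_lit 256) (nat_lit 173)) (XT.lf (nat_lit 0) (nat_lit 8513126651) (nat_lit 76) (nat_lit 15911291178) (nat_lit 152) (nat_lit 189559225) (nat_lit 24) (nat_lit 5) (nat_lit 25) (nat_lit 5) (nat_lit 26) (nat_lit 4) (nat_lit 352) (nat_lit 256) (nat_lit 172)))))) (XT.nd (nat_lit 468) (nat_lit 228) (nat_lit 0) (XT.nd (nat_lit 234) (nat_lit 76) (nat_lit 0) (XT.nd (nat_lit 78) (nat_lit 152) (nat_lit 0) (XT.lf (nat_lit 0) (nat_lit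 3263658766) (nat_lit 152) (nat_lit 8487611515) (nat_lit 76) (nat_lit 13456236400) (nat_lit 23) (nat_lit 5) (nat_lit 25) (nat_lit 5) (nat_lit 24) (nat_lit 5) (nat_lit 353) (nat_lit 256) (nat_lit 171)) (XT.nd (nat_lit 78) (nat_lit 152) (nat_lit 0) (XT.lf (nat_lit 0) (nat_lit 6797122845) (nat_lit 152) (nat_lit 681062247) (nat_lit 76) (nat_lit 18341200513) (nat_lit 23) (nat_lit 5) (nat_lit 25) (nat_lit 5) (nat_lit 24) (nat_lit 5) (nat_lit 354) (nat_lit 256) (nat_lit 170)) (XT.lf (nat_lit 0) (nat_lit 7473271254) (nat_lit 152) (nat_lit 3016185887) (nat_lit 228) (nat_lit 15958590870) (nat_lit 21) (nat_lit 5) (nat_lit 23) (nat_lit 5) (nat_lit 24) (nat_lit 5) (nat_lit 355) (nat_lit 256) (nat_lit 169)))) (XT.nd (nat_lit 78) (nat_lit 76) (nat_lit 0) (XT.lf (nat_lit 0) (nat_lit 14295839151) (nat_lit 228) (nat_lit 11256795153) (nat_lit 76) (nat_lit 1542850376) (nat_lit 21) (nat_lit 5) (nat_lit 24) (nat_lit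 5) (nat_lit 22) (nat_lit 4) (nat_lit 356) (nat_lit 256) (nat_lit 168)) (XT.nd (nat_lit 78) (nat_lit 76) (nat_lit 0) (XT.lf (nat_lit 0) (nat_lit 18227972364) (nat_lit 228) (nat_lit 3368568566) (nat_lit 76) (nat_lit 6165469079) (nat_lit 21) (nat_lit 5) (nat_lit 24) (nat_lit 5) (nat_lit 22) (nat_lit 4) (nat_lit 357) (nat_lit 256) (nat_lit 167)) (XT.lf (nat_lit 0) (nat_lit 4819841520) (nat_lit 76) (nat_lit 17486788944) (nat_lit 152) (nat_lit 6141055797) (nat_lit 20) (nat_lit 5) (nat_lit 21) (nat_lit 5) (nat_lit 22) (nat_lit 4) (nat_lit 358) (nat_lit 256) (nat_lit 166))))) (XT.nd (nat_lit 234) (nat_lit 0) (nat_lit 0) (XT.nd (nat_lit 78) (nat_lit 228) (nat_lit 0) (XT.lf (nat_lit 0) (nat_lit 13292739672) (nat_lit 76) (nat_lit 13231381326) (nat_lit 152) (nat_lit 2629329267) (nat_lit 20) (nat_lit 5) (nat_lit 21) (nat_lit 5) (nat_lit 22) (nat_lit 4) (nat_lit 359) (nat_lit 256) (nat_lit 165)) (XT.nd (nat_lit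 78) (nat_lit 152) (nat_lit 0) (XT.lf (nat_lit 0) (nat_lit 951262515) (nat_lit 152) (nat_lit 7899747292) (nat_lit 76) (nat_lit 21029619868) (nat_lit 19) (nat_lit 5) (nat_lit 21) (nat_lit 5) (nat_lit 20) (nat_lit 5) (nat_lit 360) (nat_lit 256) (nat_lit 164)) (XT.lf (nat_lit 0) (nat_lit 250066375) (nat_lit 152) (nat_lit 4322051874) (nat_lit 228) (nat_lit 26057165092) (nat_lit 17) (nat_lit 5) (nat_lit 19) (nat_lit 5) (nat_lit 20) (nat_lit 5) (nat_lit 361) (nat_lit 256) (nat_lit 163)))) (XT.nd (nat_lit 78) (nat_lit 0) (nat_lit 0) (XT.lf (nat_lit 0) (nat_lit 8368842287) (nat_lit 228) (nat_lit 22624708895) (nat_lit 76) (nat_lit 404838500) (nat_lit 17) (nat_lit 5) (nat_lit 20) (nat_lit 5) (nat_lit 18) (nat_lit 4) (nat_lit 362) (nat_lit 256) (nat_lit 162)) (XT.nd (nat_lit 78) (nat_lit 0) (nat_lit 0) (XT.lf (nat_lit 0) (nat_lit 12306130437) (nat_lit 228) (nat_lit 14708447669) (nat_lit 76) (nat_lit 5175201277)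 (nat_lit 17) (nat_lit 5) (nat_lit 20) (nat_lit 5) (nat_lit 18) (nat_lit 4) (nat_lit 363) (nat_lit 256) (nat_lit 161)) (XT.lf (nat_lit 0) (nat_lit 16345876842) (nat_lit 228) (nat_lit 6581969963) (nat_lit 76) (nat_lit 10077543533) (nat_lit 17) (nat_lit 5) (nat_lit 20) (nat_lit 5) (nat_lit 18) (nat_lit 4) (nat_lit 364) (nat_lit 256) (nat_lit 160))))))) (XT.nd (nat_lit 936) (nat_lit 228) (nat_lit 0) (XT.nd (nat_lit 468) (nat_lit 76) (nat_lit 0) (XT.nd (nat_lit 234) (nat_lit 228) (nat_lit 0) (XT.nd (nat_lit 78) (nat_lit 0) (nat_lit 0) (XT.lf (nat_lit 0) (nat_lit 1796888802) (nat_lit 76) (nat_lit 18711995369) (nat_lit 152) (nat_lit 13336532862) (nat_lit 16) (nat_lit 5) (nat_lit 17) (nat_lit 5) (nat_lit 18) (nat_lit 4) (nat_lit 365) (nat_lit 256) (nat_lit 159)) (XT.nd (nat_lit 78) (nat_lit 0) (nat_lit 0) (XT.lf (nat_lit 0) (nat_lit 10535819796) (nat_lit 76) (nat_lit 14312413475) (nat_lit 152) (nat_lit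 9860876899) (nat_lit 16) (nat_lit 5) (nat_lit 17) (nat_lit 5) (nat_lit 18) (nat_lit 4) (nat_lit 366) (nat_lit 256) (nat_lit 158)) (XT.lf (nat_lit 0) (nat_lit 19511464871) (nat_lit 76) (nat_lit 9791721822) (nat_lit 152) (nat_lit 6295973618) (nat_lit 16) (nat_lit 5) (nat_lit 17) (nat_lit 5) (nat_lit 18) (nat_lit 4) (nat_lit 367) (nat_lit 256) (nat_lit 157)))) (XT.nd (nat_lit 78) (nat_lit 228) (nat_lit 0) (XT.lf (nat_lit 0) (nat_lit 28731666822) (nat_lit 76) (nat_lit 5145970289) (nat_lit 152) (nat_lit 2638708055) (nat_lit 16) (nat_lit 5) (nat_lit 17) (nat_lit 5) (nat_lit 18) (nat_lit 4) (nat_lit 368) (nat_lit 256) (nat_lit 156)) (XT.nd (nat_lit 78) (nat_lit 0) (nat_lit 0) (XT.lf (nat_lit 0) (nat_lit 746880749) (nat_lit 152) (nat_lit 352673777) (nat_lit 228) (nat_lit 36361374963) (nat_lit 13) (nat_lit 5) (nat_lit 15) (nat_lit 5) (nat_lit 16) (nat_lit 5) (nat_lit 369) (nat_lit 256) (nat_lit 155)) (XT.lf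 (nat_lit 0) (nat_lit 5006576448) (nat_lit 228) (nat_lit 28832859672) (nat_lit 76) (nat_lit 4590349968) (nat_lit 13) (nat_lit 5) (nat_lit 16) (nat_lit 5) (nat_lit 14) (nat_lit 4) (nat_lit 370) (nat_lit 256) (nat_lit 154))))) (XT.nd (nat_lit 234) (nat_lit 76) (nat_lit 0) (XT.nd (nat_lit 78) (nat_lit 0) (nat_lit 0) (XT.lf (nat_lit 0) (nat_lit 9020893382) (nat_lit 228) (nat_lit 20742376378) (nat_lit 76) (nat_lit 9664743793) (nat_lit 13) (nat_lit 5) (nat_lit 16) (nat_lit 5) (nat_lit 14) (nat_lit 4) (nat_lit 371) (nat_lit 256) (nat_lit 153)) (XT.nd (nat_lit 78) (nat_lit 0) (nat_lit 0) (XT.lf (nat_lit 0) (nat_lit 13142622868) (nat_lit 228) (nat_lit 12432139388) (nat_lit 76) (nat_lit 14881823567) (nat_lit 13) (nat_lit 5) (nat_lit 16) (nat_lit 5) (nat_lit 14) (nat_lit 4) (nat_lit 372) (nat_lit 256) (nat_lit 152)) (XT.lf (nat_lit 0) (nat_lit 17375366417) (nat_lit 228) (nat_lit 3894887329) (nat_lit 76) (nat_lit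 20246147904) (nat_lit 13) (nat_lit 5) (nat_lit 16) (nat_lit 5) (nat_lit 14) (nat_lit 4) (nat_lit 373) (nat_lit 256) (nat_lit 151)))) (XT.nd (nat_lit 78) (nat_lit 0) (nat_lit 0) (XT.lf (nat_lit 0) (nat_lit 4973898201) (nat_lit 76) (nat_lit 16796736493) (nat_lit 152) (nat_lit 20836318029) (nat_lit 12) (nat_lit 5) (nat_lit 13) (nat_lit 5) (nat_lit 14) (nat_lit 4) (nat_lit 374) (nat_lit 256) (nat_lit 150)) (XT.nd (nat_lit 78) (nat_lit 0) (nat_lit 0) (XT.lf (nat_lit 0) (nat_lit 14167158095) (nat_lit 76) (nat_lit 12157815288) (nat_lit 152) (nat_lit 17404437413) (nat_lit 12) (nat_lit 5) (nat_lit 13) (nat_lit 5) (nat_lit 14) (nat_lit 4) (nat_lit 375) (nat_lit 256) (nat_lit 149)) (XT.lf (nat_lit 0) (nat_lit 23615409403) (nat_lit 76) (nat_lit 7388767429) (nat_lit 152) (nat_lit 13881725381) (nat_lit 12) (nat_lit 5) (nat_lit 13) (nat_lit 5) (nat_lit 14) (nat_lit 4) (nat_lit 376) (nat_lit 256) (nat_lit 148))))))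 (XT.nd (nat_lit 468) (nat_lit 76) (nat_lit 0) (XT.nd (nat_lit 234) (nat_lit 76) (nat_lit 0) (XT.nd (nat_lit 78) (nat_lit 76) (nat_lit 0) (XT.lf (nat_lit 0) (nat_lit 33326907878) (nat_lit 76) (nat_lit 2485425787) (nat_lit 152) (nat_lit 10265103835) (nat_lit 12) (nat_lit 5) (nat_lit 13) (nat_lit 5) (nat_lit 14) (nat_lit 4) (nat_lit 377) (nat_lit 256) (nat_lit 147)) (XT.nd (nat_lit 78) (nat_lit 76) (nat_lit 0) (XT.lf (nat_lit 0) (nat_lit 40778219770) (nat_lit 152) (nat_lit 4019493095) (nat_lit 0) (nat_lit 2506607702) (nat_lit 12) (nat_lit 5) (nat_lit 14) (nat_lit 4) (nat_lit 12) (nat_lit 4) (nat_lit 378) (nat_lit 256) (nat_lit 146)) (XT.lf (nat_lit 0) (nat_lit 5027684238) (nat_lit 76) (nat_lit 40927489031) (nat_lit 76) (nat_lit 2610980208) (nat_lit 11) (nat_lit 4) (nat_lit 12) (nat_lit 5) (nat_lit 12) (nat_lit 4) (nat_lit 379) (nat_lit 256) (nat_lit 145)))) (XT.nd (nat_lit 78) (nat_lit 0) (nat_lit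 0) (XT.lf (nat_lit 0) (nat_lit 1424018348) (nat_lit 152) (nat_lit 35469340656) (nat_lit 76) (nat_lit 12971173197) (nat_lit 10) (nat_lit 5) (nat_lit 12) (nat_lit 5) (nat_lit 11) (nat_lit 4) (nat_lit 380) (nat_lit 256) (nat_lit 144)) (XT.nd (nat_lit 78) (nat_lit 0) (nat_lit 0) (XT.lf (nat_lit 0) (nat_lit 5517077969) (nat_lit 152) (nat_lit 27202749125) (nat_lit 76) (nat_lit 18481580541) (nat_lit 10) (nat_lit 5) (nat_lit 12) (nat_lit 5) (nat_lit 11) (nat_lit 4) (nat_lit 381) (nat_lit 256) (nat_lit 143)) (XT.lf (nat_lit 0) (nat_lit 9722724739) (nat_lit 152) (nat_lit 18706373071) (nat_lit 76) (nat_lit 24149603056) (nat_lit 10) (nat_lit 5) (nat_lit 12) (nat_lit 5) (nat_lit 11) (nat_lit 4) (nat_lit 382) (nat_lit 256) (nat_lit 142))))) (XT.nd (nat_lit 234) (nat_lit 0) (nat_lit 0) (XT.nd (nat_lit 78) (nat_lit 76) (nat_lit 0) (XT.lf (nat_lit 0) (nat_lit 14044633498) (nat_lit 152) (nat_lit 9972788476) (nat_lit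 76) (nat_lit 29980193386) (nat_lit 10) (nat_lit 5) (nat_lit 12) (nat_lit 5) (nat_lit 11) (nat_lit 4) (nat_lit 383) (nat_lit 256) (nat_lit 141)) (XT.nd (nat_lit 78) (nat_lit 76) (nat_lit 0) (XT.lf (nat_lit 0) (nat_lit 18486580669) (nat_lit 152) (nat_lit 994364053) (nat_lit 76) (nat_lit 35978446219) (nat_lit 10) (nat_lit 5) (nat_lit 12) (nat_lit 5) (nat_lit 11) (nat_lit 4) (nat_lit 384) (nat_lit 256) (nat_lit 140)) (XT.lf (nat_lit 0) (nat_lit 8400672806) (nat_lit 76) (nat_lit 14732527166) (nat_lit 152) (nat_lit 33829682348) (nat_lit 9) (nat_lit 5) (nat_lit 10) (nat_lit 5) (nat_lit 11) (nat_lit 4) (nat_lit 385) (nat_lit 256) (nat_lit 139)))) (XT.nd (nat_lit 78) (nat_lit 0) (nat_lit 0) (XT.lf (nat_lit 0) (nat_lit 18081439990) (nat_lit 76) (nat_lit 9838593654) (nat_lit 152) (nat_lit 30591425118) (nat_lit 9) (nat_lit 5) (nat_lit 10) (nat_lit 5) (nat_lit 11) (nat_lit 4) (nat_lit 386) (nat_lit 256) (nat_lit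 138)) (XT.nd (nat_lit 78) (nat_lit 0) (nat_lit 0) (XT.lf (nat_lit 0) (nat_lit 28036606626) (nat_lit 76) (nat_lit 4804909062) (nat_lit 152) (nat_lit 27265250166) (nat_lit 9) (nat_lit 5) (nat_lit 10) (nat_lit 5) (nat_lit 11) (nat_lit 4) (nat_lit 387) (nat_lit 256) (nat_lit 137)) (XT.lf (nat_lit 0) (nat_lit 37905531210) (nat_lit 152) (nat_lit 23478910934) (nat_lit 0) (nat_lit 365647865) (nat_lit 9) (nat_lit 5) (nat_lit 11) (nat_lit 4) (nat_lit 9) (nat_lit 4) (nat_lit 388) (nat_lit 256) (nat_lit 136))))))))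
noncomputable def xc99 : XT := (XT.nd (nat_lit 32058) (nat_lit 0) (nat_lit 7600) (XT.nd (nat_lit 31122) (nat_lit 0) (nat_lit 17784) (XT.nd (nat_lit 468) (nat_lit 152) (nat_lit 0) (XT.nd (nat_lit 234) (nat_lit 0) (nat_lit 0) (XT.nd (nat_lit 78) (nat_lit 76) (nat_lit 0) (XT.lf (nat_lit 0) (nat_lit 43160534032) (nat_lit 152) (nat_lit 14692795925) (nat_lit 0) (nat_lit 5588216316) (nat_lit 9) (nat_lit 5) (nat_lit 11) (nat_lit 4) (nat_lit 9) (nat_lit 4) (nat_lit 389) (nat_lit 256) (nat_lit 135)) (XT.nd (nat_lit 78) (nat_lit 76) (nat_lit 0) (XT.lf (nat_lit 0) (nat_lit 48564928179) (nat_lit 152) (nat_lit 5657949288) (nat_lit 0) (nat_lit 10961120782) (nat_lit 9) (nat_lit 5) (nat_lit 11) (nat_lit 4) (nat_lit 9) (nat_lit 4) (nat_lit 390) (nat_lit 256) (nat_lit 134)) (XT.lf (nat_lit 0) (nat_lit 3705837742) (nat_lit 76) (nat_lit 50453220973) (nat_lit 76) (nat_lit 12818841070) (nat_lit 8) (nat_lit 4) (nat_lit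 9) (nat_lit 5) (nat_lit 9) (nat_lit 4) (nat_lit 391) (nat_lit 256) (nat_lit 133)))) (XT.nd (nat_lit 78) (nat_lit 0) (nat_lit 0) (XT.lf (nat_lit 0) (nat_lit 13452242918) (nat_lit 76) (nat_lit 46517982523) (nat_lit 76) (nat_lit 8853920576) (nat_lit 8) (nat_lit 4) (nat_lit 9) (nat_lit 5) (nat_lit 9) (nat_lit 4) (nat_lit 392) (nat_lit 256) (nat_lit 132)) (XT.nd (nat_lit 78) (nat_lit 0) (nat_lit 0) (XT.lf (nat_lit 0) (nat_lit 23477178229) (nat_lit 76) (nat_lit 42470857753) (nat_lit 76) (nat_lit 4777978288) (nat_lit 8) (nat_lit 4) (nat_lit 9) (nat_lit 5) (nat_lit 9) (nat_lit 4) (nat_lit 393) (nat_lit 256) (nat_lit 131)) (XT.lf (nat_lit 0) (nat_lit 33789403327) (nat_lit 76) (nat_lit 38308310342) (nat_lit 76) (nat_lit 587452704) (nat_lit 8) (nat_lit 4) (nat_lit 9) (nat_lit 5) (nat_lit 9) (nat_lit 4) (nat_lit 394) (nat_lit 256) (nat_lit 130))))) (XT.nd (nat_lit 234) (nat_lit 76) (nat_lit 0) (XT.nd (nat_lit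 78) (nat_lit 0) (nat_lit 0) (XT.lf (nat_lit 0) (nat_lit 3648701487) (nat_lit 152) (nat_lit 30341156894) (nat_lit 76) (nat_lit 40712382677) (nat_lit 7) (nat_lit 5) (nat_lit 9) (nat_lit 5) (nat_lit 8) (nat_lit 4) (nat_lit 395) (nat_lit 256) (nat_lit 129)) (XT.nd (nat_lit 78) (nat_lit 0) (nat_lit 0) (XT.lf (nat_lit 0) (nat_lit 7993021374) (nat_lit 152) (nat_lit 21548559634) (nat_lit 76) (nat_lit 47238289300) (nat_lit 7) (nat_lit 5) (nat_lit 9) (nat_lit 5) (nat_lit 8) (nat_lit 4) (nat_lit 396) (nat_lit 256) (nat_lit 128)) (XT.lf (nat_lit 0) (nat_lit 12460766283) (nat_lit 152) (nat_lit 12504641461) (nat_lit 76) (nat_lit 53954631194) (nat_lit 7) (nat_lit 5) (nat_lit 9) (nat_lit 5) (nat_lit 8) (nat_lit 4) (nat_lit 397) (nat_lit 256) (nat_lit 127)))) (XT.nd (nat_lit 78) (nat_lit 76) (nat_lit 0) (XT.lf (nat_lit 0) (nat_lit 17055840068) (nat_lit 152) (nat_lit 3201499921) (nat_lit 76) (nat_lit 60867277008)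 (nat_lit 7) (nat_lit 5) (nat_lit 9) (nat_lit 5) (nat_lit 8) (nat_lit 4) (nat_lit 398) (nat_lit 256) (nat_lit 126)) (XT.nd (nat_lit 30264) (nat_lit 0) (nat_lit 21356) (XT.lf (nat_lit 0) (nat_lit 6495749411) (nat_lit 76) (nat_lit 15348949549) (nat_lit 152) (nat_lit 61548958622) (nat_lit 6) (nat_lit 5) (nat_lit 7) (nat_lit 5) (nat_lit 8) (nat_lit 4) (nat_lit 399) (nat_lit 256) (nat_lit 125)) (XT.lf (nat_lit 0) (nat_lit 1410016543) (nat_lit 228) (nat_lit 421278792) (nat_lit 0) (nat_lit 1410016543) (nat_lit 287) (nat_lit 5) (nat_lit 290) (nat_lit 4) (nat_lit 287) (nat_lit 4) (nat_lit 266) (nat_lit 257) (nat_lit 257)))))) (XT.nd (nat_lit 468) (nat_lit 1976) (nat_lit 0) (XT.nd (nat_lit 234) (nat_lit 988) (nat_lit 0) (XT.nd (nat_lit 78) (nat_lit 380) (nat_lit 0) (XT.lf (nat_lit 0) (nat_lit 2478594519) (nat_lit 228) (nat_lit 3260000465) (nat_lit 228) (nat_lit 759208815) (nat_lit 284) (nat_lit 4) (nat_lit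 287) (nat_lit 5) (nat_lit 287) (nat_lit 4) (nat_lit 267) (nat_lit 257) (nat_lit 256)) (XT.nd (nat_lit 78) (nat_lit 304) (nat_lit 0) (XT.lf (nat_lit 0) (nat_lit 2090274297) (nat_lit 304) (nat_lit 685487884) (nat_lit 76) (nat_lit 3740276420) (nat_lit 283) (nat_lit 5) (nat_lit 287) (nat_lit 5) (nat_lit 284) (nat_lit 4) (nat_lit 268) (nat_lit 257) (nat_lit 255)) (XT.lf (nat_lit 0) (nat_lit 2728511054) (nat_lit 304) (nat_lit 2204736108) (nat_lit 380) (nat_lit 1603959561) (nat_lit 279) (nat_lit 5) (nat_lit 283) (nat_lit 5) (nat_lit 284) (nat_lit 4) (nat_lit 269) (nat_lit 257) (nat_lit 254)))) (XT.nd (nat_lit 78) (nat_lit 912) (nat_lit 0) (XT.lf (nat_lit 0) (nat_lit 1182195090) (nat_lit 380) (nat_lit 379547404) (nat_lit 76) (nat_lit 5000030357) (nat_lit 278) (nat_lit 5) (nat_lit 283) (nat_lit 5) (nat_lit 279) (nat_lit 5) (nat_lit 270) (nat_lit 257) (nat_lit 253)) (XT.nd (nat_lit 78) (nat_lit 532) (nat_lit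 0) (XT.lf (nat_lit 0) (nat_lit 3132539105) (nat_lit 380) (nat_lit 818358093) (nat_lit 456) (nat_lit 2638049757) (nat_lit 273) (nat_lit 5) (nat_lit 278) (nat_lit 5) (nat_lit 279) (nat_lit 5) (nat_lit 271) (nat_lit 257) (nat_lit 252)) (XT.lf (nat_lit 0) (nat_lit 73805620) (nat_lit 456) (nat_lit 14997074) (nat_lit 532) (nat_lit 6531146113) (nat_lit 266) (nat_lit 5) (nat_lit 272) (nat_lit 5) (nat_lit 273) (nat_lit 5) (nat_lit 272) (nat_lit 257) (nat_lit 251))))) (XT.nd (nat_lit 234) (nat_lit 1368) (nat_lit 0) (XT.nd (nat_lit 78) (nat_lit 608) (nat_lit 0) (XT.lf (nat_lit 0) (nat_lit 2792119105) (nat_lit 532) (nat_lit 2973847435) (nat_lit 76) (nat_lit 886959565) (nat_lit 266) (nat_lit 5) (nat_lit 273) (nat_lit 5) (nat_lit 267) (nat_lit 5) (nat_lit 273) (nat_lit 257) (nat_lit 250)) (XT.nd (nat_lit 78) (nat_lit 76) (nat_lit 0) (XT.lf (nat_lit 0) (nat_lit 650672968) (nat_lit 532) (nat_lit 4839665334) (nat_lit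 608) (nat_lit 1199392152) (nat_lit 259) (nat_lit 5) (nat_lit 266) (nat_lit 5) (nat_lit 267) (nat_lit 5) (nat_lit 274) (nat_lit 257) (nat_lit 249)) (XT.lf (nat_lit 0) (nat_lit 1450423747) (nat_lit 608) (nat_lit 2365859800) (nat_lit 76) (nat_lit 2912988745) (nat_lit 258) (nat_lit 5) (nat_lit 266) (nat_lit 5) (nat_lit 259) (nat_lit 5) (nat_lit 275) (nat_lit 257) (nat_lit 248)))) (XT.nd (nat_lit 78) (nat_lit 760) (nat_lit 0) (XT.lf (nat_lit 0) (nat_lit 1365416402) (nat_lit 608) (nat_lit 2714325270) (nat_lit 684) (nat_lit 2692409494) (nat_lit 250) (nat_lit 5) (nat_lit 258) (nat_lit 5) (nat_lit 259) (nat_lit 5) (nat_lit 276) (nat_lit 257) (nat_lit 247)) (XT.nd (nat_lit 78) (nat_lit 760) (nat_lit 0) (XT.lf (nat_lit 0) (nat_lit 5190898010) (nat_lit 608) (nat_lit 1533876502) (nat_lit 684) (nat_lit 93660581) (nat_lit 250) (nat_lit 5) (nat_lit 258) (nat_lit 5) (nat_lit 259) (nat_lit 5) (nat_lit 277) (nat_lit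 257) (nat_lit 246)) (XT.lf (nat_lit 0) (nat_lit 2217257806) (nat_lit 684) (nat_lit 251132602) (nat_lit 760) (nat_lit 4399110812) (nat_lit 240) (nat_lit 5) (nat_lit 249) (nat_lit 5) (nat_lit 250) (nat_lit 5) (nat_lit 278) (nat_lit 257) (nat_lit 245))))))) (XT.nd (nat_lit 936) (nat_lit 3648) (nat_lit 0) (XT.nd (nat_lit 468) (nat_lit 3876) (nat_lit 0) (XT.nd (nat_lit 234) (nat_lit 988) (nat_lit 0) (XT.nd (nat_lit 78) (nat_lit 1672) (nat_lit 0) (XT.lf (nat_lit 0) (nat_lit 5048771524) (nat_lit 760) (nat_lit 786620009) (nat_lit 76) (nat_lit 1084524208) (nat_lit 240) (nat_lit 5) (nat_lit 250) (nat_lit 5) (nat_lit 241) (nat_lit 5) (nat_lit 279) (nat_lit 257) (nat_lit 244)) (XT.nd (nat_lit 78) (nat_lit 836) (nat_lit 0) (XT.lf (nat_lit 0) (nat_lit 669708054) (nat_lit 836) (nat_lit 3795971083) (nat_lit 76) (nat_lit 2509664978) (nat_lit 229) (nat_lit 5) (nat_lit 240) (nat_lit 5) (nat_lit 230) (nat_lit 5)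 (nat_lit 280) (nat_lit 257) (nat_lit 243)) (XT.lf (nat_lit 0) (nat_lit 165296799) (nat_lit 836) (nat_lit 3013146308) (nat_lit 912) (nat_lit 3855745875) (nat_lit 218) (nat_lit 5) (nat_lit 229) (nat_lit 5) (nat_lit 230) (nat_lit 5) (nat_lit 281) (nat_lit 257) (nat_lit 242)))) (XT.nd (nat_lit 78) (nat_lit 988) (nat_lit 0) (XT.lf (nat_lit 0) (nat_lit 4256281455) (nat_lit 836) (nat_lit 1465841822) (nat_lit 912) (nat_lit 1374067354) (nat_lit 218) (nat_lit 5) (nat_lit 229) (nat_lit 5) (nat_lit 230) (nat_lit 5) (nat_lit 282) (nat_lit 257) (nat_lit 241)) (XT.nd (nat_lit 78) (nat_lit 0) (nat_lit 0) (XT.lf (nat_lit 0) (nat_lit 1095348468) (nat_lit 988) (nat_lit 5906999889) (nat_lit 76) (nat_lit 159443979) (nat_lit 205) (nat_lit 5) (nat_lit 218) (nat_lit 5) (nat_lit 206) (nat_lit 5) (nat_lit 283) (nat_lit 257) (nat_lit 240)) (XT.lf (nat_lit 0) (nat_lit 3579125670) (nat_lit 988) (nat_lit 1794923498) (nat_lit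 76) (nat_lit 1856034386) (nat_lit 205) (nat_lit 5) (nat_lit 218) (nat_lit 5) (nat_lit 206) (nat_lit 5) (nat_lit 284) (nat_lit 257) (nat_lit 239))))) (XT.nd (nat_lit 234) (nat_lit 1748) (nat_lit 0) (XT.nd (nat_lit 78) (nat_lit 1140) (nat_lit 0) (XT.lf (nat_lit 0) (nat_lit 2421188122) (nat_lit 988) (nat_lit 3666124884) (nat_lit 1064) (nat_lit 1214775241) (nat_lit 192) (nat_lit 5) (nat_lit 205) (nat_lit 5) (nat_lit 206) (nat_lit 5) (nat_lit 285) (nat_lit 257) (nat_lit 238)) (XT.nd (nat_lit 78) (nat_lit 1064) (nat_lit 0) (XT.lf (nat_lit 0) (nat_lit 1214798245) (nat_lit 1064) (nat_lit 655275472) (nat_lit 76) (nat_lit 5507591453) (nat_lit 191) (nat_lit 5) (nat_lit 205) (nat_lit 5) (nat_lit 192) (nat_lit 5) (nat_lit 286) (nat_lit 257) (nat_lit 237)) (XT.lf (nat_lit 0) (nat_lit 3658033861) (nat_lit 1140) (nat_lit 3765103632) (nat_lit 76) (nat_lit 33203287) (nat_lit 177) (nat_lit 5) (nat_lit 192) (nat_lit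 5) (nat_lit 178) (nat_lit 5) (nat_lit 287) (nat_lit 257) (nat_lit 236)))) (XT.nd (nat_lit 78) (nat_lit 608) (nat_lit 0) (XT.lf (nat_lit 0) (nat_lit 569765031) (nat_lit 1140) (nat_lit 5566330115) (nat_lit 1216) (nat_lit 1402579271) (nat_lit 162) (nat_lit 5) (nat_lit 177) (nat_lit 5) (nat_lit 178) (nat_lit 5) (nat_lit 288) (nat_lit 257) (nat_lit 235)) (XT.nd (nat_lit 78) (nat_lit 532) (nat_lit 0) (XT.lf (nat_lit 0) (nat_lit 1014054895) (nat_lit 1216) (nat_lit 2589104072) (nat_lit 76) (nat_lit 4021052826) (nat_lit 161) (nat_lit 5) (nat_lit 177) (nat_lit 5) (nat_lit 162) (nat_lit 5) (nat_lit 289) (nat_lit 257) (nat_lit 234)) (XT.lf (nat_lit 0) (nat_lit 1878839126) (nat_lit 532) (nat_lit 1547636986) (nat_lit 608) (nat_lit 4287009646) (nat_lit 154) (nat_lit 5) (nat_lit 161) (nat_lit 5) (nat_lit 162) (nat_lit 5) (nat_lit 290) (nat_lit 257) (nat_lit 233)))))) (XT.nd (nat_lit 468) (nat_lit 1824) (nat_lit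 0) (XT.nd (nat_lit 234) (nat_lit 1140) (nat_lit 0) (XT.nd (nat_lit 78) (nat_lit 684) (nat_lit 0) (XT.lf (nat_lit 0) (nat_lit 5877876173) (nat_lit 608) (nat_lit 1343962153) (nat_lit 76) (nat_lit 584729032) (nat_lit 154) (nat_lit 5) (nat_lit 162) (nat_lit 5) (nat_lit 155) (nat_lit 5) (nat_lit 291) (nat_lit 257) (nat_lit 232)) (XT.nd (nat_lit 78) (nat_lit 0) (nat_lit 0) (XT.lf (nat_lit 0) (nat_lit 473656622) (nat_lit 684) (nat_lit 4643395236) (nat_lit 76) (nat_lit 2785874206) (nat_lit 145) (nat_lit 5) (nat_lit 154) (nat_lit 5) (nat_lit 146) (nat_lit 5) (nat_lit 292) (nat_lit 257) (nat_lit 231)) (XT.lf (nat_lit 0) (nat_lit 2860133577) (nat_lit 684) (nat_lit 58550670) (nat_lit 76) (nat_lit 5084510474) (nat_lit 145) (nat_lit 5) (nat_lit 154) (nat_lit 5) (nat_lit 146) (nat_lit 5) (nat_lit 293) (nat_lit 257) (nat_lit 230)))) (XT.nd (nat_lit 78) (nat_lit 608) (nat_lit 0) (XT.lf (nat_lit 0) (nat_lit 4691077631)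 (nat_lit 532) (nat_lit 611169982) (nat_lit 608) (nat_lit 2804815913) (nat_lit 138) (nat_lit 5) (nat_lit 145) (nat_lit 5) (nat_lit 146) (nat_lit 5) (nat_lit 294) (nat_lit 257) (nat_lit 229)) (XT.nd (nat_lit 78) (nat_lit 76) (nat_lit 0) (XT.lf (nat_lit 0) (nat_lit 1313476190) (nat_lit 532) (nat_lit 6474422654) (nat_lit 608) (nat_lit 427151408) (nat_lit 131) (nat_lit 5) (nat_lit 138) (nat_lit 5) (nat_lit 139) (nat_lit 5) (nat_lit 295) (nat_lit 257) (nat_lit 228)) (XT.lf (nat_lit 0) (nat_lit 1963790545) (nat_lit 608) (nat_lit 2162409464) (nat_lit 76) (nat_lit 4200155238) (nat_lit 130) (nat_lit 5) (nat_lit 138) (nat_lit 5) (nat_lit 131) (nat_lit 5) (nat_lit 296) (nat_lit 257) (nat_lit 227))))) (XT.nd (nat_lit 234) (nat_lit 836) (nat_lit 0) (XT.nd (nat_lit 78) (nat_lit 532) (nat_lit 0) (XT.lf (nat_lit 0) (nat_lit 2703191290) (nat_lit 456) (nat_lit 1682914965) (nat_lit 532) (nat_lit 4055820064) (nat_lit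 124) (nat_lit 5) (nat_lit 130) (nat_lit 5) (nat_lit 131) (nat_lit 5) (nat_lit 297) (nat_lit 257) (nat_lit 226)) (XT.nd (nat_lit 78) (nat_lit 532) (nat_lit 0) (XT.lf (nat_lit 0) (nat_lit 6854407311) (nat_lit 532) (nat_lit 874812139) (nat_lit 76) (nat_lit 832643393) (nat_lit 124) (nat_lit 5) (nat_lit 131) (nat_lit 5) (nat_lit 125) (nat_lit 5) (nat_lit 298) (nat_lit 257) (nat_lit 225)) (XT.lf (nat_lit 0) (nat_lit 698718009) (nat_lit 532) (nat_lit 4556692862) (nat_lit 76) (nat_lit 3429836455) (nat_lit 117) (nat_lit 5) (nat_lit 124) (nat_lit 5) (nat_lit 118) (nat_lit 5) (nat_lit 299) (nat_lit 257) (nat_lit 224)))) (XT.nd (nat_lit 78) (nat_lit 456) (nat_lit 0) (XT.lf (nat_lit 0) (nat_lit 414978416) (nat_lit 380) (nat_lit 2685968097) (nat_lit 456) (nat_lit 5712223524) (nat_lit 112) (nat_lit 5) (nat_lit 117) (nat_lit 5) (nat_lit 118) (nat_lit 5) (nat_lit 300) (nat_lit 257) (nat_lit 223)) (XT.nd (nat_lit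 78) (nat_lit 456) (nat_lit 0) (XT.lf (nat_lit 0) (nat_lit 5565822272) (nat_lit 380) (nat_lit 1695367) (nat_lit 456) (nat_lit 3377731408) (nat_lit 112) (nat_lit 5) (nat_lit 117) (nat_lit 5) (nat_lit 118) (nat_lit 5) (nat_lit 301) (nat_lit 257) (nat_lit 222)) (XT.lf (nat_lit 0) (nat_lit 1734079870) (nat_lit 456) (nat_lit 6364972976) (nat_lit 532) (nat_lit 982592932) (nat_lit 106) (nat_lit 5) (nat_lit 112) (nat_lit 5) (nat_lit 113) (nat_lit 5) (nat_lit 302) (nat_lit 257) (nat_lit 221))))))))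
noncomputable def xc100 : XT := (XT.nd (nat_lit 1794) (nat_lit 2052) (nat_lit 0) (XT.nd (nat_lit 858) (nat_lit 1824) (nat_lit 0) (XT.nd (nat_lit 390) (nat_lit 1368) (nat_lit 0) (XT.nd (nat_lit 156) (nat_lit 456) (nat_lit 0) (XT.nd (nat_lit 78) (nat_lit 380) (nat_lit 0) (XT.lf (nat_lit 0) (nat_lit 1437984196) (nat_lit 532) (nat_lit 2229060648) (nat_lit 76) (nat_lit 5555264499) (nat_lit 105) (nat_lit 5) (nat_lit 112) (nat_lit 5) (nat_lit 106) (nat_lit 5) (nat_lit 303) (nat_lit 257) (nat_lit 220)) (XT.lf (nat_lit 0) (nat_lit 3030669594) (nat_lit 380) (nat_lit 859475304) (nat_lit 456) (nat_lit 5477471798) (nat_lit 100) (nat_lit 5) (nat_lit 105) (nat_lit 5) (nat_lit 106) (nat_lit 5) (nat_lit 304) (nat_lit 257) (nat_lit 219))) (XT.nd (nat_lit 78) (nat_lit 456) (nat_lit 0) (XT.lf (nat_lit 0) (nat_lit 6408490390) (nat_lit 456) (nat_lit 1105066529) (nat_lit 76) (nat_lit 2004022702) (nat_lit 100) (nat_lit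 5) (nat_lit 106) (nat_lit 5) (nat_lit 101) (nat_lit 5) (nat_lit 305) (nat_lit 257) (nat_lit 218)) (XT.nd (nat_lit 78) (nat_lit 76) (nat_lit 0) (XT.lf (nat_lit 0) (nat_lit 4298375399) (nat_lit 380) (nat_lit 4705637224) (nat_lit 456) (nat_lit 668052790) (nat_lit 95) (nat_lit 5) (nat_lit 100) (nat_lit 5) (nat_lit 101) (nat_lit 5) (nat_lit 306) (nat_lit 257) (nat_lit 217)) (XT.lf (nat_lit 0) (nat_lit 1773543278) (nat_lit 456) (nat_lit 23323745) (nat_lit 76) (nat_lit 8034954293) (nat_lit 94) (nat_lit 5) (nat_lit 100) (nat_lit 5) (nat_lit 95) (nat_lit 5) (nat_lit 307) (nat_lit 257) (nat_lit 216))))) (XT.nd (nat_lit 234) (nat_lit 684) (nat_lit 0) (XT.nd (nat_lit 78) (nat_lit 380) (nat_lit 0) (XT.lf (nat_lit 0) (nat_lit 4293588215) (nat_lit 380) (nat_lit 4478602271) (nat_lit 76) (nat_lit 1223488728) (nat_lit 90) (nat_lit 5) (nat_lit 95) (nat_lit 5) (nat_lit 91) (nat_lit 5) (nat_lit 308) (nat_lit 257)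 (nat_lit 215)) (XT.nd (nat_lit 78) (nat_lit 0) (nat_lit 0) (XT.lf (nat_lit 0) (nat_lit 1001333786) (nat_lit 380) (nat_lit 5869699281) (nat_lit 456) (nat_lit 3294030479) (nat_lit 85) (nat_lit 5) (nat_lit 90) (nat_lit 5) (nat_lit 91) (nat_lit 5) (nat_lit 309) (nat_lit 257) (nat_lit 214)) (XT.lf (nat_lit 0) (nat_lit 6677929706) (nat_lit 380) (nat_lit 2848004389) (nat_lit 456) (nat_lit 813654100) (nat_lit 85) (nat_lit 5) (nat_lit 90) (nat_lit 5) (nat_lit 91) (nat_lit 5) (nat_lit 310) (nat_lit 257) (nat_lit 213)))) (XT.nd (nat_lit 78) (nat_lit 304) (nat_lit 0) (XT.lf (nat_lit 0) (nat_lit 1684561993) (nat_lit 380) (nat_lit 8554023563) (nat_lit 76) (nat_lit 280997962) (nat_lit 80) (nat_lit 5) (nat_lit 85) (nat_lit 5) (nat_lit 81) (nat_lit 5) (nat_lit 311) (nat_lit 257) (nat_lit 212)) (XT.nd (nat_lit 78) (nat_lit 304) (nat_lit 0) (XT.lf (nat_lit 0) (nat_lit 4263228144) (nat_lit 380) (nat_lit 2963232375)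 (nat_lit 76) (nat_lit 3477678232) (nat_lit 80) (nat_lit 5) (nat_lit 85) (nat_lit 5) (nat_lit 81) (nat_lit 5) (nat_lit 312) (nat_lit 257) (nat_lit 211)) (XT.lf (nat_lit 0) (nat_lit 2792098323) (nat_lit 304) (nat_lit 4111585107) (nat_lit 380) (nat_lit 3991070107) (nat_lit 76) (nat_lit 5) (nat_lit 80) (nat_lit 5) (nat_lit 81) (nat_lit 5) (nat_lit 313) (nat_lit 257) (nat_lit 210)))))) (XT.nd (nat_lit 468) (nat_lit 912) (nat_lit 0) (XT.nd (nat_lit 234) (nat_lit 532) (nat_lit 0) (XT.nd (nat_lit 78) (nat_lit 380) (nat_lit 0) (XT.lf (nat_lit 0) (nat_lit 8723729554) (nat_lit 304) (nat_lit 887821793) (nat_lit 380) (nat_lit 1479943597) (nat_lit 76) (nat_lit 5) (nat_lit 80) (nat_lit 5) (nat_lit 81) (nat_lit 5) (nat_lit 314) (nat_lit 257) (nat_lit 209)) (XT.nd (nat_lit 78) (nat_lit 0) (nat_lit 0) (XT.lf (nat_lit 0) (nat_lit 1101683831) (nat_lit 380) (nat_lit 7776424183) (nat_lit 76) (nat_lit 2415259746) (nat_lit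 71) (nat_lit 5) (nat_lit 76) (nat_lit 5) (nat_lit 72) (nat_lit 5) (nat_lit 315) (nat_lit 257) (nat_lit 208)) (XT.lf (nat_lit 0) (nat_lit 3723498884) (nat_lit 380) (nat_lit 1954392688) (nat_lit 76) (nat_lit 5823240627) (nat_lit 71) (nat_lit 5) (nat_lit 76) (nat_lit 5) (nat_lit 72) (nat_lit 5) (nat_lit 316) (nat_lit 257) (nat_lit 207)))) (XT.nd (nat_lit 78) (nat_lit 228) (nat_lit 0) (XT.lf (nat_lit 0) (nat_lit 4066442978) (nat_lit 304) (nat_lit 2357340148) (nat_lit 380) (nat_lit 5291400111) (nat_lit 67) (nat_lit 5) (nat_lit 71) (nat_lit 5) (nat_lit 72) (nat_lit 5) (nat_lit 317) (nat_lit 257) (nat_lit 206)) (XT.nd (nat_lit 78) (nat_lit 228) (nat_lit 0) (XT.lf (nat_lit 0) (nat_lit 9196413507) (nat_lit 380) (nat_lit 1693227800) (nat_lit 76) (nat_lit 1046321079) (nat_lit 67) (nat_lit 5) (nat_lit 72) (nat_lit 5) (nat_lit 68) (nat_lit 5) (nat_lit 318) (nat_lit 257) (nat_lit 205)) (XT.lf (nat_lit 0) (nat_lit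 4450356443) (nat_lit 228) (nat_lit 7630306416) (nat_lit 304) (nat_lit 81894197) (nat_lit 64) (nat_lit 5) (nat_lit 67) (nat_lit 5) (nat_lit 68) (nat_lit 5) (nat_lit 319) (nat_lit 257) (nat_lit 204))))) (XT.nd (nat_lit 234) (nat_lit 532) (nat_lit 0) (XT.nd (nat_lit 78) (nat_lit 304) (nat_lit 0) (XT.lf (nat_lit 0) (nat_lit 2583432120) (nat_lit 304) (nat_lit 1662529312) (nat_lit 76) (nat_lit 8149872286) (nat_lit 63) (nat_lit 5) (nat_lit 67) (nat_lit 5) (nat_lit 64) (nat_lit 5) (nat_lit 320) (nat_lit 257) (nat_lit 203)) (XT.nd (nat_lit 78) (nat_lit 0) (nat_lit 0) (XT.lf (nat_lit 0) (nat_lit 4604907853) (nat_lit 304) (nat_lit 730014622) (nat_lit 380) (nat_lit 7300967873) (nat_lit 59) (nat_lit 5) (nat_lit 63) (nat_lit 5) (nat_lit 64) (nat_lit 5) (nat_lit 321) (nat_lit 257) (nat_lit 202)) (XT.lf (nat_lit 0) (nat_lit 8177691806) (nat_lit 380) (nat_lit 1869369675) (nat_lit 76) (nat_lit 2835865457) (nat_lit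 59) (nat_lit 5) (nat_lit 64) (nat_lit 5) (nat_lit 60) (nat_lit 5) (nat_lit 322) (nat_lit 257) (nat_lit 201)))) (XT.nd (nat_lit 78) (nat_lit 304) (nat_lit 0) (XT.lf (nat_lit 0) (nat_lit 4506131634) (nat_lit 228) (nat_lit 6615190855) (nat_lit 304) (nat_lit 2015623906) (nat_lit 56) (nat_lit 5) (nat_lit 59) (nat_lit 5) (nat_lit 60) (nat_lit 5) (nat_lit 323) (nat_lit 257) (nat_lit 200)) (XT.nd (nat_lit 78) (nat_lit 228) (nat_lit 0) (XT.lf (nat_lit 0) (nat_lit 724196242) (nat_lit 304) (nat_lit 2346129386) (nat_lit 76) (nat_lit 10328552636) (nat_lit 55) (nat_lit 5) (nat_lit 59) (nat_lit 5) (nat_lit 56) (nat_lit 5) (nat_lit 324) (nat_lit 257) (nat_lit 199)) (XT.lf (nat_lit 0) (nat_lit 3517684296) (nat_lit 304) (nat_lit 9536439485) (nat_lit 76) (nat_lit 613621846) (nat_lit 52) (nat_lit 5) (nat_lit 56) (nat_lit 5) (nat_lit 53) (nat_lit 5) (nat_lit 325) (nat_lit 257) (nat_lit 198))))))) (XT.nd (nat_lit 936)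 (nat_lit 912) (nat_lit 0) (XT.nd (nat_lit 468) (nat_lit 456) (nat_lit 0) (XT.nd (nat_lit 234) (nat_lit 456) (nat_lit 0) (XT.nd (nat_lit 78) (nat_lit 228) (nat_lit 0) (XT.lf (nat_lit 0) (nat_lit 6415845019) (nat_lit 304) (nat_lit 3174199352) (nat_lit 76) (nat_lit 4354043353) (nat_lit 52) (nat_lit 5) (nat_lit 56) (nat_lit 5) (nat_lit 53) (nat_lit 5) (nat_lit 326) (nat_lit 257) (nat_lit 197)) (XT.nd (nat_lit 78) (nat_lit 0) (nat_lit 0) (XT.lf (nat_lit 0) (nat_lit 3395897140) (nat_lit 228) (nat_lit 6005214232) (nat_lit 304) (nat_lit 4827637630) (nat_lit 49) (nat_lit 5) (nat_lit 52) (nat_lit 5) (nat_lit 53) (nat_lit 5) (nat_lit 327) (nat_lit 257) (nat_lit 196)) (XT.lf (nat_lit 0) (nat_lit 10179370583) (nat_lit 228) (nat_lit 2296612751) (nat_lit 304) (nat_lit 2045998116) (nat_lit 49) (nat_lit 5) (nat_lit 52) (nat_lit 5) (nat_lit 53) (nat_lit 5) (nat_lit 328) (nat_lit 257) (nat_lit 195)))) (XT.nd (nat_lit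 78) (nat_lit 152) (nat_lit 0) (XT.lf (nat_lit 0) (nat_lit 808893539) (nat_lit 304) (nat_lit 12506918466) (nat_lit 76) (nat_lit 1507819948) (nat_lit 45) (nat_lit 5) (nat_lit 49) (nat_lit 5) (nat_lit 46) (nat_lit 5) (nat_lit 329) (nat_lit 257) (nat_lit 194)) (XT.nd (nat_lit 78) (nat_lit 152) (nat_lit 0) (XT.lf (nat_lit 0) (nat_lit 3744220127) (nat_lit 304) (nat_lit 5959966821) (nat_lit 76) (nat_lit 5428489959) (nat_lit 45) (nat_lit 5) (nat_lit 49) (nat_lit 5) (nat_lit 46) (nat_lit 5) (nat_lit 330) (nat_lit 257) (nat_lit 193)) (XT.lf (nat_lit 0) (nat_lit 751101602) (nat_lit 152) (nat_lit 5993517140) (nat_lit 228) (nat_lit 8707093206) (nat_lit 43) (nat_lit 5) (nat_lit 45) (nat_lit 5) (nat_lit 46) (nat_lit 5) (nat_lit 331) (nat_lit 257) (nat_lit 192))))) (XT.nd (nat_lit 234) (nat_lit 228) (nat_lit 0) (XT.nd (nat_lit 78) (nat_lit 228) (nat_lit 0) (XT.lf (nat_lit 0) (nat_lit 7739187367) (nat_lit 152)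 (nat_lit 2126251077) (nat_lit 228) (nat_lit 5913995583) (nat_lit 43) (nat_lit 5) (nat_lit 45) (nat_lit 5) (nat_lit 46) (nat_lit 5) (nat_lit 332) (nat_lit 257) (nat_lit 191)) (XT.nd (nat_lit 78) (nat_lit 228) (nat_lit 0) (XT.lf (nat_lit 0) (nat_lit 13068670070) (nat_lit 228) (nat_lit 1243795849) (nat_lit 76) (nat_lit 1804885663) (nat_lit 43) (nat_lit 5) (nat_lit 46) (nat_lit 5) (nat_lit 44) (nat_lit 5) (nat_lit 333) (nat_lit 257) (nat_lit 190)) (XT.lf (nat_lit 0) (nat_lit 5804221005) (nat_lit 228) (nat_lit 10612406264) (nat_lit 304) (nat_lit 47347174) (nat_lit 40) (nat_lit 5) (nat_lit 43) (nat_lit 5) (nat_lit 44) (nat_lit 5) (nat_lit 334) (nat_lit 257) (nat_lit 189)))) (XT.nd (nat_lit 78) (nat_lit 152) (nat_lit 0) (XT.lf (nat_lit 0) (nat_lit 2969191570) (nat_lit 304) (nat_lit 3805514501) (nat_lit 76) (nat_lit 10045900265) (nat_lit 39) (nat_lit 5) (nat_lit 43) (nat_lit 5) (nat_lit 40) (nat_lit 5)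 (nat_lit 335) (nat_lit 257) (nat_lit 188)) (XT.nd (nat_lit 78) (nat_lit 0) (nat_lit 0) (XT.lf (nat_lit 0) (nat_lit 3274394693) (nat_lit 152) (nat_lit 2805054721) (nat_lit 228) (nat_lit 11108372848) (nat_lit 37) (nat_lit 5) (nat_lit 39) (nat_lit 5) (nat_lit 40) (nat_lit 5) (nat_lit 336) (nat_lit 257) (nat_lit 187)) (XT.lf (nat_lit 0) (nat_lit 9307090421) (nat_lit 228) (nat_lit 6976546475) (nat_lit 76) (nat_lit 1281719174) (nat_lit 37) (nat_lit 5) (nat_lit 40) (nat_lit 5) (nat_lit 38) (nat_lit 5) (nat_lit 337) (nat_lit 257) (nat_lit 186)))))) (XT.nd (nat_lit 468) (nat_lit 532) (nat_lit 0) (XT.nd (nat_lit 234) (nat_lit 152) (nat_lit 0) (XT.nd (nat_lit 78) (nat_lit 76) (nat_lit 0) (XT.lf (nat_lit 0) (nat_lit 100260522) (nat_lit 152) (nat_lit 12533752388) (nat_lit 228) (nat_lit 5320152392) (nat_lit 35) (nat_lit 5) (nat_lit 37) (nat_lit 5) (nat_lit 38) (nat_lit 5) (nat_lit 338) (nat_lit 257) (nat_lit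 185)) (XT.nd (nat_lit 78) (nat_lit 76) (nat_lit 0) (XT.lf (nat_lit 0) (nat_lit 7490435271) (nat_lit 152) (nat_lit 8614835234) (nat_lit 228) (nat_lit 2248054789) (nat_lit 35) (nat_lit 5) (nat_lit 37) (nat_lit 5) (nat_lit 38) (nat_lit 5) (nat_lit 339) (nat_lit 257) (nat_lit 184)) (XT.lf (nat_lit 0) (nat_lit 872889855) (nat_lit 228) (nat_lit 3712206248) (nat_lit 76) (nat_lit 14179883920) (nat_lit 34) (nat_lit 5) (nat_lit 37) (nat_lit 5) (nat_lit 35) (nat_lit 5) (nat_lit 340) (nat_lit 257) (nat_lit 183)))) (XT.nd (nat_lit 78) (nat_lit 0) (nat_lit 0) (XT.lf (nat_lit 0) (nat_lit 3662149080) (nat_lit 152) (nat_lit 390636386) (nat_lit 228) (nat_lit 15135236414) (nat_lit 32) (nat_lit 5) (nat_lit 34) (nat_lit 5) (nat_lit 35) (nat_lit 5) (nat_lit 341) (nat_lit 257) (nat_lit 182)) (XT.nd (nat_lit 78) (nat_lit 0) (nat_lit 0) (XT.lf (nat_lit 0) (nat_lit 7379203842) (nat_lit 228) (nat_lit 8367207695) (nat_lit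 76) (nat_lit 3875829499) (nat_lit 32) (nat_lit 5) (nat_lit 35) (nat_lit 5) (nat_lit 33) (nat_lit 5) (nat_lit 342) (nat_lit 257) (nat_lit 181)) (XT.lf (nat_lit 0) (nat_lit 10785490685) (nat_lit 228) (nat_lit 1036741121) (nat_lit 76) (nat_lit 8247871926) (nat_lit 32) (nat_lit 5) (nat_lit 35) (nat_lit 5) (nat_lit 33) (nat_lit 5) (nat_lit 343) (nat_lit 257) (nat_lit 180))))) (XT.nd (nat_lit 234) (nat_lit 152) (nat_lit 0) (XT.nd (nat_lit 78) (nat_lit 228) (nat_lit 0) (XT.lf (nat_lit 0) (nat_lit 6604566090) (nat_lit 152) (nat_lit 7729788365) (nat_lit 228) (nat_lit 6195854888) (nat_lit 30) (nat_lit 5) (nat_lit 32) (nat_lit 5) (nat_lit 33) (nat_lit 5) (nat_lit 344) (nat_lit 257) (nat_lit 179)) (XT.nd (nat_lit 78) (nat_lit 228) (nat_lit 0) (XT.lf (nat_lit 0) (nat_lit 14458784544) (nat_lit 152) (nat_lit 3518581377) (nat_lit 228) (nat_lit 3027139885) (nat_lit 30) (nat_lit 5) (nat_lit 32) (nat_lit 5) (nat_lit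 33) (nat_lit 5) (nat_lit 345) (nat_lit 257) (nat_lit 178)) (XT.lf (nat_lit 0) (nat_lit 227476847) (nat_lit 228) (nat_lit 20464601315) (nat_lit 76) (nat_lit 801038119) (nat_lit 27) (nat_lit 5) (nat_lit 30) (nat_lit 5) (nat_lit 28) (nat_lit 5) (nat_lit 346) (nat_lit 257) (nat_lit 177)))) (XT.nd (nat_lit 78) (nat_lit 152) (nat_lit 0) (XT.lf (nat_lit 0) (nat_lit 3598280479) (nat_lit 228) (nat_lit 13132830755) (nat_lit 76) (nat_lit 5262009560) (nat_lit 27) (nat_lit 5) (nat_lit 30) (nat_lit 5) (nat_lit 28) (nat_lit 5) (nat_lit 347) (nat_lit 257) (nat_lit 176)) (XT.nd (nat_lit 78) (nat_lit 152) (nat_lit 0) (XT.lf (nat_lit 0) (nat_lit 7048654897) (nat_lit 228) (nat_lit 5617150026) (nat_lit 76) (nat_lit 9842983233) (nat_lit 27) (nat_lit 5) (nat_lit 30) (nat_lit 5) (nat_lit 28) (nat_lit 5) (nat_lit 348) (nat_lit 257) (nat_lit 175)) (XT.lf (nat_lit 0) (nat_lit 2130583325) (nat_lit 152) (nat_lit 8471512137)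 (nat_lit 228) (nat_lit 12437859076) (nat_lit 25) (nat_lit 5) (nat_lit 27) (nat_lit 5) (nat_lit 28) (nat_lit 5) (nat_lit 349) (nat_lit 257) (nat_lit 174))))))))
noncomputable def xc101 : XT := (XT.nd (nat_lit 1794) (nat_lit 456) (nat_lit 0) (XT.nd (nat_lit 858) (nat_lit 532) (nat_lit 0) (XT.nd (nat_lit 390) (nat_lit 228) (nat_lit 0) (XT.nd (nat_lit 156) (nat_lit 152) (nat_lit 0) (XT.nd (nat_lit 78) (nat_lit 0) (nat_lit 0) (XT.lf (nat_lit 0) (nat_lit 10191244662) (nat_lit 152) (nat_lit 4106967631) (nat_lit 228) (nat_lit 9287776617) (nat_lit 25) (nat_lit 5) (nat_lit 27) (nat_lit 5) (nat_lit 28) (nat_lit 5) (nat_lit 350) (nat_lit 257) (nat_lit 173)) (XT.lf (nat_lit 0) (nat_lit 18088768871) (nat_lit 228) (nat_lit 5692539474) (nat_lit 76) (nat_lit 367604029) (nat_lit 25) (nat_lit 5) (nat_lit 28) (nat_lit 5) (nat_lit 26) (nat_lit 4) (nat_lit 351) (nat_lit 257) (nat_lit 172))) (XT.nd (nat_lit 78) (nat_lit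 76) (nat_lit 0) (XT.lf (nat_lit 0) (nat_lit 2210062272) (nat_lit 76) (nat_lit 19825296724) (nat_lit 152) (nat_lit 2692109360) (nat_lit 24) (nat_lit 5) (nat_lit 25) (nat_lit 5) (nat_lit 26) (nat_lit 4) (nat_lit 352) (nat_lit 257) (nat_lit 171)) (XT.nd (nat_lit 78) (nat_lit 0) (nat_lit 0) (XT.lf (nat_lit 0) (nat_lit 800316536) (nat_lit 152) (nat_lit 14896470741) (nat_lit 76) (nat_lit 9625227812) (nat_lit 23) (nat_lit 5) (nat_lit 25) (nat_lit 5) (nat_lit 24) (nat_lit 5) (nat_lit 353) (nat_lit 257) (nat_lit 170)) (XT.lf (nat_lit 0) (nat_lit 4324435118) (nat_lit 152) (nat_lit 7105804568) (nat_lit 76) (nat_lit 14503941147) (nat_lit 23) (nat_lit 5) (nat_lit 25) (nat_lit 5) (nat_lit 24) (nat_lit 5) (nat_lit 354) (nat_lit 257) (nat_lit 169))))) (XT.nd (nat_lit 234) (nat_lit 76) (nat_lit 0) (XT.nd (nat_lit 78) (nat_lit 0) (nat_lit 0) (XT.lf (nat_lit 0) (nat_lit 904936585) (nat_lit 152) (nat_lit 7039620680)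 (nat_lit 228) (nat_lit 18620458606) (nat_lit 21) (nat_lit 5) (nat_lit 23) (nat_lit 5) (nat_lit 24) (nat_lit 5) (nat_lit 355) (nat_lit 257) (nat_lit 168)) (XT.nd (nat_lit 78) (nat_lit 0) (nat_lit 0) (XT.lf (nat_lit 0) (nat_lit 9270665323) (nat_lit 152) (nat_lit 2456192162) (nat_lit 228) (nat_lit 15486323593) (nat_lit 21) (nat_lit 5) (nat_lit 23) (nat_lit 5) (nat_lit 24) (nat_lit 5) (nat_lit 356) (nat_lit 257) (nat_lit 167)) (XT.lf (nat_lit 0) (nat_lit 15626626398) (nat_lit 228) (nat_lit 10045711144) (nat_lit 76) (nat_lit 2208345701) (nat_lit 21) (nat_lit 5) (nat_lit 24) (nat_lit 5) (nat_lit 22) (nat_lit 4) (nat_lit 357) (nat_lit 257) (nat_lit 166)))) (XT.nd (nat_lit 78) (nat_lit 76) (nat_lit 0) (XT.lf (nat_lit 0) (nat_lit 19650454323) (nat_lit 228) (nat_lit 1965948085) (nat_lit 76) (nat_lit 6951607728) (nat_lit 21) (nat_lit 5) (nat_lit 24) (nat_lit 5) (nat_lit 22) (nat_lit 4) (nat_lit 358) (nat_lit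 257) (nat_lit 165)) (XT.nd (nat_lit 78) (nat_lit 0) (nat_lit 0) (XT.lf (nat_lit 0) (nat_lit 6453372367) (nat_lit 76) (nat_lit 17386908201) (nat_lit 152) (nat_lit 5434329067) (nat_lit 20) (nat_lit 5) (nat_lit 21) (nat_lit 5) (nat_lit 22) (nat_lit 4) (nat_lit 359) (nat_lit 257) (nat_lit 164)) (XT.lf (nat_lit 0) (nat_lit 15137090406) (nat_lit 76) (nat_lit 13022027220) (nat_lit 152) (nat_lit 1843200986) (nat_lit 20) (nat_lit 5) (nat_lit 21) (nat_lit 5) (nat_lit 22) (nat_lit 4) (nat_lit 360) (nat_lit 257) (nat_lit 163)))))) (XT.nd (nat_lit 468) (nat_lit 228) (nat_lit 0) (XT.nd (nat_lit 234) (nat_lit 76) (nat_lit 0) (XT.nd (nat_lit 78) (nat_lit 152) (nat_lit 0) (XT.lf (nat_lit 0) (nat_lit 1803226347) (nat_lit 152) (nat_lit 6716362316) (nat_lit 76) (nat_lit 22232232127) (nat_lit 19) (nat_lit 5) (nat_lit 21) (nat_lit 5) (nat_lit 20) (nat_lit 5) (nat_lit 361) (nat_lit 257) (nat_lit 162)) (XT.nd (nat_lit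 78) (nat_lit 0) (nat_lit 0) (XT.lf (nat_lit 0) (nat_lit 1664020493) (nat_lit 152) (nat_lit 3858223657) (nat_lit 228) (nat_lit 26001019114) (nat_lit 17) (nat_lit 5) (nat_lit 19) (nat_lit 5) (nat_lit 20) (nat_lit 5) (nat_lit 362) (nat_lit 257) (nat_lit 161)) (XT.lf (nat_lit 0) (nat_lit 9414730216) (nat_lit 228) (nat_lit 21919328106) (nat_lit 76) (nat_lit 981943509) (nat_lit 17) (nat_lit 5) (nat_lit 20) (nat_lit 5) (nat_lit 18) (nat_lit 4) (nat_lit 363) (nat_lit 257) (nat_lit 160)))) (XT.nd (nat_lit 78) (nat_lit 76) (nat_lit 0) (XT.lf (nat_lit 0) (nat_lit 13446986837) (nat_lit 228) (nat_lit 13805893279) (nat_lit 76) (nat_lit 5878962027) (nat_lit 17) (nat_lit 5) (nat_lit 20) (nat_lit 5) (nat_lit 18) (nat_lit 4) (nat_lit 364) (nat_lit 257) (nat_lit 159)) (XT.nd (nat_lit 78) (nat_lit 76) (nat_lit 0) (XT.lf (nat_lit 0) (nat_lit 17585449736) (nat_lit 228) (nat_lit 5474761275) (nat_lit 76) (nat_lit 10912398686)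 (nat_lit 17) (nat_lit 5) (nat_lit 20) (nat_lit 5) (nat_lit 18) (nat_lit 4) (nat_lit 365) (nat_lit 257) (nat_lit 158)) (XT.lf (nat_lit 0) (nat_lit 3142672392) (nat_lit 76) (nat_lit 18721271943) (nat_lit 152) (nat_lit 12974188531) (nat_lit 16) (nat_lit 5) (nat_lit 17) (nat_lit 5) (nat_lit 18) (nat_lit 4) (nat_lit 366) (nat_lit 257) (nat_lit 157))))) (XT.nd (nat_lit 234) (nat_lit 228) (nat_lit 0) (XT.nd (nat_lit 78) (nat_lit 0) (nat_lit 0) (XT.lf (nat_lit 0) (nat_lit 12106143833) (nat_lit 76) (nat_lit 14205782689) (nat_lit 152) (nat_lit 9416469889) (nat_lit 16) (nat_lit 5) (nat_lit 17) (nat_lit 5) (nat_lit 18) (nat_lit 4) (nat_lit 367) (nat_lit 257) (nat_lit 156)) (XT.nd (nat_lit 78) (nat_lit 0) (nat_lit 0) (XT.lf (nat_lit 0) (nat_lit 21314526723) (nat_lit 76) (nat_lit 9565082029) (nat_lit 152) (nat_lit 5766179703) (nat_lit 16) (nat_lit 5) (nat_lit 17) (nat_lit 5) (nat_lit 18) (nat_lit 4) (nat_lit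 368) (nat_lit 257) (nat_lit 155)) (XT.lf (nat_lit 0) (nat_lit 30775867221) (nat_lit 76) (nat_lit 4795114983) (nat_lit 152) (nat_lit 2020128400) (nat_lit 16) (nat_lit 5) (nat_lit 17) (nat_lit 5) (nat_lit 18) (nat_lit 4) (nat_lit 369) (nat_lit 257) (nat_lit 154)))) (XT.nd (nat_lit 78) (nat_lit 0) (nat_lit 0) (XT.lf (nat_lit 0) (nat_lit 1809527719) (nat_lit 228) (nat_lit 36611672454) (nat_lit 76) (nat_lit 142856956) (nat_lit 13) (nat_lit 5) (nat_lit 16) (nat_lit 5) (nat_lit 14) (nat_lit 4) (nat_lit 370) (nat_lit 257) (nat_lit 153)) (XT.nd (nat_lit 78) (nat_lit 0) (nat_lit 0) (XT.lf (nat_lit 0) (nat_lit 5817432360) (nat_lit 228) (nat_lit 28532499900) (nat_lit 76) (nat_lit 5212548384) (nat_lit 13) (nat_lit 5) (nat_lit 16) (nat_lit 5) (nat_lit 14) (nat_lit 4) (nat_lit 371) (nat_lit 257) (nat_lit 152)) (XT.lf (nat_lit 0) (nat_lit 9932936318) (nat_lit 228) (nat_lit 20233244211) (nat_lit 76) (nat_lit 10425062725)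 (nat_lit 13) (nat_lit 5) (nat_lit 16) (nat_lit 5) (nat_lit 14) (nat_lit 4) (nat_lit 372) (nat_lit 257) (nat_lit 151))))))) (XT.nd (nat_lit 936) (nat_lit 228) (nat_lit 0) (XT.nd (nat_lit 468) (nat_lit 152) (nat_lit 0) (XT.nd (nat_lit 234) (nat_lit 0) (nat_lit 0) (XT.nd (nat_lit 78) (nat_lit 76) (nat_lit 0) (XT.lf (nat_lit 0) (nat_lit 14159635665) (nat_lit 228) (nat_lit 11706653609) (nat_lit 76) (nat_lit 15784954602) (nat_lit 13) (nat_lit 5) (nat_lit 16) (nat_lit 5) (nat_lit 14) (nat_lit 4) (nat_lit 373) (nat_lit 257) (nat_lit 150)) (XT.nd (nat_lit 78) (nat_lit 76) (nat_lit 0) (XT.lf (nat_lit 0) (nat_lit 18501223633) (nat_lit 228) (nat_lit 2945277677) (nat_lit 76) (nat_lit 21296907417) (nat_lit 13) (nat_lit 5) (nat_lit 16) (nat_lit 5) (nat_lit 14) (nat_lit 4) (nat_lit 374) (nat_lit 257) (nat_lit 149)) (XT.lf (nat_lit 0) (nat_lit 6179115965) (nat_lit 76) (nat_lit 16841775321) (nat_lit 152) (nat_lit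 20846018916) (nat_lit 12) (nat_lit 5) (nat_lit 13) (nat_lit 5) (nat_lit 14) (nat_lit 4) (nat_lit 375) (nat_lit 257) (nat_lit 148)))) (XT.nd (nat_lit 78) (nat_lit 0) (nat_lit 0) (XT.lf (nat_lit 0) (nat_lit 15617416351) (nat_lit 76) (nat_lit 12077051429) (nat_lit 152) (nat_lit 17329105824) (nat_lit 12) (nat_lit 5) (nat_lit 13) (nat_lit 5) (nat_lit 14) (nat_lit 4) (nat_lit 376) (nat_lit 257) (nat_lit 147)) (XT.nd (nat_lit 78) (nat_lit 0) (nat_lit 0) (XT.lf (nat_lit 0) (nat_lit 25319253736) (nat_lit 76) (nat_lit 7177907813) (nat_lit 152) (nat_lit 13718114316) (nat_lit 12) (nat_lit 5) (nat_lit 13) (nat_lit 5) (nat_lit 14) (nat_lit 4) (nat_lit 377) (nat_lit 257) (nat_lit 146)) (XT.lf (nat_lit 0) (nat_lit 35293105455) (nat_lit 76) (nat_lit 2140063669) (nat_lit 152) (nat_lit 10009889157) (nat_lit 12) (nat_lit 5) (nat_lit 13) (nat_lit 5) (nat_lit 14) (nat_lit 4) (nat_lit 378) (nat_lit 257) (nat_lit 145)))))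 (XT.nd (nat_lit 234) (nat_lit 0) (nat_lit 0) (XT.nd (nat_lit 78) (nat_lit 152) (nat_lit 0) (XT.lf (nat_lit 0) (nat_lit 42536034348) (nat_lit 152) (nat_lit 3189537975) (nat_lit 0) (nat_lit 2981544423) (nat_lit 12) (nat_lit 5) (nat_lit 14) (nat_lit 4) (nat_lit 12) (nat_lit 4) (nat_lit 379) (nat_lit 257) (nat_lit 144)) (XT.nd (nat_lit 78) (nat_lit 76) (nat_lit 0) (XT.lf (nat_lit 0) (nat_lit 6119735659) (nat_lit 76) (nat_lit 41742041355) (nat_lit 76) (nat_lit 2145231933) (nat_lit 11) (nat_lit 4) (nat_lit 12) (nat_lit 5) (nat_lit 12) (nat_lit 4) (nat_lit 380) (nat_lit 257) (nat_lit 143)) (XT.lf (nat_lit 0) (nat_lit 1984661973) (nat_lit 152) (nat_lit 35609032506) (nat_lit 76) (nat_lit 13750962005) (nat_lit 10) (nat_lit 5) (nat_lit 12) (nat_lit 5) (nat_lit 11) (nat_lit 4) (nat_lit 381) (nat_lit 257) (nat_lit 142)))) (XT.nd (nat_lit 78) (nat_lit 0) (nat_lit 0) (XT.lf (nat_lit 0) (nat_lit 6185428244) (nat_lit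 152) (nat_lit 27121367162) (nat_lit 76) (nat_lit 19415303308) (nat_lit 10) (nat_lit 5) (nat_lit 12) (nat_lit 5) (nat_lit 11) (nat_lit 4) (nat_lit 382) (nat_lit 257) (nat_lit 141)) (XT.nd (nat_lit 78) (nat_lit 0) (nat_lit 0) (XT.lf (nat_lit 0) (nat_lit 10502598653) (nat_lit 152) (nat_lit 18396239567) (nat_lit 76) (nat_lit 25242319644) (nat_lit 10) (nat_lit 5) (nat_lit 12) (nat_lit 5) (nat_lit 11) (nat_lit 4) (nat_lit 383) (nat_lit 257) (nat_lit 140)) (XT.lf (nat_lit 0) (nat_lit 14939945484) (nat_lit 152) (nat_lit 9426025823) (nat_lit 76) (nat_lit 31237102581) (nat_lit 10) (nat_lit 5) (nat_lit 12) (nat_lit 5) (nat_lit 11) (nat_lit 4) (nat_lit 384) (nat_lit 257) (nat_lit 139)))))) (XT.nd (nat_lit 468) (nat_lit 152) (nat_lit 0) (XT.nd (nat_lit 234) (nat_lit 0) (nat_lit 0) (XT.nd (nat_lit 78) (nat_lit 76) (nat_lit 0) (XT.lf (nat_lit 0) (nat_lit 19501346033) (nat_lit 152) (nat_lit 202887881) (nat_lit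 76) (nat_lit 37404890280) (nat_lit 10) (nat_lit 5) (nat_lit 12) (nat_lit 5) (nat_lit 11) (nat_lit 4) (nat_lit 385) (nat_lit 257) (nat_lit 138)) (XT.nd (nat_lit 78) (nat_lit 0) (nat_lit 0) (XT.lf (nat_lit 0) (nat_lit 9465948054) (nat_lit 76) (nat_lit 14815830416) (nat_lit 152) (nat_lit 34376116496) (nat_lit 9) (nat_lit 5) (nat_lit 10) (nat_lit 5) (nat_lit 11) (nat_lit 4) (nat_lit 386) (nat_lit 257) (nat_lit 137)) (XT.lf (nat_lit 0) (nat_lit 19413451213) (nat_lit 76) (nat_lit 9785525672) (nat_lit 152) (nat_lit 31054355909) (nat_lit 9) (nat_lit 5) (nat_lit 10) (nat_lit 5) (nat_lit 11) (nat_lit 4) (nat_lit 387) (nat_lit 257) (nat_lit 136)))) (XT.nd (nat_lit 78) (nat_lit 0) (nat_lit 0) (XT.lf (nat_lit 0) (nat_lit 29644275721) (nat_lit 76) (nat_lit 4610973041) (nat_lit 152) (nat_lit 27641642659) (nat_lit 9) (nat_lit 5) (nat_lit 10) (nat_lit 5) (nat_lit 11) (nat_lit 4) (nat_lit 388) (nat_lit 257) (nat_lit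 135)) (XT.nd (nat_lit 78) (nat_lit 0) (nat_lit 0) (XT.lf (nat_lit 0) (nat_lit 39461859736) (nat_lit 152) (nat_lit 23429493367) (nat_lit 0) (nat_lit 698448437) (nat_lit 9) (nat_lit 5) (nat_lit 11) (nat_lit 4) (nat_lit 9) (nat_lit 4) (nat_lit 389) (nat_lit 257) (nat_lit 134)) (XT.lf (nat_lit 0) (nat_lit 44862304024) (nat_lit 152) (nat_lit 14401749807) (nat_lit 0) (nat_lit 6068320219) (nat_lit 9) (nat_lit 5) (nat_lit 11) (nat_lit 4) (nat_lit 9) (nat_lit 4) (nat_lit 390) (nat_lit 257) (nat_lit 133))))) (XT.nd (nat_lit 234) (nat_lit 76) (nat_lit 0) (XT.nd (nat_lit 78) (nat_lit 76) (nat_lit 0) (XT.lf (nat_lit 0) (nat_lit 50416976966) (nat_lit 152) (nat_lit 5117173209) (nat_lit 0) (nat_lit 11593311118) (nat_lit 9) (nat_lit 5) (nat_lit 11) (nat_lit 4) (nat_lit 9) (nat_lit 4) (nat_lit 391) (nat_lit 257) (nat_lit 132)) (XT.nd (nat_lit 78) (nat_lit 0) (nat_lit 0) (XT.lf (nat_lit 0) (nat_lit 4520561604) (nat_lit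 76) (nat_lit 51653624961) (nat_lit 76) (nat_lit 12801141594) (nat_lit 8) (nat_lit 4) (nat_lit 9) (nat_lit 5) (nat_lit 9) (nat_lit 4) (nat_lit 392) (nat_lit 257) (nat_lit 131)) (XT.lf (nat_lit 0) (nat_lit 14538867224) (nat_lit 76) (nat_lit 47609451473) (nat_lit 76) (nat_lit 8728989932) (nat_lit 8) (nat_lit 4) (nat_lit 9) (nat_lit 5) (nat_lit 9) (nat_lit 4) (nat_lit 393) (nat_lit 257) (nat_lit 130)))) (XT.nd (nat_lit 78) (nat_lit 76) (nat_lit 0) (XT.lf (nat_lit 0) (nat_lit 24844655730) (nat_lit 76) (nat_lit 43449769383) (nat_lit 76) (nat_lit 4542144568) (nat_lit 8) (nat_lit 4) (nat_lit 9) (nat_lit 5) (nat_lit 9) (nat_lit 4) (nat_lit 394) (nat_lit 257) (nat_lit 129)) (XT.nd (nat_lit 78) (nat_lit 76) (nat_lit 0) (XT.lf (nat_lit 0) (nat_lit 35446932179) (nat_lit 76) (nat_lit 39170944019) (nat_lit 76) (nat_lit 236947092) (nat_lit 8) (nat_lit 4) (nat_lit 9) (nat_lit 5) (nat_lit 9) (nat_lit 4) (nat_lit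 395) (nat_lit 257) (nat_lit 128)) (XT.lf (nat_lit 0) (nat_lit 4108595217) (nat_lit 152) (nat_lit 30619152626) (nat_lit 76) (nat_lit 42204876722) (nat_lit 7) (nat_lit 5) (nat_lit 9) (nat_lit 5) (nat_lit 8) (nat_lit 4) (nat_lit 396) (nat_lit 257) (nat_lit 127))))))))
noncomputable def xc102 : XT := (XT.nd (nat_lit 31824) (nat_lit 0) (nat_lit 6612) (XT.nd (nat_lit 30888) (nat_lit 0) (nat_lit 15048) (XT.nd (nat_lit 30420) (nat_lit 0) (nat_lit 20216) (XT.nd (nat_lit 156) (nat_lit 0) (nat_lit 0) (XT.nd (nat_lit 78) (nat_lit 0) (nat_lit 0) (XT.lf (nat_lit 0) (nat_lit 8573037924) (nat_lit 152) (nat_lit 21581192176) (nat_lit 76) (nat_lit 48918663770) (nat_lit 7) (nat_lit 5) (nat_lit 9) (nat_lit 5) (nat_lit 8) (nat_lit 4) (nat_lit 397) (nat_lit 257) (nat_lit 126)) (XT.lf (nat_lit 0) (nat_lit 13164905688) (nat_lit 152) (nat_lit 12283834834) (nat_lit 76) (nat_lit 55828829150) (nat_lit 7) (nat_lit 5) (nat_lit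 9) (nat_lit 5) (nat_lit 8) (nat_lit 4) (nat_lit 398) (nat_lit 257) (nat_lit 125))) (XT.nd (nat_lit 30108) (nat_lit 0) (nat_lit 21280) (XT.lf (nat_lit 0) (nat_lit 17888210820) (nat_lit 152) (nat_lit 2718956694) (nat_lit 76) (nat_lit 62941410872) (nat_lit 7) (nat_lit 5) (nat_lit 9) (nat_lit 5) (nat_lit 8) (nat_lit 4) (nat_lit 399) (nat_lit 257) (nat_lit 124)) (XT.nd (nat_lit 78) (nat_lit 228) (nat_lit 0) (XT.lf (nat_lit 0) (nat_lit 2833028468) (nat_lit 76) (nat_lit 198559810) (nat_lit 76) (nat_lit 198559810) (nat_lit 290) (nat_lit 4) (nat_lit 291) (nat_lit 5) (nat_lit 291) (nat_lit 4) (nat_lit 264) (nat_lit 258) (nat_lit 258)) (XT.lf (nat_lit 0) (nat_lit 2385943045) (nat_lit 152) (nat_lit 96339174) (nat_lit 228) (nat_lit 3988332549) (nat_lit 287) (nat_lit 5) (nat_lit 289) (nat_lit 5) (nat_lit 290) (nat_lit 4) (nat_lit 265) (nat_lit 258) (nat_lit 257))))) (XT.nd (nat_lit 234) (nat_lit 760) (nat_lit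 0) (XT.nd (nat_lit 78) (nat_lit 304) (nat_lit 0) (XT.lf (nat_lit 0) (nat_lit 5343045049) (nat_lit 228) (nat_lit 874891532) (nat_lit 0) (nat_lit 266438000) (nat_lit 287) (nat_lit 5) (nat_lit 290) (nat_lit 4) (nat_lit 287) (nat_lit 4) (nat_lit 266) (nat_lit 258) (nat_lit 256)) (XT.nd (nat_lit 78) (nat_lit 0) (nat_lit 0) (XT.lf (nat_lit 0) (nat_lit 1675105629) (nat_lit 304) (nat_lit 4104095679) (nat_lit 76) (nat_lit 721579205) (nat_lit 283) (nat_lit 5) (nat_lit 287) (nat_lit 5) (nat_lit 284) (nat_lit 4) (nat_lit 267) (nat_lit 258) (nat_lit 255)) (XT.lf (nat_lit 0) (nat_lit 4459052901) (nat_lit 304) (nat_lit 809918696) (nat_lit 76) (nat_lit 1251498981) (nat_lit 283) (nat_lit 5) (nat_lit 287) (nat_lit 5) (nat_lit 284) (nat_lit 4) (nat_lit 268) (nat_lit 258) (nat_lit 254)))) (XT.nd (nat_lit 78) (nat_lit 380) (nat_lit 0) (XT.lf (nat_lit 0) (nat_lit 694130784) (nat_lit 380) (nat_lit 3980441611) (nat_lit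 76) (nat_lit 1868533390) (nat_lit 278) (nat_lit 5) (nat_lit 283) (nat_lit 5) (nat_lit 279) (nat_lit 5) (nat_lit 269) (nat_lit 258) (nat_lit 253)) (XT.nd (nat_lit 78) (nat_lit 380) (nat_lit 0) (XT.lf (nat_lit 0) (nat_lit 3400261744) (nat_lit 380) (nat_lit 598821210) (nat_lit 76) (nat_lit 2569727777) (nat_lit 278) (nat_lit 5) (nat_lit 283) (nat_lit 5) (nat_lit 279) (nat_lit 5) (nat_lit 270) (nat_lit 258) (nat_lit 252)) (XT.lf (nat_lit 0) (nat_lit 2877106496) (nat_lit 380) (nat_lit 3242096482) (nat_lit 456) (nat_lit 478410240) (nat_lit 273) (nat_lit 5) (nat_lit 278) (nat_lit 5) (nat_lit 279) (nat_lit 5) (nat_lit 271) (nat_lit 258) (nat_lit 251)))))) (XT.nd (nat_lit 468) (nat_lit 3344) (nat_lit 0) (XT.nd (nat_lit 234) (nat_lit 684) (nat_lit 0) (XT.nd (nat_lit 78) (nat_lit 1064) (nat_lit 0) (XT.lf (nat_lit 0) (nat_lit 2158779294) (nat_lit 456) (nat_lit 244421411) (nat_lit 76) (nat_lit 4226344966) (nat_lit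 272) (nat_lit 5) (nat_lit 278) (nat_lit 5) (nat_lit 273) (nat_lit 5) (nat_lit 272) (nat_lit 258) (nat_lit 250)) (XT.nd (nat_lit 78) (nat_lit 608) (nat_lit 0) (XT.lf (nat_lit 0) (nat_lit 3333328576) (nat_lit 456) (nat_lit 1471923576) (nat_lit 532) (nat_lit 1859100179) (nat_lit 266) (nat_lit 5) (nat_lit 272) (nat_lit 5) (nat_lit 273) (nat_lit 5) (nat_lit 273) (nat_lit 258) (nat_lit 249)) (XT.lf (nat_lit 0) (nat_lit 255910386) (nat_lit 532) (nat_lit 472440941) (nat_lit 608) (nat_lit 5974440136) (nat_lit 258) (nat_lit 5) (nat_lit 265) (nat_lit 5) (nat_lit 266) (nat_lit 5) (nat_lit 274) (nat_lit 258) (nat_lit 248)))) (XT.nd (nat_lit 78) (nat_lit 684) (nat_lit 0) (XT.lf (nat_lit 0) (nat_lit 3306373555) (nat_lit 608) (nat_lit 2813620274) (nat_lit 76) (nat_lit 623558796) (nat_lit 258) (nat_lit 5) (nat_lit 266) (nat_lit 5) (nat_lit 259) (nat_lit 5) (nat_lit 275) (nat_lit 258) (nat_lit 247)) (XT.nd (nat_lit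 78) (nat_lit 76) (nat_lit 0) (XT.lf (nat_lit 0) (nat_lit 876118662) (nat_lit 608) (nat_lit 5012298690) (nat_lit 684) (nat_lit 899542592) (nat_lit 250) (nat_lit 5) (nat_lit 258) (nat_lit 5) (nat_lit 259) (nat_lit 5) (nat_lit 276) (nat_lit 258) (nat_lit 246)) (XT.lf (nat_lit 0) (nat_lit 1623896269) (nat_lit 684) (nat_lit 2181595906) (nat_lit 76) (nat_lit 3029630149) (nat_lit 249) (nat_lit 5) (nat_lit 258) (nat_lit 5) (nat_lit 250) (nat_lit 5) (nat_lit 277) (nat_lit 258) (nat_lit 245))))) (XT.nd (nat_lit 234) (nat_lit 1824) (nat_lit 0) (XT.nd (nat_lit 78) (nat_lit 836) (nat_lit 0) (XT.lf (nat_lit 0) (nat_lit 1618955182) (nat_lit 684) (nat_lit 2518488498) (nat_lit 760) (nat_lit 2748218908) (nat_lit 240) (nat_lit 5) (nat_lit 249) (nat_lit 5) (nat_lit 250) (nat_lit 5) (nat_lit 278) (nat_lit 258) (nat_lit 244)) (XT.nd (nat_lit 78) (nat_lit 836) (nat_lit 0) (XT.lf (nat_lit 0) (nat_lit 5514586711) (nat_lit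 684) (nat_lit 1152571368) (nat_lit 760) (nat_lit 272536961) (nat_lit 240) (nat_lit 5) (nat_lit 249) (nat_lit 5) (nat_lit 250) (nat_lit 5) (nat_lit 279) (nat_lit 258) (nat_lit 243)) (XT.lf (nat_lit 0) (nat_lit 2180140753) (nat_lit 836) (nat_lit 4504658601) (nat_lit 76) (nat_lit 311664764) (nat_lit 229) (nat_lit 5) (nat_lit 240) (nat_lit 5) (nat_lit 230) (nat_lit 5) (nat_lit 280) (nat_lit 258) (nat_lit 242)))) (XT.nd (nat_lit 78) (nat_lit 1824) (nat_lit 0) (XT.lf (nat_lit 0) (nat_lit 4648860577) (nat_lit 836) (nat_lit 578945715) (nat_lit 76) (nat_lit 1828792769) (nat_lit 229) (nat_lit 5) (nat_lit 240) (nat_lit 5) (nat_lit 230) (nat_lit 5) (nat_lit 281) (nat_lit 258) (nat_lit 241)) (XT.nd (nat_lit 78) (nat_lit 912) (nat_lit 0) (XT.lf (nat_lit 0) (nat_lit 28692520) (nat_lit 912) (nat_lit 3651763464) (nat_lit 76) (nat_lit 3439522019) (nat_lit 217) (nat_lit 5) (nat_lit 229) (nat_lit 5) (nat_lit 218)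 (nat_lit 5) (nat_lit 282) (nat_lit 258) (nat_lit 240)) (XT.lf (nat_lit 0) (nat_lit 382386895) (nat_lit 912) (nat_lit 2041980061) (nat_lit 988) (nat_lit 4762306368) (nat_lit 205) (nat_lit 5) (nat_lit 217) (nat_lit 5) (nat_lit 218) (nat_lit 5) (nat_lit 283) (nat_lit 258) (nat_lit 239))))))) (XT.nd (nat_lit 936) (nat_lit 3268) (nat_lit 0) (XT.nd (nat_lit 468) (nat_lit 1824) (nat_lit 0) (XT.nd (nat_lit 234) (nat_lit 2280) (nat_lit 0) (XT.nd (nat_lit 78) (nat_lit 1064) (nat_lit 0) (XT.lf (nat_lit 0) (nat_lit 4548301696) (nat_lit 912) (nat_lit 307018584) (nat_lit 988) (nat_lit 2401308604) (nat_lit 205) (nat_lit 5) (nat_lit 217) (nat_lit 5) (nat_lit 218) (nat_lit 5) (nat_lit 284) (nat_lit 258) (nat_lit 238)) (XT.nd (nat_lit 78) (nat_lit 76) (nat_lit 0) (XT.lf (nat_lit 0) (nat_lit 1460142748) (nat_lit 988) (nat_lit 5856081903) (nat_lit 1064) (nat_lit 13904722) (nat_lit 192) (nat_lit 5) (nat_lit 205) (nat_lit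 5) (nat_lit 206) (nat_lit 5) (nat_lit 285) (nat_lit 258) (nat_lit 237)) (XT.lf (nat_lit 0) (nat_lit 2357447046) (nat_lit 1064) (nat_lit 1688198025) (nat_lit 76) (nat_lit 3360831441) (nat_lit 191) (nat_lit 5) (nat_lit 205) (nat_lit 5) (nat_lit 192) (nat_lit 5) (nat_lit 286) (nat_lit 258) (nat_lit 236)))) (XT.nd (nat_lit 78) (nat_lit 1216) (nat_lit 0) (XT.lf (nat_lit 0) (nat_lit 2606116741) (nat_lit 1064) (nat_lit 2150031180) (nat_lit 1140) (nat_lit 2730410991) (nat_lit 177) (nat_lit 5) (nat_lit 191) (nat_lit 5) (nat_lit 192) (nat_lit 5) (nat_lit 287) (nat_lit 258) (nat_lit 235)) (XT.nd (nat_lit 78) (nat_lit 1216) (nat_lit 0) (XT.lf (nat_lit 0) (nat_lit 7000846777) (nat_lit 1064) (nat_lit 175838176) (nat_lit 1140) (nat_lit 394002008) (nat_lit 177) (nat_lit 5) (nat_lit 191) (nat_lit 5) (nat_lit 192) (nat_lit 5) (nat_lit 288) (nat_lit 258) (nat_lit 234)) (XT.lf (nat_lit 0) (nat_lit 1962819887) (nat_lit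 1216) (nat_lit 3812708067) (nat_lit 76) (nat_lit 1881674215) (nat_lit 161) (nat_lit 5) (nat_lit 177) (nat_lit 5) (nat_lit 162) (nat_lit 5) (nat_lit 289) (nat_lit 258) (nat_lit 233))))) (XT.nd (nat_lit 234) (nat_lit 608) (nat_lit 0) (XT.nd (nat_lit 78) (nat_lit 684) (nat_lit 0) (XT.lf (nat_lit 0) (nat_lit 598673705) (nat_lit 532) (nat_lit 3732417929) (nat_lit 608) (nat_lit 3416771842) (nat_lit 154) (nat_lit 5) (nat_lit 161) (nat_lit 5) (nat_lit 162) (nat_lit 5) (nat_lit 290) (nat_lit 258) (nat_lit 232)) (XT.nd (nat_lit 78) (nat_lit 684) (nat_lit 0) (XT.lf (nat_lit 0) (nat_lit 5157073227) (nat_lit 532) (nat_lit 1588468981) (nat_lit 608) (nat_lit 1096572378) (nat_lit 154) (nat_lit 5) (nat_lit 161) (nat_lit 5) (nat_lit 162) (nat_lit 5) (nat_lit 291) (nat_lit 258) (nat_lit 231)) (XT.lf (nat_lit 0) (nat_lit 1230013965) (nat_lit 684) (nat_lit 6072331378) (nat_lit 76) (nat_lit 637731222) (nat_lit 145)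 (nat_lit 5) (nat_lit 154) (nat_lit 5) (nat_lit 146) (nat_lit 5) (nat_lit 292) (nat_lit 258) (nat_lit 230)))) (XT.nd (nat_lit 78) (nat_lit 608) (nat_lit 0) (XT.lf (nat_lit 0) (nat_lit 3586416666) (nat_lit 684) (nat_lit 1519162390) (nat_lit 76) (nat_lit 2935724242) (nat_lit 145) (nat_lit 5) (nat_lit 154) (nat_lit 5) (nat_lit 146) (nat_lit 5) (nat_lit 293) (nat_lit 258) (nat_lit 229)) (XT.nd (nat_lit 78) (nat_lit 76) (nat_lit 0) (XT.lf (nat_lit 0) (nat_lit 3170031842) (nat_lit 532) (nat_lit 2814679333) (nat_lit 608) (nat_lit 2161829736) (nat_lit 138) (nat_lit 5) (nat_lit 145) (nat_lit 5) (nat_lit 146) (nat_lit 5) (nat_lit 294) (nat_lit 258) (nat_lit 228)) (XT.lf (nat_lit 0) (nat_lit 152787410) (nat_lit 608) (nat_lit 288597705) (nat_lit 76) (nat_lit 7814896458) (nat_lit 137) (nat_lit 5) (nat_lit 145) (nat_lit 5) (nat_lit 138) (nat_lit 5) (nat_lit 295) (nat_lit 258) (nat_lit 227)))))) (XT.nd (nat_lit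 468) (nat_lit 1368) (nat_lit 0) (XT.nd (nat_lit 234) (nat_lit 912) (nat_lit 0) (XT.nd (nat_lit 78) (nat_lit 456) (nat_lit 0) (XT.lf (nat_lit 0) (nat_lit 2499843633) (nat_lit 608) (nat_lit 3843032848) (nat_lit 76) (nat_lit 2025703040) (nat_lit 130) (nat_lit 5) (nat_lit 138) (nat_lit 5) (nat_lit 131) (nat_lit 5) (nat_lit 296) (nat_lit 258) (nat_lit 226)) (XT.nd (nat_lit 78) (nat_lit 0) (nat_lit 0) (XT.lf (nat_lit 0) (nat_lit 957776081) (nat_lit 456) (nat_lit 3919983708) (nat_lit 532) (nat_lit 3607770966) (nat_lit 124) (nat_lit 5) (nat_lit 130) (nat_lit 5) (nat_lit 131) (nat_lit 5) (nat_lit 297) (nat_lit 258) (nat_lit 225)) (XT.lf (nat_lit 0) (nat_lit 5919612373) (nat_lit 456) (nat_lit 1391175735) (nat_lit 532) (nat_lit 1295784126) (nat_lit 124) (nat_lit 5) (nat_lit 130) (nat_lit 5) (nat_lit 131) (nat_lit 5) (nat_lit 298) (nat_lit 258) (nat_lit 224)))) (XT.nd (nat_lit 78) (nat_lit 380) (nat_lit 0)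 (XT.lf (nat_lit 0) (nat_lit 1044084460) (nat_lit 532) (nat_lit 6472090190) (nat_lit 76) (nat_lit 1215455590) (nat_lit 117) (nat_lit 5) (nat_lit 124) (nat_lit 5) (nat_lit 118) (nat_lit 5) (nat_lit 299) (nat_lit 258) (nat_lit 223)) (XT.nd (nat_lit 78) (nat_lit 380) (nat_lit 0) (XT.lf (nat_lit 0) (nat_lit 3416152215) (nat_lit 532) (nat_lit 1539131621) (nat_lit 76) (nat_lit 3905216740) (nat_lit 117) (nat_lit 5) (nat_lit 124) (nat_lit 5) (nat_lit 118) (nat_lit 5) (nat_lit 300) (nat_lit 258) (nat_lit 222)) (XT.lf (nat_lit 0) (nat_lit 3550765658) (nat_lit 380) (nat_lit 2291167312) (nat_lit 456) (nat_lit 3151911883) (nat_lit 112) (nat_lit 5) (nat_lit 117) (nat_lit 5) (nat_lit 118) (nat_lit 5) (nat_lit 301) (nat_lit 258) (nat_lit 221))))) (XT.nd (nat_lit 234) (nat_lit 456) (nat_lit 0) (XT.nd (nat_lit 78) (nat_lit 912) (nat_lit 0) (XT.lf (nat_lit 0) (nat_lit 8309795997) (nat_lit 456) (nat_lit 371580625)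 (nat_lit 76) (nat_lit 450815472) (nat_lit 112) (nat_lit 5) (nat_lit 118) (nat_lit 5) (nat_lit 113) (nat_lit 5) (nat_lit 302) (nat_lit 258) (nat_lit 220)) (XT.nd (nat_lit 78) (nat_lit 380) (nat_lit 0) (XT.lf (nat_lit 0) (nat_lit 1566539915) (nat_lit 532) (nat_lit 4424689967) (nat_lit 76) (nat_lit 3282473064) (nat_lit 105) (nat_lit 5) (nat_lit 112) (nat_lit 5) (nat_lit 106) (nat_lit 5) (nat_lit 303) (nat_lit 258) (nat_lit 219)) (XT.lf (nat_lit 0) (nat_lit 761226933) (nat_lit 380) (nat_lit 3211545713) (nat_lit 456) (nat_lit 5447652415) (nat_lit 100) (nat_lit 5) (nat_lit 105) (nat_lit 5) (nat_lit 106) (nat_lit 5) (nat_lit 304) (nat_lit 258) (nat_lit 218)))) (XT.nd (nat_lit 78) (nat_lit 456) (nat_lit 0) (XT.lf (nat_lit 0) (nat_lit 6134068283) (nat_lit 380) (nat_lit 313711122) (nat_lit 456) (nat_lit 3123944589) (nat_lit 100) (nat_lit 5) (nat_lit 105) (nat_lit 5) (nat_lit 106) (nat_lit 5) (nat_lit 305)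 (nat_lit 258) (nat_lit 217)) (XT.nd (nat_lit 78) (nat_lit 76) (nat_lit 0) (XT.lf (nat_lit 0) (nat_lit 1892800054) (nat_lit 380) (nat_lit 7101308959) (nat_lit 456) (nat_lit 733611355) (nat_lit 95) (nat_lit 5) (nat_lit 100) (nat_lit 5) (nat_lit 101) (nat_lit 5) (nat_lit 306) (nat_lit 258) (nat_lit 216)) (XT.lf (nat_lit 0) (nat_lit 1686348193) (nat_lit 456) (nat_lit 2513188130) (nat_lit 76) (nat_lit 5688679133) (nat_lit 94) (nat_lit 5) (nat_lit 100) (nat_lit 5) (nat_lit 95) (nat_lit 5) (nat_lit 307) (nat_lit 258) (nat_lit 215))))))))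
noncomputable def xc103 : XT := (XT.nd (nat_lit 1872) (nat_lit 1672) (nat_lit 0) (XT.nd (nat_lit 936) (nat_lit 1444) (nat_lit 0) (XT.nd (nat_lit 468) (nat_lit 1216) (nat_lit 0) (XT.nd (nat_lit 234) (nat_lit 380) (nat_lit 0) (XT.nd (nat_lit 78) (nat_lit 380) (nat_lit 0) (XT.lf (nat_lit 0) (nat_lit 2961036843) (nat_lit 304) (nat_lit 1186423961) (nat_lit 380) (nat_lit 5906412369) (nat_lit 90) (nat_lit 5) (nat_lit 94) (nat_lit 5) (nat_lit 95) (nat_lit 5) (nat_lit 308) (nat_lit 258) (nat_lit 214)) (XT.nd (nat_lit 78) (nat_lit 380) (nat_lit 0) (XT.lf (nat_lit 0) (nat_lit 6681944612) (nat_lit 380) (nat_lit 1649795482) (nat_lit 76) (nat_lit 1892837163) (nat_lit 90) (nat_lit 5) (nat_lit 95) (nat_lit 5) (nat_lit 91) (nat_lit 5) (nat_lit 309) (nat_lit 258) (nat_lit 213)) (XT.lf (nat_lit 0) (nat_lit 3965488021) (nat_lit 380) (nat_lit 5333617190) (nat_lit 456) (nat_lit 1101158929) (nat_lit 85) (nat_lit 5)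 (nat_lit 90) (nat_lit 5) (nat_lit 91) (nat_lit 5) (nat_lit 310) (nat_lit 258) (nat_lit 212)))) (XT.nd (nat_lit 78) (nat_lit 304) (nat_lit 0) (XT.lf (nat_lit 0) (nat_lit 1359817385) (nat_lit 456) (nat_lit 868465482) (nat_lit 76) (nat_lit 8353373306) (nat_lit 84) (nat_lit 5) (nat_lit 90) (nat_lit 5) (nat_lit 85) (nat_lit 5) (nat_lit 311) (nat_lit 258) (nat_lit 211)) (XT.nd (nat_lit 78) (nat_lit 0) (nat_lit 0) (XT.lf (nat_lit 0) (nat_lit 3887573522) (nat_lit 380) (nat_lit 5883774087) (nat_lit 76) (nat_lit 996418570) (nat_lit 80) (nat_lit 5) (nat_lit 85) (nat_lit 5) (nat_lit 81) (nat_lit 5) (nat_lit 312) (nat_lit 258) (nat_lit 210)) (XT.lf (nat_lit 0) (nat_lit 6480906221) (nat_lit 380) (nat_lit 210507809) (nat_lit 76) (nat_lit 4268407286) (nat_lit 80) (nat_lit 5) (nat_lit 85) (nat_lit 5) (nat_lit 81) (nat_lit 5) (nat_lit 313) (nat_lit 258) (nat_lit 209))))) (XT.nd (nat_lit 234) (nat_lit 532) (nat_lit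 0) (XT.nd (nat_lit 78) (nat_lit 380) (nat_lit 0) (XT.lf (nat_lit 0) (nat_lit 5689623775) (nat_lit 304) (nat_lit 3477131582) (nat_lit 380) (nat_lit 1990493826) (nat_lit 76) (nat_lit 5) (nat_lit 80) (nat_lit 5) (nat_lit 81) (nat_lit 5) (nat_lit 314) (nat_lit 258) (nat_lit 208)) (XT.nd (nat_lit 78) (nat_lit 0) (nat_lit 0) (XT.lf (nat_lit 0) (nat_lit 357320127) (nat_lit 304) (nat_lit 169900215) (nat_lit 380) (nat_lit 10834289576) (nat_lit 71) (nat_lit 5) (nat_lit 75) (nat_lit 5) (nat_lit 76) (nat_lit 5) (nat_lit 315) (nat_lit 258) (nat_lit 207)) (XT.lf (nat_lit 0) (nat_lit 3128055216) (nat_lit 380) (nat_lit 5207721034) (nat_lit 76) (nat_lit 3234151211) (nat_lit 71) (nat_lit 5) (nat_lit 76) (nat_lit 5) (nat_lit 72) (nat_lit 5) (nat_lit 316) (nat_lit 258) (nat_lit 206)))) (XT.nd (nat_lit 78) (nat_lit 228) (nat_lit 0) (XT.lf (nat_lit 0) (nat_lit 721437722) (nat_lit 304) (nat_lit 5055964009) (nat_lit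 380) (nat_lit 6008127910) (nat_lit 67) (nat_lit 5) (nat_lit 71) (nat_lit 5) (nat_lit 72) (nat_lit 5) (nat_lit 317) (nat_lit 258) (nat_lit 205)) (XT.nd (nat_lit 78) (nat_lit 228) (nat_lit 0) (XT.lf (nat_lit 0) (nat_lit 6882150176) (nat_lit 304) (nat_lit 1639136167) (nat_lit 380) (nat_lit 3485907159) (nat_lit 67) (nat_lit 5) (nat_lit 71) (nat_lit 5) (nat_lit 72) (nat_lit 5) (nat_lit 318) (nat_lit 258) (nat_lit 204)) (XT.lf (nat_lit 0) (nat_lit 939923967) (nat_lit 228) (nat_lit 10398090220) (nat_lit 304) (nat_lit 897821317) (nat_lit 64) (nat_lit 5) (nat_lit 67) (nat_lit 5) (nat_lit 68) (nat_lit 5) (nat_lit 319) (nat_lit 258) (nat_lit 203)))))) (XT.nd (nat_lit 468) (nat_lit 532) (nat_lit 0) (XT.nd (nat_lit 234) (nat_lit 532) (nat_lit 0) (XT.nd (nat_lit 78) (nat_lit 304) (nat_lit 0) (XT.lf (nat_lit 0) (nat_lit 1765488277) (nat_lit 304) (nat_lit 5264392996) (nat_lit 76) (nat_lit 5440024784) (nat_lit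 63) (nat_lit 5) (nat_lit 67) (nat_lit 5) (nat_lit 64) (nat_lit 5) (nat_lit 320) (nat_lit 258) (nat_lit 202)) (XT.nd (nat_lit 78) (nat_lit 0) (nat_lit 0) (XT.lf (nat_lit 0) (nat_lit 905618930) (nat_lit 304) (nat_lit 3558383951) (nat_lit 380) (nat_lit 8247568925) (nat_lit 59) (nat_lit 5) (nat_lit 63) (nat_lit 5) (nat_lit 64) (nat_lit 5) (nat_lit 321) (nat_lit 258) (nat_lit 201)) (XT.lf (nat_lit 0) (nat_lit 7262359916) (nat_lit 380) (nat_lit 5642601738) (nat_lit 76) (nat_lit 54998381) (nat_lit 59) (nat_lit 5) (nat_lit 64) (nat_lit 5) (nat_lit 60) (nat_lit 5) (nat_lit 322) (nat_lit 258) (nat_lit 200)))) (XT.nd (nat_lit 78) (nat_lit 304) (nat_lit 0) (XT.lf (nat_lit 0) (nat_lit 632604663) (nat_lit 228) (nat_lit 9519428622) (nat_lit 304) (nat_lit 3063583634) (nat_lit 56) (nat_lit 5) (nat_lit 59) (nat_lit 5) (nat_lit 60) (nat_lit 5) (nat_lit 323) (nat_lit 258) (nat_lit 199)) (XT.nd (nat_lit 78) (nat_lit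 304) (nat_lit 0) (XT.lf (nat_lit 0) (nat_lit 7162068665) (nat_lit 228) (nat_lit 5989871842) (nat_lit 304) (nat_lit 326333566) (nat_lit 56) (nat_lit 5) (nat_lit 59) (nat_lit 5) (nat_lit 60) (nat_lit 5) (nat_lit 324) (nat_lit 258) (nat_lit 198)) (XT.lf (nat_lit 0) (nat_lit 67041597) (nat_lit 228) (nat_lit 2345170565) (nat_lit 304) (nat_lit 11336879810) (nat_lit 52) (nat_lit 5) (nat_lit 55) (nat_lit 5) (nat_lit 56) (nat_lit 5) (nat_lit 325) (nat_lit 258) (nat_lit 197))))) (XT.nd (nat_lit 234) (nat_lit 304) (nat_lit 0) (XT.nd (nat_lit 78) (nat_lit 228) (nat_lit 0) (XT.lf (nat_lit 0) (nat_lit 5271828374) (nat_lit 304) (nat_lit 7321541427) (nat_lit 76) (nat_lit 1433237225) (nat_lit 52) (nat_lit 5) (nat_lit 56) (nat_lit 5) (nat_lit 53) (nat_lit 5) (nat_lit 326) (nat_lit 258) (nat_lit 196)) (XT.nd (nat_lit 78) (nat_lit 228) (nat_lit 0) (XT.lf (nat_lit 0) (nat_lit 8208916049) (nat_lit 304) (nat_lit 841278495)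 (nat_lit 76) (nat_lit 5262535260) (nat_lit 52) (nat_lit 5) (nat_lit 56) (nat_lit 5) (nat_lit 53) (nat_lit 5) (nat_lit 327) (nat_lit 258) (nat_lit 195)) (XT.lf (nat_lit 0) (nat_lit 5902115531) (nat_lit 228) (nat_lit 5358117571) (nat_lit 304) (nat_lit 3346451464) (nat_lit 49) (nat_lit 5) (nat_lit 52) (nat_lit 5) (nat_lit 53) (nat_lit 5) (nat_lit 328) (nat_lit 258) (nat_lit 194)))) (XT.nd (nat_lit 78) (nat_lit 304) (nat_lit 0) (XT.lf (nat_lit 0) (nat_lit 12819063814) (nat_lit 228) (nat_lit 1562352796) (nat_lit 304) (nat_lit 528722434) (nat_lit 49) (nat_lit 5) (nat_lit 52) (nat_lit 5) (nat_lit 53) (nat_lit 5) (nat_lit 329) (nat_lit 258) (nat_lit 193)) (XT.nd (nat_lit 78) (nat_lit 0) (nat_lit 0) (XT.lf (nat_lit 0) (nat_lit 2366318728) (nat_lit 304) (nat_lit 10499317803) (nat_lit 76) (nat_lit 2355232358) (nat_lit 45) (nat_lit 5) (nat_lit 49) (nat_lit 5) (nat_lit 46) (nat_lit 5) (nat_lit 330) (nat_lit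 258) (nat_lit 192)) (XT.lf (nat_lit 0) (nat_lit 5345050015) (nat_lit 304) (nat_lit 3825359789) (nat_lit 76) (nat_lit 6370158066) (nat_lit 45) (nat_lit 5) (nat_lit 49) (nat_lit 5) (nat_lit 46) (nat_lit 5) (nat_lit 331) (nat_lit 258) (nat_lit 191))))))) (XT.nd (nat_lit 936) (nat_lit 684) (nat_lit 0) (XT.nd (nat_lit 468) (nat_lit 380) (nat_lit 0) (XT.nd (nat_lit 234) (nat_lit 228) (nat_lit 0) (XT.nd (nat_lit 78) (nat_lit 228) (nat_lit 0) (XT.lf (nat_lit 0) (nat_lit 3064360235) (nat_lit 152) (nat_lit 5349765745) (nat_lit 228) (nat_lit 7455729796) (nat_lit 43) (nat_lit 5) (nat_lit 45) (nat_lit 5) (nat_lit 46) (nat_lit 5) (nat_lit 332) (nat_lit 258) (nat_lit 190)) (XT.nd (nat_lit 78) (nat_lit 228) (nat_lit 0) (XT.lf (nat_lit 0) (nat_lit 10195368410) (nat_lit 152) (nat_lit 1390468794) (nat_lit 228) (nat_lit 4622894862) (nat_lit 43) (nat_lit 5) (nat_lit 45) (nat_lit 5) (nat_lit 46) (nat_lit 5) (nat_lit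 333) (nat_lit 258) (nat_lit 189)) (XT.lf (nat_lit 0) (nat_lit 931637300) (nat_lit 228) (nat_lit 13928457623) (nat_lit 304) (nat_lit 1697483728) (nat_lit 40) (nat_lit 5) (nat_lit 43) (nat_lit 5) (nat_lit 44) (nat_lit 5) (nat_lit 334) (nat_lit 258) (nat_lit 188)))) (XT.nd (nat_lit 78) (nat_lit 152) (nat_lit 0) (XT.lf (nat_lit 0) (nat_lit 1337806396) (nat_lit 304) (nat_lit 8777211406) (nat_lit 76) (nat_lit 6800084075) (nat_lit 39) (nat_lit 5) (nat_lit 43) (nat_lit 5) (nat_lit 40) (nat_lit 5) (nat_lit 335) (nat_lit 258) (nat_lit 187)) (XT.nd (nat_lit 78) (nat_lit 152) (nat_lit 0) (XT.lf (nat_lit 0) (nat_lit 4403531740) (nat_lit 304) (nat_lit 1781946099) (nat_lit 76) (nat_lit 11098187598) (nat_lit 39) (nat_lit 5) (nat_lit 43) (nat_lit 5) (nat_lit 40) (nat_lit 5) (nat_lit 336) (nat_lit 258) (nat_lit 186)) (XT.lf (nat_lit 0) (nat_lit 5489402196) (nat_lit 152) (nat_lit 2098860407) (nat_lit 228) (nat_lit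 10074235264) (nat_lit 37) (nat_lit 5) (nat_lit 39) (nat_lit 5) (nat_lit 40) (nat_lit 5) (nat_lit 337) (nat_lit 258) (nat_lit 185))))) (XT.nd (nat_lit 234) (nat_lit 228) (nat_lit 0) (XT.nd (nat_lit 78) (nat_lit 152) (nat_lit 0) (XT.lf (nat_lit 0) (nat_lit 10881474974) (nat_lit 228) (nat_lit 5098330795) (nat_lit 76) (nat_lit 2072523623) (nat_lit 37) (nat_lit 5) (nat_lit 40) (nat_lit 5) (nat_lit 38) (nat_lit 5) (nat_lit 338) (nat_lit 258) (nat_lit 184)) (XT.nd (nat_lit 78) (nat_lit 0) (nat_lit 0) (XT.lf (nat_lit 0) (nat_lit 2170314607) (nat_lit 152) (nat_lit 12120036791) (nat_lit 228) (nat_lit 4163020090) (nat_lit 35) (nat_lit 5) (nat_lit 37) (nat_lit 5) (nat_lit 38) (nat_lit 5) (nat_lit 339) (nat_lit 258) (nat_lit 183)) (XT.lf (nat_lit 0) (nat_lit 9721989367) (nat_lit 152) (nat_lit 8106553915) (nat_lit 228) (nat_lit 1037111119) (nat_lit 35) (nat_lit 5) (nat_lit 37) (nat_lit 5) (nat_lit 38) (nat_lit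 5) (nat_lit 340) (nat_lit 258) (nat_lit 182)))) (XT.nd (nat_lit 78) (nat_lit 152) (nat_lit 0) (XT.lf (nat_lit 0) (nat_lit 2116008019) (nat_lit 228) (nat_lit 1849957805) (nat_lit 76) (nat_lit 15324449705) (nat_lit 34) (nat_lit 5) (nat_lit 37) (nat_lit 5) (nat_lit 35) (nat_lit 5) (nat_lit 341) (nat_lit 258) (nat_lit 181)) (XT.nd (nat_lit 78) (nat_lit 0) (nat_lit 0) (XT.lf (nat_lit 0) (nat_lit 5378021642) (nat_lit 228) (nat_lit 14003778848) (nat_lit 76) (nat_lit 344775817) (nat_lit 32) (nat_lit 5) (nat_lit 35) (nat_lit 5) (nat_lit 33) (nat_lit 5) (nat_lit 342) (nat_lit 258) (nat_lit 180)) (XT.lf (nat_lit 0) (nat_lit 8772929762) (nat_lit 228) (nat_lit 6692007956) (nat_lit 76) (nat_lit 4709851851) (nat_lit 32) (nat_lit 5) (nat_lit 35) (nat_lit 5) (nat_lit 33) (nat_lit 5) (nat_lit 343) (nat_lit 258) (nat_lit 179)))))) (XT.nd (nat_lit 468) (nat_lit 304) (nat_lit 0) (XT.nd (nat_lit 234) (nat_lit 228)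 (nat_lit 0) (XT.nd (nat_lit 78) (nat_lit 0) (nat_lit 0) (XT.lf (nat_lit 0) (nat_lit 818235967) (nat_lit 152) (nat_lit 11436888517) (nat_lit 228) (nat_lit 8381779701) (nat_lit 30) (nat_lit 5) (nat_lit 32) (nat_lit 5) (nat_lit 33) (nat_lit 5) (nat_lit 344) (nat_lit 258) (nat_lit 178)) (XT.nd (nat_lit 78) (nat_lit 0) (nat_lit 0) (XT.lf (nat_lit 0) (nat_lit 8654481227) (nat_lit 152) (nat_lit 7232756416) (nat_lit 228) (nat_lit 5224298629) (nat_lit 30) (nat_lit 5) (nat_lit 32) (nat_lit 5) (nat_lit 33) (nat_lit 5) (nat_lit 345) (nat_lit 258) (nat_lit 177)) (XT.lf (nat_lit 0) (nat_lit 16690390949) (nat_lit 152) (nat_lit 2916444061) (nat_lit 228) (nat_lit 1994233785) (nat_lit 30) (nat_lit 5) (nat_lit 32) (nat_lit 5) (nat_lit 33) (nat_lit 5) (nat_lit 346) (nat_lit 258) (nat_lit 176)))) (XT.nd (nat_lit 78) (nat_lit 0) (nat_lit 0) (XT.lf (nat_lit 0) (nat_lit 1328211913) (nat_lit 228) (nat_lit 19249226553)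 (nat_lit 76) (nat_lit 1526836052) (nat_lit 27) (nat_lit 5) (nat_lit 30) (nat_lit 5) (nat_lit 28) (nat_lit 5) (nat_lit 347) (nat_lit 258) (nat_lit 175)) (XT.nd (nat_lit 78) (nat_lit 0) (nat_lit 0) (XT.lf (nat_lit 0) (nat_lit 4768278175) (nat_lit 228) (nat_lit 11750783831) (nat_lit 76) (nat_lit 6101196826) (nat_lit 27) (nat_lit 5) (nat_lit 30) (nat_lit 5) (nat_lit 28) (nat_lit 5) (nat_lit 348) (nat_lit 258) (nat_lit 174)) (XT.lf (nat_lit 0) (nat_lit 8291230351) (nat_lit 228) (nat_lit 4061361763) (nat_lit 76) (nat_lit 10799755234) (nat_lit 27) (nat_lit 5) (nat_lit 30) (nat_lit 5) (nat_lit 28) (nat_lit 5) (nat_lit 349) (nat_lit 258) (nat_lit 173))))) (XT.nd (nat_lit 234) (nat_lit 152) (nat_lit 0) (XT.nd (nat_lit 78) (nat_lit 0) (nat_lit 0) (XT.lf (nat_lit 0) (nat_lit 3901898659) (nat_lit 152) (nat_lit 8035755527) (nat_lit 228) (nat_lit 11762225590) (nat_lit 25) (nat_lit 5) (nat_lit 27) (nat_lit 5)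 (nat_lit 28) (nat_lit 5) (nat_lit 350) (nat_lit 258) (nat_lit 172)) (XT.nd (nat_lit 78) (nat_lit 0) (nat_lit 0) (XT.lf (nat_lit 0) (nat_lit 12154649802) (nat_lit 152) (nat_lit 3560368919) (nat_lit 228) (nat_lit 8548187335) (nat_lit 25) (nat_lit 5) (nat_lit 27) (nat_lit 5) (nat_lit 28) (nat_lit 5) (nat_lit 351) (nat_lit 258) (nat_lit 171)) (XT.lf (nat_lit 0) (nat_lit 19596770443) (nat_lit 228) (nat_lit 4230702338) (nat_lit 76) (nat_lit 1016241257) (nat_lit 25) (nat_lit 5) (nat_lit 28) (nat_lit 5) (nat_lit 26) (nat_lit 4) (nat_lit 352) (nat_lit 258) (nat_lit 170)))) (XT.nd (nat_lit 78) (nat_lit 76) (nat_lit 0) (XT.lf (nat_lit 0) (nat_lit 3892971447) (nat_lit 76) (nat_lit 19756209987) (nat_lit 152) (nat_lit 1790843119) (nat_lit 24) (nat_lit 5) (nat_lit 25) (nat_lit 5) (nat_lit 26) (nat_lit 4) (nat_lit 353) (nat_lit 258) (nat_lit 169)) (XT.nd (nat_lit 78) (nat_lit 0) (nat_lit 0) (XT.lf (nat_lit 0)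 (nat_lit 1759147963) (nat_lit 152) (nat_lit 13754592735) (nat_lit 76) (nat_lit 10539244505) (nat_lit 23) (nat_lit 5) (nat_lit 25) (nat_lit 5) (nat_lit 24) (nat_lit 5) (nat_lit 354) (nat_lit 258) (nat_lit 168)) (XT.lf (nat_lit 0) (nat_lit 5361762278) (nat_lit 152) (nat_lit 5776481494) (nat_lit 76) (nat_lit 15546107788) (nat_lit 23) (nat_lit 5) (nat_lit 25) (nat_lit 5) (nat_lit 24) (nat_lit 5) (nat_lit 355) (nat_lit 258) (nat_lit 167))))))))
noncomputable def xc104 : XT := (XT.nd (nat_lit 1794) (nat_lit 380) (nat_lit 0) (XT.nd (nat_lit 858) (nat_lit 380) (nat_lit 0) (XT.nd (nat_lit 390) (nat_lit 228) (nat_lit 0) (XT.nd (nat_lit 156) (nat_lit 76) (nat_lit 0) (XT.nd (nat_lit 78) (nat_lit 0) (nat_lit 0) (XT.lf (nat_lit 0) (nat_lit 2459459372) (nat_lit 152) (nat_lit 6619275997) (nat_lit 228) (nat_lit 18255747119) (nat_lit 21) (nat_lit 5) (nat_lit 23) (nat_lit 5) (nat_lit 24) (nat_lit 5) (nat_lit 356)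 (nat_lit 258) (nat_lit 166)) (XT.lf (nat_lit 0) (nat_lit 11031673331) (nat_lit 152) (nat_lit 1916738798) (nat_lit 228) (nat_lit 15054481024) (nat_lit 21) (nat_lit 5) (nat_lit 23) (nat_lit 5) (nat_lit 24) (nat_lit 5) (nat_lit 357) (nat_lit 258) (nat_lit 165))) (XT.nd (nat_lit 78) (nat_lit 76) (nat_lit 0) (XT.lf (nat_lit 0) (nat_lit 16945563819) (nat_lit 228) (nat_lit 8887201374) (nat_lit 76) (nat_lit 2858260709) (nat_lit 21) (nat_lit 5) (nat_lit 24) (nat_lit 5) (nat_lit 22) (nat_lit 4) (nat_lit 358) (nat_lit 258) (nat_lit 164)) (XT.nd (nat_lit 78) (nat_lit 76) (nat_lit 0) (XT.lf (nat_lit 0) (nat_lit 21065345263) (nat_lit 228) (nat_lit 607566232) (nat_lit 76) (nat_lit 7726820656) (nat_lit 21) (nat_lit 5) (nat_lit 24) (nat_lit 5) (nat_lit 22) (nat_lit 4) (nat_lit 359) (nat_lit 258) (nat_lit 163)) (XT.lf (nat_lit 0) (nat_lit 8050438144) (nat_lit 76) (nat_lit 17319878995) (nat_lit 152) (nat_lit 4757545193)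 (nat_lit 20) (nat_lit 5) (nat_lit 21) (nat_lit 5) (nat_lit 22) (nat_lit 4) (nat_lit 360) (nat_lit 258) (nat_lit 162))))) (XT.nd (nat_lit 234) (nat_lit 0) (nat_lit 0) (XT.nd (nat_lit 78) (nat_lit 228) (nat_lit 0) (XT.lf (nat_lit 0) (nat_lit 16953790115) (nat_lit 76) (nat_lit 12841196336) (nat_lit 152) (nat_lit 1083143864) (nat_lit 20) (nat_lit 5) (nat_lit 21) (nat_lit 5) (nat_lit 22) (nat_lit 4) (nat_lit 361) (nat_lit 258) (nat_lit 161)) (XT.nd (nat_lit 78) (nat_lit 152) (nat_lit 0) (XT.lf (nat_lit 0) (nat_lit 2633481074) (nat_lit 152) (nat_lit 5579011263) (nat_lit 76) (nat_lit 23438103477) (nat_lit 19) (nat_lit 5) (nat_lit 21) (nat_lit 5) (nat_lit 20) (nat_lit 5) (nat_lit 362) (nat_lit 258) (nat_lit 160)) (XT.lf (nat_lit 0) (nat_lit 3039657128) (nat_lit 152) (nat_lit 3414549335) (nat_lit 228) (nat_lit 25991285402) (nat_lit 17) (nat_lit 5) (nat_lit 19) (nat_lit 5) (nat_lit 20) (nat_lit 5) (nat_lit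 363) (nat_lit 258) (nat_lit 159)))) (XT.nd (nat_lit 78) (nat_lit 0) (nat_lit 0) (XT.lf (nat_lit 0) (nat_lit 10446368711) (nat_lit 228) (nat_lit 21272240163) (nat_lit 76) (nat_lit 1543930661) (nat_lit 17) (nat_lit 5) (nat_lit 20) (nat_lit 5) (nat_lit 18) (nat_lit 4) (nat_lit 364) (nat_lit 258) (nat_lit 158)) (XT.nd (nat_lit 78) (nat_lit 0) (nat_lit 0) (XT.lf (nat_lit 0) (nat_lit 14577771770) (nat_lit 228) (nat_lit 12953402323) (nat_lit 76) (nat_lit 6572349187) (nat_lit 17) (nat_lit 5) (nat_lit 20) (nat_lit 5) (nat_lit 18) (nat_lit 4) (nat_lit 365) (nat_lit 258) (nat_lit 157)) (XT.lf (nat_lit 0) (nat_lit 18819202867) (nat_lit 228) (nat_lit 4409229595) (nat_lit 76) (nat_lit 11741730160) (nat_lit 17) (nat_lit 5) (nat_lit 20) (nat_lit 5) (nat_lit 18) (nat_lit 4) (nat_lit 366) (nat_lit 258) (nat_lit 156)))))) (XT.nd (nat_lit 468) (nat_lit 76) (nat_lit 0) (XT.nd (nat_lit 234) (nat_lit 228) (nat_lit 0)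 (XT.nd (nat_lit 78) (nat_lit 0) (nat_lit 0) (XT.lf (nat_lit 0) (nat_lit 4454670470) (nat_lit 76) (nat_lit 18762518654) (nat_lit 152) (nat_lit 12644741063) (nat_lit 16) (nat_lit 5) (nat_lit 17) (nat_lit 5) (nat_lit 18) (nat_lit 4) (nat_lit 367) (nat_lit 258) (nat_lit 155)) (XT.nd (nat_lit 78) (nat_lit 0) (nat_lit 0) (XT.lf (nat_lit 0) (nat_lit 13651578542) (nat_lit 76) (nat_lit 14126721755) (nat_lit 152) (nat_lit 9001223089) (nat_lit 16) (nat_lit 5) (nat_lit 17) (nat_lit 5) (nat_lit 18) (nat_lit 4) (nat_lit 368) (nat_lit 258) (nat_lit 154)) (XT.lf (nat_lit 0) (nat_lit 23101778441) (nat_lit 76) (nat_lit 9361515640) (nat_lit 152) (nat_lit 5261746748) (nat_lit 16) (nat_lit 5) (nat_lit 17) (nat_lit 5) (nat_lit 18) (nat_lit 4) (nat_lit 369) (nat_lit 258) (nat_lit 153)))) (XT.nd (nat_lit 78) (nat_lit 228) (nat_lit 0) (XT.lf (nat_lit 0) (nat_lit 32813527622) (nat_lit 76) (nat_lit 4462736539) (nat_lit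 152) (nat_lit 1423044537) (nat_lit 16) (nat_lit 5) (nat_lit 17) (nat_lit 5) (nat_lit 18) (nat_lit 4) (nat_lit 370) (nat_lit 258) (nat_lit 152)) (XT.nd (nat_lit 78) (nat_lit 0) (nat_lit 0) (XT.lf (nat_lit 0) (nat_lit 2505229685) (nat_lit 228) (nat_lit 36578619169) (nat_lit 76) (nat_lit 617519283) (nat_lit 13) (nat_lit 5) (nat_lit 16) (nat_lit 5) (nat_lit 14) (nat_lit 4) (nat_lit 371) (nat_lit 258) (nat_lit 151)) (XT.lf (nat_lit 0) (nat_lit 6614689441) (nat_lit 228) (nat_lit 28290024937) (nat_lit 76) (nat_lit 5825601164) (nat_lit 13) (nat_lit 5) (nat_lit 16) (nat_lit 5) (nat_lit 14) (nat_lit 4) (nat_lit 372) (nat_lit 258) (nat_lit 150))))) (XT.nd (nat_lit 234) (nat_lit 76) (nat_lit 0) (XT.nd (nat_lit 78) (nat_lit 0) (nat_lit 0) (XT.lf (nat_lit 0) (nat_lit 10835520631) (nat_lit 228) (nat_lit 19773785266) (nat_lit 76) (nat_lit 11181189682) (nat_lit 13) (nat_lit 5) (nat_lit 16) (nat_lit 5) (nat_lit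 14) (nat_lit 4) (nat_lit 373) (nat_lit 258) (nat_lit 149)) (XT.nd (nat_lit 78) (nat_lit 0) (nat_lit 0) (XT.lf (nat_lit 0) (nat_lit 15171411359) (nat_lit 228) (nat_lit 11022458779) (nat_lit 76) (nat_lit 16688964479) (nat_lit 13) (nat_lit 5) (nat_lit 16) (nat_lit 5) (nat_lit 14) (nat_lit 4) (nat_lit 374) (nat_lit 258) (nat_lit 148)) (XT.lf (nat_lit 0) (nat_lit 19626150269) (nat_lit 228) (nat_lit 2028398689) (nat_lit 76) (nat_lit 22353738172) (nat_lit 13) (nat_lit 5) (nat_lit 16) (nat_lit 5) (nat_lit 14) (nat_lit 4) (nat_lit 375) (nat_lit 258) (nat_lit 147)))) (XT.nd (nat_lit 78) (nat_lit 0) (nat_lit 0) (XT.lf (nat_lit 0) (nat_lit 7359871495) (nat_lit 76) (nat_lit 16914505942) (nat_lit 152) (nat_lit 20891336656) (nat_lit 12) (nat_lit 5) (nat_lit 13) (nat_lit 5) (nat_lit 14) (nat_lit 4) (nat_lit 376) (nat_lit 258) (nat_lit 146)) (XT.nd (nat_lit 78) (nat_lit 0) (nat_lit 0) (XT.lf (nat_lit 0) (nat_lit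 17052329182) (nat_lit 76) (nat_lit 12019438080) (nat_lit 152) (nat_lit 17285811205) (nat_lit 12) (nat_lit 5) (nat_lit 13) (nat_lit 5) (nat_lit 14) (nat_lit 4) (nat_lit 377) (nat_lit 258) (nat_lit 145)) (XT.lf (nat_lit 0) (nat_lit 27017074397) (nat_lit 76) (nat_lit 6985550978) (nat_lit 152) (nat_lit 13582892897) (nat_lit 12) (nat_lit 5) (nat_lit 13) (nat_lit 5) (nat_lit 14) (nat_lit 4) (nat_lit 378) (nat_lit 258) (nat_lit 144))))))) (XT.nd (nat_lit 936) (nat_lit 152) (nat_lit 0) (XT.nd (nat_lit 468) (nat_lit 76) (nat_lit 0) (XT.nd (nat_lit 234) (nat_lit 76) (nat_lit 0) (XT.nd (nat_lit 78) (nat_lit 76) (nat_lit 0) (XT.lf (nat_lit 0) (nat_lit 37262814200) (nat_lit 76) (nat_lit 1808446094) (nat_lit 152) (nat_lit 9779346174) (nat_lit 12) (nat_lit 5) (nat_lit 13) (nat_lit 5) (nat_lit 14) (nat_lit 4) (nat_lit 379) (nat_lit 258) (nat_lit 143)) (XT.nd (nat_lit 78) (nat_lit 76) (nat_lit 0) (XT.lf (nat_lit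 0) (nat_lit 44315902714) (nat_lit 152) (nat_lit 2389249081) (nat_lit 0) (nat_lit 3447782621) (nat_lit 12) (nat_lit 5) (nat_lit 14) (nat_lit 4) (nat_lit 12) (nat_lit 4) (nat_lit 380) (nat_lit 258) (nat_lit 142)) (XT.lf (nat_lit 0) (nat_lit 7190518693) (nat_lit 76) (nat_lit 42604753772) (nat_lit 76) (nat_lit 1696743494) (nat_lit 11) (nat_lit 4) (nat_lit 12) (nat_lit 5) (nat_lit 12) (nat_lit 4) (nat_lit 381) (nat_lit 258) (nat_lit 141)))) (XT.nd (nat_lit 78) (nat_lit 0) (nat_lit 0) (XT.lf (nat_lit 0) (nat_lit 2532394003) (nat_lit 152) (nat_lit 35805978785) (nat_lit 76) (nat_lit 14531719361) (nat_lit 10) (nat_lit 5) (nat_lit 12) (nat_lit 5) (nat_lit 11) (nat_lit 4) (nat_lit 382) (nat_lit 258) (nat_lit 140)) (XT.nd (nat_lit 78) (nat_lit 0) (nat_lit 0) (XT.lf (nat_lit 0) (nat_lit 6844964073) (nat_lit 152) (nat_lit 27089061869) (nat_lit 76) (nat_lit 20355265801) (nat_lit 10) (nat_lit 5) (nat_lit 12)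 (nat_lit 5) (nat_lit 11) (nat_lit 4) (nat_lit 383) (nat_lit 258) (nat_lit 139)) (XT.lf (nat_lit 0) (nat_lit 11277844555) (nat_lit 152) (nat_lit 18126819660) (nat_lit 76) (nat_lit 26346679907) (nat_lit 10) (nat_lit 5) (nat_lit 12) (nat_lit 5) (nat_lit 11) (nat_lit 4) (nat_lit 384) (nat_lit 258) (nat_lit 138))))) (XT.nd (nat_lit 234) (nat_lit 0) (nat_lit 0) (XT.nd (nat_lit 78) (nat_lit 76) (nat_lit 0) (XT.lf (nat_lit 0) (nat_lit 15834908842) (nat_lit 152) (nat_lit 8911421070) (nat_lit 76) (nat_lit 32511196896) (nat_lit 10) (nat_lit 5) (nat_lit 12) (nat_lit 5) (nat_lit 11) (nat_lit 4) (nat_lit 385) (nat_lit 258) (nat_lit 137)) (XT.nd (nat_lit 78) (nat_lit 0) (nat_lit 0) (XT.lf (nat_lit 0) (nat_lit 576434502) (nat_lit 76) (nat_lit 19949245373) (nat_lit 152) (nat_lit 38283309776) (nat_lit 9) (nat_lit 5) (nat_lit 10) (nat_lit 5) (nat_lit 11) (nat_lit 4) (nat_lit 386) (nat_lit 258) (nat_lit 136)) (XT.lf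 (nat_lit 0) (nat_lit 10516497392) (nat_lit 76) (nat_lit 14922222035) (nat_lit 152) (nat_lit 34965834979) (nat_lit 9) (nat_lit 5) (nat_lit 10) (nat_lit 5) (nat_lit 11) (nat_lit 4) (nat_lit 387) (nat_lit 258) (nat_lit 135)))) (XT.nd (nat_lit 78) (nat_lit 0) (nat_lit 0) (XT.lf (nat_lit 0) (nat_lit 20740098338) (nat_lit 76) (nat_lit 9750855236) (nat_lit 152) (nat_lit 31557282690) (nat_lit 9) (nat_lit 5) (nat_lit 10) (nat_lit 5) (nat_lit 11) (nat_lit 4) (nat_lit 388) (nat_lit 258) (nat_lit 134)) (XT.nd (nat_lit 78) (nat_lit 0) (nat_lit 0) (XT.lf (nat_lit 0) (nat_lit 31256170583) (nat_lit 76) (nat_lit 4430626304) (nat_lit 152) (nat_lit 28054674564) (nat_lit 9) (nat_lit 5) (nat_lit 10) (nat_lit 5) (nat_lit 11) (nat_lit 4) (nat_lit 389) (nat_lit 258) (nat_lit 133)) (XT.lf (nat_lit 0) (nat_lit 41040816470) (nat_lit 152) (nat_lit 23421863609) (nat_lit 0) (nat_lit 1022758602) (nat_lit 9) (nat_lit 5) (nat_lit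 11) (nat_lit 4) (nat_lit 9) (nat_lit 4) (nat_lit 390) (nat_lit 258) (nat_lit 132)))))) (XT.nd (nat_lit 468) (nat_lit 0) (nat_lit 0) (XT.nd (nat_lit 234) (nat_lit 76) (nat_lit 0) (XT.nd (nat_lit 78) (nat_lit 76) (nat_lit 0) (XT.lf (nat_lit 0) (nat_lit 46591766292) (nat_lit 152) (nat_lit 14143982342) (nat_lit 0) (nat_lit 6544890905) (nat_lit 9) (nat_lit 5) (nat_lit 11) (nat_lit 4) (nat_lit 9) (nat_lit 4) (nat_lit 391) (nat_lit 258) (nat_lit 131)) (XT.nd (nat_lit 78) (nat_lit 76) (nat_lit 0) (XT.lf (nat_lit 0) (nat_lit 52301906807) (nat_lit 152) (nat_lit 4600960289) (nat_lit 0) (nat_lit 12227053247) (nat_lit 9) (nat_lit 5) (nat_lit 11) (nat_lit 4) (nat_lit 9) (nat_lit 4) (nat_lit 392) (nat_lit 258) (nat_lit 130)) (XT.lf (nat_lit 0) (nat_lit 5319340607) (nat_lit 76) (nat_lit 52908019607) (nat_lit 76) (nat_lit 12806002772) (nat_lit 8) (nat_lit 4) (nat_lit 9) (nat_lit 5) (nat_lit 9) (nat_lit 4) (nat_lit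 393) (nat_lit 258) (nat_lit 129)))) (XT.nd (nat_lit 78) (nat_lit 76) (nat_lit 0) (XT.lf (nat_lit 0) (nat_lit 15618879993) (nat_lit 76) (nat_lit 48751119384) (nat_lit 76) (nat_lit 8622730437) (nat_lit 8) (nat_lit 4) (nat_lit 9) (nat_lit 5) (nat_lit 9) (nat_lit 4) (nat_lit 394) (nat_lit 258) (nat_lit 128)) (XT.nd (nat_lit 78) (nat_lit 76) (nat_lit 0) (XT.lf (nat_lit 0) (nat_lit 26215089336) (nat_lit 76) (nat_lit 44474994860) (nat_lit 76) (nat_lit 4321001921) (nat_lit 8) (nat_lit 4) (nat_lit 9) (nat_lit 5) (nat_lit 9) (nat_lit 4) (nat_lit 395) (nat_lit 258) (nat_lit 127)) (XT.lf (nat_lit 0) (nat_lit 100932805) (nat_lit 152) (nat_lit 39973957587) (nat_lit 76) (nat_lit 37015275429) (nat_lit 7) (nat_lit 5) (nat_lit 9) (nat_lit 5) (nat_lit 8) (nat_lit 4) (nat_lit 396) (nat_lit 258) (nat_lit 126))))) (XT.nd (nat_lit 30186) (nat_lit 0) (nat_lit 21280) (XT.nd (nat_lit 78) (nat_lit 0) (nat_lit 0) (XT.lf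 (nat_lit 0) (nat_lit 4562169490) (nat_lit 152) (nat_lit 30941781334) (nat_lit 76) (nat_lit 43726582044) (nat_lit 7) (nat_lit 5) (nat_lit 9) (nat_lit 5) (nat_lit 8) (nat_lit 4) (nat_lit 397) (nat_lit 258) (nat_lit 125)) (XT.nd (nat_lit 30030) (nat_lit 0) (nat_lit 21584) (XT.lf (nat_lit 0) (nat_lit 9150924612) (nat_lit 152) (nat_lit 21650039718) (nat_lit 76) (nat_lit 50634339237) (nat_lit 7) (nat_lit 5) (nat_lit 9) (nat_lit 5) (nat_lit 8) (nat_lit 4) (nat_lit 398) (nat_lit 258) (nat_lit 124)) (XT.lf (nat_lit 0) (nat_lit 1478686011) (nat_lit 76) (nat_lit 265834887) (nat_lit 0) (nat_lit 1478686011) (nat_lit 291) (nat_lit 5) (nat_lit 292) (nat_lit 0) (nat_lit 291) (nat_lit 4) (nat_lit 262) (nat_lit 259) (nat_lit 259)))) (XT.nd (nat_lit 78) (nat_lit 228) (nat_lit 0) (XT.lf (nat_lit 0) (nat_lit 2530949389) (nat_lit 76) (nat_lit 3327079598) (nat_lit 76) (nat_lit 594397041) (nat_lit 290) (nat_lit 4) (nat_lit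 291) (nat_lit 5) (nat_lit 291) (nat_lit 4) (nat_lit 263) (nat_lit 259) (nat_lit 258)) (XT.nd (nat_lit 78) (nat_lit 152) (nat_lit 0) (XT.lf (nat_lit 0) (nat_lit 2235676350) (nat_lit 152) (nat_lit 847349425) (nat_lit 76) (nat_lit 3378397938) (nat_lit 289) (nat_lit 5) (nat_lit 291) (nat_lit 5) (nat_lit 290) (nat_lit 4) (nat_lit 264) (nat_lit 259) (nat_lit 257)) (XT.lf (nat_lit 0) (nat_lit 2297523793) (nat_lit 152) (nat_lit 2756225768) (nat_lit 228) (nat_lit 1419652323) (nat_lit 287) (nat_lit 5) (nat_lit 289) (nat_lit 5) (nat_lit 290) (nat_lit 4) (nat_lit 265) (nat_lit 259) (nat_lit 256))))))))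
noncomputable def xc105 : XT := (XT.nd (nat_lit 1794) (nat_lit 7296) (nat_lit 0) (XT.nd (nat_lit 858) (nat_lit 5548) (nat_lit 0) (XT.nd (nat_lit 390) (nat_lit 2204) (nat_lit 0) (XT.nd (nat_lit 156) (nat_lit 380) (nat_lit 0) (XT.nd (nat_lit 78) (nat_lit 228) (nat_lit 0) (XT.lf (nat_lit 0) (nat_lit 1344714588) (nat_lit 228) (nat_lit 1007849919) (nat_lit 76) (nat_lit 4135986222) (nat_lit 286) (nat_lit 5) (nat_lit 289) (nat_lit 5) (nat_lit 287) (nat_lit 5) (nat_lit 266) (nat_lit 259) (nat_lit 255)) (XT.lf (nat_lit 0) (nat_lit 2224118073) (nat_lit 228) (nat_lit 1857968505) (nat_lit 304) (nat_lit 2424397272) (nat_lit 283) (nat_lit 5) (nat_lit 286) (nat_lit 5) (nat_lit 287) (nat_lit 5) (nat_lit 267) (nat_lit 259) (nat_lit 254))) (XT.nd (nat_lit 78) (nat_lit 304) (nat_lit 0) (XT.lf (nat_lit 0) (nat_lit 277911200) (nat_lit 304) (nat_lit 1016833555) (nat_lit 76) (nat_lit 5233134470) (nat_lit 282) (nat_lit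 5) (nat_lit 286) (nat_lit 5) (nat_lit 283) (nat_lit 5) (nat_lit 268) (nat_lit 259) (nat_lit 253)) (XT.nd (nat_lit 78) (nat_lit 0) (nat_lit 0) (XT.lf (nat_lit 0) (nat_lit 2307327855) (nat_lit 304) (nat_lit 628730662) (nat_lit 380) (nat_lit 3615716337) (nat_lit 278) (nat_lit 5) (nat_lit 282) (nat_lit 5) (nat_lit 283) (nat_lit 5) (nat_lit 269) (nat_lit 259) (nat_lit 252)) (XT.lf (nat_lit 0) (nat_lit 5588840236) (nat_lit 380) (nat_lit 887957247) (nat_lit 76) (nat_lit 102418353) (nat_lit 278) (nat_lit 5) (nat_lit 283) (nat_lit 5) (nat_lit 279) (nat_lit 5) (nat_lit 270) (nat_lit 259) (nat_lit 251))))) (XT.nd (nat_lit 234) (nat_lit 1216) (nat_lit 0) (XT.nd (nat_lit 78) (nat_lit 532) (nat_lit 0) (XT.lf (nat_lit 0) (nat_lit 1616920805) (nat_lit 456) (nat_lit 4074126545) (nat_lit 76) (nat_lit 918098790) (nat_lit 272) (nat_lit 5) (nat_lit 278) (nat_lit 5) (nat_lit 273) (nat_lit 5) (nat_lit 271) (nat_lit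 259) (nat_lit 250)) (XT.nd (nat_lit 78) (nat_lit 532) (nat_lit 0) (XT.lf (nat_lit 0) (nat_lit 4199327157) (nat_lit 456) (nat_lit 633638228) (nat_lit 76) (nat_lit 1809462730) (nat_lit 272) (nat_lit 5) (nat_lit 278) (nat_lit 5) (nat_lit 273) (nat_lit 5) (nat_lit 272) (nat_lit 259) (nat_lit 249)) (XT.lf (nat_lit 0) (nat_lit 116445398) (nat_lit 532) (nat_lit 3774272621) (nat_lit 76) (nat_lit 2788049993) (nat_lit 265) (nat_lit 5) (nat_lit 272) (nat_lit 5) (nat_lit 266) (nat_lit 5) (nat_lit 273) (nat_lit 259) (nat_lit 248)))) (XT.nd (nat_lit 78) (nat_lit 1216) (nat_lit 0) (XT.lf (nat_lit 0) (nat_lit 2621492310) (nat_lit 532) (nat_lit 240985915) (nat_lit 76) (nat_lit 3855690129) (nat_lit 265) (nat_lit 5) (nat_lit 272) (nat_lit 5) (nat_lit 266) (nat_lit 5) (nat_lit 274) (nat_lit 259) (nat_lit 247)) (XT.nd (nat_lit 78) (nat_lit 684) (nat_lit 0) (XT.lf (nat_lit 0) (nat_lit 3404055577) (nat_lit 532) (nat_lit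 1744294993) (nat_lit 608) (nat_lit 1612224087) (nat_lit 258) (nat_lit 5) (nat_lit 265) (nat_lit 5) (nat_lit 266) (nat_lit 5) (nat_lit 275) (nat_lit 259) (nat_lit 246)) (XT.lf (nat_lit 0) (nat_lit 293836477) (nat_lit 608) (nat_lit 554553613) (nat_lit 684) (nat_lit 5958197837) (nat_lit 249) (nat_lit 5) (nat_lit 257) (nat_lit 5) (nat_lit 258) (nat_lit 5) (nat_lit 276) (nat_lit 259) (nat_lit 245)))))) (XT.nd (nat_lit 468) (nat_lit 3116) (nat_lit 0) (XT.nd (nat_lit 234) (nat_lit 1672) (nat_lit 0) (XT.nd (nat_lit 78) (nat_lit 760) (nat_lit 0) (XT.lf (nat_lit 0) (nat_lit 3308020253) (nat_lit 684) (nat_lit 2817490758) (nat_lit 76) (nat_lit 729468416) (nat_lit 249) (nat_lit 5) (nat_lit 258) (nat_lit 5) (nat_lit 250) (nat_lit 5) (nat_lit 277) (nat_lit 259) (nat_lit 244)) (XT.nd (nat_lit 78) (nat_lit 76) (nat_lit 0) (XT.lf (nat_lit 0) (nat_lit 939046810) (nat_lit 684) (nat_lit 4836252465) (nat_lit 760) (nat_lit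 1131706398) (nat_lit 240) (nat_lit 5) (nat_lit 249) (nat_lit 5) (nat_lit 250) (nat_lit 5) (nat_lit 278) (nat_lit 259) (nat_lit 243)) (XT.lf (nat_lit 0) (nat_lit 1278403606) (nat_lit 760) (nat_lit 2170598902) (nat_lit 76) (nat_lit 3512920736) (nat_lit 239) (nat_lit 5) (nat_lit 249) (nat_lit 5) (nat_lit 240) (nat_lit 5) (nat_lit 279) (nat_lit 259) (nat_lit 242)))) (XT.nd (nat_lit 78) (nat_lit 912) (nat_lit 0) (XT.lf (nat_lit 0) (nat_lit 1700940552) (nat_lit 760) (nat_lit 1975934390) (nat_lit 836) (nat_lit 3343295053) (nat_lit 229) (nat_lit 5) (nat_lit 239) (nat_lit 5) (nat_lit 240) (nat_lit 5) (nat_lit 280) (nat_lit 259) (nat_lit 241)) (XT.nd (nat_lit 78) (nat_lit 912) (nat_lit 0) (XT.lf (nat_lit 0) (nat_lit 5671998746) (nat_lit 760) (nat_lit 421345274) (nat_lit 836) (nat_lit 988615449) (nat_lit 229) (nat_lit 5) (nat_lit 239) (nat_lit 5) (nat_lit 240) (nat_lit 5) (nat_lit 281) (nat_lit 259) (nat_lit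 240)) (XT.lf (nat_lit 0) (nat_lit 1370881620) (nat_lit 912) (nat_lit 4566330476) (nat_lit 76) (nat_lit 1209276337) (nat_lit 217) (nat_lit 5) (nat_lit 229) (nat_lit 5) (nat_lit 218) (nat_lit 5) (nat_lit 282) (nat_lit 259) (nat_lit 239))))) (XT.nd (nat_lit 234) (nat_lit 1140) (nat_lit 0) (XT.nd (nat_lit 78) (nat_lit 1976) (nat_lit 0) (XT.lf (nat_lit 0) (nat_lit 3726993296) (nat_lit 912) (nat_lit 570610568) (nat_lit 76) (nat_lit 2916846398) (nat_lit 217) (nat_lit 5) (nat_lit 229) (nat_lit 5) (nat_lit 218) (nat_lit 5) (nat_lit 283) (nat_lit 259) (nat_lit 238)) (XT.nd (nat_lit 78) (nat_lit 1064) (nat_lit 0) (XT.lf (nat_lit 0) (nat_lit 3553282872) (nat_lit 912) (nat_lit 2563932986) (nat_lit 988) (nat_lit 1168489196) (nat_lit 205) (nat_lit 5) (nat_lit 217) (nat_lit 5) (nat_lit 218) (nat_lit 5) (nat_lit 284) (nat_lit 259) (nat_lit 237)) (XT.lf (nat_lit 0) (nat_lit 387461549) (nat_lit 988) (nat_lit 748237431)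 (nat_lit 1064) (nat_lit 6225010830) (nat_lit 191) (nat_lit 5) (nat_lit 204) (nat_lit 5) (nat_lit 205) (nat_lit 5) (nat_lit 285) (nat_lit 259) (nat_lit 236)))) (XT.nd (nat_lit 78) (nat_lit 1140) (nat_lit 0) (XT.lf (nat_lit 0) (nat_lit 3465811748) (nat_lit 1064) (nat_lit 2815752800) (nat_lit 76) (nat_lit 1156788170) (nat_lit 191) (nat_lit 5) (nat_lit 205) (nat_lit 5) (nat_lit 192) (nat_lit 5) (nat_lit 286) (nat_lit 259) (nat_lit 235)) (XT.nd (nat_lit 78) (nat_lit 76) (nat_lit 0) (XT.lf (nat_lit 0) (nat_lit 1425076796) (nat_lit 1064) (nat_lit 4395291536) (nat_lit 1140) (nat_lit 1699459800) (nat_lit 177) (nat_lit 5) (nat_lit 191) (nat_lit 5) (nat_lit 192) (nat_lit 5) (nat_lit 287) (nat_lit 259) (nat_lit 234)) (XT.lf (nat_lit 0) (nat_lit 592010495) (nat_lit 1140) (nat_lit 1821124249) (nat_lit 76) (nat_lit 5191677784) (nat_lit 176) (nat_lit 5) (nat_lit 191) (nat_lit 5) (nat_lit 177) (nat_lit 5) (nat_lit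 288) (nat_lit 259) (nat_lit 233))))))) (XT.nd (nat_lit 936) (nat_lit 2812) (nat_lit 0) (XT.nd (nat_lit 468) (nat_lit 1596) (nat_lit 0) (XT.nd (nat_lit 234) (nat_lit 1216) (nat_lit 0) (XT.nd (nat_lit 78) (nat_lit 532) (nat_lit 0) (XT.lf (nat_lit 0) (nat_lit 2552895806) (nat_lit 1140) (nat_lit 325639481) (nat_lit 1216) (nat_lit 4814619946) (nat_lit 161) (nat_lit 5) (nat_lit 176) (nat_lit 5) (nat_lit 177) (nat_lit 5) (nat_lit 289) (nat_lit 259) (nat_lit 232)) (XT.nd (nat_lit 78) (nat_lit 532) (nat_lit 0) (XT.lf (nat_lit 0) (nat_lit 5207005720) (nat_lit 1216) (nat_lit 768090649) (nat_lit 76) (nat_lit 1809975236) (nat_lit 161) (nat_lit 5) (nat_lit 177) (nat_lit 5) (nat_lit 162) (nat_lit 5) (nat_lit 290) (nat_lit 259) (nat_lit 231)) (XT.lf (nat_lit 0) (nat_lit 3744662000) (nat_lit 532) (nat_lit 3838956374) (nat_lit 608) (nat_lit 296898728) (nat_lit 154) (nat_lit 5) (nat_lit 161) (nat_lit 5) (nat_lit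 162) (nat_lit 5) (nat_lit 291) (nat_lit 259) (nat_lit 230)))) (XT.nd (nat_lit 78) (nat_lit 532) (nat_lit 0) (XT.lf (nat_lit 0) (nat_lit 355933306) (nat_lit 608) (nat_lit 1607530555) (nat_lit 684) (nat_lit 6016359038) (nat_lit 145) (nat_lit 5) (nat_lit 153) (nat_lit 5) (nat_lit 154) (nat_lit 5) (nat_lit 292) (nat_lit 259) (nat_lit 229)) (XT.nd (nat_lit 78) (nat_lit 532) (nat_lit 0) (XT.lf (nat_lit 0) (nat_lit 4275215691) (nat_lit 684) (nat_lit 3086021025) (nat_lit 76) (nat_lit 721206663) (nat_lit 145) (nat_lit 5) (nat_lit 154) (nat_lit 5) (nat_lit 146) (nat_lit 5) (nat_lit 293) (nat_lit 259) (nat_lit 228)) (XT.lf (nat_lit 0) (nat_lit 1541538160) (nat_lit 532) (nat_lit 5087970094) (nat_lit 608) (nat_lit 1559545439) (nat_lit 138) (nat_lit 5) (nat_lit 145) (nat_lit 5) (nat_lit 146) (nat_lit 5) (nat_lit 294) (nat_lit 259) (nat_lit 227))))) (XT.nd (nat_lit 234) (nat_lit 988) (nat_lit 0) (XT.nd (nat_lit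 78) (nat_lit 532) (nat_lit 0) (XT.lf (nat_lit 0) (nat_lit 715187153) (nat_lit 608) (nat_lit 1995567744) (nat_lit 76) (nat_lit 5588759347) (nat_lit 137) (nat_lit 5) (nat_lit 145) (nat_lit 5) (nat_lit 138) (nat_lit 5) (nat_lit 295) (nat_lit 259) (nat_lit 226)) (XT.nd (nat_lit 78) (nat_lit 0) (nat_lit 0) (XT.lf (nat_lit 0) (nat_lit 2775181986) (nat_lit 532) (nat_lit 222866903) (nat_lit 608) (nat_lit 5415737313) (nat_lit 130) (nat_lit 5) (nat_lit 137) (nat_lit 5) (nat_lit 138) (nat_lit 5) (nat_lit 296) (nat_lit 259) (nat_lit 225)) (XT.lf (nat_lit 0) (nat_lit 5337798941) (nat_lit 608) (nat_lit 884179980) (nat_lit 76) (nat_lit 2309950270) (nat_lit 130) (nat_lit 5) (nat_lit 138) (nat_lit 5) (nat_lit 131) (nat_lit 5) (nat_lit 297) (nat_lit 259) (nat_lit 224)))) (XT.nd (nat_lit 78) (nat_lit 532) (nat_lit 0) (XT.lf (nat_lit 0) (nat_lit 4030514553) (nat_lit 456) (nat_lit 3705324308) (nat_lit 532) (nat_lit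 918226871) (nat_lit 124) (nat_lit 5) (nat_lit 130) (nat_lit 5) (nat_lit 131) (nat_lit 5) (nat_lit 298) (nat_lit 259) (nat_lit 223)) (XT.nd (nat_lit 78) (nat_lit 0) (nat_lit 0) (XT.lf (nat_lit 0) (nat_lit 263155405) (nat_lit 456) (nat_lit 1094044526) (nat_lit 532) (nat_lit 7423569958) (nat_lit 117) (nat_lit 5) (nat_lit 123) (nat_lit 5) (nat_lit 124) (nat_lit 5) (nat_lit 299) (nat_lit 259) (nat_lit 222)) (XT.lf (nat_lit 0) (nat_lit 3693341620) (nat_lit 532) (nat_lit 3603862578) (nat_lit 76) (nat_lit 1613555365) (nat_lit 117) (nat_lit 5) (nat_lit 124) (nat_lit 5) (nat_lit 118) (nat_lit 5) (nat_lit 300) (nat_lit 259) (nat_lit 221)))))) (XT.nd (nat_lit 468) (nat_lit 1520) (nat_lit 0) (XT.nd (nat_lit 234) (nat_lit 380) (nat_lit 0) (XT.nd (nat_lit 78) (nat_lit 532) (nat_lit 0) (XT.lf (nat_lit 0) (nat_lit 1415510623) (nat_lit 380) (nat_lit 4658417015) (nat_lit 456) (nat_lit 2971572391) (nat_lit 112) (nat_lit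 5) (nat_lit 117) (nat_lit 5) (nat_lit 118) (nat_lit 5) (nat_lit 301) (nat_lit 259) (nat_lit 220)) (XT.nd (nat_lit 78) (nat_lit 532) (nat_lit 0) (XT.lf (nat_lit 0) (nat_lit 6601334144) (nat_lit 380) (nat_lit 1911811250) (nat_lit 456) (nat_lit 671600405) (nat_lit 112) (nat_lit 5) (nat_lit 117) (nat_lit 5) (nat_lit 118) (nat_lit 5) (nat_lit 302) (nat_lit 259) (nat_lit 219)) (XT.lf (nat_lit 0) (nat_lit 1650003524) (nat_lit 532) (nat_lit 6746130700) (nat_lit 76) (nat_lit 932047549) (nat_lit 105) (nat_lit 5) (nat_lit 112) (nat_lit 5) (nat_lit 106) (nat_lit 5) (nat_lit 303) (nat_lit 259) (nat_lit 218)))) (XT.nd (nat_lit 78) (nat_lit 380) (nat_lit 0) (XT.lf (nat_lit 0) (nat_lit 4025508486) (nat_lit 532) (nat_lit 1603736372) (nat_lit 76) (nat_lit 3846616708) (nat_lit 105) (nat_lit 5) (nat_lit 112) (nat_lit 5) (nat_lit 106) (nat_lit 5) (nat_lit 304) (nat_lit 259) (nat_lit 217)) (XT.nd (nat_lit 78) (nat_lit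 0) (nat_lit 0) (XT.lf (nat_lit 0) (nat_lit 3708800247) (nat_lit 380) (nat_lit 2752990685) (nat_lit 456) (nat_lit 3166566101) (nat_lit 100) (nat_lit 5) (nat_lit 105) (nat_lit 5) (nat_lit 106) (nat_lit 5) (nat_lit 305) (nat_lit 259) (nat_lit 216)) (XT.lf (nat_lit 0) (nat_lit 8944096212) (nat_lit 456) (nat_lit 630802407) (nat_lit 76) (nat_lit 211409305) (nat_lit 100) (nat_lit 5) (nat_lit 106) (nat_lit 5) (nat_lit 101) (nat_lit 5) (nat_lit 306) (nat_lit 259) (nat_lit 215))))) (XT.nd (nat_lit 234) (nat_lit 760) (nat_lit 0) (XT.nd (nat_lit 78) (nat_lit 304) (nat_lit 0) (XT.lf (nat_lit 0) (nat_lit 1551373096) (nat_lit 456) (nat_lit 5135424637) (nat_lit 76) (nat_lit 3260923265) (nat_lit 94) (nat_lit 5) (nat_lit 100) (nat_lit 5) (nat_lit 95) (nat_lit 5) (nat_lit 307) (nat_lit 259) (nat_lit 214)) (XT.nd (nat_lit 78) (nat_lit 0) (nat_lit 0) (XT.lf (nat_lit 0) (nat_lit 258479318) (nat_lit 304) (nat_lit 3706427408)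 (nat_lit 380) (nat_lit 6149930279) (nat_lit 90) (nat_lit 5) (nat_lit 94) (nat_lit 5) (nat_lit 95) (nat_lit 5) (nat_lit 308) (nat_lit 259) (nat_lit 213)) (XT.lf (nat_lit 0) (nat_lit 5864024245) (nat_lit 304) (nat_lit 595575297) (nat_lit 380) (nat_lit 3827165301) (nat_lit 90) (nat_lit 5) (nat_lit 94) (nat_lit 5) (nat_lit 95) (nat_lit 5) (nat_lit 309) (nat_lit 259) (nat_lit 212)))) (XT.nd (nat_lit 78) (nat_lit 380) (nat_lit 0) (XT.lf (nat_lit 0) (nat_lit 1115546046) (nat_lit 380) (nat_lit 7907421624) (nat_lit 456) (nat_lit 1441126975) (nat_lit 85) (nat_lit 5) (nat_lit 90) (nat_lit 5) (nat_lit 91) (nat_lit 5) (nat_lit 310) (nat_lit 259) (nat_lit 211)) (XT.nd (nat_lit 78) (nat_lit 304) (nat_lit 0) (XT.lf (nat_lit 0) (nat_lit 1005926339) (nat_lit 456) (nat_lit 3806250062) (nat_lit 76) (nat_lit 5834052501) (nat_lit 84) (nat_lit 5) (nat_lit 90) (nat_lit 5) (nat_lit 85) (nat_lit 5) (nat_lit 311) (nat_lit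 259) (nat_lit 210)) (XT.lf (nat_lit 0) (nat_lit 1870789083) (nat_lit 304) (nat_lit 1604104858) (nat_lit 380) (nat_lit 7359235296) (nat_lit 80) (nat_lit 5) (nat_lit 84) (nat_lit 5) (nat_lit 85) (nat_lit 5) (nat_lit 312) (nat_lit 259) (nat_lit 209))))))))
noncomputable def xc106 : XT := (XT.nd (nat_lit 1794) (nat_lit 1444) (nat_lit 0) (XT.nd (nat_lit 858) (nat_lit 1444) (nat_lit 0) (XT.nd (nat_lit 390) (nat_lit 912) (nat_lit 0) (XT.nd (nat_lit 156) (nat_lit 380) (nat_lit 0) (XT.nd (nat_lit 78) (nat_lit 304) (nat_lit 0) (XT.lf (nat_lit 0) (nat_lit 6033114546) (nat_lit 380) (nat_lit 3301431448) (nat_lit 76) (nat_lit 1692717639) (nat_lit 80) (nat_lit 5) (nat_lit 85) (nat_lit 5) (nat_lit 81) (nat_lit 5) (nat_lit 313) (nat_lit 259) (nat_lit 208)) (XT.lf (nat_lit 0) (nat_lit 2510670007) (nat_lit 304) (nat_lit 6158616737) (nat_lit 380) (nat_lit 2556920207) (nat_lit 76) (nat_lit 5) (nat_lit 80) (nat_lit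 5) (nat_lit 81) (nat_lit 5) (nat_lit 314) (nat_lit 259) (nat_lit 207))) (XT.nd (nat_lit 78) (nat_lit 380) (nat_lit 0) (XT.lf (nat_lit 0) (nat_lit 8512553512) (nat_lit 304) (nat_lit 2867145334) (nat_lit 380) (nat_lit 51614632) (nat_lit 76) (nat_lit 5) (nat_lit 80) (nat_lit 5) (nat_lit 81) (nat_lit 5) (nat_lit 315) (nat_lit 259) (nat_lit 206)) (XT.nd (nat_lit 78) (nat_lit 0) (nat_lit 0) (XT.lf (nat_lit 0) (nat_lit 2476617754) (nat_lit 380) (nat_lit 8612248961) (nat_lit 76) (nat_lit 553110490) (nat_lit 71) (nat_lit 5) (nat_lit 76) (nat_lit 5) (nat_lit 72) (nat_lit 5) (nat_lit 316) (nat_lit 259) (nat_lit 205)) (XT.lf (nat_lit 0) (nat_lit 5100792970) (nat_lit 380) (nat_lit 2722802817) (nat_lit 76) (nat_lit 4034761074) (nat_lit 71) (nat_lit 5) (nat_lit 76) (nat_lit 5) (nat_lit 72) (nat_lit 5) (nat_lit 317) (nat_lit 259) (nat_lit 204))))) (XT.nd (nat_lit 234) (nat_lit 304) (nat_lit 0) (XT.nd (nat_lit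 78) (nat_lit 304) (nat_lit 0) (XT.lf (nat_lit 0) (nat_lit 3358337076) (nat_lit 304) (nat_lit 4441697118) (nat_lit 380) (nat_lit 4281347518) (nat_lit 67) (nat_lit 5) (nat_lit 71) (nat_lit 5) (nat_lit 72) (nat_lit 5) (nat_lit 318) (nat_lit 259) (nat_lit 203)) (XT.nd (nat_lit 78) (nat_lit 304) (nat_lit 0) (XT.lf (nat_lit 0) (nat_lit 9627698392) (nat_lit 304) (nat_lit 944673543) (nat_lit 380) (nat_lit 1739004539) (nat_lit 67) (nat_lit 5) (nat_lit 71) (nat_lit 5) (nat_lit 72) (nat_lit 5) (nat_lit 319) (nat_lit 259) (nat_lit 202)) (XT.lf (nat_lit 0) (nat_lit 887651797) (nat_lit 304) (nat_lit 9025547328) (nat_lit 76) (nat_lit 2634102361) (nat_lit 63) (nat_lit 5) (nat_lit 67) (nat_lit 5) (nat_lit 64) (nat_lit 5) (nat_lit 320) (nat_lit 259) (nat_lit 201)))) (XT.nd (nat_lit 78) (nat_lit 304) (nat_lit 0) (XT.lf (nat_lit 0) (nat_lit 3560552377) (nat_lit 304) (nat_lit 2897710965) (nat_lit 76) (nat_lit 6331491584)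 (nat_lit 63) (nat_lit 5) (nat_lit 67) (nat_lit 5) (nat_lit 64) (nat_lit 5) (nat_lit 321) (nat_lit 259) (nat_lit 200)) (XT.nd (nat_lit 78) (nat_lit 0) (nat_lit 0) (XT.lf (nat_lit 0) (nat_lit 3432650203) (nat_lit 304) (nat_lit 2880661665) (nat_lit 380) (nat_lit 6726217921) (nat_lit 59) (nat_lit 5) (nat_lit 63) (nat_lit 5) (nat_lit 64) (nat_lit 5) (nat_lit 322) (nat_lit 259) (nat_lit 199)) (XT.lf (nat_lit 0) (nat_lit 9152978037) (nat_lit 380) (nat_lit 3340315680) (nat_lit 76) (nat_lit 803411337) (nat_lit 59) (nat_lit 5) (nat_lit 64) (nat_lit 5) (nat_lit 60) (nat_lit 5) (nat_lit 323) (nat_lit 259) (nat_lit 198)))))) (XT.nd (nat_lit 468) (nat_lit 684) (nat_lit 0) (XT.nd (nat_lit 234) (nat_lit 228) (nat_lit 0) (XT.nd (nat_lit 78) (nat_lit 304) (nat_lit 0) (XT.lf (nat_lit 0) (nat_lit 3098915893) (nat_lit 228) (nat_lit 9005230181) (nat_lit 304) (nat_lit 1456695942) (nat_lit 56) (nat_lit 5) (nat_lit 59)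 (nat_lit 5) (nat_lit 60) (nat_lit 5) (nat_lit 324) (nat_lit 259) (nat_lit 197)) (XT.nd (nat_lit 78) (nat_lit 228) (nat_lit 0) (XT.lf (nat_lit 0) (nat_lit 1287567046) (nat_lit 304) (nat_lit 4092512349) (nat_lit 76) (nat_lit 8452413319) (nat_lit 55) (nat_lit 5) (nat_lit 59) (nat_lit 5) (nat_lit 56) (nat_lit 5) (nat_lit 325) (nat_lit 259) (nat_lit 196)) (XT.lf (nat_lit 0) (nat_lit 2455374098) (nat_lit 228) (nat_lit 1622173925) (nat_lit 304) (nat_lit 10034564941) (nat_lit 52) (nat_lit 5) (nat_lit 55) (nat_lit 5) (nat_lit 56) (nat_lit 5) (nat_lit 326) (nat_lit 259) (nat_lit 195)))) (XT.nd (nat_lit 78) (nat_lit 228) (nat_lit 0) (XT.lf (nat_lit 0) (nat_lit 6983959613) (nat_lit 304) (nat_lit 5183763555) (nat_lit 76) (nat_lit 2231448522) (nat_lit 52) (nat_lit 5) (nat_lit 56) (nat_lit 5) (nat_lit 53) (nat_lit 5) (nat_lit 327) (nat_lit 259) (nat_lit 194)) (XT.nd (nat_lit 78) (nat_lit 0) (nat_lit 0) (XT.lf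 (nat_lit 0) (nat_lit 1450549878) (nat_lit 228) (nat_lit 8527292164) (nat_lit 304) (nat_lit 4717022663) (nat_lit 49) (nat_lit 5) (nat_lit 52) (nat_lit 5) (nat_lit 53) (nat_lit 5) (nat_lit 328) (nat_lit 259) (nat_lit 193)) (XT.lf (nat_lit 0) (nat_lit 8345501437) (nat_lit 228) (nat_lit 4739095722) (nat_lit 304) (nat_lit 1914169643) (nat_lit 49) (nat_lit 5) (nat_lit 52) (nat_lit 5) (nat_lit 53) (nat_lit 5) (nat_lit 329) (nat_lit 259) (nat_lit 192))))) (XT.nd (nat_lit 234) (nat_lit 380) (nat_lit 0) (XT.nd (nat_lit 78) (nat_lit 0) (nat_lit 0) (XT.lf (nat_lit 0) (nat_lit 83847761) (nat_lit 228) (nat_lit 841998350) (nat_lit 304) (nat_lit 14386525804) (nat_lit 45) (nat_lit 5) (nat_lit 48) (nat_lit 5) (nat_lit 49) (nat_lit 5) (nat_lit 330) (nat_lit 259) (nat_lit 191)) (XT.nd (nat_lit 78) (nat_lit 0) (nat_lit 0) (XT.lf (nat_lit 0) (nat_lit 3882457110) (nat_lit 304) (nat_lit 8568272059) (nat_lit 76) (nat_lit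 3182018852) (nat_lit 45) (nat_lit 5) (nat_lit 49) (nat_lit 5) (nat_lit 46) (nat_lit 5) (nat_lit 331) (nat_lit 259) (nat_lit 190)) (XT.lf (nat_lit 0) (nat_lit 6908458622) (nat_lit 304) (nat_lit 1759513517) (nat_lit 76) (nat_lit 7295369142) (nat_lit 45) (nat_lit 5) (nat_lit 49) (nat_lit 5) (nat_lit 46) (nat_lit 5) (nat_lit 332) (nat_lit 259) (nat_lit 189)))) (XT.nd (nat_lit 78) (nat_lit 228) (nat_lit 0) (XT.lf (nat_lit 0) (nat_lit 5315519607) (nat_lit 152) (nat_lit 4733977344) (nat_lit 228) (nat_lit 6253653546) (nat_lit 43) (nat_lit 5) (nat_lit 45) (nat_lit 5) (nat_lit 46) (nat_lit 5) (nat_lit 333) (nat_lit 259) (nat_lit 188)) (XT.nd (nat_lit 78) (nat_lit 228) (nat_lit 0) (XT.lf (nat_lit 0) (nat_lit 12597567875) (nat_lit 152) (nat_lit 678511622) (nat_lit 228) (nat_lit 3377360209) (nat_lit 43) (nat_lit 5) (nat_lit 45) (nat_lit 5) (nat_lit 46) (nat_lit 5) (nat_lit 334) (nat_lit 259) (nat_lit 187))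 (XT.lf (nat_lit 0) (nat_lit 3069345699) (nat_lit 228) (nat_lit 13567426470) (nat_lit 304) (nat_lit 376370417) (nat_lit 40) (nat_lit 5) (nat_lit 43) (nat_lit 5) (nat_lit 44) (nat_lit 5) (nat_lit 335) (nat_lit 259) (nat_lit 186))))))) (XT.nd (nat_lit 936) (nat_lit 684) (nat_lit 0) (XT.nd (nat_lit 468) (nat_lit 304) (nat_lit 0) (XT.nd (nat_lit 234) (nat_lit 228) (nat_lit 0) (XT.nd (nat_lit 78) (nat_lit 152) (nat_lit 0) (XT.lf (nat_lit 0) (nat_lit 2684022552) (nat_lit 304) (nat_lit 6965058003) (nat_lit 76) (nat_lit 7733125748) (nat_lit 39) (nat_lit 5) (nat_lit 43) (nat_lit 5) (nat_lit 40) (nat_lit 5) (nat_lit 336) (nat_lit 259) (nat_lit 185)) (XT.nd (nat_lit 78) (nat_lit 0) (nat_lit 0) (XT.lf (nat_lit 0) (nat_lit 183189371) (nat_lit 152) (nat_lit 5622249990) (nat_lit 228) (nat_lit 11957509783) (nat_lit 37) (nat_lit 5) (nat_lit 39) (nat_lit 5) (nat_lit 40) (nat_lit 5) (nat_lit 337) (nat_lit 259) (nat_lit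 184)) (XT.lf (nat_lit 0) (nat_lit 7649348342) (nat_lit 152) (nat_lit 1416849354) (nat_lit 228) (nat_lit 9087567262) (nat_lit 37) (nat_lit 5) (nat_lit 39) (nat_lit 5) (nat_lit 40) (nat_lit 5) (nat_lit 338) (nat_lit 259) (nat_lit 183)))) (XT.nd (nat_lit 78) (nat_lit 228) (nat_lit 0) (XT.lf (nat_lit 0) (nat_lit 12428742901) (nat_lit 228) (nat_lit 3283600377) (nat_lit 76) (nat_lit 2843864072) (nat_lit 37) (nat_lit 5) (nat_lit 40) (nat_lit 5) (nat_lit 38) (nat_lit 5) (nat_lit 339) (nat_lit 259) (nat_lit 182)) (XT.nd (nat_lit 78) (nat_lit 76) (nat_lit 0) (XT.lf (nat_lit 0) (nat_lit 4183813403) (nat_lit 152) (nat_lit 11739243355) (nat_lit 228) (nat_lit 3046759903) (nat_lit 35) (nat_lit 5) (nat_lit 37) (nat_lit 5) (nat_lit 38) (nat_lit 5) (nat_lit 340) (nat_lit 259) (nat_lit 181)) (XT.lf (nat_lit 0) (nat_lit 134107315) (nat_lit 228) (nat_lit 7491575850) (nat_lit 76) (nat_lit 11769827665) (nat_lit 34)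 (nat_lit 5) (nat_lit 37) (nat_lit 5) (nat_lit 35) (nat_lit 5) (nat_lit 341) (nat_lit 259) (nat_lit 180))))) (XT.nd (nat_lit 234) (nat_lit 152) (nat_lit 0) (XT.nd (nat_lit 78) (nat_lit 152) (nat_lit 0) (XT.lf (nat_lit 0) (nat_lit 3326562883) (nat_lit 228) (nat_lit 45135463) (nat_lit 76) (nat_lit 16462069207) (nat_lit 34) (nat_lit 5) (nat_lit 37) (nat_lit 5) (nat_lit 35) (nat_lit 5) (nat_lit 342) (nat_lit 259) (nat_lit 179)) (XT.nd (nat_lit 78) (nat_lit 0) (nat_lit 0) (XT.lf (nat_lit 0) (nat_lit 6677565986) (nat_lit 228) (nat_lit 12553779621) (nat_lit 76) (nat_lit 1051961292) (nat_lit 32) (nat_lit 5) (nat_lit 35) (nat_lit 5) (nat_lit 33) (nat_lit 5) (nat_lit 343) (nat_lit 259) (nat_lit 178)) (XT.lf (nat_lit 0) (nat_lit 10141169786) (nat_lit 228) (nat_lit 5077124901) (nat_lit 76) (nat_lit 5527693232) (nat_lit 32) (nat_lit 5) (nat_lit 35) (nat_lit 5) (nat_lit 33) (nat_lit 5) (nat_lit 344) (nat_lit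 259) (nat_lit 177)))) (XT.nd (nat_lit 78) (nat_lit 0) (nat_lit 0) (XT.lf (nat_lit 0) (nat_lit 2640625915) (nat_lit 152) (nat_lit 11072300415) (nat_lit 228) (nat_lit 7509512796) (nat_lit 30) (nat_lit 5) (nat_lit 32) (nat_lit 5) (nat_lit 33) (nat_lit 5) (nat_lit 345) (nat_lit 259) (nat_lit 176)) (XT.nd (nat_lit 78) (nat_lit 0) (nat_lit 0) (XT.lf (nat_lit 0) (nat_lit 10659594178) (nat_lit 152) (nat_lit 6762656820) (nat_lit 228) (nat_lit 4290037009) (nat_lit 30) (nat_lit 5) (nat_lit 32) (nat_lit 5) (nat_lit 33) (nat_lit 5) (nat_lit 346) (nat_lit 259) (nat_lit 175)) (XT.lf (nat_lit 0) (nat_lit 18885742011) (nat_lit 152) (nat_lit 2336867200) (nat_lit 228) (nat_lit 994846644) (nat_lit 30) (nat_lit 5) (nat_lit 32) (nat_lit 5) (nat_lit 33) (nat_lit 5) (nat_lit 347) (nat_lit 259) (nat_lit 174)))))) (XT.nd (nat_lit 468) (nat_lit 304) (nat_lit 0) (XT.nd (nat_lit 234) (nat_lit 152) (nat_lit 0) (XT.nd (nat_lit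 78) (nat_lit 0) (nat_lit 0) (XT.lf (nat_lit 0) (nat_lit 2399174077) (nat_lit 228) (nat_lit 18102400586) (nat_lit 76) (nat_lit 2234123639) (nat_lit 27) (nat_lit 5) (nat_lit 30) (nat_lit 5) (nat_lit 28) (nat_lit 5) (nat_lit 348) (nat_lit 259) (nat_lit 173)) (XT.nd (nat_lit 78) (nat_lit 0) (nat_lit 0) (XT.lf (nat_lit 0) (nat_lit 5912409828) (nat_lit 228) (nat_lit 10429226993) (nat_lit 76) (nat_lit 6926448755) (nat_lit 27) (nat_lit 5) (nat_lit 30) (nat_lit 5) (nat_lit 28) (nat_lit 5) (nat_lit 349) (nat_lit 259) (nat_lit 172)) (XT.lf (nat_lit 0) (nat_lit 9511892804) (nat_lit 228) (nat_lit 2557881885) (nat_lit 76) (nat_lit 11747258594) (nat_lit 27) (nat_lit 5) (nat_lit 30) (nat_lit 5) (nat_lit 28) (nat_lit 5) (nat_lit 350) (nat_lit 259) (nat_lit 171)))) (XT.nd (nat_lit 78) (nat_lit 0) (nat_lit 0) (XT.lf (nat_lit 0) (nat_lit 5628341833) (nat_lit 152) (nat_lit 7626529415) (nat_lit 228) (nat_lit 11126526746)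 (nat_lit 25) (nat_lit 5) (nat_lit 27) (nat_lit 5) (nat_lit 28) (nat_lit 5) (nat_lit 351) (nat_lit 259) (nat_lit 170)) (XT.nd (nat_lit 78) (nat_lit 0) (nat_lit 0) (XT.lf (nat_lit 0) (nat_lit 14081800183) (nat_lit 152) (nat_lit 3035821950) (nat_lit 228) (nat_lit 7844860516) (nat_lit 25) (nat_lit 5) (nat_lit 27) (nat_lit 5) (nat_lit 28) (nat_lit 5) (nat_lit 352) (nat_lit 259) (nat_lit 169)) (XT.lf (nat_lit 0) (nat_lit 21094597682) (nat_lit 228) (nat_lit 2818728771) (nat_lit 76) (nat_lit 1647736230) (nat_lit 25) (nat_lit 5) (nat_lit 28) (nat_lit 5) (nat_lit 26) (nat_lit 4) (nat_lit 353) (nat_lit 259) (nat_lit 168))))) (XT.nd (nat_lit 234) (nat_lit 152) (nat_lit 0) (XT.nd (nat_lit 78) (nat_lit 76) (nat_lit 0) (XT.lf (nat_lit 0) (nat_lit 5533568025) (nat_lit 76) (nat_lit 19723158103) (nat_lit 152) (nat_lit 918911403) (nat_lit 24) (nat_lit 5) (nat_lit 25) (nat_lit 5) (nat_lit 26) (nat_lit 4) (nat_lit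 354) (nat_lit 259) (nat_lit 167)) (XT.nd (nat_lit 78) (nat_lit 0) (nat_lit 0) (XT.lf (nat_lit 0) (nat_lit 2693081729) (nat_lit 152) (nat_lit 12669660409) (nat_lit 76) (nat_lit 11444789226) (nat_lit 23) (nat_lit 5) (nat_lit 25) (nat_lit 5) (nat_lit 24) (nat_lit 5) (nat_lit 355) (nat_lit 259) (nat_lit 166)) (XT.lf (nat_lit 0) (nat_lit 6378109639) (nat_lit 152) (nat_lit 4495824377) (nat_lit 76) (nat_lit 16584692366) (nat_lit 23) (nat_lit 5) (nat_lit 25) (nat_lit 5) (nat_lit 24) (nat_lit 5) (nat_lit 356) (nat_lit 259) (nat_lit 165)))) (XT.nd (nat_lit 78) (nat_lit 0) (nat_lit 0) (XT.lf (nat_lit 0) (nat_lit 3972940288) (nat_lit 152) (nat_lit 6222573570) (nat_lit 228) (nat_lit 17933096933) (nat_lit 21) (nat_lit 5) (nat_lit 23) (nat_lit 5) (nat_lit 24) (nat_lit 5) (nat_lit 357) (nat_lit 259) (nat_lit 164)) (XT.nd (nat_lit 78) (nat_lit 0) (nat_lit 0) (XT.lf (nat_lit 0) (nat_lit 12760387739) (nat_lit 152)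 (nat_lit 1396298527) (nat_lit 228) (nat_lit 14661142058) (nat_lit 21) (nat_lit 5) (nat_lit 23) (nat_lit 5) (nat_lit 24) (nat_lit 5) (nat_lit 358) (nat_lit 259) (nat_lit 163)) (XT.lf (nat_lit 0) (nat_lit 18255267928) (nat_lit 228) (nat_lit 7777739458) (nat_lit 76) (nat_lit 3494168429) (nat_lit 21) (nat_lit 5) (nat_lit 24) (nat_lit 5) (nat_lit 22) (nat_lit 4) (nat_lit 359) (nat_lit 259) (nat_lit 162))))))))
noncomputable def xc107 : XT := (XT.nd (nat_lit 1872) (nat_lit 228) (nat_lit 0) (XT.nd (nat_lit 936) (nat_lit 456) (nat_lit 0) (XT.nd (nat_lit 468) (nat_lit 76) (nat_lit 0) (XT.nd (nat_lit 234) (nat_lit 228) (nat_lit 0) (XT.nd (nat_lit 78) (nat_lit 0) (nat_lit 0) (XT.lf (nat_lit 0) (nat_lit 724339264) (nat_lit 76) (nat_lit 21757926424) (nat_lit 152) (nat_lit 7775384628) (nat_lit 20) (nat_lit 5) (nat_lit 21) (nat_lit 5) (nat_lit 22) (nat_lit 4) (nat_lit 360) (nat_lit 259) (nat_lit 161)) (XT.nd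 (nat_lit 78) (nat_lit 0) (nat_lit 0) (XT.lf (nat_lit 0) (nat_lit 9614851285) (nat_lit 76) (nat_lit 17284629054) (nat_lit 152) (nat_lit 4108666546) (nat_lit 20) (nat_lit 5) (nat_lit 21) (nat_lit 5) (nat_lit 22) (nat_lit 4) (nat_lit 361) (nat_lit 259) (nat_lit 160)) (XT.lf (nat_lit 0) (nat_lit 18746772747) (nat_lit 76) (nat_lit 12687746487) (nat_lit 152) (nat_lit 347089634) (nat_lit 20) (nat_lit 5) (nat_lit 21) (nat_lit 5) (nat_lit 22) (nat_lit 4) (nat_lit 362) (nat_lit 259) (nat_lit 159)))) (XT.nd (nat_lit 78) (nat_lit 152) (nat_lit 0) (XT.lf (nat_lit 0) (nat_lit 3444088803) (nat_lit 152) (nat_lit 4484394682) (nat_lit 76) (nat_lit 24649215651) (nat_lit 19) (nat_lit 5) (nat_lit 21) (nat_lit 5) (nat_lit 20) (nat_lit 5) (nat_lit 363) (nat_lit 259) (nat_lit 158)) (XT.nd (nat_lit 78) (nat_lit 0) (nat_lit 0) (XT.lf (nat_lit 0) (nat_lit 4380461340) (nat_lit 152) (nat_lit 2989677839) (nat_lit 228) (nat_lit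 26026595379) (nat_lit 17) (nat_lit 5) (nat_lit 19) (nat_lit 5) (nat_lit 20) (nat_lit 5) (nat_lit 364) (nat_lit 259) (nat_lit 157)) (XT.lf (nat_lit 0) (nat_lit 11465949412) (nat_lit 228) (nat_lit 20680632849) (nat_lit 76) (nat_lit 2092208094) (nat_lit 17) (nat_lit 5) (nat_lit 20) (nat_lit 5) (nat_lit 18) (nat_lit 4) (nat_lit 365) (nat_lit 259) (nat_lit 156))))) (XT.nd (nat_lit 234) (nat_lit 0) (nat_lit 0) (XT.nd (nat_lit 78) (nat_lit 76) (nat_lit 0) (XT.lf (nat_lit 0) (nat_lit 15700725932) (nat_lit 228) (nat_lit 12148048549) (nat_lit 76) (nat_lit 7256858995) (nat_lit 17) (nat_lit 5) (nat_lit 20) (nat_lit 5) (nat_lit 18) (nat_lit 4) (nat_lit 366) (nat_lit 259) (nat_lit 155)) (XT.nd (nat_lit 78) (nat_lit 76) (nat_lit 0) (XT.lf (nat_lit 0) (nat_lit 20049430418) (nat_lit 228) (nat_lit 3382326052) (nat_lit 76) (nat_lit 12567127048) (nat_lit 17) (nat_lit 5) (nat_lit 20) (nat_lit 5) (nat_lit 18) (nat_lit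 4) (nat_lit 367) (nat_lit 259) (nat_lit 154)) (XT.lf (nat_lit 0) (nat_lit 5736126500) (nat_lit 76) (nat_lit 18834875364) (nat_lit 152) (nat_lit 12346664949) (nat_lit 16) (nat_lit 5) (nat_lit 17) (nat_lit 5) (nat_lit 18) (nat_lit 4) (nat_lit 368) (nat_lit 259) (nat_lit 153)))) (XT.nd (nat_lit 78) (nat_lit 0) (nat_lit 0) (XT.lf (nat_lit 0) (nat_lit 15175510283) (nat_lit 76) (nat_lit 14074291515) (nat_lit 152) (nat_lit 8613572067) (nat_lit 16) (nat_lit 5) (nat_lit 17) (nat_lit 5) (nat_lit 18) (nat_lit 4) (nat_lit 369) (nat_lit 259) (nat_lit 152)) (XT.nd (nat_lit 78) (nat_lit 0) (nat_lit 0) (XT.lf (nat_lit 0) (nat_lit 24876758382) (nat_lit 76) (nat_lit 9180000049) (nat_lit 152) (nat_lit 4781067389) (nat_lit 16) (nat_lit 5) (nat_lit 17) (nat_lit 5) (nat_lit 18) (nat_lit 4) (nat_lit 370) (nat_lit 259) (nat_lit 151)) (XT.lf (nat_lit 0) (nat_lit 34848347613) (nat_lit 76) (nat_lit 4147724402) (nat_lit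 152) (nat_lit 845802124) (nat_lit 16) (nat_lit 5) (nat_lit 17) (nat_lit 5) (nat_lit 18) (nat_lit 4) (nat_lit 371) (nat_lit 259) (nat_lit 150)))))) (XT.nd (nat_lit 468) (nat_lit 152) (nat_lit 0) (XT.nd (nat_lit 234) (nat_lit 76) (nat_lit 0) (XT.nd (nat_lit 78) (nat_lit 0) (nat_lit 0) (XT.lf (nat_lit 0) (nat_lit 3184982799) (nat_lit 228) (nat_lit 36609521473) (nat_lit 76) (nat_lit 1079419937) (nat_lit 13) (nat_lit 5) (nat_lit 16) (nat_lit 5) (nat_lit 14) (nat_lit 4) (nat_lit 372) (nat_lit 259) (nat_lit 149)) (XT.nd (nat_lit 78) (nat_lit 0) (nat_lit 0) (XT.lf (nat_lit 0) (nat_lit 7400116749) (nat_lit 228) (nat_lit 28103331247) (nat_lit 76) (nat_lit 6430830437) (nat_lit 13) (nat_lit 5) (nat_lit 16) (nat_lit 5) (nat_lit 14) (nat_lit 4) (nat_lit 373) (nat_lit 259) (nat_lit 148)) (XT.lf (nat_lit 0) (nat_lit 11730476177) (nat_lit 228) (nat_lit 19361761505) (nat_lit 76) (nat_lit 11934548905) (nat_lit 13)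 (nat_lit 5) (nat_lit 16) (nat_lit 5) (nat_lit 14) (nat_lit 4) (nat_lit 374) (nat_lit 259) (nat_lit 147)))) (XT.nd (nat_lit 78) (nat_lit 76) (nat_lit 0) (XT.lf (nat_lit 0) (nat_lit 16179844891) (nat_lit 228) (nat_lit 10377173981) (nat_lit 76) (nat_lit 17595384416) (nat_lit 13) (nat_lit 5) (nat_lit 16) (nat_lit 5) (nat_lit 14) (nat_lit 4) (nat_lit 375) (nat_lit 259) (nat_lit 146)) (XT.nd (nat_lit 78) (nat_lit 76) (nat_lit 0) (XT.lf (nat_lit 0) (nat_lit 20752110691) (nat_lit 228) (nat_lit 1141718065) (nat_lit 76) (nat_lit 23418283330) (nat_lit 13) (nat_lit 5) (nat_lit 16) (nat_lit 5) (nat_lit 14) (nat_lit 4) (nat_lit 376) (nat_lit 259) (nat_lit 145)) (XT.lf (nat_lit 0) (nat_lit 8518910689) (nat_lit 76) (nat_lit 17014247051) (nat_lit 152) (nat_lit 20971311908) (nat_lit 12) (nat_lit 5) (nat_lit 13) (nat_lit 5) (nat_lit 14) (nat_lit 4) (nat_lit 377) (nat_lit 259) (nat_lit 144))))) (XT.nd (nat_lit 234)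 (nat_lit 152) (nat_lit 0) (XT.nd (nat_lit 78) (nat_lit 0) (nat_lit 0) (XT.lf (nat_lit 0) (nat_lit 18474814639) (nat_lit 76) (nat_lit 11984201737) (nat_lit 152) (nat_lit 17273545883) (nat_lit 12) (nat_lit 5) (nat_lit 13) (nat_lit 5) (nat_lit 14) (nat_lit 4) (nat_lit 378) (nat_lit 259) (nat_lit 143)) (XT.nd (nat_lit 78) (nat_lit 0) (nat_lit 0) (XT.lf (nat_lit 0) (nat_lit 28711970689) (nat_lit 76) (nat_lit 6810826745) (nat_lit 152) (nat_lit 13475001375) (nat_lit 12) (nat_lit 5) (nat_lit 13) (nat_lit 5) (nat_lit 14) (nat_lit 4) (nat_lit 379) (nat_lit 259) (nat_lit 142)) (XT.lf (nat_lit 0) (nat_lit 39239323927) (nat_lit 76) (nat_lit 1489601649) (nat_lit 152) (nat_lit 9572359269) (nat_lit 12) (nat_lit 5) (nat_lit 13) (nat_lit 5) (nat_lit 14) (nat_lit 4) (nat_lit 380) (nat_lit 259) (nat_lit 141)))) (XT.nd (nat_lit 78) (nat_lit 152) (nat_lit 0) (XT.lf (nat_lit 0) (nat_lit 46120247677) (nat_lit 152) (nat_lit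 1616384153) (nat_lit 0) (nat_lit 3906378570) (nat_lit 12) (nat_lit 5) (nat_lit 14) (nat_lit 4) (nat_lit 12) (nat_lit 4) (nat_lit 381) (nat_lit 259) (nat_lit 140)) (XT.nd (nat_lit 78) (nat_lit 76) (nat_lit 0) (XT.lf (nat_lit 0) (nat_lit 8242496828) (nat_lit 76) (nat_lit 43515709257) (nat_lit 76) (nat_lit 1264239825) (nat_lit 11) (nat_lit 4) (nat_lit 12) (nat_lit 5) (nat_lit 12) (nat_lit 4) (nat_lit 382) (nat_lit 259) (nat_lit 139)) (XT.lf (nat_lit 0) (nat_lit 3068533767) (nat_lit 152) (nat_lit 36058851054) (nat_lit 76) (nat_lit 15314761616) (nat_lit 10) (nat_lit 5) (nat_lit 12) (nat_lit 5) (nat_lit 11) (nat_lit 4) (nat_lit 383) (nat_lit 259) (nat_lit 138))))))) (XT.nd (nat_lit 936) (nat_lit 76) (nat_lit 0) (XT.nd (nat_lit 468) (nat_lit 76) (nat_lit 0) (XT.nd (nat_lit 234) (nat_lit 76) (nat_lit 0) (XT.nd (nat_lit 78) (nat_lit 0) (nat_lit 0) (XT.lf (nat_lit 0) (nat_lit 7497077988) (nat_lit 152) (nat_lit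 27104348197) (nat_lit 76) (nat_lit 21302905012) (nat_lit 10) (nat_lit 5) (nat_lit 12) (nat_lit 5) (nat_lit 11) (nat_lit 4) (nat_lit 384) (nat_lit 259) (nat_lit 137)) (XT.nd (nat_lit 78) (nat_lit 0) (nat_lit 0) (XT.lf (nat_lit 0) (nat_lit 12049932313) (nat_lit 152) (nat_lit 17896463542) (nat_lit 76) (nat_lit 27464246554) (nat_lit 10) (nat_lit 5) (nat_lit 12) (nat_lit 5) (nat_lit 11) (nat_lit 4) (nat_lit 385) (nat_lit 259) (nat_lit 136)) (XT.lf (nat_lit 0) (nat_lit 16731074963) (nat_lit 152) (nat_lit 8427151365) (nat_lit 76) (nat_lit 33804169938) (nat_lit 10) (nat_lit 5) (nat_lit 12) (nat_lit 5) (nat_lit 11) (nat_lit 4) (nat_lit 386) (nat_lit 259) (nat_lit 135)))) (XT.nd (nat_lit 78) (nat_lit 0) (nat_lit 0) (XT.lf (nat_lit 0) (nat_lit 1337971126) (nat_lit 76) (nat_lit 20219486527) (nat_lit 152) (nat_lit 39003105173) (nat_lit 9) (nat_lit 5) (nat_lit 10) (nat_lit 5) (nat_lit 11) (nat_lit 4) (nat_lit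 387) (nat_lit 259) (nat_lit 134)) (XT.nd (nat_lit 78) (nat_lit 0) (nat_lit 0) (XT.lf (nat_lit 0) (nat_lit 11554558905) (nat_lit 76) (nat_lit 15051212768) (nat_lit 152) (nat_lit 35598592654) (nat_lit 9) (nat_lit 5) (nat_lit 10) (nat_lit 5) (nat_lit 11) (nat_lit 4) (nat_lit 388) (nat_lit 259) (nat_lit 133)) (XT.lf (nat_lit 0) (nat_lit 22063822250) (nat_lit 76) (nat_lit 9733986787) (nat_lit 152) (nat_lit 32099906633) (nat_lit 9) (nat_lit 5) (nat_lit 10) (nat_lit 5) (nat_lit 11) (nat_lit 4) (nat_lit 389) (nat_lit 259) (nat_lit 132))))) (XT.nd (nat_lit 234) (nat_lit 76) (nat_lit 0) (XT.nd (nat_lit 78) (nat_lit 0) (nat_lit 0) (XT.lf (nat_lit 0) (nat_lit 32874944014) (nat_lit 76) (nat_lit 4263162466) (nat_lit 152) (nat_lit 28503990006) (nat_lit 9) (nat_lit 5) (nat_lit 10) (nat_lit 5) (nat_lit 11) (nat_lit 4) (nat_lit 390) (nat_lit 259) (nat_lit 131)) (XT.nd (nat_lit 78) (nat_lit 0) (nat_lit 0) (XT.lf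 (nat_lit 0) (nat_lit 42644461496) (nat_lit 152) (nat_lit 23454791401) (nat_lit 0) (nat_lit 1339384156) (nat_lit 9) (nat_lit 5) (nat_lit 11) (nat_lit 4) (nat_lit 9) (nat_lit 4) (nat_lit 391) (nat_lit 259) (nat_lit 130)) (XT.lf (nat_lit 0) (nat_lit 48351092612) (nat_lit 152) (nat_lit 13918080340) (nat_lit 0) (nat_lit 7018851997) (nat_lit 9) (nat_lit 5) (nat_lit 11) (nat_lit 4) (nat_lit 9) (nat_lit 4) (nat_lit 392) (nat_lit 259) (nat_lit 129)))) (XT.nd (nat_lit 78) (nat_lit 76) (nat_lit 0) (XT.lf (nat_lit 0) (nat_lit 54222006081) (nat_lit 152) (nat_lit 4107706115) (nat_lit 0) (nat_lit 12863393354) (nat_lit 9) (nat_lit 5) (nat_lit 11) (nat_lit 4) (nat_lit 9) (nat_lit 4) (nat_lit 393) (nat_lit 259) (nat_lit 128)) (XT.nd (nat_lit 78) (nat_lit 0) (nat_lit 0) (XT.lf (nat_lit 0) (nat_lit 6104014758) (nat_lit 76) (nat_lit 54216992591) (nat_lit 76) (nat_lit 12832775872) (nat_lit 8) (nat_lit 4) (nat_lit 9)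 (nat_lit 5) (nat_lit 9) (nat_lit 4) (nat_lit 394) (nat_lit 259) (nat_lit 127)) (XT.lf (nat_lit 0) (nat_lit 16694333707) (nat_lit 76) (nat_lit 49943490242) (nat_lit 76) (nat_lit 8534415279) (nat_lit 8) (nat_lit 4) (nat_lit 9) (nat_lit 5) (nat_lit 9) (nat_lit 4) (nat_lit 395) (nat_lit 259) (nat_lit 126)))))) (XT.nd (nat_lit 30186) (nat_lit 0) (nat_lit 20976) (XT.nd (nat_lit 390) (nat_lit 0) (nat_lit 0) (XT.nd (nat_lit 78) (nat_lit 76) (nat_lit 0) (XT.lf (nat_lit 0) (nat_lit 27590753000) (nat_lit 76) (nat_lit 45546950799) (nat_lit 76) (nat_lit 4113741618) (nat_lit 8) (nat_lit 4) (nat_lit 9) (nat_lit 5) (nat_lit 9) (nat_lit 4) (nat_lit 396) (nat_lit 259) (nat_lit 125)) (XT.nd (nat_lit 78) (nat_lit 0) (nat_lit 0) (XT.lf (nat_lit 0) (nat_lit 424656339) (nat_lit 152) (nat_lit 40594588090) (nat_lit 76) (nat_lit 38373849246) (nat_lit 7) (nat_lit 5) (nat_lit 9) (nat_lit 5) (nat_lit 8) (nat_lit 4) (nat_lit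 397) (nat_lit 259) (nat_lit 124)) (XT.lf (nat_lit 0) (nat_lit 5010389478) (nat_lit 152) (nat_lit 31308298635) (nat_lit 76) (nat_lit 45279268392) (nat_lit 7) (nat_lit 5) (nat_lit 9) (nat_lit 5) (nat_lit 8) (nat_lit 4) (nat_lit 398) (nat_lit 259) (nat_lit 123)))) (XT.nd (nat_lit 29640) (nat_lit 0) (nat_lit 21584) (XT.lf (nat_lit 0) (nat_lit 19573891605) (nat_lit 152) (nat_lit 1808736874) (nat_lit 76) (nat_lit 67235879137) (nat_lit 7) (nat_lit 5) (nat_lit 9) (nat_lit 5) (nat_lit 8) (nat_lit 4) (nat_lit 401) (nat_lit 259) (nat_lit 120)) (XT.nd (nat_lit 78) (nat_lit 76) (nat_lit 0) (XT.lf (nat_lit 0) (nat_lit 1073741823) (nat_lit 0) (nat_lit 0) (nat_lit 0) (nat_lit 0) (nat_lit 292) (nat_lit 0) (nat_lit 1) (nat_lit 0) (nat_lit 1) (nat_lit 0) (nat_lit 260) (nat_lit 260) (nat_lit 260)) (XT.lf (nat_lit 0) (nat_lit 2871234973) (nat_lit 76) (nat_lit 3515667712) (nat_lit 0) (nat_lit 56571940) (nat_lit 291)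 (nat_lit 5) (nat_lit 292) (nat_lit 0) (nat_lit 291) (nat_lit 4) (nat_lit 261) (nat_lit 260) (nat_lit 259))))) (XT.nd (nat_lit 234) (nat_lit 456) (nat_lit 0) (XT.nd (nat_lit 78) (nat_lit 152) (nat_lit 0) (XT.lf (nat_lit 0) (nat_lit 5717110843) (nat_lit 76) (nat_lit 561367632) (nat_lit 0) (nat_lit 169765252) (nat_lit 291) (nat_lit 5) (nat_lit 292) (nat_lit 0) (nat_lit 291) (nat_lit 4) (nat_lit 262) (nat_lit 260) (nat_lit 258)) (XT.nd (nat_lit 78) (nat_lit 0) (nat_lit 0) (XT.lf (nat_lit 0) (nat_lit 2066688585) (nat_lit 152) (nat_lit 4005057623) (nat_lit 76) (nat_lit 383695699) (nat_lit 289) (nat_lit 5) (nat_lit 291) (nat_lit 5) (nat_lit 290) (nat_lit 4) (nat_lit 263) (nat_lit 260) (nat_lit 257)) (XT.lf (nat_lit 0) (nat_lit 4832433695) (nat_lit 152) (nat_lit 966410450) (nat_lit 76) (nat_lit 667172639) (nat_lit 289) (nat_lit 5) (nat_lit 291) (nat_lit 5) (nat_lit 290) (nat_lit 4) (nat_lit 264) (nat_lit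 260) (nat_lit 256)))) (XT.nd (nat_lit 78) (nat_lit 228) (nat_lit 0) (XT.lf (nat_lit 0) (nat_lit 1096307845) (nat_lit 228) (nat_lit 4343865547) (nat_lit 76) (nat_lit 1039240308) (nat_lit 286) (nat_lit 5) (nat_lit 289) (nat_lit 5) (nat_lit 287) (nat_lit 5) (nat_lit 265) (nat_lit 260) (nat_lit 255)) (XT.nd (nat_lit 78) (nat_lit 228) (nat_lit 0) (XT.lf (nat_lit 0) (nat_lit 3782345673) (nat_lit 228) (nat_lit 1219260106) (nat_lit 76) (nat_lit 1494218738) (nat_lit 286) (nat_lit 5) (nat_lit 289) (nat_lit 5) (nat_lit 287) (nat_lit 5) (nat_lit 266) (nat_lit 260) (nat_lit 254)) (XT.lf (nat_lit 0) (nat_lit 1979016166) (nat_lit 228) (nat_lit 4489193432) (nat_lit 304) (nat_lit 47241411) (nat_lit 283) (nat_lit 5) (nat_lit 286) (nat_lit 5) (nat_lit 287) (nat_lit 5) (nat_lit 267) (nat_lit 260) (nat_lit 253))))))))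
noncomputable def xc108 : XT := (XT.nd (nat_lit 1794) (nat_lit 6156) (nat_lit 0) (XT.nd (nat_lit 858) (nat_lit 5928) (nat_lit 0) (XT.nd (nat_lit 390) (nat_lit 2508) (nat_lit 0) (XT.nd (nat_lit 156) (nat_lit 456) (nat_lit 0) (XT.nd (nat_lit 78) (nat_lit 304) (nat_lit 0) (XT.lf (nat_lit 0) (nat_lit 2560068429) (nat_lit 304) (nat_lit 1323485870) (nat_lit 76) (nat_lit 2654204542) (nat_lit 282) (nat_lit 5) (nat_lit 286) (nat_lit 5) (nat_lit 283) (nat_lit 5) (nat_lit 268) (nat_lit 260) (nat_lit 252)) (XT.lf (nat_lit 0) (nat_lit 1965131481) (nat_lit 304) (nat_lit 3202598980) (nat_lit 380) (nat_lit 1395574125) (nat_lit 278) (nat_lit 5) (nat_lit 282) (nat_lit 5) (nat_lit 283) (nat_lit 5) (nat_lit 269) (nat_lit 260) (nat_lit 251))) (XT.nd (nat_lit 78) (nat_lit 380) (nat_lit 0) (XT.lf (nat_lit 0) (nat_lit 1158073945) (nat_lit 380) (nat_lit 1282130977) (nat_lit 76) (nat_lit 4151744649) (nat_lit 277) (nat_lit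 5) (nat_lit 282) (nat_lit 5) (nat_lit 278) (nat_lit 5) (nat_lit 270) (nat_lit 260) (nat_lit 250)) (XT.nd (nat_lit 78) (nat_lit 0) (nat_lit 0) (XT.lf (nat_lit 0) (nat_lit 2102178437) (nat_lit 380) (nat_lit 1586307548) (nat_lit 456) (nat_lit 2934959100) (nat_lit 272) (nat_lit 5) (nat_lit 277) (nat_lit 5) (nat_lit 278) (nat_lit 5) (nat_lit 271) (nat_lit 260) (nat_lit 249)) (XT.lf (nat_lit 0) (nat_lit 5556454798) (nat_lit 380) (nat_lit 661423024) (nat_lit 456) (nat_lit 440560114) (nat_lit 272) (nat_lit 5) (nat_lit 277) (nat_lit 5) (nat_lit 278) (nat_lit 5) (nat_lit 272) (nat_lit 260) (nat_lit 248))))) (XT.nd (nat_lit 234) (nat_lit 1368) (nat_lit 0) (XT.nd (nat_lit 78) (nat_lit 608) (nat_lit 0) (XT.lf (nat_lit 0) (nat_lit 2025247489) (nat_lit 532) (nat_lit 4311715162) (nat_lit 76) (nat_lit 358991081) (nat_lit 265) (nat_lit 5) (nat_lit 272) (nat_lit 5) (nat_lit 266) (nat_lit 5) (nat_lit 273) (nat_lit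 260) (nat_lit 247)) (XT.nd (nat_lit 78) (nat_lit 608) (nat_lit 0) (XT.lf (nat_lit 0) (nat_lit 4487899365) (nat_lit 532) (nat_lit 808314761) (nat_lit 76) (nat_lit 1440522020) (nat_lit 265) (nat_lit 5) (nat_lit 272) (nat_lit 5) (nat_lit 266) (nat_lit 5) (nat_lit 274) (nat_lit 260) (nat_lit 246)) (XT.lf (nat_lit 0) (nat_lit 183440392) (nat_lit 608) (nat_lit 3986615625) (nat_lit 76) (nat_lit 2610549691) (nat_lit 257) (nat_lit 5) (nat_lit 265) (nat_lit 5) (nat_lit 258) (nat_lit 5) (nat_lit 275) (nat_lit 260) (nat_lit 245)))) (XT.nd (nat_lit 78) (nat_lit 1368) (nat_lit 0) (XT.lf (nat_lit 0) (nat_lit 2569031905) (nat_lit 608) (nat_lit 387134552) (nat_lit 76) (nat_lit 3871395329) (nat_lit 257) (nat_lit 5) (nat_lit 265) (nat_lit 5) (nat_lit 258) (nat_lit 5) (nat_lit 276) (nat_lit 260) (nat_lit 244)) (XT.nd (nat_lit 78) (nat_lit 760) (nat_lit 0) (XT.lf (nat_lit 0) (nat_lit 3326826729) (nat_lit 608) (nat_lit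 1651054807) (nat_lit 684) (nat_lit 1899693097) (nat_lit 249) (nat_lit 5) (nat_lit 257) (nat_lit 5) (nat_lit 258) (nat_lit 5) (nat_lit 277) (nat_lit 260) (nat_lit 243)) (XT.lf (nat_lit 0) (nat_lit 169732841) (nat_lit 684) (nat_lit 275941875) (nat_lit 760) (nat_lit 6485664531) (nat_lit 239) (nat_lit 5) (nat_lit 248) (nat_lit 5) (nat_lit 249) (nat_lit 5) (nat_lit 278) (nat_lit 260) (nat_lit 242)))))) (XT.nd (nat_lit 468) (nat_lit 3268) (nat_lit 0) (XT.nd (nat_lit 234) (nat_lit 1824) (nat_lit 0) (XT.nd (nat_lit 78) (nat_lit 836) (nat_lit 0) (XT.lf (nat_lit 0) (nat_lit 2792848396) (nat_lit 760) (nat_lit 3002880345) (nat_lit 76) (nat_lit 1191516917) (nat_lit 239) (nat_lit 5) (nat_lit 249) (nat_lit 5) (nat_lit 240) (nat_lit 5) (nat_lit 279) (nat_lit 260) (nat_lit 241)) (XT.nd (nat_lit 78) (nat_lit 76) (nat_lit 0) (XT.lf (nat_lit 0) (nat_lit 821985424) (nat_lit 760) (nat_lit 4323797744) (nat_lit 836)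 (nat_lit 1901162347) (nat_lit 229) (nat_lit 5) (nat_lit 239) (nat_lit 5) (nat_lit 240) (nat_lit 5) (nat_lit 280) (nat_lit 260) (nat_lit 240)) (XT.lf (nat_lit 0) (nat_lit 407937091) (nat_lit 836) (nat_lit 2350096551) (nat_lit 76) (nat_lit 4351754490) (nat_lit 228) (nat_lit 5) (nat_lit 239) (nat_lit 5) (nat_lit 229) (nat_lit 5) (nat_lit 281) (nat_lit 260) (nat_lit 239)))) (XT.nd (nat_lit 78) (nat_lit 988) (nat_lit 0) (XT.lf (nat_lit 0) (nat_lit 1594079466) (nat_lit 836) (nat_lit 1096950832) (nat_lit 912) (nat_lit 4484794702) (nat_lit 217) (nat_lit 5) (nat_lit 228) (nat_lit 5) (nat_lit 229) (nat_lit 5) (nat_lit 282) (nat_lit 260) (nat_lit 238)) (XT.nd (nat_lit 78) (nat_lit 988) (nat_lit 0) (XT.lf (nat_lit 0) (nat_lit 5001755642) (nat_lit 912) (nat_lit 1605547769) (nat_lit 76) (nat_lit 637922315) (nat_lit 217) (nat_lit 5) (nat_lit 229) (nat_lit 5) (nat_lit 218) (nat_lit 5) (nat_lit 283) (nat_lit 260)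 (nat_lit 237)) (XT.lf (nat_lit 0) (nat_lit 29253059) (nat_lit 988) (nat_lit 4850193697) (nat_lit 76) (nat_lit 2438428000) (nat_lit 204) (nat_lit 5) (nat_lit 217) (nat_lit 5) (nat_lit 205) (nat_lit 5) (nat_lit 284) (nat_lit 260) (nat_lit 236))))) (XT.nd (nat_lit 234) (nat_lit 1216) (nat_lit 0) (XT.nd (nat_lit 78) (nat_lit 2052) (nat_lit 0) (XT.lf (nat_lit 0) (nat_lit 2273396362) (nat_lit 988) (nat_lit 778745598) (nat_lit 76) (nat_lit 4341588637) (nat_lit 204) (nat_lit 5) (nat_lit 217) (nat_lit 5) (nat_lit 205) (nat_lit 5) (nat_lit 285) (nat_lit 260) (nat_lit 235)) (XT.nd (nat_lit 78) (nat_lit 1064) (nat_lit 0) (XT.lf (nat_lit 0) (nat_lit 3423223484) (nat_lit 988) (nat_lit 1128485029) (nat_lit 1064) (nat_lit 2921287696) (nat_lit 191) (nat_lit 5) (nat_lit 204) (nat_lit 5) (nat_lit 205) (nat_lit 5) (nat_lit 286) (nat_lit 260) (nat_lit 234)) (XT.lf (nat_lit 0) (nat_lit 147420625) (nat_lit 1064) (nat_lit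 6703878849) (nat_lit 1140) (nat_lit 704887803) (nat_lit 177) (nat_lit 5) (nat_lit 191) (nat_lit 5) (nat_lit 192) (nat_lit 5) (nat_lit 287) (nat_lit 260) (nat_lit 233)))) (XT.nd (nat_lit 78) (nat_lit 1140) (nat_lit 0) (XT.lf (nat_lit 0) (nat_lit 1535612175) (nat_lit 1140) (nat_lit 3174653547) (nat_lit 76) (nat_lit 2931628876) (nat_lit 176) (nat_lit 5) (nat_lit 191) (nat_lit 5) (nat_lit 177) (nat_lit 5) (nat_lit 288) (nat_lit 260) (nat_lit 232)) (XT.nd (nat_lit 78) (nat_lit 0) (nat_lit 0) (XT.lf (nat_lit 0) (nat_lit 1142768736) (nat_lit 1140) (nat_lit 2635169891) (nat_lit 1216) (nat_lit 3953685652) (nat_lit 161) (nat_lit 5) (nat_lit 176) (nat_lit 5) (nat_lit 177) (nat_lit 5) (nat_lit 289) (nat_lit 260) (nat_lit 231)) (XT.lf (nat_lit 0) (nat_lit 5596335083) (nat_lit 1140) (nat_lit 462301506) (nat_lit 1216) (nat_lit 1766396486) (nat_lit 161) (nat_lit 5) (nat_lit 176) (nat_lit 5) (nat_lit 177) (nat_lit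 5) (nat_lit 290) (nat_lit 260) (nat_lit 230))))))) (XT.nd (nat_lit 936) (nat_lit 2432) (nat_lit 0) (XT.nd (nat_lit 468) (nat_lit 1368) (nat_lit 0) (XT.nd (nat_lit 234) (nat_lit 1140) (nat_lit 0) (XT.nd (nat_lit 78) (nat_lit 608) (nat_lit 0) (XT.lf (nat_lit 0) (nat_lit 456047648) (nat_lit 608) (nat_lit 5696409503) (nat_lit 76) (nat_lit 1769389160) (nat_lit 153) (nat_lit 5) (nat_lit 161) (nat_lit 5) (nat_lit 154) (nat_lit 5) (nat_lit 291) (nat_lit 260) (nat_lit 229)) (XT.nd (nat_lit 78) (nat_lit 608) (nat_lit 0) (XT.lf (nat_lit 0) (nat_lit 2678289780) (nat_lit 608) (nat_lit 1243667656) (nat_lit 76) (nat_lit 4100133081) (nat_lit 153) (nat_lit 5) (nat_lit 161) (nat_lit 5) (nat_lit 154) (nat_lit 5) (nat_lit 292) (nat_lit 260) (nat_lit 228)) (XT.lf (nat_lit 0) (nat_lit 3350392426) (nat_lit 608) (nat_lit 1592043785) (nat_lit 684) (nat_lit 3183755590) (nat_lit 145) (nat_lit 5) (nat_lit 153) (nat_lit 5)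 (nat_lit 154) (nat_lit 5) (nat_lit 293) (nat_lit 260) (nat_lit 227)))) (XT.nd (nat_lit 78) (nat_lit 1140) (nat_lit 0) (XT.lf (nat_lit 0) (nat_lit 7239084667) (nat_lit 684) (nat_lit 192005093) (nat_lit 76) (nat_lit 803492788) (nat_lit 145) (nat_lit 5) (nat_lit 154) (nat_lit 5) (nat_lit 146) (nat_lit 5) (nat_lit 294) (nat_lit 260) (nat_lit 226)) (XT.nd (nat_lit 78) (nat_lit 532) (nat_lit 0) (XT.lf (nat_lit 0) (nat_lit 1239014627) (nat_lit 608) (nat_lit 3813216128) (nat_lit 76) (nat_lit 3293574264) (nat_lit 137) (nat_lit 5) (nat_lit 145) (nat_lit 5) (nat_lit 138) (nat_lit 5) (nat_lit 295) (nat_lit 260) (nat_lit 225)) (XT.lf (nat_lit 0) (nat_lit 892350850) (nat_lit 532) (nat_lit 2584909653) (nat_lit 608) (nat_lit 4984201722) (nat_lit 130) (nat_lit 5) (nat_lit 137) (nat_lit 5) (nat_lit 138) (nat_lit 5) (nat_lit 296) (nat_lit 260) (nat_lit 224))))) (XT.nd (nat_lit 234) (nat_lit 836) (nat_lit 0) (XT.nd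 (nat_lit 78) (nat_lit 532) (nat_lit 0) (XT.lf (nat_lit 0) (nat_lit 5760080950) (nat_lit 532) (nat_lit 8267714) (nat_lit 608) (nat_lit 2812761816) (nat_lit 130) (nat_lit 5) (nat_lit 137) (nat_lit 5) (nat_lit 138) (nat_lit 5) (nat_lit 297) (nat_lit 260) (nat_lit 223)) (XT.nd (nat_lit 78) (nat_lit 76) (nat_lit 0) (XT.lf (nat_lit 0) (nat_lit 2026514640) (nat_lit 456) (nat_lit 6095253160) (nat_lit 532) (nat_lit 582861930) (nat_lit 124) (nat_lit 5) (nat_lit 130) (nat_lit 5) (nat_lit 131) (nat_lit 5) (nat_lit 298) (nat_lit 260) (nat_lit 222)) (XT.lf (nat_lit 0) (nat_lit 1658394387) (nat_lit 532) (nat_lit 1828157227) (nat_lit 76) (nat_lit 5345555908) (nat_lit 123) (nat_lit 5) (nat_lit 130) (nat_lit 5) (nat_lit 124) (nat_lit 5) (nat_lit 299) (nat_lit 260) (nat_lit 221)))) (XT.nd (nat_lit 78) (nat_lit 380) (nat_lit 0) (XT.lf (nat_lit 0) (nat_lit 3167382640) (nat_lit 456) (nat_lit 768775206) (nat_lit 532)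 (nat_lit 5027731044) (nat_lit 117) (nat_lit 5) (nat_lit 123) (nat_lit 5) (nat_lit 124) (nat_lit 5) (nat_lit 300) (nat_lit 260) (nat_lit 220)) (XT.nd (nat_lit 78) (nat_lit 380) (nat_lit 0) (XT.lf (nat_lit 0) (nat_lit 6271796338) (nat_lit 532) (nat_lit 825381870) (nat_lit 76) (nat_lit 2002838742) (nat_lit 117) (nat_lit 5) (nat_lit 124) (nat_lit 5) (nat_lit 118) (nat_lit 5) (nat_lit 301) (nat_lit 260) (nat_lit 219)) (XT.lf (nat_lit 0) (nat_lit 4316272560) (nat_lit 380) (nat_lit 4363129641) (nat_lit 456) (nat_lit 560846907) (nat_lit 112) (nat_lit 5) (nat_lit 117) (nat_lit 5) (nat_lit 118) (nat_lit 5) (nat_lit 302) (nat_lit 260) (nat_lit 218)))))) (XT.nd (nat_lit 468) (nat_lit 1064) (nat_lit 0) (XT.nd (nat_lit 234) (nat_lit 456) (nat_lit 0) (XT.nd (nat_lit 78) (nat_lit 380) (nat_lit 0) (XT.lf (nat_lit 0) (nat_lit 175254608) (nat_lit 456) (nat_lit 1527880262) (nat_lit 532) (nat_lit 7682217948) (nat_lit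 105) (nat_lit 5) (nat_lit 111) (nat_lit 5) (nat_lit 112) (nat_lit 5) (nat_lit 303) (nat_lit 260) (nat_lit 217)) (XT.nd (nat_lit 78) (nat_lit 380) (nat_lit 0) (XT.lf (nat_lit 0) (nat_lit 4041224381) (nat_lit 532) (nat_lit 4080850258) (nat_lit 76) (nat_lit 1412115239) (nat_lit 105) (nat_lit 5) (nat_lit 112) (nat_lit 5) (nat_lit 106) (nat_lit 5) (nat_lit 304) (nat_lit 260) (nat_lit 216)) (XT.lf (nat_lit 0) (nat_lit 1154826518) (nat_lit 380) (nat_lit 5276063414) (nat_lit 456) (nat_lit 3257227709) (nat_lit 100) (nat_lit 5) (nat_lit 105) (nat_lit 5) (nat_lit 106) (nat_lit 5) (nat_lit 305) (nat_lit 260) (nat_lit 215)))) (XT.nd (nat_lit 78) (nat_lit 456) (nat_lit 0) (XT.lf (nat_lit 0) (nat_lit 6576908920) (nat_lit 380) (nat_lit 2312532618) (nat_lit 456) (nat_lit 957372410) (nat_lit 100) (nat_lit 5) (nat_lit 105) (nat_lit 5) (nat_lit 106) (nat_lit 5) (nat_lit 306) (nat_lit 260) (nat_lit 214)) (XT.nd (nat_lit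 78) (nat_lit 0) (nat_lit 0) (XT.lf (nat_lit 0) (nat_lit 1368500048) (nat_lit 456) (nat_lit 7892324542) (nat_lit 76) (nat_lit 749565349) (nat_lit 94) (nat_lit 5) (nat_lit 100) (nat_lit 5) (nat_lit 95) (nat_lit 5) (nat_lit 307) (nat_lit 260) (nat_lit 213)) (XT.lf (nat_lit 0) (nat_lit 3758577811) (nat_lit 456) (nat_lit 2530245405) (nat_lit 76) (nat_lit 3889416429) (nat_lit 94) (nat_lit 5) (nat_lit 100) (nat_lit 5) (nat_lit 95) (nat_lit 5) (nat_lit 308) (nat_lit 260) (nat_lit 212))))) (XT.nd (nat_lit 234) (nat_lit 304) (nat_lit 0) (XT.nd (nat_lit 78) (nat_lit 456) (nat_lit 0) (XT.lf (nat_lit 0) (nat_lit 2998424277) (nat_lit 304) (nat_lit 3209424713) (nat_lit 380) (nat_lit 4143710285) (nat_lit 90) (nat_lit 5) (nat_lit 94) (nat_lit 5) (nat_lit 95) (nat_lit 5) (nat_lit 309) (nat_lit 260) (nat_lit 211)) (XT.nd (nat_lit 78) (nat_lit 456) (nat_lit 0) (XT.lf (nat_lit 0) (nat_lit 8692557185) (nat_lit 304)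 (nat_lit 22961470) (nat_lit 380) (nat_lit 1815069675) (nat_lit 90) (nat_lit 5) (nat_lit 94) (nat_lit 5) (nat_lit 95) (nat_lit 5) (nat_lit 310) (nat_lit 260) (nat_lit 210)) (XT.lf (nat_lit 0) (nat_lit 600903306) (nat_lit 456) (nat_lit 6885933777) (nat_lit 76) (nat_lit 3227171333) (nat_lit 84) (nat_lit 5) (nat_lit 90) (nat_lit 5) (nat_lit 85) (nat_lit 5) (nat_lit 311) (nat_lit 260) (nat_lit 209)))) (XT.nd (nat_lit 78) (nat_lit 304) (nat_lit 0) (XT.lf (nat_lit 0) (nat_lit 3032510795) (nat_lit 456) (nat_lit 1271114557) (nat_lit 76) (nat_lit 6599430100) (nat_lit 84) (nat_lit 5) (nat_lit 90) (nat_lit 5) (nat_lit 85) (nat_lit 5) (nat_lit 312) (nat_lit 260) (nat_lit 208)) (XT.nd (nat_lit 78) (nat_lit 0) (nat_lit 0) (XT.lf (nat_lit 0) (nat_lit 4550262007) (nat_lit 304) (nat_lit 992354889) (nat_lit 380) (nat_lit 5555041529) (nat_lit 80) (nat_lit 5) (nat_lit 84) (nat_lit 5) (nat_lit 85) (nat_lit 5) (nat_lit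 313) (nat_lit 260) (nat_lit 207)) (XT.lf (nat_lit 0) (nat_lit 8126553847) (nat_lit 380) (nat_lit 799988143) (nat_lit 76) (nat_lit 2371651220) (nat_lit 80) (nat_lit 5) (nat_lit 85) (nat_lit 5) (nat_lit 81) (nat_lit 5) (nat_lit 314) (nat_lit 260) (nat_lit 206))))))))
noncomputable def xc109 : XT := (XT.nd (nat_lit 1872) (nat_lit 1292) (nat_lit 0) (XT.nd (nat_lit 936) (nat_lit 1368) (nat_lit 0) (XT.nd (nat_lit 468) (nat_lit 912) (nat_lit 0) (XT.nd (nat_lit 234) (nat_lit 304) (nat_lit 0) (XT.nd (nat_lit 78) (nat_lit 380) (nat_lit 0) (XT.lf (nat_lit 0) (nat_lit 5160981392) (nat_lit 304) (nat_lit 5649879904) (nat_lit 380) (nat_lit 693245280) (nat_lit 76) (nat_lit 5) (nat_lit 80) (nat_lit 5) (nat_lit 81) (nat_lit 5) (nat_lit 315) (nat_lit 260) (nat_lit 205)) (XT.nd (nat_lit 78) (nat_lit 304) (nat_lit 0) (XT.lf (nat_lit 0) (nat_lit 1794979846) (nat_lit 380) (nat_lit 466757628) (nat_lit 76) (nat_lit 9454816033)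 (nat_lit 75) (nat_lit 5) (nat_lit 80) (nat_lit 5) (nat_lit 76) (nat_lit 5) (nat_lit 316) (nat_lit 260) (nat_lit 204)) (XT.lf (nat_lit 0) (nat_lit 4375087255) (nat_lit 380) (nat_lit 6306393277) (nat_lit 76) (nat_lit 1252796355) (nat_lit 71) (nat_lit 5) (nat_lit 76) (nat_lit 5) (nat_lit 72) (nat_lit 5) (nat_lit 317) (nat_lit 260) (nat_lit 203)))) (XT.nd (nat_lit 78) (nat_lit 304) (nat_lit 0) (XT.lf (nat_lit 0) (nat_lit 7024856535) (nat_lit 380) (nat_lit 314949859) (nat_lit 76) (nat_lit 4819000557) (nat_lit 71) (nat_lit 5) (nat_lit 76) (nat_lit 5) (nat_lit 72) (nat_lit 5) (nat_lit 318) (nat_lit 260) (nat_lit 202)) (XT.nd (nat_lit 78) (nat_lit 0) (nat_lit 0) (XT.lf (nat_lit 0) (nat_lit 5924217005) (nat_lit 304) (nat_lit 3852970644) (nat_lit 380) (nat_lit 2612234706) (nat_lit 67) (nat_lit 5) (nat_lit 71) (nat_lit 5) (nat_lit 72) (nat_lit 5) (nat_lit 319) (nat_lit 260) (nat_lit 201)) (XT.lf (nat_lit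 0) (nat_lit 12309859262) (nat_lit 304) (nat_lit 272064829) (nat_lit 380) (nat_lit 45977358) (nat_lit 67) (nat_lit 5) (nat_lit 71) (nat_lit 5) (nat_lit 72) (nat_lit 5) (nat_lit 320) (nat_lit 260) (nat_lit 200))))) (XT.nd (nat_lit 234) (nat_lit 304) (nat_lit 0) (XT.nd (nat_lit 78) (nat_lit 304) (nat_lit 0) (XT.lf (nat_lit 0) (nat_lit 2605640042) (nat_lit 304) (nat_lit 6845232369) (nat_lit 76) (nat_lit 3420179855) (nat_lit 63) (nat_lit 5) (nat_lit 67) (nat_lit 5) (nat_lit 64) (nat_lit 5) (nat_lit 321) (nat_lit 260) (nat_lit 199)) (XT.nd (nat_lit 78) (nat_lit 304) (nat_lit 0) (XT.lf (nat_lit 0) (nat_lit 5309464764) (nat_lit 304) (nat_lit 604951635) (nat_lit 76) (nat_lit 7207896937) (nat_lit 63) (nat_lit 5) (nat_lit 67) (nat_lit 5) (nat_lit 64) (nat_lit 5) (nat_lit 322) (nat_lit 260) (nat_lit 198)) (XT.lf (nat_lit 0) (nat_lit 5891990067) (nat_lit 304) (nat_lit 2227639717) (nat_lit 380) (nat_lit 5260761485)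 (nat_lit 59) (nat_lit 5) (nat_lit 63) (nat_lit 5) (nat_lit 64) (nat_lit 5) (nat_lit 323) (nat_lit 260) (nat_lit 197)))) (XT.nd (nat_lit 78) (nat_lit 304) (nat_lit 0) (XT.lf (nat_lit 0) (nat_lit 11004292161) (nat_lit 380) (nat_lit 1110838931) (nat_lit 76) (nat_lit 1531409430) (nat_lit 59) (nat_lit 5) (nat_lit 64) (nat_lit 5) (nat_lit 60) (nat_lit 5) (nat_lit 324) (nat_lit 260) (nat_lit 196)) (XT.nd (nat_lit 78) (nat_lit 0) (nat_lit 0) (XT.lf (nat_lit 0) (nat_lit 98912042) (nat_lit 304) (nat_lit 8421605645) (nat_lit 76) (nat_lit 5398818668) (nat_lit 55) (nat_lit 5) (nat_lit 59) (nat_lit 5) (nat_lit 56) (nat_lit 5) (nat_lit 325) (nat_lit 260) (nat_lit 195)) (XT.lf (nat_lit 0) (nat_lit 2850495725) (nat_lit 304) (nat_lit 1943680409) (nat_lit 76) (nat_lit 9405948058) (nat_lit 55) (nat_lit 5) (nat_lit 59) (nat_lit 5) (nat_lit 56) (nat_lit 5) (nat_lit 326) (nat_lit 260) (nat_lit 194)))))) (XT.nd (nat_lit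 468) (nat_lit 608) (nat_lit 0) (XT.nd (nat_lit 234) (nat_lit 304) (nat_lit 0) (XT.nd (nat_lit 78) (nat_lit 228) (nat_lit 0) (XT.lf (nat_lit 0) (nat_lit 4778371972) (nat_lit 228) (nat_lit 923029023) (nat_lit 304) (nat_lit 8787462325) (nat_lit 52) (nat_lit 5) (nat_lit 55) (nat_lit 5) (nat_lit 56) (nat_lit 5) (nat_lit 327) (nat_lit 260) (nat_lit 193)) (XT.nd (nat_lit 78) (nat_lit 228) (nat_lit 0) (XT.lf (nat_lit 0) (nat_lit 8658250188) (nat_lit 304) (nat_lit 3117178136) (nat_lit 76) (nat_lit 3010253775) (nat_lit 52) (nat_lit 5) (nat_lit 56) (nat_lit 5) (nat_lit 53) (nat_lit 5) (nat_lit 328) (nat_lit 260) (nat_lit 192)) (XT.lf (nat_lit 0) (nat_lit 3694379423) (nat_lit 228) (nat_lit 8026057166) (nat_lit 304) (nat_lit 3370499008) (nat_lit 49) (nat_lit 5) (nat_lit 52) (nat_lit 5) (nat_lit 53) (nat_lit 5) (nat_lit 329) (nat_lit 260) (nat_lit 191)))) (XT.nd (nat_lit 78) (nat_lit 304) (nat_lit 0) (XT.lf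 (nat_lit 0) (nat_lit 10732092741) (nat_lit 228) (nat_lit 4146264940) (nat_lit 304) (nat_lit 526901203) (nat_lit 49) (nat_lit 5) (nat_lit 52) (nat_lit 5) (nat_lit 53) (nat_lit 5) (nat_lit 330) (nat_lit 260) (nat_lit 190)) (XT.nd (nat_lit 78) (nat_lit 0) (nat_lit 0) (XT.lf (nat_lit 0) (nat_lit 2230939668) (nat_lit 228) (nat_lit 118541811) (nat_lit 304) (nat_lit 13379033880) (nat_lit 45) (nat_lit 5) (nat_lit 48) (nat_lit 5) (nat_lit 49) (nat_lit 5) (nat_lit 331) (nat_lit 260) (nat_lit 189)) (XT.lf (nat_lit 0) (nat_lit 5361122189) (nat_lit 304) (nat_lit 6708225982) (nat_lit 76) (nat_lit 3990204013) (nat_lit 45) (nat_lit 5) (nat_lit 49) (nat_lit 5) (nat_lit 46) (nat_lit 5) (nat_lit 332) (nat_lit 260) (nat_lit 188))))) (XT.nd (nat_lit 234) (nat_lit 456) (nat_lit 0) (XT.nd (nat_lit 78) (nat_lit 0) (nat_lit 0) (XT.lf (nat_lit 0) (nat_lit 247971187) (nat_lit 152) (nat_lit 8192640733) (nat_lit 228) (nat_lit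 7960608306) (nat_lit 43) (nat_lit 5) (nat_lit 45) (nat_lit 5) (nat_lit 46) (nat_lit 5) (nat_lit 333) (nat_lit 260) (nat_lit 187)) (XT.nd (nat_lit 78) (nat_lit 0) (nat_lit 0) (XT.lf (nat_lit 0) (nat_lit 7510265208) (nat_lit 152) (nat_lit 4144277017) (nat_lit 228) (nat_lit 5097358785) (nat_lit 43) (nat_lit 5) (nat_lit 45) (nat_lit 5) (nat_lit 46) (nat_lit 5) (nat_lit 334) (nat_lit 260) (nat_lit 186)) (XT.lf (nat_lit 0) (nat_lit 14940065403) (nat_lit 228) (nat_lit 2162489973) (nat_lit 76) (nat_lit 11315257) (nat_lit 43) (nat_lit 5) (nat_lit 46) (nat_lit 5) (nat_lit 44) (nat_lit 5) (nat_lit 335) (nat_lit 260) (nat_lit 185)))) (XT.nd (nat_lit 78) (nat_lit 152) (nat_lit 0) (XT.lf (nat_lit 0) (nat_lit 887943883) (nat_lit 304) (nat_lit 12343365185) (nat_lit 76) (nat_lit 4253166161) (nat_lit 39) (nat_lit 5) (nat_lit 43) (nat_lit 5) (nat_lit 40) (nat_lit 5) (nat_lit 336) (nat_lit 260) (nat_lit 184)) (XT.nd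 (nat_lit 78) (nat_lit 152) (nat_lit 0) (XT.lf (nat_lit 0) (nat_lit 3995650745) (nat_lit 304) (nat_lit 5217680452) (nat_lit 76) (nat_lit 8652308841) (nat_lit 39) (nat_lit 5) (nat_lit 43) (nat_lit 5) (nat_lit 40) (nat_lit 5) (nat_lit 337) (nat_lit 260) (nat_lit 183)) (XT.lf (nat_lit 0) (nat_lit 2125834645) (nat_lit 152) (nat_lit 5067638980) (nat_lit 228) (nat_lit 11064880649) (nat_lit 37) (nat_lit 5) (nat_lit 39) (nat_lit 5) (nat_lit 40) (nat_lit 5) (nat_lit 338) (nat_lit 260) (nat_lit 182))))))) (XT.nd (nat_lit 936) (nat_lit 532) (nat_lit 0) (XT.nd (nat_lit 468) (nat_lit 380) (nat_lit 0) (XT.nd (nat_lit 234) (nat_lit 228) (nat_lit 0) (XT.nd (nat_lit 78) (nat_lit 152) (nat_lit 0) (XT.lf (nat_lit 0) (nat_lit 9759556552) (nat_lit 152) (nat_lit 757142690) (nat_lit 228) (nat_lit 8145287069) (nat_lit 37) (nat_lit 5) (nat_lit 39) (nat_lit 5) (nat_lit 40) (nat_lit 5) (nat_lit 339) (nat_lit 260) (nat_lit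 181)) (XT.nd (nat_lit 78) (nat_lit 152) (nat_lit 0) (XT.lf (nat_lit 0) (nat_lit 13952348593) (nat_lit 228) (nat_lit 1527380948) (nat_lit 76) (nat_lit 3597635778) (nat_lit 37) (nat_lit 5) (nat_lit 40) (nat_lit 5) (nat_lit 38) (nat_lit 5) (nat_lit 340) (nat_lit 260) (nat_lit 180)) (XT.lf (nat_lit 0) (nat_lit 6145871643) (nat_lit 152) (nat_lit 11389757407) (nat_lit 228) (nat_lit 1968259042) (nat_lit 35) (nat_lit 5) (nat_lit 37) (nat_lit 5) (nat_lit 38) (nat_lit 5) (nat_lit 341) (nat_lit 260) (nat_lit 179)))) (XT.nd (nat_lit 78) (nat_lit 152) (nat_lit 0) (XT.lf (nat_lit 0) (nat_lit 1251795217) (nat_lit 228) (nat_lit 5910186158) (nat_lit 76) (nat_lit 12781064252) (nat_lit 34) (nat_lit 5) (nat_lit 37) (nat_lit 5) (nat_lit 35) (nat_lit 5) (nat_lit 342) (nat_lit 260) (nat_lit 178)) (XT.nd (nat_lit 78) (nat_lit 0) (nat_lit 0) (XT.lf (nat_lit 0) (nat_lit 1741014982) (nat_lit 152) (nat_lit 2783308336) (nat_lit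 228) (nat_lit 15870624582) (nat_lit 32) (nat_lit 5) (nat_lit 34) (nat_lit 5) (nat_lit 35) (nat_lit 5) (nat_lit 343) (nat_lit 260) (nat_lit 177)) (XT.lf (nat_lit 0) (nat_lit 7950759112) (nat_lit 228) (nat_lit 11167632531) (nat_lit 76) (nat_lit 1740360738) (nat_lit 32) (nat_lit 5) (nat_lit 35) (nat_lit 5) (nat_lit 33) (nat_lit 5) (nat_lit 344) (nat_lit 260) (nat_lit 176))))) (XT.nd (nat_lit 234) (nat_lit 228) (nat_lit 0) (XT.nd (nat_lit 78) (nat_lit 152) (nat_lit 0) (XT.lf (nat_lit 0) (nat_lit 11487022497) (nat_lit 228) (nat_lit 3518020707) (nat_lit 76) (nat_lit 6331233356) (nat_lit 32) (nat_lit 5) (nat_lit 35) (nat_lit 5) (nat_lit 33) (nat_lit 5) (nat_lit 345) (nat_lit 260) (nat_lit 175)) (XT.nd (nat_lit 78) (nat_lit 0) (nat_lit 0) (XT.lf (nat_lit 0) (nat_lit 4414484026) (nat_lit 152) (nat_lit 10737399244) (nat_lit 228) (nat_lit 6675584026) (nat_lit 30) (nat_lit 5) (nat_lit 32) (nat_lit 5) (nat_lit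 33) (nat_lit 5) (nat_lit 346) (nat_lit 260) (nat_lit 174)) (XT.lf (nat_lit 0) (nat_lit 12624662909) (nat_lit 152) (nat_lit 6317895570) (nat_lit 228) (nat_lit 3390374863) (nat_lit 30) (nat_lit 5) (nat_lit 32) (nat_lit 5) (nat_lit 33) (nat_lit 5) (nat_lit 347) (nat_lit 260) (nat_lit 173)))) (XT.nd (nat_lit 78) (nat_lit 228) (nat_lit 0) (XT.lf (nat_lit 0) (nat_lit 21049674375) (nat_lit 152) (nat_lit 1778195590) (nat_lit 228) (nat_lit 26281115) (nat_lit 30) (nat_lit 5) (nat_lit 32) (nat_lit 5) (nat_lit 33) (nat_lit 5) (nat_lit 348) (nat_lit 260) (nat_lit 172)) (XT.nd (nat_lit 78) (nat_lit 0) (nat_lit 0) (XT.lf (nat_lit 0) (nat_lit 3443074842) (nat_lit 228) (nat_lit 17020151873) (nat_lit 76) (nat_lit 2924658051) (nat_lit 27) (nat_lit 5) (nat_lit 30) (nat_lit 5) (nat_lit 28) (nat_lit 5) (nat_lit 349) (nat_lit 260) (nat_lit 171)) (XT.lf (nat_lit 0) (nat_lit 7033399154) (nat_lit 228) (nat_lit 9164122511)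 (nat_lit 76) (nat_lit 7739592415) (nat_lit 27) (nat_lit 5) (nat_lit 30) (nat_lit 5) (nat_lit 28) (nat_lit 5) (nat_lit 350) (nat_lit 260) (nat_lit 170)))))) (XT.nd (nat_lit 468) (nat_lit 228) (nat_lit 0) (XT.nd (nat_lit 234) (nat_lit 152) (nat_lit 0) (XT.nd (nat_lit 78) (nat_lit 152) (nat_lit 0) (XT.lf (nat_lit 0) (nat_lit 10713382628) (nat_lit 228) (nat_lit 1102597670) (nat_lit 76) (nat_lit 12687394990) (nat_lit 27) (nat_lit 5) (nat_lit 30) (nat_lit 5) (nat_lit 28) (nat_lit 5) (nat_lit 351) (nat_lit 260) (nat_lit 169)) (XT.nd (nat_lit 78) (nat_lit 0) (nat_lit 0) (XT.lf (nat_lit 0) (nat_lit 7314192949) (nat_lit 152) (nat_lit 7242356330) (nat_lit 228) (nat_lit 10528504647) (nat_lit 25) (nat_lit 5) (nat_lit 27) (nat_lit 5) (nat_lit 28) (nat_lit 5) (nat_lit 352) (nat_lit 260) (nat_lit 168)) (XT.lf (nat_lit 0) (nat_lit 15977070559) (nat_lit 152) (nat_lit 2531781105) (nat_lit 228) (nat_lit 7175528757)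 (nat_lit 25) (nat_lit 5) (nat_lit 27) (nat_lit 5) (nat_lit 28) (nat_lit 5) (nat_lit 353) (nat_lit 260) (nat_lit 167)))) (XT.nd (nat_lit 78) (nat_lit 152) (nat_lit 0) (XT.lf (nat_lit 0) (nat_lit 22585126372) (nat_lit 228) (nat_lit 1452734845) (nat_lit 76) (nat_lit 2263675750) (nat_lit 25) (nat_lit 5) (nat_lit 28) (nat_lit 5) (nat_lit 26) (nat_lit 4) (nat_lit 354) (nat_lit 260) (nat_lit 166)) (XT.nd (nat_lit 78) (nat_lit 76) (nat_lit 0) (XT.lf (nat_lit 0) (nat_lit 7135909720) (nat_lit 76) (nat_lit 19725034594) (nat_lit 152) (nat_lit 73958235) (nat_lit 24) (nat_lit 5) (nat_lit 25) (nat_lit 5) (nat_lit 26) (nat_lit 4) (nat_lit 355) (nat_lit 260) (nat_lit 165)) (XT.lf (nat_lit 0) (nat_lit 3604451358) (nat_lit 152) (nat_lit 11638146763) (nat_lit 76) (nat_lit 12343668188) (nat_lit 23) (nat_lit 5) (nat_lit 25) (nat_lit 5) (nat_lit 24) (nat_lit 5) (nat_lit 356) (nat_lit 260) (nat_lit 164))))) (XT.nd (nat_lit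 234) (nat_lit 76) (nat_lit 0) (XT.nd (nat_lit 78) (nat_lit 152) (nat_lit 0) (XT.lf (nat_lit 0) (nat_lit 7375838538) (nat_lit 152) (nat_lit 3260210314) (nat_lit 76) (nat_lit 17621587784) (nat_lit 23) (nat_lit 5) (nat_lit 25) (nat_lit 5) (nat_lit 24) (nat_lit 5) (nat_lit 357) (nat_lit 260) (nat_lit 163)) (XT.nd (nat_lit 78) (nat_lit 0) (nat_lit 0) (XT.lf (nat_lit 0) (nat_lit 5449181126) (nat_lit 152) (nat_lit 5848141617) (nat_lit 228) (nat_lit 17650727320) (nat_lit 21) (nat_lit 5) (nat_lit 23) (nat_lit 5) (nat_lit 24) (nat_lit 5) (nat_lit 358) (nat_lit 260) (nat_lit 162)) (XT.lf (nat_lit 0) (nat_lit 14460726196) (nat_lit 152) (nat_lit 893421308) (nat_lit 228) (nat_lit 14304507852) (nat_lit 21) (nat_lit 5) (nat_lit 23) (nat_lit 5) (nat_lit 24) (nat_lit 5) (nat_lit 359) (nat_lit 260) (nat_lit 161)))) (XT.nd (nat_lit 78) (nat_lit 76) (nat_lit 0) (XT.lf (nat_lit 0) (nat_lit 19558263126) (nat_lit 228)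 (nat_lit 6713986190) (nat_lit 76) (nat_lit 4117571952) (nat_lit 21) (nat_lit 5) (nat_lit 24) (nat_lit 5) (nat_lit 22) (nat_lit 4) (nat_lit 360) (nat_lit 260) (nat_lit 160)) (XT.nd (nat_lit 78) (nat_lit 0) (nat_lit 0) (XT.lf (nat_lit 0) (nat_lit 2030438370) (nat_lit 76) (nat_lit 21871978478) (nat_lit 152) (nat_lit 7240097621) (nat_lit 20) (nat_lit 5) (nat_lit 21) (nat_lit 5) (nat_lit 22) (nat_lit 4) (nat_lit 361) (nat_lit 260) (nat_lit 159)) (XT.lf (nat_lit 0) (nat_lit 11150256948) (nat_lit 76) (nat_lit 17280172062) (nat_lit 152) (nat_lit 3485762906) (nat_lit 20) (nat_lit 5) (nat_lit 21) (nat_lit 5) (nat_lit 22) (nat_lit 4) (nat_lit 362) (nat_lit 260) (nat_lit 158))))))))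
noncomputable def xc110 : XT := (XT.nd (nat_lit 1794) (nat_lit 228) (nat_lit 0) (XT.nd (nat_lit 858) (nat_lit 228) (nat_lit 0) (XT.nd (nat_lit 390) (nat_lit 304) (nat_lit 0) (XT.nd (nat_lit 156) (nat_lit 152) (nat_lit 0) (XT.nd (nat_lit 78) (nat_lit 0) (nat_lit 0) (XT.lf (nat_lit 0) (nat_lit 359768297) (nat_lit 152) (nat_lit 12197214656) (nat_lit 76) (nat_lit 20156415575) (nat_lit 19) (nat_lit 5) (nat_lit 21) (nat_lit 5) (nat_lit 20) (nat_lit 5) (nat_lit 363) (nat_lit 260) (nat_lit 157)) (XT.lf (nat_lit 0) (nat_lit 4237017742) (nat_lit 152) (nat_lit 3429382816) (nat_lit 76) (nat_lit 25867501687) (nat_lit 19) (nat_lit 5) (nat_lit 21) (nat_lit 5) (nat_lit 20) (nat_lit 5) (nat_lit 364) (nat_lit 260) (nat_lit 156))) (XT.nd (nat_lit 78) (nat_lit 0) (nat_lit 0) (XT.lf (nat_lit 0) (nat_lit 5689756694) (nat_lit 152) (nat_lit 2582329833) (nat_lit 228) (nat_lit 26105697902) (nat_lit 17) (nat_lit 5) (nat_lit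 19) (nat_lit 5) (nat_lit 20) (nat_lit 5) (nat_lit 365) (nat_lit 260) (nat_lit 155)) (XT.nd (nat_lit 78) (nat_lit 0) (nat_lit 0) (XT.lf (nat_lit 0) (nat_lit 12475579360) (nat_lit 228) (nat_lit 20141871404) (nat_lit 76) (nat_lit 2628119320) (nat_lit 17) (nat_lit 5) (nat_lit 20) (nat_lit 5) (nat_lit 18) (nat_lit 4) (nat_lit 366) (nat_lit 260) (nat_lit 154)) (XT.lf (nat_lit 0) (nat_lit 16818011269) (nat_lit 228) (nat_lit 11387072112) (nat_lit 76) (nat_lit 7933928827) (nat_lit 17) (nat_lit 5) (nat_lit 20) (nat_lit 5) (nat_lit 18) (nat_lit 4) (nat_lit 367) (nat_lit 260) (nat_lit 153))))) (XT.nd (nat_lit 234) (nat_lit 228) (nat_lit 0) (XT.nd (nat_lit 78) (nat_lit 76) (nat_lit 0) (XT.lf (nat_lit 0) (nat_lit 21278353679) (nat_lit 228) (nat_lit 2391157102) (nat_lit 76) (nat_lit 13390125385) (nat_lit 17) (nat_lit 5) (nat_lit 20) (nat_lit 5) (nat_lit 18) (nat_lit 4) (nat_lit 368) (nat_lit 260) (nat_lit 152))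 (XT.nd (nat_lit 78) (nat_lit 0) (nat_lit 0) (XT.lf (nat_lit 0) (nat_lit 6990136883) (nat_lit 76) (nat_lit 18937560565) (nat_lit 152) (nat_lit 12078533136) (nat_lit 16) (nat_lit 5) (nat_lit 17) (nat_lit 5) (nat_lit 18) (nat_lit 4) (nat_lit 369) (nat_lit 260) (nat_lit 151)) (XT.lf (nat_lit 0) (nat_lit 16681189754) (nat_lit 76) (nat_lit 14047626026) (nat_lit 152) (nat_lit 8252045479) (nat_lit 16) (nat_lit 5) (nat_lit 17) (nat_lit 5) (nat_lit 18) (nat_lit 4) (nat_lit 370) (nat_lit 260) (nat_lit 150)))) (XT.nd (nat_lit 78) (nat_lit 228) (nat_lit 0) (XT.lf (nat_lit 0) (nat_lit 26642880708) (nat_lit 76) (nat_lit 9019580406) (nat_lit 152) (nat_lit 4322621984) (nat_lit 16) (nat_lit 5) (nat_lit 17) (nat_lit 5) (nat_lit 18) (nat_lit 4) (nat_lit 371) (nat_lit 260) (nat_lit 149)) (XT.nd (nat_lit 78) (nat_lit 228) (nat_lit 0) (XT.lf (nat_lit 0) (nat_lit 36883914134) (nat_lit 76) (nat_lit 3849030266) (nat_lit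 152) (nat_lit 286829172) (nat_lit 16) (nat_lit 5) (nat_lit 17) (nat_lit 5) (nat_lit 18) (nat_lit 4) (nat_lit 372) (nat_lit 260) (nat_lit 148)) (XT.lf (nat_lit 0) (nat_lit 3850422210) (nat_lit 228) (nat_lit 36702569798) (nat_lit 76) (nat_lit 1529726068) (nat_lit 13) (nat_lit 5) (nat_lit 16) (nat_lit 5) (nat_lit 14) (nat_lit 4) (nat_lit 373) (nat_lit 260) (nat_lit 147)))))) (XT.nd (nat_lit 468) (nat_lit 152) (nat_lit 0) (XT.nd (nat_lit 234) (nat_lit 76) (nat_lit 0) (XT.nd (nat_lit 78) (nat_lit 0) (nat_lit 0) (XT.lf (nat_lit 0) (nat_lit 8175411443) (nat_lit 228) (nat_lit 27970472623) (nat_lit 76) (nat_lit 7029506353) (nat_lit 13) (nat_lit 5) (nat_lit 16) (nat_lit 5) (nat_lit 14) (nat_lit 4) (nat_lit 374) (nat_lit 260) (nat_lit 146)) (XT.nd (nat_lit 78) (nat_lit 0) (nat_lit 0) (XT.lf (nat_lit 0) (nat_lit 12619566376) (nat_lit 228) (nat_lit 18995081765) (nat_lit 76) (nat_lit 12686518385) (nat_lit 13)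 (nat_lit 5) (nat_lit 16) (nat_lit 5) (nat_lit 14) (nat_lit 4) (nat_lit 375) (nat_lit 260) (nat_lit 145)) (XT.lf (nat_lit 0) (nat_lit 17186770252) (nat_lit 228) (nat_lit 9768554652) (nat_lit 76) (nat_lit 18505705184) (nat_lit 13) (nat_lit 5) (nat_lit 16) (nat_lit 5) (nat_lit 14) (nat_lit 4) (nat_lit 376) (nat_lit 260) (nat_lit 144)))) (XT.nd (nat_lit 78) (nat_lit 76) (nat_lit 0) (XT.lf (nat_lit 0) (nat_lit 21881013831) (nat_lit 228) (nat_lit 282829269) (nat_lit 76) (nat_lit 24492151476) (nat_lit 13) (nat_lit 5) (nat_lit 16) (nat_lit 5) (nat_lit 14) (nat_lit 4) (nat_lit 377) (nat_lit 260) (nat_lit 143)) (XT.nd (nat_lit 78) (nat_lit 0) (nat_lit 0) (XT.lf (nat_lit 0) (nat_lit 9658862070) (nat_lit 76) (nat_lit 17140383700) (nat_lit 152) (nat_lit 21085072957) (nat_lit 12) (nat_lit 5) (nat_lit 13) (nat_lit 5) (nat_lit 14) (nat_lit 4) (nat_lit 378) (nat_lit 260) (nat_lit 142)) (XT.lf (nat_lit 0) (nat_lit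 19887684379) (nat_lit 76) (nat_lit 11970629962) (nat_lit 152) (nat_lit 17291384969) (nat_lit 12) (nat_lit 5) (nat_lit 13) (nat_lit 5) (nat_lit 14) (nat_lit 4) (nat_lit 379) (nat_lit 260) (nat_lit 141))))) (XT.nd (nat_lit 234) (nat_lit 152) (nat_lit 0) (XT.nd (nat_lit 78) (nat_lit 0) (nat_lit 0) (XT.lf (nat_lit 0) (nat_lit 30406946607) (nat_lit 76) (nat_lit 6652920647) (nat_lit 152) (nat_lit 13393457931) (nat_lit 12) (nat_lit 5) (nat_lit 13) (nat_lit 5) (nat_lit 14) (nat_lit 4) (nat_lit 380) (nat_lit 260) (nat_lit 140)) (XT.nd (nat_lit 78) (nat_lit 0) (nat_lit 0) (XT.lf (nat_lit 0) (nat_lit 41225840341) (nat_lit 76) (nat_lit 1182609213) (nat_lit 152) (nat_lit 9387885886) (nat_lit 12) (nat_lit 5) (nat_lit 13) (nat_lit 5) (nat_lit 14) (nat_lit 4) (nat_lit 381) (nat_lit 260) (nat_lit 139)) (XT.lf (nat_lit 0) (nat_lit 47951463630) (nat_lit 152) (nat_lit 868813465) (nat_lit 0) (nat_lit 4358344619) (nat_lit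 12) (nat_lit 5) (nat_lit 14) (nat_lit 4) (nat_lit 12) (nat_lit 4) (nat_lit 382) (nat_lit 260) (nat_lit 138)))) (XT.nd (nat_lit 78) (nat_lit 76) (nat_lit 0) (XT.lf (nat_lit 0) (nat_lit 9278029413) (nat_lit 76) (nat_lit 44475071450) (nat_lit 76) (nat_lit 846510527) (nat_lit 11) (nat_lit 4) (nat_lit 12) (nat_lit 5) (nat_lit 12) (nat_lit 4) (nat_lit 383) (nat_lit 260) (nat_lit 137)) (XT.nd (nat_lit 78) (nat_lit 0) (nat_lit 0) (XT.lf (nat_lit 0) (nat_lit 3594342201) (nat_lit 152) (nat_lit 36366455879) (nat_lit 76) (nat_lit 16101370714) (nat_lit 10) (nat_lit 5) (nat_lit 12) (nat_lit 5) (nat_lit 11) (nat_lit 4) (nat_lit 384) (nat_lit 260) (nat_lit 136)) (XT.lf (nat_lit 0) (nat_lit 8143109183) (nat_lit 152) (nat_lit 27165866306) (nat_lit 76) (nat_lit 22259629298) (nat_lit 10) (nat_lit 5) (nat_lit 12) (nat_lit 5) (nat_lit 11) (nat_lit 4) (nat_lit 385) (nat_lit 260) (nat_lit 135))))))) (XT.nd (nat_lit 936)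 (nat_lit 76) (nat_lit 0) (XT.nd (nat_lit 468) (nat_lit 76) (nat_lit 0) (XT.nd (nat_lit 234) (nat_lit 0) (nat_lit 0) (XT.nd (nat_lit 78) (nat_lit 76) (nat_lit 0) (XT.lf (nat_lit 0) (nat_lit 12820283540) (nat_lit 152) (nat_lit 17703636733) (nat_lit 76) (nat_lit 28596559519) (nat_lit 10) (nat_lit 5) (nat_lit 12) (nat_lit 5) (nat_lit 11) (nat_lit 4) (nat_lit 386) (nat_lit 260) (nat_lit 134)) (XT.nd (nat_lit 78) (nat_lit 76) (nat_lit 0) (XT.lf (nat_lit 0) (nat_lit 17629952122) (nat_lit 152) (nat_lit 7971499192) (nat_lit 76) (nat_lit 35117698501) (nat_lit 10) (nat_lit 5) (nat_lit 12) (nat_lit 5) (nat_lit 11) (nat_lit 4) (nat_lit 387) (nat_lit 260) (nat_lit 133)) (XT.lf (nat_lit 0) (nat_lit 2079631222) (nat_lit 76) (nat_lit 20516677018) (nat_lit 152) (nat_lit 39769103790) (nat_lit 9) (nat_lit 5) (nat_lit 10) (nat_lit 5) (nat_lit 11) (nat_lit 4) (nat_lit 388) (nat_lit 260) (nat_lit 132)))) (XT.nd (nat_lit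 78) (nat_lit 0) (nat_lit 0) (XT.lf (nat_lit 0) (nat_lit 12582283985) (nat_lit 76) (nat_lit 15202366524) (nat_lit 152) (nat_lit 36274225639) (nat_lit 9) (nat_lit 5) (nat_lit 10) (nat_lit 5) (nat_lit 11) (nat_lit 4) (nat_lit 389) (nat_lit 260) (nat_lit 131)) (XT.nd (nat_lit 78) (nat_lit 0) (nat_lit 0) (XT.lf (nat_lit 0) (nat_lit 23386987707) (nat_lit 76) (nat_lit 9734372773) (nat_lit 152) (nat_lit 32682005973) (nat_lit 9) (nat_lit 5) (nat_lit 10) (nat_lit 5) (nat_lit 11) (nat_lit 4) (nat_lit 390) (nat_lit 260) (nat_lit 130)) (XT.lf (nat_lit 0) (nat_lit 34503183391) (nat_lit 76) (nat_lit 4107917905) (nat_lit 152) (nat_lit 28989305960) (nat_lit 9) (nat_lit 5) (nat_lit 10) (nat_lit 5) (nat_lit 11) (nat_lit 4) (nat_lit 391) (nat_lit 260) (nat_lit 129))))) (XT.nd (nat_lit 234) (nat_lit 76) (nat_lit 0) (XT.nd (nat_lit 78) (nat_lit 0) (nat_lit 0) (XT.lf (nat_lit 0) (nat_lit 44274837410) (nat_lit 152) (nat_lit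 23527152161) (nat_lit 0) (nat_lit 1649094190) (nat_lit 9) (nat_lit 5) (nat_lit 11) (nat_lit 4) (nat_lit 9) (nat_lit 4) (nat_lit 392) (nat_lit 260) (nat_lit 128)) (XT.nd (nat_lit 78) (nat_lit 0) (nat_lit 0) (XT.lf (nat_lit 0) (nat_lit 50142442934) (nat_lit 152) (nat_lit 13722726651) (nat_lit 0) (nat_lit 7491095722) (nat_lit 9) (nat_lit 5) (nat_lit 11) (nat_lit 4) (nat_lit 9) (nat_lit 4) (nat_lit 393) (nat_lit 260) (nat_lit 127)) (XT.lf (nat_lit 0) (nat_lit 56179557082) (nat_lit 152) (nat_lit 3635892541) (nat_lit 0) (nat_lit 13503351625) (nat_lit 9) (nat_lit 5) (nat_lit 11) (nat_lit 4) (nat_lit 9) (nat_lit 4) (nat_lit 394) (nat_lit 260) (nat_lit 126)))) (XT.nd (nat_lit 78) (nat_lit 0) (nat_lit 0) (XT.lf (nat_lit 0) (nat_lit 6876346186) (nat_lit 76) (nat_lit 55581208462) (nat_lit 76) (nat_lit 12880868787) (nat_lit 8) (nat_lit 4) (nat_lit 9) (nat_lit 5) (nat_lit 9) (nat_lit 4) (nat_lit 395) (nat_lit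 260) (nat_lit 125)) (XT.nd (nat_lit 78) (nat_lit 0) (nat_lit 0) (XT.lf (nat_lit 0) (nat_lit 17767213218) (nat_lit 76) (nat_lit 51187140671) (nat_lit 76) (nat_lit 8463369717) (nat_lit 8) (nat_lit 4) (nat_lit 9) (nat_lit 5) (nat_lit 9) (nat_lit 4) (nat_lit 396) (nat_lit 260) (nat_lit 124)) (XT.lf (nat_lit 0) (nat_lit 28973863454) (nat_lit 76) (nat_lit 46666122160) (nat_lit 76) (nat_lit 3919602391) (nat_lit 8) (nat_lit 4) (nat_lit 9) (nat_lit 5) (nat_lit 9) (nat_lit 4) (nat_lit 397) (nat_lit 260) (nat_lit 123)))))) (XT.nd (nat_lit 30264) (nat_lit 0) (nat_lit 20520) (XT.nd (nat_lit 30030) (nat_lit 0) (nat_lit 21128) (XT.nd (nat_lit 234) (nat_lit 0) (nat_lit 0) (XT.lf (nat_lit 0) (nat_lit 739682343) (nat_lit 152) (nat_lit 41267050840) (nat_lit 76) (nat_lit 39758937429) (nat_lit 7) (nat_lit 5) (nat_lit 9) (nat_lit 5) (nat_lit 8) (nat_lit 4) (nat_lit 398) (nat_lit 260) (nat_lit 122)) (XT.nd (nat_lit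 29718) (nat_lit 0) (nat_lit 21584) (XT.lf (nat_lit 0) (nat_lit 15294885426) (nat_lit 152) (nat_lit 11782461938) (nat_lit 76) (nat_lit 61709127373) (nat_lit 7) (nat_lit 5) (nat_lit 9) (nat_lit 5) (nat_lit 8) (nat_lit 4) (nat_lit 401) (nat_lit 260) (nat_lit 119)) (XT.lf (nat_lit 0) (nat_lit 1421542805) (nat_lit 0) (nat_lit 1421542805) (nat_lit 76) (nat_lit 380099113) (nat_lit 291) (nat_lit 5) (nat_lit 291) (nat_lit 3) (nat_lit 292) (nat_lit 0) (nat_lit 261) (nat_lit 261) (nat_lit 258)))) (XT.nd (nat_lit 78) (nat_lit 228) (nat_lit 0) (XT.lf (nat_lit 0) (nat_lit 1984895847) (nat_lit 228) (nat_lit 695909121) (nat_lit 228) (nat_lit 3771567414) (nat_lit 288) (nat_lit 3) (nat_lit 291) (nat_lit 3) (nat_lit 291) (nat_lit 5) (nat_lit 262) (nat_lit 261) (nat_lit 257)) (XT.nd (nat_lit 78) (nat_lit 228) (nat_lit 0) (XT.lf (nat_lit 76) (nat_lit 2280389274) (nat_lit 0) (nat_lit 2431603985) (nat_lit 228) (nat_lit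 1749226891) (nat_lit 289) (nat_lit 5) (nat_lit 288) (nat_lit 3) (nat_lit 291) (nat_lit 5) (nat_lit 263) (nat_lit 261) (nat_lit 256)) (XT.lf (nat_lit 0) (nat_lit 931410297) (nat_lit 228) (nat_lit 1177200129) (nat_lit 304) (nat_lit 4364698761) (nat_lit 285) (nat_lit 5) (nat_lit 288) (nat_lit 3) (nat_lit 289) (nat_lit 5) (nat_lit 264) (nat_lit 261) (nat_lit 255))))) (XT.nd (nat_lit 234) (nat_lit 304) (nat_lit 0) (XT.nd (nat_lit 78) (nat_lit 304) (nat_lit 0) (XT.lf (nat_lit 76) (nat_lit 1880427609) (nat_lit 0) (nat_lit 1692280938) (nat_lit 304) (nat_lit 2915380508) (nat_lit 286) (nat_lit 5) (nat_lit 285) (nat_lit 5) (nat_lit 289) (nat_lit 5) (nat_lit 265) (nat_lit 261) (nat_lit 254)) (XT.nd (nat_lit 78) (nat_lit 304) (nat_lit 0) (XT.lf (nat_lit 76) (nat_lit 4998972847) (nat_lit 0) (nat_lit 1205946589) (nat_lit 304) (nat_lit 301343371) (nat_lit 286) (nat_lit 5) (nat_lit 285) (nat_lit 5) (nat_lit 289)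 (nat_lit 5) (nat_lit 266) (nat_lit 261) (nat_lit 253)) (XT.lf (nat_lit 76) (nat_lit 1639513450) (nat_lit 0) (nat_lit 622157734) (nat_lit 380) (nat_lit 4265388013) (nat_lit 282) (nat_lit 5) (nat_lit 281) (nat_lit 5) (nat_lit 286) (nat_lit 5) (nat_lit 267) (nat_lit 261) (nat_lit 252)))) (XT.nd (nat_lit 78) (nat_lit 380) (nat_lit 0) (XT.lf (nat_lit 0) (nat_lit 4814882731) (nat_lit 304) (nat_lit 1697936902) (nat_lit 76) (nat_lit 38264625) (nat_lit 282) (nat_lit 5) (nat_lit 286) (nat_lit 5) (nat_lit 283) (nat_lit 5) (nat_lit 268) (nat_lit 261) (nat_lit 251)) (XT.nd (nat_lit 78) (nat_lit 0) (nat_lit 0) (XT.lf (nat_lit 0) (nat_lit 779019033) (nat_lit 380) (nat_lit 5031247498) (nat_lit 76) (nat_lit 767758972) (nat_lit 277) (nat_lit 5) (nat_lit 282) (nat_lit 5) (nat_lit 278) (nat_lit 5) (nat_lit 269) (nat_lit 261) (nat_lit 250)) (XT.lf (nat_lit 0) (nat_lit 3260112633) (nat_lit 380) (nat_lit 1757397568)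 (nat_lit 76) (nat_lit 1590241542) (nat_lit 277) (nat_lit 5) (nat_lit 282) (nat_lit 5) (nat_lit 278) (nat_lit 5) (nat_lit 270) (nat_lit 261) (nat_lit 249))))))))
noncomputable def xc111 : XT := (XT.nd (nat_lit 1872) (nat_lit 5624) (nat_lit 0) (XT.nd (nat_lit 936) (nat_lit 5472) (nat_lit 0) (XT.nd (nat_lit 468) (nat_lit 3040) (nat_lit 0) (XT.nd (nat_lit 234) (nat_lit 608) (nat_lit 0) (XT.nd (nat_lit 78) (nat_lit 532) (nat_lit 0) (XT.lf (nat_lit 0) (nat_lit 1588958152) (nat_lit 380) (nat_lit 4152631393) (nat_lit 456) (nat_lit 899246207) (nat_lit 272) (nat_lit 5) (nat_lit 277) (nat_lit 5) (nat_lit 278) (nat_lit 5) (nat_lit 271) (nat_lit 261) (nat_lit 248)) (XT.nd (nat_lit 78) (nat_lit 456) (nat_lit 0) (XT.lf (nat_lit 0) (nat_lit 1520499276) (nat_lit 456) (nat_lit 1676572470) (nat_lit 76) (nat_lit 3479716168) (nat_lit 271) (nat_lit 5) (nat_lit 277) (nat_lit 5) (nat_lit 272) (nat_lit 5) (nat_lit 272)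 (nat_lit 261) (nat_lit 247)) (XT.lf (nat_lit 0) (nat_lit 1769155712) (nat_lit 456) (nat_lit 2156828765) (nat_lit 532) (nat_lit 2789854171) (nat_lit 265) (nat_lit 5) (nat_lit 271) (nat_lit 5) (nat_lit 272) (nat_lit 5) (nat_lit 273) (nat_lit 261) (nat_lit 246)))) (XT.nd (nat_lit 78) (nat_lit 608) (nat_lit 0) (XT.lf (nat_lit 0) (nat_lit 5296722040) (nat_lit 456) (nat_lit 1040018620) (nat_lit 532) (nat_lit 421544283) (nat_lit 265) (nat_lit 5) (nat_lit 271) (nat_lit 5) (nat_lit 272) (nat_lit 5) (nat_lit 274) (nat_lit 261) (nat_lit 245)) (XT.nd (nat_lit 78) (nat_lit 0) (nat_lit 0) (XT.lf (nat_lit 0) (nat_lit 1917872905) (nat_lit 608) (nat_lit 4711752955) (nat_lit 76) (nat_lit 173818650) (nat_lit 257) (nat_lit 5) (nat_lit 265) (nat_lit 5) (nat_lit 258) (nat_lit 5) (nat_lit 275) (nat_lit 261) (nat_lit 244)) (XT.lf (nat_lit 0) (nat_lit 4263913126) (nat_lit 608) (nat_lit 1141051486) (nat_lit 76) (nat_lit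 1446720444) (nat_lit 257) (nat_lit 5) (nat_lit 265) (nat_lit 5) (nat_lit 258) (nat_lit 5) (nat_lit 276) (nat_lit 261) (nat_lit 243))))) (XT.nd (nat_lit 234) (nat_lit 1672) (nat_lit 0) (XT.nd (nat_lit 78) (nat_lit 760) (nat_lit 0) (XT.lf (nat_lit 0) (nat_lit 2529407919) (nat_lit 608) (nat_lit 4097290249) (nat_lit 684) (nat_lit 276476750) (nat_lit 249) (nat_lit 5) (nat_lit 257) (nat_lit 5) (nat_lit 258) (nat_lit 5) (nat_lit 277) (nat_lit 261) (nat_lit 242)) (XT.nd (nat_lit 78) (nat_lit 684) (nat_lit 0) (XT.lf (nat_lit 0) (nat_lit 1997575589) (nat_lit 684) (nat_lit 700715205) (nat_lit 76) (nat_lit 4259459477) (nat_lit 248) (nat_lit 5) (nat_lit 257) (nat_lit 5) (nat_lit 249) (nat_lit 5) (nat_lit 278) (nat_lit 261) (nat_lit 241)) (XT.lf (nat_lit 0) (nat_lit 3083769685) (nat_lit 684) (nat_lit 1205254849) (nat_lit 760) (nat_lit 2726390901) (nat_lit 239) (nat_lit 5) (nat_lit 248) (nat_lit 5) (nat_lit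 249) (nat_lit 5) (nat_lit 279) (nat_lit 261) (nat_lit 240)))) (XT.nd (nat_lit 78) (nat_lit 1672) (nat_lit 0) (XT.lf (nat_lit 0) (nat_lit 6586464943) (nat_lit 760) (nat_lit 139896466) (nat_lit 76) (nat_lit 350503189) (nat_lit 239) (nat_lit 5) (nat_lit 249) (nat_lit 5) (nat_lit 240) (nat_lit 5) (nat_lit 280) (nat_lit 261) (nat_lit 239)) (XT.nd (nat_lit 78) (nat_lit 836) (nat_lit 0) (XT.lf (nat_lit 0) (nat_lit 1754125016) (nat_lit 836) (nat_lit 3387440997) (nat_lit 76) (nat_lit 1998925367) (nat_lit 228) (nat_lit 5) (nat_lit 239) (nat_lit 5) (nat_lit 229) (nat_lit 5) (nat_lit 281) (nat_lit 261) (nat_lit 238)) (XT.lf (nat_lit 0) (nat_lit 507205242) (nat_lit 836) (nat_lit 3484943348) (nat_lit 912) (nat_lit 3215809053) (nat_lit 217) (nat_lit 5) (nat_lit 228) (nat_lit 5) (nat_lit 229) (nat_lit 5) (nat_lit 282) (nat_lit 261) (nat_lit 237)))))) (XT.nd (nat_lit 468) (nat_lit 2356) (nat_lit 0) (XT.nd (nat_lit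 234) (nat_lit 2128) (nat_lit 0) (XT.nd (nat_lit 78) (nat_lit 988) (nat_lit 0) (XT.lf (nat_lit 0) (nat_lit 4531202206) (nat_lit 836) (nat_lit 1731534490) (nat_lit 912) (nat_lit 1015900845) (nat_lit 217) (nat_lit 5) (nat_lit 228) (nat_lit 5) (nat_lit 229) (nat_lit 5) (nat_lit 283) (nat_lit 261) (nat_lit 236)) (XT.nd (nat_lit 78) (nat_lit 0) (nat_lit 0) (XT.lf (nat_lit 0) (nat_lit 1171398690) (nat_lit 988) (nat_lit 6073242095) (nat_lit 76) (nat_lit 108206608) (nat_lit 204) (nat_lit 5) (nat_lit 217) (nat_lit 5) (nat_lit 205) (nat_lit 5) (nat_lit 284) (nat_lit 261) (nat_lit 235)) (XT.lf (nat_lit 0) (nat_lit 3382999348) (nat_lit 988) (nat_lit 2030573247) (nat_lit 76) (nat_lit 2016175604) (nat_lit 204) (nat_lit 5) (nat_lit 217) (nat_lit 5) (nat_lit 205) (nat_lit 5) (nat_lit 285) (nat_lit 261) (nat_lit 234)))) (XT.nd (nat_lit 78) (nat_lit 1140) (nat_lit 0) (XT.lf (nat_lit 0) (nat_lit 2117984908) (nat_lit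 988) (nat_lit 3499185038) (nat_lit 1064) (nat_lit 1893234796) (nat_lit 191) (nat_lit 5) (nat_lit 204) (nat_lit 5) (nat_lit 205) (nat_lit 5) (nat_lit 286) (nat_lit 261) (nat_lit 233)) (XT.nd (nat_lit 78) (nat_lit 1064) (nat_lit 0) (XT.lf (nat_lit 0) (nat_lit 275692848) (nat_lit 1064) (nat_lit 1221124038) (nat_lit 76) (nat_lit 6097983573) (nat_lit 190) (nat_lit 5) (nat_lit 204) (nat_lit 5) (nat_lit 191) (nat_lit 5) (nat_lit 287) (nat_lit 261) (nat_lit 232)) (XT.lf (nat_lit 0) (nat_lit 2445315934) (nat_lit 1140) (nat_lit 4627823385) (nat_lit 76) (nat_lit 608939873) (nat_lit 176) (nat_lit 5) (nat_lit 191) (nat_lit 5) (nat_lit 177) (nat_lit 5) (nat_lit 288) (nat_lit 261) (nat_lit 231))))) (XT.nd (nat_lit 234) (nat_lit 608) (nat_lit 0) (XT.nd (nat_lit 78) (nat_lit 1748) (nat_lit 0) (XT.lf (nat_lit 0) (nat_lit 4646906584) (nat_lit 1140) (nat_lit 360934726) (nat_lit 76) (nat_lit 2765248886) (nat_lit 176)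 (nat_lit 5) (nat_lit 191) (nat_lit 5) (nat_lit 177) (nat_lit 5) (nat_lit 289) (nat_lit 261) (nat_lit 230)) (XT.nd (nat_lit 78) (nat_lit 608) (nat_lit 0) (XT.lf (nat_lit 0) (nat_lit 4057491024) (nat_lit 1140) (nat_lit 2837421920) (nat_lit 1216) (nat_lit 972624319) (nat_lit 161) (nat_lit 5) (nat_lit 176) (nat_lit 5) (nat_lit 177) (nat_lit 5) (nat_lit 290) (nat_lit 261) (nat_lit 229)) (XT.lf (nat_lit 0) (nat_lit 594382101) (nat_lit 532) (nat_lit 578112056) (nat_lit 608) (nat_lit 6793536747) (nat_lit 153) (nat_lit 5) (nat_lit 160) (nat_lit 5) (nat_lit 161) (nat_lit 5) (nat_lit 291) (nat_lit 261) (nat_lit 228)))) (XT.nd (nat_lit 78) (nat_lit 608) (nat_lit 0) (XT.lf (nat_lit 0) (nat_lit 3361115583) (nat_lit 608) (nat_lit 2941744984) (nat_lit 76) (nat_lit 1764475807) (nat_lit 153) (nat_lit 5) (nat_lit 161) (nat_lit 5) (nat_lit 154) (nat_lit 5) (nat_lit 292) (nat_lit 261) (nat_lit 227)) (XT.nd (nat_lit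 78) (nat_lit 0) (nat_lit 0) (XT.lf (nat_lit 0) (nat_lit 1590403221) (nat_lit 608) (nat_lit 3990694546) (nat_lit 684) (nat_lit 2591715928) (nat_lit 145) (nat_lit 5) (nat_lit 153) (nat_lit 5) (nat_lit 154) (nat_lit 5) (nat_lit 293) (nat_lit 261) (nat_lit 226)) (XT.lf (nat_lit 0) (nat_lit 6263404078) (nat_lit 608) (nat_lit 1579749781) (nat_lit 684) (nat_lit 439137972) (nat_lit 145) (nat_lit 5) (nat_lit 153) (nat_lit 5) (nat_lit 154) (nat_lit 5) (nat_lit 294) (nat_lit 261) (nat_lit 225))))))) (XT.nd (nat_lit 936) (nat_lit 2204) (nat_lit 0) (XT.nd (nat_lit 468) (nat_lit 1292) (nat_lit 0) (XT.nd (nat_lit 234) (nat_lit 988) (nat_lit 0) (XT.nd (nat_lit 78) (nat_lit 532) (nat_lit 0) (XT.lf (nat_lit 0) (nat_lit 1724727545) (nat_lit 608) (nat_lit 5743131093) (nat_lit 76) (nat_lit 927335707) (nat_lit 137) (nat_lit 5) (nat_lit 145) (nat_lit 5) (nat_lit 138) (nat_lit 5) (nat_lit 295) (nat_lit 261) (nat_lit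 224)) (XT.nd (nat_lit 78) (nat_lit 532) (nat_lit 0) (XT.lf (nat_lit 0) (nat_lit 3928651001) (nat_lit 608) (nat_lit 1082590624) (nat_lit 76) (nat_lit 3500685008) (nat_lit 137) (nat_lit 5) (nat_lit 145) (nat_lit 5) (nat_lit 138) (nat_lit 5) (nat_lit 296) (nat_lit 261) (nat_lit 223)) (XT.lf (nat_lit 0) (nat_lit 3736250991) (nat_lit 532) (nat_lit 2447616946) (nat_lit 608) (nat_lit 2448827176) (nat_lit 130) (nat_lit 5) (nat_lit 137) (nat_lit 5) (nat_lit 138) (nat_lit 5) (nat_lit 297) (nat_lit 261) (nat_lit 222)))) (XT.nd (nat_lit 78) (nat_lit 988) (nat_lit 0) (XT.lf (nat_lit 0) (nat_lit 8469817065) (nat_lit 608) (nat_lit 92301450) (nat_lit 76) (nat_lit 196162751) (nat_lit 130) (nat_lit 5) (nat_lit 138) (nat_lit 5) (nat_lit 131) (nat_lit 5) (nat_lit 298) (nat_lit 261) (nat_lit 221)) (XT.nd (nat_lit 78) (nat_lit 456) (nat_lit 0) (XT.lf (nat_lit 0) (nat_lit 1921767755) (nat_lit 532) (nat_lit 4032872941)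 (nat_lit 76) (nat_lit 2931832198) (nat_lit 123) (nat_lit 5) (nat_lit 130) (nat_lit 5) (nat_lit 124) (nat_lit 5) (nat_lit 299) (nat_lit 261) (nat_lit 220)) (XT.lf (nat_lit 0) (nat_lit 891495997) (nat_lit 456) (nat_lit 3262501959) (nat_lit 532) (nat_lit 4865661474) (nat_lit 117) (nat_lit 5) (nat_lit 123) (nat_lit 5) (nat_lit 124) (nat_lit 5) (nat_lit 300) (nat_lit 261) (nat_lit 219))))) (XT.nd (nat_lit 234) (nat_lit 836) (nat_lit 0) (XT.nd (nat_lit 78) (nat_lit 456) (nat_lit 0) (XT.lf (nat_lit 0) (nat_lit 5992475354) (nat_lit 456) (nat_lit 454303674) (nat_lit 532) (nat_lit 2710332215) (nat_lit 117) (nat_lit 5) (nat_lit 123) (nat_lit 5) (nat_lit 124) (nat_lit 5) (nat_lit 301) (nat_lit 261) (nat_lit 218)) (XT.nd (nat_lit 78) (nat_lit 76) (nat_lit 0) (XT.lf (nat_lit 0) (nat_lit 1907982414) (nat_lit 380) (nat_lit 6896309516) (nat_lit 456) (nat_lit 494591182) (nat_lit 112) (nat_lit 5) (nat_lit 117) (nat_lit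 5) (nat_lit 118) (nat_lit 5) (nat_lit 302) (nat_lit 261) (nat_lit 217)) (XT.lf (nat_lit 0) (nat_lit 1743988629) (nat_lit 456) (nat_lit 2322357220) (nat_lit 76) (nat_lit 5378379942) (nat_lit 111) (nat_lit 5) (nat_lit 117) (nat_lit 5) (nat_lit 112) (nat_lit 5) (nat_lit 303) (nat_lit 261) (nat_lit 216)))) (XT.nd (nat_lit 78) (nat_lit 380) (nat_lit 0) (XT.lf (nat_lit 0) (nat_lit 2897398073) (nat_lit 456) (nat_lit 1126042821) (nat_lit 532) (nat_lit 5571914863) (nat_lit 105) (nat_lit 5) (nat_lit 111) (nat_lit 5) (nat_lit 112) (nat_lit 5) (nat_lit 304) (nat_lit 261) (nat_lit 215)) (XT.nd (nat_lit 78) (nat_lit 380) (nat_lit 0) (XT.lf (nat_lit 0) (nat_lit 6369757512) (nat_lit 532) (nat_lit 1500227069) (nat_lit 76) (nat_lit 1880632211) (nat_lit 105) (nat_lit 5) (nat_lit 112) (nat_lit 5) (nat_lit 106) (nat_lit 5) (nat_lit 305) (nat_lit 261) (nat_lit 214)) (XT.lf (nat_lit 0) (nat_lit 3866019533) (nat_lit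 380) (nat_lit 4926531929) (nat_lit 456) (nat_lit 1117866216) (nat_lit 100) (nat_lit 5) (nat_lit 105) (nat_lit 5) (nat_lit 106) (nat_lit 5) (nat_lit 306) (nat_lit 261) (nat_lit 213)))))) (XT.nd (nat_lit 468) (nat_lit 988) (nat_lit 0) (XT.nd (nat_lit 234) (nat_lit 760) (nat_lit 0) (XT.nd (nat_lit 78) (nat_lit 380) (nat_lit 0) (XT.lf (nat_lit 0) (nat_lit 1162687362) (nat_lit 456) (nat_lit 714457665) (nat_lit 76) (nat_lit 8198378467) (nat_lit 99) (nat_lit 5) (nat_lit 105) (nat_lit 5) (nat_lit 100) (nat_lit 5) (nat_lit 307) (nat_lit 261) (nat_lit 212)) (XT.nd (nat_lit 78) (nat_lit 0) (nat_lit 0) (XT.lf (nat_lit 0) (nat_lit 3507286624) (nat_lit 456) (nat_lit 5450218578) (nat_lit 76) (nat_lit 1287261499) (nat_lit 94) (nat_lit 5) (nat_lit 100) (nat_lit 5) (nat_lit 95) (nat_lit 5) (nat_lit 308) (nat_lit 261) (nat_lit 211)) (XT.lf (nat_lit 0) (nat_lit 5907967742) (nat_lit 456) (nat_lit 5302573) (nat_lit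 76) (nat_lit 4506302019) (nat_lit 94) (nat_lit 5) (nat_lit 100) (nat_lit 5) (nat_lit 95) (nat_lit 5) (nat_lit 309) (nat_lit 261) (nat_lit 210)))) (XT.nd (nat_lit 78) (nat_lit 456) (nat_lit 0) (XT.lf (nat_lit 0) (nat_lit 5663728669) (nat_lit 304) (nat_lit 2732424848) (nat_lit 380) (nat_lit 2203059861) (nat_lit 90) (nat_lit 5) (nat_lit 94) (nat_lit 5) (nat_lit 95) (nat_lit 5) (nat_lit 310) (nat_lit 261) (nat_lit 209)) (XT.nd (nat_lit 78) (nat_lit 0) (nat_lit 0) (XT.lf (nat_lit 0) (nat_lit 144394384) (nat_lit 456) (nat_lit 10110207612) (nat_lit 76) (nat_lit 530451946) (nat_lit 84) (nat_lit 5) (nat_lit 90) (nat_lit 5) (nat_lit 85) (nat_lit 5) (nat_lit 311) (nat_lit 261) (nat_lit 208)) (XT.lf (nat_lit 0) (nat_lit 2557189304) (nat_lit 456) (nat_lit 4520353531) (nat_lit 76) (nat_lit 3897147662) (nat_lit 84) (nat_lit 5) (nat_lit 90) (nat_lit 5) (nat_lit 85) (nat_lit 5) (nat_lit 312) (nat_lit 261) (nat_lit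 207))))) (XT.nd (nat_lit 234) (nat_lit 380) (nat_lit 0) (XT.nd (nat_lit 78) (nat_lit 304) (nat_lit 0) (XT.lf (nat_lit 0) (nat_lit 1211636424) (nat_lit 304) (nat_lit 3805301441) (nat_lit 380) (nat_lit 6153890742) (nat_lit 80) (nat_lit 5) (nat_lit 84) (nat_lit 5) (nat_lit 85) (nat_lit 5) (nat_lit 313) (nat_lit 261) (nat_lit 206)) (XT.nd (nat_lit 78) (nat_lit 304) (nat_lit 0) (XT.lf (nat_lit 0) (nat_lit 7159528140) (nat_lit 304) (nat_lit 400131837) (nat_lit 380) (nat_lit 3812963559) (nat_lit 80) (nat_lit 5) (nat_lit 84) (nat_lit 5) (nat_lit 85) (nat_lit 5) (nat_lit 314) (nat_lit 261) (nat_lit 205)) (XT.lf (nat_lit 0) (nat_lit 1659604778) (nat_lit 304) (nat_lit 8529362469) (nat_lit 380) (nat_lit 1391242669) (nat_lit 76) (nat_lit 5) (nat_lit 80) (nat_lit 5) (nat_lit 81) (nat_lit 5) (nat_lit 315) (nat_lit 261) (nat_lit 204)))) (XT.nd (nat_lit 78) (nat_lit 304) (nat_lit 0) (XT.lf (nat_lit 0) (nat_lit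 1093197229) (nat_lit 380) (nat_lit 4061454056) (nat_lit 76) (nat_lit 6638750708) (nat_lit 75) (nat_lit 5) (nat_lit 80) (nat_lit 5) (nat_lit 76) (nat_lit 5) (nat_lit 316) (nat_lit 261) (nat_lit 203)) (XT.nd (nat_lit 78) (nat_lit 0) (nat_lit 0) (XT.lf (nat_lit 0) (nat_lit 1950604980) (nat_lit 304) (nat_lit 1658048772) (nat_lit 380) (nat_lit 8404432203) (nat_lit 71) (nat_lit 5) (nat_lit 75) (nat_lit 5) (nat_lit 76) (nat_lit 5) (nat_lit 317) (nat_lit 261) (nat_lit 202)) (XT.lf (nat_lit 0) (nat_lit 6225795965) (nat_lit 380) (nat_lit 4078558820) (nat_lit 76) (nat_lit 1934260489) (nat_lit 71) (nat_lit 5) (nat_lit 76) (nat_lit 5) (nat_lit 72) (nat_lit 5) (nat_lit 318) (nat_lit 261) (nat_lit 201))))))))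
noncomputable def xc112 : XT := (XT.nd (nat_lit 1794) (nat_lit 1216) (nat_lit 0) (XT.nd (nat_lit 858) (nat_lit 1292) (nat_lit 0) (XT.nd (nat_lit 390) (nat_lit 532) (nat_lit 0) (XT.nd (nat_lit 156) (nat_lit 608) (nat_lit 0) (XT.nd (nat_lit 78) (nat_lit 0) (nat_lit 0) (XT.lf (nat_lit 0) (nat_lit 2062475399) (nat_lit 304) (nat_lit 6862327454) (nat_lit 380) (nat_lit 3546047399) (nat_lit 67) (nat_lit 5) (nat_lit 71) (nat_lit 5) (nat_lit 72) (nat_lit 5) (nat_lit 319) (nat_lit 261) (nat_lit 200)) (XT.lf (nat_lit 0) (nat_lit 8425564795) (nat_lit 304) (nat_lit 3288026831) (nat_lit 380) (nat_lit 996235420) (nat_lit 67) (nat_lit 5) (nat_lit 71) (nat_lit 5) (nat_lit 72) (nat_lit 5) (nat_lit 320) (nat_lit 261) (nat_lit 199))) (XT.nd (nat_lit 78) (nat_lit 304) (nat_lit 0) (XT.lf (nat_lit 0) (nat_lit 1589726124) (nat_lit 304) (nat_lit 10958066458) (nat_lit 76) (nat_lit 408003442) (nat_lit 63) (nat_lit 5) (nat_lit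 67) (nat_lit 5) (nat_lit 64) (nat_lit 5) (nat_lit 321) (nat_lit 261) (nat_lit 198)) (XT.nd (nat_lit 78) (nat_lit 304) (nat_lit 0) (XT.lf (nat_lit 0) (nat_lit 4278077026) (nat_lit 304) (nat_lit 4740210059) (nat_lit 76) (nat_lit 4189251858) (nat_lit 63) (nat_lit 5) (nat_lit 67) (nat_lit 5) (nat_lit 64) (nat_lit 5) (nat_lit 322) (nat_lit 261) (nat_lit 197)) (XT.lf (nat_lit 0) (nat_lit 1652227403) (nat_lit 304) (nat_lit 5380236323) (nat_lit 380) (nat_lit 6434843620) (nat_lit 59) (nat_lit 5) (nat_lit 63) (nat_lit 5) (nat_lit 64) (nat_lit 5) (nat_lit 323) (nat_lit 261) (nat_lit 196))))) (XT.nd (nat_lit 234) (nat_lit 228) (nat_lit 0) (XT.nd (nat_lit 78) (nat_lit 304) (nat_lit 0) (XT.lf (nat_lit 0) (nat_lit 8289845404) (nat_lit 304) (nat_lit 1597474094) (nat_lit 380) (nat_lit 3847047922) (nat_lit 59) (nat_lit 5) (nat_lit 63) (nat_lit 5) (nat_lit 64) (nat_lit 5) (nat_lit 324) (nat_lit 261) (nat_lit 195))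 (XT.nd (nat_lit 78) (nat_lit 76) (nat_lit 0) (XT.lf (nat_lit 0) (nat_lit 1072721256) (nat_lit 228) (nat_lit 11758225653) (nat_lit 304) (nat_lit 1178431367) (nat_lit 56) (nat_lit 5) (nat_lit 59) (nat_lit 5) (nat_lit 60) (nat_lit 5) (nat_lit 325) (nat_lit 261) (nat_lit 194)) (XT.lf (nat_lit 0) (nat_lit 1581783934) (nat_lit 304) (nat_lit 6468809824) (nat_lit 76) (nat_lit 6240358315) (nat_lit 55) (nat_lit 5) (nat_lit 59) (nat_lit 5) (nat_lit 56) (nat_lit 5) (nat_lit 326) (nat_lit 261) (nat_lit 193)))) (XT.nd (nat_lit 78) (nat_lit 0) (nat_lit 0) (XT.lf (nat_lit 0) (nat_lit 141987627) (nat_lit 228) (nat_lit 4232188357) (nat_lit 304) (nat_lit 10207285382) (nat_lit 52) (nat_lit 5) (nat_lit 55) (nat_lit 5) (nat_lit 56) (nat_lit 5) (nat_lit 327) (nat_lit 261) (nat_lit 192)) (XT.nd (nat_lit 78) (nat_lit 0) (nat_lit 0) (XT.lf (nat_lit 0) (nat_lit 7041938656) (nat_lit 228) (nat_lit 245837134) (nat_lit 304)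 (nat_lit 7591816175) (nat_lit 52) (nat_lit 5) (nat_lit 55) (nat_lit 5) (nat_lit 56) (nat_lit 5) (nat_lit 328) (nat_lit 261) (nat_lit 191)) (XT.lf (nat_lit 0) (nat_lit 10298685587) (nat_lit 304) (nat_lit 1116152688) (nat_lit 76) (nat_lit 3771559406) (nat_lit 52) (nat_lit 5) (nat_lit 56) (nat_lit 5) (nat_lit 53) (nat_lit 5) (nat_lit 329) (nat_lit 261) (nat_lit 190)))))) (XT.nd (nat_lit 468) (nat_lit 608) (nat_lit 0) (XT.nd (nat_lit 234) (nat_lit 152) (nat_lit 0) (XT.nd (nat_lit 78) (nat_lit 304) (nat_lit 0) (XT.lf (nat_lit 0) (nat_lit 5879216884) (nat_lit 228) (nat_lit 7553243100) (nat_lit 304) (nat_lit 2068998901) (nat_lit 49) (nat_lit 5) (nat_lit 52) (nat_lit 5) (nat_lit 53) (nat_lit 5) (nat_lit 330) (nat_lit 261) (nat_lit 189)) (XT.nd (nat_lit 78) (nat_lit 228) (nat_lit 0) (XT.lf (nat_lit 0) (nat_lit 803071277) (nat_lit 304) (nat_lit 2766660728) (nat_lit 76) (nat_lit 12256472934) (nat_lit 48)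 (nat_lit 5) (nat_lit 52) (nat_lit 5) (nat_lit 49) (nat_lit 5) (nat_lit 331) (nat_lit 261) (nat_lit 188)) (XT.lf (nat_lit 0) (nat_lit 3741308132) (nat_lit 304) (nat_lit 11845897982) (nat_lit 76) (nat_lit 572250133) (nat_lit 45) (nat_lit 5) (nat_lit 49) (nat_lit 5) (nat_lit 46) (nat_lit 5) (nat_lit 332) (nat_lit 261) (nat_lit 187)))) (XT.nd (nat_lit 78) (nat_lit 152) (nat_lit 0) (XT.lf (nat_lit 0) (nat_lit 6805951863) (nat_lit 304) (nat_lit 4913908393) (nat_lit 76) (nat_lit 4781721422) (nat_lit 45) (nat_lit 5) (nat_lit 49) (nat_lit 5) (nat_lit 46) (nat_lit 5) (nat_lit 333) (nat_lit 261) (nat_lit 186)) (XT.nd (nat_lit 78) (nat_lit 0) (nat_lit 0) (XT.lf (nat_lit 0) (nat_lit 2231410335) (nat_lit 152) (nat_lit 7728012531) (nat_lit 228) (nat_lit 6894665033) (nat_lit 43) (nat_lit 5) (nat_lit 45) (nat_lit 5) (nat_lit 46) (nat_lit 5) (nat_lit 334) (nat_lit 261) (nat_lit 185)) (XT.lf (nat_lit 0) (nat_lit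 9654019778) (nat_lit 152) (nat_lit 3578889381) (nat_lit 228) (nat_lit 3983520789) (nat_lit 43) (nat_lit 5) (nat_lit 45) (nat_lit 5) (nat_lit 46) (nat_lit 5) (nat_lit 335) (nat_lit 261) (nat_lit 184))))) (XT.nd (nat_lit 234) (nat_lit 304) (nat_lit 0) (XT.nd (nat_lit 78) (nat_lit 304) (nat_lit 0) (XT.lf (nat_lit 0) (nat_lit 16587646627) (nat_lit 228) (nat_lit 334311533) (nat_lit 76) (nat_lit 668215010) (nat_lit 43) (nat_lit 5) (nat_lit 46) (nat_lit 5) (nat_lit 44) (nat_lit 5) (nat_lit 336) (nat_lit 261) (nat_lit 183)) (XT.nd (nat_lit 78) (nat_lit 0) (nat_lit 0) (XT.lf (nat_lit 0) (nat_lit 2109832216) (nat_lit 304) (nat_lit 10814317314) (nat_lit 76) (nat_lit 5047935244) (nat_lit 39) (nat_lit 5) (nat_lit 43) (nat_lit 5) (nat_lit 40) (nat_lit 5) (nat_lit 337) (nat_lit 261) (nat_lit 182)) (XT.lf (nat_lit 0) (nat_lit 5275957176) (nat_lit 304) (nat_lit 3530182879) (nat_lit 76) (nat_lit 9559619949) (nat_lit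 39) (nat_lit 5) (nat_lit 43) (nat_lit 5) (nat_lit 40) (nat_lit 5) (nat_lit 338) (nat_lit 261) (nat_lit 181)))) (XT.nd (nat_lit 78) (nat_lit 152) (nat_lit 0) (XT.lf (nat_lit 0) (nat_lit 4015558965) (nat_lit 152) (nat_lit 4537908785) (nat_lit 228) (nat_lit 10217305505) (nat_lit 37) (nat_lit 5) (nat_lit 39) (nat_lit 5) (nat_lit 40) (nat_lit 5) (nat_lit 339) (nat_lit 261) (nat_lit 180)) (XT.nd (nat_lit 78) (nat_lit 152) (nat_lit 0) (XT.lf (nat_lit 0) (nat_lit 11825109540) (nat_lit 152) (nat_lit 117954675) (nat_lit 228) (nat_lit 7244479114) (nat_lit 37) (nat_lit 5) (nat_lit 39) (nat_lit 5) (nat_lit 40) (nat_lit 5) (nat_lit 340) (nat_lit 261) (nat_lit 179)) (XT.lf (nat_lit 0) (nat_lit 178540080) (nat_lit 152) (nat_lit 15278781232) (nat_lit 228) (nat_lit 4158824694) (nat_lit 35) (nat_lit 5) (nat_lit 37) (nat_lit 5) (nat_lit 38) (nat_lit 5) (nat_lit 341) (nat_lit 261) (nat_lit 178))))))) (XT.nd (nat_lit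 936) (nat_lit 456) (nat_lit 0) (XT.nd (nat_lit 468) (nat_lit 380) (nat_lit 0) (XT.nd (nat_lit 234) (nat_lit 152) (nat_lit 0) (XT.nd (nat_lit 78) (nat_lit 228) (nat_lit 0) (XT.lf (nat_lit 0) (nat_lit 8061366501) (nat_lit 152) (nat_lit 11070065221) (nat_lit 228) (nat_lit 924560412) (nat_lit 35) (nat_lit 5) (nat_lit 37) (nat_lit 5) (nat_lit 38) (nat_lit 5) (nat_lit 342) (nat_lit 261) (nat_lit 177)) (XT.nd (nat_lit 78) (nat_lit 152) (nat_lit 0) (XT.lf (nat_lit 0) (nat_lit 2339084848) (nat_lit 228) (nat_lit 4385034425) (nat_lit 76) (nat_lit 13784857908) (nat_lit 34) (nat_lit 5) (nat_lit 37) (nat_lit 5) (nat_lit 35) (nat_lit 5) (nat_lit 343) (nat_lit 261) (nat_lit 176)) (XT.lf (nat_lit 0) (nat_lit 3479011990) (nat_lit 152) (nat_lit 2216406592) (nat_lit 228) (nat_lit 15279474320) (nat_lit 32) (nat_lit 5) (nat_lit 34) (nat_lit 5) (nat_lit 35) (nat_lit 5) (nat_lit 344) (nat_lit 261) (nat_lit 175)))) (XT.nd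 (nat_lit 78) (nat_lit 152) (nat_lit 0) (XT.lf (nat_lit 0) (nat_lit 9200561125) (nat_lit 228) (nat_lit 9841090691) (nat_lit 76) (nat_lit 2411706829) (nat_lit 32) (nat_lit 5) (nat_lit 35) (nat_lit 5) (nat_lit 33) (nat_lit 5) (nat_lit 345) (nat_lit 261) (nat_lit 174)) (XT.nd (nat_lit 78) (nat_lit 152) (nat_lit 0) (XT.lf (nat_lit 0) (nat_lit 12813457677) (nat_lit 228) (nat_lit 2010385778) (nat_lit 76) (nat_lit 7122272560) (nat_lit 32) (nat_lit 5) (nat_lit 35) (nat_lit 5) (nat_lit 33) (nat_lit 5) (nat_lit 346) (nat_lit 261) (nat_lit 173)) (XT.lf (nat_lit 0) (nat_lit 6144278650) (nat_lit 152) (nat_lit 10430743595) (nat_lit 228) (nat_lit 5877440618) (nat_lit 30) (nat_lit 5) (nat_lit 32) (nat_lit 5) (nat_lit 33) (nat_lit 5) (nat_lit 347) (nat_lit 261) (nat_lit 172))))) (XT.nd (nat_lit 234) (nat_lit 152) (nat_lit 0) (XT.nd (nat_lit 78) (nat_lit 228) (nat_lit 0) (XT.lf (nat_lit 0) (nat_lit 14554237849)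 (nat_lit 152) (nat_lit 5896968722) (nat_lit 228) (nat_lit 2522755111) (nat_lit 30) (nat_lit 5) (nat_lit 32) (nat_lit 5) (nat_lit 33) (nat_lit 5) (nat_lit 348) (nat_lit 261) (nat_lit 171)) (XT.nd (nat_lit 78) (nat_lit 152) (nat_lit 0) (XT.lf (nat_lit 0) (nat_lit 896192519) (nat_lit 228) (nat_lit 333615933) (nat_lit 76) (nat_lit 22281587398) (nat_lit 29) (nat_lit 5) (nat_lit 32) (nat_lit 5) (nat_lit 30) (nat_lit 5) (nat_lit 349) (nat_lit 261) (nat_lit 170)) (XT.lf (nat_lit 0) (nat_lit 4462500127) (nat_lit 228) (nat_lit 15998735757) (nat_lit 76) (nat_lit 3600116430) (nat_lit 27) (nat_lit 5) (nat_lit 30) (nat_lit 5) (nat_lit 28) (nat_lit 5) (nat_lit 350) (nat_lit 261) (nat_lit 169)))) (XT.nd (nat_lit 78) (nat_lit 152) (nat_lit 0) (XT.lf (nat_lit 0) (nat_lit 8133850682) (nat_lit 228) (nat_lit 7951647476) (nat_lit 76) (nat_lit 8542380807) (nat_lit 27) (nat_lit 5) (nat_lit 30) (nat_lit 5) (nat_lit 28)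 (nat_lit 5) (nat_lit 351) (nat_lit 261) (nat_lit 168)) (XT.nd (nat_lit 78) (nat_lit 0) (nat_lit 0) (XT.lf (nat_lit 0) (nat_lit 314538598) (nat_lit 152) (nat_lit 11586812301) (nat_lit 228) (nat_lit 13310482962) (nat_lit 25) (nat_lit 5) (nat_lit 27) (nat_lit 5) (nat_lit 28) (nat_lit 5) (nat_lit 352) (nat_lit 261) (nat_lit 167)) (XT.lf (nat_lit 0) (nat_lit 8963537544) (nat_lit 152) (nat_lit 6881844978) (nat_lit 228) (nat_lit 9966032044) (nat_lit 25) (nat_lit 5) (nat_lit 27) (nat_lit 5) (nat_lit 28) (nat_lit 5) (nat_lit 353) (nat_lit 261) (nat_lit 166)))))) (XT.nd (nat_lit 468) (nat_lit 152) (nat_lit 0) (XT.nd (nat_lit 234) (nat_lit 152) (nat_lit 0) (XT.nd (nat_lit 78) (nat_lit 152) (nat_lit 0) (XT.lf (nat_lit 0) (nat_lit 17844653361) (nat_lit 152) (nat_lit 2046781100) (nat_lit 228) (nat_lit 6538049239) (nat_lit 25) (nat_lit 5) (nat_lit 27) (nat_lit 5) (nat_lit 28) (nat_lit 5) (nat_lit 354) (nat_lit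 261) (nat_lit 165)) (XT.nd (nat_lit 78) (nat_lit 152) (nat_lit 0) (XT.lf (nat_lit 0) (nat_lit 24071135964) (nat_lit 228) (nat_lit 129028937) (nat_lit 76) (nat_lit 2865573611) (nat_lit 25) (nat_lit 5) (nat_lit 28) (nat_lit 5) (nat_lit 26) (nat_lit 4) (nat_lit 355) (nat_lit 261) (nat_lit 164)) (XT.lf (nat_lit 0) (nat_lit 731695113) (nat_lit 152) (nat_lit 19021741560) (nat_lit 76) (nat_lit 7964786381) (nat_lit 23) (nat_lit 5) (nat_lit 25) (nat_lit 5) (nat_lit 24) (nat_lit 5) (nat_lit 356) (nat_lit 261) (nat_lit 163)))) (XT.nd (nat_lit 78) (nat_lit 152) (nat_lit 0) (XT.lf (nat_lit 0) (nat_lit 4495483548) (nat_lit 152) (nat_lit 10656719521) (nat_lit 76) (nat_lit 13237623522) (nat_lit 23) (nat_lit 5) (nat_lit 25) (nat_lit 5) (nat_lit 24) (nat_lit 5) (nat_lit 357) (nat_lit 261) (nat_lit 162)) (XT.nd (nat_lit 78) (nat_lit 152) (nat_lit 0) (XT.lf (nat_lit 0) (nat_lit 8357209470) (nat_lit 152) (nat_lit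 2066199493) (nat_lit 76) (nat_lit 18658628901) (nat_lit 23) (nat_lit 5) (nat_lit 25) (nat_lit 5) (nat_lit 24) (nat_lit 5) (nat_lit 358) (nat_lit 261) (nat_lit 161)) (XT.lf (nat_lit 0) (nat_lit 6891808817) (nat_lit 152) (nat_lit 5494686667) (nat_lit 228) (nat_lit 17406978783) (nat_lit 21) (nat_lit 5) (nat_lit 23) (nat_lit 5) (nat_lit 24) (nat_lit 5) (nat_lit 359) (nat_lit 261) (nat_lit 160))))) (XT.nd (nat_lit 234) (nat_lit 76) (nat_lit 0) (XT.nd (nat_lit 78) (nat_lit 76) (nat_lit 0) (XT.lf (nat_lit 0) (nat_lit 16136443377) (nat_lit 152) (nat_lit 406729580) (nat_lit 228) (nat_lit 13982895169) (nat_lit 21) (nat_lit 5) (nat_lit 23) (nat_lit 5) (nat_lit 24) (nat_lit 5) (nat_lit 360) (nat_lit 261) (nat_lit 159)) (XT.nd (nat_lit 78) (nat_lit 76) (nat_lit 0) (XT.lf (nat_lit 0) (nat_lit 20856988738) (nat_lit 228) (nat_lit 5692778334) (nat_lit 76) (nat_lit 4729909056) (nat_lit 21) (nat_lit 5) (nat_lit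 24) (nat_lit 5) (nat_lit 22) (nat_lit 4) (nat_lit 361) (nat_lit 261) (nat_lit 158)) (XT.lf (nat_lit 0) (nat_lit 3301992419) (nat_lit 76) (nat_lit 22020374858) (nat_lit 152) (nat_lit 6732869834) (nat_lit 20) (nat_lit 5) (nat_lit 21) (nat_lit 5) (nat_lit 22) (nat_lit 4) (nat_lit 362) (nat_lit 261) (nat_lit 157)))) (XT.nd (nat_lit 78) (nat_lit 76) (nat_lit 0) (XT.lf (nat_lit 0) (nat_lit 12660144169) (nat_lit 76) (nat_lit 17305603463) (nat_lit 152) (nat_lit 2887005002) (nat_lit 20) (nat_lit 5) (nat_lit 21) (nat_lit 5) (nat_lit 22) (nat_lit 4) (nat_lit 363) (nat_lit 261) (nat_lit 156)) (XT.nd (nat_lit 78) (nat_lit 0) (nat_lit 0) (XT.lf (nat_lit 0) (nat_lit 1040082000) (nat_lit 152) (nat_lit 11408234293) (nat_lit 76) (nat_lit 21225971700) (nat_lit 19) (nat_lit 5) (nat_lit 21) (nat_lit 5) (nat_lit 20) (nat_lit 5) (nat_lit 364) (nat_lit 261) (nat_lit 155)) (XT.lf (nat_lit 0) (nat_lit 5014148327) (nat_lit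 152) (nat_lit 2411005269) (nat_lit 76) (nat_lit 27094850677) (nat_lit 19) (nat_lit 5) (nat_lit 21) (nat_lit 5) (nat_lit 20) (nat_lit 5) (nat_lit 365) (nat_lit 261) (nat_lit 154))))))))
noncomputable def xc113 : XT := (XT.nd (nat_lit 1794) (nat_lit 228) (nat_lit 0) (XT.nd (nat_lit 858) (nat_lit 228) (nat_lit 0) (XT.nd (nat_lit 390) (nat_lit 228) (nat_lit 0) (XT.nd (nat_lit 156) (nat_lit 76) (nat_lit 0) (XT.nd (nat_lit 78) (nat_lit 0) (nat_lit 0) (XT.lf (nat_lit 0) (nat_lit 6970715691) (nat_lit 152) (nat_lit 2191293421) (nat_lit 228) (nat_lit 26227453683) (nat_lit 17) (nat_lit 5) (nat_lit 19) (nat_lit 5) (nat_lit 20) (nat_lit 5) (nat_lit 366) (nat_lit 261) (nat_lit 153)) (XT.lf (nat_lit 0) (nat_lit 13477287088) (nat_lit 228) (nat_lit 19653488814) (nat_lit 76) (nat_lit 3152947426) (nat_lit 17) (nat_lit 5) (nat_lit 20) (nat_lit 5) (nat_lit 18) (nat_lit 4) (nat_lit 367) (nat_lit 261) (nat_lit 152)))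 (XT.nd (nat_lit 78) (nat_lit 76) (nat_lit 0) (XT.lf (nat_lit 0) (nat_lit 17931716993) (nat_lit 228) (nat_lit 10667869973) (nat_lit 76) (nat_lit 8604941377) (nat_lit 17) (nat_lit 5) (nat_lit 20) (nat_lit 5) (nat_lit 18) (nat_lit 4) (nat_lit 368) (nat_lit 261) (nat_lit 151)) (XT.nd (nat_lit 78) (nat_lit 76) (nat_lit 0) (XT.lf (nat_lit 0) (nat_lit 22508126994) (nat_lit 228) (nat_lit 1432975016) (nat_lit 76) (nat_lit 14212212336) (nat_lit 17) (nat_lit 5) (nat_lit 20) (nat_lit 5) (nat_lit 18) (nat_lit 4) (nat_lit 369) (nat_lit 261) (nat_lit 150)) (XT.lf (nat_lit 0) (nat_lit 8219660564) (nat_lit 76) (nat_lit 19069867737) (nat_lit 152) (nat_lit 11839011703) (nat_lit 16) (nat_lit 5) (nat_lit 17) (nat_lit 5) (nat_lit 18) (nat_lit 4) (nat_lit 370) (nat_lit 261) (nat_lit 149))))) (XT.nd (nat_lit 234) (nat_lit 152) (nat_lit 0) (XT.nd (nat_lit 78) (nat_lit 76) (nat_lit 0) (XT.lf (nat_lit 0) (nat_lit 18171741539)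 (nat_lit 76) (nat_lit 14045928939) (nat_lit 152) (nat_lit 7915259828) (nat_lit 16) (nat_lit 5) (nat_lit 17) (nat_lit 5) (nat_lit 18) (nat_lit 4) (nat_lit 371) (nat_lit 261) (nat_lit 148)) (XT.nd (nat_lit 78) (nat_lit 76) (nat_lit 0) (XT.lf (nat_lit 0) (nat_lit 28403444889) (nat_lit 76) (nat_lit 8879366004) (nat_lit 152) (nat_lit 3884973443) (nat_lit 16) (nat_lit 5) (nat_lit 17) (nat_lit 5) (nat_lit 18) (nat_lit 4) (nat_lit 372) (nat_lit 261) (nat_lit 147)) (XT.lf (nat_lit 0) (nat_lit 250385889) (nat_lit 152) (nat_lit 3312750165) (nat_lit 76) (nat_lit 38670796641) (nat_lit 15) (nat_lit 5) (nat_lit 17) (nat_lit 5) (nat_lit 16) (nat_lit 5) (nat_lit 373) (nat_lit 261) (nat_lit 146)))) (XT.nd (nat_lit 78) (nat_lit 0) (nat_lit 0) (XT.lf (nat_lit 0) (nat_lit 4503110790) (nat_lit 228) (nat_lit 36856114308) (nat_lit 76) (nat_lit 1969550863) (nat_lit 13) (nat_lit 5) (nat_lit 16) (nat_lit 5) (nat_lit 14)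 (nat_lit 4) (nat_lit 374) (nat_lit 261) (nat_lit 145)) (XT.nd (nat_lit 78) (nat_lit 0) (nat_lit 0) (XT.lf (nat_lit 0) (nat_lit 8942203799) (nat_lit 228) (nat_lit 27889652253) (nat_lit 76) (nat_lit 7622850779) (nat_lit 13) (nat_lit 5) (nat_lit 16) (nat_lit 5) (nat_lit 14) (nat_lit 4) (nat_lit 375) (nat_lit 261) (nat_lit 144)) (XT.lf (nat_lit 0) (nat_lit 13504493186) (nat_lit 228) (nat_lit 18671793881) (nat_lit 76) (nat_lit 13438433582) (nat_lit 13) (nat_lit 5) (nat_lit 16) (nat_lit 5) (nat_lit 14) (nat_lit 4) (nat_lit 376) (nat_lit 261) (nat_lit 143)))))) (XT.nd (nat_lit 468) (nat_lit 152) (nat_lit 0) (XT.nd (nat_lit 234) (nat_lit 0) (nat_lit 0) (XT.nd (nat_lit 78) (nat_lit 76) (nat_lit 0) (XT.lf (nat_lit 0) (nat_lit 18193965416) (nat_lit 228) (nat_lit 9194484750) (nat_lit 76) (nat_lit 19421380850) (nat_lit 13) (nat_lit 5) (nat_lit 16) (nat_lit 5) (nat_lit 14) (nat_lit 4) (nat_lit 377) (nat_lit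 261) (nat_lit 142)) (XT.nd (nat_lit 78) (nat_lit 0) (nat_lit 0) (XT.lf (nat_lit 0) (nat_lit 561513430) (nat_lit 76) (nat_lit 22458602268) (nat_lit 152) (nat_lit 25020804579) (nat_lit 12) (nat_lit 5) (nat_lit 13) (nat_lit 5) (nat_lit 14) (nat_lit 4) (nat_lit 378) (nat_lit 261) (nat_lit 141)) (XT.lf (nat_lit 0) (nat_lit 10782244729) (nat_lit 76) (nat_lit 17292364310) (nat_lit 152) (nat_lit 21231831660) (nat_lit 12) (nat_lit 5) (nat_lit 13) (nat_lit 5) (nat_lit 14) (nat_lit 4) (nat_lit 379) (nat_lit 261) (nat_lit 140)))) (XT.nd (nat_lit 78) (nat_lit 0) (nat_lit 0) (XT.lf (nat_lit 0) (nat_lit 21293651607) (nat_lit 76) (nat_lit 11978068375) (nat_lit 152) (nat_lit 17338482358) (nat_lit 12) (nat_lit 5) (nat_lit 13) (nat_lit 5) (nat_lit 14) (nat_lit 4) (nat_lit 380) (nat_lit 261) (nat_lit 139)) (XT.nd (nat_lit 78) (nat_lit 0) (nat_lit 0) (XT.lf (nat_lit 0) (nat_lit 32104918788) (nat_lit 76) (nat_lit 6511070902)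 (nat_lit 152) (nat_lit 13337354717) (nat_lit 12) (nat_lit 5) (nat_lit 13) (nat_lit 5) (nat_lit 14) (nat_lit 4) (nat_lit 381) (nat_lit 261) (nat_lit 138)) (XT.lf (nat_lit 0) (nat_lit 43225493011) (nat_lit 76) (nat_lit 886594902) (nat_lit 152) (nat_lit 9224952606) (nat_lit 12) (nat_lit 5) (nat_lit 13) (nat_lit 5) (nat_lit 14) (nat_lit 4) (nat_lit 382) (nat_lit 261) (nat_lit 137))))) (XT.nd (nat_lit 234) (nat_lit 0) (nat_lit 0) (XT.nd (nat_lit 78) (nat_lit 152) (nat_lit 0) (XT.lf (nat_lit 0) (nat_lit 49811921501) (nat_lit 152) (nat_lit 144512884) (nat_lit 0) (nat_lit 4804652213) (nat_lit 12) (nat_lit 5) (nat_lit 14) (nat_lit 4) (nat_lit 12) (nat_lit 4) (nat_lit 383) (nat_lit 261) (nat_lit 136)) (XT.nd (nat_lit 78) (nat_lit 76) (nat_lit 0) (XT.lf (nat_lit 0) (nat_lit 10299378761) (nat_lit 76) (nat_lit 45483082587) (nat_lit 76) (nat_lit 442405897) (nat_lit 11) (nat_lit 4) (nat_lit 12) (nat_lit 5) (nat_lit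 12) (nat_lit 4) (nat_lit 384) (nat_lit 261) (nat_lit 135)) (XT.lf (nat_lit 0) (nat_lit 4111025724) (nat_lit 152) (nat_lit 36727728839) (nat_lit 76) (nat_lit 16892797404) (nat_lit 10) (nat_lit 5) (nat_lit 12) (nat_lit 5) (nat_lit 11) (nat_lit 4) (nat_lit 385) (nat_lit 261) (nat_lit 134)))) (XT.nd (nat_lit 78) (nat_lit 0) (nat_lit 0) (XT.lf (nat_lit 0) (nat_lit 8784347369) (nat_lit 152) (nat_lit 27272375581) (nat_lit 76) (nat_lit 23226821641) (nat_lit 10) (nat_lit 5) (nat_lit 12) (nat_lit 5) (nat_lit 11) (nat_lit 4) (nat_lit 386) (nat_lit 261) (nat_lit 133)) (XT.nd (nat_lit 78) (nat_lit 0) (nat_lit 0) (XT.lf (nat_lit 0) (nat_lit 13590275454) (nat_lit 152) (nat_lit 17546914073) (nat_lit 76) (nat_lit 29745139280) (nat_lit 10) (nat_lit 5) (nat_lit 12) (nat_lit 5) (nat_lit 11) (nat_lit 4) (nat_lit 387) (nat_lit 261) (nat_lit 132)) (XT.lf (nat_lit 0) (nat_lit 18533009334) (nat_lit 152) (nat_lit 7542846341)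 (nat_lit 76) (nat_lit 36453445936) (nat_lit 10) (nat_lit 5) (nat_lit 12) (nat_lit 5) (nat_lit 11) (nat_lit 4) (nat_lit 388) (nat_lit 261) (nat_lit 131))))))) (XT.nd (nat_lit 30810) (nat_lit 0) (nat_lit 19532) (XT.nd (nat_lit 468) (nat_lit 152) (nat_lit 0) (XT.nd (nat_lit 234) (nat_lit 0) (nat_lit 0) (XT.nd (nat_lit 78) (nat_lit 0) (nat_lit 0) (XT.lf (nat_lit 0) (nat_lit 2803270948) (nat_lit 76) (nat_lit 20840543710) (nat_lit 152) (nat_lit 40581279045) (nat_lit 9) (nat_lit 5) (nat_lit 10) (nat_lit 5) (nat_lit 11) (nat_lit 4) (nat_lit 389) (nat_lit 261) (nat_lit 130)) (XT.nd (nat_lit 78) (nat_lit 0) (nat_lit 0) (XT.lf (nat_lit 0) (nat_lit 13601743562) (nat_lit 76) (nat_lit 15375298085) (nat_lit 152) (nat_lit 36992648662) (nat_lit 9) (nat_lit 5) (nat_lit 10) (nat_lit 5) (nat_lit 11) (nat_lit 4) (nat_lit 390) (nat_lit 261) (nat_lit 129)) (XT.lf (nat_lit 0) (nat_lit 24711889627) (nat_lit 76) (nat_lit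 9751511301) (nat_lit 152) (nat_lit 33303433389) (nat_lit 9) (nat_lit 5) (nat_lit 10) (nat_lit 5) (nat_lit 11) (nat_lit 4) (nat_lit 391) (nat_lit 261) (nat_lit 128)))) (XT.nd (nat_lit 78) (nat_lit 0) (nat_lit 0) (XT.lf (nat_lit 0) (nat_lit 36143417037) (nat_lit 76) (nat_lit 3964269369) (nat_lit 152) (nat_lit 29510409641) (nat_lit 9) (nat_lit 5) (nat_lit 10) (nat_lit 5) (nat_lit 11) (nat_lit 4) (nat_lit 392) (nat_lit 261) (nat_lit 127)) (XT.nd (nat_lit 78) (nat_lit 0) (nat_lit 0) (XT.lf (nat_lit 0) (nat_lit 45933973351) (nat_lit 152) (nat_lit 23637921969) (nat_lit 0) (nat_lit 1952623486) (nat_lit 9) (nat_lit 5) (nat_lit 11) (nat_lit 4) (nat_lit 9) (nat_lit 4) (nat_lit 393) (nat_lit 261) (nat_lit 126)) (XT.lf (nat_lit 0) (nat_lit 51967969444) (nat_lit 152) (nat_lit 13556695094) (nat_lit 0) (nat_lit 7962485361) (nat_lit 9) (nat_lit 5) (nat_lit 11) (nat_lit 4) (nat_lit 9) (nat_lit 4) (nat_lit 394)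 (nat_lit 261) (nat_lit 125))))) (XT.nd (nat_lit 234) (nat_lit 76) (nat_lit 0) (XT.nd (nat_lit 78) (nat_lit 76) (nat_lit 0) (XT.lf (nat_lit 0) (nat_lit 58176840127) (nat_lit 152) (nat_lit 3184082564) (nat_lit 0) (nat_lit 14147924764) (nat_lit 9) (nat_lit 5) (nat_lit 11) (nat_lit 4) (nat_lit 9) (nat_lit 4) (nat_lit 395) (nat_lit 261) (nat_lit 124)) (XT.nd (nat_lit 78) (nat_lit 0) (nat_lit 0) (XT.lf (nat_lit 0) (nat_lit 7638024435) (nat_lit 76) (nat_lit 57001407553) (nat_lit 76) (nat_lit 12949743375) (nat_lit 8) (nat_lit 4) (nat_lit 9) (nat_lit 5) (nat_lit 9) (nat_lit 4) (nat_lit 396) (nat_lit 261) (nat_lit 123)) (XT.lf (nat_lit 0) (nat_lit 18839441133) (nat_lit 76) (nat_lit 52482718811) (nat_lit 76) (nat_lit 8408968405) (nat_lit 8) (nat_lit 4) (nat_lit 9) (nat_lit 5) (nat_lit 9) (nat_lit 4) (nat_lit 397) (nat_lit 261) (nat_lit 122)))) (XT.nd (nat_lit 234) (nat_lit 76) (nat_lit 0) (XT.lf (nat_lit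 0) (nat_lit 30366585686) (nat_lit 76) (nat_lit 47833061087) (nat_lit 76) (nat_lit 3737867741) (nat_lit 8) (nat_lit 4) (nat_lit 9) (nat_lit 5) (nat_lit 9) (nat_lit 4) (nat_lit 398) (nat_lit 261) (nat_lit 121)) (XT.nd (nat_lit 29796) (nat_lit 0) (nat_lit 21356) (XT.lf (nat_lit 0) (nat_lit 10882217280) (nat_lit 152) (nat_lit 22064946011) (nat_lit 76) (nat_lit 56012478914) (nat_lit 7) (nat_lit 5) (nat_lit 9) (nat_lit 5) (nat_lit 8) (nat_lit 4) (nat_lit 401) (nat_lit 261) (nat_lit 118)) (XT.lf (nat_lit 0) (nat_lit 2331225456) (nat_lit 228) (nat_lit 449363260) (nat_lit 228) (nat_lit 449363260) (nat_lit 288) (nat_lit 3) (nat_lit 291) (nat_lit 3) (nat_lit 291) (nat_lit 5) (nat_lit 262) (nat_lit 262) (nat_lit 256)))))) (XT.nd (nat_lit 468) (nat_lit 912) (nat_lit 0) (XT.nd (nat_lit 234) (nat_lit 684) (nat_lit 0) (XT.nd (nat_lit 78) (nat_lit 0) (nat_lit 0) (XT.lf (nat_lit 0) (nat_lit 848723687) (nat_lit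 228) (nat_lit 4432260922) (nat_lit 304) (nat_lit 1189281869) (nat_lit 285) (nat_lit 5) (nat_lit 288) (nat_lit 3) (nat_lit 289) (nat_lit 5) (nat_lit 263) (nat_lit 262) (nat_lit 255)) (XT.nd (nat_lit 78) (nat_lit 0) (nat_lit 0) (XT.lf (nat_lit 0) (nat_lit 3444647777) (nat_lit 228) (nat_lit 1472778197) (nat_lit 304) (nat_lit 1566095056) (nat_lit 285) (nat_lit 5) (nat_lit 288) (nat_lit 3) (nat_lit 289) (nat_lit 5) (nat_lit 264) (nat_lit 262) (nat_lit 254)) (XT.lf (nat_lit 76) (nat_lit 1551901548) (nat_lit 0) (nat_lit 4481780289) (nat_lit 304) (nat_lit 466335114) (nat_lit 286) (nat_lit 5) (nat_lit 285) (nat_lit 5) (nat_lit 289) (nat_lit 5) (nat_lit 265) (nat_lit 262) (nat_lit 253)))) (XT.nd (nat_lit 78) (nat_lit 380) (nat_lit 0) (XT.lf (nat_lit 0) (nat_lit 2057248562) (nat_lit 304) (nat_lit 1895771787) (nat_lit 380) (nat_lit 2566146950) (nat_lit 281) (nat_lit 5) (nat_lit 285) (nat_lit 5) (nat_lit 286)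 (nat_lit 5) (nat_lit 266) (nat_lit 262) (nat_lit 252)) (XT.nd (nat_lit 78) (nat_lit 380) (nat_lit 0) (XT.lf (nat_lit 76) (nat_lit 1213231342) (nat_lit 0) (nat_lit 3349923644) (nat_lit 380) (nat_lit 1978394196) (nat_lit 282) (nat_lit 5) (nat_lit 281) (nat_lit 5) (nat_lit 286) (nat_lit 5) (nat_lit 267) (nat_lit 262) (nat_lit 251)) (XT.lf (nat_lit 0) (nat_lit 493070421) (nat_lit 380) (nat_lit 2171004444) (nat_lit 456) (nat_lit 3902877536) (nat_lit 276) (nat_lit 5) (nat_lit 281) (nat_lit 5) (nat_lit 282) (nat_lit 5) (nat_lit 268) (nat_lit 262) (nat_lit 250))))) (XT.nd (nat_lit 234) (nat_lit 456) (nat_lit 0) (XT.nd (nat_lit 78) (nat_lit 456) (nat_lit 0) (XT.lf (nat_lit 76) (nat_lit 1027529045) (nat_lit 0) (nat_lit 1889430404) (nat_lit 456) (nat_lit 3678281128) (nat_lit 277) (nat_lit 5) (nat_lit 276) (nat_lit 5) (nat_lit 282) (nat_lit 5) (nat_lit 269) (nat_lit 262) (nat_lit 249)) (XT.nd (nat_lit 78)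 (nat_lit 456) (nat_lit 0) (XT.lf (nat_lit 76) (nat_lit 4313089001) (nat_lit 0) (nat_lit 1032727152) (nat_lit 456) (nat_lit 1280838213) (nat_lit 277) (nat_lit 5) (nat_lit 276) (nat_lit 5) (nat_lit 282) (nat_lit 5) (nat_lit 270) (nat_lit 262) (nat_lit 248)) (XT.lf (nat_lit 76) (nat_lit 992281703) (nat_lit 0) (nat_lit 94437436) (nat_lit 532) (nat_lit 5574537636) (nat_lit 271) (nat_lit 5) (nat_lit 270) (nat_lit 5) (nat_lit 277) (nat_lit 5) (nat_lit 271) (nat_lit 262) (nat_lit 247)))) (XT.nd (nat_lit 78) (nat_lit 532) (nat_lit 0) (XT.lf (nat_lit 0) (nat_lit 3445750731) (nat_lit 456) (nat_lit 2329216736) (nat_lit 76) (nat_lit 923387359) (nat_lit 271) (nat_lit 5) (nat_lit 277) (nat_lit 5) (nat_lit 272) (nat_lit 5) (nat_lit 272) (nat_lit 262) (nat_lit 246)) (XT.nd (nat_lit 78) (nat_lit 76) (nat_lit 0) (XT.lf (nat_lit 0) (nat_lit 1075984716) (nat_lit 456) (nat_lit 4727560295) (nat_lit 532) (nat_lit 935398288)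 (nat_lit 265) (nat_lit 5) (nat_lit 271) (nat_lit 5) (nat_lit 272) (nat_lit 5) (nat_lit 273) (nat_lit 262) (nat_lit 245)) (XT.lf (nat_lit 0) (nat_lit 1364361784) (nat_lit 532) (nat_lit 2219256988) (nat_lit 76) (nat_lit 3198676125) (nat_lit 264) (nat_lit 5) (nat_lit 271) (nat_lit 5) (nat_lit 265) (nat_lit 5) (nat_lit 274) (nat_lit 262) (nat_lit 244))))))))
noncomputable def xc114 : XT := (XT.nd (nat_lit 1794) (nat_lit 4864) (nat_lit 0) (XT.nd (nat_lit 858) (nat_lit 5624) (nat_lit 0) (XT.nd (nat_lit 390) (nat_lit 2660) (nat_lit 0) (XT.nd (nat_lit 156) (nat_lit 1368) (nat_lit 0) (XT.nd (nat_lit 78) (nat_lit 0) (nat_lit 0) (XT.lf (nat_lit 0) (nat_lit 1289166921) (nat_lit 532) (nat_lit 2357544510) (nat_lit 608) (nat_lit 3182184650) (nat_lit 257) (nat_lit 5) (nat_lit 264) (nat_lit 5) (nat_lit 265) (nat_lit 5) (nat_lit 275) (nat_lit 262) (nat_lit 243)) (XT.lf (nat_lit 0) (nat_lit 4894386640) (nat_lit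 532) (nat_lit 1047371516) (nat_lit 608) (nat_lit 937003354) (nat_lit 257) (nat_lit 5) (nat_lit 264) (nat_lit 5) (nat_lit 265) (nat_lit 5) (nat_lit 276) (nat_lit 262) (nat_lit 242))) (XT.nd (nat_lit 78) (nat_lit 684) (nat_lit 0) (XT.lf (nat_lit 0) (nat_lit 1291047630) (nat_lit 684) (nat_lit 5292772866) (nat_lit 76) (nat_lit 347816985) (nat_lit 248) (nat_lit 5) (nat_lit 257) (nat_lit 5) (nat_lit 249) (nat_lit 5) (nat_lit 277) (nat_lit 262) (nat_lit 241)) (XT.nd (nat_lit 78) (nat_lit 684) (nat_lit 0) (XT.lf (nat_lit 0) (nat_lit 3522802875) (nat_lit 684) (nat_lit 1650061749) (nat_lit 76) (nat_lit 1814462552) (nat_lit 248) (nat_lit 5) (nat_lit 257) (nat_lit 5) (nat_lit 249) (nat_lit 5) (nat_lit 278) (nat_lit 262) (nat_lit 240)) (XT.lf (nat_lit 0) (nat_lit 2088117673) (nat_lit 684) (nat_lit 3680736108) (nat_lit 760) (nat_lit 1277584974) (nat_lit 239) (nat_lit 5) (nat_lit 248) (nat_lit 5) (nat_lit 249)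 (nat_lit 5) (nat_lit 279) (nat_lit 262) (nat_lit 239))))) (XT.nd (nat_lit 234) (nat_lit 1824) (nat_lit 0) (XT.nd (nat_lit 78) (nat_lit 760) (nat_lit 0) (XT.lf (nat_lit 0) (nat_lit 900767110) (nat_lit 760) (nat_lit 1199712959) (nat_lit 76) (nat_lit 5008379208) (nat_lit 238) (nat_lit 5) (nat_lit 248) (nat_lit 5) (nat_lit 239) (nat_lit 5) (nat_lit 280) (nat_lit 262) (nat_lit 238)) (XT.nd (nat_lit 78) (nat_lit 0) (nat_lit 0) (XT.lf (nat_lit 0) (nat_lit 2656849370) (nat_lit 760) (nat_lit 417580724) (nat_lit 836) (nat_lit 4099830617) (nat_lit 228) (nat_lit 5) (nat_lit 238) (nat_lit 5) (nat_lit 239) (nat_lit 5) (nat_lit 281) (nat_lit 262) (nat_lit 237)) (XT.lf (nat_lit 0) (nat_lit 5269950533) (nat_lit 836) (nat_lit 656144528) (nat_lit 76) (nat_lit 1316982063) (nat_lit 228) (nat_lit 5) (nat_lit 239) (nat_lit 5) (nat_lit 229) (nat_lit 5) (nat_lit 282) (nat_lit 262) (nat_lit 236)))) (XT.nd (nat_lit 78)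 (nat_lit 912) (nat_lit 0) (XT.lf (nat_lit 0) (nat_lit 182566446) (nat_lit 912) (nat_lit 3989232253) (nat_lit 76) (nat_lit 3143157366) (nat_lit 216) (nat_lit 5) (nat_lit 228) (nat_lit 5) (nat_lit 217) (nat_lit 5) (nat_lit 283) (nat_lit 262) (nat_lit 235)) (XT.nd (nat_lit 78) (nat_lit 912) (nat_lit 0) (XT.lf (nat_lit 0) (nat_lit 2304346743) (nat_lit 912) (nat_lit 23000917) (nat_lit 76) (nat_lit 5062964841) (nat_lit 216) (nat_lit 5) (nat_lit 228) (nat_lit 5) (nat_lit 217) (nat_lit 5) (nat_lit 284) (nat_lit 262) (nat_lit 234)) (XT.lf (nat_lit 0) (nat_lit 4088498368) (nat_lit 912) (nat_lit 376877386) (nat_lit 988) (nat_lit 3003421387) (nat_lit 204) (nat_lit 5) (nat_lit 216) (nat_lit 5) (nat_lit 217) (nat_lit 5) (nat_lit 285) (nat_lit 262) (nat_lit 233)))))) (XT.nd (nat_lit 468) (nat_lit 2280) (nat_lit 0) (XT.nd (nat_lit 234) (nat_lit 1216) (nat_lit 0) (XT.nd (nat_lit 78) (nat_lit 1140) (nat_lit 0)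 (XT.lf (nat_lit 0) (nat_lit 717424985) (nat_lit 988) (nat_lit 5934360989) (nat_lit 1064) (nat_lit 899165266) (nat_lit 191) (nat_lit 5) (nat_lit 204) (nat_lit 5) (nat_lit 205) (nat_lit 5) (nat_lit 286) (nat_lit 262) (nat_lit 232)) (XT.nd (nat_lit 78) (nat_lit 1064) (nat_lit 0) (XT.lf (nat_lit 0) (nat_lit 1219966114) (nat_lit 1064) (nat_lit 2699313329) (nat_lit 76) (nat_lit 3716753823) (nat_lit 190) (nat_lit 5) (nat_lit 204) (nat_lit 5) (nat_lit 191) (nat_lit 5) (nat_lit 287) (nat_lit 262) (nat_lit 231)) (XT.lf (nat_lit 0) (nat_lit 1525539359) (nat_lit 1064) (nat_lit 1813812779) (nat_lit 1140) (nat_lit 4385526222) (nat_lit 176) (nat_lit 5) (nat_lit 190) (nat_lit 5) (nat_lit 191) (nat_lit 5) (nat_lit 288) (nat_lit 262) (nat_lit 230)))) (XT.nd (nat_lit 78) (nat_lit 1216) (nat_lit 0) (XT.lf (nat_lit 0) (nat_lit 5494623028) (nat_lit 1140) (nat_lit 1942426604) (nat_lit 76) (nat_lit 380286849) (nat_lit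 176) (nat_lit 5) (nat_lit 191) (nat_lit 5) (nat_lit 177) (nat_lit 5) (nat_lit 289) (nat_lit 262) (nat_lit 229)) (XT.nd (nat_lit 78) (nat_lit 76) (nat_lit 0) (XT.lf (nat_lit 0) (nat_lit 2417381361) (nat_lit 1140) (nat_lit 5281439298) (nat_lit 1216) (nat_lit 214333000) (nat_lit 161) (nat_lit 5) (nat_lit 176) (nat_lit 5) (nat_lit 177) (nat_lit 5) (nat_lit 290) (nat_lit 262) (nat_lit 228)) (XT.lf (nat_lit 0) (nat_lit 1882470157) (nat_lit 1216) (nat_lit 1137190088) (nat_lit 76) (nat_lit 4992826571) (nat_lit 160) (nat_lit 5) (nat_lit 176) (nat_lit 5) (nat_lit 161) (nat_lit 5) (nat_lit 291) (nat_lit 262) (nat_lit 227))))) (XT.nd (nat_lit 234) (nat_lit 1064) (nat_lit 0) (XT.nd (nat_lit 78) (nat_lit 684) (nat_lit 0) (XT.lf (nat_lit 0) (nat_lit 3362510497) (nat_lit 532) (nat_lit 652881867) (nat_lit 608) (nat_lit 4100122006) (nat_lit 153) (nat_lit 5) (nat_lit 160) (nat_lit 5) (nat_lit 161) (nat_lit 5) (nat_lit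 292) (nat_lit 262) (nat_lit 226)) (XT.nd (nat_lit 78) (nat_lit 684) (nat_lit 0) (XT.lf (nat_lit 0) (nat_lit 6187358142) (nat_lit 608) (nat_lit 272379458) (nat_lit 76) (nat_lit 1762744205) (nat_lit 153) (nat_lit 5) (nat_lit 161) (nat_lit 5) (nat_lit 154) (nat_lit 5) (nat_lit 293) (nat_lit 262) (nat_lit 225)) (XT.lf (nat_lit 0) (nat_lit 86224598) (nat_lit 684) (nat_lit 3965013951) (nat_lit 76) (nat_lit 4281602425) (nat_lit 144) (nat_lit 5) (nat_lit 153) (nat_lit 5) (nat_lit 145) (nat_lit 5) (nat_lit 294) (nat_lit 262) (nat_lit 224)))) (XT.nd (nat_lit 78) (nat_lit 532) (nat_lit 0) (XT.lf (nat_lit 0) (nat_lit 645457930) (nat_lit 532) (nat_lit 1542116151) (nat_lit 608) (nat_lit 6259706586) (nat_lit 137) (nat_lit 5) (nat_lit 144) (nat_lit 5) (nat_lit 145) (nat_lit 5) (nat_lit 295) (nat_lit 262) (nat_lit 223)) (XT.nd (nat_lit 78) (nat_lit 532) (nat_lit 0) (XT.lf (nat_lit 0) (nat_lit 4351679018) (nat_lit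 608) (nat_lit 3153267756) (nat_lit 76) (nat_lit 1060304823) (nat_lit 137) (nat_lit 5) (nat_lit 145) (nat_lit 5) (nat_lit 138) (nat_lit 5) (nat_lit 296) (nat_lit 262) (nat_lit 222)) (XT.lf (nat_lit 0) (nat_lit 1597816907) (nat_lit 532) (nat_lit 4964256357) (nat_lit 608) (nat_lit 2125334296) (nat_lit 130) (nat_lit 5) (nat_lit 137) (nat_lit 5) (nat_lit 138) (nat_lit 5) (nat_lit 297) (nat_lit 262) (nat_lit 221))))))) (XT.nd (nat_lit 936) (nat_lit 2128) (nat_lit 0) (XT.nd (nat_lit 468) (nat_lit 1292) (nat_lit 0) (XT.nd (nat_lit 234) (nat_lit 912) (nat_lit 0) (XT.nd (nat_lit 78) (nat_lit 456) (nat_lit 0) (XT.lf (nat_lit 0) (nat_lit 8318768) (nat_lit 608) (nat_lit 2310135381) (nat_lit 76) (nat_lit 6495350600) (nat_lit 129) (nat_lit 5) (nat_lit 137) (nat_lit 5) (nat_lit 130) (nat_lit 5) (nat_lit 298) (nat_lit 262) (nat_lit 220)) (XT.nd (nat_lit 78) (nat_lit 0) (nat_lit 0) (XT.lf (nat_lit 0) (nat_lit 2145020556)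 (nat_lit 532) (nat_lit 6358053298) (nat_lit 76) (nat_lit 440915542) (nat_lit 123) (nat_lit 5) (nat_lit 130) (nat_lit 5) (nat_lit 124) (nat_lit 5) (nat_lit 299) (nat_lit 262) (nat_lit 219)) (XT.lf (nat_lit 0) (nat_lit 4345714120) (nat_lit 532) (nat_lit 1477061418) (nat_lit 76) (nat_lit 3255384524) (nat_lit 123) (nat_lit 5) (nat_lit 130) (nat_lit 5) (nat_lit 124) (nat_lit 5) (nat_lit 300) (nat_lit 262) (nat_lit 218)))) (XT.nd (nat_lit 78) (nat_lit 456) (nat_lit 0) (XT.lf (nat_lit 0) (nat_lit 3568795473) (nat_lit 456) (nat_lit 3032673341) (nat_lit 532) (nat_lit 2615290775) (nat_lit 117) (nat_lit 5) (nat_lit 123) (nat_lit 5) (nat_lit 124) (nat_lit 5) (nat_lit 301) (nat_lit 262) (nat_lit 217)) (XT.nd (nat_lit 78) (nat_lit 456) (nat_lit 0) (XT.lf (nat_lit 0) (nat_lit 8745603592) (nat_lit 456) (nat_lit 149773875) (nat_lit 532) (nat_lit 465097965) (nat_lit 117) (nat_lit 5) (nat_lit 123) (nat_lit 5) (nat_lit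 124) (nat_lit 5) (nat_lit 302) (nat_lit 262) (nat_lit 216)) (XT.lf (nat_lit 0) (nat_lit 1743607483) (nat_lit 456) (nat_lit 4943861179) (nat_lit 76) (nat_lit 2819753696) (nat_lit 111) (nat_lit 5) (nat_lit 117) (nat_lit 5) (nat_lit 112) (nat_lit 5) (nat_lit 303) (nat_lit 262) (nat_lit 215))))) (XT.nd (nat_lit 234) (nat_lit 456) (nat_lit 0) (XT.nd (nat_lit 78) (nat_lit 380) (nat_lit 0) (XT.lf (nat_lit 0) (nat_lit 198119246) (nat_lit 456) (nat_lit 3777856212) (nat_lit 532) (nat_lit 5683322201) (nat_lit 105) (nat_lit 5) (nat_lit 111) (nat_lit 5) (nat_lit 112) (nat_lit 5) (nat_lit 304) (nat_lit 262) (nat_lit 214)) (XT.nd (nat_lit 78) (nat_lit 380) (nat_lit 0) (XT.lf (nat_lit 0) (nat_lit 5545245480) (nat_lit 456) (nat_lit 737848567) (nat_lit 532) (nat_lit 3532672437) (nat_lit 105) (nat_lit 5) (nat_lit 111) (nat_lit 5) (nat_lit 112) (nat_lit 5) (nat_lit 305) (nat_lit 262) (nat_lit 213)) (XT.lf (nat_lit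 0) (nat_lit 1022603438) (nat_lit 380) (nat_lit 7628665246) (nat_lit 456) (nat_lit 1325968188) (nat_lit 100) (nat_lit 5) (nat_lit 105) (nat_lit 5) (nat_lit 106) (nat_lit 5) (nat_lit 306) (nat_lit 262) (nat_lit 212)))) (XT.nd (nat_lit 78) (nat_lit 380) (nat_lit 0) (XT.lf (nat_lit 0) (nat_lit 938579109) (nat_lit 456) (nat_lit 3647608148) (nat_lit 76) (nat_lit 5556846603) (nat_lit 99) (nat_lit 5) (nat_lit 105) (nat_lit 5) (nat_lit 100) (nat_lit 5) (nat_lit 307) (nat_lit 262) (nat_lit 211)) (XT.nd (nat_lit 78) (nat_lit 0) (nat_lit 0) (XT.lf (nat_lit 0) (nat_lit 1791349686) (nat_lit 380) (nat_lit 1430732320) (nat_lit 456) (nat_lit 7092056250) (nat_lit 94) (nat_lit 5) (nat_lit 99) (nat_lit 5) (nat_lit 100) (nat_lit 5) (nat_lit 308) (nat_lit 262) (nat_lit 210)) (XT.lf (nat_lit 0) (nat_lit 5589818423) (nat_lit 456) (nat_lit 3088627860) (nat_lit 76) (nat_lit 1811513419) (nat_lit 94) (nat_lit 5) (nat_lit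 100) (nat_lit 5) (nat_lit 95) (nat_lit 5) (nat_lit 309) (nat_lit 262) (nat_lit 209)))))) (XT.nd (nat_lit 468) (nat_lit 1064) (nat_lit 0) (XT.nd (nat_lit 234) (nat_lit 304) (nat_lit 0) (XT.nd (nat_lit 78) (nat_lit 456) (nat_lit 0) (XT.lf (nat_lit 0) (nat_lit 2494771072) (nat_lit 304) (nat_lit 5534138521) (nat_lit 380) (nat_lit 2642190665) (nat_lit 90) (nat_lit 5) (nat_lit 94) (nat_lit 5) (nat_lit 95) (nat_lit 5) (nat_lit 310) (nat_lit 262) (nat_lit 208)) (XT.nd (nat_lit 78) (nat_lit 456) (nat_lit 0) (XT.lf (nat_lit 0) (nat_lit 8261156471) (nat_lit 304) (nat_lit 2274023753) (nat_lit 380) (nat_lit 322727175) (nat_lit 90) (nat_lit 5) (nat_lit 94) (nat_lit 5) (nat_lit 95) (nat_lit 5) (nat_lit 311) (nat_lit 262) (nat_lit 207)) (XT.lf (nat_lit 0) (nat_lit 2030530972) (nat_lit 456) (nat_lit 7916272812) (nat_lit 76) (nat_lit 1102832678) (nat_lit 84) (nat_lit 5) (nat_lit 90) (nat_lit 5) (nat_lit 85) (nat_lit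 5) (nat_lit 312) (nat_lit 262) (nat_lit 206)))) (XT.nd (nat_lit 78) (nat_lit 304) (nat_lit 0) (XT.lf (nat_lit 0) (nat_lit 4460899892) (nat_lit 456) (nat_lit 2231458285) (nat_lit 76) (nat_lit 4554321483) (nat_lit 84) (nat_lit 5) (nat_lit 90) (nat_lit 5) (nat_lit 85) (nat_lit 5) (nat_lit 313) (nat_lit 262) (nat_lit 205)) (XT.nd (nat_lit 78) (nat_lit 0) (nat_lit 0) (XT.lf (nat_lit 0) (nat_lit 3648721704) (nat_lit 304) (nat_lit 3315583107) (nat_lit 380) (nat_lit 4485372303) (nat_lit 80) (nat_lit 5) (nat_lit 84) (nat_lit 5) (nat_lit 85) (nat_lit 5) (nat_lit 314) (nat_lit 262) (nat_lit 204)) (XT.lf (nat_lit 0) (nat_lit 9532646958) (nat_lit 380) (nat_lit 1955713257) (nat_lit 76) (nat_lit 170754572) (nat_lit 80) (nat_lit 5) (nat_lit 85) (nat_lit 5) (nat_lit 81) (nat_lit 5) (nat_lit 315) (nat_lit 262) (nat_lit 203))))) (XT.nd (nat_lit 234) (nat_lit 380) (nat_lit 0) (XT.nd (nat_lit 78) (nat_lit 304) (nat_lit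 0) (XT.lf (nat_lit 0) (nat_lit 336056753) (nat_lit 380) (nat_lit 7811146604) (nat_lit 76) (nat_lit 3726424452) (nat_lit 75) (nat_lit 5) (nat_lit 80) (nat_lit 5) (nat_lit 76) (nat_lit 5) (nat_lit 316) (nat_lit 262) (nat_lit 202)) (XT.nd (nat_lit 78) (nat_lit 304) (nat_lit 0) (XT.lf (nat_lit 0) (nat_lit 2816356352) (nat_lit 380) (nat_lit 1859703494) (nat_lit 76) (nat_lit 7418327074) (nat_lit 75) (nat_lit 5) (nat_lit 80) (nat_lit 5) (nat_lit 76) (nat_lit 5) (nat_lit 317) (nat_lit 262) (nat_lit 201)) (XT.lf (nat_lit 0) (nat_lit 4309936978) (nat_lit 304) (nat_lit 1070222543) (nat_lit 380) (nat_lit 6941376739) (nat_lit 71) (nat_lit 5) (nat_lit 75) (nat_lit 5) (nat_lit 76) (nat_lit 5) (nat_lit 318) (nat_lit 262) (nat_lit 200)))) (XT.nd (nat_lit 78) (nat_lit 380) (nat_lit 0) (XT.lf (nat_lit 0) (nat_lit 8033322123) (nat_lit 380) (nat_lit 1922636525) (nat_lit 76) (nat_lit 2599207187) (nat_lit 71) (nat_lit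 5) (nat_lit 76) (nat_lit 5) (nat_lit 72) (nat_lit 5) (nat_lit 319) (nat_lit 262) (nat_lit 199)) (XT.nd (nat_lit 78) (nat_lit 76) (nat_lit 0) (XT.lf (nat_lit 0) (nat_lit 4380292652) (nat_lit 304) (nat_lit 6407485692) (nat_lit 380) (nat_lit 2007412969) (nat_lit 67) (nat_lit 5) (nat_lit 71) (nat_lit 5) (nat_lit 72) (nat_lit 5) (nat_lit 320) (nat_lit 262) (nat_lit 198)) (XT.lf (nat_lit 0) (nat_lit 559838404) (nat_lit 380) (nat_lit 2179708403) (nat_lit 76) (nat_lit 10303075978) (nat_lit 66) (nat_lit 5) (nat_lit 71) (nat_lit 5) (nat_lit 67) (nat_lit 5) (nat_lit 321) (nat_lit 262) (nat_lit 197))))))))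
noncomputable def xc115 : XT := (XT.nd (nat_lit 1872) (nat_lit 1140) (nat_lit 0) (XT.nd (nat_lit 936) (nat_lit 988) (nat_lit 0) (XT.nd (nat_lit 468) (nat_lit 760) (nat_lit 0) (XT.nd (nat_lit 234) (nat_lit 304) (nat_lit 0) (XT.nd (nat_lit 78) (nat_lit 304) (nat_lit 0) (XT.lf (nat_lit 0) (nat_lit 3185250707) (nat_lit 304) (nat_lit 9043721771) (nat_lit 76) (nat_lit 1067298504) (nat_lit 63) (nat_lit 5) (nat_lit 67) (nat_lit 5) (nat_lit 64) (nat_lit 5) (nat_lit 322) (nat_lit 262) (nat_lit 196)) (XT.nd (nat_lit 78) (nat_lit 304) (nat_lit 0) (XT.lf (nat_lit 0) (nat_lit 5909169627) (nat_lit 304) (nat_lit 2704662302) (nat_lit 76) (nat_lit 4943138111) (nat_lit 63) (nat_lit 5) (nat_lit 67) (nat_lit 5) (nat_lit 64) (nat_lit 5) (nat_lit 323) (nat_lit 262) (nat_lit 195)) (XT.lf (nat_lit 0) (nat_lit 3858197754) (nat_lit 304) (nat_lit 4864949418) (nat_lit 380) (nat_lit 5102125427) (nat_lit 59) (nat_lit 5) (nat_lit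 63) (nat_lit 5) (nat_lit 64) (nat_lit 5) (nat_lit 324) (nat_lit 262) (nat_lit 194)))) (XT.nd (nat_lit 78) (nat_lit 304) (nat_lit 0) (XT.lf (nat_lit 0) (nat_lit 10632136425) (nat_lit 304) (nat_lit 988413856) (nat_lit 380) (nat_lit 2481135571) (nat_lit 59) (nat_lit 5) (nat_lit 63) (nat_lit 5) (nat_lit 64) (nat_lit 5) (nat_lit 325) (nat_lit 262) (nat_lit 193)) (XT.nd (nat_lit 78) (nat_lit 0) (nat_lit 0) (XT.lf (nat_lit 0) (nat_lit 246701510) (nat_lit 304) (nat_lit 11171881336) (nat_lit 76) (nat_lit 2966801203) (nat_lit 55) (nat_lit 5) (nat_lit 59) (nat_lit 5) (nat_lit 56) (nat_lit 5) (nat_lit 326) (nat_lit 262) (nat_lit 192)) (XT.lf (nat_lit 0) (nat_lit 3024189409) (nat_lit 304) (nat_lit 4584031634) (nat_lit 76) (nat_lit 7068133761) (nat_lit 55) (nat_lit 5) (nat_lit 59) (nat_lit 5) (nat_lit 56) (nat_lit 5) (nat_lit 327) (nat_lit 262) (nat_lit 191))))) (XT.nd (nat_lit 234) (nat_lit 304) (nat_lit 0)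 (XT.nd (nat_lit 78) (nat_lit 228) (nat_lit 0) (XT.lf (nat_lit 0) (nat_lit 2204708931) (nat_lit 228) (nat_lit 3674801814) (nat_lit 304) (nat_lit 9096736934) (nat_lit 52) (nat_lit 5) (nat_lit 55) (nat_lit 5) (nat_lit 56) (nat_lit 5) (nat_lit 328) (nat_lit 262) (nat_lit 190)) (XT.nd (nat_lit 78) (nat_lit 228) (nat_lit 0) (XT.lf (nat_lit 0) (nat_lit 8844448716) (nat_lit 304) (nat_lit 6036814128) (nat_lit 76) (nat_lit 403183220) (nat_lit 52) (nat_lit 5) (nat_lit 56) (nat_lit 5) (nat_lit 53) (nat_lit 5) (nat_lit 329) (nat_lit 262) (nat_lit 189)) (XT.lf (nat_lit 0) (nat_lit 841080829) (nat_lit 228) (nat_lit 11076081068) (nat_lit 304) (nat_lit 3684190329) (nat_lit 49) (nat_lit 5) (nat_lit 52) (nat_lit 5) (nat_lit 53) (nat_lit 5) (nat_lit 330) (nat_lit 262) (nat_lit 188)))) (XT.nd (nat_lit 78) (nat_lit 304) (nat_lit 0) (XT.lf (nat_lit 0) (nat_lit 8010543035) (nat_lit 228) (nat_lit 7107207930) (nat_lit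 304) (nat_lit 808969634) (nat_lit 49) (nat_lit 5) (nat_lit 52) (nat_lit 5) (nat_lit 53) (nat_lit 5) (nat_lit 331) (nat_lit 262) (nat_lit 187)) (XT.nd (nat_lit 78) (nat_lit 228) (nat_lit 0) (XT.lf (nat_lit 0) (nat_lit 2085707411) (nat_lit 304) (nat_lit 925366501) (nat_lit 76) (nat_lit 13250923664) (nat_lit 48) (nat_lit 5) (nat_lit 52) (nat_lit 5) (nat_lit 49) (nat_lit 5) (nat_lit 332) (nat_lit 262) (nat_lit 186)) (XT.lf (nat_lit 0) (nat_lit 5100145443) (nat_lit 304) (nat_lit 10263833787) (nat_lit 76) (nat_lit 1241661606) (nat_lit 45) (nat_lit 5) (nat_lit 49) (nat_lit 5) (nat_lit 46) (nat_lit 5) (nat_lit 333) (nat_lit 262) (nat_lit 185)))))) (XT.nd (nat_lit 468) (nat_lit 532) (nat_lit 0) (XT.nd (nat_lit 234) (nat_lit 304) (nat_lit 0) (XT.nd (nat_lit 78) (nat_lit 152) (nat_lit 0) (XT.lf (nat_lit 0) (nat_lit 8220419804) (nat_lit 304) (nat_lit 3180314834) (nat_lit 76) (nat_lit 5558419636) (nat_lit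 45) (nat_lit 5) (nat_lit 49) (nat_lit 5) (nat_lit 46) (nat_lit 5) (nat_lit 334) (nat_lit 262) (nat_lit 184)) (XT.nd (nat_lit 78) (nat_lit 0) (nat_lit 0) (XT.lf (nat_lit 0) (nat_lit 4160922173) (nat_lit 152) (nat_lit 7290225775) (nat_lit 228) (nat_lit 5871642111) (nat_lit 43) (nat_lit 5) (nat_lit 45) (nat_lit 5) (nat_lit 46) (nat_lit 5) (nat_lit 335) (nat_lit 262) (nat_lit 183)) (XT.lf (nat_lit 0) (nat_lit 11751960301) (nat_lit 152) (nat_lit 3036132634) (nat_lit 228) (nat_lit 2908984788) (nat_lit 43) (nat_lit 5) (nat_lit 45) (nat_lit 5) (nat_lit 46) (nat_lit 5) (nat_lit 336) (nat_lit 262) (nat_lit 182)))) (XT.nd (nat_lit 78) (nat_lit 0) (nat_lit 0) (XT.lf (nat_lit 0) (nat_lit 144575043) (nat_lit 304) (nat_lit 16615186164) (nat_lit 76) (nat_lit 1322667982) (nat_lit 39) (nat_lit 5) (nat_lit 43) (nat_lit 5) (nat_lit 40) (nat_lit 5) (nat_lit 337) (nat_lit 262) (nat_lit 181)) (XT.nd (nat_lit 78) (nat_lit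 0) (nat_lit 0) (XT.lf (nat_lit 0) (nat_lit 3299764957) (nat_lit 304) (nat_lit 9348428400) (nat_lit 76) (nat_lit 5828248877) (nat_lit 39) (nat_lit 5) (nat_lit 43) (nat_lit 5) (nat_lit 40) (nat_lit 5) (nat_lit 338) (nat_lit 262) (nat_lit 180)) (XT.lf (nat_lit 0) (nat_lit 6528058974) (nat_lit 304) (nat_lit 1897915129) (nat_lit 76) (nat_lit 10456967359) (nat_lit 39) (nat_lit 5) (nat_lit 43) (nat_lit 5) (nat_lit 40) (nat_lit 5) (nat_lit 339) (nat_lit 262) (nat_lit 179))))) (XT.nd (nat_lit 234) (nat_lit 228) (nat_lit 0) (XT.nd (nat_lit 78) (nat_lit 152) (nat_lit 0) (XT.lf (nat_lit 0) (nat_lit 5857158056) (nat_lit 152) (nat_lit 4031422461) (nat_lit 228) (nat_lit 9412012469) (nat_lit 37) (nat_lit 5) (nat_lit 39) (nat_lit 5) (nat_lit 40) (nat_lit 5) (nat_lit 340) (nat_lit 262) (nat_lit 178)) (XT.nd (nat_lit 78) (nat_lit 152) (nat_lit 0) (XT.lf (nat_lit 0) (nat_lit 13353281503) (nat_lit 228) (nat_lit 5884800588)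 (nat_lit 76) (nat_lit 492609191) (nat_lit 37) (nat_lit 5) (nat_lit 40) (nat_lit 5) (nat_lit 38) (nat_lit 5) (nat_lit 341) (nat_lit 262) (nat_lit 177)) (XT.lf (nat_lit 0) (nat_lit 1864594058) (nat_lit 152) (nat_lit 15095023399) (nat_lit 228) (nat_lit 3212961860) (nat_lit 35) (nat_lit 5) (nat_lit 37) (nat_lit 5) (nat_lit 38) (nat_lit 5) (nat_lit 342) (nat_lit 262) (nat_lit 176)))) (XT.nd (nat_lit 78) (nat_lit 152) (nat_lit 0) (XT.lf (nat_lit 0) (nat_lit 85446469) (nat_lit 228) (nat_lit 10692439158) (nat_lit 76) (nat_lit 9848643597) (nat_lit 34) (nat_lit 5) (nat_lit 37) (nat_lit 5) (nat_lit 35) (nat_lit 5) (nat_lit 343) (nat_lit 262) (nat_lit 175)) (XT.nd (nat_lit 78) (nat_lit 152) (nat_lit 0) (XT.lf (nat_lit 0) (nat_lit 3398734040) (nat_lit 228) (nat_lit 2911856156) (nat_lit 76) (nat_lit 14783154072) (nat_lit 34) (nat_lit 5) (nat_lit 37) (nat_lit 5) (nat_lit 35) (nat_lit 5) (nat_lit 344) (nat_lit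 262) (nat_lit 174)) (XT.lf (nat_lit 0) (nat_lit 5172379012) (nat_lit 152) (nat_lit 1669833474) (nat_lit 228) (nat_lit 14731855157) (nat_lit 32) (nat_lit 5) (nat_lit 34) (nat_lit 5) (nat_lit 35) (nat_lit 5) (nat_lit 345) (nat_lit 262) (nat_lit 173))))))) (XT.nd (nat_lit 936) (nat_lit 456) (nat_lit 0) (XT.nd (nat_lit 468) (nat_lit 304) (nat_lit 0) (XT.nd (nat_lit 234) (nat_lit 228) (nat_lit 0) (XT.nd (nat_lit 78) (nat_lit 152) (nat_lit 0) (XT.lf (nat_lit 0) (nat_lit 10429805634) (nat_lit 228) (nat_lit 8570133557) (nat_lit 76) (nat_lit 3067652407) (nat_lit 32) (nat_lit 5) (nat_lit 35) (nat_lit 5) (nat_lit 33) (nat_lit 5) (nat_lit 346) (nat_lit 262) (nat_lit 172)) (XT.nd (nat_lit 78) (nat_lit 152) (nat_lit 0) (XT.lf (nat_lit 0) (nat_lit 14123325169) (nat_lit 228) (nat_lit 550124678) (nat_lit 76) (nat_lit 7902537215) (nat_lit 32) (nat_lit 5) (nat_lit 35) (nat_lit 5) (nat_lit 33) (nat_lit 5) (nat_lit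 347) (nat_lit 262) (nat_lit 171)) (XT.lf (nat_lit 0) (nat_lit 7834272109) (nat_lit 152) (nat_lit 10150982685) (nat_lit 228) (nat_lit 5112665780) (nat_lit 30) (nat_lit 5) (nat_lit 32) (nat_lit 5) (nat_lit 33) (nat_lit 5) (nat_lit 348) (nat_lit 262) (nat_lit 170)))) (XT.nd (nat_lit 78) (nat_lit 228) (nat_lit 0) (XT.lf (nat_lit 0) (nat_lit 16452675759) (nat_lit 152) (nat_lit 5498457184) (nat_lit 228) (nat_lit 1684750330) (nat_lit 30) (nat_lit 5) (nat_lit 32) (nat_lit 5) (nat_lit 33) (nat_lit 5) (nat_lit 349) (nat_lit 262) (nat_lit 169)) (XT.nd (nat_lit 78) (nat_lit 0) (nat_lit 0) (XT.lf (nat_lit 0) (nat_lit 1115348908) (nat_lit 152) (nat_lit 688215948) (nat_lit 228) (nat_lit 22386093220) (nat_lit 27) (nat_lit 5) (nat_lit 29) (nat_lit 5) (nat_lit 30) (nat_lit 5) (nat_lit 350) (nat_lit 262) (nat_lit 168)) (XT.lf (nat_lit 0) (nat_lit 5459918386) (nat_lit 228) (nat_lit 15034621412) (nat_lit 76) (nat_lit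 4262101107) (nat_lit 27) (nat_lit 5) (nat_lit 30) (nat_lit 5) (nat_lit 28) (nat_lit 5) (nat_lit 351) (nat_lit 262) (nat_lit 167))))) (XT.nd (nat_lit 234) (nat_lit 152) (nat_lit 0) (XT.nd (nat_lit 78) (nat_lit 152) (nat_lit 0) (XT.lf (nat_lit 0) (nat_lit 9216257713) (nat_lit 228) (nat_lit 6788180960) (nat_lit 76) (nat_lit 9336498040) (nat_lit 27) (nat_lit 5) (nat_lit 30) (nat_lit 5) (nat_lit 28) (nat_lit 5) (nat_lit 352) (nat_lit 262) (nat_lit 166)) (XT.nd (nat_lit 78) (nat_lit 0) (nat_lit 0) (XT.lf (nat_lit 0) (nat_lit 1712245442) (nat_lit 152) (nat_lit 11373463232) (nat_lit 228) (nat_lit 12857052071) (nat_lit 25) (nat_lit 5) (nat_lit 27) (nat_lit 5) (nat_lit 28) (nat_lit 5) (nat_lit 353) (nat_lit 262) (nat_lit 165)) (XT.lf (nat_lit 0) (nat_lit 10580279287) (nat_lit 152) (nat_lit 6543685339) (nat_lit 228) (nat_lit 9437104868) (nat_lit 25) (nat_lit 5) (nat_lit 27) (nat_lit 5) (nat_lit 28) (nat_lit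 5) (nat_lit 354) (nat_lit 262) (nat_lit 164)))) (XT.nd (nat_lit 78) (nat_lit 152) (nat_lit 0) (XT.lf (nat_lit 0) (nat_lit 19688571231) (nat_lit 152) (nat_lit 1579432117) (nat_lit 228) (nat_lit 5930396409) (nat_lit 25) (nat_lit 5) (nat_lit 27) (nat_lit 5) (nat_lit 28) (nat_lit 5) (nat_lit 355) (nat_lit 262) (nat_lit 163)) (XT.nd (nat_lit 78) (nat_lit 76) (nat_lit 0) (XT.lf (nat_lit 0) (nat_lit 1178904906) (nat_lit 76) (nat_lit 24387744622) (nat_lit 152) (nat_lit 2287302785) (nat_lit 24) (nat_lit 5) (nat_lit 25) (nat_lit 5) (nat_lit 26) (nat_lit 4) (nat_lit 356) (nat_lit 262) (nat_lit 162)) (XT.lf (nat_lit 0) (nat_lit 1513741743) (nat_lit 152) (nat_lit 18300576677) (nat_lit 76) (nat_lit 8712123456) (nat_lit 23) (nat_lit 5) (nat_lit 25) (nat_lit 5) (nat_lit 24) (nat_lit 5) (nat_lit 357) (nat_lit 262) (nat_lit 161)))))) (XT.nd (nat_lit 468) (nat_lit 228) (nat_lit 0) (XT.nd (nat_lit 234) (nat_lit 76)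 (nat_lit 0) (XT.nd (nat_lit 78) (nat_lit 152) (nat_lit 0) (XT.lf (nat_lit 0) (nat_lit 5368305119) (nat_lit 152) (nat_lit 9722229718) (nat_lit 76) (nat_lit 14128338134) (nat_lit 23) (nat_lit 5) (nat_lit 25) (nat_lit 5) (nat_lit 24) (nat_lit 5) (nat_lit 358) (nat_lit 262) (nat_lit 160)) (XT.nd (nat_lit 78) (nat_lit 152) (nat_lit 0) (XT.lf (nat_lit 0) (nat_lit 9324388923) (nat_lit 152) (nat_lit 910523935) (nat_lit 76) (nat_lit 19697597385) (nat_lit 23) (nat_lit 5) (nat_lit 25) (nat_lit 5) (nat_lit 24) (nat_lit 5) (nat_lit 359) (nat_lit 262) (nat_lit 159)) (XT.lf (nat_lit 0) (nat_lit 8304286766) (nat_lit 152) (nat_lit 5160989046) (nat_lit 228) (nat_lit 17200306672) (nat_lit 21) (nat_lit 5) (nat_lit 23) (nat_lit 5) (nat_lit 24) (nat_lit 5) (nat_lit 360) (nat_lit 262) (nat_lit 158)))) (XT.nd (nat_lit 78) (nat_lit 76) (nat_lit 0) (XT.lf (nat_lit 0) (nat_lit 17726681624) (nat_lit 228) (nat_lit 13630269533)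 (nat_lit 76) (nat_lit 63816155) (nat_lit 21) (nat_lit 5) (nat_lit 24) (nat_lit 5) (nat_lit 22) (nat_lit 4) (nat_lit 361) (nat_lit 262) (nat_lit 157)) (XT.nd (nat_lit 78) (nat_lit 76) (nat_lit 0) (XT.lf (nat_lit 0) (nat_lit 22153805685) (nat_lit 228) (nat_lit 4711118059) (nat_lit 76) (nat_lit 5332556581) (nat_lit 21) (nat_lit 5) (nat_lit 24) (nat_lit 5) (nat_lit 22) (nat_lit 4) (nat_lit 362) (nat_lit 262) (nat_lit 156)) (XT.lf (nat_lit 0) (nat_lit 4542197350) (nat_lit 76) (nat_lit 22202370802) (nat_lit 152) (nat_lit 6252010501) (nat_lit 20) (nat_lit 5) (nat_lit 21) (nat_lit 5) (nat_lit 22) (nat_lit 4) (nat_lit 363) (nat_lit 262) (nat_lit 155))))) (XT.nd (nat_lit 234) (nat_lit 152) (nat_lit 0) (XT.nd (nat_lit 78) (nat_lit 76) (nat_lit 0) (XT.lf (nat_lit 0) (nat_lit 14147856414) (nat_lit 76) (nat_lit 17360096516) (nat_lit 152) (nat_lit 2310658425) (nat_lit 20) (nat_lit 5) (nat_lit 21) (nat_lit 5)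 (nat_lit 22) (nat_lit 4) (nat_lit 364) (nat_lit 262) (nat_lit 154)) (XT.nd (nat_lit 78) (nat_lit 0) (nat_lit 0) (XT.lf (nat_lit 0) (nat_lit 1702371891) (nat_lit 152) (nat_lit 10661880320) (nat_lit 76) (nat_lit 22300929432) (nat_lit 19) (nat_lit 5) (nat_lit 21) (nat_lit 5) (nat_lit 20) (nat_lit 5) (nat_lit 365) (nat_lit 262) (nat_lit 153)) (XT.lf (nat_lit 0) (nat_lit 5777279020) (nat_lit 152) (nat_lit 1426441250) (nat_lit 76) (nat_lit 28333112296) (nat_lit 19) (nat_lit 5) (nat_lit 21) (nat_lit 5) (nat_lit 20) (nat_lit 5) (nat_lit 366) (nat_lit 262) (nat_lit 152)))) (XT.nd (nat_lit 78) (nat_lit 0) (nat_lit 0) (XT.lf (nat_lit 0) (nat_lit 8226369630) (nat_lit 152) (nat_lit 1815420095) (nat_lit 228) (nat_lit 26390830073) (nat_lit 17) (nat_lit 5) (nat_lit 19) (nat_lit 5) (nat_lit 20) (nat_lit 5) (nat_lit 367) (nat_lit 262) (nat_lit 151)) (XT.nd (nat_lit 78) (nat_lit 0) (nat_lit 0) (XT.lf (nat_lit 0)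 (nat_lit 14473028406) (nat_lit 228) (nat_lit 19213176680) (nat_lit 76) (nat_lit 3667919038) (nat_lit 17) (nat_lit 5) (nat_lit 20) (nat_lit 5) (nat_lit 18) (nat_lit 4) (nat_lit 368) (nat_lit 262) (nat_lit 150)) (XT.lf (nat_lit 0) (nat_lit 19043865304) (nat_lit 228) (nat_lit 9987986850) (nat_lit 76) (nat_lit 9271228637) (nat_lit 17) (nat_lit 5) (nat_lit 20) (nat_lit 5) (nat_lit 18) (nat_lit 4) (nat_lit 369) (nat_lit 262) (nat_lit 149))))))))
noncomputable def xc116 : XT := (XT.nd (nat_lit 1794) (nat_lit 76) (nat_lit 0) (XT.nd (nat_lit 858) (nat_lit 228) (nat_lit 0) (XT.nd (nat_lit 390) (nat_lit 228) (nat_lit 0) (XT.nd (nat_lit 156) (nat_lit 76) (nat_lit 0) (XT.nd (nat_lit 78) (nat_lit 76) (nat_lit 0) (XT.lf (nat_lit 0) (nat_lit 23740843426) (nat_lit 228) (nat_lit 505168905) (nat_lit 76) (nat_lit 15034830181) (nat_lit 17) (nat_lit 5) (nat_lit 20) (nat_lit 5) (nat_lit 18) (nat_lit 4) (nat_lit 370)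 (nat_lit 262) (nat_lit 148)) (XT.lf (nat_lit 0) (nat_lit 9427528141) (nat_lit 76) (nat_lit 19231161955) (nat_lit 152) (nat_lit 11626854854) (nat_lit 16) (nat_lit 5) (nat_lit 17) (nat_lit 5) (nat_lit 18) (nat_lit 4) (nat_lit 371) (nat_lit 262) (nat_lit 147))) (XT.nd (nat_lit 78) (nat_lit 76) (nat_lit 0) (XT.lf (nat_lit 0) (nat_lit 19650173164) (nat_lit 76) (nat_lit 14068470094) (nat_lit 152) (nat_lit 7601914516) (nat_lit 16) (nat_lit 5) (nat_lit 17) (nat_lit 5) (nat_lit 18) (nat_lit 4) (nat_lit 372) (nat_lit 262) (nat_lit 146)) (XT.nd (nat_lit 78) (nat_lit 76) (nat_lit 0) (XT.lf (nat_lit 0) (nat_lit 30161644720) (nat_lit 76) (nat_lit 8758526875) (nat_lit 152) (nat_lit 3466762348) (nat_lit 16) (nat_lit 5) (nat_lit 17) (nat_lit 5) (nat_lit 18) (nat_lit 4) (nat_lit 373) (nat_lit 262) (nat_lit 145)) (XT.lf (nat_lit 0) (nat_lit 766951056) (nat_lit 152) (nat_lit 2521996783) (nat_lit 76) (nat_lit 40196431830)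 (nat_lit 15) (nat_lit 5) (nat_lit 17) (nat_lit 5) (nat_lit 16) (nat_lit 5) (nat_lit 374) (nat_lit 262) (nat_lit 144))))) (XT.nd (nat_lit 234) (nat_lit 76) (nat_lit 0) (XT.nd (nat_lit 78) (nat_lit 0) (nat_lit 0) (XT.lf (nat_lit 0) (nat_lit 5144543933) (nat_lit 228) (nat_lit 37068657399) (nat_lit 76) (nat_lit 2399957034) (nat_lit 13) (nat_lit 5) (nat_lit 16) (nat_lit 5) (nat_lit 14) (nat_lit 4) (nat_lit 375) (nat_lit 262) (nat_lit 143)) (XT.nd (nat_lit 78) (nat_lit 0) (nat_lit 0) (XT.lf (nat_lit 0) (nat_lit 9702061971) (nat_lit 228) (nat_lit 27859215279) (nat_lit 76) (nat_lit 8212040813) (nat_lit 13) (nat_lit 5) (nat_lit 16) (nat_lit 5) (nat_lit 14) (nat_lit 4) (nat_lit 376) (nat_lit 262) (nat_lit 142)) (XT.lf (nat_lit 0) (nat_lit 14386901824) (nat_lit 228) (nat_lit 18390077268) (nat_lit 76) (nat_lit 14191590969) (nat_lit 13) (nat_lit 5) (nat_lit 16) (nat_lit 5) (nat_lit 14) (nat_lit 4) (nat_lit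 377) (nat_lit 262) (nat_lit 141)))) (XT.nd (nat_lit 78) (nat_lit 76) (nat_lit 0) (XT.lf (nat_lit 0) (nat_lit 19203157041) (nat_lit 228) (nat_lit 8652969362) (nat_lit 76) (nat_lit 20343832352) (nat_lit 13) (nat_lit 5) (nat_lit 16) (nat_lit 5) (nat_lit 14) (nat_lit 4) (nat_lit 378) (nat_lit 262) (nat_lit 140)) (XT.nd (nat_lit 78) (nat_lit 0) (nat_lit 0) (XT.lf (nat_lit 0) (nat_lit 1387695529) (nat_lit 76) (nat_lit 22780679850) (nat_lit 152) (nat_lit 25299784555) (nat_lit 12) (nat_lit 5) (nat_lit 13) (nat_lit 5) (nat_lit 14) (nat_lit 4) (nat_lit 379) (nat_lit 262) (nat_lit 139)) (XT.lf (nat_lit 0) (nat_lit 11891475854) (nat_lit 76) (nat_lit 17469697875) (nat_lit 152) (nat_lit 21410879657) (nat_lit 12) (nat_lit 5) (nat_lit 13) (nat_lit 5) (nat_lit 14) (nat_lit 4) (nat_lit 380) (nat_lit 262) (nat_lit 138)))))) (XT.nd (nat_lit 468) (nat_lit 76) (nat_lit 0) (XT.nd (nat_lit 234) (nat_lit 152) (nat_lit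 0) (XT.nd (nat_lit 78) (nat_lit 0) (nat_lit 0) (XT.lf (nat_lit 0) (nat_lit 22695338614) (nat_lit 76) (nat_lit 12005917839) (nat_lit 152) (nat_lit 17414066972) (nat_lit 12) (nat_lit 5) (nat_lit 13) (nat_lit 5) (nat_lit 14) (nat_lit 4) (nat_lit 381) (nat_lit 262) (nat_lit 137)) (XT.nd (nat_lit 78) (nat_lit 0) (nat_lit 0) (XT.lf (nat_lit 0) (nat_lit 33808724079) (nat_lit 76) (nat_lit 6384565565) (nat_lit 152) (nat_lit 13305854138) (nat_lit 12) (nat_lit 5) (nat_lit 13) (nat_lit 5) (nat_lit 14) (nat_lit 4) (nat_lit 382) (nat_lit 262) (nat_lit 136)) (XT.lf (nat_lit 0) (nat_lit 45241342973) (nat_lit 76) (nat_lit 600729192) (nat_lit 152) (nat_lit 9082651456) (nat_lit 12) (nat_lit 5) (nat_lit 13) (nat_lit 5) (nat_lit 14) (nat_lit 4) (nat_lit 383) (nat_lit 262) (nat_lit 135)))) (XT.nd (nat_lit 78) (nat_lit 76) (nat_lit 0) (XT.lf (nat_lit 0) (nat_lit 569556798) (nat_lit 76) (nat_lit 51139891651) (nat_lit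 76) (nat_lit 4682152888) (nat_lit 11) (nat_lit 4) (nat_lit 12) (nat_lit 5) (nat_lit 12) (nat_lit 4) (nat_lit 384) (nat_lit 262) (nat_lit 134)) (XT.nd (nat_lit 78) (nat_lit 76) (nat_lit 0) (XT.lf (nat_lit 0) (nat_lit 11308716864) (nat_lit 76) (nat_lit 46540061625) (nat_lit 76) (nat_lit 50833181) (nat_lit 11) (nat_lit 4) (nat_lit 12) (nat_lit 5) (nat_lit 12) (nat_lit 4) (nat_lit 385) (nat_lit 262) (nat_lit 133)) (XT.lf (nat_lit 0) (nat_lit 4619739904) (nat_lit 152) (nat_lit 37141728943) (nat_lit 76) (nat_lit 17690264301) (nat_lit 10) (nat_lit 5) (nat_lit 12) (nat_lit 5) (nat_lit 11) (nat_lit 4) (nat_lit 386) (nat_lit 262) (nat_lit 132))))) (XT.nd (nat_lit 234) (nat_lit 76) (nat_lit 0) (XT.nd (nat_lit 78) (nat_lit 0) (nat_lit 0) (XT.lf (nat_lit 0) (nat_lit 9422036438) (nat_lit 152) (nat_lit 27422749022) (nat_lit 76) (nat_lit 24205842771) (nat_lit 10) (nat_lit 5) (nat_lit 12) (nat_lit 5) (nat_lit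 11) (nat_lit 4) (nat_lit 387) (nat_lit 262) (nat_lit 131)) (XT.nd (nat_lit 78) (nat_lit 0) (nat_lit 0) (XT.lf (nat_lit 0) (nat_lit 14361244541) (nat_lit 152) (nat_lit 17424974091) (nat_lit 76) (nat_lit 30911490041) (nat_lit 10) (nat_lit 5) (nat_lit 12) (nat_lit 5) (nat_lit 11) (nat_lit 4) (nat_lit 388) (nat_lit 262) (nat_lit 130)) (XT.lf (nat_lit 0) (nat_lit 19441680026) (nat_lit 152) (nat_lit 7139668232) (nat_lit 76) (nat_lit 37813065415) (nat_lit 10) (nat_lit 5) (nat_lit 12) (nat_lit 5) (nat_lit 11) (nat_lit 4) (nat_lit 389) (nat_lit 262) (nat_lit 129)))) (XT.nd (nat_lit 78) (nat_lit 0) (nat_lit 0) (XT.lf (nat_lit 0) (nat_lit 3510661365) (nat_lit 76) (nat_lit 21190867366) (nat_lit 152) (nat_lit 41439684653) (nat_lit 9) (nat_lit 5) (nat_lit 10) (nat_lit 5) (nat_lit 11) (nat_lit 4) (nat_lit 390) (nat_lit 262) (nat_lit 128)) (XT.nd (nat_lit 78) (nat_lit 0) (nat_lit 0) (XT.lf (nat_lit 0) (nat_lit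 14614934013) (nat_lit 76) (nat_lit 15569670954) (nat_lit 152) (nat_lit 37753852623) (nat_lit 9) (nat_lit 5) (nat_lit 10) (nat_lit 5) (nat_lit 11) (nat_lit 4) (nat_lit 391) (nat_lit 262) (nat_lit 127)) (XT.lf (nat_lit 0) (nat_lit 26040759077) (nat_lit 76) (nat_lit 9784943947) (nat_lit 152) (nat_lit 33964113576) (nat_lit 9) (nat_lit 5) (nat_lit 10) (nat_lit 5) (nat_lit 11) (nat_lit 4) (nat_lit 392) (nat_lit 262) (nat_lit 126))))))) (XT.nd (nat_lit 30966) (nat_lit 0) (nat_lit 17480) (XT.nd (nat_lit 30498) (nat_lit 0) (nat_lit 20368) (XT.nd (nat_lit 234) (nat_lit 76) (nat_lit 0) (XT.nd (nat_lit 78) (nat_lit 0) (nat_lit 0) (XT.lf (nat_lit 0) (nat_lit 37798120288) (nat_lit 76) (nat_lit 3831631729) (nat_lit 152) (nat_lit 30067156091) (nat_lit 9) (nat_lit 5) (nat_lit 10) (nat_lit 5) (nat_lit 11) (nat_lit 4) (nat_lit 393) (nat_lit 262) (nat_lit 125)) (XT.nd (nat_lit 78) (nat_lit 0) (nat_lit 0) (XT.lf (nat_lit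 0) (nat_lit 47623888884) (nat_lit 152) (nat_lit 23786172874) (nat_lit 0) (nat_lit 2250674781) (nat_lit 9) (nat_lit 5) (nat_lit 11) (nat_lit 4) (nat_lit 9) (nat_lit 4) (nat_lit 394) (nat_lit 262) (nat_lit 124)) (XT.lf (nat_lit 0) (nat_lit 53829820500) (nat_lit 152) (nat_lit 13418845701) (nat_lit 0) (nat_lit 8433857582) (nat_lit 9) (nat_lit 5) (nat_lit 11) (nat_lit 4) (nat_lit 9) (nat_lit 4) (nat_lit 395) (nat_lit 262) (nat_lit 123)))) (XT.nd (nat_lit 78) (nat_lit 76) (nat_lit 0) (XT.lf (nat_lit 0) (nat_lit 60216137537) (nat_lit 152) (nat_lit 2750915482) (nat_lit 0) (nat_lit 14798088390) (nat_lit 9) (nat_lit 5) (nat_lit 11) (nat_lit 4) (nat_lit 9) (nat_lit 4) (nat_lit 396) (nat_lit 262) (nat_lit 122)) (XT.nd (nat_lit 78) (nat_lit 0) (nat_lit 0) (XT.lf (nat_lit 0) (nat_lit 8390671497) (nat_lit 76) (nat_lit 58478405041) (nat_lit 76) (nat_lit 13038912954) (nat_lit 8) (nat_lit 4) (nat_lit 9) (nat_lit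 5) (nat_lit 9) (nat_lit 4) (nat_lit 397) (nat_lit 262) (nat_lit 121)) (XT.lf (nat_lit 0) (nat_lit 19912882938) (nat_lit 76) (nat_lit 53830943348) (nat_lit 76) (nat_lit 8370632872) (nat_lit 8) (nat_lit 4) (nat_lit 9) (nat_lit 5) (nat_lit 9) (nat_lit 4) (nat_lit 398) (nat_lit 262) (nat_lit 120))))) (XT.nd (nat_lit 234) (nat_lit 304) (nat_lit 0) (XT.nd (nat_lit 78) (nat_lit 380) (nat_lit 0) (XT.lf (nat_lit 0) (nat_lit 850783854) (nat_lit 0) (nat_lit 850783854) (nat_lit 228) (nat_lit 1539414258) (nat_lit 285) (nat_lit 5) (nat_lit 285) (nat_lit 3) (nat_lit 288) (nat_lit 3) (nat_lit 263) (nat_lit 263) (nat_lit 254)) (XT.nd (nat_lit 78) (nat_lit 380) (nat_lit 0) (XT.lf (nat_lit 0) (nat_lit 4653438382) (nat_lit 0) (nat_lit 1292583523) (nat_lit 228) (nat_lit 550935837) (nat_lit 285) (nat_lit 5) (nat_lit 285) (nat_lit 3) (nat_lit 288) (nat_lit 3) (nat_lit 264) (nat_lit 263) (nat_lit 253)) (XT.lf (nat_lit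 76) (nat_lit 1132970927) (nat_lit 0) (nat_lit 792157468) (nat_lit 380) (nat_lit 4589592662) (nat_lit 281) (nat_lit 5) (nat_lit 280) (nat_lit 3) (nat_lit 285) (nat_lit 5) (nat_lit 265) (nat_lit 263) (nat_lit 252)))) (XT.nd (nat_lit 78) (nat_lit 304) (nat_lit 0) (XT.lf (nat_lit 76) (nat_lit 4180613086) (nat_lit 0) (nat_lit 206236727) (nat_lit 380) (nat_lit 2148605541) (nat_lit 281) (nat_lit 5) (nat_lit 280) (nat_lit 3) (nat_lit 285) (nat_lit 5) (nat_lit 266) (nat_lit 263) (nat_lit 251)) (XT.nd (nat_lit 78) (nat_lit 0) (nat_lit 0) (XT.lf (nat_lit 0) (nat_lit 275260729) (nat_lit 380) (nat_lit 5841519966) (nat_lit 456) (nat_lit 442681420) (nat_lit 276) (nat_lit 5) (nat_lit 281) (nat_lit 5) (nat_lit 282) (nat_lit 5) (nat_lit 267) (nat_lit 263) (nat_lit 250)) (XT.lf (nat_lit 0) (nat_lit 2662881818) (nat_lit 380) (nat_lit 2729806390) (nat_lit 456) (nat_lit 1193087790) (nat_lit 276) (nat_lit 5) (nat_lit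 281) (nat_lit 5) (nat_lit 282) (nat_lit 5) (nat_lit 268) (nat_lit 263) (nat_lit 249)))))) (XT.nd (nat_lit 468) (nat_lit 1900) (nat_lit 0) (XT.nd (nat_lit 234) (nat_lit 532) (nat_lit 0) (XT.nd (nat_lit 78) (nat_lit 456) (nat_lit 0) (XT.lf (nat_lit 76) (nat_lit 431284169) (nat_lit 0) (nat_lit 4605834886) (nat_lit 456) (nat_lit 1578555117) (nat_lit 277) (nat_lit 5) (nat_lit 276) (nat_lit 5) (nat_lit 282) (nat_lit 5) (nat_lit 269) (nat_lit 263) (nat_lit 248)) (XT.nd (nat_lit 78) (nat_lit 0) (nat_lit 0) (XT.lf (nat_lit 0) (nat_lit 759482334) (nat_lit 456) (nat_lit 2964648301) (nat_lit 532) (nat_lit 2924137483) (nat_lit 270) (nat_lit 5) (nat_lit 276) (nat_lit 5) (nat_lit 277) (nat_lit 5) (nat_lit 270) (nat_lit 263) (nat_lit 247)) (XT.lf (nat_lit 76) (nat_lit 289411013) (nat_lit 0) (nat_lit 2763717307) (nat_lit 532) (nat_lit 3630950591) (nat_lit 271) (nat_lit 5) (nat_lit 270) (nat_lit 5) (nat_lit 277)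 (nat_lit 5) (nat_lit 271) (nat_lit 263) (nat_lit 246)))) (XT.nd (nat_lit 78) (nat_lit 532) (nat_lit 0) (XT.lf (nat_lit 76) (nat_lit 3650084337) (nat_lit 0) (nat_lit 1711844382) (nat_lit 532) (nat_lit 1360862190) (nat_lit 271) (nat_lit 5) (nat_lit 270) (nat_lit 5) (nat_lit 277) (nat_lit 5) (nat_lit 272) (nat_lit 263) (nat_lit 245)) (XT.nd (nat_lit 78) (nat_lit 0) (nat_lit 76) (XT.lf (nat_lit 76) (nat_lit 293126813) (nat_lit 0) (nat_lit 585780849) (nat_lit 608) (nat_lit 5886060026) (nat_lit 264) (nat_lit 5) (nat_lit 263) (nat_lit 5) (nat_lit 271) (nat_lit 5) (nat_lit 273) (nat_lit 263) (nat_lit 244)) (XT.lf (nat_lit 0) (nat_lit 3115377502) (nat_lit 532) (nat_lit 3058339255) (nat_lit 76) (nat_lit 635781828) (nat_lit 264) (nat_lit 5) (nat_lit 271) (nat_lit 5) (nat_lit 265) (nat_lit 5) (nat_lit 274) (nat_lit 263) (nat_lit 243))))) (XT.nd (nat_lit 234) (nat_lit 760) (nat_lit 0) (XT.nd (nat_lit 78) (nat_lit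 684) (nat_lit 0) (XT.lf (nat_lit 0) (nat_lit 406809163) (nat_lit 532) (nat_lit 4944177623) (nat_lit 608) (nat_lit 1506610272) (nat_lit 257) (nat_lit 5) (nat_lit 264) (nat_lit 5) (nat_lit 265) (nat_lit 5) (nat_lit 275) (nat_lit 263) (nat_lit 242)) (XT.nd (nat_lit 78) (nat_lit 608) (nat_lit 0) (XT.lf (nat_lit 0) (nat_lit 686305817) (nat_lit 608) (nat_lit 2929178218) (nat_lit 76) (nat_lit 3292990675) (nat_lit 256) (nat_lit 5) (nat_lit 264) (nat_lit 5) (nat_lit 257) (nat_lit 5) (nat_lit 276) (nat_lit 263) (nat_lit 241)) (XT.lf (nat_lit 0) (nat_lit 643200000) (nat_lit 608) (nat_lit 2203107310) (nat_lit 684) (nat_lit 4116353124) (nat_lit 248) (nat_lit 5) (nat_lit 256) (nat_lit 5) (nat_lit 257) (nat_lit 5) (nat_lit 277) (nat_lit 263) (nat_lit 240)))) (XT.nd (nat_lit 78) (nat_lit 760) (nat_lit 0) (XT.lf (nat_lit 0) (nat_lit 4330795725) (nat_lit 608) (nat_lit 696961614) (nat_lit 684) (nat_lit 1992186420)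 (nat_lit 248) (nat_lit 5) (nat_lit 256) (nat_lit 5) (nat_lit 257) (nat_lit 5) (nat_lit 278) (nat_lit 263) (nat_lit 239)) (XT.nd (nat_lit 78) (nat_lit 0) (nat_lit 0) (XT.lf (nat_lit 0) (nat_lit 138498097) (nat_lit 760) (nat_lit 6073479723) (nat_lit 76) (nat_lit 868674618) (nat_lit 238) (nat_lit 5) (nat_lit 248) (nat_lit 5) (nat_lit 239) (nat_lit 5) (nat_lit 279) (nat_lit 263) (nat_lit 238)) (XT.lf (nat_lit 0) (nat_lit 2257486040) (nat_lit 760) (nat_lit 2353753208) (nat_lit 76) (nat_lit 2532575606) (nat_lit 238) (nat_lit 5) (nat_lit 248) (nat_lit 5) (nat_lit 239) (nat_lit 5) (nat_lit 280) (nat_lit 263) (nat_lit 237))))))))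
noncomputable def xc117 : XT := (XT.nd (nat_lit 1872) (nat_lit 4256) (nat_lit 0) (XT.nd (nat_lit 936) (nat_lit 3192) (nat_lit 0) (XT.nd (nat_lit 468) (nat_lit 3800) (nat_lit 0) (XT.nd (nat_lit 234) (nat_lit 988) (nat_lit 0) (XT.nd (nat_lit 78) (nat_lit 912) (nat_lit 0) (XT.lf (nat_lit 0) (nat_lit 1453501567) (nat_lit 760) (nat_lit 2932649212) (nat_lit 836) (nat_lit 2824490513) (nat_lit 228) (nat_lit 5) (nat_lit 238) (nat_lit 5) (nat_lit 239) (nat_lit 5) (nat_lit 281) (nat_lit 263) (nat_lit 236)) (XT.nd (nat_lit 78) (nat_lit 912) (nat_lit 0) (XT.lf (nat_lit 0) (nat_lit 5371311021) (nat_lit 760) (nat_lit 1164745573) (nat_lit 836) (nat_lit 744842418) (nat_lit 228) (nat_lit 5) (nat_lit 238) (nat_lit 5) (nat_lit 239) (nat_lit 5) (nat_lit 282) (nat_lit 263) (nat_lit 235)) (XT.lf (nat_lit 0) (nat_lit 1330952139) (nat_lit 912) (nat_lit 5333446832) (nat_lit 76) (nat_lit 689771365) (nat_lit 216) (nat_lit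 5) (nat_lit 228) (nat_lit 5) (nat_lit 217) (nat_lit 5) (nat_lit 283) (nat_lit 263) (nat_lit 234)))) (XT.nd (nat_lit 78) (nat_lit 988) (nat_lit 0) (XT.lf (nat_lit 0) (nat_lit 3421350248) (nat_lit 912) (nat_lit 1393570333) (nat_lit 76) (nat_lit 2615614341) (nat_lit 216) (nat_lit 5) (nat_lit 228) (nat_lit 5) (nat_lit 217) (nat_lit 5) (nat_lit 284) (nat_lit 263) (nat_lit 233)) (XT.nd (nat_lit 78) (nat_lit 76) (nat_lit 0) (XT.lf (nat_lit 0) (nat_lit 2664555477) (nat_lit 912) (nat_lit 2873667829) (nat_lit 988) (nat_lit 1972185679) (nat_lit 204) (nat_lit 5) (nat_lit 216) (nat_lit 5) (nat_lit 217) (nat_lit 5) (nat_lit 285) (nat_lit 263) (nat_lit 232)) (XT.lf (nat_lit 0) (nat_lit 76409908) (nat_lit 988) (nat_lit 773391050) (nat_lit 76) (nat_lit 6744377567) (nat_lit 203) (nat_lit 5) (nat_lit 216) (nat_lit 5) (nat_lit 204) (nat_lit 5) (nat_lit 286) (nat_lit 263) (nat_lit 231))))) (XT.nd (nat_lit 234) (nat_lit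 1748) (nat_lit 0) (XT.nd (nat_lit 78) (nat_lit 1064) (nat_lit 0) (XT.lf (nat_lit 0) (nat_lit 2132656195) (nat_lit 1064) (nat_lit 4276101065) (nat_lit 76) (nat_lit 1271663415) (nat_lit 190) (nat_lit 5) (nat_lit 204) (nat_lit 5) (nat_lit 191) (nat_lit 5) (nat_lit 287) (nat_lit 263) (nat_lit 230)) (XT.nd (nat_lit 78) (nat_lit 1064) (nat_lit 0) (XT.lf (nat_lit 0) (nat_lit 4208724407) (nat_lit 1064) (nat_lit 106964232) (nat_lit 76) (nat_lit 3454934189) (nat_lit 190) (nat_lit 5) (nat_lit 204) (nat_lit 5) (nat_lit 191) (nat_lit 5) (nat_lit 288) (nat_lit 263) (nat_lit 229)) (XT.lf (nat_lit 0) (nat_lit 4218424934) (nat_lit 1064) (nat_lit 2112727585) (nat_lit 1140) (nat_lit 1532969560) (nat_lit 176) (nat_lit 5) (nat_lit 190) (nat_lit 5) (nat_lit 191) (nat_lit 5) (nat_lit 289) (nat_lit 263) (nat_lit 228)))) (XT.nd (nat_lit 78) (nat_lit 532) (nat_lit 0) (XT.lf (nat_lit 0) (nat_lit 499204899) (nat_lit 1216)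 (nat_lit 7292243297) (nat_lit 76) (nat_lit 170327097) (nat_lit 160) (nat_lit 5) (nat_lit 176) (nat_lit 5) (nat_lit 161) (nat_lit 5) (nat_lit 290) (nat_lit 263) (nat_lit 227)) (XT.nd (nat_lit 78) (nat_lit 532) (nat_lit 0) (XT.lf (nat_lit 0) (nat_lit 2564830736) (nat_lit 1216) (nat_lit 2961894624) (nat_lit 76) (nat_lit 2535182238) (nat_lit 160) (nat_lit 5) (nat_lit 176) (nat_lit 5) (nat_lit 161) (nat_lit 5) (nat_lit 291) (nat_lit 263) (nat_lit 226)) (XT.lf (nat_lit 0) (nat_lit 1475574124) (nat_lit 532) (nat_lit 3177831779) (nat_lit 608) (nat_lit 3512909281) (nat_lit 153) (nat_lit 5) (nat_lit 160) (nat_lit 5) (nat_lit 161) (nat_lit 5) (nat_lit 292) (nat_lit 263) (nat_lit 225)))))) (XT.nd (nat_lit 468) (nat_lit 1368) (nat_lit 0) (XT.nd (nat_lit 234) (nat_lit 1140) (nat_lit 0) (XT.nd (nat_lit 78) (nat_lit 684) (nat_lit 0) (XT.lf (nat_lit 0) (nat_lit 6055804451) (nat_lit 532) (nat_lit 726598260) (nat_lit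 608) (nat_lit 1492217152) (nat_lit 153) (nat_lit 5) (nat_lit 160) (nat_lit 5) (nat_lit 161) (nat_lit 5) (nat_lit 293) (nat_lit 263) (nat_lit 224)) (XT.nd (nat_lit 78) (nat_lit 0) (nat_lit 0) (XT.lf (nat_lit 0) (nat_lit 566804284) (nat_lit 684) (nat_lit 6027226949) (nat_lit 76) (nat_lit 1792388629) (nat_lit 144) (nat_lit 5) (nat_lit 153) (nat_lit 5) (nat_lit 145) (nat_lit 5) (nat_lit 294) (nat_lit 263) (nat_lit 223)) (XT.lf (nat_lit 0) (nat_lit 2637214655) (nat_lit 684) (nat_lit 1454868051) (nat_lit 76) (nat_lit 4409749108) (nat_lit 144) (nat_lit 5) (nat_lit 153) (nat_lit 5) (nat_lit 145) (nat_lit 5) (nat_lit 295) (nat_lit 263) (nat_lit 222)))) (XT.nd (nat_lit 78) (nat_lit 608) (nat_lit 0) (XT.lf (nat_lit 0) (nat_lit 3268142532) (nat_lit 532) (nat_lit 1484261463) (nat_lit 608) (nat_lit 3868909020) (nat_lit 137) (nat_lit 5) (nat_lit 144) (nat_lit 5) (nat_lit 145) (nat_lit 5) (nat_lit 296) (nat_lit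 263) (nat_lit 221)) (XT.nd (nat_lit 78) (nat_lit 608) (nat_lit 0) (XT.lf (nat_lit 0) (nat_lit 6909611466) (nat_lit 608) (nat_lit 644267645) (nat_lit 76) (nat_lit 1191227027) (nat_lit 137) (nat_lit 5) (nat_lit 145) (nat_lit 5) (nat_lit 138) (nat_lit 5) (nat_lit 297) (nat_lit 263) (nat_lit 220)) (XT.lf (nat_lit 0) (nat_lit 262741001) (nat_lit 608) (nat_lit 4651180846) (nat_lit 76) (nat_lit 3958429915) (nat_lit 129) (nat_lit 5) (nat_lit 137) (nat_lit 5) (nat_lit 130) (nat_lit 5) (nat_lit 298) (nat_lit 263) (nat_lit 219))))) (XT.nd (nat_lit 234) (nat_lit 456) (nat_lit 0) (XT.nd (nat_lit 78) (nat_lit 456) (nat_lit 0) (XT.lf (nat_lit 0) (nat_lit 177474810) (nat_lit 456) (nat_lit 2171749237) (nat_lit 532) (nat_lit 6654856954) (nat_lit 123) (nat_lit 5) (nat_lit 129) (nat_lit 5) (nat_lit 130) (nat_lit 5) (nat_lit 299) (nat_lit 263) (nat_lit 218)) (XT.nd (nat_lit 78) (nat_lit 456) (nat_lit 0) (XT.lf (nat_lit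 0) (nat_lit 4506743340) (nat_lit 532) (nat_lit 3949962168) (nat_lit 76) (nat_lit 682878309) (nat_lit 123) (nat_lit 5) (nat_lit 130) (nat_lit 5) (nat_lit 124) (nat_lit 5) (nat_lit 300) (nat_lit 263) (nat_lit 217)) (XT.lf (nat_lit 0) (nat_lit 1021702405) (nat_lit 456) (nat_lit 5694662782) (nat_lit 532) (nat_lit 2563237990) (nat_lit 117) (nat_lit 5) (nat_lit 123) (nat_lit 5) (nat_lit 124) (nat_lit 5) (nat_lit 301) (nat_lit 263) (nat_lit 216)))) (XT.nd (nat_lit 78) (nat_lit 456) (nat_lit 0) (XT.lf (nat_lit 0) (nat_lit 6174261258) (nat_lit 456) (nat_lit 2814761395) (nat_lit 532) (nat_lit 434968705) (nat_lit 117) (nat_lit 5) (nat_lit 123) (nat_lit 5) (nat_lit 124) (nat_lit 5) (nat_lit 302) (nat_lit 263) (nat_lit 215)) (XT.nd (nat_lit 78) (nat_lit 0) (nat_lit 0) (XT.lf (nat_lit 0) (nat_lit 1700306446) (nat_lit 456) (nat_lit 7694967753) (nat_lit 76) (nat_lit 177673473) (nat_lit 111) (nat_lit 5) (nat_lit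 117) (nat_lit 5) (nat_lit 112) (nat_lit 5) (nat_lit 303) (nat_lit 263) (nat_lit 214)) (XT.lf (nat_lit 0) (nat_lit 3910248452) (nat_lit 456) (nat_lit 2581224429) (nat_lit 76) (nat_lit 3234254719) (nat_lit 111) (nat_lit 5) (nat_lit 117) (nat_lit 5) (nat_lit 112) (nat_lit 5) (nat_lit 304) (nat_lit 263) (nat_lit 213))))))) (XT.nd (nat_lit 936) (nat_lit 1596) (nat_lit 0) (XT.nd (nat_lit 468) (nat_lit 1368) (nat_lit 0) (XT.nd (nat_lit 234) (nat_lit 380) (nat_lit 0) (XT.nd (nat_lit 78) (nat_lit 456) (nat_lit 0) (XT.lf (nat_lit 0) (nat_lit 2690398227) (nat_lit 456) (nat_lit 3481506909) (nat_lit 532) (nat_lit 3711686069) (nat_lit 105) (nat_lit 5) (nat_lit 111) (nat_lit 5) (nat_lit 112) (nat_lit 5) (nat_lit 305) (nat_lit 263) (nat_lit 212)) (XT.nd (nat_lit 78) (nat_lit 456) (nat_lit 0) (XT.lf (nat_lit 0) (nat_lit 8125520712) (nat_lit 456) (nat_lit 362231608) (nat_lit 532) (nat_lit 1558909117) (nat_lit 105)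 (nat_lit 5) (nat_lit 111) (nat_lit 5) (nat_lit 112) (nat_lit 5) (nat_lit 306) (nat_lit 263) (nat_lit 211)) (XT.lf (nat_lit 0) (nat_lit 668197888) (nat_lit 456) (nat_lit 6717858642) (nat_lit 76) (nat_lit 2827756943) (nat_lit 99) (nat_lit 5) (nat_lit 105) (nat_lit 5) (nat_lit 100) (nat_lit 5) (nat_lit 307) (nat_lit 263) (nat_lit 210)))) (XT.nd (nat_lit 78) (nat_lit 380) (nat_lit 0) (XT.lf (nat_lit 0) (nat_lit 2915566069) (nat_lit 456) (nat_lit 1337341831) (nat_lit 76) (nat_lit 6133121483) (nat_lit 99) (nat_lit 5) (nat_lit 105) (nat_lit 5) (nat_lit 100) (nat_lit 5) (nat_lit 308) (nat_lit 263) (nat_lit 209)) (XT.nd (nat_lit 78) (nat_lit 0) (nat_lit 0) (XT.lf (nat_lit 0) (nat_lit 4241062242) (nat_lit 380) (nat_lit 992781333) (nat_lit 456) (nat_lit 5329517695) (nat_lit 94) (nat_lit 5) (nat_lit 99) (nat_lit 5) (nat_lit 100) (nat_lit 5) (nat_lit 309) (nat_lit 263) (nat_lit 208)) (XT.lf (nat_lit 0) (nat_lit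 7621320310) (nat_lit 456) (nat_lit 801140333) (nat_lit 76) (nat_lit 2323615513) (nat_lit 94) (nat_lit 5) (nat_lit 100) (nat_lit 5) (nat_lit 95) (nat_lit 5) (nat_lit 310) (nat_lit 263) (nat_lit 207))))) (XT.nd (nat_lit 234) (nat_lit 608) (nat_lit 0) (XT.nd (nat_lit 78) (nat_lit 456) (nat_lit 0) (XT.lf (nat_lit 0) (nat_lit 4926425799) (nat_lit 304) (nat_lit 5175527881) (nat_lit 380) (nat_lit 831723879) (nat_lit 90) (nat_lit 5) (nat_lit 94) (nat_lit 5) (nat_lit 95) (nat_lit 5) (nat_lit 311) (nat_lit 263) (nat_lit 206)) (XT.nd (nat_lit 78) (nat_lit 380) (nat_lit 0) (XT.lf (nat_lit 0) (nat_lit 1472967815) (nat_lit 380) (nat_lit 345048393) (nat_lit 76) (nat_lit 9309315860) (nat_lit 89) (nat_lit 5) (nat_lit 94) (nat_lit 5) (nat_lit 90) (nat_lit 5) (nat_lit 312) (nat_lit 263) (nat_lit 205)) (XT.lf (nat_lit 0) (nat_lit 3865228366) (nat_lit 456) (nat_lit 5799871820) (nat_lit 76) (nat_lit 1660441340) (nat_lit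 84) (nat_lit 5) (nat_lit 90) (nat_lit 5) (nat_lit 85) (nat_lit 5) (nat_lit 313) (nat_lit 263) (nat_lit 204)))) (XT.nd (nat_lit 78) (nat_lit 608) (nat_lit 0) (XT.lf (nat_lit 0) (nat_lit 6316844816) (nat_lit 456) (nat_lit 13072735) (nat_lit 76) (nat_lit 5200197420) (nat_lit 84) (nat_lit 5) (nat_lit 90) (nat_lit 5) (nat_lit 85) (nat_lit 5) (nat_lit 314) (nat_lit 263) (nat_lit 203)) (XT.nd (nat_lit 78) (nat_lit 304) (nat_lit 0) (XT.lf (nat_lit 0) (nat_lit 6021107464) (nat_lit 304) (nat_lit 2845838255) (nat_lit 380) (nat_lit 2873175850) (nat_lit 80) (nat_lit 5) (nat_lit 84) (nat_lit 5) (nat_lit 85) (nat_lit 5) (nat_lit 315) (nat_lit 263) (nat_lit 202)) (XT.lf (nat_lit 0) (nat_lit 233371546) (nat_lit 304) (nat_lit 11237190733) (nat_lit 380) (nat_lit 486598451) (nat_lit 76) (nat_lit 5) (nat_lit 80) (nat_lit 5) (nat_lit 81) (nat_lit 5) (nat_lit 316) (nat_lit 263) (nat_lit 201)))))) (XT.nd (nat_lit 468)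 (nat_lit 836) (nat_lit 0) (XT.nd (nat_lit 234) (nat_lit 380) (nat_lit 0) (XT.nd (nat_lit 78) (nat_lit 304) (nat_lit 0) (XT.lf (nat_lit 0) (nat_lit 1987267781) (nat_lit 380) (nat_lit 5789564319) (nat_lit 76) (nat_lit 4401725773) (nat_lit 75) (nat_lit 5) (nat_lit 80) (nat_lit 5) (nat_lit 76) (nat_lit 5) (nat_lit 317) (nat_lit 263) (nat_lit 200)) (XT.nd (nat_lit 78) (nat_lit 0) (nat_lit 0) (XT.lf (nat_lit 0) (nat_lit 280183155) (nat_lit 304) (nat_lit 4216686623) (nat_lit 380) (nat_lit 7910482740) (nat_lit 71) (nat_lit 5) (nat_lit 75) (nat_lit 5) (nat_lit 76) (nat_lit 5) (nat_lit 318) (nat_lit 263) (nat_lit 199)) (XT.lf (nat_lit 0) (nat_lit 6607972808) (nat_lit 304) (nat_lit 501360521) (nat_lit 380) (nat_lit 5532888443) (nat_lit 71) (nat_lit 5) (nat_lit 75) (nat_lit 5) (nat_lit 76) (nat_lit 5) (nat_lit 319) (nat_lit 263) (nat_lit 198)))) (XT.nd (nat_lit 78) (nat_lit 76) (nat_lit 0) (XT.lf (nat_lit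 0) (nat_lit 170508127) (nat_lit 304) (nat_lit 9633167155) (nat_lit 380) (nat_lit 3080393560) (nat_lit 67) (nat_lit 5) (nat_lit 71) (nat_lit 5) (nat_lit 72) (nat_lit 5) (nat_lit 320) (nat_lit 263) (nat_lit 197)) (XT.nd (nat_lit 78) (nat_lit 76) (nat_lit 0) (XT.lf (nat_lit 0) (nat_lit 6638144066) (nat_lit 304) (nat_lit 5976926226) (nat_lit 380) (nat_lit 517050146) (nat_lit 67) (nat_lit 5) (nat_lit 71) (nat_lit 5) (nat_lit 72) (nat_lit 5) (nat_lit 321) (nat_lit 263) (nat_lit 196)) (XT.lf (nat_lit 0) (nat_lit 2052679877) (nat_lit 380) (nat_lit 149503465) (nat_lit 76) (nat_lit 11185724175) (nat_lit 66) (nat_lit 5) (nat_lit 71) (nat_lit 5) (nat_lit 67) (nat_lit 5) (nat_lit 322) (nat_lit 263) (nat_lit 195))))) (XT.nd (nat_lit 234) (nat_lit 304) (nat_lit 0) (XT.nd (nat_lit 78) (nat_lit 304) (nat_lit 0) (XT.lf (nat_lit 0) (nat_lit 4739789092) (nat_lit 304) (nat_lit 7200709096) (nat_lit 76) (nat_lit 1709228816)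 (nat_lit 63) (nat_lit 5) (nat_lit 67) (nat_lit 5) (nat_lit 64) (nat_lit 5) (nat_lit 323) (nat_lit 263) (nat_lit 194)) (XT.nd (nat_lit 78) (nat_lit 304) (nat_lit 0) (XT.lf (nat_lit 0) (nat_lit 7502930992) (nat_lit 304) (nat_lit 733060105) (nat_lit 76) (nat_lit 5683579203) (nat_lit 63) (nat_lit 5) (nat_lit 67) (nat_lit 5) (nat_lit 64) (nat_lit 5) (nat_lit 324) (nat_lit 263) (nat_lit 193)) (XT.lf (nat_lit 0) (nat_lit 6006560831) (nat_lit 304) (nat_lit 4373048910) (nat_lit 380) (nat_lit 3817010754) (nat_lit 59) (nat_lit 5) (nat_lit 63) (nat_lit 5) (nat_lit 64) (nat_lit 5) (nat_lit 325) (nat_lit 263) (nat_lit 192)))) (XT.nd (nat_lit 78) (nat_lit 304) (nat_lit 0) (XT.lf (nat_lit 0) (nat_lit 12924515221) (nat_lit 304) (nat_lit 398795407) (nat_lit 380) (nat_lit 1159279895) (nat_lit 59) (nat_lit 5) (nat_lit 63) (nat_lit 5) (nat_lit 64) (nat_lit 5) (nat_lit 326) (nat_lit 263) (nat_lit 191)) (XT.nd (nat_lit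 78) (nat_lit 0) (nat_lit 0) (XT.lf (nat_lit 0) (nat_lit 1608424844) (nat_lit 304) (nat_lit 9488744102) (nat_lit 76) (nat_lit 3677712711) (nat_lit 55) (nat_lit 5) (nat_lit 59) (nat_lit 5) (nat_lit 56) (nat_lit 5) (nat_lit 327) (nat_lit 263) (nat_lit 190)) (XT.lf (nat_lit 0) (nat_lit 4429791100) (nat_lit 304) (nat_lit 2762044162) (nat_lit 76) (nat_lit 7883971437) (nat_lit 55) (nat_lit 5) (nat_lit 59) (nat_lit 5) (nat_lit 56) (nat_lit 5) (nat_lit 328) (nat_lit 263) (nat_lit 189))))))))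
noncomputable def xc118 : XT := (XT.nd (nat_lit 1794) (nat_lit 912) (nat_lit 0) (XT.nd (nat_lit 858) (nat_lit 912) (nat_lit 0) (XT.nd (nat_lit 390) (nat_lit 456) (nat_lit 0) (XT.nd (nat_lit 156) (nat_lit 532) (nat_lit 0) (XT.nd (nat_lit 78) (nat_lit 0) (nat_lit 0) (XT.lf (nat_lit 0) (nat_lit 4211147753) (nat_lit 228) (nat_lit 3139978290) (nat_lit 304) (nat_lit 8034200254) (nat_lit 52) (nat_lit 5) (nat_lit 55) (nat_lit 5) (nat_lit 56) (nat_lit 5) (nat_lit 329) (nat_lit 263) (nat_lit 188)) (XT.lf (nat_lit 0) (nat_lit 10373307188) (nat_lit 304) (nat_lit 4301117016) (nat_lit 76) (nat_lit 1029336956) (nat_lit 52) (nat_lit 5) (nat_lit 56) (nat_lit 5) (nat_lit 53) (nat_lit 5) (nat_lit 330) (nat_lit 263) (nat_lit 187))) (XT.nd (nat_lit 78) (nat_lit 304) (nat_lit 0) (XT.lf (nat_lit 0) (nat_lit 2764322617) (nat_lit 228) (nat_lit 10755322274) (nat_lit 304) (nat_lit 2511124550) (nat_lit 49) (nat_lit 5) (nat_lit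 52) (nat_lit 5) (nat_lit 53) (nat_lit 5) (nat_lit 331) (nat_lit 263) (nat_lit 186)) (XT.nd (nat_lit 78) (nat_lit 228) (nat_lit 0) (XT.lf (nat_lit 0) (nat_lit 404908139) (nat_lit 304) (nat_lit 6277406642) (nat_lit 76) (nat_lit 9684589947) (nat_lit 48) (nat_lit 5) (nat_lit 52) (nat_lit 5) (nat_lit 49) (nat_lit 5) (nat_lit 332) (nat_lit 263) (nat_lit 185)) (XT.lf (nat_lit 0) (nat_lit 877833902) (nat_lit 228) (nat_lit 2465181429) (nat_lit 304) (nat_lit 13369833900) (nat_lit 45) (nat_lit 5) (nat_lit 48) (nat_lit 5) (nat_lit 49) (nat_lit 5) (nat_lit 333) (nat_lit 263) (nat_lit 184))))) (XT.nd (nat_lit 234) (nat_lit 304) (nat_lit 0) (XT.nd (nat_lit 78) (nat_lit 152) (nat_lit 0) (XT.lf (nat_lit 0) (nat_lit 6428188045) (nat_lit 304) (nat_lit 8745524713) (nat_lit 76) (nat_lit 1893713951) (nat_lit 45) (nat_lit 5) (nat_lit 49) (nat_lit 5) (nat_lit 46) (nat_lit 5) (nat_lit 334) (nat_lit 263) (nat_lit 183))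 (XT.nd (nat_lit 78) (nat_lit 152) (nat_lit 0) (XT.lf (nat_lit 0) (nat_lit 9607846222) (nat_lit 304) (nat_lit 1502691185) (nat_lit 76) (nat_lit 6322067853) (nat_lit 45) (nat_lit 5) (nat_lit 49) (nat_lit 5) (nat_lit 46) (nat_lit 5) (nat_lit 335) (nat_lit 263) (nat_lit 182)) (XT.lf (nat_lit 0) (nat_lit 6041400255) (nat_lit 152) (nat_lit 6877744753) (nat_lit 228) (nat_lit 4888527661) (nat_lit 43) (nat_lit 5) (nat_lit 45) (nat_lit 5) (nat_lit 46) (nat_lit 5) (nat_lit 336) (nat_lit 263) (nat_lit 181)))) (XT.nd (nat_lit 78) (nat_lit 304) (nat_lit 0) (XT.lf (nat_lit 0) (nat_lit 13809034079) (nat_lit 152) (nat_lit 2514412928) (nat_lit 228) (nat_lit 1870755581) (nat_lit 43) (nat_lit 5) (nat_lit 45) (nat_lit 5) (nat_lit 46) (nat_lit 5) (nat_lit 337) (nat_lit 263) (nat_lit 180)) (XT.nd (nat_lit 78) (nat_lit 0) (nat_lit 0) (XT.lf (nat_lit 0) (nat_lit 1242735377) (nat_lit 304) (nat_lit 15375468512) (nat_lit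 76) (nat_lit 1972906832) (nat_lit 39) (nat_lit 5) (nat_lit 43) (nat_lit 5) (nat_lit 40) (nat_lit 5) (nat_lit 338) (nat_lit 263) (nat_lit 179)) (XT.lf (nat_lit 0) (nat_lit 4460722064) (nat_lit 304) (nat_lit 7941334420) (nat_lit 76) (nat_lit 6595871888) (nat_lit 39) (nat_lit 5) (nat_lit 43) (nat_lit 5) (nat_lit 40) (nat_lit 5) (nat_lit 339) (nat_lit 263) (nat_lit 178)))))) (XT.nd (nat_lit 468) (nat_lit 532) (nat_lit 0) (XT.nd (nat_lit 234) (nat_lit 228) (nat_lit 0) (XT.nd (nat_lit 78) (nat_lit 152) (nat_lit 0) (XT.lf (nat_lit 0) (nat_lit 7754933906) (nat_lit 304) (nat_lit 316457600) (nat_lit 76) (nat_lit 11346186617) (nat_lit 39) (nat_lit 5) (nat_lit 43) (nat_lit 5) (nat_lit 40) (nat_lit 5) (nat_lit 340) (nat_lit 263) (nat_lit 177)) (XT.nd (nat_lit 78) (nat_lit 0) (nat_lit 0) (XT.lf (nat_lit 0) (nat_lit 7655205084) (nat_lit 152) (nat_lit 3546630770) (nat_lit 228) (nat_lit 8646383210) (nat_lit 37)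 (nat_lit 5) (nat_lit 39) (nat_lit 5) (nat_lit 40) (nat_lit 5) (nat_lit 341) (nat_lit 263) (nat_lit 176)) (XT.lf (nat_lit 0) (nat_lit 14746521318) (nat_lit 228) (nat_lit 4461440423) (nat_lit 76) (nat_lit 1084003297) (nat_lit 37) (nat_lit 5) (nat_lit 40) (nat_lit 5) (nat_lit 38) (nat_lit 5) (nat_lit 342) (nat_lit 263) (nat_lit 175)))) (XT.nd (nat_lit 78) (nat_lit 76) (nat_lit 0) (XT.lf (nat_lit 0) (nat_lit 3504750728) (nat_lit 152) (nat_lit 14942613219) (nat_lit 228) (nat_lit 2300181544) (nat_lit 35) (nat_lit 5) (nat_lit 37) (nat_lit 5) (nat_lit 38) (nat_lit 5) (nat_lit 343) (nat_lit 263) (nat_lit 174)) (XT.nd (nat_lit 78) (nat_lit 0) (nat_lit 0) (XT.lf (nat_lit 0) (nat_lit 1048666802) (nat_lit 228) (nat_lit 9455222719) (nat_lit 76) (nat_lit 10711821767) (nat_lit 34) (nat_lit 5) (nat_lit 37) (nat_lit 5) (nat_lit 35) (nat_lit 5) (nat_lit 344) (nat_lit 263) (nat_lit 173)) (XT.lf (nat_lit 0) (nat_lit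 4433372700) (nat_lit 228) (nat_lit 1486600565) (nat_lit 76) (nat_lit 15777832055) (nat_lit 34) (nat_lit 5) (nat_lit 37) (nat_lit 5) (nat_lit 35) (nat_lit 5) (nat_lit 345) (nat_lit 263) (nat_lit 172))))) (XT.nd (nat_lit 234) (nat_lit 228) (nat_lit 0) (XT.nd (nat_lit 78) (nat_lit 152) (nat_lit 0) (XT.lf (nat_lit 0) (nat_lit 6825332135) (nat_lit 152) (nat_lit 1142055620) (nat_lit 228) (nat_lit 14225556129) (nat_lit 32) (nat_lit 5) (nat_lit 34) (nat_lit 5) (nat_lit 35) (nat_lit 5) (nat_lit 346) (nat_lit 263) (nat_lit 171)) (XT.nd (nat_lit 78) (nat_lit 152) (nat_lit 0) (XT.lf (nat_lit 0) (nat_lit 11641208310) (nat_lit 228) (nat_lit 7350953414) (nat_lit 76) (nat_lit 3709775647) (nat_lit 32) (nat_lit 5) (nat_lit 35) (nat_lit 5) (nat_lit 33) (nat_lit 5) (nat_lit 347) (nat_lit 263) (nat_lit 170)) (XT.lf (nat_lit 0) (nat_lit 883905340) (nat_lit 152) (nat_lit 14543954579) (nat_lit 228) (nat_lit 7798276152)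 (nat_lit 30) (nat_lit 5) (nat_lit 32) (nat_lit 5) (nat_lit 33) (nat_lit 5) (nat_lit 348) (nat_lit 263) (nat_lit 169)))) (XT.nd (nat_lit 78) (nat_lit 228) (nat_lit 0) (XT.lf (nat_lit 0) (nat_lit 9488534034) (nat_lit 152) (nat_lit 9896851389) (nat_lit 228) (nat_lit 4378970575) (nat_lit 30) (nat_lit 5) (nat_lit 32) (nat_lit 5) (nat_lit 33) (nat_lit 5) (nat_lit 349) (nat_lit 263) (nat_lit 168)) (XT.nd (nat_lit 78) (nat_lit 228) (nat_lit 0) (XT.lf (nat_lit 0) (nat_lit 18324152889) (nat_lit 152) (nat_lit 5121021796) (nat_lit 228) (nat_lit 874054802) (nat_lit 30) (nat_lit 5) (nat_lit 32) (nat_lit 5) (nat_lit 33) (nat_lit 5) (nat_lit 350) (nat_lit 263) (nat_lit 167)) (XT.lf (nat_lit 0) (nat_lit 2530477883) (nat_lit 152) (nat_lit 160312431) (nat_lit 228) (nat_lit 22198937075) (nat_lit 27) (nat_lit 5) (nat_lit 29) (nat_lit 5) (nat_lit 30) (nat_lit 5) (nat_lit 351) (nat_lit 263) (nat_lit 166))))))) (XT.nd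 (nat_lit 936) (nat_lit 456) (nat_lit 0) (XT.nd (nat_lit 468) (nat_lit 228) (nat_lit 0) (XT.nd (nat_lit 234) (nat_lit 76) (nat_lit 0) (XT.nd (nat_lit 78) (nat_lit 152) (nat_lit 0) (XT.lf (nat_lit 0) (nat_lit 6437688278) (nat_lit 228) (nat_lit 14124479530) (nat_lit 76) (nat_lit 4912144538) (nat_lit 27) (nat_lit 5) (nat_lit 30) (nat_lit 5) (nat_lit 28) (nat_lit 5) (nat_lit 352) (nat_lit 263) (nat_lit 165)) (XT.nd (nat_lit 78) (nat_lit 152) (nat_lit 0) (XT.lf (nat_lit 0) (nat_lit 10283009852) (nat_lit 228) (nat_lit 5670291899) (nat_lit 76) (nat_lit 10123564242) (nat_lit 27) (nat_lit 5) (nat_lit 30) (nat_lit 5) (nat_lit 28) (nat_lit 5) (nat_lit 353) (nat_lit 263) (nat_lit 164)) (XT.lf (nat_lit 0) (nat_lit 3072191074) (nat_lit 152) (nat_lit 11185914713) (nat_lit 228) (nat_lit 12438969325) (nat_lit 25) (nat_lit 5) (nat_lit 27) (nat_lit 5) (nat_lit 28) (nat_lit 5) (nat_lit 354) (nat_lit 263) (nat_lit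 163)))) (XT.nd (nat_lit 78) (nat_lit 76) (nat_lit 0) (XT.lf (nat_lit 0) (nat_lit 12168152004) (nat_lit 152) (nat_lit 6226644038) (nat_lit 228) (nat_lit 8939835192) (nat_lit 25) (nat_lit 5) (nat_lit 27) (nat_lit 5) (nat_lit 28) (nat_lit 5) (nat_lit 355) (nat_lit 263) (nat_lit 162)) (XT.nd (nat_lit 78) (nat_lit 76) (nat_lit 0) (XT.lf (nat_lit 0) (nat_lit 21512688891) (nat_lit 152) (nat_lit 1128415216) (nat_lit 228) (nat_lit 5350655075) (nat_lit 25) (nat_lit 5) (nat_lit 27) (nat_lit 5) (nat_lit 28) (nat_lit 5) (nat_lit 356) (nat_lit 263) (nat_lit 161)) (XT.lf (nat_lit 0) (nat_lit 2453266943) (nat_lit 76) (nat_lit 24610594555) (nat_lit 152) (nat_lit 1603278011) (nat_lit 24) (nat_lit 5) (nat_lit 25) (nat_lit 5) (nat_lit 26) (nat_lit 4) (nat_lit 357) (nat_lit 263) (nat_lit 160))))) (XT.nd (nat_lit 234) (nat_lit 0) (nat_lit 0) (XT.nd (nat_lit 78) (nat_lit 152) (nat_lit 0) (XT.lf (nat_lit 0) (nat_lit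 2275617165) (nat_lit 152) (nat_lit 17631932434) (nat_lit 76) (nat_lit 9452696778) (nat_lit 23) (nat_lit 5) (nat_lit 25) (nat_lit 5) (nat_lit 24) (nat_lit 5) (nat_lit 358) (nat_lit 263) (nat_lit 159)) (XT.nd (nat_lit 78) (nat_lit 152) (nat_lit 0) (XT.lf (nat_lit 0) (nat_lit 6224949583) (nat_lit 152) (nat_lit 8831700937) (nat_lit 76) (nat_lit 15017440334) (nat_lit 23) (nat_lit 5) (nat_lit 25) (nat_lit 5) (nat_lit 24) (nat_lit 5) (nat_lit 359) (nat_lit 263) (nat_lit 158)) (XT.lf (nat_lit 0) (nat_lit 214101017) (nat_lit 152) (nat_lit 10067412896) (nat_lit 228) (nat_lit 20528183385) (nat_lit 21) (nat_lit 5) (nat_lit 23) (nat_lit 5) (nat_lit 24) (nat_lit 5) (nat_lit 360) (nat_lit 263) (nat_lit 157)))) (XT.nd (nat_lit 78) (nat_lit 0) (nat_lit 0) (XT.lf (nat_lit 0) (nat_lit 9689925582) (nat_lit 152) (nat_lit 4845898630) (nat_lit 228) (nat_lit 17029275175) (nat_lit 21) (nat_lit 5) (nat_lit 23) (nat_lit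 5) (nat_lit 24) (nat_lit 5) (nat_lit 361) (nat_lit 263) (nat_lit 156)) (XT.nd (nat_lit 78) (nat_lit 0) (nat_lit 0) (XT.lf (nat_lit 0) (nat_lit 18910042543) (nat_lit 228) (nat_lit 12920300313) (nat_lit 76) (nat_lit 513060984) (nat_lit 21) (nat_lit 5) (nat_lit 24) (nat_lit 5) (nat_lit 22) (nat_lit 4) (nat_lit 362) (nat_lit 263) (nat_lit 155)) (XT.lf (nat_lit 0) (nat_lit 23451002836) (nat_lit 228) (nat_lit 3766162955) (nat_lit 76) (nat_lit 5926834583) (nat_lit 21) (nat_lit 5) (nat_lit 24) (nat_lit 5) (nat_lit 22) (nat_lit 4) (nat_lit 363) (nat_lit 263) (nat_lit 154)))))) (XT.nd (nat_lit 468) (nat_lit 152) (nat_lit 0) (XT.nd (nat_lit 234) (nat_lit 152) (nat_lit 0) (XT.nd (nat_lit 78) (nat_lit 76) (nat_lit 0) (XT.lf (nat_lit 0) (nat_lit 5754102028) (nat_lit 76) (nat_lit 22417301100) (nat_lit 152) (nat_lit 5795923508) (nat_lit 20) (nat_lit 5) (nat_lit 21) (nat_lit 5) (nat_lit 22) (nat_lit 4) (nat_lit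 364) (nat_lit 263) (nat_lit 153)) (XT.nd (nat_lit 78) (nat_lit 76) (nat_lit 0) (XT.lf (nat_lit 0) (nat_lit 15616601580) (nat_lit 76) (nat_lit 17442898610) (nat_lit 152) (nat_lit 1755077879) (nat_lit 20) (nat_lit 5) (nat_lit 21) (nat_lit 5) (nat_lit 22) (nat_lit 4) (nat_lit 365) (nat_lit 263) (nat_lit 152)) (XT.lf (nat_lit 0) (nat_lit 2348303478) (nat_lit 152) (nat_lit 9955625878) (nat_lit 76) (nat_lit 23382982654) (nat_lit 19) (nat_lit 5) (nat_lit 21) (nat_lit 5) (nat_lit 20) (nat_lit 5) (nat_lit 366) (nat_lit 263) (nat_lit 151)))) (XT.nd (nat_lit 78) (nat_lit 152) (nat_lit 0) (XT.lf (nat_lit 0) (nat_lit 6528131789) (nat_lit 152) (nat_lit 473010361) (nat_lit 76) (nat_lit 29584101139) (nat_lit 19) (nat_lit 5) (nat_lit 21) (nat_lit 5) (nat_lit 20) (nat_lit 5) (nat_lit 367) (nat_lit 263) (nat_lit 150)) (XT.nd (nat_lit 78) (nat_lit 0) (nat_lit 0) (XT.lf (nat_lit 0) (nat_lit 9459617943) (nat_lit 152)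 (nat_lit 1453620912) (nat_lit 228) (nat_lit 26594896176) (nat_lit 17) (nat_lit 5) (nat_lit 19) (nat_lit 5) (nat_lit 20) (nat_lit 5) (nat_lit 368) (nat_lit 263) (nat_lit 149)) (XT.lf (nat_lit 0) (nat_lit 15464691881) (nat_lit 228) (nat_lit 18818776619) (nat_lit 76) (nat_lit 4174208084) (nat_lit 17) (nat_lit 5) (nat_lit 20) (nat_lit 5) (nat_lit 18) (nat_lit 4) (nat_lit 369) (nat_lit 263) (nat_lit 148))))) (XT.nd (nat_lit 234) (nat_lit 76) (nat_lit 0) (XT.nd (nat_lit 78) (nat_lit 76) (nat_lit 0) (XT.lf (nat_lit 0) (nat_lit 20156416819) (nat_lit 228) (nat_lit 9345106687) (nat_lit 76) (nat_lit 9934075666) (nat_lit 17) (nat_lit 5) (nat_lit 20) (nat_lit 5) (nat_lit 18) (nat_lit 4) (nat_lit 370) (nat_lit 263) (nat_lit 147)) (XT.nd (nat_lit 78) (nat_lit 0) (nat_lit 0) (XT.lf (nat_lit 0) (nat_lit 402599937) (nat_lit 76) (nat_lit 24579810242) (nat_lit 152) (nat_lit 15460650205) (nat_lit 16) (nat_lit 5) (nat_lit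 17) (nat_lit 5) (nat_lit 18) (nat_lit 4) (nat_lit 371) (nat_lit 263) (nat_lit 146)) (XT.lf (nat_lit 0) (nat_lit 10616450469) (nat_lit 76) (nat_lit 19420876705) (nat_lit 152) (nat_lit 11440900202) (nat_lit 16) (nat_lit 5) (nat_lit 17) (nat_lit 5) (nat_lit 18) (nat_lit 4) (nat_lit 372) (nat_lit 263) (nat_lit 145)))) (XT.nd (nat_lit 78) (nat_lit 76) (nat_lit 0) (XT.lf (nat_lit 0) (nat_lit 21119383683) (nat_lit 76) (nat_lit 14114582343) (nat_lit 152) (nat_lit 7310787196) (nat_lit 16) (nat_lit 5) (nat_lit 17) (nat_lit 5) (nat_lit 18) (nat_lit 4) (nat_lit 373) (nat_lit 263) (nat_lit 144)) (XT.nd (nat_lit 78) (nat_lit 76) (nat_lit 0) (XT.lf (nat_lit 0) (nat_lit 31920576900) (nat_lit 76) (nat_lit 8656290590) (nat_lit 152) (nat_lit 3066702350) (nat_lit 16) (nat_lit 5) (nat_lit 17) (nat_lit 5) (nat_lit 18) (nat_lit 4) (nat_lit 374) (nat_lit 263) (nat_lit 143)) (XT.lf (nat_lit 0) (nat_lit 1269791420) (nat_lit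 152) (nat_lit 1758618240) (nat_lit 76) (nat_lit 41746854232) (nat_lit 15) (nat_lit 5) (nat_lit 17) (nat_lit 5) (nat_lit 16) (nat_lit 5) (nat_lit 375) (nat_lit 263) (nat_lit 142))))))))
noncomputable def xc119 : XT := (XT.nd (nat_lit 31980) (nat_lit 0) (nat_lit 13832) (XT.nd (nat_lit 936) (nat_lit 152) (nat_lit 0) (XT.nd (nat_lit 468) (nat_lit 152) (nat_lit 0) (XT.nd (nat_lit 234) (nat_lit 76) (nat_lit 0) (XT.nd (nat_lit 78) (nat_lit 0) (nat_lit 0) (XT.lf (nat_lit 0) (nat_lit 5776154093) (nat_lit 228) (nat_lit 37338846692) (nat_lit 76) (nat_lit 2821960124) (nat_lit 13) (nat_lit 5) (nat_lit 16) (nat_lit 5) (nat_lit 14) (nat_lit 4) (nat_lit 376) (nat_lit 263) (nat_lit 141)) (XT.nd (nat_lit 78) (nat_lit 0) (nat_lit 0) (XT.lf (nat_lit 0) (nat_lit 10456496492) (nat_lit 228) (nat_lit 27877641807) (nat_lit 76) (nat_lit 8798212114) (nat_lit 13) (nat_lit 5) (nat_lit 16) (nat_lit 5) (nat_lit 14) (nat_lit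 4) (nat_lit 377) (nat_lit 263) (nat_lit 140)) (XT.lf (nat_lit 0) (nat_lit 15268385249) (nat_lit 228) (nat_lit 18148235964) (nat_lit 76) (nat_lit 14947251394) (nat_lit 13) (nat_lit 5) (nat_lit 16) (nat_lit 5) (nat_lit 14) (nat_lit 4) (nat_lit 378) (nat_lit 263) (nat_lit 139)))) (XT.nd (nat_lit 78) (nat_lit 76) (nat_lit 0) (XT.lf (nat_lit 0) (nat_lit 20216024928) (nat_lit 228) (nat_lit 8142127742) (nat_lit 76) (nat_lit 21274450911) (nat_lit 13) (nat_lit 5) (nat_lit 16) (nat_lit 5) (nat_lit 14) (nat_lit 4) (nat_lit 379) (nat_lit 263) (nat_lit 138)) (XT.nd (nat_lit 78) (nat_lit 0) (nat_lit 0) (XT.lf (nat_lit 0) (nat_lit 2192203854) (nat_lit 76) (nat_lit 23132607658) (nat_lit 152) (nat_lit 25614208236) (nat_lit 12) (nat_lit 5) (nat_lit 13) (nat_lit 5) (nat_lit 14) (nat_lit 4) (nat_lit 380) (nat_lit 263) (nat_lit 137)) (XT.lf (nat_lit 0) (nat_lit 12988877857) (nat_lit 76) (nat_lit 17671951348) (nat_lit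 152) (nat_lit 21621584827) (nat_lit 12) (nat_lit 5) (nat_lit 13) (nat_lit 5) (nat_lit 14) (nat_lit 4) (nat_lit 381) (nat_lit 263) (nat_lit 136))))) (XT.nd (nat_lit 234) (nat_lit 152) (nat_lit 0) (XT.nd (nat_lit 78) (nat_lit 0) (nat_lit 0) (XT.lf (nat_lit 0) (nat_lit 24095283945) (nat_lit 76) (nat_lit 12053631818) (nat_lit 152) (nat_lit 17517439253) (nat_lit 12) (nat_lit 5) (nat_lit 13) (nat_lit 5) (nat_lit 14) (nat_lit 4) (nat_lit 382) (nat_lit 263) (nat_lit 135)) (XT.nd (nat_lit 78) (nat_lit 0) (nat_lit 0) (XT.lf (nat_lit 0) (nat_lit 35521126745) (nat_lit 76) (nat_lit 6272739856) (nat_lit 152) (nat_lit 13298185366) (nat_lit 12) (nat_lit 5) (nat_lit 13) (nat_lit 5) (nat_lit 14) (nat_lit 4) (nat_lit 383) (nat_lit 263) (nat_lit 134)) (XT.lf (nat_lit 0) (nat_lit 47276390004) (nat_lit 76) (nat_lit 324224198) (nat_lit 152) (nat_lit 8960136440) (nat_lit 12) (nat_lit 5) (nat_lit 13) (nat_lit 5) (nat_lit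 14) (nat_lit 4) (nat_lit 384) (nat_lit 263) (nat_lit 133)))) (XT.nd (nat_lit 78) (nat_lit 76) (nat_lit 0) (XT.lf (nat_lit 0) (nat_lit 1266601502) (nat_lit 76) (nat_lit 52375531664) (nat_lit 76) (nat_lit 4429564181) (nat_lit 11) (nat_lit 4) (nat_lit 12) (nat_lit 5) (nat_lit 12) (nat_lit 4) (nat_lit 385) (nat_lit 263) (nat_lit 132)) (XT.nd (nat_lit 78) (nat_lit 0) (nat_lit 0) (XT.lf (nat_lit 0) (nat_lit 322822167) (nat_lit 152) (nat_lit 47320320526) (nat_lit 76) (nat_lit 11982049729) (nat_lit 10) (nat_lit 5) (nat_lit 12) (nat_lit 5) (nat_lit 11) (nat_lit 4) (nat_lit 386) (nat_lit 263) (nat_lit 131)) (XT.lf (nat_lit 0) (nat_lit 5121592925) (nat_lit 152) (nat_lit 37607633407) (nat_lit 76) (nat_lit 18494968813) (nat_lit 10) (nat_lit 5) (nat_lit 12) (nat_lit 5) (nat_lit 11) (nat_lit 4) (nat_lit 387) (nat_lit 263) (nat_lit 130)))))) (XT.nd (nat_lit 468) (nat_lit 76) (nat_lit 0) (XT.nd (nat_lit 234) (nat_lit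 76) (nat_lit 0) (XT.nd (nat_lit 78) (nat_lit 0) (nat_lit 0) (XT.lf (nat_lit 0) (nat_lit 10057377943) (nat_lit 152) (nat_lit 27615967993) (nat_lit 76) (nat_lit 25198034155) (nat_lit 10) (nat_lit 5) (nat_lit 12) (nat_lit 5) (nat_lit 11) (nat_lit 4) (nat_lit 388) (nat_lit 263) (nat_lit 129)) (XT.nd (nat_lit 78) (nat_lit 0) (nat_lit 0) (XT.lf (nat_lit 0) (nat_lit 15134490044) (nat_lit 152) (nat_lit 17336593703) (nat_lit 76) (nat_lit 32097102801) (nat_lit 10) (nat_lit 5) (nat_lit 12) (nat_lit 5) (nat_lit 11) (nat_lit 4) (nat_lit 389) (nat_lit 263) (nat_lit 128)) (XT.lf (nat_lit 0) (nat_lit 20357365539) (nat_lit 152) (nat_lit 6760528559) (nat_lit 76) (nat_lit 39198203065) (nat_lit 10) (nat_lit 5) (nat_lit 12) (nat_lit 5) (nat_lit 11) (nat_lit 4) (nat_lit 390) (nat_lit 263) (nat_lit 127)))) (XT.nd (nat_lit 78) (nat_lit 0) (nat_lit 0) (XT.lf (nat_lit 0) (nat_lit 4203493967) (nat_lit 76) (nat_lit 21567480694)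 (nat_lit 152) (nat_lit 42344452378) (nat_lit 9) (nat_lit 5) (nat_lit 10) (nat_lit 5) (nat_lit 11) (nat_lit 4) (nat_lit 391) (nat_lit 263) (nat_lit 126)) (XT.nd (nat_lit 78) (nat_lit 0) (nat_lit 0) (XT.lf (nat_lit 0) (nat_lit 15623782773) (nat_lit 76) (nat_lit 15785195362) (nat_lit 152) (nat_lit 38557902363) (nat_lit 9) (nat_lit 5) (nat_lit 10) (nat_lit 5) (nat_lit 11) (nat_lit 4) (nat_lit 392) (nat_lit 263) (nat_lit 125)) (XT.lf (nat_lit 0) (nat_lit 27375768975) (nat_lit 76) (nat_lit 9834253702) (nat_lit 152) (nat_lit 34664041024) (nat_lit 9) (nat_lit 5) (nat_lit 10) (nat_lit 5) (nat_lit 11) (nat_lit 4) (nat_lit 393) (nat_lit 263) (nat_lit 124))))) (XT.nd (nat_lit 234) (nat_lit 76) (nat_lit 0) (XT.nd (nat_lit 78) (nat_lit 0) (nat_lit 0) (XT.lf (nat_lit 0) (nat_lit 39469721300) (nat_lit 76) (nat_lit 3709455862) (nat_lit 152) (nat_lit 30659465958) (nat_lit 9) (nat_lit 5) (nat_lit 10) (nat_lit 5)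 (nat_lit 11) (nat_lit 4) (nat_lit 394) (nat_lit 263) (nat_lit 123)) (XT.nd (nat_lit 78) (nat_lit 0) (nat_lit 0) (XT.lf (nat_lit 0) (nat_lit 49346597757) (nat_lit 152) (nat_lit 23971068501) (nat_lit 0) (nat_lit 2543920908) (nat_lit 9) (nat_lit 5) (nat_lit 11) (nat_lit 4) (nat_lit 9) (nat_lit 4) (nat_lit 395) (nat_lit 263) (nat_lit 122)) (XT.lf (nat_lit 0) (nat_lit 55730144442) (nat_lit 152) (nat_lit 13308120237) (nat_lit 0) (nat_lit 8906024653) (nat_lit 9) (nat_lit 5) (nat_lit 11) (nat_lit 4) (nat_lit 9) (nat_lit 4) (nat_lit 396) (nat_lit 263) (nat_lit 121)))) (XT.nd (nat_lit 78) (nat_lit 76) (nat_lit 0) (XT.lf (nat_lit 0) (nat_lit 62299737515) (nat_lit 152) (nat_lit 2335102330) (nat_lit 0) (nat_lit 15454799337) (nat_lit 9) (nat_lit 5) (nat_lit 11) (nat_lit 4) (nat_lit 9) (nat_lit 4) (nat_lit 397) (nat_lit 263) (nat_lit 120)) (XT.nd (nat_lit 30186) (nat_lit 0) (nat_lit 20672) (XT.lf (nat_lit 0)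 (nat_lit 9135846565) (nat_lit 76) (nat_lit 60013090175) (nat_lit 76) (nat_lit 13147939970) (nat_lit 8) (nat_lit 4) (nat_lit 9) (nat_lit 5) (nat_lit 9) (nat_lit 4) (nat_lit 398) (nat_lit 263) (nat_lit 119)) (XT.lf (nat_lit 0) (nat_lit 944928898) (nat_lit 380) (nat_lit 1155779728) (nat_lit 380) (nat_lit 1155779728) (nat_lit 280) (nat_lit 3) (nat_lit 285) (nat_lit 3) (nat_lit 285) (nat_lit 5) (nat_lit 264) (nat_lit 264) (nat_lit 252))))))) (XT.nd (nat_lit 936) (nat_lit 4940) (nat_lit 0) (XT.nd (nat_lit 468) (nat_lit 1064) (nat_lit 0) (XT.nd (nat_lit 234) (nat_lit 456) (nat_lit 0) (XT.nd (nat_lit 78) (nat_lit 380) (nat_lit 0) (XT.lf (nat_lit 76) (nat_lit 625401871) (nat_lit 0) (nat_lit 3677782102) (nat_lit 380) (nat_lit 2229092350) (nat_lit 281) (nat_lit 5) (nat_lit 280) (nat_lit 3) (nat_lit 285) (nat_lit 5) (nat_lit 265) (nat_lit 264) (nat_lit 251)) (XT.nd (nat_lit 78) (nat_lit 0) (nat_lit 0) (XT.lf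 (nat_lit 0) (nat_lit 161208041) (nat_lit 380) (nat_lit 2907147715) (nat_lit 456) (nat_lit 3486118092) (nat_lit 275) (nat_lit 5) (nat_lit 280) (nat_lit 3) (nat_lit 281) (nat_lit 5) (nat_lit 266) (nat_lit 264) (nat_lit 250)) (XT.lf (nat_lit 76) (nat_lit 113152444) (nat_lit 0) (nat_lit 2374602221) (nat_lit 456) (nat_lit 4091892164) (nat_lit 276) (nat_lit 5) (nat_lit 275) (nat_lit 5) (nat_lit 281) (nat_lit 5) (nat_lit 267) (nat_lit 264) (nat_lit 249)))) (XT.nd (nat_lit 78) (nat_lit 456) (nat_lit 0) (XT.lf (nat_lit 76) (nat_lit 3234584964) (nat_lit 0) (nat_lit 1589321874) (nat_lit 456) (nat_lit 1783718385) (nat_lit 276) (nat_lit 5) (nat_lit 275) (nat_lit 5) (nat_lit 281) (nat_lit 5) (nat_lit 268) (nat_lit 264) (nat_lit 248)) (XT.nd (nat_lit 78) (nat_lit 0) (nat_lit 76) (XT.lf (nat_lit 0) (nat_lit 494082674) (nat_lit 456) (nat_lit 242113099) (nat_lit 532) (nat_lit 5902947428) (nat_lit 269) (nat_lit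 5) (nat_lit 275) (nat_lit 5) (nat_lit 276) (nat_lit 5) (nat_lit 269) (nat_lit 264) (nat_lit 247)) (XT.lf (nat_lit 0) (nat_lit 2749681729) (nat_lit 456) (nat_lit 3700238122) (nat_lit 532) (nat_lit 223021350) (nat_lit 270) (nat_lit 5) (nat_lit 276) (nat_lit 5) (nat_lit 277) (nat_lit 5) (nat_lit 270) (nat_lit 264) (nat_lit 246))))) (XT.nd (nat_lit 234) (nat_lit 608) (nat_lit 0) (XT.nd (nat_lit 78) (nat_lit 532) (nat_lit 0) (XT.lf (nat_lit 0) (nat_lit 4999612538) (nat_lit 456) (nat_lit 476835981) (nat_lit 532) (nat_lit 1233721942) (nat_lit 270) (nat_lit 5) (nat_lit 276) (nat_lit 5) (nat_lit 277) (nat_lit 5) (nat_lit 271) (nat_lit 264) (nat_lit 245)) (XT.nd (nat_lit 78) (nat_lit 0) (nat_lit 0) (XT.lf (nat_lit 0) (nat_lit 503414170) (nat_lit 532) (nat_lit 3905678561) (nat_lit 608) (nat_lit 2341085174) (nat_lit 263) (nat_lit 5) (nat_lit 270) (nat_lit 5) (nat_lit 271) (nat_lit 5) (nat_lit 272) (nat_lit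 264) (nat_lit 244)) (XT.lf (nat_lit 0) (nat_lit 2674513216) (nat_lit 532) (nat_lit 583569839) (nat_lit 608) (nat_lit 3535240581) (nat_lit 263) (nat_lit 5) (nat_lit 270) (nat_lit 5) (nat_lit 271) (nat_lit 5) (nat_lit 273) (nat_lit 264) (nat_lit 243)))) (XT.nd (nat_lit 78) (nat_lit 608) (nat_lit 0) (XT.lf (nat_lit 76) (nat_lit 2844589723) (nat_lit 0) (nat_lit 2016048499) (nat_lit 608) (nat_lit 1978821733) (nat_lit 264) (nat_lit 5) (nat_lit 263) (nat_lit 5) (nat_lit 271) (nat_lit 5) (nat_lit 274) (nat_lit 264) (nat_lit 242)) (XT.nd (nat_lit 78) (nat_lit 0) (nat_lit 76) (XT.lf (nat_lit 0) (nat_lit 150324650) (nat_lit 608) (nat_lit 551816969) (nat_lit 684) (nat_lit 6187075012) (nat_lit 255) (nat_lit 5) (nat_lit 263) (nat_lit 5) (nat_lit 264) (nat_lit 5) (nat_lit 275) (nat_lit 264) (nat_lit 241)) (XT.lf (nat_lit 0) (nat_lit 2264877887) (nat_lit 608) (nat_lit 3964116891) (nat_lit 76) (nat_lit 712220944)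 (nat_lit 256) (nat_lit 5) (nat_lit 264) (nat_lit 5) (nat_lit 257) (nat_lit 5) (nat_lit 276) (nat_lit 264) (nat_lit 240)))))) (XT.nd (nat_lit 468) (nat_lit 2812) (nat_lit 0) (XT.nd (nat_lit 234) (nat_lit 1520) (nat_lit 0) (XT.nd (nat_lit 78) (nat_lit 684) (nat_lit 0) (XT.lf (nat_lit 0) (nat_lit 4383016442) (nat_lit 608) (nat_lit 429405305) (nat_lit 76) (nat_lit 2184320064) (nat_lit 256) (nat_lit 5) (nat_lit 264) (nat_lit 5) (nat_lit 257) (nat_lit 5) (nat_lit 277) (nat_lit 264) (nat_lit 239)) (XT.nd (nat_lit 78) (nat_lit 76) (nat_lit 0) (XT.lf (nat_lit 0) (nat_lit 3224775159) (nat_lit 608) (nat_lit 3300601516) (nat_lit 684) (nat_lit 529903170) (nat_lit 248) (nat_lit 5) (nat_lit 256) (nat_lit 5) (nat_lit 257) (nat_lit 5) (nat_lit 278) (nat_lit 264) (nat_lit 238)) (XT.lf (nat_lit 0) (nat_lit 1519687257) (nat_lit 684) (nat_lit 184197525) (nat_lit 76) (nat_lit 5413336147) (nat_lit 247) (nat_lit 5) (nat_lit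 256) (nat_lit 5) (nat_lit 248) (nat_lit 5) (nat_lit 279) (nat_lit 264) (nat_lit 237)))) (XT.nd (nat_lit 78) (nat_lit 836) (nat_lit 0) (XT.lf (nat_lit 0) (nat_lit 3587041749) (nat_lit 760) (nat_lit 3594841250) (nat_lit 76) (nat_lit 124406) (nat_lit 238) (nat_lit 5) (nat_lit 248) (nat_lit 5) (nat_lit 239) (nat_lit 5) (nat_lit 280) (nat_lit 264) (nat_lit 236)) (XT.nd (nat_lit 78) (nat_lit 76) (nat_lit 0) (XT.lf (nat_lit 0) (nat_lit 162140731) (nat_lit 760) (nat_lit 5508695194) (nat_lit 836) (nat_lit 1579416904) (nat_lit 228) (nat_lit 5) (nat_lit 238) (nat_lit 5) (nat_lit 239) (nat_lit 5) (nat_lit 281) (nat_lit 264) (nat_lit 235)) (XT.lf (nat_lit 0) (nat_lit 458335631) (nat_lit 836) (nat_lit 3270904986) (nat_lit 76) (nat_lit 3592158389) (nat_lit 227) (nat_lit 5) (nat_lit 238) (nat_lit 5) (nat_lit 228) (nat_lit 5) (nat_lit 282) (nat_lit 264) (nat_lit 234))))) (XT.nd (nat_lit 234) (nat_lit 1064) (nat_lit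 0) (XT.nd (nat_lit 78) (nat_lit 912) (nat_lit 0) (XT.lf (nat_lit 0) (nat_lit 606690855) (nat_lit 836) (nat_lit 1861284511) (nat_lit 912) (nat_lit 4928095461) (nat_lit 216) (nat_lit 5) (nat_lit 227) (nat_lit 5) (nat_lit 228) (nat_lit 5) (nat_lit 283) (nat_lit 264) (nat_lit 233)) (XT.nd (nat_lit 78) (nat_lit 912) (nat_lit 0) (XT.lf (nat_lit 0) (nat_lit 4510013527) (nat_lit 912) (nat_lit 2857198889) (nat_lit 76) (nat_lit 106738539) (nat_lit 216) (nat_lit 5) (nat_lit 228) (nat_lit 5) (nat_lit 217) (nat_lit 5) (nat_lit 284) (nat_lit 264) (nat_lit 232)) (XT.lf (nat_lit 0) (nat_lit 1146461477) (nat_lit 912) (nat_lit 5436251538) (nat_lit 988) (nat_lit 972500068) (nat_lit 204) (nat_lit 5) (nat_lit 216) (nat_lit 5) (nat_lit 217) (nat_lit 5) (nat_lit 285) (nat_lit 264) (nat_lit 231)))) (XT.nd (nat_lit 78) (nat_lit 988) (nat_lit 0) (XT.lf (nat_lit 0) (nat_lit 1027285925) (nat_lit 988) (nat_lit 2371139570)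 (nat_lit 76) (nat_lit 4241207154) (nat_lit 203) (nat_lit 5) (nat_lit 216) (nat_lit 5) (nat_lit 204) (nat_lit 5) (nat_lit 286) (nat_lit 264) (nat_lit 230)) (XT.nd (nat_lit 78) (nat_lit 0) (nat_lit 0) (XT.lf (nat_lit 0) (nat_lit 1762620696) (nat_lit 988) (nat_lit 1264091106) (nat_lit 1064) (nat_lit 4700925132) (nat_lit 190) (nat_lit 5) (nat_lit 203) (nat_lit 5) (nat_lit 204) (nat_lit 5) (nat_lit 287) (nat_lit 264) (nat_lit 229)) (XT.lf (nat_lit 0) (nat_lit 5062809967) (nat_lit 1064) (nat_lit 1808919537) (nat_lit 76) (nat_lit 947364532) (nat_lit 190) (nat_lit 5) (nat_lit 204) (nat_lit 5) (nat_lit 191) (nat_lit 5) (nat_lit 288) (nat_lit 264) (nat_lit 228))))))))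
noncomputable def xc120 : XT := (XT.nd (nat_lit 1794) (nat_lit 3420) (nat_lit 0) (XT.nd (nat_lit 858) (nat_lit 2964) (nat_lit 0) (XT.nd (nat_lit 390) (nat_lit 1824) (nat_lit 0) (XT.nd (nat_lit 156) (nat_lit 1672) (nat_lit 0) (XT.nd (nat_lit 78) (nat_lit 76) (nat_lit 0) (XT.lf (nat_lit 0) (nat_lit 2457653008) (nat_lit 1064) (nat_lit 4683650882) (nat_lit 1140) (nat_lit 772661646) (nat_lit 176) (nat_lit 5) (nat_lit 190) (nat_lit 5) (nat_lit 191) (nat_lit 5) (nat_lit 289) (nat_lit 264) (nat_lit 227)) (XT.lf (nat_lit 0) (nat_lit 1209785854) (nat_lit 1140) (nat_lit 1184572192) (nat_lit 76) (nat_lit 5618139275) (nat_lit 175) (nat_lit 5) (nat_lit 190) (nat_lit 5) (nat_lit 176) (nat_lit 5) (nat_lit 290) (nat_lit 264) (nat_lit 226))) (XT.nd (nat_lit 78) (nat_lit 532) (nat_lit 0) (XT.lf (nat_lit 0) (nat_lit 3214458566) (nat_lit 1216) (nat_lit 4892924447) (nat_lit 76) (nat_lit 7124827) (nat_lit 160) (nat_lit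 5) (nat_lit 176) (nat_lit 5) (nat_lit 161) (nat_lit 5) (nat_lit 291) (nat_lit 264) (nat_lit 225)) (XT.nd (nat_lit 78) (nat_lit 532) (nat_lit 0) (XT.lf (nat_lit 0) (nat_lit 5263404319) (nat_lit 1216) (nat_lit 508920250) (nat_lit 76) (nat_lit 2447827915) (nat_lit 160) (nat_lit 5) (nat_lit 176) (nat_lit 5) (nat_lit 161) (nat_lit 5) (nat_lit 292) (nat_lit 264) (nat_lit 224)) (XT.lf (nat_lit 0) (nat_lit 4036752647) (nat_lit 532) (nat_lit 3325720068) (nat_lit 608) (nat_lit 966929070) (nat_lit 153) (nat_lit 5) (nat_lit 160) (nat_lit 5) (nat_lit 161) (nat_lit 5) (nat_lit 293) (nat_lit 264) (nat_lit 223))))) (XT.nd (nat_lit 234) (nat_lit 608) (nat_lit 0) (XT.nd (nat_lit 78) (nat_lit 532) (nat_lit 0) (XT.lf (nat_lit 0) (nat_lit 232303937) (nat_lit 608) (nat_lit 786849918) (nat_lit 684) (nat_lit 7423821183) (nat_lit 144) (nat_lit 5) (nat_lit 152) (nat_lit 5) (nat_lit 153) (nat_lit 5) (nat_lit 294) (nat_lit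 264) (nat_lit 222)) (XT.nd (nat_lit 78) (nat_lit 532) (nat_lit 0) (XT.lf (nat_lit 0) (nat_lit 3057986393) (nat_lit 684) (nat_lit 3655523060) (nat_lit 76) (nat_lit 1845867676) (nat_lit 144) (nat_lit 5) (nat_lit 153) (nat_lit 5) (nat_lit 145) (nat_lit 5) (nat_lit 295) (nat_lit 264) (nat_lit 221)) (XT.lf (nat_lit 0) (nat_lit 999158522) (nat_lit 532) (nat_lit 4128891638) (nat_lit 608) (nat_lit 3552203492) (nat_lit 137) (nat_lit 5) (nat_lit 144) (nat_lit 5) (nat_lit 145) (nat_lit 5) (nat_lit 296) (nat_lit 264) (nat_lit 220)))) (XT.nd (nat_lit 78) (nat_lit 608) (nat_lit 0) (XT.lf (nat_lit 0) (nat_lit 5820066405) (nat_lit 532) (nat_lit 1430647944) (nat_lit 608) (nat_lit 1554409071) (nat_lit 137) (nat_lit 5) (nat_lit 144) (nat_lit 5) (nat_lit 145) (nat_lit 5) (nat_lit 297) (nat_lit 264) (nat_lit 219)) (XT.nd (nat_lit 78) (nat_lit 0) (nat_lit 0) (XT.lf (nat_lit 0) (nat_lit 478711577) (nat_lit 608) (nat_lit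 7112768320) (nat_lit 76) (nat_lit 1342635019) (nat_lit 129) (nat_lit 5) (nat_lit 137) (nat_lit 5) (nat_lit 130) (nat_lit 5) (nat_lit 298) (nat_lit 264) (nat_lit 218)) (XT.lf (nat_lit 0) (nat_lit 2541448203) (nat_lit 608) (nat_lit 2311637552) (nat_lit 76) (nat_lit 4213507715) (nat_lit 129) (nat_lit 5) (nat_lit 137) (nat_lit 5) (nat_lit 130) (nat_lit 5) (nat_lit 299) (nat_lit 264) (nat_lit 217)))))) (XT.nd (nat_lit 468) (nat_lit 1596) (nat_lit 0) (XT.nd (nat_lit 234) (nat_lit 456) (nat_lit 0) (XT.nd (nat_lit 78) (nat_lit 456) (nat_lit 0) (XT.lf (nat_lit 0) (nat_lit 2637573080) (nat_lit 456) (nat_lit 2010408917) (nat_lit 532) (nat_lit 4555679700) (nat_lit 123) (nat_lit 5) (nat_lit 129) (nat_lit 5) (nat_lit 130) (nat_lit 5) (nat_lit 300) (nat_lit 264) (nat_lit 216)) (XT.nd (nat_lit 78) (nat_lit 456) (nat_lit 0) (XT.lf (nat_lit 0) (nat_lit 6807439247) (nat_lit 532) (nat_lit 1618811933) (nat_lit 76)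 (nat_lit 918969617) (nat_lit 123) (nat_lit 5) (nat_lit 130) (nat_lit 5) (nat_lit 124) (nat_lit 5) (nat_lit 301) (nat_lit 264) (nat_lit 215)) (XT.lf (nat_lit 0) (nat_lit 3477986409) (nat_lit 456) (nat_lit 5565607378) (nat_lit 532) (nat_lit 447144068) (nat_lit 117) (nat_lit 5) (nat_lit 123) (nat_lit 5) (nat_lit 124) (nat_lit 5) (nat_lit 302) (nat_lit 264) (nat_lit 214)))) (XT.nd (nat_lit 78) (nat_lit 380) (nat_lit 0) (XT.lf (nat_lit 0) (nat_lit 1648295457) (nat_lit 532) (nat_lit 943103755) (nat_lit 76) (nat_lit 7049532515) (nat_lit 116) (nat_lit 5) (nat_lit 123) (nat_lit 5) (nat_lit 117) (nat_lit 5) (nat_lit 303) (nat_lit 264) (nat_lit 213)) (XT.nd (nat_lit 78) (nat_lit 0) (nat_lit 0) (XT.lf (nat_lit 0) (nat_lit 3804065877) (nat_lit 456) (nat_lit 5487998741) (nat_lit 76) (nat_lit 503303106) (nat_lit 111) (nat_lit 5) (nat_lit 117) (nat_lit 5) (nat_lit 112) (nat_lit 5) (nat_lit 304) (nat_lit 264)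 (nat_lit 212)) (XT.lf (nat_lit 0) (nat_lit 6020517302) (nat_lit 456) (nat_lit 291847526) (nat_lit 76) (nat_lit 3642252680) (nat_lit 111) (nat_lit 5) (nat_lit 117) (nat_lit 5) (nat_lit 112) (nat_lit 5) (nat_lit 305) (nat_lit 264) (nat_lit 211))))) (XT.nd (nat_lit 234) (nat_lit 684) (nat_lit 0) (XT.nd (nat_lit 78) (nat_lit 456) (nat_lit 0) (XT.lf (nat_lit 0) (nat_lit 5114719754) (nat_lit 456) (nat_lit 3199784721) (nat_lit 532) (nat_lit 1803868212) (nat_lit 105) (nat_lit 5) (nat_lit 111) (nat_lit 5) (nat_lit 112) (nat_lit 5) (nat_lit 306) (nat_lit 264) (nat_lit 210)) (XT.nd (nat_lit 78) (nat_lit 0) (nat_lit 0) (XT.lf (nat_lit 0) (nat_lit 351307442) (nat_lit 456) (nat_lit 9927891890) (nat_lit 76) (nat_lit 8724847) (nat_lit 99) (nat_lit 5) (nat_lit 105) (nat_lit 5) (nat_lit 100) (nat_lit 5) (nat_lit 307) (nat_lit 264) (nat_lit 209)) (XT.lf (nat_lit 0) (nat_lit 2580311384) (nat_lit 456) (nat_lit 4570176381)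 (nat_lit 76) (nat_lit 3310229926) (nat_lit 99) (nat_lit 5) (nat_lit 105) (nat_lit 5) (nat_lit 100) (nat_lit 5) (nat_lit 308) (nat_lit 264) (nat_lit 208)))) (XT.nd (nat_lit 78) (nat_lit 304) (nat_lit 0) (XT.lf (nat_lit 0) (nat_lit 921310187) (nat_lit 380) (nat_lit 3927537856) (nat_lit 456) (nat_lit 5790719655) (nat_lit 94) (nat_lit 5) (nat_lit 99) (nat_lit 5) (nat_lit 100) (nat_lit 5) (nat_lit 309) (nat_lit 264) (nat_lit 207)) (XT.nd (nat_lit 78) (nat_lit 304) (nat_lit 0) (XT.lf (nat_lit 0) (nat_lit 6626727576) (nat_lit 380) (nat_lit 569295891) (nat_lit 456) (nat_lit 3627493299) (nat_lit 94) (nat_lit 5) (nat_lit 99) (nat_lit 5) (nat_lit 100) (nat_lit 5) (nat_lit 310) (nat_lit 264) (nat_lit 206)) (XT.lf (nat_lit 0) (nat_lit 1446569461) (nat_lit 304) (nat_lit 8174112937) (nat_lit 380) (nat_lit 1392139413) (nat_lit 90) (nat_lit 5) (nat_lit 94) (nat_lit 5) (nat_lit 95) (nat_lit 5) (nat_lit 311) (nat_lit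 264) (nat_lit 205))))))) (XT.nd (nat_lit 936) (nat_lit 1368) (nat_lit 0) (XT.nd (nat_lit 468) (nat_lit 912) (nat_lit 0) (XT.nd (nat_lit 234) (nat_lit 684) (nat_lit 0) (XT.nd (nat_lit 78) (nat_lit 380) (nat_lit 0) (XT.lf (nat_lit 0) (nat_lit 906536677) (nat_lit 380) (nat_lit 3920584184) (nat_lit 76) (nat_lit 6380048620) (nat_lit 89) (nat_lit 5) (nat_lit 94) (nat_lit 5) (nat_lit 90) (nat_lit 5) (nat_lit 312) (nat_lit 264) (nat_lit 204)) (XT.nd (nat_lit 78) (nat_lit 0) (nat_lit 0) (XT.lf (nat_lit 0) (nat_lit 1874033609) (nat_lit 380) (nat_lit 1356764244) (nat_lit 456) (nat_lit 8176643405) (nat_lit 84) (nat_lit 5) (nat_lit 89) (nat_lit 5) (nat_lit 90) (nat_lit 5) (nat_lit 313) (nat_lit 264) (nat_lit 203)) (XT.lf (nat_lit 0) (nat_lit 5653144370) (nat_lit 456) (nat_lit 3755101665) (nat_lit 76) (nat_lit 2204668456) (nat_lit 84) (nat_lit 5) (nat_lit 90) (nat_lit 5) (nat_lit 85) (nat_lit 5) (nat_lit 314)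 (nat_lit 264) (nat_lit 202)))) (XT.nd (nat_lit 78) (nat_lit 380) (nat_lit 0) (XT.lf (nat_lit 0) (nat_lit 2183280801) (nat_lit 304) (nat_lit 5967317703) (nat_lit 380) (nat_lit 3673923043) (nat_lit 80) (nat_lit 5) (nat_lit 84) (nat_lit 5) (nat_lit 85) (nat_lit 5) (nat_lit 315) (nat_lit 264) (nat_lit 201)) (XT.nd (nat_lit 78) (nat_lit 380) (nat_lit 0) (XT.lf (nat_lit 0) (nat_lit 8334763695) (nat_lit 304) (nat_lit 2394676174) (nat_lit 380) (nat_lit 1312884537) (nat_lit 80) (nat_lit 5) (nat_lit 84) (nat_lit 5) (nat_lit 85) (nat_lit 5) (nat_lit 316) (nat_lit 264) (nat_lit 200)) (XT.lf (nat_lit 0) (nat_lit 1101913185) (nat_lit 380) (nat_lit 9880474681) (nat_lit 76) (nat_lit 1283847007) (nat_lit 75) (nat_lit 5) (nat_lit 80) (nat_lit 5) (nat_lit 76) (nat_lit 5) (nat_lit 317) (nat_lit 264) (nat_lit 199))))) (XT.nd (nat_lit 234) (nat_lit 608) (nat_lit 0) (XT.nd (nat_lit 78) (nat_lit 304) (nat_lit 0) (XT.lf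 (nat_lit 0) (nat_lit 3593807604) (nat_lit 380) (nat_lit 3836833412) (nat_lit 76) (nat_lit 5064938436) (nat_lit 75) (nat_lit 5) (nat_lit 80) (nat_lit 5) (nat_lit 76) (nat_lit 5) (nat_lit 318) (nat_lit 264) (nat_lit 198)) (XT.nd (nat_lit 78) (nat_lit 0) (nat_lit 0) (XT.lf (nat_lit 0) (nat_lit 2394159252) (nat_lit 304) (nat_lit 3759722466) (nat_lit 380) (nat_lit 6578156836) (nat_lit 71) (nat_lit 5) (nat_lit 75) (nat_lit 5) (nat_lit 76) (nat_lit 5) (nat_lit 319) (nat_lit 264) (nat_lit 197)) (XT.lf (nat_lit 0) (nat_lit 8800867294) (nat_lit 380) (nat_lit 4125364389) (nat_lit 76) (nat_lit 49092267) (nat_lit 71) (nat_lit 5) (nat_lit 76) (nat_lit 5) (nat_lit 72) (nat_lit 5) (nat_lit 320) (nat_lit 264) (nat_lit 196)))) (XT.nd (nat_lit 78) (nat_lit 304) (nat_lit 0) (XT.lf (nat_lit 0) (nat_lit 2240130783) (nat_lit 304) (nat_lit 9317517473) (nat_lit 380) (nat_lit 1667382830) (nat_lit 67) (nat_lit 5) (nat_lit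 71) (nat_lit 5) (nat_lit 72) (nat_lit 5) (nat_lit 321) (nat_lit 264) (nat_lit 195)) (XT.nd (nat_lit 78) (nat_lit 228) (nat_lit 0) (XT.lf (nat_lit 0) (nat_lit 910885225) (nat_lit 380) (nat_lit 4649116947) (nat_lit 76) (nat_lit 7921581135) (nat_lit 66) (nat_lit 5) (nat_lit 71) (nat_lit 5) (nat_lit 67) (nat_lit 5) (nat_lit 322) (nat_lit 264) (nat_lit 194)) (XT.lf (nat_lit 0) (nat_lit 1857559503) (nat_lit 228) (nat_lit 1665871991) (nat_lit 304) (nat_lit 10222223857) (nat_lit 63) (nat_lit 5) (nat_lit 66) (nat_lit 5) (nat_lit 67) (nat_lit 5) (nat_lit 323) (nat_lit 264) (nat_lit 193)))))) (XT.nd (nat_lit 468) (nat_lit 760) (nat_lit 0) (XT.nd (nat_lit 234) (nat_lit 304) (nat_lit 0) (XT.nd (nat_lit 78) (nat_lit 304) (nat_lit 0) (XT.lf (nat_lit 0) (nat_lit 6257212159) (nat_lit 304) (nat_lit 5423776906) (nat_lit 76) (nat_lit 2335405630) (nat_lit 63) (nat_lit 5) (nat_lit 67) (nat_lit 5) (nat_lit 64) (nat_lit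 5) (nat_lit 324) (nat_lit 264) (nat_lit 192)) (XT.nd (nat_lit 78) (nat_lit 0) (nat_lit 0) (XT.lf (nat_lit 0) (nat_lit 1203335781) (nat_lit 304) (nat_lit 7871424508) (nat_lit 380) (nat_lit 5220473288) (nat_lit 59) (nat_lit 5) (nat_lit 63) (nat_lit 5) (nat_lit 64) (nat_lit 5) (nat_lit 325) (nat_lit 264) (nat_lit 191)) (XT.lf (nat_lit 0) (nat_lit 8102694261) (nat_lit 304) (nat_lit 3903006528) (nat_lit 380) (nat_lit 2575899967) (nat_lit 59) (nat_lit 5) (nat_lit 63) (nat_lit 5) (nat_lit 64) (nat_lit 5) (nat_lit 326) (nat_lit 264) (nat_lit 190)))) (XT.nd (nat_lit 78) (nat_lit 0) (nat_lit 0) (XT.lf (nat_lit 0) (nat_lit 124280341) (nat_lit 304) (nat_lit 14579206136) (nat_lit 76) (nat_lit 173682484) (nat_lit 55) (nat_lit 5) (nat_lit 59) (nat_lit 5) (nat_lit 56) (nat_lit 5) (nat_lit 327) (nat_lit 264) (nat_lit 189)) (XT.nd (nat_lit 78) (nat_lit 0) (nat_lit 0) (XT.lf (nat_lit 0) (nat_lit 2933256238) (nat_lit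 304) (nat_lit 7870971065) (nat_lit 76) (nat_lit 4374251532) (nat_lit 55) (nat_lit 5) (nat_lit 59) (nat_lit 5) (nat_lit 56) (nat_lit 5) (nat_lit 328) (nat_lit 264) (nat_lit 188)) (XT.lf (nat_lit 0) (nat_lit 5802081579) (nat_lit 304) (nat_lit 997880865) (nat_lit 76) (nat_lit 8689624016) (nat_lit 55) (nat_lit 5) (nat_lit 59) (nat_lit 5) (nat_lit 56) (nat_lit 5) (nat_lit 329) (nat_lit 264) (nat_lit 187))))) (XT.nd (nat_lit 234) (nat_lit 304) (nat_lit 0) (XT.nd (nat_lit 78) (nat_lit 228) (nat_lit 0) (XT.lf (nat_lit 0) (nat_lit 6166398723) (nat_lit 228) (nat_lit 2626139578) (nat_lit 304) (nat_lit 7016447124) (nat_lit 52) (nat_lit 5) (nat_lit 55) (nat_lit 5) (nat_lit 56) (nat_lit 5) (nat_lit 330) (nat_lit 264) (nat_lit 186)) (XT.nd (nat_lit 78) (nat_lit 228) (nat_lit 0) (XT.lf (nat_lit 0) (nat_lit 11875499908) (nat_lit 304) (nat_lit 2623381240) (nat_lit 76) (nat_lit 1639025849) (nat_lit 52) (nat_lit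 5) (nat_lit 56) (nat_lit 5) (nat_lit 53) (nat_lit 5) (nat_lit 331) (nat_lit 264) (nat_lit 185)) (XT.lf (nat_lit 0) (nat_lit 4636308158) (nat_lit 228) (nat_lit 10462427954) (nat_lit 304) (nat_lit 1376550201) (nat_lit 49) (nat_lit 5) (nat_lit 52) (nat_lit 5) (nat_lit 53) (nat_lit 5) (nat_lit 332) (nat_lit 264) (nat_lit 184)))) (XT.nd (nat_lit 78) (nat_lit 228) (nat_lit 0) (XT.lf (nat_lit 0) (nat_lit 1568801423) (nat_lit 304) (nat_lit 4704727193) (nat_lit 76) (nat_lit 10548698667) (nat_lit 48) (nat_lit 5) (nat_lit 52) (nat_lit 5) (nat_lit 49) (nat_lit 5) (nat_lit 333) (nat_lit 264) (nat_lit 183)) (XT.nd (nat_lit 78) (nat_lit 0) (nat_lit 0) (XT.lf (nat_lit 0) (nat_lit 2647905846) (nat_lit 228) (nat_lit 1930361851) (nat_lit 304) (nat_lit 12600818925) (nat_lit 45) (nat_lit 5) (nat_lit 48) (nat_lit 5) (nat_lit 49) (nat_lit 5) (nat_lit 334) (nat_lit 264) (nat_lit 182)) (XT.lf (nat_lit 0) (nat_lit 7728619922)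 (nat_lit 304) (nat_lit 7286499100) (nat_lit 76) (nat_lit 2530035688) (nat_lit 45) (nat_lit 5) (nat_lit 49) (nat_lit 5) (nat_lit 46) (nat_lit 5) (nat_lit 335) (nat_lit 264) (nat_lit 181))))))))
noncomputable def xc121 : XT := (XT.nd (nat_lit 1794) (nat_lit 912) (nat_lit 0) (XT.nd (nat_lit 858) (nat_lit 760) (nat_lit 0) (XT.nd (nat_lit 390) (nat_lit 380) (nat_lit 0) (XT.nd (nat_lit 156) (nat_lit 304) (nat_lit 0) (XT.nd (nat_lit 78) (nat_lit 0) (nat_lit 0) (XT.lf (nat_lit 0) (nat_lit 125939351) (nat_lit 152) (nat_lit 10846679306) (nat_lit 228) (nat_lit 6949632521) (nat_lit 43) (nat_lit 5) (nat_lit 45) (nat_lit 5) (nat_lit 46) (nat_lit 5) (nat_lit 336) (nat_lit 264) (nat_lit 180)) (XT.lf (nat_lit 0) (nat_lit 7877511164) (nat_lit 152) (nat_lit 6489122062) (nat_lit 228) (nat_lit 3942466257) (nat_lit 43) (nat_lit 5) (nat_lit 45) (nat_lit 5) (nat_lit 46) (nat_lit 5) (nat_lit 337) (nat_lit 264) (nat_lit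 179))) (XT.nd (nat_lit 78) (nat_lit 304) (nat_lit 0) (XT.lf (nat_lit 0) (nat_lit 15829973937) (nat_lit 152) (nat_lit 2012219070) (nat_lit 228) (nat_lit 865987731) (nat_lit 43) (nat_lit 5) (nat_lit 45) (nat_lit 5) (nat_lit 46) (nat_lit 5) (nat_lit 338) (nat_lit 264) (nat_lit 178)) (XT.nd (nat_lit 78) (nat_lit 0) (nat_lit 0) (XT.lf (nat_lit 0) (nat_lit 2311050601) (nat_lit 304) (nat_lit 14198337586) (nat_lit 76) (nat_lit 2607604275) (nat_lit 39) (nat_lit 5) (nat_lit 43) (nat_lit 5) (nat_lit 40) (nat_lit 5) (nat_lit 339) (nat_lit 264) (nat_lit 177)) (XT.lf (nat_lit 0) (nat_lit 5595546797) (nat_lit 304) (nat_lit 6588899713) (nat_lit 76) (nat_lit 7352495848) (nat_lit 39) (nat_lit 5) (nat_lit 43) (nat_lit 5) (nat_lit 40) (nat_lit 5) (nat_lit 340) (nat_lit 264) (nat_lit 176))))) (XT.nd (nat_lit 234) (nat_lit 228) (nat_lit 0) (XT.nd (nat_lit 78) (nat_lit 0) (nat_lit 0) (XT.lf (nat_lit 0) (nat_lit 1242641490)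 (nat_lit 152) (nat_lit 7728733105) (nat_lit 228) (nat_lit 10998349351) (nat_lit 37) (nat_lit 5) (nat_lit 39) (nat_lit 5) (nat_lit 40) (nat_lit 5) (nat_lit 341) (nat_lit 264) (nat_lit 175)) (XT.nd (nat_lit 78) (nat_lit 0) (nat_lit 0) (XT.lf (nat_lit 0) (nat_lit 9414065013) (nat_lit 152) (nat_lit 3082066959) (nat_lit 228) (nat_lit 7917943966) (nat_lit 37) (nat_lit 5) (nat_lit 39) (nat_lit 5) (nat_lit 40) (nat_lit 5) (nat_lit 342) (nat_lit 264) (nat_lit 174)) (XT.lf (nat_lit 0) (nat_lit 16124576651) (nat_lit 228) (nat_lit 3087220498) (nat_lit 76) (nat_lit 1660039120) (nat_lit 37) (nat_lit 5) (nat_lit 40) (nat_lit 5) (nat_lit 38) (nat_lit 5) (nat_lit 343) (nat_lit 264) (nat_lit 173)))) (XT.nd (nat_lit 78) (nat_lit 76) (nat_lit 0) (XT.lf (nat_lit 0) (nat_lit 5103171454) (nat_lit 152) (nat_lit 14820375185) (nat_lit 228) (nat_lit 1417948257) (nat_lit 35) (nat_lit 5) (nat_lit 37) (nat_lit 5) (nat_lit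 38) (nat_lit 5) (nat_lit 344) (nat_lit 264) (nat_lit 172)) (XT.nd (nat_lit 78) (nat_lit 0) (nat_lit 0) (XT.lf (nat_lit 0) (nat_lit 1985638106) (nat_lit 228) (nat_lit 8270324764) (nat_lit 76) (nat_lit 11568305896) (nat_lit 34) (nat_lit 5) (nat_lit 37) (nat_lit 5) (nat_lit 35) (nat_lit 5) (nat_lit 345) (nat_lit 264) (nat_lit 171)) (XT.lf (nat_lit 0) (nat_lit 5445511066) (nat_lit 228) (nat_lit 105417381) (nat_lit 76) (nat_lit 16770710198) (nat_lit 34) (nat_lit 5) (nat_lit 37) (nat_lit 5) (nat_lit 35) (nat_lit 5) (nat_lit 346) (nat_lit 264) (nat_lit 170)))))) (XT.nd (nat_lit 468) (nat_lit 228) (nat_lit 0) (XT.nd (nat_lit 234) (nat_lit 228) (nat_lit 0) (XT.nd (nat_lit 78) (nat_lit 152) (nat_lit 0) (XT.lf (nat_lit 0) (nat_lit 8441895053) (nat_lit 152) (nat_lit 631616695) (nat_lit 228) (nat_lit 13758501828) (nat_lit 32) (nat_lit 5) (nat_lit 34) (nat_lit 5) (nat_lit 35) (nat_lit 5) (nat_lit 347) (nat_lit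 264) (nat_lit 169)) (XT.nd (nat_lit 78) (nat_lit 152) (nat_lit 0) (XT.lf (nat_lit 0) (nat_lit 12837375002) (nat_lit 228) (nat_lit 6179942617) (nat_lit 76) (nat_lit 4339584957) (nat_lit 32) (nat_lit 5) (nat_lit 35) (nat_lit 5) (nat_lit 33) (nat_lit 5) (nat_lit 348) (nat_lit 264) (nat_lit 168)) (XT.lf (nat_lit 0) (nat_lit 2288319357) (nat_lit 152) (nat_lit 14437884113) (nat_lit 228) (nat_lit 7170986399) (nat_lit 30) (nat_lit 5) (nat_lit 32) (nat_lit 5) (nat_lit 33) (nat_lit 5) (nat_lit 349) (nat_lit 264) (nat_lit 167)))) (XT.nd (nat_lit 78) (nat_lit 228) (nat_lit 0) (XT.lf (nat_lit 0) (nat_lit 11110953994) (nat_lit 152) (nat_lit 9667165568) (nat_lit 228) (nat_lit 3674186258) (nat_lit 30) (nat_lit 5) (nat_lit 32) (nat_lit 5) (nat_lit 33) (nat_lit 5) (nat_lit 350) (nat_lit 264) (nat_lit 166)) (XT.nd (nat_lit 78) (nat_lit 228) (nat_lit 0) (XT.lf (nat_lit 0) (nat_lit 20172677416) (nat_lit 152) (nat_lit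 4763398700) (nat_lit 228) (nat_lit 88476996) (nat_lit 30) (nat_lit 5) (nat_lit 32) (nat_lit 5) (nat_lit 33) (nat_lit 5) (nat_lit 351) (nat_lit 264) (nat_lit 165)) (XT.lf (nat_lit 0) (nat_lit 3560191181) (nat_lit 228) (nat_lit 21706905250) (nat_lit 76) (nat_lit 345071576) (nat_lit 27) (nat_lit 5) (nat_lit 30) (nat_lit 5) (nat_lit 28) (nat_lit 5) (nat_lit 352) (nat_lit 264) (nat_lit 164))))) (XT.nd (nat_lit 234) (nat_lit 76) (nat_lit 0) (XT.nd (nat_lit 78) (nat_lit 152) (nat_lit 0) (XT.lf (nat_lit 0) (nat_lit 7398065924) (nat_lit 228) (nat_lit 13265170723) (nat_lit 76) (nat_lit 5551713981) (nat_lit 27) (nat_lit 5) (nat_lit 30) (nat_lit 5) (nat_lit 28) (nat_lit 5) (nat_lit 353) (nat_lit 264) (nat_lit 163)) (XT.nd (nat_lit 78) (nat_lit 152) (nat_lit 0) (XT.lf (nat_lit 0) (nat_lit 11336400146) (nat_lit 228) (nat_lit 4594727653) (nat_lit 76) (nat_lit 10905140204) (nat_lit 27) (nat_lit 5) (nat_lit 30)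 (nat_lit 5) (nat_lit 28) (nat_lit 5) (nat_lit 354) (nat_lit 264) (nat_lit 162)) (XT.lf (nat_lit 0) (nat_lit 4397817329) (nat_lit 152) (nat_lit 11023092289) (nat_lit 228) (nat_lit 12054485179) (nat_lit 25) (nat_lit 5) (nat_lit 27) (nat_lit 5) (nat_lit 28) (nat_lit 5) (nat_lit 355) (nat_lit 264) (nat_lit 161)))) (XT.nd (nat_lit 78) (nat_lit 76) (nat_lit 0) (XT.lf (nat_lit 0) (nat_lit 13730731053) (nat_lit 152) (nat_lit 5929559996) (nat_lit 228) (nat_lit 8472444591) (nat_lit 25) (nat_lit 5) (nat_lit 27) (nat_lit 5) (nat_lit 28) (nat_lit 5) (nat_lit 356) (nat_lit 264) (nat_lit 160)) (XT.nd (nat_lit 78) (nat_lit 76) (nat_lit 0) (XT.lf (nat_lit 0) (nat_lit 23320724401) (nat_lit 152) (nat_lit 692477999) (nat_lit 228) (nat_lit 4797013896) (nat_lit 25) (nat_lit 5) (nat_lit 27) (nat_lit 5) (nat_lit 28) (nat_lit 5) (nat_lit 357) (nat_lit 264) (nat_lit 159)) (XT.lf (nat_lit 0) (nat_lit 3694736466) (nat_lit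 76) (nat_lit 24869336178) (nat_lit 152) (nat_lit 941937331) (nat_lit 24) (nat_lit 5) (nat_lit 25) (nat_lit 5) (nat_lit 26) (nat_lit 4) (nat_lit 358) (nat_lit 264) (nat_lit 158))))))) (XT.nd (nat_lit 936) (nat_lit 380) (nat_lit 0) (XT.nd (nat_lit 468) (nat_lit 304) (nat_lit 0) (XT.nd (nat_lit 234) (nat_lit 0) (nat_lit 0) (XT.nd (nat_lit 78) (nat_lit 152) (nat_lit 0) (XT.lf (nat_lit 0) (nat_lit 3019220932) (nat_lit 152) (nat_lit 17013127618) (nat_lit 76) (nat_lit 10187978706) (nat_lit 23) (nat_lit 5) (nat_lit 25) (nat_lit 5) (nat_lit 24) (nat_lit 5) (nat_lit 359) (nat_lit 264) (nat_lit 157)) (XT.nd (nat_lit 78) (nat_lit 152) (nat_lit 0) (XT.lf (nat_lit 0) (nat_lit 7067363364) (nat_lit 152) (nat_lit 7982319160) (nat_lit 76) (nat_lit 15906508229) (nat_lit 23) (nat_lit 5) (nat_lit 25) (nat_lit 5) (nat_lit 24) (nat_lit 5) (nat_lit 360) (nat_lit 264) (nat_lit 156)) (XT.lf (nat_lit 0) (nat_lit 1323932021)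 (nat_lit 152) (nat_lit 9913202188) (nat_lit 228) (nat_lit 20476999084) (nat_lit 21) (nat_lit 5) (nat_lit 23) (nat_lit 5) (nat_lit 24) (nat_lit 5) (nat_lit 361) (nat_lit 264) (nat_lit 155)))) (XT.nd (nat_lit 78) (nat_lit 0) (nat_lit 0) (XT.lf (nat_lit 0) (nat_lit 11051893226) (nat_lit 152) (nat_lit 4548330836) (nat_lit 228) (nat_lit 16892551681) (nat_lit 21) (nat_lit 5) (nat_lit 23) (nat_lit 5) (nat_lit 24) (nat_lit 5) (nat_lit 362) (nat_lit 264) (nat_lit 154)) (XT.nd (nat_lit 78) (nat_lit 0) (nat_lit 0) (XT.lf (nat_lit 0) (nat_lit 20091502053) (nat_lit 228) (nat_lit 12253260152) (nat_lit 76) (nat_lit 950104565) (nat_lit 21) (nat_lit 5) (nat_lit 24) (nat_lit 5) (nat_lit 22) (nat_lit 4) (nat_lit 363) (nat_lit 264) (nat_lit 153)) (XT.lf (nat_lit 0) (nat_lit 24750803051) (nat_lit 228) (nat_lit 2855216610) (nat_lit 76) (nat_lit 6514010254) (nat_lit 21) (nat_lit 5) (nat_lit 24) (nat_lit 5) (nat_lit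 22) (nat_lit 4) (nat_lit 364) (nat_lit 264) (nat_lit 152))))) (XT.nd (nat_lit 234) (nat_lit 152) (nat_lit 0) (XT.nd (nat_lit 78) (nat_lit 76) (nat_lit 0) (XT.lf (nat_lit 0) (nat_lit 6940617781) (nat_lit 76) (nat_lit 22664576636) (nat_lit 152) (nat_lit 5363101894) (nat_lit 20) (nat_lit 5) (nat_lit 21) (nat_lit 5) (nat_lit 22) (nat_lit 4) (nat_lit 365) (nat_lit 264) (nat_lit 151)) (XT.nd (nat_lit 78) (nat_lit 76) (nat_lit 0) (XT.lf (nat_lit 0) (nat_lit 17069461465) (nat_lit 76) (nat_lit 17553327804) (nat_lit 152) (nat_lit 1218701750) (nat_lit 20) (nat_lit 5) (nat_lit 21) (nat_lit 5) (nat_lit 22) (nat_lit 4) (nat_lit 366) (nat_lit 264) (nat_lit 150)) (XT.lf (nat_lit 0) (nat_lit 2979465590) (nat_lit 152) (nat_lit 9287086764) (nat_lit 76) (nat_lit 24473788128) (nat_lit 19) (nat_lit 5) (nat_lit 21) (nat_lit 5) (nat_lit 20) (nat_lit 5) (nat_lit 367) (nat_lit 264) (nat_lit 149)))) (XT.nd (nat_lit 78)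 (nat_lit 0) (nat_lit 0) (XT.lf (nat_lit 0) (nat_lit 460828539) (nat_lit 152) (nat_lit 6811958530) (nat_lit 228) (nat_lit 30393202093) (nat_lit 17) (nat_lit 5) (nat_lit 19) (nat_lit 5) (nat_lit 20) (nat_lit 5) (nat_lit 368) (nat_lit 264) (nat_lit 148)) (XT.nd (nat_lit 78) (nat_lit 0) (nat_lit 0) (XT.lf (nat_lit 0) (nat_lit 10673237025) (nat_lit 152) (nat_lit 1104862883) (nat_lit 228) (nat_lit 26838818281) (nat_lit 17) (nat_lit 5) (nat_lit 19) (nat_lit 5) (nat_lit 20) (nat_lit 5) (nat_lit 369) (nat_lit 264) (nat_lit 147)) (XT.lf (nat_lit 0) (nat_lit 16454104051) (nat_lit 228) (nat_lit 18468272181) (nat_lit 76) (nat_lit 4672939346) (nat_lit 17) (nat_lit 5) (nat_lit 20) (nat_lit 5) (nat_lit 18) (nat_lit 4) (nat_lit 370) (nat_lit 264) (nat_lit 146)))))) (XT.nd (nat_lit 468) (nat_lit 228) (nat_lit 0) (XT.nd (nat_lit 234) (nat_lit 76) (nat_lit 0) (XT.nd (nat_lit 78) (nat_lit 76) (nat_lit 0) (XT.lf (nat_lit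 0) (nat_lit 21271275744) (nat_lit 228) (nat_lit 8737044610) (nat_lit 76) (nat_lit 10594724168) (nat_lit 17) (nat_lit 5) (nat_lit 20) (nat_lit 5) (nat_lit 18) (nat_lit 4) (nat_lit 371) (nat_lit 264) (nat_lit 145)) (XT.nd (nat_lit 78) (nat_lit 0) (nat_lit 0) (XT.lf (nat_lit 0) (nat_lit 1294383260) (nat_lit 76) (nat_lit 24941262695) (nat_lit 152) (nat_lit 15405284956) (nat_lit 16) (nat_lit 5) (nat_lit 17) (nat_lit 5) (nat_lit 18) (nat_lit 4) (nat_lit 372) (nat_lit 264) (nat_lit 144)) (XT.lf (nat_lit 0) (nat_lit 11789026822) (nat_lit 76) (nat_lit 19638510915) (nat_lit 152) (nat_lit 11280064339) (nat_lit 16) (nat_lit 5) (nat_lit 17) (nat_lit 5) (nat_lit 18) (nat_lit 4) (nat_lit 373) (nat_lit 264) (nat_lit 143)))) (XT.nd (nat_lit 78) (nat_lit 76) (nat_lit 0) (XT.lf (nat_lit 0) (nat_lit 22582171833) (nat_lit 76) (nat_lit 14183658560) (nat_lit 152) (nat_lit 7040729385) (nat_lit 16) (nat_lit 5) (nat_lit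 17) (nat_lit 5) (nat_lit 18) (nat_lit 4) (nat_lit 374) (nat_lit 264) (nat_lit 142)) (XT.nd (nat_lit 78) (nat_lit 76) (nat_lit 0) (XT.lf (nat_lit 0) (nat_lit 33683249197) (nat_lit 76) (nat_lit 8571939256) (nat_lit 152) (nat_lit 2683575822) (nat_lit 16) (nat_lit 5) (nat_lit 17) (nat_lit 5) (nat_lit 18) (nat_lit 4) (nat_lit 375) (nat_lit 264) (nat_lit 141)) (XT.lf (nat_lit 0) (nat_lit 1760172685) (nat_lit 152) (nat_lit 1020502580) (nat_lit 76) (nat_lit 43324011906) (nat_lit 15) (nat_lit 5) (nat_lit 17) (nat_lit 5) (nat_lit 16) (nat_lit 5) (nat_lit 376) (nat_lit 264) (nat_lit 140))))) (XT.nd (nat_lit 234) (nat_lit 76) (nat_lit 0) (XT.nd (nat_lit 78) (nat_lit 0) (nat_lit 0) (XT.lf (nat_lit 0) (nat_lit 6399315086) (nat_lit 228) (nat_lit 37665468471) (nat_lit 76) (nat_lit 3236531624) (nat_lit 13) (nat_lit 5) (nat_lit 16) (nat_lit 5) (nat_lit 14) (nat_lit 4) (nat_lit 377) (nat_lit 264) (nat_lit 139))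 (XT.nd (nat_lit 78) (nat_lit 0) (nat_lit 0) (XT.lf (nat_lit 0) (nat_lit 11206964562) (nat_lit 228) (nat_lit 27943540360) (nat_lit 76) (nat_lit 9382462066) (nat_lit 13) (nat_lit 5) (nat_lit 16) (nat_lit 5) (nat_lit 14) (nat_lit 4) (nat_lit 378) (nat_lit 264) (nat_lit 138)) (XT.lf (nat_lit 0) (nat_lit 16150488434) (nat_lit 228) (nat_lit 17944692071) (nat_lit 76) (nat_lit 15706643293) (nat_lit 13) (nat_lit 5) (nat_lit 16) (nat_lit 5) (nat_lit 14) (nat_lit 4) (nat_lit 379) (nat_lit 264) (nat_lit 137)))) (XT.nd (nat_lit 78) (nat_lit 76) (nat_lit 0) (XT.lf (nat_lit 0) (nat_lit 21234206284) (nat_lit 228) (nat_lit 7660186747) (nat_lit 76) (nat_lit 22214601290) (nat_lit 13) (nat_lit 5) (nat_lit 16) (nat_lit 5) (nat_lit 14) (nat_lit 4) (nat_lit 380) (nat_lit 264) (nat_lit 136)) (XT.nd (nat_lit 78) (nat_lit 0) (nat_lit 0) (XT.lf (nat_lit 0) (nat_lit 2977055142) (nat_lit 76) (nat_lit 23514122331) (nat_lit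 152) (nat_lit 25963584755) (nat_lit 12) (nat_lit 5) (nat_lit 13) (nat_lit 5) (nat_lit 14) (nat_lit 4) (nat_lit 381) (nat_lit 264) (nat_lit 135)) (XT.lf (nat_lit 0) (nat_lit 14076685136) (nat_lit 76) (nat_lit 17898747212) (nat_lit 152) (nat_lit 21863387976) (nat_lit 12) (nat_lit 5) (nat_lit 13) (nat_lit 5) (nat_lit 14) (nat_lit 4) (nat_lit 382) (nat_lit 264) (nat_lit 134))))))))
noncomputable def xc122 : XT := (XT.nd (nat_lit 32058) (nat_lit 0) (nat_lit 10260) (XT.nd (nat_lit 858) (nat_lit 0) (nat_lit 0) (XT.nd (nat_lit 390) (nat_lit 76) (nat_lit 0) (XT.nd (nat_lit 156) (nat_lit 152) (nat_lit 0) (XT.nd (nat_lit 78) (nat_lit 0) (nat_lit 0) (XT.lf (nat_lit 0) (nat_lit 25495949205) (nat_lit 76) (nat_lit 12120713902) (nat_lit 152) (nat_lit 17647967871) (nat_lit 12) (nat_lit 5) (nat_lit 13) (nat_lit 5) (nat_lit 14) (nat_lit 4) (nat_lit 383) (nat_lit 264) (nat_lit 133)) (XT.lf (nat_lit 0) (nat_lit 37244825345)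 (nat_lit 76) (nat_lit 6174973634) (nat_lit 152) (nat_lit 13313641064) (nat_lit 12) (nat_lit 5) (nat_lit 13) (nat_lit 5) (nat_lit 14) (nat_lit 4) (nat_lit 384) (nat_lit 264) (nat_lit 132))) (XT.nd (nat_lit 78) (nat_lit 152) (nat_lit 0) (XT.lf (nat_lit 0) (nat_lit 49333579565) (nat_lit 76) (nat_lit 56331101) (nat_lit 152) (nat_lit 8856620278) (nat_lit 12) (nat_lit 5) (nat_lit 13) (nat_lit 5) (nat_lit 14) (nat_lit 4) (nat_lit 385) (nat_lit 264) (nat_lit 131)) (XT.nd (nat_lit 78) (nat_lit 76) (nat_lit 0) (XT.lf (nat_lit 0) (nat_lit 1945525176) (nat_lit 76) (nat_lit 53665379255) (nat_lit 76) (nat_lit 4191960680) (nat_lit 11) (nat_lit 4) (nat_lit 12) (nat_lit 5) (nat_lit 12) (nat_lit 4) (nat_lit 386) (nat_lit 264) (nat_lit 130)) (XT.lf (nat_lit 0) (nat_lit 685187244) (nat_lit 152) (nat_lit 48110466643) (nat_lit 76) (nat_lit 12607527321) (nat_lit 10) (nat_lit 5) (nat_lit 12) (nat_lit 5) (nat_lit 11)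 (nat_lit 4) (nat_lit 387) (nat_lit 264) (nat_lit 129))))) (XT.nd (nat_lit 234) (nat_lit 76) (nat_lit 0) (XT.nd (nat_lit 78) (nat_lit 0) (nat_lit 0) (XT.lf (nat_lit 0) (nat_lit 5617648879) (nat_lit 152) (nat_lit 38124732798) (nat_lit 76) (nat_lit 19308085936) (nat_lit 10) (nat_lit 5) (nat_lit 12) (nat_lit 5) (nat_lit 11) (nat_lit 4) (nat_lit 388) (nat_lit 264) (nat_lit 128)) (XT.nd (nat_lit 78) (nat_lit 0) (nat_lit 0) (XT.lf (nat_lit 0) (nat_lit 10691534394) (nat_lit 152) (nat_lit 27851117313) (nat_lit 76) (nat_lit 26204720867) (nat_lit 10) (nat_lit 5) (nat_lit 12) (nat_lit 5) (nat_lit 11) (nat_lit 4) (nat_lit 389) (nat_lit 264) (nat_lit 127)) (XT.lf (nat_lit 0) (nat_lit 15911277282) (nat_lit 152) (nat_lit 17280643243) (nat_lit 76) (nat_lit 33303458300) (nat_lit 10) (nat_lit 5) (nat_lit 12) (nat_lit 5) (nat_lit 11) (nat_lit 4) (nat_lit 390) (nat_lit 264) (nat_lit 126)))) (XT.nd (nat_lit 78) (nat_lit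 76) (nat_lit 0) (XT.lf (nat_lit 0) (nat_lit 21281438483) (nat_lit 152) (nat_lit 6404074249) (nat_lit 76) (nat_lit 40610501016) (nat_lit 10) (nat_lit 5) (nat_lit 12) (nat_lit 5) (nat_lit 11) (nat_lit 4) (nat_lit 391) (nat_lit 264) (nat_lit 125)) (XT.nd (nat_lit 78) (nat_lit 0) (nat_lit 0) (XT.lf (nat_lit 0) (nat_lit 4883385912) (nat_lit 76) (nat_lit 21970266551) (nat_lit 152) (nat_lit 43295789990) (nat_lit 9) (nat_lit 5) (nat_lit 10) (nat_lit 5) (nat_lit 11) (nat_lit 4) (nat_lit 392) (nat_lit 264) (nat_lit 124)) (XT.lf (nat_lit 0) (nat_lit 16630153659) (nat_lit 76) (nat_lit 16021626403) (nat_lit 152) (nat_lit 39404934618) (nat_lit 9) (nat_lit 5) (nat_lit 10) (nat_lit 5) (nat_lit 11) (nat_lit 4) (nat_lit 393) (nat_lit 264) (nat_lit 123)))))) (XT.nd (nat_lit 30732) (nat_lit 0) (nat_lit 19228) (XT.nd (nat_lit 234) (nat_lit 0) (nat_lit 0) (XT.nd (nat_lit 78) (nat_lit 0) (nat_lit 0) (XT.lf (nat_lit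 0) (nat_lit 28719039523) (nat_lit 76) (nat_lit 9899063041) (nat_lit 152) (nat_lit 35403277967) (nat_lit 9) (nat_lit 5) (nat_lit 10) (nat_lit 5) (nat_lit 11) (nat_lit 4) (nat_lit 394) (nat_lit 264) (nat_lit 122)) (XT.nd (nat_lit 78) (nat_lit 0) (nat_lit 0) (XT.lf (nat_lit 0) (nat_lit 41160606608) (nat_lit 76) (nat_lit 3597226653) (nat_lit 152) (nat_lit 31287323445) (nat_lit 9) (nat_lit 5) (nat_lit 10) (nat_lit 5) (nat_lit 11) (nat_lit 4) (nat_lit 395) (nat_lit 264) (nat_lit 121)) (XT.lf (nat_lit 0) (nat_lit 51104111541) (nat_lit 152) (nat_lit 24191859940) (nat_lit 0) (nat_lit 2833006830) (nat_lit 9) (nat_lit 5) (nat_lit 11) (nat_lit 4) (nat_lit 9) (nat_lit 4) (nat_lit 396) (nat_lit 264) (nat_lit 120)))) (XT.nd (nat_lit 30342) (nat_lit 0) (nat_lit 20216) (XT.lf (nat_lit 0) (nat_lit 57671093291) (nat_lit 152) (nat_lit 13223538004) (nat_lit 0) (nat_lit 9379776552) (nat_lit 9) (nat_lit 5) (nat_lit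 11) (nat_lit 4) (nat_lit 9) (nat_lit 4) (nat_lit 397) (nat_lit 264) (nat_lit 119)) (XT.nd (nat_lit 78) (nat_lit 0) (nat_lit 0) (XT.lf (nat_lit 0) (nat_lit 26069426) (nat_lit 0) (nat_lit 26069426) (nat_lit 380) (nat_lit 3224550792) (nat_lit 275) (nat_lit 5) (nat_lit 275) (nat_lit 3) (nat_lit 280) (nat_lit 3) (nat_lit 265) (nat_lit 265) (nat_lit 250)) (XT.lf (nat_lit 0) (nat_lit 2405383268) (nat_lit 380) (nat_lit 3546851816) (nat_lit 456) (nat_lit 624193881) (nat_lit 275) (nat_lit 5) (nat_lit 280) (nat_lit 3) (nat_lit 281) (nat_lit 5) (nat_lit 266) (nat_lit 265) (nat_lit 249))))) (XT.nd (nat_lit 234) (nat_lit 532) (nat_lit 0) (XT.nd (nat_lit 78) (nat_lit 456) (nat_lit 0) (XT.lf (nat_lit 0) (nat_lit 4686962573) (nat_lit 380) (nat_lit 552460547) (nat_lit 456) (nat_lit 1363648289) (nat_lit 275) (nat_lit 5) (nat_lit 280) (nat_lit 3) (nat_lit 281) (nat_lit 5) (nat_lit 267) (nat_lit 265) (nat_lit 248))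 (XT.nd (nat_lit 78) (nat_lit 0) (nat_lit 0) (XT.lf (nat_lit 0) (nat_lit 335578576) (nat_lit 456) (nat_lit 4101395620) (nat_lit 532) (nat_lit 2195541143) (nat_lit 269) (nat_lit 5) (nat_lit 275) (nat_lit 5) (nat_lit 276) (nat_lit 5) (nat_lit 268) (nat_lit 265) (nat_lit 247)) (XT.lf (nat_lit 0) (nat_lit 2536470090) (nat_lit 456) (nat_lit 1011347770) (nat_lit 532) (nat_lit 3117074377) (nat_lit 269) (nat_lit 5) (nat_lit 275) (nat_lit 5) (nat_lit 276) (nat_lit 5) (nat_lit 269) (nat_lit 265) (nat_lit 246)))) (XT.nd (nat_lit 78) (nat_lit 532) (nat_lit 0) (XT.lf (nat_lit 76) (nat_lit 2166910769) (nat_lit 0) (nat_lit 2574327992) (nat_lit 532) (nat_lit 1959083398) (nat_lit 270) (nat_lit 5) (nat_lit 269) (nat_lit 5) (nat_lit 276) (nat_lit 5) (nat_lit 270) (nat_lit 265) (nat_lit 245)) (XT.nd (nat_lit 78) (nat_lit 0) (nat_lit 0) (XT.lf (nat_lit 0) (nat_lit 198260017) (nat_lit 532) (nat_lit 1326161158) (nat_lit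 608) (nat_lit 5214670248) (nat_lit 262) (nat_lit 5) (nat_lit 269) (nat_lit 5) (nat_lit 270) (nat_lit 5) (nat_lit 271) (nat_lit 265) (nat_lit 244)) (XT.lf (nat_lit 76) (nat_lit 1949194599) (nat_lit 0) (nat_lit 370862725) (nat_lit 608) (nat_lit 4460410054) (nat_lit 263) (nat_lit 5) (nat_lit 262) (nat_lit 5) (nat_lit 270) (nat_lit 5) (nat_lit 272) (nat_lit 265) (nat_lit 243))))))) (XT.nd (nat_lit 936) (nat_lit 5472) (nat_lit 0) (XT.nd (nat_lit 468) (nat_lit 2356) (nat_lit 0) (XT.nd (nat_lit 234) (nat_lit 608) (nat_lit 0) (XT.nd (nat_lit 78) (nat_lit 608) (nat_lit 0) (XT.lf (nat_lit 0) (nat_lit 4449438236) (nat_lit 532) (nat_lit 1529796444) (nat_lit 608) (nat_lit 845725051) (nat_lit 263) (nat_lit 5) (nat_lit 270) (nat_lit 5) (nat_lit 271) (nat_lit 5) (nat_lit 273) (nat_lit 265) (nat_lit 242)) (XT.nd (nat_lit 78) (nat_lit 608) (nat_lit 0) (XT.lf (nat_lit 76) (nat_lit 1855571237) (nat_lit 0) (nat_lit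 4733443037) (nat_lit 608) (nat_lit 283570554) (nat_lit 264) (nat_lit 5) (nat_lit 263) (nat_lit 5) (nat_lit 271) (nat_lit 5) (nat_lit 274) (nat_lit 265) (nat_lit 241)) (XT.lf (nat_lit 0) (nat_lit 1775862580) (nat_lit 608) (nat_lit 1614334441) (nat_lit 684) (nat_lit 3532841602) (nat_lit 255) (nat_lit 5) (nat_lit 263) (nat_lit 5) (nat_lit 264) (nat_lit 5) (nat_lit 275) (nat_lit 265) (nat_lit 240)))) (XT.nd (nat_lit 78) (nat_lit 608) (nat_lit 0) (XT.lf (nat_lit 76) (nat_lit 1876784952) (nat_lit 0) (nat_lit 1960436464) (nat_lit 684) (nat_lit 3139496606) (nat_lit 256) (nat_lit 5) (nat_lit 255) (nat_lit 5) (nat_lit 264) (nat_lit 5) (nat_lit 276) (nat_lit 265) (nat_lit 239)) (XT.nd (nat_lit 78) (nat_lit 608) (nat_lit 0) (XT.lf (nat_lit 76) (nat_lit 5458740115) (nat_lit 0) (nat_lit 447435080) (nat_lit 684) (nat_lit 1127626473) (nat_lit 256) (nat_lit 5) (nat_lit 255) (nat_lit 5) (nat_lit 264) (nat_lit 5)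 (nat_lit 277) (nat_lit 265) (nat_lit 238)) (XT.lf (nat_lit 0) (nat_lit 887615373) (nat_lit 684) (nat_lit 5066042268) (nat_lit 76) (nat_lit 1139981268) (nat_lit 247) (nat_lit 5) (nat_lit 256) (nat_lit 5) (nat_lit 248) (nat_lit 5) (nat_lit 278) (nat_lit 265) (nat_lit 237))))) (XT.nd (nat_lit 234) (nat_lit 1672) (nat_lit 0) (XT.nd (nat_lit 78) (nat_lit 684) (nat_lit 0) (XT.lf (nat_lit 0) (nat_lit 2893586473) (nat_lit 684) (nat_lit 1449007890) (nat_lit 76) (nat_lit 2813906244) (nat_lit 247) (nat_lit 5) (nat_lit 256) (nat_lit 5) (nat_lit 248) (nat_lit 5) (nat_lit 279) (nat_lit 265) (nat_lit 236)) (XT.nd (nat_lit 78) (nat_lit 0) (nat_lit 0) (XT.lf (nat_lit 0) (nat_lit 2273242861) (nat_lit 684) (nat_lit 2642756921) (nat_lit 760) (nat_lit 2306708405) (nat_lit 238) (nat_lit 5) (nat_lit 247) (nat_lit 5) (nat_lit 248) (nat_lit 5) (nat_lit 280) (nat_lit 265) (nat_lit 235)) (XT.lf (nat_lit 0) (nat_lit 6089677756)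 (nat_lit 684) (nat_lit 859907913) (nat_lit 760) (nat_lit 342944937) (nat_lit 238) (nat_lit 5) (nat_lit 247) (nat_lit 5) (nat_lit 248) (nat_lit 5) (nat_lit 281) (nat_lit 265) (nat_lit 234)))) (XT.nd (nat_lit 78) (nat_lit 836) (nat_lit 0) (XT.lf (nat_lit 0) (nat_lit 1619305884) (nat_lit 836) (nat_lit 4730764584) (nat_lit 76) (nat_lit 1014857641) (nat_lit 227) (nat_lit 5) (nat_lit 238) (nat_lit 5) (nat_lit 228) (nat_lit 5) (nat_lit 282) (nat_lit 265) (nat_lit 233)) (XT.nd (nat_lit 78) (nat_lit 836) (nat_lit 0) (XT.lf (nat_lit 0) (nat_lit 3592824127) (nat_lit 836) (nat_lit 889077683) (nat_lit 76) (nat_lit 2958846508) (nat_lit 227) (nat_lit 5) (nat_lit 238) (nat_lit 5) (nat_lit 228) (nat_lit 5) (nat_lit 283) (nat_lit 265) (nat_lit 232)) (XT.lf (nat_lit 0) (nat_lit 3080532754) (nat_lit 836) (nat_lit 2514930132) (nat_lit 912) (nat_lit 1924410400) (nat_lit 216) (nat_lit 5) (nat_lit 227) (nat_lit 5) (nat_lit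 228) (nat_lit 5) (nat_lit 284) (nat_lit 265) (nat_lit 231)))))) (XT.nd (nat_lit 468) (nat_lit 2356) (nat_lit 0) (XT.nd (nat_lit 234) (nat_lit 1140) (nat_lit 0) (XT.nd (nat_lit 78) (nat_lit 1900) (nat_lit 0) (XT.lf (nat_lit 0) (nat_lit 5657516) (nat_lit 912) (nat_lit 462551850) (nat_lit 76) (nat_lit 7134767812) (nat_lit 215) (nat_lit 5) (nat_lit 227) (nat_lit 5) (nat_lit 216) (nat_lit 5) (nat_lit 285) (nat_lit 265) (nat_lit 230)) (XT.nd (nat_lit 78) (nat_lit 988) (nat_lit 0) (XT.lf (nat_lit 0) (nat_lit 1948937427) (nat_lit 988) (nat_lit 4066567041) (nat_lit 76) (nat_lit 1672795225) (nat_lit 203) (nat_lit 5) (nat_lit 216) (nat_lit 5) (nat_lit 204) (nat_lit 5) (nat_lit 286) (nat_lit 265) (nat_lit 229)) (XT.lf (nat_lit 0) (nat_lit 9185484) (nat_lit 988) (nat_lit 3894702663) (nat_lit 1064) (nat_lit 3873805935) (nat_lit 190) (nat_lit 5) (nat_lit 203) (nat_lit 5) (nat_lit 204) (nat_lit 5) (nat_lit 287)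 (nat_lit 265) (nat_lit 228)))) (XT.nd (nat_lit 78) (nat_lit 1140) (nat_lit 0) (XT.lf (nat_lit 0) (nat_lit 4242747160) (nat_lit 988) (nat_lit 1660909206) (nat_lit 1064) (nat_lit 1966638937) (nat_lit 190) (nat_lit 5) (nat_lit 203) (nat_lit 5) (nat_lit 204) (nat_lit 5) (nat_lit 288) (nat_lit 265) (nat_lit 227)) (XT.nd (nat_lit 78) (nat_lit 76) (nat_lit 0) (XT.lf (nat_lit 0) (nat_lit 594895711) (nat_lit 1064) (nat_lit 7327161025) (nat_lit 1140) (nat_lit 44965516) (nat_lit 176) (nat_lit 5) (nat_lit 190) (nat_lit 5) (nat_lit 191) (nat_lit 5) (nat_lit 289) (nat_lit 265) (nat_lit 226)) (XT.lf (nat_lit 0) (nat_lit 1897293414) (nat_lit 1140) (nat_lit 3131460574) (nat_lit 76) (nat_lit 3037419475) (nat_lit 175) (nat_lit 5) (nat_lit 190) (nat_lit 5) (nat_lit 176) (nat_lit 5) (nat_lit 290) (nat_lit 265) (nat_lit 225))))) (XT.nd (nat_lit 234) (nat_lit 684) (nat_lit 0) (XT.nd (nat_lit 78) (nat_lit 532) (nat_lit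 0) (XT.lf (nat_lit 0) (nat_lit 1212176824) (nat_lit 1140) (nat_lit 2645171465) (nat_lit 1216) (nat_lit 4312222402) (nat_lit 160) (nat_lit 5) (nat_lit 175) (nat_lit 5) (nat_lit 176) (nat_lit 5) (nat_lit 291) (nat_lit 265) (nat_lit 224)) (XT.nd (nat_lit 78) (nat_lit 532) (nat_lit 0) (XT.lf (nat_lit 0) (nat_lit 5703323206) (nat_lit 1140) (nat_lit 154323109) (nat_lit 1216) (nat_lit 2419075225) (nat_lit 160) (nat_lit 5) (nat_lit 175) (nat_lit 5) (nat_lit 176) (nat_lit 5) (nat_lit 292) (nat_lit 265) (nat_lit 223)) (XT.lf (nat_lit 0) (nat_lit 1908982979) (nat_lit 532) (nat_lit 6001810232) (nat_lit 608) (nat_lit 476600686) (nat_lit 153) (nat_lit 5) (nat_lit 160) (nat_lit 5) (nat_lit 161) (nat_lit 5) (nat_lit 293) (nat_lit 265) (nat_lit 222)))) (XT.nd (nat_lit 78) (nat_lit 608) (nat_lit 0) (XT.lf (nat_lit 0) (nat_lit 1473897751) (nat_lit 608) (nat_lit 1986247001) (nat_lit 76) (nat_lit 5041504292) (nat_lit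 152) (nat_lit 5) (nat_lit 160) (nat_lit 5) (nat_lit 153) (nat_lit 5) (nat_lit 294) (nat_lit 265) (nat_lit 221)) (XT.nd (nat_lit 78) (nat_lit 0) (nat_lit 0) (XT.lf (nat_lit 0) (nat_lit 2641100640) (nat_lit 608) (nat_lit 810745159) (nat_lit 684) (nat_lit 5168073426) (nat_lit 144) (nat_lit 5) (nat_lit 152) (nat_lit 5) (nat_lit 153) (nat_lit 5) (nat_lit 295) (nat_lit 265) (nat_lit 220)) (XT.lf (nat_lit 0) (nat_lit 5481876026) (nat_lit 684) (nat_lit 1359193184) (nat_lit 76) (nat_lit 1900967892) (nat_lit 144) (nat_lit 5) (nat_lit 153) (nat_lit 5) (nat_lit 145) (nat_lit 5) (nat_lit 296) (nat_lit 265) (nat_lit 219))))))))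
noncomputable def xc123 : XT := (XT.nd (nat_lit 1872) (nat_lit 2584) (nat_lit 0) (XT.nd (nat_lit 936) (nat_lit 2128) (nat_lit 0) (XT.nd (nat_lit 468) (nat_lit 1368) (nat_lit 0) (XT.nd (nat_lit 234) (nat_lit 912) (nat_lit 0) (XT.nd (nat_lit 78) (nat_lit 608) (nat_lit 0) (XT.lf (nat_lit 0) (nat_lit 3411540654) (nat_lit 532) (nat_lit 4157475511) (nat_lit 608) (nat_lit 1298995598) (nat_lit 137) (nat_lit 5) (nat_lit 144) (nat_lit 5) (nat_lit 145) (nat_lit 5) (nat_lit 297) (nat_lit 265) (nat_lit 218)) (XT.nd (nat_lit 78) (nat_lit 532) (nat_lit 0) (XT.lf (nat_lit 0) (nat_lit 676536961) (nat_lit 608) (nat_lit 697691077) (nat_lit 76) (nat_lit 7624316608) (nat_lit 136) (nat_lit 5) (nat_lit 144) (nat_lit 5) (nat_lit 137) (nat_lit 5) (nat_lit 298) (nat_lit 265) (nat_lit 217)) (XT.lf (nat_lit 0) (nat_lit 2697757363) (nat_lit 608) (nat_lit 4919278826) (nat_lit 76) (nat_lit 1515268344) (nat_lit 129) (nat_lit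 5) (nat_lit 137) (nat_lit 5) (nat_lit 130) (nat_lit 5) (nat_lit 299) (nat_lit 265) (nat_lit 216)))) (XT.nd (nat_lit 78) (nat_lit 912) (nat_lit 0) (XT.lf (nat_lit 0) (nat_lit 4758161977) (nat_lit 608) (nat_lit 44217220) (nat_lit 76) (nat_lit 4468412242) (nat_lit 129) (nat_lit 5) (nat_lit 137) (nat_lit 5) (nat_lit 130) (nat_lit 5) (nat_lit 300) (nat_lit 265) (nat_lit 215)) (XT.nd (nat_lit 78) (nat_lit 456) (nat_lit 0) (XT.lf (nat_lit 0) (nat_lit 5030560227) (nat_lit 456) (nat_lit 1857229999) (nat_lit 532) (nat_lit 2525488972) (nat_lit 123) (nat_lit 5) (nat_lit 129) (nat_lit 5) (nat_lit 130) (nat_lit 5) (nat_lit 301) (nat_lit 265) (nat_lit 214)) (XT.lf (nat_lit 0) (nat_lit 654423080) (nat_lit 456) (nat_lit 8404715475) (nat_lit 532) (nat_lit 501634693) (nat_lit 117) (nat_lit 5) (nat_lit 123) (nat_lit 5) (nat_lit 124) (nat_lit 5) (nat_lit 302) (nat_lit 265) (nat_lit 213))))) (XT.nd (nat_lit 234) (nat_lit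 912) (nat_lit 0) (XT.nd (nat_lit 78) (nat_lit 380) (nat_lit 0) (XT.lf (nat_lit 0) (nat_lit 1575196513) (nat_lit 532) (nat_lit 3858792619) (nat_lit 76) (nat_lit 4277614771) (nat_lit 116) (nat_lit 5) (nat_lit 123) (nat_lit 5) (nat_lit 117) (nat_lit 5) (nat_lit 303) (nat_lit 265) (nat_lit 212)) (XT.nd (nat_lit 78) (nat_lit 0) (nat_lit 0) (XT.lf (nat_lit 0) (nat_lit 1316342334) (nat_lit 380) (nat_lit 2361791154) (nat_lit 456) (nat_lit 6189521437) (nat_lit 111) (nat_lit 5) (nat_lit 116) (nat_lit 5) (nat_lit 117) (nat_lit 5) (nat_lit 304) (nat_lit 265) (nat_lit 211)) (XT.lf (nat_lit 0) (nat_lit 5853101830) (nat_lit 456) (nat_lit 3354761388) (nat_lit 76) (nat_lit 820315131) (nat_lit 111) (nat_lit 5) (nat_lit 117) (nat_lit 5) (nat_lit 112) (nat_lit 5) (nat_lit 305) (nat_lit 265) (nat_lit 210)))) (XT.nd (nat_lit 78) (nat_lit 456) (nat_lit 0) (XT.lf (nat_lit 0) (nat_lit 1968763565) (nat_lit 456) (nat_lit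 6129851473) (nat_lit 532) (nat_lit 2094801006) (nat_lit 105) (nat_lit 5) (nat_lit 111) (nat_lit 5) (nat_lit 112) (nat_lit 5) (nat_lit 306) (nat_lit 265) (nat_lit 209)) (XT.nd (nat_lit 78) (nat_lit 380) (nat_lit 0) (XT.lf (nat_lit 0) (nat_lit 44392161) (nat_lit 532) (nat_lit 2886938022) (nat_lit 76) (nat_lit 7432397714) (nat_lit 104) (nat_lit 5) (nat_lit 111) (nat_lit 5) (nat_lit 105) (nat_lit 5) (nat_lit 307) (nat_lit 265) (nat_lit 208)) (XT.lf (nat_lit 0) (nat_lit 2198805461) (nat_lit 456) (nat_lit 7944934453) (nat_lit 76) (nat_lit 395045111) (nat_lit 99) (nat_lit 5) (nat_lit 105) (nat_lit 5) (nat_lit 100) (nat_lit 5) (nat_lit 308) (nat_lit 265) (nat_lit 207)))))) (XT.nd (nat_lit 468) (nat_lit 988) (nat_lit 0) (XT.nd (nat_lit 234) (nat_lit 760) (nat_lit 0) (XT.nd (nat_lit 78) (nat_lit 380) (nat_lit 0) (XT.lf (nat_lit 0) (nat_lit 4441175867) (nat_lit 456) (nat_lit 2492918376) (nat_lit 76) (nat_lit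 3784350919) (nat_lit 99) (nat_lit 5) (nat_lit 105) (nat_lit 5) (nat_lit 100) (nat_lit 5) (nat_lit 309) (nat_lit 265) (nat_lit 206)) (XT.nd (nat_lit 78) (nat_lit 0) (nat_lit 0) (XT.lf (nat_lit 0) (nat_lit 3141603345) (nat_lit 380) (nat_lit 3605297117) (nat_lit 456) (nat_lit 4156761703) (nat_lit 94) (nat_lit 5) (nat_lit 99) (nat_lit 5) (nat_lit 100) (nat_lit 5) (nat_lit 310) (nat_lit 265) (nat_lit 205)) (XT.lf (nat_lit 0) (nat_lit 8954319551) (nat_lit 380) (nat_lit 159125375) (nat_lit 456) (nat_lit 1981289417) (nat_lit 94) (nat_lit 5) (nat_lit 99) (nat_lit 5) (nat_lit 100) (nat_lit 5) (nat_lit 311) (nat_lit 265) (nat_lit 204)))) (XT.nd (nat_lit 78) (nat_lit 380) (nat_lit 0) (XT.lf (nat_lit 0) (nat_lit 289703674) (nat_lit 380) (nat_lit 7646592053) (nat_lit 76) (nat_lit 3354153905) (nat_lit 89) (nat_lit 5) (nat_lit 94) (nat_lit 5) (nat_lit 90) (nat_lit 5) (nat_lit 312) (nat_lit 265) (nat_lit 203))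 (XT.nd (nat_lit 78) (nat_lit 380) (nat_lit 0) (XT.lf (nat_lit 0) (nat_lit 2579972240) (nat_lit 380) (nat_lit 1909207235) (nat_lit 76) (nat_lit 7002583401) (nat_lit 89) (nat_lit 5) (nat_lit 94) (nat_lit 5) (nat_lit 90) (nat_lit 5) (nat_lit 313) (nat_lit 265) (nat_lit 202)) (XT.lf (nat_lit 0) (nat_lit 4038376598) (nat_lit 380) (nat_lit 907900490) (nat_lit 456) (nat_lit 6752661327) (nat_lit 84) (nat_lit 5) (nat_lit 89) (nat_lit 5) (nat_lit 90) (nat_lit 5) (nat_lit 314) (nat_lit 265) (nat_lit 201))))) (XT.nd (nat_lit 234) (nat_lit 608) (nat_lit 0) (XT.nd (nat_lit 78) (nat_lit 380) (nat_lit 0) (XT.lf (nat_lit 0) (nat_lit 7398720558) (nat_lit 456) (nat_lit 1776354669) (nat_lit 76) (nat_lit 2736841006) (nat_lit 84) (nat_lit 5) (nat_lit 90) (nat_lit 5) (nat_lit 85) (nat_lit 5) (nat_lit 315) (nat_lit 265) (nat_lit 200)) (XT.nd (nat_lit 78) (nat_lit 76) (nat_lit 0) (XT.lf (nat_lit 0) (nat_lit 4319675349)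 (nat_lit 304) (nat_lit 5625427304) (nat_lit 380) (nat_lit 2185610066) (nat_lit 80) (nat_lit 5) (nat_lit 84) (nat_lit 5) (nat_lit 85) (nat_lit 5) (nat_lit 316) (nat_lit 265) (nat_lit 199)) (XT.lf (nat_lit 0) (nat_lit 195803574) (nat_lit 380) (nat_lit 1762997857) (nat_lit 76) (nat_lit 10397604561) (nat_lit 79) (nat_lit 5) (nat_lit 84) (nat_lit 5) (nat_lit 80) (nat_lit 5) (nat_lit 317) (nat_lit 265) (nat_lit 198)))) (XT.nd (nat_lit 78) (nat_lit 304) (nat_lit 0) (XT.lf (nat_lit 0) (nat_lit 2636836395) (nat_lit 380) (nat_lit 8112405585) (nat_lit 76) (nat_lit 1838052601) (nat_lit 75) (nat_lit 5) (nat_lit 80) (nat_lit 5) (nat_lit 76) (nat_lit 5) (nat_lit 318) (nat_lit 265) (nat_lit 197)) (XT.nd (nat_lit 78) (nat_lit 304) (nat_lit 0) (XT.lf (nat_lit 0) (nat_lit 5159743983) (nat_lit 380) (nat_lit 1947585660) (nat_lit 76) (nat_lit 5717556671) (nat_lit 75) (nat_lit 5) (nat_lit 80) (nat_lit 5) (nat_lit 76)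 (nat_lit 5) (nat_lit 319) (nat_lit 265) (nat_lit 196)) (XT.lf (nat_lit 0) (nat_lit 4450686267) (nat_lit 304) (nat_lit 3322542648) (nat_lit 380) (nat_lit 5295964934) (nat_lit 71) (nat_lit 5) (nat_lit 75) (nat_lit 5) (nat_lit 76) (nat_lit 5) (nat_lit 320) (nat_lit 265) (nat_lit 195))))))) (XT.nd (nat_lit 936) (nat_lit 1140) (nat_lit 0) (XT.nd (nat_lit 468) (nat_lit 532) (nat_lit 0) (XT.nd (nat_lit 234) (nat_lit 532) (nat_lit 0) (XT.nd (nat_lit 78) (nat_lit 380) (nat_lit 0) (XT.lf (nat_lit 0) (nat_lit 10462968466) (nat_lit 380) (nat_lit 2283861790) (nat_lit 76) (nat_lit 574098595) (nat_lit 71) (nat_lit 5) (nat_lit 76) (nat_lit 5) (nat_lit 72) (nat_lit 5) (nat_lit 321) (nat_lit 265) (nat_lit 194)) (XT.nd (nat_lit 78) (nat_lit 76) (nat_lit 0) (XT.lf (nat_lit 0) (nat_lit 4253330947) (nat_lit 304) (nat_lit 9027107381) (nat_lit 380) (nat_lit 298399190) (nat_lit 67) (nat_lit 5) (nat_lit 71) (nat_lit 5)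 (nat_lit 72) (nat_lit 5) (nat_lit 322) (nat_lit 265) (nat_lit 193)) (XT.lf (nat_lit 0) (nat_lit 2289003261) (nat_lit 380) (nat_lit 2870823081) (nat_lit 76) (nat_lit 8684113483) (nat_lit 66) (nat_lit 5) (nat_lit 71) (nat_lit 5) (nat_lit 67) (nat_lit 5) (nat_lit 323) (nat_lit 265) (nat_lit 192)))) (XT.nd (nat_lit 78) (nat_lit 304) (nat_lit 0) (XT.lf (nat_lit 0) (nat_lit 3812252022) (nat_lit 228) (nat_lit 1146584475) (nat_lit 304) (nat_lit 9157775863) (nat_lit 63) (nat_lit 5) (nat_lit 66) (nat_lit 5) (nat_lit 67) (nat_lit 5) (nat_lit 324) (nat_lit 265) (nat_lit 191)) (XT.nd (nat_lit 78) (nat_lit 304) (nat_lit 0) (XT.lf (nat_lit 0) (nat_lit 7741214125) (nat_lit 304) (nat_lit 3707940432) (nat_lit 76) (nat_lit 2947366139) (nat_lit 63) (nat_lit 5) (nat_lit 67) (nat_lit 5) (nat_lit 64) (nat_lit 5) (nat_lit 325) (nat_lit 265) (nat_lit 190)) (XT.lf (nat_lit 0) (nat_lit 3099568481) (nat_lit 304) (nat_lit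 7523845060) (nat_lit 380) (nat_lit 4060950487) (nat_lit 59) (nat_lit 5) (nat_lit 63) (nat_lit 5) (nat_lit 64) (nat_lit 5) (nat_lit 326) (nat_lit 265) (nat_lit 189))))) (XT.nd (nat_lit 234) (nat_lit 228) (nat_lit 0) (XT.nd (nat_lit 78) (nat_lit 304) (nat_lit 0) (XT.lf (nat_lit 0) (nat_lit 10151729095) (nat_lit 304) (nat_lit 3453376156) (nat_lit 380) (nat_lit 1375374053) (nat_lit 59) (nat_lit 5) (nat_lit 63) (nat_lit 5) (nat_lit 64) (nat_lit 5) (nat_lit 327) (nat_lit 265) (nat_lit 188)) (XT.nd (nat_lit 78) (nat_lit 0) (nat_lit 0) (XT.lf (nat_lit 0) (nat_lit 1367405498) (nat_lit 304) (nat_lit 13169557699) (nat_lit 76) (nat_lit 748026395) (nat_lit 55) (nat_lit 5) (nat_lit 59) (nat_lit 5) (nat_lit 56) (nat_lit 5) (nat_lit 328) (nat_lit 265) (nat_lit 187)) (XT.lf (nat_lit 0) (nat_lit 4224551737) (nat_lit 304) (nat_lit 6313872409) (nat_lit 76) (nat_lit 5058035813) (nat_lit 55) (nat_lit 5) (nat_lit 59)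 (nat_lit 5) (nat_lit 56) (nat_lit 5) (nat_lit 329) (nat_lit 265) (nat_lit 186)))) (XT.nd (nat_lit 78) (nat_lit 0) (nat_lit 0) (XT.lf (nat_lit 0) (nat_lit 727374252) (nat_lit 228) (nat_lit 6424012043) (nat_lit 304) (nat_lit 8766393300) (nat_lit 52) (nat_lit 5) (nat_lit 55) (nat_lit 5) (nat_lit 56) (nat_lit 5) (nat_lit 330) (nat_lit 265) (nat_lit 185)) (XT.nd (nat_lit 78) (nat_lit 0) (nat_lit 0) (XT.lf (nat_lit 0) (nat_lit 8075319930) (nat_lit 228) (nat_lit 2131789577) (nat_lit 304) (nat_lit 6040420471) (nat_lit 52) (nat_lit 5) (nat_lit 55) (nat_lit 5) (nat_lit 56) (nat_lit 5) (nat_lit 331) (nat_lit 265) (nat_lit 184)) (XT.lf (nat_lit 0) (nat_lit 13354390511) (nat_lit 304) (nat_lit 999029339) (nat_lit 76) (nat_lit 2233779417) (nat_lit 52) (nat_lit 5) (nat_lit 56) (nat_lit 5) (nat_lit 53) (nat_lit 5) (nat_lit 332) (nat_lit 265) (nat_lit 183)))))) (XT.nd (nat_lit 468) (nat_lit 456) (nat_lit 0) (XT.nd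 (nat_lit 234) (nat_lit 152) (nat_lit 0) (XT.nd (nat_lit 78) (nat_lit 304) (nat_lit 0) (XT.lf (nat_lit 0) (nat_lit 6461754139) (nat_lit 228) (nat_lit 10196082121) (nat_lit 304) (nat_lit 277392294) (nat_lit 49) (nat_lit 5) (nat_lit 52) (nat_lit 5) (nat_lit 53) (nat_lit 5) (nat_lit 333) (nat_lit 265) (nat_lit 182)) (XT.nd (nat_lit 78) (nat_lit 228) (nat_lit 0) (XT.lf (nat_lit 0) (nat_lit 2701496572) (nat_lit 304) (nat_lit 3185956058) (nat_lit 76) (nat_lit 11405805325) (nat_lit 48) (nat_lit 5) (nat_lit 52) (nat_lit 5) (nat_lit 49) (nat_lit 5) (nat_lit 334) (nat_lit 265) (nat_lit 181)) (XT.lf (nat_lit 0) (nat_lit 4370982316) (nat_lit 228) (nat_lit 1414443861) (nat_lit 304) (nat_lit 11875902602) (nat_lit 45) (nat_lit 5) (nat_lit 48) (nat_lit 5) (nat_lit 49) (nat_lit 5) (nat_lit 335) (nat_lit 265) (nat_lit 180)))) (XT.nd (nat_lit 78) (nat_lit 152) (nat_lit 0) (XT.lf (nat_lit 0) (nat_lit 9004484775) (nat_lit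 304) (nat_lit 5882517625) (nat_lit 76) (nat_lit 3152180814) (nat_lit 45) (nat_lit 5) (nat_lit 49) (nat_lit 5) (nat_lit 46) (nat_lit 5) (nat_lit 336) (nat_lit 265) (nat_lit 179)) (XT.nd (nat_lit 78) (nat_lit 0) (nat_lit 0) (XT.lf (nat_lit 0) (nat_lit 1736386368) (nat_lit 152) (nat_lit 10594453439) (nat_lit 228) (nat_lit 6097230978) (nat_lit 43) (nat_lit 5) (nat_lit 45) (nat_lit 5) (nat_lit 46) (nat_lit 5) (nat_lit 337) (nat_lit 265) (nat_lit 178)) (XT.lf (nat_lit 0) (nat_lit 9673709156) (nat_lit 152) (nat_lit 6122993543) (nat_lit 228) (nat_lit 3030749451) (nat_lit 43) (nat_lit 5) (nat_lit 45) (nat_lit 5) (nat_lit 46) (nat_lit 5) (nat_lit 338) (nat_lit 265) (nat_lit 177))))) (XT.nd (nat_lit 234) (nat_lit 152) (nat_lit 0) (XT.nd (nat_lit 78) (nat_lit 228) (nat_lit 0) (XT.lf (nat_lit 0) (nat_lit 105915767) (nat_lit 228) (nat_lit 1421132196) (nat_lit 76) (nat_lit 17712327318) (nat_lit 42) (nat_lit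 5) (nat_lit 45) (nat_lit 5) (nat_lit 43) (nat_lit 5) (nat_lit 339) (nat_lit 265) (nat_lit 176)) (XT.nd (nat_lit 78) (nat_lit 0) (nat_lit 0) (XT.lf (nat_lit 0) (nat_lit 3352229761) (nat_lit 304) (nat_lit 13079943305) (nat_lit 76) (nat_lit 3228305999) (nat_lit 39) (nat_lit 5) (nat_lit 43) (nat_lit 5) (nat_lit 40) (nat_lit 5) (nat_lit 340) (nat_lit 265) (nat_lit 175)) (XT.lf (nat_lit 0) (nat_lit 6706954600) (nat_lit 304) (nat_lit 5287203202) (nat_lit 76) (nat_lit 8099744117) (nat_lit 39) (nat_lit 5) (nat_lit 43) (nat_lit 5) (nat_lit 40) (nat_lit 5) (nat_lit 341) (nat_lit 265) (nat_lit 174)))) (XT.nd (nat_lit 78) (nat_lit 0) (nat_lit 0) (XT.lf (nat_lit 0) (nat_lit 2764584595) (nat_lit 152) (nat_lit 7406262346) (nat_lit 228) (nat_lit 10369240860) (nat_lit 37) (nat_lit 5) (nat_lit 39) (nat_lit 5) (nat_lit 40) (nat_lit 5) (nat_lit 342) (nat_lit 265) (nat_lit 173)) (XT.nd (nat_lit 78) (nat_lit 0) (nat_lit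 0) (XT.lf (nat_lit 0) (nat_lit 11137908187) (nat_lit 152) (nat_lit 2636341830) (nat_lit 228) (nat_lit 7224357071) (nat_lit 37) (nat_lit 5) (nat_lit 39) (nat_lit 5) (nat_lit 40) (nat_lit 5) (nat_lit 343) (nat_lit 265) (nat_lit 172)) (XT.lf (nat_lit 0) (nat_lit 17490262951) (nat_lit 228) (nat_lit 1758342969) (nat_lit 76) (nat_lit 2222155991) (nat_lit 37) (nat_lit 5) (nat_lit 40) (nat_lit 5) (nat_lit 38) (nat_lit 5) (nat_lit 344) (nat_lit 265) (nat_lit 171))))))))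
noncomputable def xc124 : XT := (XT.nd (nat_lit 1794) (nat_lit 760) (nat_lit 0) (XT.nd (nat_lit 858) (nat_lit 532) (nat_lit 0) (XT.nd (nat_lit 390) (nat_lit 380) (nat_lit 0) (XT.nd (nat_lit 156) (nat_lit 152) (nat_lit 0) (XT.nd (nat_lit 78) (nat_lit 76) (nat_lit 0) (XT.lf (nat_lit 0) (nat_lit 6663824525) (nat_lit 152) (nat_lit 14727219986) (nat_lit 228) (nat_lit 563852967) (nat_lit 35) (nat_lit 5) (nat_lit 37) (nat_lit 5) (nat_lit 38) (nat_lit 5) (nat_lit 345) (nat_lit 265) (nat_lit 170)) (XT.lf (nat_lit 0) (nat_lit 2898738496) (nat_lit 228) (nat_lit 7134180914) (nat_lit 76) (nat_lit 12419765928) (nat_lit 34) (nat_lit 5) (nat_lit 37) (nat_lit 5) (nat_lit 35) (nat_lit 5) (nat_lit 346) (nat_lit 265) (nat_lit 169))) (XT.nd (nat_lit 78) (nat_lit 0) (nat_lit 0) (XT.lf (nat_lit 0) (nat_lit 1259941622) (nat_lit 152) (nat_lit 5189717218) (nat_lit 228) (nat_lit 16515720487) (nat_lit 32) (nat_lit 5) (nat_lit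 34) (nat_lit 5) (nat_lit 35) (nat_lit 5) (nat_lit 347) (nat_lit 265) (nat_lit 168)) (XT.nd (nat_lit 78) (nat_lit 0) (nat_lit 0) (XT.lf (nat_lit 0) (nat_lit 10025911593) (nat_lit 152) (nat_lit 137132646) (nat_lit 228) (nat_lit 13328744879) (nat_lit 32) (nat_lit 5) (nat_lit 34) (nat_lit 5) (nat_lit 35) (nat_lit 5) (nat_lit 348) (nat_lit 265) (nat_lit 167)) (XT.lf (nat_lit 0) (nat_lit 14020809423) (nat_lit 228) (nat_lit 5053681549) (nat_lit 76) (nat_lit 4958523605) (nat_lit 32) (nat_lit 5) (nat_lit 35) (nat_lit 5) (nat_lit 33) (nat_lit 5) (nat_lit 349) (nat_lit 265) (nat_lit 166))))) (XT.nd (nat_lit 234) (nat_lit 152) (nat_lit 0) (XT.nd (nat_lit 78) (nat_lit 76) (nat_lit 0) (XT.lf (nat_lit 0) (nat_lit 3655768878) (nat_lit 152) (nat_lit 14359766886) (nat_lit 228) (nat_lit 6574316540) (nat_lit 30) (nat_lit 5) (nat_lit 32) (nat_lit 5) (nat_lit 33) (nat_lit 5) (nat_lit 350) (nat_lit 265) (nat_lit 165))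 (XT.nd (nat_lit 78) (nat_lit 76) (nat_lit 0) (XT.lf (nat_lit 0) (nat_lit 12705253430) (nat_lit 152) (nat_lit 9460817671) (nat_lit 228) (nat_lit 2996257039) (nat_lit 30) (nat_lit 5) (nat_lit 32) (nat_lit 5) (nat_lit 33) (nat_lit 5) (nat_lit 351) (nat_lit 265) (nat_lit 164)) (XT.lf (nat_lit 0) (nat_lit 660914049) (nat_lit 228) (nat_lit 3756806981) (nat_lit 76) (nat_lit 21334513264) (nat_lit 29) (nat_lit 5) (nat_lit 32) (nat_lit 5) (nat_lit 30) (nat_lit 5) (nat_lit 352) (nat_lit 265) (nat_lit 163)))) (XT.nd (nat_lit 78) (nat_lit 0) (nat_lit 0) (XT.lf (nat_lit 0) (nat_lit 4411896914) (nat_lit 228) (nat_lit 21112439404) (nat_lit 76) (nat_lit 833292759) (nat_lit 27) (nat_lit 5) (nat_lit 30) (nat_lit 5) (nat_lit 28) (nat_lit 5) (nat_lit 353) (nat_lit 265) (nat_lit 162)) (XT.nd (nat_lit 78) (nat_lit 0) (nat_lit 0) (XT.lf (nat_lit 0) (nat_lit 8343211783) (nat_lit 228) (nat_lit 12453734579) (nat_lit 76)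 (nat_lit 6182215920) (nat_lit 27) (nat_lit 5) (nat_lit 30) (nat_lit 5) (nat_lit 28) (nat_lit 5) (nat_lit 354) (nat_lit 265) (nat_lit 161)) (XT.lf (nat_lit 0) (nat_lit 12378631841) (nat_lit 228) (nat_lit 3558403205) (nat_lit 76) (nat_lit 11682731808) (nat_lit 27) (nat_lit 5) (nat_lit 30) (nat_lit 5) (nat_lit 28) (nat_lit 5) (nat_lit 355) (nat_lit 265) (nat_lit 160)))))) (XT.nd (nat_lit 468) (nat_lit 228) (nat_lit 0) (XT.nd (nat_lit 234) (nat_lit 152) (nat_lit 0) (XT.nd (nat_lit 78) (nat_lit 0) (nat_lit 0) (XT.lf (nat_lit 0) (nat_lit 5692406692) (nat_lit 152) (nat_lit 10883995385) (nat_lit 228) (nat_lit 11701958903) (nat_lit 25) (nat_lit 5) (nat_lit 27) (nat_lit 5) (nat_lit 28) (nat_lit 5) (nat_lit 356) (nat_lit 265) (nat_lit 159)) (XT.nd (nat_lit 78) (nat_lit 0) (nat_lit 0) (XT.lf (nat_lit 0) (nat_lit 15271444095) (nat_lit 152) (nat_lit 5651340317) (nat_lit 228) (nat_lit 8033257898) (nat_lit 25)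 (nat_lit 5) (nat_lit 27) (nat_lit 5) (nat_lit 28) (nat_lit 5) (nat_lit 357) (nat_lit 265) (nat_lit 158)) (XT.lf (nat_lit 0) (nat_lit 25116259832) (nat_lit 152) (nat_lit 270430515) (nat_lit 228) (nat_lit 4267759234) (nat_lit 25) (nat_lit 5) (nat_lit 27) (nat_lit 5) (nat_lit 28) (nat_lit 5) (nat_lit 358) (nat_lit 265) (nat_lit 157)))) (XT.nd (nat_lit 78) (nat_lit 76) (nat_lit 0) (XT.lf (nat_lit 0) (nat_lit 4906409472) (nat_lit 76) (nat_lit 25163369686) (nat_lit 152) (nat_lit 301481133) (nat_lit 24) (nat_lit 5) (nat_lit 25) (nat_lit 5) (nat_lit 26) (nat_lit 4) (nat_lit 359) (nat_lit 265) (nat_lit 156)) (XT.nd (nat_lit 78) (nat_lit 0) (nat_lit 0) (XT.lf (nat_lit 0) (nat_lit 3746365806) (nat_lit 152) (nat_lit 16441644937) (nat_lit 76) (nat_lit 10919389606) (nat_lit 23) (nat_lit 5) (nat_lit 25) (nat_lit 5) (nat_lit 24) (nat_lit 5) (nat_lit 360) (nat_lit 265) (nat_lit 155)) (XT.lf (nat_lit 0) (nat_lit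 7897411688) (nat_lit 152) (nat_lit 7171423192) (nat_lit 76) (nat_lit 16797073902) (nat_lit 23) (nat_lit 5) (nat_lit 25) (nat_lit 5) (nat_lit 24) (nat_lit 5) (nat_lit 361) (nat_lit 265) (nat_lit 154))))) (XT.nd (nat_lit 234) (nat_lit 76) (nat_lit 0) (XT.nd (nat_lit 78) (nat_lit 0) (nat_lit 0) (XT.lf (nat_lit 0) (nat_lit 2403717824) (nat_lit 152) (nat_lit 9780554805) (nat_lit 228) (nat_lit 20462569494) (nat_lit 21) (nat_lit 5) (nat_lit 23) (nat_lit 5) (nat_lit 24) (nat_lit 5) (nat_lit 362) (nat_lit 265) (nat_lit 153)) (XT.nd (nat_lit 78) (nat_lit 0) (nat_lit 0) (XT.lf (nat_lit 0) (nat_lit 12393224627) (nat_lit 152) (nat_lit 4267262850) (nat_lit 228) (nat_lit 16788901471) (nat_lit 21) (nat_lit 5) (nat_lit 23) (nat_lit 5) (nat_lit 24) (nat_lit 5) (nat_lit 363) (nat_lit 265) (nat_lit 152)) (XT.lf (nat_lit 0) (nat_lit 21273150153) (nat_lit 228) (nat_lit 11626749962) (nat_lit 76) (nat_lit 1376054919)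 (nat_lit 21) (nat_lit 5) (nat_lit 24) (nat_lit 5) (nat_lit 22) (nat_lit 4) (nat_lit 364) (nat_lit 265) (nat_lit 151)))) (XT.nd (nat_lit 78) (nat_lit 76) (nat_lit 0) (XT.lf (nat_lit 0) (nat_lit 26055368928) (nat_lit 228) (nat_lit 1975719716) (nat_lit 76) (nat_lit 7095301646) (nat_lit 21) (nat_lit 5) (nat_lit 24) (nat_lit 5) (nat_lit 22) (nat_lit 4) (nat_lit 365) (nat_lit 265) (nat_lit 150)) (XT.nd (nat_lit 78) (nat_lit 0) (nat_lit 0) (XT.lf (nat_lit 0) (nat_lit 8104527419) (nat_lit 76) (nat_lit 22943681154) (nat_lit 152) (nat_lit 4952122655) (nat_lit 20) (nat_lit 5) (nat_lit 21) (nat_lit 5) (nat_lit 22) (nat_lit 4) (nat_lit 366) (nat_lit 265) (nat_lit 149)) (XT.lf (nat_lit 0) (nat_lit 18509400750) (nat_lit 76) (nat_lit 17690769599) (nat_lit 152) (nat_lit 700046981) (nat_lit 20) (nat_lit 5) (nat_lit 21) (nat_lit 5) (nat_lit 22) (nat_lit 4) (nat_lit 367) (nat_lit 265) (nat_lit 148))))))) (XT.nd (nat_lit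 936) (nat_lit 228) (nat_lit 0) (XT.nd (nat_lit 468) (nat_lit 228) (nat_lit 0) (XT.nd (nat_lit 234) (nat_lit 76) (nat_lit 0) (XT.nd (nat_lit 78) (nat_lit 152) (nat_lit 0) (XT.lf (nat_lit 0) (nat_lit 3597375345) (nat_lit 152) (nat_lit 8654013166) (nat_lit 76) (nat_lit 25574969435) (nat_lit 19) (nat_lit 5) (nat_lit 21) (nat_lit 5) (nat_lit 20) (nat_lit 5) (nat_lit 368) (nat_lit 265) (nat_lit 147)) (XT.nd (nat_lit 78) (nat_lit 0) (nat_lit 0) (XT.lf (nat_lit 0) (nat_lit 1377401496) (nat_lit 152) (nat_lit 6635378784) (nat_lit 228) (nat_lit 30767207107) (nat_lit 17) (nat_lit 5) (nat_lit 19) (nat_lit 5) (nat_lit 20) (nat_lit 5) (nat_lit 369) (nat_lit 265) (nat_lit 146)) (XT.lf (nat_lit 0) (nat_lit 11869888603) (nat_lit 152) (nat_lit 768165564) (nat_lit 228) (nat_lit 27121855598) (nat_lit 17) (nat_lit 5) (nat_lit 19) (nat_lit 5) (nat_lit 20) (nat_lit 5) (nat_lit 370) (nat_lit 265) (nat_lit 145)))) (XT.nd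 (nat_lit 78) (nat_lit 76) (nat_lit 0) (XT.lf (nat_lit 0) (nat_lit 17443034377) (nat_lit 228) (nat_lit 18159781242) (nat_lit 76) (nat_lit 5165191829) (nat_lit 17) (nat_lit 5) (nat_lit 20) (nat_lit 5) (nat_lit 18) (nat_lit 4) (nat_lit 371) (nat_lit 265) (nat_lit 144)) (XT.nd (nat_lit 78) (nat_lit 76) (nat_lit 0) (XT.lf (nat_lit 0) (nat_lit 22390294798) (nat_lit 228) (nat_lit 8161739342) (nat_lit 76) (nat_lit 11254375896) (nat_lit 17) (nat_lit 5) (nat_lit 20) (nat_lit 5) (nat_lit 18) (nat_lit 4) (nat_lit 372) (nat_lit 265) (nat_lit 143)) (XT.lf (nat_lit 0) (nat_lit 2162421397) (nat_lit 76) (nat_lit 25335139323) (nat_lit 152) (nat_lit 15378062078) (nat_lit 16) (nat_lit 5) (nat_lit 17) (nat_lit 5) (nat_lit 18) (nat_lit 4) (nat_lit 373) (nat_lit 265) (nat_lit 142))))) (XT.nd (nat_lit 234) (nat_lit 228) (nat_lit 0) (XT.nd (nat_lit 78) (nat_lit 0) (nat_lit 0) (XT.lf (nat_lit 0) (nat_lit 12947752617) (nat_lit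 76) (nat_lit 19883626190) (nat_lit 152) (nat_lit 11143338670) (nat_lit 16) (nat_lit 5) (nat_lit 17) (nat_lit 5) (nat_lit 18) (nat_lit 4) (nat_lit 374) (nat_lit 265) (nat_lit 141)) (XT.nd (nat_lit 78) (nat_lit 0) (nat_lit 0) (XT.lf (nat_lit 0) (nat_lit 24041243775) (nat_lit 76) (nat_lit 14275148849) (nat_lit 152) (nat_lit 6790662336) (nat_lit 16) (nat_lit 5) (nat_lit 17) (nat_lit 5) (nat_lit 18) (nat_lit 4) (nat_lit 375) (nat_lit 265) (nat_lit 140)) (XT.lf (nat_lit 0) (nat_lit 35452588213) (nat_lit 76) (nat_lit 8504806688) (nat_lit 152) (nat_lit 2316229766) (nat_lit 16) (nat_lit 5) (nat_lit 17) (nat_lit 5) (nat_lit 18) (nat_lit 4) (nat_lit 376) (nat_lit 265) (nat_lit 139)))) (XT.nd (nat_lit 78) (nat_lit 152) (nat_lit 0) (XT.lf (nat_lit 0) (nat_lit 2239302233) (nat_lit 152) (nat_lit 305642865) (nat_lit 76) (nat_lit 44929842215) (nat_lit 15) (nat_lit 5) (nat_lit 17) (nat_lit 5) (nat_lit 16) (nat_lit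 5) (nat_lit 377) (nat_lit 265) (nat_lit 138)) (XT.nd (nat_lit 78) (nat_lit 0) (nat_lit 0) (XT.lf (nat_lit 0) (nat_lit 7015346166) (nat_lit 228) (nat_lit 38047441553) (nat_lit 76) (nat_lit 3644601931) (nat_lit 13) (nat_lit 5) (nat_lit 16) (nat_lit 5) (nat_lit 14) (nat_lit 4) (nat_lit 378) (nat_lit 265) (nat_lit 137)) (XT.lf (nat_lit 0) (nat_lit 11954874108) (nat_lit 228) (nat_lit 28055641744) (nat_lit 76) (nat_lit 9965852780) (nat_lit 13) (nat_lit 5) (nat_lit 16) (nat_lit 5) (nat_lit 14) (nat_lit 4) (nat_lit 379) (nat_lit 265) (nat_lit 136)))))) (XT.nd (nat_lit 468) (nat_lit 152) (nat_lit 0) (XT.nd (nat_lit 234) (nat_lit 0) (nat_lit 0) (XT.nd (nat_lit 78) (nat_lit 76) (nat_lit 0) (XT.lf (nat_lit 0) (nat_lit 17034712415) (nat_lit 228) (nat_lit 17777979603) (nat_lit 76) (nat_lit 16470965750) (nat_lit 13) (nat_lit 5) (nat_lit 16) (nat_lit 5) (nat_lit 14) (nat_lit 4) (nat_lit 380) (nat_lit 265) (nat_lit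 135)) (XT.nd (nat_lit 78) (nat_lit 76) (nat_lit 0) (XT.lf (nat_lit 0) (nat_lit 22259299783) (nat_lit 228) (nat_lit 7205474650) (nat_lit 76) (nat_lit 23165624919) (nat_lit 13) (nat_lit 5) (nat_lit 16) (nat_lit 5) (nat_lit 14) (nat_lit 4) (nat_lit 381) (nat_lit 265) (nat_lit 134)) (XT.lf (nat_lit 0) (nat_lit 3744173538) (nat_lit 76) (nat_lit 23925019131) (nat_lit 152) (nat_lit 26347497738) (nat_lit 12) (nat_lit 5) (nat_lit 13) (nat_lit 5) (nat_lit 14) (nat_lit 4) (nat_lit 382) (nat_lit 265) (nat_lit 133)))) (XT.nd (nat_lit 78) (nat_lit 0) (nat_lit 0) (XT.lf (nat_lit 0) (nat_lit 15157050488) (nat_lit 76) (nat_lit 18149761211) (nat_lit 152) (nat_lit 22135799751) (nat_lit 12) (nat_lit 5) (nat_lit 13) (nat_lit 5) (nat_lit 14) (nat_lit 4) (nat_lit 383) (nat_lit 265) (nat_lit 132)) (XT.nd (nat_lit 78) (nat_lit 0) (nat_lit 0) (XT.lf (nat_lit 0) (nat_lit 26899725542) (nat_lit 76) (nat_lit 12206715496) (nat_lit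 152) (nat_lit 17805086651) (nat_lit 12) (nat_lit 5) (nat_lit 13) (nat_lit 5) (nat_lit 14) (nat_lit 4) (nat_lit 384) (nat_lit 265) (nat_lit 131)) (XT.lf (nat_lit 0) (nat_lit 38982459291) (nat_lit 76) (nat_lit 6090689034) (nat_lit 152) (nat_lit 13351574319) (nat_lit 12) (nat_lit 5) (nat_lit 13) (nat_lit 5) (nat_lit 14) (nat_lit 4) (nat_lit 385) (nat_lit 265) (nat_lit 130))))) (XT.nd (nat_lit 234) (nat_lit 0) (nat_lit 0) (XT.nd (nat_lit 78) (nat_lit 152) (nat_lit 0) (XT.lf (nat_lit 0) (nat_lit 51214104914) (nat_lit 152) (nat_lit 8569666787) (nat_lit 0) (nat_lit 199688090) (nat_lit 12) (nat_lit 5) (nat_lit 14) (nat_lit 4) (nat_lit 12) (nat_lit 4) (nat_lit 386) (nat_lit 265) (nat_lit 129)) (XT.nd (nat_lit 78) (nat_lit 76) (nat_lit 0) (XT.lf (nat_lit 0) (nat_lit 2608024807) (nat_lit 76) (nat_lit 55010076839) (nat_lit 76) (nat_lit 3968496740) (nat_lit 11) (nat_lit 4) (nat_lit 12) (nat_lit 5) (nat_lit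 12) (nat_lit 4) (nat_lit 387) (nat_lit 265) (nat_lit 128)) (XT.lf (nat_lit 0) (nat_lit 1038177974) (nat_lit 152) (nat_lit 48960450922) (nat_lit 76) (nat_lit 13236498828) (nat_lit 10) (nat_lit 5) (nat_lit 12) (nat_lit 5) (nat_lit 11) (nat_lit 4) (nat_lit 388) (nat_lit 265) (nat_lit 127)))) (XT.nd (nat_lit 78) (nat_lit 0) (nat_lit 0) (XT.lf (nat_lit 0) (nat_lit 6108930882) (nat_lit 152) (nat_lit 38692426511) (nat_lit 76) (nat_lit 20130770929) (nat_lit 10) (nat_lit 5) (nat_lit 12) (nat_lit 5) (nat_lit 11) (nat_lit 4) (nat_lit 389) (nat_lit 265) (nat_lit 126)) (XT.nd (nat_lit 78) (nat_lit 0) (nat_lit 0) (XT.lf (nat_lit 0) (nat_lit 11325632404) (nat_lit 152) (nat_lit 28127380666) (nat_lit 76) (nat_lit 27227214353) (nat_lit 10) (nat_lit 5) (nat_lit 12) (nat_lit 5) (nat_lit 11) (nat_lit 4) (nat_lit 390) (nat_lit 265) (nat_lit 125)) (XT.lf (nat_lit 0) (nat_lit 16692840822) (nat_lit 152) (nat_lit 17256081796)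 (nat_lit 76) (nat_lit 34532029874) (nat_lit 10) (nat_lit 5) (nat_lit 12) (nat_lit 5) (nat_lit 11) (nat_lit 4) (nat_lit 391) (nat_lit 265) (nat_lit 124))))))))
noncomputable def xc125 : XT := (XT.nd (nat_lit 32214) (nat_lit 0) (nat_lit 7296) (XT.nd (nat_lit 31278) (nat_lit 0) (nat_lit 16568) (XT.nd (nat_lit 30810) (nat_lit 0) (nat_lit 19228) (XT.nd (nat_lit 234) (nat_lit 0) (nat_lit 0) (XT.nd (nat_lit 78) (nat_lit 76) (nat_lit 0) (XT.lf (nat_lit 0) (nat_lit 22215245930) (nat_lit 152) (nat_lit 6069030706) (nat_lit 76) (nat_lit 42051600343) (nat_lit 10) (nat_lit 5) (nat_lit 12) (nat_lit 5) (nat_lit 11) (nat_lit 4) (nat_lit 392) (nat_lit 265) (nat_lit 123)) (XT.nd (nat_lit 78) (nat_lit 0) (nat_lit 0) (XT.lf (nat_lit 0) (nat_lit 5551884968) (nat_lit 76) (nat_lit 22399156277) (nat_lit 152) (nat_lit 44293979402) (nat_lit 9) (nat_lit 5) (nat_lit 10) (nat_lit 5) (nat_lit 11) (nat_lit 4) (nat_lit 393) (nat_lit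 265) (nat_lit 122)) (XT.lf (nat_lit 0) (nat_lit 17635851938) (nat_lit 76) (nat_lit 16278762311) (nat_lit 152) (nat_lit 40295156164) (nat_lit 9) (nat_lit 5) (nat_lit 10) (nat_lit 5) (nat_lit 11) (nat_lit 4) (nat_lit 394) (nat_lit 265) (nat_lit 121)))) (XT.nd (nat_lit 78) (nat_lit 0) (nat_lit 0) (XT.lf (nat_lit 0) (nat_lit 30072643397) (nat_lit 76) (nat_lit 9979032132) (nat_lit 152) (nat_lit 36181952527) (nat_lit 9) (nat_lit 5) (nat_lit 10) (nat_lit 5) (nat_lit 11) (nat_lit 4) (nat_lit 395) (nat_lit 265) (nat_lit 120)) (XT.nd (nat_lit 78) (nat_lit 0) (nat_lit 0) (XT.lf (nat_lit 0) (nat_lit 42873126445) (nat_lit 76) (nat_lit 3494461122) (nat_lit 152) (nat_lit 31950774431) (nat_lit 9) (nat_lit 5) (nat_lit 10) (nat_lit 5) (nat_lit 11) (nat_lit 4) (nat_lit 396) (nat_lit 265) (nat_lit 119)) (XT.lf (nat_lit 0) (nat_lit 52898443155) (nat_lit 152) (nat_lit 24447881913) (nat_lit 0) (nat_lit 3118551558) (nat_lit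 9) (nat_lit 5) (nat_lit 11) (nat_lit 4) (nat_lit 9) (nat_lit 4) (nat_lit 397) (nat_lit 265) (nat_lit 118))))) (XT.nd (nat_lit 234) (nat_lit 456) (nat_lit 0) (XT.nd (nat_lit 78) (nat_lit 532) (nat_lit 0) (XT.lf (nat_lit 0) (nat_lit 1162539546) (nat_lit 0) (nat_lit 1162539546) (nat_lit 380) (nat_lit 975565407) (nat_lit 275) (nat_lit 5) (nat_lit 275) (nat_lit 3) (nat_lit 280) (nat_lit 3) (nat_lit 266) (nat_lit 266) (nat_lit 248)) (XT.nd (nat_lit 78) (nat_lit 0) (nat_lit 0) (XT.lf (nat_lit 0) (nat_lit 247210550) (nat_lit 532) (nat_lit 1299797536) (nat_lit 532) (nat_lit 5082469289) (nat_lit 268) (nat_lit 3) (nat_lit 275) (nat_lit 3) (nat_lit 275) (nat_lit 5) (nat_lit 267) (nat_lit 266) (nat_lit 247)) (XT.lf (nat_lit 76) (nat_lit 1736363918) (nat_lit 0) (nat_lit 667184304) (nat_lit 532) (nat_lit 4256669529) (nat_lit 269) (nat_lit 5) (nat_lit 268) (nat_lit 3) (nat_lit 275) (nat_lit 5) (nat_lit 268) (nat_lit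 266) (nat_lit 246)))) (XT.nd (nat_lit 78) (nat_lit 532) (nat_lit 0) (XT.lf (nat_lit 0) (nat_lit 4557149870) (nat_lit 456) (nat_lit 1850434460) (nat_lit 532) (nat_lit 286536023) (nat_lit 269) (nat_lit 5) (nat_lit 275) (nat_lit 5) (nat_lit 276) (nat_lit 5) (nat_lit 269) (nat_lit 266) (nat_lit 245)) (XT.nd (nat_lit 78) (nat_lit 532) (nat_lit 0) (XT.lf (nat_lit 76) (nat_lit 1288308647) (nat_lit 0) (nat_lit 5425478328) (nat_lit 532) (nat_lit 17311141) (nat_lit 270) (nat_lit 5) (nat_lit 269) (nat_lit 5) (nat_lit 276) (nat_lit 5) (nat_lit 270) (nat_lit 266) (nat_lit 244)) (XT.lf (nat_lit 0) (nat_lit 2062915872) (nat_lit 532) (nat_lit 2277234752) (nat_lit 608) (nat_lit 2430431484) (nat_lit 262) (nat_lit 5) (nat_lit 269) (nat_lit 5) (nat_lit 270) (nat_lit 5) (nat_lit 271) (nat_lit 266) (nat_lit 243)))))) (XT.nd (nat_lit 468) (nat_lit 1444) (nat_lit 0) (XT.nd (nat_lit 234) (nat_lit 608) (nat_lit 0) (XT.nd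 (nat_lit 78) (nat_lit 608) (nat_lit 0) (XT.lf (nat_lit 76) (nat_lit 956388548) (nat_lit 0) (nat_lit 3180698229) (nat_lit 608) (nat_lit 2676395156) (nat_lit 263) (nat_lit 5) (nat_lit 262) (nat_lit 5) (nat_lit 270) (nat_lit 5) (nat_lit 272) (nat_lit 266) (nat_lit 242)) (XT.nd (nat_lit 78) (nat_lit 608) (nat_lit 0) (XT.lf (nat_lit 76) (nat_lit 4288757374) (nat_lit 0) (nat_lit 1932232338) (nat_lit 608) (nat_lit 638441221) (nat_lit 263) (nat_lit 5) (nat_lit 262) (nat_lit 5) (nat_lit 270) (nat_lit 5) (nat_lit 273) (nat_lit 266) (nat_lit 241)) (XT.lf (nat_lit 76) (nat_lit 770035926) (nat_lit 0) (nat_lit 595320865) (nat_lit 684) (nat_lit 5543160781) (nat_lit 255) (nat_lit 5) (nat_lit 254) (nat_lit 5) (nat_lit 263) (nat_lit 5) (nat_lit 274) (nat_lit 266) (nat_lit 240)))) (XT.nd (nat_lit 78) (nat_lit 684) (nat_lit 0) (XT.lf (nat_lit 0) (nat_lit 3377968038) (nat_lit 608) (nat_lit 2756182774) (nat_lit 684)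 (nat_lit 826061907) (nat_lit 255) (nat_lit 5) (nat_lit 263) (nat_lit 5) (nat_lit 264) (nat_lit 5) (nat_lit 275) (nat_lit 266) (nat_lit 239)) (XT.nd (nat_lit 78) (nat_lit 684) (nat_lit 0) (XT.lf (nat_lit 76) (nat_lit 689063773) (nat_lit 0) (nat_lit 4704316078) (nat_lit 684) (nat_lit 1621972692) (nat_lit 256) (nat_lit 5) (nat_lit 255) (nat_lit 5) (nat_lit 264) (nat_lit 5) (nat_lit 276) (nat_lit 266) (nat_lit 238)) (XT.lf (nat_lit 0) (nat_lit 348136777) (nat_lit 684) (nat_lit 2828395810) (nat_lit 760) (nat_lit 3896893041) (nat_lit 246) (nat_lit 5) (nat_lit 255) (nat_lit 5) (nat_lit 256) (nat_lit 5) (nat_lit 277) (nat_lit 266) (nat_lit 237))))) (XT.nd (nat_lit 234) (nat_lit 836) (nat_lit 0) (XT.nd (nat_lit 78) (nat_lit 608) (nat_lit 0) (XT.lf (nat_lit 76) (nat_lit 726772118) (nat_lit 0) (nat_lit 1557653558) (nat_lit 760) (nat_lit 4850295533) (nat_lit 247) (nat_lit 5) (nat_lit 246) (nat_lit 5) (nat_lit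 256) (nat_lit 5) (nat_lit 278) (nat_lit 266) (nat_lit 236)) (XT.nd (nat_lit 78) (nat_lit 684) (nat_lit 0) (XT.lf (nat_lit 0) (nat_lit 4243113941) (nat_lit 684) (nat_lit 2799416379) (nat_lit 76) (nat_lit 156543940) (nat_lit 247) (nat_lit 5) (nat_lit 256) (nat_lit 5) (nat_lit 248) (nat_lit 5) (nat_lit 279) (nat_lit 266) (nat_lit 235)) (XT.lf (nat_lit 0) (nat_lit 872713954) (nat_lit 684) (nat_lit 5347981899) (nat_lit 760) (nat_lit 1046001677) (nat_lit 238) (nat_lit 5) (nat_lit 247) (nat_lit 5) (nat_lit 248) (nat_lit 5) (nat_lit 280) (nat_lit 266) (nat_lit 234)))) (XT.nd (nat_lit 78) (nat_lit 760) (nat_lit 0) (XT.lf (nat_lit 0) (nat_lit 868809983) (nat_lit 760) (nat_lit 2679445302) (nat_lit 76) (nat_lit 3788997976) (nat_lit 237) (nat_lit 5) (nat_lit 247) (nat_lit 5) (nat_lit 238) (nat_lit 5) (nat_lit 281) (nat_lit 266) (nat_lit 233)) (XT.nd (nat_lit 78) (nat_lit 0) (nat_lit 0) (XT.lf (nat_lit 0) (nat_lit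 1112045703) (nat_lit 760) (nat_lit 1657504582) (nat_lit 836) (nat_lit 4641710876) (nat_lit 227) (nat_lit 5) (nat_lit 237) (nat_lit 5) (nat_lit 238) (nat_lit 5) (nat_lit 282) (nat_lit 266) (nat_lit 232)) (XT.lf (nat_lit 0) (nat_lit 4697728193) (nat_lit 836) (nat_lit 2464964752) (nat_lit 76) (nat_lit 325811493) (nat_lit 227) (nat_lit 5) (nat_lit 238) (nat_lit 5) (nat_lit 228) (nat_lit 5) (nat_lit 283) (nat_lit 266) (nat_lit 231))))))) (XT.nd (nat_lit 936) (nat_lit 2964) (nat_lit 0) (XT.nd (nat_lit 468) (nat_lit 3420) (nat_lit 0) (XT.nd (nat_lit 234) (nat_lit 1064) (nat_lit 0) (XT.nd (nat_lit 78) (nat_lit 988) (nat_lit 0) (XT.lf (nat_lit 0) (nat_lit 1450142409) (nat_lit 836) (nat_lit 5206001372) (nat_lit 912) (nat_lit 912873347) (nat_lit 216) (nat_lit 5) (nat_lit 227) (nat_lit 5) (nat_lit 228) (nat_lit 5) (nat_lit 284) (nat_lit 266) (nat_lit 230)) (XT.nd (nat_lit 78) (nat_lit 912) (nat_lit 0) (XT.lf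 (nat_lit 0) (nat_lit 969185917) (nat_lit 912) (nat_lit 2174895753) (nat_lit 76) (nat_lit 4508653266) (nat_lit 215) (nat_lit 5) (nat_lit 227) (nat_lit 5) (nat_lit 216) (nat_lit 5) (nat_lit 285) (nat_lit 266) (nat_lit 229)) (XT.lf (nat_lit 0) (nat_lit 1869341832) (nat_lit 912) (nat_lit 982270089) (nat_lit 988) (nat_lit 4888326995) (nat_lit 203) (nat_lit 5) (nat_lit 215) (nat_lit 5) (nat_lit 216) (nat_lit 5) (nat_lit 286) (nat_lit 266) (nat_lit 228)))) (XT.nd (nat_lit 78) (nat_lit 1064) (nat_lit 0) (XT.lf (nat_lit 0) (nat_lit 4770216568) (nat_lit 988) (nat_lit 1808680557) (nat_lit 76) (nat_lit 1251580785) (nat_lit 203) (nat_lit 5) (nat_lit 216) (nat_lit 5) (nat_lit 204) (nat_lit 5) (nat_lit 287) (nat_lit 266) (nat_lit 227)) (XT.nd (nat_lit 78) (nat_lit 76) (nat_lit 0) (XT.lf (nat_lit 0) (nat_lit 2366012352) (nat_lit 988) (nat_lit 4359985846) (nat_lit 1064) (nat_lit 1198453172) (nat_lit 190) (nat_lit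 5) (nat_lit 203) (nat_lit 5) (nat_lit 204) (nat_lit 5) (nat_lit 288) (nat_lit 266) (nat_lit 226)) (XT.lf (nat_lit 0) (nat_lit 671261637) (nat_lit 1064) (nat_lit 1370989722) (nat_lit 76) (nat_lit 5979903399) (nat_lit 189) (nat_lit 5) (nat_lit 203) (nat_lit 5) (nat_lit 190) (nat_lit 5) (nat_lit 289) (nat_lit 266) (nat_lit 225))))) (XT.nd (nat_lit 234) (nat_lit 1216) (nat_lit 0) (XT.nd (nat_lit 78) (nat_lit 1140) (nat_lit 0) (XT.lf (nat_lit 0) (nat_lit 2554205956) (nat_lit 1140) (nat_lit 5184212887) (nat_lit 76) (nat_lit 384675450) (nat_lit 175) (nat_lit 5) (nat_lit 190) (nat_lit 5) (nat_lit 176) (nat_lit 5) (nat_lit 290) (nat_lit 266) (nat_lit 224)) (XT.nd (nat_lit 78) (nat_lit 1140) (nat_lit 0) (XT.lf (nat_lit 0) (nat_lit 4478111901) (nat_lit 1140) (nat_lit 886926481) (nat_lit 76) (nat_lit 2862584378) (nat_lit 175) (nat_lit 5) (nat_lit 190) (nat_lit 5) (nat_lit 176) (nat_lit 5) (nat_lit 291) (nat_lit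 266) (nat_lit 223)) (XT.lf (nat_lit 0) (nat_lit 3564093786) (nat_lit 1140) (nat_lit 2881621496) (nat_lit 1216) (nat_lit 1890084576) (nat_lit 160) (nat_lit 5) (nat_lit 175) (nat_lit 5) (nat_lit 176) (nat_lit 5) (nat_lit 292) (nat_lit 266) (nat_lit 222)))) (XT.nd (nat_lit 78) (nat_lit 1216) (nat_lit 0) (XT.lf (nat_lit 0) (nat_lit 8122531307) (nat_lit 1140) (nat_lit 311472109) (nat_lit 1216) (nat_lit 14458649) (nat_lit 160) (nat_lit 5) (nat_lit 175) (nat_lit 5) (nat_lit 176) (nat_lit 5) (nat_lit 293) (nat_lit 266) (nat_lit 221)) (XT.nd (nat_lit 78) (nat_lit 608) (nat_lit 0) (XT.lf (nat_lit 0) (nat_lit 1897709987) (nat_lit 608) (nat_lit 4313085149) (nat_lit 76) (nat_lit 2352709714) (nat_lit 152) (nat_lit 5) (nat_lit 160) (nat_lit 5) (nat_lit 153) (nat_lit 5) (nat_lit 294) (nat_lit 266) (nat_lit 220)) (XT.lf (nat_lit 0) (nat_lit 245320914) (nat_lit 608) (nat_lit 3584889315) (nat_lit 684) (nat_lit 4852968581)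 (nat_lit 144) (nat_lit 5) (nat_lit 152) (nat_lit 5) (nat_lit 153) (nat_lit 5) (nat_lit 295) (nat_lit 266) (nat_lit 219)))))) (XT.nd (nat_lit 468) (nat_lit 1368) (nat_lit 0) (XT.nd (nat_lit 234) (nat_lit 988) (nat_lit 0) (XT.nd (nat_lit 78) (nat_lit 608) (nat_lit 0) (XT.lf (nat_lit 0) (nat_lit 4984286516) (nat_lit 608) (nat_lit 835340624) (nat_lit 684) (nat_lit 2986927117) (nat_lit 144) (nat_lit 5) (nat_lit 152) (nat_lit 5) (nat_lit 153) (nat_lit 5) (nat_lit 296) (nat_lit 266) (nat_lit 218)) (XT.nd (nat_lit 78) (nat_lit 76) (nat_lit 0) (XT.lf (nat_lit 0) (nat_lit 885185761) (nat_lit 532) (nat_lit 6967930582) (nat_lit 608) (nat_lit 1081060133) (nat_lit 137) (nat_lit 5) (nat_lit 144) (nat_lit 5) (nat_lit 145) (nat_lit 5) (nat_lit 297) (nat_lit 266) (nat_lit 217)) (XT.lf (nat_lit 0) (nat_lit 869052013) (nat_lit 608) (nat_lit 3314558792) (nat_lit 76) (nat_lit 4881706585) (nat_lit 136) (nat_lit 5) (nat_lit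 144) (nat_lit 5) (nat_lit 137) (nat_lit 5) (nat_lit 298) (nat_lit 266) (nat_lit 216)))) (XT.nd (nat_lit 78) (nat_lit 456) (nat_lit 0) (XT.lf (nat_lit 0) (nat_lit 1537343421) (nat_lit 532) (nat_lit 1291654868) (nat_lit 608) (nat_lit 6371952014) (nat_lit 129) (nat_lit 5) (nat_lit 136) (nat_lit 5) (nat_lit 137) (nat_lit 5) (nat_lit 299) (nat_lit 266) (nat_lit 215)) (XT.nd (nat_lit 78) (nat_lit 456) (nat_lit 0) (XT.lf (nat_lit 0) (nat_lit 4856816616) (nat_lit 608) (nat_lit 2798148979) (nat_lit 76) (nat_lit 1685482992) (nat_lit 129) (nat_lit 5) (nat_lit 137) (nat_lit 5) (nat_lit 130) (nat_lit 5) (nat_lit 300) (nat_lit 266) (nat_lit 214)) (XT.lf (nat_lit 0) (nat_lit 2200015828) (nat_lit 456) (nat_lit 4739637481) (nat_lit 532) (nat_lit 2544719588) (nat_lit 123) (nat_lit 5) (nat_lit 129) (nat_lit 5) (nat_lit 130) (nat_lit 5) (nat_lit 301) (nat_lit 266) (nat_lit 213))))) (XT.nd (nat_lit 234) (nat_lit 836)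 (nat_lit 0) (XT.nd (nat_lit 78) (nat_lit 532) (nat_lit 0) (XT.lf (nat_lit 0) (nat_lit 7362511962) (nat_lit 456) (nat_lit 1711710982) (nat_lit 532) (nat_lit 558779214) (nat_lit 123) (nat_lit 5) (nat_lit 129) (nat_lit 5) (nat_lit 130) (nat_lit 5) (nat_lit 302) (nat_lit 266) (nat_lit 212)) (XT.nd (nat_lit 78) (nat_lit 0) (nat_lit 0) (XT.lf (nat_lit 0) (nat_lit 1461134306) (nat_lit 532) (nat_lit 6906521370) (nat_lit 76) (nat_lit 1417964620) (nat_lit 116) (nat_lit 5) (nat_lit 123) (nat_lit 5) (nat_lit 117) (nat_lit 5) (nat_lit 303) (nat_lit 266) (nat_lit 211)) (XT.lf (nat_lit 0) (nat_lit 3532875399) (nat_lit 532) (nat_lit 1778388803) (nat_lit 76) (nat_lit 4631372140) (nat_lit 116) (nat_lit 5) (nat_lit 123) (nat_lit 5) (nat_lit 117) (nat_lit 5) (nat_lit 304) (nat_lit 266) (nat_lit 210)))) (XT.nd (nat_lit 78) (nat_lit 456) (nat_lit 0) (XT.lf (nat_lit 0) (nat_lit 3530469145) (nat_lit 380) (nat_lit 2133691888)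 (nat_lit 456) (nat_lit 4440337512) (nat_lit 111) (nat_lit 5) (nat_lit 116) (nat_lit 5) (nat_lit 117) (nat_lit 5) (nat_lit 305) (nat_lit 266) (nat_lit 209)) (XT.nd (nat_lit 78) (nat_lit 456) (nat_lit 0) (XT.lf (nat_lit 0) (nat_lit 7852536883) (nat_lit 456) (nat_lit 1289434472) (nat_lit 76) (nat_lit 1129506479) (nat_lit 111) (nat_lit 5) (nat_lit 117) (nat_lit 5) (nat_lit 112) (nat_lit 5) (nat_lit 306) (nat_lit 266) (nat_lit 208)) (XT.lf (nat_lit 0) (nat_lit 4172561232) (nat_lit 456) (nat_lit 5960349147) (nat_lit 532) (nat_lit 309819879) (nat_lit 105) (nat_lit 5) (nat_lit 111) (nat_lit 5) (nat_lit 112) (nat_lit 5) (nat_lit 307) (nat_lit 266) (nat_lit 207))))))))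
noncomputable def xc126 : XT := (XT.nd (nat_lit 1794) (nat_lit 2128) (nat_lit 0) (XT.nd (nat_lit 858) (nat_lit 1520) (nat_lit 0) (XT.nd (nat_lit 390) (nat_lit 1444) (nat_lit 0) (XT.nd (nat_lit 156) (nat_lit 380) (nat_lit 0) (XT.nd (nat_lit 78) (nat_lit 380) (nat_lit 0) (XT.lf (nat_lit 0) (nat_lit 1804721432) (nat_lit 532) (nat_lit 853681501) (nat_lit 76) (nat_lit 7960876471) (nat_lit 104) (nat_lit 5) (nat_lit 111) (nat_lit 5) (nat_lit 105) (nat_lit 5) (nat_lit 308) (nat_lit 266) (nat_lit 206)) (XT.lf (nat_lit 0) (nat_lit 3996279471) (nat_lit 456) (nat_lit 6033415209) (nat_lit 76) (nat_lit 770793644) (nat_lit 99) (nat_lit 5) (nat_lit 105) (nat_lit 5) (nat_lit 100) (nat_lit 5) (nat_lit 309) (nat_lit 266) (nat_lit 205))) (XT.nd (nat_lit 78) (nat_lit 380) (nat_lit 0) (XT.lf (nat_lit 0) (nat_lit 6255488664) (nat_lit 456) (nat_lit 480456144) (nat_lit 76) (nat_lit 4251179679) (nat_lit 99) (nat_lit 5)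 (nat_lit 105) (nat_lit 5) (nat_lit 100) (nat_lit 5) (nat_lit 310) (nat_lit 266) (nat_lit 204)) (XT.nd (nat_lit 78) (nat_lit 0) (nat_lit 0) (XT.lf (nat_lit 0) (nat_lit 5302637996) (nat_lit 380) (nat_lit 3298650794) (nat_lit 456) (nat_lit 2577553214) (nat_lit 94) (nat_lit 5) (nat_lit 99) (nat_lit 5) (nat_lit 100) (nat_lit 5) (nat_lit 311) (nat_lit 266) (nat_lit 203)) (XT.lf (nat_lit 0) (nat_lit 10993009354) (nat_lit 456) (nat_lit 149916576) (nat_lit 76) (nat_lit 234164069) (nat_lit 94) (nat_lit 5) (nat_lit 100) (nat_lit 5) (nat_lit 95) (nat_lit 5) (nat_lit 312) (nat_lit 266) (nat_lit 202))))) (XT.nd (nat_lit 234) (nat_lit 684) (nat_lit 0) (XT.nd (nat_lit 78) (nat_lit 380) (nat_lit 0) (XT.lf (nat_lit 0) (nat_lit 1896685525) (nat_lit 380) (nat_lit 5809004887) (nat_lit 76) (nat_lit 3873354563) (nat_lit 89) (nat_lit 5) (nat_lit 94) (nat_lit 5) (nat_lit 90) (nat_lit 5) (nat_lit 313) (nat_lit 266) (nat_lit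 201)) (XT.nd (nat_lit 78) (nat_lit 0) (nat_lit 0) (XT.lf (nat_lit 0) (nat_lit 41100040) (nat_lit 380) (nat_lit 4168405029) (nat_lit 456) (nat_lit 7578340448) (nat_lit 84) (nat_lit 5) (nat_lit 89) (nat_lit 5) (nat_lit 90) (nat_lit 5) (nat_lit 314) (nat_lit 266) (nat_lit 200)) (XT.lf (nat_lit 0) (nat_lit 6146635050) (nat_lit 380) (nat_lit 473673954) (nat_lit 456) (nat_lit 5381783366) (nat_lit 84) (nat_lit 5) (nat_lit 89) (nat_lit 5) (nat_lit 90) (nat_lit 5) (nat_lit 315) (nat_lit 266) (nat_lit 199)))) (XT.nd (nat_lit 78) (nat_lit 380) (nat_lit 0) (XT.lf (nat_lit 0) (nat_lit 144519922) (nat_lit 304) (nat_lit 8963065519) (nat_lit 380) (nat_lit 3115095854) (nat_lit 80) (nat_lit 5) (nat_lit 84) (nat_lit 5) (nat_lit 85) (nat_lit 5) (nat_lit 316) (nat_lit 266) (nat_lit 198)) (XT.nd (nat_lit 78) (nat_lit 380) (nat_lit 0) (XT.lf (nat_lit 0) (nat_lit 6401283825) (nat_lit 304) (nat_lit 5303182554) (nat_lit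 380) (nat_lit 744409899) (nat_lit 80) (nat_lit 5) (nat_lit 84) (nat_lit 5) (nat_lit 85) (nat_lit 5) (nat_lit 317) (nat_lit 266) (nat_lit 197)) (XT.lf (nat_lit 0) (nat_lit 111820497) (nat_lit 304) (nat_lit 1525267982) (nat_lit 380) (nat_lit 11045130511) (nat_lit 75) (nat_lit 5) (nat_lit 79) (nat_lit 5) (nat_lit 80) (nat_lit 5) (nat_lit 318) (nat_lit 266) (nat_lit 196)))))) (XT.nd (nat_lit 468) (nat_lit 836) (nat_lit 0) (XT.nd (nat_lit 234) (nat_lit 380) (nat_lit 0) (XT.nd (nat_lit 78) (nat_lit 304) (nat_lit 0) (XT.lf (nat_lit 0) (nat_lit 4131594060) (nat_lit 380) (nat_lit 6409804205) (nat_lit 76) (nat_lit 2379281637) (nat_lit 75) (nat_lit 5) (nat_lit 80) (nat_lit 5) (nat_lit 76) (nat_lit 5) (nat_lit 319) (nat_lit 266) (nat_lit 195)) (XT.nd (nat_lit 78) (nat_lit 304) (nat_lit 0) (XT.lf (nat_lit 0) (nat_lit 6688956276) (nat_lit 380) (nat_lit 116718523) (nat_lit 76) (nat_lit 6361012942) (nat_lit 75)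 (nat_lit 5) (nat_lit 80) (nat_lit 5) (nat_lit 76) (nat_lit 5) (nat_lit 320) (nat_lit 266) (nat_lit 194)) (XT.lf (nat_lit 0) (nat_lit 6454979064) (nat_lit 304) (nat_lit 2903818049) (nat_lit 380) (nat_lit 4060238729) (nat_lit 71) (nat_lit 5) (nat_lit 75) (nat_lit 5) (nat_lit 76) (nat_lit 5) (nat_lit 321) (nat_lit 266) (nat_lit 193)))) (XT.nd (nat_lit 78) (nat_lit 380) (nat_lit 0) (XT.lf (nat_lit 0) (nat_lit 12094677440) (nat_lit 380) (nat_lit 499928280) (nat_lit 76) (nat_lit 1084802145) (nat_lit 71) (nat_lit 5) (nat_lit 76) (nat_lit 5) (nat_lit 72) (nat_lit 5) (nat_lit 322) (nat_lit 266) (nat_lit 192)) (XT.nd (nat_lit 78) (nat_lit 0) (nat_lit 0) (XT.lf (nat_lit 0) (nat_lit 1010094399) (nat_lit 380) (nat_lit 7740407248) (nat_lit 76) (nat_lit 5194924599) (nat_lit 66) (nat_lit 5) (nat_lit 71) (nat_lit 5) (nat_lit 67) (nat_lit 5) (nat_lit 323) (nat_lit 266) (nat_lit 191)) (XT.lf (nat_lit 0) (nat_lit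 3630923881) (nat_lit 380) (nat_lit 1149268091) (nat_lit 76) (nat_lit 9439391261) (nat_lit 66) (nat_lit 5) (nat_lit 71) (nat_lit 5) (nat_lit 67) (nat_lit 5) (nat_lit 324) (nat_lit 266) (nat_lit 190))))) (XT.nd (nat_lit 234) (nat_lit 304) (nat_lit 0) (XT.nd (nat_lit 78) (nat_lit 304) (nat_lit 0) (XT.lf (nat_lit 0) (nat_lit 5716576915) (nat_lit 228) (nat_lit 644396398) (nat_lit 304) (nat_lit 8140102022) (nat_lit 63) (nat_lit 5) (nat_lit 66) (nat_lit 5) (nat_lit 67) (nat_lit 5) (nat_lit 325) (nat_lit 266) (nat_lit 189)) (XT.nd (nat_lit 78) (nat_lit 304) (nat_lit 0) (XT.lf (nat_lit 0) (nat_lit 9195324054) (nat_lit 304) (nat_lit 2048465306) (nat_lit 76) (nat_lit 3546578283) (nat_lit 63) (nat_lit 5) (nat_lit 67) (nat_lit 5) (nat_lit 64) (nat_lit 5) (nat_lit 326) (nat_lit 266) (nat_lit 188)) (XT.lf (nat_lit 0) (nat_lit 4945908940) (nat_lit 304) (nat_lit 7199346269) (nat_lit 380) (nat_lit 2942193649) (nat_lit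 59) (nat_lit 5) (nat_lit 63) (nat_lit 5) (nat_lit 64) (nat_lit 5) (nat_lit 327) (nat_lit 266) (nat_lit 187)))) (XT.nd (nat_lit 78) (nat_lit 304) (nat_lit 0) (XT.lf (nat_lit 0) (nat_lit 12158565827) (nat_lit 304) (nat_lit 3022788953) (nat_lit 380) (nat_lit 212183477) (nat_lit 59) (nat_lit 5) (nat_lit 63) (nat_lit 5) (nat_lit 64) (nat_lit 5) (nat_lit 328) (nat_lit 266) (nat_lit 186)) (XT.nd (nat_lit 78) (nat_lit 0) (nat_lit 0) (XT.lf (nat_lit 0) (nat_lit 2576677966) (nat_lit 304) (nat_lit 11823646577) (nat_lit 76) (nat_lit 1306930036) (nat_lit 55) (nat_lit 5) (nat_lit 59) (nat_lit 5) (nat_lit 56) (nat_lit 5) (nat_lit 329) (nat_lit 266) (nat_lit 185)) (XT.lf (nat_lit 0) (nat_lit 5485511884) (nat_lit 304) (nat_lit 4812999404) (nat_lit 76) (nat_lit 5730614605) (nat_lit 55) (nat_lit 5) (nat_lit 59) (nat_lit 5) (nat_lit 56) (nat_lit 5) (nat_lit 330) (nat_lit 266) (nat_lit 184))))))) (XT.nd (nat_lit 936)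 (nat_lit 912) (nat_lit 0) (XT.nd (nat_lit 468) (nat_lit 456) (nat_lit 0) (XT.nd (nat_lit 234) (nat_lit 304) (nat_lit 0) (XT.nd (nat_lit 78) (nat_lit 228) (nat_lit 0) (XT.lf (nat_lit 0) (nat_lit 2422913194) (nat_lit 228) (nat_lit 6060291445) (nat_lit 304) (nat_lit 7877423870) (nat_lit 52) (nat_lit 5) (nat_lit 55) (nat_lit 5) (nat_lit 56) (nat_lit 5) (nat_lit 331) (nat_lit 266) (nat_lit 183)) (XT.nd (nat_lit 78) (nat_lit 228) (nat_lit 0) (XT.lf (nat_lit 0) (nat_lit 9942548183) (nat_lit 228) (nat_lit 1655509322) (nat_lit 304) (nat_lit 5103224125) (nat_lit 52) (nat_lit 5) (nat_lit 55) (nat_lit 5) (nat_lit 56) (nat_lit 5) (nat_lit 332) (nat_lit 266) (nat_lit 182)) (XT.lf (nat_lit 0) (nat_lit 587760208) (nat_lit 228) (nat_lit 14231094233) (nat_lit 304) (nat_lit 2232946610) (nat_lit 49) (nat_lit 5) (nat_lit 52) (nat_lit 5) (nat_lit 53) (nat_lit 5) (nat_lit 333) (nat_lit 266) (nat_lit 181)))) (XT.nd (nat_lit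 78) (nat_lit 228) (nat_lit 0) (XT.lf (nat_lit 0) (nat_lit 773872029) (nat_lit 304) (nat_lit 9173366218) (nat_lit 76) (nat_lit 7463473105) (nat_lit 48) (nat_lit 5) (nat_lit 52) (nat_lit 5) (nat_lit 49) (nat_lit 5) (nat_lit 334) (nat_lit 266) (nat_lit 180)) (XT.nd (nat_lit 78) (nat_lit 228) (nat_lit 0) (XT.lf (nat_lit 0) (nat_lit 3805852909) (nat_lit 304) (nat_lit 1716907584) (nat_lit 76) (nat_lit 12257589909) (nat_lit 48) (nat_lit 5) (nat_lit 52) (nat_lit 5) (nat_lit 49) (nat_lit 5) (nat_lit 335) (nat_lit 266) (nat_lit 179)) (XT.lf (nat_lit 0) (nat_lit 6051399459) (nat_lit 228) (nat_lit 915988456) (nat_lit 304) (nat_lit 11192552108) (nat_lit 45) (nat_lit 5) (nat_lit 48) (nat_lit 5) (nat_lit 49) (nat_lit 5) (nat_lit 336) (nat_lit 266) (nat_lit 178))))) (XT.nd (nat_lit 234) (nat_lit 304) (nat_lit 0) (XT.nd (nat_lit 78) (nat_lit 152) (nat_lit 0) (XT.lf (nat_lit 0) (nat_lit 10258695344) (nat_lit 304)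 (nat_lit 4529559231) (nat_lit 76) (nat_lit 3761633651) (nat_lit 45) (nat_lit 5) (nat_lit 49) (nat_lit 5) (nat_lit 46) (nat_lit 5) (nat_lit 337) (nat_lit 266) (nat_lit 177)) (XT.nd (nat_lit 78) (nat_lit 0) (nat_lit 0) (XT.lf (nat_lit 0) (nat_lit 3302917431) (nat_lit 152) (nat_lit 10367818905) (nat_lit 228) (nat_lit 5280156845) (nat_lit 43) (nat_lit 5) (nat_lit 45) (nat_lit 5) (nat_lit 46) (nat_lit 5) (nat_lit 338) (nat_lit 266) (nat_lit 176)) (XT.lf (nat_lit 0) (nat_lit 11434250015) (nat_lit 152) (nat_lit 5778073507) (nat_lit 228) (nat_lit 2150806825) (nat_lit 43) (nat_lit 5) (nat_lit 45) (nat_lit 5) (nat_lit 46) (nat_lit 5) (nat_lit 339) (nat_lit 266) (nat_lit 175)))) (XT.nd (nat_lit 78) (nat_lit 228) (nat_lit 0) (XT.lf (nat_lit 0) (nat_lit 1033287448) (nat_lit 228) (nat_lit 17025966) (nat_lit 76) (nat_lit 18737674832) (nat_lit 42) (nat_lit 5) (nat_lit 45) (nat_lit 5) (nat_lit 43) (nat_lit 5)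 (nat_lit 340) (nat_lit 266) (nat_lit 174)) (XT.nd (nat_lit 78) (nat_lit 0) (nat_lit 0) (XT.lf (nat_lit 0) (nat_lit 4368856265) (nat_lit 304) (nat_lit 12016648884) (nat_lit 76) (nat_lit 3836488571) (nat_lit 39) (nat_lit 5) (nat_lit 43) (nat_lit 5) (nat_lit 40) (nat_lit 5) (nat_lit 341) (nat_lit 266) (nat_lit 173)) (XT.lf (nat_lit 0) (nat_lit 7797541502) (nat_lit 304) (nat_lit 4032525394) (nat_lit 76) (nat_lit 8839176627) (nat_lit 39) (nat_lit 5) (nat_lit 43) (nat_lit 5) (nat_lit 40) (nat_lit 5) (nat_lit 342) (nat_lit 266) (nat_lit 172)))))) (XT.nd (nat_lit 468) (nat_lit 380) (nat_lit 0) (XT.nd (nat_lit 234) (nat_lit 380) (nat_lit 0) (XT.nd (nat_lit 78) (nat_lit 0) (nat_lit 0) (XT.lf (nat_lit 0) (nat_lit 4246960214) (nat_lit 152) (nat_lit 7105938432) (nat_lit 228) (nat_lit 9776313023) (nat_lit 37) (nat_lit 5) (nat_lit 39) (nat_lit 5) (nat_lit 40) (nat_lit 5) (nat_lit 343) (nat_lit 266) (nat_lit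 171)) (XT.nd (nat_lit 78) (nat_lit 0) (nat_lit 0) (XT.lf (nat_lit 0) (nat_lit 12830723182) (nat_lit 152) (nat_lit 2208139090) (nat_lit 228) (nat_lit 6563412964) (nat_lit 37) (nat_lit 5) (nat_lit 39) (nat_lit 5) (nat_lit 40) (nat_lit 5) (nat_lit 344) (nat_lit 266) (nat_lit 170)) (XT.lf (nat_lit 0) (nat_lit 18846292359) (nat_lit 228) (nat_lit 471198692) (nat_lit 76) (nat_lit 2771727351) (nat_lit 37) (nat_lit 5) (nat_lit 40) (nat_lit 5) (nat_lit 38) (nat_lit 5) (nat_lit 345) (nat_lit 266) (nat_lit 169)))) (XT.nd (nat_lit 78) (nat_lit 152) (nat_lit 0) (XT.lf (nat_lit 0) (nat_lit 259235443) (nat_lit 228) (nat_lit 14400286913) (nat_lit 76) (nat_lit 7928644391) (nat_lit 34) (nat_lit 5) (nat_lit 37) (nat_lit 5) (nat_lit 35) (nat_lit 5) (nat_lit 346) (nat_lit 266) (nat_lit 168)) (XT.nd (nat_lit 78) (nat_lit 152) (nat_lit 0) (XT.lf (nat_lit 0) (nat_lit 3790235713) (nat_lit 228) (nat_lit 6043414567) (nat_lit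 76) (nat_lit 13267814514) (nat_lit 34) (nat_lit 5) (nat_lit 37) (nat_lit 5) (nat_lit 35) (nat_lit 5) (nat_lit 347) (nat_lit 266) (nat_lit 167)) (XT.lf (nat_lit 0) (nat_lit 2589739569) (nat_lit 152) (nat_lit 4846930531) (nat_lit 228) (nat_lit 16193219283) (nat_lit 32) (nat_lit 5) (nat_lit 34) (nat_lit 5) (nat_lit 35) (nat_lit 5) (nat_lit 348) (nat_lit 266) (nat_lit 166))))) (XT.nd (nat_lit 234) (nat_lit 228) (nat_lit 0) (XT.nd (nat_lit 78) (nat_lit 152) (nat_lit 0) (XT.lf (nat_lit 0) (nat_lit 11241639149) (nat_lit 228) (nat_lit 12595040427) (nat_lit 76) (nat_lit 336025234) (nat_lit 32) (nat_lit 5) (nat_lit 35) (nat_lit 5) (nat_lit 33) (nat_lit 5) (nat_lit 349) (nat_lit 266) (nat_lit 165)) (XT.nd (nat_lit 78) (nat_lit 152) (nat_lit 0) (XT.lf (nat_lit 0) (nat_lit 15193920435) (nat_lit 228) (nat_lit 3968927262) (nat_lit 76) (nat_lit 5567974099) (nat_lit 32) (nat_lit 5) (nat_lit 35) (nat_lit 5) (nat_lit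 33) (nat_lit 5) (nat_lit 350) (nat_lit 266) (nat_lit 164)) (XT.lf (nat_lit 0) (nat_lit 4989685455) (nat_lit 152) (nat_lit 14308654199) (nat_lit 228) (nat_lit 6006347195) (nat_lit 30) (nat_lit 5) (nat_lit 32) (nat_lit 5) (nat_lit 33) (nat_lit 5) (nat_lit 351) (nat_lit 266) (nat_lit 163)))) (XT.nd (nat_lit 78) (nat_lit 228) (nat_lit 0) (XT.lf (nat_lit 0) (nat_lit 14274996966) (nat_lit 152) (nat_lit 9276772596) (nat_lit 228) (nat_lit 2343233253) (nat_lit 30) (nat_lit 5) (nat_lit 32) (nat_lit 5) (nat_lit 33) (nat_lit 5) (nat_lit 352) (nat_lit 266) (nat_lit 162)) (XT.nd (nat_lit 78) (nat_lit 152) (nat_lit 0) (XT.lf (nat_lit 0) (nat_lit 1387940129) (nat_lit 228) (nat_lit 2700928878) (nat_lit 76) (nat_lit 22414175609) (nat_lit 29) (nat_lit 5) (nat_lit 32) (nat_lit 5) (nat_lit 30) (nat_lit 5) (nat_lit 353) (nat_lit 266) (nat_lit 161)) (XT.lf (nat_lit 0) (nat_lit 5246393512) (nat_lit 228) (nat_lit 20571646309)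 (nat_lit 76) (nat_lit 1308728939) (nat_lit 27) (nat_lit 5) (nat_lit 30) (nat_lit 5) (nat_lit 28) (nat_lit 5) (nat_lit 354) (nat_lit 266) (nat_lit 160))))))))
noncomputable def xc127 : XT := (XT.nd (nat_lit 1872) (nat_lit 304) (nat_lit 0) (XT.nd (nat_lit 936) (nat_lit 608) (nat_lit 0) (XT.nd (nat_lit 468) (nat_lit 152) (nat_lit 0) (XT.nd (nat_lit 234) (nat_lit 152) (nat_lit 0) (XT.nd (nat_lit 78) (nat_lit 152) (nat_lit 0) (XT.lf (nat_lit 0) (nat_lit 9275197157) (nat_lit 228) (nat_lit 11687379357) (nat_lit 76) (nat_lit 6805000260) (nat_lit 27) (nat_lit 5) (nat_lit 30) (nat_lit 5) (nat_lit 28) (nat_lit 5) (nat_lit 355) (nat_lit 266) (nat_lit 159)) (XT.nd (nat_lit 78) (nat_lit 152) (nat_lit 0) (XT.lf (nat_lit 0) (nat_lit 13411824796) (nat_lit 228) (nat_lit 2558390972) (nat_lit 76) (nat_lit 12457794211) (nat_lit 27) (nat_lit 5) (nat_lit 30) (nat_lit 5) (nat_lit 28) (nat_lit 5) (nat_lit 356) (nat_lit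 266) (nat_lit 158)) (XT.lf (nat_lit 0) (nat_lit 6959092592) (nat_lit 152) (nat_lit 10767693422) (nat_lit 228) (nat_lit 11379852592) (nat_lit 25) (nat_lit 5) (nat_lit 27) (nat_lit 5) (nat_lit 28) (nat_lit 5) (nat_lit 357) (nat_lit 266) (nat_lit 157)))) (XT.nd (nat_lit 78) (nat_lit 152) (nat_lit 0) (XT.lf (nat_lit 0) (nat_lit 16793581300) (nat_lit 152) (nat_lit 5390956425) (nat_lit 228) (nat_lit 7620697307) (nat_lit 25) (nat_lit 5) (nat_lit 27) (nat_lit 5) (nat_lit 28) (nat_lit 5) (nat_lit 358) (nat_lit 266) (nat_lit 156)) (XT.nd (nat_lit 78) (nat_lit 152) (nat_lit 0) (XT.lf (nat_lit 0) (nat_lit 26765227581) (nat_lit 228) (nat_lit 3623745547) (nat_lit 76) (nat_lit 136148977) (nat_lit 25) (nat_lit 5) (nat_lit 28) (nat_lit 5) (nat_lit 26) (nat_lit 4) (nat_lit 359) (nat_lit 266) (nat_lit 155)) (XT.lf (nat_lit 0) (nat_lit 313561328) (nat_lit 152) (nat_lit 25175445839) (nat_lit 76) (nat_lit 5774512788)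 (nat_lit 23) (nat_lit 5) (nat_lit 25) (nat_lit 5) (nat_lit 24) (nat_lit 5) (nat_lit 360) (nat_lit 266) (nat_lit 154))))) (XT.nd (nat_lit 234) (nat_lit 0) (nat_lit 0) (XT.nd (nat_lit 78) (nat_lit 152) (nat_lit 0) (XT.lf (nat_lit 0) (nat_lit 4458783405) (nat_lit 152) (nat_lit 15915121913) (nat_lit 76) (nat_lit 11648301805) (nat_lit 23) (nat_lit 5) (nat_lit 25) (nat_lit 5) (nat_lit 24) (nat_lit 5) (nat_lit 361) (nat_lit 266) (nat_lit 153)) (XT.nd (nat_lit 78) (nat_lit 152) (nat_lit 0) (XT.lf (nat_lit 0) (nat_lit 8716884160) (nat_lit 152) (nat_lit 6396495623) (nat_lit 76) (nat_lit 17690627391) (nat_lit 23) (nat_lit 5) (nat_lit 25) (nat_lit 5) (nat_lit 24) (nat_lit 5) (nat_lit 362) (nat_lit 266) (nat_lit 152)) (XT.lf (nat_lit 0) (nat_lit 3456193051) (nat_lit 152) (nat_lit 9668614254) (nat_lit 228) (nat_lit 20483799238) (nat_lit 21) (nat_lit 5) (nat_lit 23) (nat_lit 5) (nat_lit 24) (nat_lit 5) (nat_lit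 363) (nat_lit 266) (nat_lit 151)))) (XT.nd (nat_lit 78) (nat_lit 0) (nat_lit 0) (XT.lf (nat_lit 0) (nat_lit 13716830776) (nat_lit 152) (nat_lit 4001730060) (nat_lit 228) (nat_lit 16717182748) (nat_lit 21) (nat_lit 5) (nat_lit 23) (nat_lit 5) (nat_lit 24) (nat_lit 5) (nat_lit 364) (nat_lit 266) (nat_lit 150)) (XT.nd (nat_lit 78) (nat_lit 0) (nat_lit 0) (XT.lf (nat_lit 0) (nat_lit 22457016294) (nat_lit 228) (nat_lit 11038510332) (nat_lit 76) (nat_lit 1791968687) (nat_lit 21) (nat_lit 5) (nat_lit 24) (nat_lit 5) (nat_lit 22) (nat_lit 4) (nat_lit 365) (nat_lit 266) (nat_lit 149)) (XT.lf (nat_lit 0) (nat_lit 27366808283) (nat_lit 228) (nat_lit 1125241668) (nat_lit 76) (nat_lit 7671881201) (nat_lit 21) (nat_lit 5) (nat_lit 24) (nat_lit 5) (nat_lit 22) (nat_lit 4) (nat_lit 366) (nat_lit 266) (nat_lit 148)))))) (XT.nd (nat_lit 468) (nat_lit 304) (nat_lit 0) (XT.nd (nat_lit 234) (nat_lit 152) (nat_lit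 0) (XT.nd (nat_lit 78) (nat_lit 76) (nat_lit 0) (XT.lf (nat_lit 0) (nat_lit 9248493766) (nat_lit 76) (nat_lit 23254168250) (nat_lit 152) (nat_lit 4561641848) (nat_lit 20) (nat_lit 5) (nat_lit 21) (nat_lit 5) (nat_lit 22) (nat_lit 4) (nat_lit 367) (nat_lit 266) (nat_lit 147)) (XT.nd (nat_lit 78) (nat_lit 76) (nat_lit 0) (XT.lf (nat_lit 0) (nat_lit 19939275515) (nat_lit 76) (nat_lit 17854673911) (nat_lit 152) (nat_lit 197704229) (nat_lit 20) (nat_lit 5) (nat_lit 21) (nat_lit 5) (nat_lit 22) (nat_lit 4) (nat_lit 368) (nat_lit 266) (nat_lit 146)) (XT.lf (nat_lit 0) (nat_lit 4203482851) (nat_lit 152) (nat_lit 8054281878) (nat_lit 76) (nat_lit 26688120737) (nat_lit 19) (nat_lit 5) (nat_lit 21) (nat_lit 5) (nat_lit 20) (nat_lit 5) (nat_lit 369) (nat_lit 266) (nat_lit 145)))) (XT.nd (nat_lit 78) (nat_lit 0) (nat_lit 0) (XT.lf (nat_lit 0) (nat_lit 2269650208) (nat_lit 152) (nat_lit 6475369075) (nat_lit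 228) (nat_lit 31183303678) (nat_lit 17) (nat_lit 5) (nat_lit 19) (nat_lit 5) (nat_lit 20) (nat_lit 5) (nat_lit 370) (nat_lit 266) (nat_lit 144)) (XT.nd (nat_lit 78) (nat_lit 0) (nat_lit 0) (XT.lf (nat_lit 0) (nat_lit 13052127656) (nat_lit 152) (nat_lit 442597839) (nat_lit 228) (nat_lit 27443356273) (nat_lit 17) (nat_lit 5) (nat_lit 19) (nat_lit 5) (nat_lit 20) (nat_lit 5) (nat_lit 371) (nat_lit 266) (nat_lit 143)) (XT.lf (nat_lit 0) (nat_lit 18433199953) (nat_lit 228) (nat_lit 17891548848) (nat_lit 76) (nat_lit 5652001956) (nat_lit 17) (nat_lit 5) (nat_lit 20) (nat_lit 5) (nat_lit 18) (nat_lit 4) (nat_lit 372) (nat_lit 266) (nat_lit 142))))) (XT.nd (nat_lit 234) (nat_lit 228) (nat_lit 0) (XT.nd (nat_lit 78) (nat_lit 76) (nat_lit 0) (XT.lf (nat_lit 0) (nat_lit 23515279899) (nat_lit 228) (nat_lit 7617246055) (nat_lit 76) (nat_lit 11914195883) (nat_lit 17) (nat_lit 5) (nat_lit 20) (nat_lit 5) (nat_lit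 18) (nat_lit 4) (nat_lit 373) (nat_lit 266) (nat_lit 141)) (XT.nd (nat_lit 78) (nat_lit 0) (nat_lit 0) (XT.lf (nat_lit 0) (nat_lit 3008900826) (nat_lit 76) (nat_lit 25761174034) (nat_lit 152) (nat_lit 15378115010) (nat_lit 16) (nat_lit 5) (nat_lit 17) (nat_lit 5) (nat_lit 18) (nat_lit 4) (nat_lit 374) (nat_lit 266) (nat_lit 140)) (XT.lf (nat_lit 0) (nat_lit 14095026735) (nat_lit 76) (nat_lit 20155844231) (nat_lit 152) (nat_lit 11029785500) (nat_lit 16) (nat_lit 5) (nat_lit 17) (nat_lit 5) (nat_lit 18) (nat_lit 4) (nat_lit 375) (nat_lit 266) (nat_lit 139)))) (XT.nd (nat_lit 78) (nat_lit 228) (nat_lit 0) (XT.lf (nat_lit 0) (nat_lit 25499220447) (nat_lit 76) (nat_lit 14388557931) (nat_lit 152) (nat_lit 6559573147) (nat_lit 16) (nat_lit 5) (nat_lit 17) (nat_lit 5) (nat_lit 18) (nat_lit 4) (nat_lit 376) (nat_lit 266) (nat_lit 138)) (XT.nd (nat_lit 78) (nat_lit 228) (nat_lit 0) (XT.lf (nat_lit 0) (nat_lit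 37231446791) (nat_lit 76) (nat_lit 8454275759) (nat_lit 152) (nat_lit 1963571941) (nat_lit 16) (nat_lit 5) (nat_lit 17) (nat_lit 5) (nat_lit 18) (nat_lit 4) (nat_lit 377) (nat_lit 266) (nat_lit 137)) (XT.lf (nat_lit 0) (nat_lit 395588697) (nat_lit 152) (nat_lit 2316546848) (nat_lit 228) (nat_lit 46174489412) (nat_lit 13) (nat_lit 5) (nat_lit 15) (nat_lit 5) (nat_lit 16) (nat_lit 5) (nat_lit 378) (nat_lit 266) (nat_lit 136))))))) (XT.nd (nat_lit 936) (nat_lit 76) (nat_lit 0) (XT.nd (nat_lit 468) (nat_lit 152) (nat_lit 0) (XT.nd (nat_lit 234) (nat_lit 76) (nat_lit 0) (XT.nd (nat_lit 78) (nat_lit 0) (nat_lit 0) (XT.lf (nat_lit 0) (nat_lit 7625515880) (nat_lit 228) (nat_lit 38483811569) (nat_lit 76) (nat_lit 4047063146) (nat_lit 13) (nat_lit 5) (nat_lit 16) (nat_lit 5) (nat_lit 14) (nat_lit 4) (nat_lit 379) (nat_lit 266) (nat_lit 135)) (XT.nd (nat_lit 78) (nat_lit 0) (nat_lit 0) (XT.lf (nat_lit 0)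 (nat_lit 12701587640) (nat_lit 228) (nat_lit 28212793297) (nat_lit 76) (nat_lit 10549413953) (nat_lit 13) (nat_lit 5) (nat_lit 16) (nat_lit 5) (nat_lit 14) (nat_lit 4) (nat_lit 380) (nat_lit 266) (nat_lit 134)) (XT.lf (nat_lit 0) (nat_lit 17922518166) (nat_lit 228) (nat_lit 17646738701) (nat_lit 76) (nat_lit 17241391411) (nat_lit 13) (nat_lit 5) (nat_lit 16) (nat_lit 5) (nat_lit 14) (nat_lit 4) (nat_lit 381) (nat_lit 266) (nat_lit 133)))) (XT.nd (nat_lit 78) (nat_lit 76) (nat_lit 0) (XT.lf (nat_lit 0) (nat_lit 23292869434) (nat_lit 228) (nat_lit 6776415306) (nat_lit 76) (nat_lit 24128842879) (nat_lit 13) (nat_lit 5) (nat_lit 16) (nat_lit 5) (nat_lit 14) (nat_lit 4) (nat_lit 382) (nat_lit 266) (nat_lit 132)) (XT.nd (nat_lit 78) (nat_lit 0) (nat_lit 0) (XT.lf (nat_lit 0) (nat_lit 4495396605) (nat_lit 76) (nat_lit 24365149882) (nat_lit 152) (nat_lit 26765602414) (nat_lit 12) (nat_lit 5) (nat_lit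 13) (nat_lit 5) (nat_lit 14) (nat_lit 4) (nat_lit 383) (nat_lit 266) (nat_lit 131)) (XT.lf (nat_lit 0) (nat_lit 16232051188) (nat_lit 76) (nat_lit 18424720238) (nat_lit 152) (nat_lit 22438397767) (nat_lit 12) (nat_lit 5) (nat_lit 13) (nat_lit 5) (nat_lit 14) (nat_lit 4) (nat_lit 384) (nat_lit 266) (nat_lit 130))))) (XT.nd (nat_lit 234) (nat_lit 152) (nat_lit 0) (XT.nd (nat_lit 78) (nat_lit 0) (nat_lit 0) (XT.lf (nat_lit 0) (nat_lit 28308939819) (nat_lit 76) (nat_lit 12311233651) (nat_lit 152) (nat_lit 17988291701) (nat_lit 12) (nat_lit 5) (nat_lit 13) (nat_lit 5) (nat_lit 14) (nat_lit 4) (nat_lit 385) (nat_lit 266) (nat_lit 129)) (XT.nd (nat_lit 78) (nat_lit 0) (nat_lit 0) (XT.lf (nat_lit 0) (nat_lit 40736615119) (nat_lit 76) (nat_lit 6019348240) (nat_lit 152) (nat_lit 13411395772) (nat_lit 12) (nat_lit 5) (nat_lit 13) (nat_lit 5) (nat_lit 14) (nat_lit 4) (nat_lit 386) (nat_lit 266) (nat_lit 128))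 (XT.lf (nat_lit 0) (nat_lit 53073889982) (nat_lit 152) (nat_lit 8251664511) (nat_lit 0) (nat_lit 447527093) (nat_lit 12) (nat_lit 5) (nat_lit 14) (nat_lit 4) (nat_lit 12) (nat_lit 4) (nat_lit 387) (nat_lit 266) (nat_lit 127)))) (XT.nd (nat_lit 78) (nat_lit 76) (nat_lit 0) (XT.lf (nat_lit 0) (nat_lit 3255719671) (nat_lit 76) (nat_lit 56410342578) (nat_lit 76) (nat_lit 3758375697) (nat_lit 11) (nat_lit 4) (nat_lit 12) (nat_lit 5) (nat_lit 12) (nat_lit 4) (nat_lit 388) (nat_lit 266) (nat_lit 126)) (XT.nd (nat_lit 78) (nat_lit 0) (nat_lit 0) (XT.lf (nat_lit 0) (nat_lit 1382675291) (nat_lit 152) (nat_lit 49869994284) (nat_lit 76) (nat_lit 13869945653) (nat_lit 10) (nat_lit 5) (nat_lit 12) (nat_lit 5) (nat_lit 11) (nat_lit 4) (nat_lit 389) (nat_lit 266) (nat_lit 125)) (XT.lf (nat_lit 0) (nat_lit 6596424030) (nat_lit 152) (nat_lit 39310218562) (nat_lit 76) (nat_lit 20964161882) (nat_lit 10) (nat_lit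 5) (nat_lit 12) (nat_lit 5) (nat_lit 11) (nat_lit 4) (nat_lit 390) (nat_lit 266) (nat_lit 124)))))) (XT.nd (nat_lit 468) (nat_lit 0) (nat_lit 0) (XT.nd (nat_lit 234) (nat_lit 76) (nat_lit 0) (XT.nd (nat_lit 78) (nat_lit 0) (nat_lit 0) (XT.lf (nat_lit 0) (nat_lit 11960765668) (nat_lit 152) (nat_lit 28444036315) (nat_lit 76) (nat_lit 28266815079) (nat_lit 10) (nat_lit 5) (nat_lit 12) (nat_lit 5) (nat_lit 11) (nat_lit 4) (nat_lit 391) (nat_lit 266) (nat_lit 123)) (XT.nd (nat_lit 78) (nat_lit 0) (nat_lit 0) (XT.lf (nat_lit 0) (nat_lit 17480387495) (nat_lit 152) (nat_lit 17261952822) (nat_lit 76) (nat_lit 35784286203) (nat_lit 10) (nat_lit 5) (nat_lit 12) (nat_lit 5) (nat_lit 11) (nat_lit 4) (nat_lit 392) (nat_lit 266) (nat_lit 122)) (XT.lf (nat_lit 0) (nat_lit 23160112481) (nat_lit 152) (nat_lit 5754197328) (nat_lit 76) (nat_lit 43523143919) (nat_lit 10) (nat_lit 5) (nat_lit 12) (nat_lit 5) (nat_lit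 11) (nat_lit 4) (nat_lit 393) (nat_lit 266) (nat_lit 121)))) (XT.nd (nat_lit 78) (nat_lit 0) (nat_lit 0) (XT.lf (nat_lit 0) (nat_lit 6210474206) (nat_lit 76) (nat_lit 22854128164) (nat_lit 152) (nat_lit 45339375006) (nat_lit 9) (nat_lit 5) (nat_lit 10) (nat_lit 5) (nat_lit 11) (nat_lit 4) (nat_lit 394) (nat_lit 266) (nat_lit 120)) (XT.nd (nat_lit 78) (nat_lit 0) (nat_lit 0) (XT.lf (nat_lit 0) (nat_lit 18642629135) (nat_lit 76) (nat_lit 16556442849) (nat_lit 152) (nat_lit 41228842132) (nat_lit 9) (nat_lit 5) (nat_lit 10) (nat_lit 5) (nat_lit 11) (nat_lit 4) (nat_lit 395) (nat_lit 266) (nat_lit 119)) (XT.lf (nat_lit 0) (nat_lit 31438610699) (nat_lit 76) (nat_lit 10073857144) (nat_lit 152) (nat_lit 37000257009) (nat_lit 9) (nat_lit 5) (nat_lit 10) (nat_lit 5) (nat_lit 11) (nat_lit 4) (nat_lit 396) (nat_lit 266) (nat_lit 118))))) (XT.nd (nat_lit 30654) (nat_lit 0) (nat_lit 19152) (XT.nd (nat_lit 30498)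 (nat_lit 0) (nat_lit 19684) (XT.lf (nat_lit 0) (nat_lit 44609599850) (nat_lit 76) (nat_lit 3400706652) (nat_lit 152) (nat_lit 32649924756) (nat_lit 9) (nat_lit 5) (nat_lit 10) (nat_lit 5) (nat_lit 11) (nat_lit 4) (nat_lit 397) (nat_lit 266) (nat_lit 117)) (XT.nd (nat_lit 78) (nat_lit 0) (nat_lit 0) (XT.lf (nat_lit 0) (nat_lit 1182697505) (nat_lit 532) (nat_lit 1073270199) (nat_lit 532) (nat_lit 1073270199) (nat_lit 268) (nat_lit 3) (nat_lit 275) (nat_lit 3) (nat_lit 275) (nat_lit 5) (nat_lit 267) (nat_lit 267) (nat_lit 246)) (XT.lf (nat_lit 76) (nat_lit 851254215) (nat_lit 0) (nat_lit 3621112664) (nat_lit 532) (nat_lit 2218437287) (nat_lit 269) (nat_lit 5) (nat_lit 268) (nat_lit 3) (nat_lit 275) (nat_lit 5) (nat_lit 268) (nat_lit 267) (nat_lit 245)))) (XT.nd (nat_lit 78) (nat_lit 532) (nat_lit 0) (XT.lf (nat_lit 76) (nat_lit 3940581294) (nat_lit 0) (nat_lit 2642709703) (nat_lit 532) (nat_lit 142799991)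 (nat_lit 269) (nat_lit 5) (nat_lit 268) (nat_lit 3) (nat_lit 275) (nat_lit 5) (nat_lit 269) (nat_lit 267) (nat_lit 244)) (XT.nd (nat_lit 78) (nat_lit 0) (nat_lit 0) (XT.lf (nat_lit 76) (nat_lit 303954451) (nat_lit 0) (nat_lit 1575587823) (nat_lit 608) (nat_lit 4884816569) (nat_lit 262) (nat_lit 5) (nat_lit 261) (nat_lit 5) (nat_lit 269) (nat_lit 5) (nat_lit 270) (nat_lit 267) (nat_lit 243)) (XT.lf (nat_lit 76) (nat_lit 3499231442) (nat_lit 0) (nat_lit 410921616) (nat_lit 608) (nat_lit 2895258213) (nat_lit 262) (nat_lit 5) (nat_lit 261) (nat_lit 5) (nat_lit 269) (nat_lit 5) (nat_lit 271) (nat_lit 267) (nat_lit 242))))))))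
noncomputable def xc128 : XT := (XT.nd (nat_lit 1794) (nat_lit 5548) (nat_lit 0) (XT.nd (nat_lit 858) (nat_lit 6384) (nat_lit 0) (XT.nd (nat_lit 390) (nat_lit 1368) (nat_lit 0) (XT.nd (nat_lit 156) (nat_lit 0) (nat_lit 0) (XT.nd (nat_lit 78) (nat_lit 608) (nat_lit 0) (XT.lf (nat_lit 0) (nat_lit 5934206813) (nat_lit 532) (nat_lit 108977079) (nat_lit 608) (nat_lit 806723028) (nat_lit 262) (nat_lit 5) (nat_lit 269) (nat_lit 5) (nat_lit 270) (nat_lit 5) (nat_lit 272) (nat_lit 267) (nat_lit 241)) (XT.lf (nat_lit 0) (nat_lit 1062726848) (nat_lit 608) (nat_lit 3707751871) (nat_lit 684) (nat_lit 2126269410) (nat_lit 254) (nat_lit 5) (nat_lit 262) (nat_lit 5) (nat_lit 263) (nat_lit 5) (nat_lit 273) (nat_lit 267) (nat_lit 240))) (XT.nd (nat_lit 78) (nat_lit 0) (nat_lit 0) (XT.lf (nat_lit 0) (nat_lit 3011180264) (nat_lit 608) (nat_lit 409865426) (nat_lit 684) (nat_lit 3525976030) (nat_lit 254) (nat_lit 5)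 (nat_lit 262) (nat_lit 5) (nat_lit 263) (nat_lit 5) (nat_lit 274) (nat_lit 267) (nat_lit 239)) (XT.nd (nat_lit 78) (nat_lit 0) (nat_lit 0) (XT.lf (nat_lit 76) (nat_lit 3002865643) (nat_lit 0) (nat_lit 1974152034) (nat_lit 684) (nat_lit 2023184419) (nat_lit 255) (nat_lit 5) (nat_lit 254) (nat_lit 5) (nat_lit 263) (nat_lit 5) (nat_lit 275) (nat_lit 267) (nat_lit 238)) (XT.lf (nat_lit 76) (nat_lit 6484110308) (nat_lit 0) (nat_lit 453554371) (nat_lit 684) (nat_lit 119399813) (nat_lit 255) (nat_lit 5) (nat_lit 254) (nat_lit 5) (nat_lit 263) (nat_lit 5) (nat_lit 276) (nat_lit 267) (nat_lit 237))))) (XT.nd (nat_lit 234) (nat_lit 760) (nat_lit 0) (XT.nd (nat_lit 78) (nat_lit 0) (nat_lit 0) (XT.lf (nat_lit 0) (nat_lit 1778198763) (nat_lit 684) (nat_lit 4176279339) (nat_lit 760) (nat_lit 1161596930) (nat_lit 246) (nat_lit 5) (nat_lit 255) (nat_lit 5) (nat_lit 256) (nat_lit 5) (nat_lit 277) (nat_lit 267)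 (nat_lit 236)) (XT.nd (nat_lit 78) (nat_lit 0) (nat_lit 0) (XT.lf (nat_lit 0) (nat_lit 3675309610) (nat_lit 684) (nat_lit 657190442) (nat_lit 760) (nat_lit 2846118770) (nat_lit 246) (nat_lit 5) (nat_lit 255) (nat_lit 5) (nat_lit 256) (nat_lit 5) (nat_lit 278) (nat_lit 267) (nat_lit 235)) (XT.lf (nat_lit 76) (nat_lit 2982514316) (nat_lit 0) (nat_lit 2612043100) (nat_lit 760) (nat_lit 1649668419) (nat_lit 247) (nat_lit 5) (nat_lit 246) (nat_lit 5) (nat_lit 256) (nat_lit 5) (nat_lit 279) (nat_lit 267) (nat_lit 234)))) (XT.nd (nat_lit 78) (nat_lit 0) (nat_lit 76) (XT.lf (nat_lit 0) (nat_lit 198458651) (nat_lit 760) (nat_lit 613398665) (nat_lit 836) (nat_lit 6501685982) (nat_lit 236) (nat_lit 5) (nat_lit 246) (nat_lit 5) (nat_lit 247) (nat_lit 5) (nat_lit 280) (nat_lit 267) (nat_lit 233)) (XT.nd (nat_lit 78) (nat_lit 0) (nat_lit 0) (XT.lf (nat_lit 0) (nat_lit 2048842924) (nat_lit 760) (nat_lit 4249558003)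 (nat_lit 76) (nat_lit 1086781685) (nat_lit 237) (nat_lit 5) (nat_lit 247) (nat_lit 5) (nat_lit 238) (nat_lit 5) (nat_lit 281) (nat_lit 267) (nat_lit 232)) (XT.lf (nat_lit 0) (nat_lit 3909632588) (nat_lit 760) (nat_lit 501684361) (nat_lit 76) (nat_lit 3049134941) (nat_lit 237) (nat_lit 5) (nat_lit 247) (nat_lit 5) (nat_lit 238) (nat_lit 5) (nat_lit 282) (nat_lit 267) (nat_lit 231)))))) (XT.nd (nat_lit 468) (nat_lit 2888) (nat_lit 0) (XT.nd (nat_lit 234) (nat_lit 1900) (nat_lit 0) (XT.nd (nat_lit 78) (nat_lit 912) (nat_lit 0) (XT.lf (nat_lit 0) (nat_lit 3381412705) (nat_lit 760) (nat_lit 2419667754) (nat_lit 836) (nat_lit 1737777636) (nat_lit 227) (nat_lit 5) (nat_lit 237) (nat_lit 5) (nat_lit 238) (nat_lit 5) (nat_lit 283) (nat_lit 267) (nat_lit 230)) (XT.nd (nat_lit 78) (nat_lit 836) (nat_lit 0) (XT.lf (nat_lit 0) (nat_lit 75163920) (nat_lit 836) (nat_lit 273499828) (nat_lit 76) (nat_lit 7272590960)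 (nat_lit 226) (nat_lit 5) (nat_lit 237) (nat_lit 5) (nat_lit 227) (nat_lit 5) (nat_lit 284) (nat_lit 267) (nat_lit 229)) (XT.lf (nat_lit 0) (nat_lit 1905903725) (nat_lit 912) (nat_lit 3984109965) (nat_lit 76) (nat_lit 1815756603) (nat_lit 215) (nat_lit 5) (nat_lit 227) (nat_lit 5) (nat_lit 216) (nat_lit 5) (nat_lit 285) (nat_lit 267) (nat_lit 228)))) (XT.nd (nat_lit 78) (nat_lit 988) (nat_lit 0) (XT.lf (nat_lit 0) (nat_lit 1926665) (nat_lit 912) (nat_lit 3741805216) (nat_lit 988) (nat_lit 4050634548) (nat_lit 203) (nat_lit 5) (nat_lit 215) (nat_lit 5) (nat_lit 216) (nat_lit 5) (nat_lit 286) (nat_lit 267) (nat_lit 227)) (XT.nd (nat_lit 78) (nat_lit 988) (nat_lit 0) (XT.lf (nat_lit 0) (nat_lit 4145473080) (nat_lit 912) (nat_lit 1478514936) (nat_lit 988) (nat_lit 2262120503) (nat_lit 203) (nat_lit 5) (nat_lit 215) (nat_lit 5) (nat_lit 216) (nat_lit 5) (nat_lit 287) (nat_lit 267) (nat_lit 226)) (XT.lf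 (nat_lit 0) (nat_lit 387896735) (nat_lit 988) (nat_lit 7133369394) (nat_lit 1064) (nat_lit 460622068) (nat_lit 190) (nat_lit 5) (nat_lit 203) (nat_lit 5) (nat_lit 204) (nat_lit 5) (nat_lit 288) (nat_lit 267) (nat_lit 225))))) (XT.nd (nat_lit 234) (nat_lit 1748) (nat_lit 0) (XT.nd (nat_lit 78) (nat_lit 1064) (nat_lit 0) (XT.lf (nat_lit 0) (nat_lit 1369654010) (nat_lit 1064) (nat_lit 3435740692) (nat_lit 76) (nat_lit 3274783511) (nat_lit 189) (nat_lit 5) (nat_lit 203) (nat_lit 5) (nat_lit 190) (nat_lit 5) (nat_lit 289) (nat_lit 267) (nat_lit 224)) (XT.nd (nat_lit 78) (nat_lit 0) (nat_lit 0) (XT.lf (nat_lit 0) (nat_lit 815032994) (nat_lit 1064) (nat_lit 2389029297) (nat_lit 1140) (nat_lit 4978558310) (nat_lit 175) (nat_lit 5) (nat_lit 189) (nat_lit 5) (nat_lit 190) (nat_lit 5) (nat_lit 290) (nat_lit 267) (nat_lit 223)) (XT.lf (nat_lit 0) (nat_lit 5081220178) (nat_lit 1140) (nat_lit 3069372370) (nat_lit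 76) (nat_lit 138004373) (nat_lit 175) (nat_lit 5) (nat_lit 190) (nat_lit 5) (nat_lit 176) (nat_lit 5) (nat_lit 291) (nat_lit 267) (nat_lit 222)))) (XT.nd (nat_lit 78) (nat_lit 608) (nat_lit 0) (XT.lf (nat_lit 0) (nat_lit 1316393004) (nat_lit 1140) (nat_lit 5687733747) (nat_lit 1216) (nat_lit 1394032258) (nat_lit 160) (nat_lit 5) (nat_lit 175) (nat_lit 5) (nat_lit 176) (nat_lit 5) (nat_lit 292) (nat_lit 267) (nat_lit 221)) (XT.nd (nat_lit 78) (nat_lit 532) (nat_lit 0) (XT.lf (nat_lit 0) (nat_lit 449308468) (nat_lit 1216) (nat_lit 2662301536) (nat_lit 76) (nat_lit 5399800515) (nat_lit 159) (nat_lit 5) (nat_lit 175) (nat_lit 5) (nat_lit 160) (nat_lit 5) (nat_lit 293) (nat_lit 267) (nat_lit 220)) (XT.lf (nat_lit 0) (nat_lit 1869697660) (nat_lit 532) (nat_lit 423097246) (nat_lit 608) (nat_lit 6335746576) (nat_lit 152) (nat_lit 5) (nat_lit 159) (nat_lit 5) (nat_lit 160) (nat_lit 5) (nat_lit 294) (nat_lit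 267) (nat_lit 219))))))) (XT.nd (nat_lit 936) (nat_lit 2432) (nat_lit 0) (XT.nd (nat_lit 468) (nat_lit 1368) (nat_lit 0) (XT.nd (nat_lit 234) (nat_lit 1140) (nat_lit 0) (XT.nd (nat_lit 78) (nat_lit 608) (nat_lit 0) (XT.lf (nat_lit 0) (nat_lit 4197104754) (nat_lit 608) (nat_lit 2222702721) (nat_lit 76) (nat_lit 2329292850) (nat_lit 152) (nat_lit 5) (nat_lit 160) (nat_lit 5) (nat_lit 153) (nat_lit 5) (nat_lit 295) (nat_lit 267) (nat_lit 218)) (XT.nd (nat_lit 78) (nat_lit 0) (nat_lit 0) (XT.lf (nat_lit 0) (nat_lit 2450693024) (nat_lit 608) (nat_lit 3692701150) (nat_lit 684) (nat_lit 2730413453) (nat_lit 144) (nat_lit 5) (nat_lit 152) (nat_lit 5) (nat_lit 153) (nat_lit 5) (nat_lit 296) (nat_lit 267) (nat_lit 217)) (XT.lf (nat_lit 0) (nat_lit 7267807813) (nat_lit 608) (nat_lit 860658276) (nat_lit 684) (nat_lit 874453197) (nat_lit 144) (nat_lit 5) (nat_lit 152) (nat_lit 5) (nat_lit 153) (nat_lit 5)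 (nat_lit 297) (nat_lit 267) (nat_lit 216)))) (XT.nd (nat_lit 78) (nat_lit 532) (nat_lit 0) (XT.lf (nat_lit 0) (nat_lit 1025623635) (nat_lit 608) (nat_lit 6053790747) (nat_lit 76) (nat_lit 2056001150) (nat_lit 136) (nat_lit 5) (nat_lit 144) (nat_lit 5) (nat_lit 137) (nat_lit 5) (nat_lit 298) (nat_lit 267) (nat_lit 215)) (XT.nd (nat_lit 78) (nat_lit 532) (nat_lit 0) (XT.lf (nat_lit 0) (nat_lit 2950839431) (nat_lit 608) (nat_lit 1252863396) (nat_lit 76) (nat_lit 5068421321) (nat_lit 136) (nat_lit 5) (nat_lit 144) (nat_lit 5) (nat_lit 137) (nat_lit 5) (nat_lit 299) (nat_lit 267) (nat_lit 214)) (XT.lf (nat_lit 0) (nat_lit 3723408313) (nat_lit 532) (nat_lit 1206871020) (nat_lit 608) (nat_lit 4482827256) (nat_lit 129) (nat_lit 5) (nat_lit 136) (nat_lit 5) (nat_lit 137) (nat_lit 5) (nat_lit 300) (nat_lit 267) (nat_lit 213))))) (XT.nd (nat_lit 234) (nat_lit 836) (nat_lit 0) (XT.nd (nat_lit 78) (nat_lit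 532) (nat_lit 0) (XT.lf (nat_lit 0) (nat_lit 6961354683) (nat_lit 608) (nat_lit 743618368) (nat_lit 76) (nat_lit 1853642540) (nat_lit 129) (nat_lit 5) (nat_lit 137) (nat_lit 5) (nat_lit 130) (nat_lit 5) (nat_lit 301) (nat_lit 267) (nat_lit 212)) (XT.nd (nat_lit 78) (nat_lit 76) (nat_lit 0) (XT.lf (nat_lit 0) (nat_lit 4383525941) (nat_lit 456) (nat_lit 4686451928) (nat_lit 532) (nat_lit 638076295) (nat_lit 123) (nat_lit 5) (nat_lit 129) (nat_lit 5) (nat_lit 130) (nat_lit 5) (nat_lit 302) (nat_lit 267) (nat_lit 211)) (XT.lf (nat_lit 0) (nat_lit 1323348224) (nat_lit 532) (nat_lit 236666712) (nat_lit 76) (nat_lit 8302510474) (nat_lit 122) (nat_lit 5) (nat_lit 129) (nat_lit 5) (nat_lit 123) (nat_lit 5) (nat_lit 303) (nat_lit 267) (nat_lit 210)))) (XT.nd (nat_lit 78) (nat_lit 380) (nat_lit 0) (XT.lf (nat_lit 0) (nat_lit 3359747938) (nat_lit 532) (nat_lit 4981515463) (nat_lit 76) (nat_lit 1679366593)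 (nat_lit 116) (nat_lit 5) (nat_lit 123) (nat_lit 5) (nat_lit 117) (nat_lit 5) (nat_lit 304) (nat_lit 267) (nat_lit 209)) (XT.nd (nat_lit 78) (nat_lit 0) (nat_lit 0) (XT.lf (nat_lit 0) (nat_lit 243101917) (nat_lit 380) (nat_lit 5198853484) (nat_lit 456) (nat_lit 4742036614) (nat_lit 111) (nat_lit 5) (nat_lit 116) (nat_lit 5) (nat_lit 117) (nat_lit 5) (nat_lit 305) (nat_lit 267) (nat_lit 208)) (XT.lf (nat_lit 0) (nat_lit 5686186726) (nat_lit 380) (nat_lit 1915910769) (nat_lit 456) (nat_lit 2749747497) (nat_lit 111) (nat_lit 5) (nat_lit 116) (nat_lit 5) (nat_lit 117) (nat_lit 5) (nat_lit 306) (nat_lit 267) (nat_lit 207)))))) (XT.nd (nat_lit 468) (nat_lit 1140) (nat_lit 0) (XT.nd (nat_lit 234) (nat_lit 380) (nat_lit 0) (XT.nd (nat_lit 78) (nat_lit 456) (nat_lit 0) (XT.lf (nat_lit 0) (nat_lit 727717108) (nat_lit 456) (nat_lit 9086537150) (nat_lit 532) (nat_lit 710915557) (nat_lit 105) (nat_lit 5) (nat_lit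 111) (nat_lit 5) (nat_lit 112) (nat_lit 5) (nat_lit 307) (nat_lit 267) (nat_lit 206)) (XT.nd (nat_lit 78) (nat_lit 380) (nat_lit 0) (XT.lf (nat_lit 0) (nat_lit 1394877166) (nat_lit 532) (nat_lit 4397085544) (nat_lit 76) (nat_lit 4910393590) (nat_lit 104) (nat_lit 5) (nat_lit 111) (nat_lit 5) (nat_lit 105) (nat_lit 5) (nat_lit 308) (nat_lit 267) (nat_lit 205)) (XT.lf (nat_lit 0) (nat_lit 1141151792) (nat_lit 380) (nat_lit 2386704586) (nat_lit 456) (nat_lit 7357489905) (nat_lit 99) (nat_lit 5) (nat_lit 104) (nat_lit 5) (nat_lit 105) (nat_lit 5) (nat_lit 309) (nat_lit 267) (nat_lit 204)))) (XT.nd (nat_lit 78) (nat_lit 380) (nat_lit 0) (XT.lf (nat_lit 0) (nat_lit 5748281953) (nat_lit 456) (nat_lit 4187961564) (nat_lit 76) (nat_lit 1136925446) (nat_lit 99) (nat_lit 5) (nat_lit 105) (nat_lit 5) (nat_lit 100) (nat_lit 5) (nat_lit 310) (nat_lit 267) (nat_lit 203)) (XT.nd (nat_lit 78) (nat_lit 0) (nat_lit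 0) (XT.lf (nat_lit 0) (nat_lit 1501870175) (nat_lit 380) (nat_lit 6540296837) (nat_lit 456) (nat_lit 3224299258) (nat_lit 94) (nat_lit 5) (nat_lit 99) (nat_lit 5) (nat_lit 100) (nat_lit 5) (nat_lit 311) (nat_lit 267) (nat_lit 202)) (XT.lf (nat_lit 0) (nat_lit 7409861683) (nat_lit 380) (nat_lit 3006616599) (nat_lit 456) (nat_lit 1048779951) (nat_lit 94) (nat_lit 5) (nat_lit 99) (nat_lit 5) (nat_lit 100) (nat_lit 5) (nat_lit 312) (nat_lit 267) (nat_lit 201))))) (XT.nd (nat_lit 234) (nat_lit 380) (nat_lit 0) (XT.nd (nat_lit 78) (nat_lit 380) (nat_lit 0) (XT.lf (nat_lit 0) (nat_lit 1162326305) (nat_lit 380) (nat_lit 9865336083) (nat_lit 76) (nat_lit 642241866) (nat_lit 89) (nat_lit 5) (nat_lit 94) (nat_lit 5) (nat_lit 90) (nat_lit 5) (nat_lit 313) (nat_lit 267) (nat_lit 200)) (XT.nd (nat_lit 78) (nat_lit 380) (nat_lit 0) (XT.lf (nat_lit 0) (nat_lit 3460128405) (nat_lit 380) (nat_lit 4034943498) (nat_lit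 76) (nat_lit 4384103264) (nat_lit 89) (nat_lit 5) (nat_lit 94) (nat_lit 5) (nat_lit 90) (nat_lit 5) (nat_lit 314) (nat_lit 267) (nat_lit 199)) (XT.lf (nat_lit 0) (nat_lit 1971563288) (nat_lit 380) (nat_lit 3845434315) (nat_lit 456) (nat_lit 6278061728) (nat_lit 84) (nat_lit 5) (nat_lit 89) (nat_lit 5) (nat_lit 90) (nat_lit 5) (nat_lit 315) (nat_lit 267) (nat_lit 198)))) (XT.nd (nat_lit 78) (nat_lit 380) (nat_lit 0) (XT.lf (nat_lit 0) (nat_lit 8204073176) (nat_lit 380) (nat_lit 52910517) (nat_lit 456) (nat_lit 4060101981) (nat_lit 84) (nat_lit 5) (nat_lit 89) (nat_lit 5) (nat_lit 90) (nat_lit 5) (nat_lit 316) (nat_lit 267) (nat_lit 197)) (XT.nd (nat_lit 78) (nat_lit 76) (nat_lit 0) (XT.lf (nat_lit 0) (nat_lit 2044018835) (nat_lit 304) (nat_lit 8755251106) (nat_lit 380) (nat_lit 1745666721) (nat_lit 80) (nat_lit 5) (nat_lit 84) (nat_lit 5) (nat_lit 85) (nat_lit 5) (nat_lit 317) (nat_lit 267) (nat_lit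 196)) (XT.lf (nat_lit 0) (nat_lit 640778843) (nat_lit 380) (nat_lit 4352206851) (nat_lit 76) (nat_lit 7786037270) (nat_lit 79) (nat_lit 5) (nat_lit 84) (nat_lit 5) (nat_lit 80) (nat_lit 5) (nat_lit 318) (nat_lit 267) (nat_lit 195))))))))
noncomputable def xc129 : XT := (XT.nd (nat_lit 1794) (nat_lit 1368) (nat_lit 0) (XT.nd (nat_lit 858) (nat_lit 1444) (nat_lit 0) (XT.nd (nat_lit 390) (nat_lit 684) (nat_lit 0) (XT.nd (nat_lit 156) (nat_lit 608) (nat_lit 0) (XT.nd (nat_lit 78) (nat_lit 0) (nat_lit 0) (XT.lf (nat_lit 0) (nat_lit 1966290220) (nat_lit 304) (nat_lit 1089704127) (nat_lit 380) (nat_lit 9963884854) (nat_lit 75) (nat_lit 5) (nat_lit 79) (nat_lit 5) (nat_lit 80) (nat_lit 5) (nat_lit 319) (nat_lit 267) (nat_lit 194)) (XT.lf (nat_lit 0) (nat_lit 5589930206) (nat_lit 380) (nat_lit 4767831626) (nat_lit 76) (nat_lit 2908844136) (nat_lit 75) (nat_lit 5) (nat_lit 80) (nat_lit 5) (nat_lit 76) (nat_lit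 5) (nat_lit 320) (nat_lit 267) (nat_lit 193))) (XT.nd (nat_lit 78) (nat_lit 304) (nat_lit 0) (XT.lf (nat_lit 0) (nat_lit 1693671003) (nat_lit 304) (nat_lit 6507757207) (nat_lit 380) (nat_lit 5319291811) (nat_lit 71) (nat_lit 5) (nat_lit 75) (nat_lit 5) (nat_lit 76) (nat_lit 5) (nat_lit 321) (nat_lit 267) (nat_lit 192)) (XT.nd (nat_lit 78) (nat_lit 304) (nat_lit 0) (XT.lf (nat_lit 0) (nat_lit 8412010668) (nat_lit 304) (nat_lit 2502290044) (nat_lit 380) (nat_lit 2867496779) (nat_lit 71) (nat_lit 5) (nat_lit 75) (nat_lit 5) (nat_lit 76) (nat_lit 5) (nat_lit 322) (nat_lit 267) (nat_lit 191)) (XT.lf (nat_lit 0) (nat_lit 1255688060) (nat_lit 304) (nat_lit 12456071809) (nat_lit 380) (nat_lit 338881378) (nat_lit 67) (nat_lit 5) (nat_lit 71) (nat_lit 5) (nat_lit 72) (nat_lit 5) (nat_lit 323) (nat_lit 267) (nat_lit 190))))) (XT.nd (nat_lit 234) (nat_lit 380) (nat_lit 0) (XT.nd (nat_lit 78) (nat_lit 228)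 (nat_lit 0) (XT.lf (nat_lit 0) (nat_lit 2276562787) (nat_lit 380) (nat_lit 6217590648) (nat_lit 76) (nat_lit 5831116388) (nat_lit 66) (nat_lit 5) (nat_lit 71) (nat_lit 5) (nat_lit 67) (nat_lit 5) (nat_lit 324) (nat_lit 267) (nat_lit 189)) (XT.nd (nat_lit 78) (nat_lit 0) (nat_lit 0) (XT.lf (nat_lit 0) (nat_lit 530517649) (nat_lit 228) (nat_lit 4414594342) (nat_lit 304) (nat_lit 9663508457) (nat_lit 63) (nat_lit 5) (nat_lit 66) (nat_lit 5) (nat_lit 67) (nat_lit 5) (nat_lit 325) (nat_lit 267) (nat_lit 188)) (XT.lf (nat_lit 0) (nat_lit 7575280682) (nat_lit 228) (nat_lit 157944887) (nat_lit 304) (nat_lit 7166087422) (nat_lit 63) (nat_lit 5) (nat_lit 66) (nat_lit 5) (nat_lit 67) (nat_lit 5) (nat_lit 326) (nat_lit 267) (nat_lit 187)))) (XT.nd (nat_lit 78) (nat_lit 380) (nat_lit 0) (XT.lf (nat_lit 0) (nat_lit 10622916742) (nat_lit 304) (nat_lit 440852115) (nat_lit 76) (nat_lit 4134445288) (nat_lit 63)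 (nat_lit 5) (nat_lit 67) (nat_lit 5) (nat_lit 64) (nat_lit 5) (nat_lit 327) (nat_lit 267) (nat_lit 186)) (XT.nd (nat_lit 78) (nat_lit 76) (nat_lit 0) (XT.lf (nat_lit 0) (nat_lit 6746989954) (nat_lit 304) (nat_lit 6896697057) (nat_lit 380) (nat_lit 1861088781) (nat_lit 59) (nat_lit 5) (nat_lit 63) (nat_lit 5) (nat_lit 64) (nat_lit 5) (nat_lit 328) (nat_lit 267) (nat_lit 185)) (XT.lf (nat_lit 0) (nat_lit 898873020) (nat_lit 380) (nat_lit 1701998863) (nat_lit 76) (nat_lit 13219939670) (nat_lit 58) (nat_lit 5) (nat_lit 63) (nat_lit 5) (nat_lit 59) (nat_lit 5) (nat_lit 329) (nat_lit 267) (nat_lit 184)))))) (XT.nd (nat_lit 468) (nat_lit 684) (nat_lit 0) (XT.nd (nat_lit 234) (nat_lit 304) (nat_lit 0) (XT.nd (nat_lit 78) (nat_lit 228) (nat_lit 0) (XT.lf (nat_lit 0) (nat_lit 3755166261) (nat_lit 304) (nat_lit 10537298521) (nat_lit 76) (nat_lit 1851805624) (nat_lit 55) (nat_lit 5) (nat_lit 59) (nat_lit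 5) (nat_lit 56) (nat_lit 5) (nat_lit 330) (nat_lit 267) (nat_lit 183)) (XT.nd (nat_lit 78) (nat_lit 228) (nat_lit 0) (XT.lf (nat_lit 0) (nat_lit 6719191762) (nat_lit 304) (nat_lit 3364129722) (nat_lit 76) (nat_lit 6393472544) (nat_lit 55) (nat_lit 5) (nat_lit 59) (nat_lit 5) (nat_lit 56) (nat_lit 5) (nat_lit 331) (nat_lit 267) (nat_lit 182)) (XT.lf (nat_lit 0) (nat_lit 4073240060) (nat_lit 228) (nat_lit 5717601216) (nat_lit 304) (nat_lit 7027912644) (nat_lit 52) (nat_lit 5) (nat_lit 55) (nat_lit 5) (nat_lit 56) (nat_lit 5) (nat_lit 332) (nat_lit 267) (nat_lit 181)))) (XT.nd (nat_lit 78) (nat_lit 304) (nat_lit 0) (XT.lf (nat_lit 0) (nat_lit 11772513436) (nat_lit 228) (nat_lit 1195952299) (nat_lit 304) (nat_lit 4202113138) (nat_lit 52) (nat_lit 5) (nat_lit 55) (nat_lit 5) (nat_lit 56) (nat_lit 5) (nat_lit 333) (nat_lit 267) (nat_lit 180)) (XT.nd (nat_lit 78) (nat_lit 76) (nat_lit 0) (XT.lf (nat_lit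 0) (nat_lit 2148648316) (nat_lit 228) (nat_lit 14127044782) (nat_lit 304) (nat_lit 1256257665) (nat_lit 49) (nat_lit 5) (nat_lit 52) (nat_lit 5) (nat_lit 53) (nat_lit 5) (nat_lit 334) (nat_lit 267) (nat_lit 179)) (XT.lf (nat_lit 0) (nat_lit 1790594442) (nat_lit 304) (nat_lit 7929511713) (nat_lit 76) (nat_lit 8182144700) (nat_lit 48) (nat_lit 5) (nat_lit 52) (nat_lit 5) (nat_lit 49) (nat_lit 5) (nat_lit 335) (nat_lit 267) (nat_lit 178))))) (XT.nd (nat_lit 234) (nat_lit 456) (nat_lit 0) (XT.nd (nat_lit 78) (nat_lit 228) (nat_lit 0) (XT.lf (nat_lit 0) (nat_lit 4884597673) (nat_lit 304) (nat_lit 293603654) (nat_lit 76) (nat_lit 13105674307) (nat_lit 48) (nat_lit 5) (nat_lit 52) (nat_lit 5) (nat_lit 49) (nat_lit 5) (nat_lit 336) (nat_lit 267) (nat_lit 177)) (XT.nd (nat_lit 78) (nat_lit 0) (nat_lit 0) (XT.lf (nat_lit 0) (nat_lit 7693293667) (nat_lit 228) (nat_lit 433628613) (nat_lit 304) (nat_lit 10548379975)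 (nat_lit 45) (nat_lit 5) (nat_lit 48) (nat_lit 5) (nat_lit 49) (nat_lit 5) (nat_lit 337) (nat_lit 267) (nat_lit 176)) (XT.lf (nat_lit 0) (nat_lit 11494042240) (nat_lit 304) (nat_lit 3223807849) (nat_lit 76) (nat_lit 4359813428) (nat_lit 45) (nat_lit 5) (nat_lit 49) (nat_lit 5) (nat_lit 46) (nat_lit 5) (nat_lit 338) (nat_lit 267) (nat_lit 175)))) (XT.nd (nat_lit 78) (nat_lit 304) (nat_lit 0) (XT.lf (nat_lit 0) (nat_lit 4829509405) (nat_lit 152) (nat_lit 10165640034) (nat_lit 228) (nat_lit 4495974066) (nat_lit 43) (nat_lit 5) (nat_lit 45) (nat_lit 5) (nat_lit 46) (nat_lit 5) (nat_lit 339) (nat_lit 267) (nat_lit 174)) (XT.nd (nat_lit 78) (nat_lit 304) (nat_lit 0) (XT.lf (nat_lit 0) (nat_lit 13163204167) (nat_lit 152) (nat_lit 5453150238) (nat_lit 228) (nat_lit 1300197550) (nat_lit 43) (nat_lit 5) (nat_lit 45) (nat_lit 5) (nat_lit 46) (nat_lit 5) (nat_lit 340) (nat_lit 267) (nat_lit 173)) (XT.lf (nat_lit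 0) (nat_lit 1372945761) (nat_lit 228) (nat_lit 575679584) (nat_lit 304) (nat_lit 18405678264) (nat_lit 39) (nat_lit 5) (nat_lit 42) (nat_lit 5) (nat_lit 43) (nat_lit 5) (nat_lit 341) (nat_lit 267) (nat_lit 172))))))) (XT.nd (nat_lit 936) (nat_lit 684) (nat_lit 0) (XT.nd (nat_lit 468) (nat_lit 304) (nat_lit 0) (XT.nd (nat_lit 234) (nat_lit 228) (nat_lit 0) (XT.nd (nat_lit 78) (nat_lit 152) (nat_lit 0) (XT.lf (nat_lit 0) (nat_lit 5363395995) (nat_lit 304) (nat_lit 11005018346) (nat_lit 76) (nat_lit 4433563991) (nat_lit 39) (nat_lit 5) (nat_lit 43) (nat_lit 5) (nat_lit 40) (nat_lit 5) (nat_lit 342) (nat_lit 267) (nat_lit 171)) (XT.nd (nat_lit 78) (nat_lit 152) (nat_lit 0) (XT.lf (nat_lit 0) (nat_lit 8869792060) (nat_lit 304) (nat_lit 2821336103) (nat_lit 76) (nat_lit 9572294415) (nat_lit 39) (nat_lit 5) (nat_lit 43) (nat_lit 5) (nat_lit 40) (nat_lit 5) (nat_lit 343) (nat_lit 267) (nat_lit 170)) (XT.lf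 (nat_lit 0) (nat_lit 5693473631) (nat_lit 152) (nat_lit 6826599115) (nat_lit 228) (nat_lit 9217490940) (nat_lit 37) (nat_lit 5) (nat_lit 39) (nat_lit 5) (nat_lit 40) (nat_lit 5) (nat_lit 344) (nat_lit 267) (nat_lit 169)))) (XT.nd (nat_lit 78) (nat_lit 228) (nat_lit 0) (XT.lf (nat_lit 0) (nat_lit 14496328965) (nat_lit 152) (nat_lit 1796210962) (nat_lit 228) (nat_lit 5933022660) (nat_lit 37) (nat_lit 5) (nat_lit 39) (nat_lit 5) (nat_lit 40) (nat_lit 5) (nat_lit 345) (nat_lit 267) (nat_lit 168)) (XT.nd (nat_lit 78) (nat_lit 76) (nat_lit 0) (XT.lf (nat_lit 0) (nat_lit 793121132) (nat_lit 152) (nat_lit 19409784227) (nat_lit 228) (nat_lit 2524567866) (nat_lit 35) (nat_lit 5) (nat_lit 37) (nat_lit 5) (nat_lit 38) (nat_lit 5) (nat_lit 346) (nat_lit 267) (nat_lit 167)) (XT.lf (nat_lit 0) (nat_lit 1048114508) (nat_lit 228) (nat_lit 13565507390) (nat_lit 76) (nat_lit 8628111110) (nat_lit 34) (nat_lit 5)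 (nat_lit 37) (nat_lit 5) (nat_lit 35) (nat_lit 5) (nat_lit 347) (nat_lit 267) (nat_lit 166))))) (XT.nd (nat_lit 234) (nat_lit 152) (nat_lit 0) (XT.nd (nat_lit 78) (nat_lit 152) (nat_lit 0) (XT.lf (nat_lit 0) (nat_lit 4662294243) (nat_lit 228) (nat_lit 4994825616) (nat_lit 76) (nat_lit 14114011461) (nat_lit 34) (nat_lit 5) (nat_lit 37) (nat_lit 5) (nat_lit 35) (nat_lit 5) (nat_lit 348) (nat_lit 267) (nat_lit 165)) (XT.nd (nat_lit 78) (nat_lit 0) (nat_lit 0) (XT.lf (nat_lit 0) (nat_lit 3885265385) (nat_lit 152) (nat_lit 4522474931) (nat_lit 228) (nat_lit 15907998028) (nat_lit 32) (nat_lit 5) (nat_lit 34) (nat_lit 5) (nat_lit 35) (nat_lit 5) (nat_lit 349) (nat_lit 267) (nat_lit 164)) (XT.lf (nat_lit 0) (nat_lit 12309457963) (nat_lit 228) (nat_lit 11772537529) (nat_lit 76) (nat_lit 793382483) (nat_lit 32) (nat_lit 5) (nat_lit 35) (nat_lit 5) (nat_lit 33) (nat_lit 5) (nat_lit 350) (nat_lit 267) (nat_lit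 163)))) (XT.nd (nat_lit 78) (nat_lit 152) (nat_lit 0) (XT.lf (nat_lit 0) (nat_lit 16359028960) (nat_lit 228) (nat_lit 2922602740) (nat_lit 76) (nat_lit 6169262343) (nat_lit 32) (nat_lit 5) (nat_lit 35) (nat_lit 5) (nat_lit 33) (nat_lit 5) (nat_lit 351) (nat_lit 267) (nat_lit 162)) (XT.nd (nat_lit 78) (nat_lit 0) (nat_lit 0) (XT.lf (nat_lit 0) (nat_lit 6293342944) (nat_lit 152) (nat_lit 14283671490) (nat_lit 228) (nat_lit 5465264314) (nat_lit 30) (nat_lit 5) (nat_lit 32) (nat_lit 5) (nat_lit 33) (nat_lit 5) (nat_lit 352) (nat_lit 267) (nat_lit 161)) (XT.lf (nat_lit 0) (nat_lit 15823603113) (nat_lit 152) (nat_lit 9114063798) (nat_lit 228) (nat_lit 1713264914) (nat_lit 30) (nat_lit 5) (nat_lit 32) (nat_lit 5) (nat_lit 33) (nat_lit 5) (nat_lit 353) (nat_lit 267) (nat_lit 160)))))) (XT.nd (nat_lit 468) (nat_lit 304) (nat_lit 0) (XT.nd (nat_lit 234) (nat_lit 152) (nat_lit 0) (XT.nd (nat_lit 78) (nat_lit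 152) (nat_lit 0) (XT.lf (nat_lit 0) (nat_lit 2096180894) (nat_lit 228) (nat_lit 1680455837) (nat_lit 76) (nat_lit 23500991440) (nat_lit 29) (nat_lit 5) (nat_lit 32) (nat_lit 5) (nat_lit 30) (nat_lit 5) (nat_lit 354) (nat_lit 267) (nat_lit 159)) (XT.nd (nat_lit 78) (nat_lit 0) (nat_lit 0) (XT.lf (nat_lit 0) (nat_lit 6065619318) (nat_lit 228) (nat_lit 20082031369) (nat_lit 76) (nat_lit 1772571256) (nat_lit 27) (nat_lit 5) (nat_lit 30) (nat_lit 5) (nat_lit 28) (nat_lit 5) (nat_lit 355) (nat_lit 267) (nat_lit 158)) (XT.lf (nat_lit 0) (nat_lit 10196010353) (nat_lit 228) (nat_lit 10963472262) (nat_lit 76) (nat_lit 7421364295) (nat_lit 27) (nat_lit 5) (nat_lit 30) (nat_lit 5) (nat_lit 28) (nat_lit 5) (nat_lit 356) (nat_lit 267) (nat_lit 157)))) (XT.nd (nat_lit 78) (nat_lit 152) (nat_lit 0) (XT.lf (nat_lit 0) (nat_lit 14438021561) (nat_lit 228) (nat_lit 1591911172) (nat_lit 76) (nat_lit 13231735832) (nat_lit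 27) (nat_lit 5) (nat_lit 30) (nat_lit 5) (nat_lit 28) (nat_lit 5) (nat_lit 357) (nat_lit 267) (nat_lit 156)) (XT.nd (nat_lit 78) (nat_lit 0) (nat_lit 0) (XT.lf (nat_lit 0) (nat_lit 8200869139) (nat_lit 152) (nat_lit 10673322185) (nat_lit 228) (nat_lit 11086725521) (nat_lit 25) (nat_lit 5) (nat_lit 27) (nat_lit 5) (nat_lit 28) (nat_lit 5) (nat_lit 358) (nat_lit 267) (nat_lit 155)) (XT.lf (nat_lit 0) (nat_lit 18300305020) (nat_lit 152) (nat_lit 5147440419) (nat_lit 228) (nat_lit 7233276819) (nat_lit 25) (nat_lit 5) (nat_lit 27) (nat_lit 5) (nat_lit 28) (nat_lit 5) (nat_lit 359) (nat_lit 267) (nat_lit 154))))) (XT.nd (nat_lit 234) (nat_lit 152) (nat_lit 0) (XT.nd (nat_lit 78) (nat_lit 152) (nat_lit 0) (XT.lf (nat_lit 0) (nat_lit 28152230080) (nat_lit 228) (nat_lit 2744700005) (nat_lit 76) (nat_lit 525997442) (nat_lit 25) (nat_lit 5) (nat_lit 28) (nat_lit 5) (nat_lit 26) (nat_lit 4) (nat_lit 360)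 (nat_lit 267) (nat_lit 153)) (XT.nd (nat_lit 78) (nat_lit 0) (nat_lit 0) (XT.lf (nat_lit 0) (nat_lit 905518289) (nat_lit 152) (nat_lit 24940638950) (nat_lit 76) (nat_lit 6337389444) (nat_lit 23) (nat_lit 5) (nat_lit 25) (nat_lit 5) (nat_lit 24) (nat_lit 5) (nat_lit 361) (nat_lit 267) (nat_lit 152)) (XT.lf (nat_lit 0) (nat_lit 5158129549) (nat_lit 152) (nat_lit 15431342304) (nat_lit 76) (nat_lit 12376043357) (nat_lit 23) (nat_lit 5) (nat_lit 25) (nat_lit 5) (nat_lit 24) (nat_lit 5) (nat_lit 362) (nat_lit 267) (nat_lit 151)))) (XT.nd (nat_lit 78) (nat_lit 152) (nat_lit 0) (XT.lf (nat_lit 0) (nat_lit 9527500046) (nat_lit 152) (nat_lit 5655154311) (nat_lit 76) (nat_lit 18588620482) (nat_lit 23) (nat_lit 5) (nat_lit 25) (nat_lit 5) (nat_lit 24) (nat_lit 5) (nat_lit 363) (nat_lit 267) (nat_lit 150)) (XT.nd (nat_lit 78) (nat_lit 0) (nat_lit 0) (XT.lf (nat_lit 0) (nat_lit 4483965649) (nat_lit 152) (nat_lit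 9576584647) (nat_lit 228) (nat_lit 20539686257) (nat_lit 21) (nat_lit 5) (nat_lit 23) (nat_lit 5) (nat_lit 24) (nat_lit 5) (nat_lit 364) (nat_lit 267) (nat_lit 149)) (XT.lf (nat_lit 0) (nat_lit 15025507356) (nat_lit 152) (nat_lit 3750822706) (nat_lit 228) (nat_lit 16676341961) (nat_lit 21) (nat_lit 5) (nat_lit 23) (nat_lit 5) (nat_lit 24) (nat_lit 5) (nat_lit 365) (nat_lit 267) (nat_lit 148))))))))
noncomputable def xc130 : XT := (XT.nd (nat_lit 1794) (nat_lit 228) (nat_lit 0) (XT.nd (nat_lit 858) (nat_lit 304) (nat_lit 0) (XT.nd (nat_lit 390) (nat_lit 228) (nat_lit 0) (XT.nd (nat_lit 156) (nat_lit 152) (nat_lit 0) (XT.nd (nat_lit 78) (nat_lit 0) (nat_lit 0) (XT.lf (nat_lit 0) (nat_lit 23645074635) (nat_lit 228) (nat_lit 10486413565) (nat_lit 76) (nat_lit 2198854452) (nat_lit 21) (nat_lit 5) (nat_lit 24) (nat_lit 5) (nat_lit 22) (nat_lit 4) (nat_lit 366) (nat_lit 267) (nat_lit 147)) (XT.lf (nat_lit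 0) (nat_lit 28687179378) (nat_lit 228) (nat_lit 301472629) (nat_lit 76) (nat_lit 8244879097) (nat_lit 21) (nat_lit 5) (nat_lit 24) (nat_lit 5) (nat_lit 22) (nat_lit 4) (nat_lit 367) (nat_lit 267) (nat_lit 146))) (XT.nd (nat_lit 78) (nat_lit 76) (nat_lit 0) (XT.lf (nat_lit 0) (nat_lit 10375067747) (nat_lit 76) (nat_lit 23595658563) (nat_lit 152) (nat_lit 4190389975) (nat_lit 20) (nat_lit 5) (nat_lit 21) (nat_lit 5) (nat_lit 22) (nat_lit 4) (nat_lit 368) (nat_lit 267) (nat_lit 145)) (XT.nd (nat_lit 78) (nat_lit 0) (nat_lit 0) (XT.lf (nat_lit 0) (nat_lit 284014269) (nat_lit 152) (nat_lit 17757669994) (nat_lit 76) (nat_lit 21074959066) (nat_lit 19) (nat_lit 5) (nat_lit 21) (nat_lit 5) (nat_lit 20) (nat_lit 5) (nat_lit 369) (nat_lit 267) (nat_lit 144)) (XT.lf (nat_lit 0) (nat_lit 4799175653) (nat_lit 152) (nat_lit 7485888953) (nat_lit 76) (nat_lit 27814810375) (nat_lit 19) (nat_lit 5) (nat_lit 21)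 (nat_lit 5) (nat_lit 20) (nat_lit 5) (nat_lit 370) (nat_lit 267) (nat_lit 143))))) (XT.nd (nat_lit 234) (nat_lit 76) (nat_lit 0) (XT.nd (nat_lit 78) (nat_lit 0) (nat_lit 0) (XT.lf (nat_lit 0) (nat_lit 3139819709) (nat_lit 152) (nat_lit 6331171223) (nat_lit 228) (nat_lit 31640982407) (nat_lit 17) (nat_lit 5) (nat_lit 19) (nat_lit 5) (nat_lit 20) (nat_lit 5) (nat_lit 371) (nat_lit 267) (nat_lit 142)) (XT.nd (nat_lit 78) (nat_lit 0) (nat_lit 0) (XT.lf (nat_lit 0) (nat_lit 14222409928) (nat_lit 152) (nat_lit 127274877) (nat_lit 228) (nat_lit 27802753679) (nat_lit 17) (nat_lit 5) (nat_lit 19) (nat_lit 5) (nat_lit 20) (nat_lit 5) (nat_lit 372) (nat_lit 267) (nat_lit 141)) (XT.lf (nat_lit 0) (nat_lit 19426269988) (nat_lit 228) (nat_lit 17661940491) (nat_lit 76) (nat_lit 6134366588) (nat_lit 17) (nat_lit 5) (nat_lit 20) (nat_lit 5) (nat_lit 18) (nat_lit 4) (nat_lit 373) (nat_lit 267) (nat_lit 140))))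 (XT.nd (nat_lit 78) (nat_lit 76) (nat_lit 0) (XT.lf (nat_lit 0) (nat_lit 24647994642) (nat_lit 228) (nat_lit 7101729628) (nat_lit 76) (nat_lit 12575315520) (nat_lit 17) (nat_lit 5) (nat_lit 20) (nat_lit 5) (nat_lit 18) (nat_lit 4) (nat_lit 374) (nat_lit 267) (nat_lit 139)) (XT.nd (nat_lit 78) (nat_lit 0) (nat_lit 0) (XT.lf (nat_lit 0) (nat_lit 3835907210) (nat_lit 76) (nat_lit 26219163872) (nat_lit 152) (nat_lit 15404649401) (nat_lit 16) (nat_lit 5) (nat_lit 17) (nat_lit 5) (nat_lit 18) (nat_lit 4) (nat_lit 375) (nat_lit 267) (nat_lit 138)) (XT.lf (nat_lit 0) (nat_lit 15233158469) (nat_lit 76) (nat_lit 20454844428) (nat_lit 152) (nat_lit 10938534347) (nat_lit 16) (nat_lit 5) (nat_lit 17) (nat_lit 5) (nat_lit 18) (nat_lit 4) (nat_lit 376) (nat_lit 267) (nat_lit 137)))))) (XT.nd (nat_lit 468) (nat_lit 76) (nat_lit 0) (XT.nd (nat_lit 234) (nat_lit 0) (nat_lit 0) (XT.nd (nat_lit 78) (nat_lit 228)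 (nat_lit 0) (XT.lf (nat_lit 0) (nat_lit 26958644567) (nat_lit 76) (nat_lit 14523442698) (nat_lit 152) (nat_lit 6346511102) (nat_lit 16) (nat_lit 5) (nat_lit 17) (nat_lit 5) (nat_lit 18) (nat_lit 4) (nat_lit 377) (nat_lit 267) (nat_lit 136)) (XT.nd (nat_lit 78) (nat_lit 228) (nat_lit 0) (XT.lf (nat_lit 0) (nat_lit 39022611075) (nat_lit 76) (nat_lit 8419775905) (nat_lit 152) (nat_lit 1624567216) (nat_lit 16) (nat_lit 5) (nat_lit 17) (nat_lit 5) (nat_lit 18) (nat_lit 4) (nat_lit 378) (nat_lit 267) (nat_lit 135)) (XT.lf (nat_lit 0) (nat_lit 1082983014) (nat_lit 152) (nat_lit 2095793853) (nat_lit 228) (nat_lit 47162665741) (nat_lit 13) (nat_lit 5) (nat_lit 15) (nat_lit 5) (nat_lit 16) (nat_lit 5) (nat_lit 379) (nat_lit 267) (nat_lit 134)))) (XT.nd (nat_lit 78) (nat_lit 0) (nat_lit 0) (XT.lf (nat_lit 0) (nat_lit 8231045734) (nat_lit 228) (nat_lit 38973745626) (nat_lit 76) (nat_lit 4444771729) (nat_lit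 13) (nat_lit 5) (nat_lit 16) (nat_lit 5) (nat_lit 14) (nat_lit 4) (nat_lit 380) (nat_lit 267) (nat_lit 133)) (XT.nd (nat_lit 78) (nat_lit 0) (nat_lit 0) (XT.lf (nat_lit 0) (nat_lit 13448425928) (nat_lit 228) (nat_lit 28413953512) (nat_lit 76) (nat_lit 11134145584) (nat_lit 13) (nat_lit 5) (nat_lit 16) (nat_lit 5) (nat_lit 14) (nat_lit 4) (nat_lit 381) (nat_lit 267) (nat_lit 132)) (XT.lf (nat_lit 0) (nat_lit 18815330273) (nat_lit 228) (nat_lit 17549710198) (nat_lit 76) (nat_lit 18019069282) (nat_lit 13) (nat_lit 5) (nat_lit 16) (nat_lit 5) (nat_lit 14) (nat_lit 4) (nat_lit 382) (nat_lit 267) (nat_lit 131))))) (XT.nd (nat_lit 234) (nat_lit 0) (nat_lit 0) (XT.nd (nat_lit 78) (nat_lit 76) (nat_lit 0) (XT.lf (nat_lit 0) (nat_lit 24336448296) (nat_lit 228) (nat_lit 6371522656) (nat_lit 76) (nat_lit 25105558776) (nat_lit 13) (nat_lit 5) (nat_lit 16) (nat_lit 5) (nat_lit 14) (nat_lit 4) (nat_lit 383)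 (nat_lit 267) (nat_lit 130)) (XT.nd (nat_lit 78) (nat_lit 0) (nat_lit 0) (XT.lf (nat_lit 0) (nat_lit 5232481014) (nat_lit 76) (nat_lit 24834421069) (nat_lit 152) (nat_lit 27217622936) (nat_lit 12) (nat_lit 5) (nat_lit 13) (nat_lit 5) (nat_lit 14) (nat_lit 4) (nat_lit 384) (nat_lit 267) (nat_lit 129)) (XT.lf (nat_lit 0) (nat_lit 17303694773) (nat_lit 76) (nat_lit 18723400380) (nat_lit 152) (nat_lit 22770823924) (nat_lit 12) (nat_lit 5) (nat_lit 13) (nat_lit 5) (nat_lit 14) (nat_lit 4) (nat_lit 385) (nat_lit 267) (nat_lit 128)))) (XT.nd (nat_lit 78) (nat_lit 0) (nat_lit 0) (XT.lf (nat_lit 0) (nat_lit 29725860489) (nat_lit 76) (nat_lit 12433909044) (nat_lit 152) (nat_lit 18197138727) (nat_lit 12) (nat_lit 5) (nat_lit 13) (nat_lit 5) (nat_lit 14) (nat_lit 4) (nat_lit 386) (nat_lit 267) (nat_lit 127)) (XT.nd (nat_lit 78) (nat_lit 0) (nat_lit 0) (XT.lf (nat_lit 0) (nat_lit 42509832481) (nat_lit 76)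 (nat_lit 5960451389) (nat_lit 152) (nat_lit 13492570922) (nat_lit 12) (nat_lit 5) (nat_lit 13) (nat_lit 5) (nat_lit 14) (nat_lit 4) (nat_lit 387) (nat_lit 267) (nat_lit 126)) (XT.lf (nat_lit 0) (nat_lit 54970906305) (nat_lit 152) (nat_lit 7957134816) (nat_lit 0) (nat_lit 688918181) (nat_lit 12) (nat_lit 5) (nat_lit 14) (nat_lit 4) (nat_lit 12) (nat_lit 4) (nat_lit 388) (nat_lit 267) (nat_lit 125))))))) (XT.nd (nat_lit 31434) (nat_lit 0) (nat_lit 17252) (XT.nd (nat_lit 468) (nat_lit 76) (nat_lit 0) (XT.nd (nat_lit 234) (nat_lit 0) (nat_lit 0) (XT.nd (nat_lit 78) (nat_lit 76) (nat_lit 0) (XT.lf (nat_lit 0) (nat_lit 3890156385) (nat_lit 76) (nat_lit 57866969410) (nat_lit 76) (nat_lit 3560847068) (nat_lit 11) (nat_lit 4) (nat_lit 12) (nat_lit 5) (nat_lit 12) (nat_lit 4) (nat_lit 389) (nat_lit 267) (nat_lit 124)) (XT.nd (nat_lit 78) (nat_lit 0) (nat_lit 0) (XT.lf (nat_lit 0) (nat_lit 1719519842) (nat_lit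 152) (nat_lit 50838928341) (nat_lit 76) (nat_lit 14508828318) (nat_lit 10) (nat_lit 5) (nat_lit 12) (nat_lit 5) (nat_lit 11) (nat_lit 4) (nat_lit 390) (nat_lit 267) (nat_lit 123)) (XT.lf (nat_lit 0) (nat_lit 7081078199) (nat_lit 152) (nat_lit 39977713691) (nat_lit 76) (nat_lit 21809382171) (nat_lit 10) (nat_lit 5) (nat_lit 12) (nat_lit 5) (nat_lit 11) (nat_lit 4) (nat_lit 391) (nat_lit 267) (nat_lit 122)))) (XT.nd (nat_lit 78) (nat_lit 0) (nat_lit 0) (XT.lf (nat_lit 0) (nat_lit 12597997812) (nat_lit 152) (nat_lit 28800453106) (nat_lit 76) (nat_lit 29324815097) (nat_lit 10) (nat_lit 5) (nat_lit 12) (nat_lit 5) (nat_lit 11) (nat_lit 4) (nat_lit 392) (nat_lit 267) (nat_lit 121)) (XT.nd (nat_lit 78) (nat_lit 0) (nat_lit 0) (XT.lf (nat_lit 0) (nat_lit 18275099289) (nat_lit 152) (nat_lit 17297380048) (nat_lit 76) (nat_lit 37061693980) (nat_lit 10) (nat_lit 5) (nat_lit 12) (nat_lit 5) (nat_lit 11) (nat_lit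 4) (nat_lit 393) (nat_lit 267) (nat_lit 120)) (XT.lf (nat_lit 0) (nat_lit 24117343204) (nat_lit 152) (nat_lit 5458443288) (nat_lit 76) (nat_lit 45026779198) (nat_lit 10) (nat_lit 5) (nat_lit 12) (nat_lit 5) (nat_lit 11) (nat_lit 4) (nat_lit 394) (nat_lit 267) (nat_lit 119))))) (XT.nd (nat_lit 30732) (nat_lit 0) (nat_lit 19152) (XT.nd (nat_lit 78) (nat_lit 0) (nat_lit 0) (XT.lf (nat_lit 0) (nat_lit 6860576431) (nat_lit 76) (nat_lit 23335206057) (nat_lit 152) (nat_lit 46432402161) (nat_lit 9) (nat_lit 5) (nat_lit 10) (nat_lit 5) (nat_lit 11) (nat_lit 4) (nat_lit 395) (nat_lit 267) (nat_lit 118)) (XT.nd (nat_lit 78) (nat_lit 0) (nat_lit 0) (XT.lf (nat_lit 0) (nat_lit 19652187620) (nat_lit 76) (nat_lit 16854547832) (nat_lit 152) (nat_lit 42206334489) (nat_lit 9) (nat_lit 5) (nat_lit 10) (nat_lit 5) (nat_lit 11) (nat_lit 4) (nat_lit 396) (nat_lit 267) (nat_lit 117)) (XT.lf (nat_lit 0) (nat_lit 32818933690)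 (nat_lit 76) (nat_lit 10183268680) (nat_lit 152) (nat_lit 37858446362) (nat_lit 9) (nat_lit 5) (nat_lit 10) (nat_lit 5) (nat_lit 11) (nat_lit 4) (nat_lit 397) (nat_lit 267) (nat_lit 116)))) (XT.nd (nat_lit 78) (nat_lit 532) (nat_lit 0) (XT.lf (nat_lit 0) (nat_lit 3261652817) (nat_lit 532) (nat_lit 50402944) (nat_lit 532) (nat_lit 50402944) (nat_lit 268) (nat_lit 3) (nat_lit 275) (nat_lit 3) (nat_lit 275) (nat_lit 5) (nat_lit 268) (nat_lit 268) (nat_lit 244)) (XT.nd (nat_lit 78) (nat_lit 0) (nat_lit 0) (XT.lf (nat_lit 0) (nat_lit 1797269173) (nat_lit 532) (nat_lit 3812881249) (nat_lit 608) (nat_lit 1150816937) (nat_lit 261) (nat_lit 5) (nat_lit 268) (nat_lit 3) (nat_lit 269) (nat_lit 5) (nat_lit 269) (nat_lit 268) (nat_lit 243)) (XT.lf (nat_lit 0) (nat_lit 3775855260) (nat_lit 532) (nat_lit 751262604) (nat_lit 608) (nat_lit 2273400335) (nat_lit 261) (nat_lit 5) (nat_lit 268) (nat_lit 3) (nat_lit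 269) (nat_lit 5) (nat_lit 270) (nat_lit 268) (nat_lit 242)))))) (XT.nd (nat_lit 468) (nat_lit 684) (nat_lit 0) (XT.nd (nat_lit 234) (nat_lit 608) (nat_lit 0) (XT.nd (nat_lit 78) (nat_lit 608) (nat_lit 0) (XT.lf (nat_lit 76) (nat_lit 2408722600) (nat_lit 0) (nat_lit 3353242950) (nat_lit 608) (nat_lit 1081032401) (nat_lit 262) (nat_lit 5) (nat_lit 261) (nat_lit 5) (nat_lit 269) (nat_lit 5) (nat_lit 271) (nat_lit 268) (nat_lit 241)) (XT.nd (nat_lit 78) (nat_lit 0) (nat_lit 0) (XT.lf (nat_lit 0) (nat_lit 836506469) (nat_lit 608) (nat_lit 1258283578) (nat_lit 684) (nat_lit 4793866021) (nat_lit 253) (nat_lit 5) (nat_lit 261) (nat_lit 5) (nat_lit 262) (nat_lit 5) (nat_lit 272) (nat_lit 268) (nat_lit 240)) (XT.lf (nat_lit 76) (nat_lit 2000804113) (nat_lit 0) (nat_lit 736338916) (nat_lit 684) (nat_lit 4199972308) (nat_lit 254) (nat_lit 5) (nat_lit 253) (nat_lit 5) (nat_lit 262) (nat_lit 5) (nat_lit 273)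 (nat_lit 268) (nat_lit 239)))) (XT.nd (nat_lit 78) (nat_lit 684) (nat_lit 0) (XT.lf (nat_lit 0) (nat_lit 4644067573) (nat_lit 608) (nat_lit 1652375553) (nat_lit 684) (nat_lit 692273683) (nat_lit 254) (nat_lit 5) (nat_lit 262) (nat_lit 5) (nat_lit 263) (nat_lit 5) (nat_lit 274) (nat_lit 268) (nat_lit 238)) (XT.nd (nat_lit 78) (nat_lit 684) (nat_lit 0) (XT.lf (nat_lit 76) (nat_lit 1714804381) (nat_lit 0) (nat_lit 4849271659) (nat_lit 684) (nat_lit 479275639) (nat_lit 255) (nat_lit 5) (nat_lit 254) (nat_lit 5) (nat_lit 263) (nat_lit 5) (nat_lit 275) (nat_lit 268) (nat_lit 237)) (XT.lf (nat_lit 0) (nat_lit 1363644977) (nat_lit 684) (nat_lit 1938807687) (nat_lit 760) (nat_lit 3798417669) (nat_lit 245) (nat_lit 5) (nat_lit 254) (nat_lit 5) (nat_lit 255) (nat_lit 5) (nat_lit 276) (nat_lit 268) (nat_lit 236))))) (XT.nd (nat_lit 234) (nat_lit 684) (nat_lit 0) (XT.nd (nat_lit 78) (nat_lit 0) (nat_lit 76)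 (XT.lf (nat_lit 76) (nat_lit 1536574272) (nat_lit 0) (nat_lit 1665246196) (nat_lit 760) (nat_lit 3959811636) (nat_lit 246) (nat_lit 5) (nat_lit 245) (nat_lit 5) (nat_lit 255) (nat_lit 5) (nat_lit 277) (nat_lit 268) (nat_lit 235)) (XT.nd (nat_lit 78) (nat_lit 0) (nat_lit 0) (XT.lf (nat_lit 0) (nat_lit 5051669706) (nat_lit 684) (nat_lit 2111220882) (nat_lit 760) (nat_lit 62773903) (nat_lit 246) (nat_lit 5) (nat_lit 255) (nat_lit 5) (nat_lit 256) (nat_lit 5) (nat_lit 278) (nat_lit 268) (nat_lit 234)) (XT.lf (nat_lit 76) (nat_lit 1478494932) (nat_lit 0) (nat_lit 5447621096) (nat_lit 760) (nat_lit 366568206) (nat_lit 247) (nat_lit 5) (nat_lit 246) (nat_lit 5) (nat_lit 256) (nat_lit 5) (nat_lit 279) (nat_lit 268) (nat_lit 233)))) (XT.nd (nat_lit 78) (nat_lit 0) (nat_lit 0) (XT.lf (nat_lit 0) (nat_lit 1426505359) (nat_lit 760) (nat_lit 2199310259) (nat_lit 836) (nat_lit 3736781273) (nat_lit 236) (nat_lit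 5) (nat_lit 246) (nat_lit 5) (nat_lit 247) (nat_lit 5) (nat_lit 280) (nat_lit 268) (nat_lit 232)) (XT.nd (nat_lit 78) (nat_lit 0) (nat_lit 76) (XT.lf (nat_lit 76) (nat_lit 1508231624) (nat_lit 0) (nat_lit 1713112937) (nat_lit 836) (nat_lit 4214620852) (nat_lit 237) (nat_lit 5) (nat_lit 236) (nat_lit 5) (nat_lit 247) (nat_lit 5) (nat_lit 281) (nat_lit 268) (nat_lit 231)) (XT.lf (nat_lit 0) (nat_lit 5037258023) (nat_lit 760) (nat_lit 2184671637) (nat_lit 76) (nat_lit 290712345) (nat_lit 237) (nat_lit 5) (nat_lit 247) (nat_lit 5) (nat_lit 238) (nat_lit 5) (nat_lit 282) (nat_lit 268) (nat_lit 230))))))))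
noncomputable def xc131 : XT := (XT.nd (nat_lit 1872) (nat_lit 4028) (nat_lit 0) (XT.nd (nat_lit 936) (nat_lit 3648) (nat_lit 0) (XT.nd (nat_lit 468) (nat_lit 3268) (nat_lit 0) (XT.nd (nat_lit 234) (nat_lit 988) (nat_lit 0) (XT.nd (nat_lit 78) (nat_lit 912) (nat_lit 0) (XT.lf (nat_lit 0) (nat_lit 1643860322) (nat_lit 760) (nat_lit 5240561880) (nat_lit 836) (nat_lit 708013768) (nat_lit 227) (nat_lit 5) (nat_lit 237) (nat_lit 5) (nat_lit 238) (nat_lit 5) (nat_lit 283) (nat_lit 268) (nat_lit 229)) (XT.nd (nat_lit 78) (nat_lit 836) (nat_lit 0) (XT.lf (nat_lit 0) (nat_lit 1057535330) (nat_lit 836) (nat_lit 2095584600) (nat_lit 76) (nat_lit 4522290481) (nat_lit 226) (nat_lit 5) (nat_lit 237) (nat_lit 5) (nat_lit 227) (nat_lit 5) (nat_lit 284) (nat_lit 268) (nat_lit 228)) (XT.lf (nat_lit 0) (nat_lit 1860798714) (nat_lit 836) (nat_lit 965107925) (nat_lit 912) (nat_lit 4935944633) (nat_lit 215) (nat_lit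 5) (nat_lit 226) (nat_lit 5) (nat_lit 227) (nat_lit 5) (nat_lit 285) (nat_lit 268) (nat_lit 227)))) (XT.nd (nat_lit 78) (nat_lit 988) (nat_lit 0) (XT.lf (nat_lit 0) (nat_lit 4628568087) (nat_lit 912) (nat_lit 1926903462) (nat_lit 76) (nat_lit 1296083504) (nat_lit 215) (nat_lit 5) (nat_lit 227) (nat_lit 5) (nat_lit 216) (nat_lit 5) (nat_lit 286) (nat_lit 268) (nat_lit 226)) (XT.nd (nat_lit 78) (nat_lit 76) (nat_lit 0) (XT.lf (nat_lit 0) (nat_lit 2157373779) (nat_lit 912) (nat_lit 4307240679) (nat_lit 988) (nat_lit 1480060088) (nat_lit 203) (nat_lit 5) (nat_lit 215) (nat_lit 5) (nat_lit 216) (nat_lit 5) (nat_lit 287) (nat_lit 268) (nat_lit 225)) (XT.lf (nat_lit 0) (nat_lit 278162900) (nat_lit 988) (nat_lit 1681880435) (nat_lit 76) (nat_lit 6081476456) (nat_lit 202) (nat_lit 5) (nat_lit 215) (nat_lit 5) (nat_lit 203) (nat_lit 5) (nat_lit 288) (nat_lit 268) (nat_lit 224))))) (XT.nd (nat_lit 234) (nat_lit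 1216) (nat_lit 0) (XT.nd (nat_lit 78) (nat_lit 1064) (nat_lit 0) (XT.lf (nat_lit 0) (nat_lit 2039645527) (nat_lit 1064) (nat_lit 5606002412) (nat_lit 76) (nat_lit 495869960) (nat_lit 189) (nat_lit 5) (nat_lit 203) (nat_lit 5) (nat_lit 190) (nat_lit 5) (nat_lit 289) (nat_lit 268) (nat_lit 223)) (XT.nd (nat_lit 78) (nat_lit 1064) (nat_lit 0) (XT.lf (nat_lit 0) (nat_lit 3842615679) (nat_lit 1064) (nat_lit 1391970021) (nat_lit 76) (nat_lit 3010363141) (nat_lit 189) (nat_lit 5) (nat_lit 203) (nat_lit 5) (nat_lit 190) (nat_lit 5) (nat_lit 290) (nat_lit 268) (nat_lit 222)) (XT.lf (nat_lit 0) (nat_lit 2965279396) (nat_lit 1064) (nat_lit 2716380033) (nat_lit 1140) (nat_lit 2670453242) (nat_lit 175) (nat_lit 5) (nat_lit 189) (nat_lit 5) (nat_lit 190) (nat_lit 5) (nat_lit 291) (nat_lit 268) (nat_lit 221)))) (XT.nd (nat_lit 78) (nat_lit 1216) (nat_lit 0) (XT.lf (nat_lit 0) (nat_lit 7441115711) (nat_lit 1064)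 (nat_lit 103259411) (nat_lit 1140) (nat_lit 919148167) (nat_lit 175) (nat_lit 5) (nat_lit 189) (nat_lit 5) (nat_lit 190) (nat_lit 5) (nat_lit 292) (nat_lit 268) (nat_lit 220)) (XT.nd (nat_lit 78) (nat_lit 0) (nat_lit 0) (XT.lf (nat_lit 0) (nat_lit 881589474) (nat_lit 1216) (nat_lit 5111638035) (nat_lit 76) (nat_lit 2584450780) (nat_lit 159) (nat_lit 5) (nat_lit 175) (nat_lit 5) (nat_lit 160) (nat_lit 5) (nat_lit 293) (nat_lit 268) (nat_lit 219)) (XT.lf (nat_lit 0) (nat_lit 2685529501) (nat_lit 1216) (nat_lit 636560241) (nat_lit 76) (nat_lit 5373945073) (nat_lit 159) (nat_lit 5) (nat_lit 175) (nat_lit 5) (nat_lit 160) (nat_lit 5) (nat_lit 294) (nat_lit 268) (nat_lit 218)))))) (XT.nd (nat_lit 468) (nat_lit 1368) (nat_lit 0) (XT.nd (nat_lit 234) (nat_lit 1140) (nat_lit 0) (XT.nd (nat_lit 78) (nat_lit 608) (nat_lit 0) (XT.lf (nat_lit 0) (nat_lit 4010755692) (nat_lit 532) (nat_lit 528866768) (nat_lit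 608) (nat_lit 4278515736) (nat_lit 152) (nat_lit 5) (nat_lit 159) (nat_lit 5) (nat_lit 160) (nat_lit 5) (nat_lit 295) (nat_lit 268) (nat_lit 217)) (XT.nd (nat_lit 78) (nat_lit 608) (nat_lit 0) (XT.lf (nat_lit 0) (nat_lit 6436754787) (nat_lit 608) (nat_lit 197032986) (nat_lit 76) (nat_lit 2310569359) (nat_lit 152) (nat_lit 5) (nat_lit 160) (nat_lit 5) (nat_lit 153) (nat_lit 5) (nat_lit 296) (nat_lit 268) (nat_lit 216)) (XT.lf (nat_lit 0) (nat_lit 4596051388) (nat_lit 608) (nat_lit 3803732120) (nat_lit 684) (nat_lit 674382425) (nat_lit 144) (nat_lit 5) (nat_lit 152) (nat_lit 5) (nat_lit 153) (nat_lit 5) (nat_lit 297) (nat_lit 268) (nat_lit 215)))) (XT.nd (nat_lit 78) (nat_lit 532) (nat_lit 0) (XT.lf (nat_lit 0) (nat_lit 282483340) (nat_lit 532) (nat_lit 872290285) (nat_lit 608) (nat_lit 8053875147) (nat_lit 136) (nat_lit 5) (nat_lit 143) (nat_lit 5) (nat_lit 144) (nat_lit 5) (nat_lit 298) (nat_lit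 268) (nat_lit 214)) (XT.nd (nat_lit 78) (nat_lit 532) (nat_lit 0) (XT.lf (nat_lit 0) (nat_lit 3052232983) (nat_lit 608) (nat_lit 4137217907) (nat_lit 76) (nat_lit 2156771998) (nat_lit 136) (nat_lit 5) (nat_lit 144) (nat_lit 5) (nat_lit 137) (nat_lit 5) (nat_lit 299) (nat_lit 268) (nat_lit 213)) (XT.lf (nat_lit 0) (nat_lit 761484336) (nat_lit 532) (nat_lit 4222909490) (nat_lit 608) (nat_lit 4504261724) (nat_lit 129) (nat_lit 5) (nat_lit 136) (nat_lit 5) (nat_lit 137) (nat_lit 5) (nat_lit 300) (nat_lit 268) (nat_lit 212))))) (XT.nd (nat_lit 234) (nat_lit 836) (nat_lit 0) (XT.nd (nat_lit 78) (nat_lit 532) (nat_lit 0) (XT.lf (nat_lit 0) (nat_lit 5852213578) (nat_lit 532) (nat_lit 1126634985) (nat_lit 608) (nat_lit 2656445528) (nat_lit 129) (nat_lit 5) (nat_lit 136) (nat_lit 5) (nat_lit 137) (nat_lit 5) (nat_lit 301) (nat_lit 268) (nat_lit 211)) (XT.nd (nat_lit 78) (nat_lit 76) (nat_lit 0) (XT.lf (nat_lit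 0) (nat_lit 1274664233) (nat_lit 456) (nat_lit 7754172450) (nat_lit 532) (nat_lit 757685056) (nat_lit 123) (nat_lit 5) (nat_lit 129) (nat_lit 5) (nat_lit 130) (nat_lit 5) (nat_lit 302) (nat_lit 268) (nat_lit 210)) (XT.lf (nat_lit 0) (nat_lit 1188285637) (nat_lit 532) (nat_lit 3442601122) (nat_lit 76) (nat_lit 5310702650) (nat_lit 122) (nat_lit 5) (nat_lit 129) (nat_lit 5) (nat_lit 123) (nat_lit 5) (nat_lit 303) (nat_lit 268) (nat_lit 209)))) (XT.nd (nat_lit 78) (nat_lit 380) (nat_lit 0) (XT.lf (nat_lit 0) (nat_lit 1766772845) (nat_lit 456) (nat_lit 1392559631) (nat_lit 532) (nat_lit 6942349577) (nat_lit 116) (nat_lit 5) (nat_lit 122) (nat_lit 5) (nat_lit 123) (nat_lit 5) (nat_lit 304) (nat_lit 268) (nat_lit 208)) (XT.nd (nat_lit 78) (nat_lit 380) (nat_lit 0) (XT.lf (nat_lit 0) (nat_lit 5208848042) (nat_lit 532) (nat_lit 3121156469) (nat_lit 76) (nat_lit 1936046993) (nat_lit 116) (nat_lit 5) (nat_lit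 123) (nat_lit 5) (nat_lit 117) (nat_lit 5) (nat_lit 305) (nat_lit 268) (nat_lit 207)) (XT.lf (nat_lit 0) (nat_lit 2240495467) (nat_lit 380) (nat_lit 5081234743) (nat_lit 456) (nat_lit 3113617965) (nat_lit 111) (nat_lit 5) (nat_lit 116) (nat_lit 5) (nat_lit 117) (nat_lit 5) (nat_lit 306) (nat_lit 268) (nat_lit 206))))))) (XT.nd (nat_lit 936) (nat_lit 1672) (nat_lit 0) (XT.nd (nat_lit 468) (nat_lit 1064) (nat_lit 0) (XT.nd (nat_lit 234) (nat_lit 760) (nat_lit 0) (XT.nd (nat_lit 78) (nat_lit 532) (nat_lit 0) (XT.lf (nat_lit 0) (nat_lit 7788908728) (nat_lit 380) (nat_lit 1707772223) (nat_lit 456) (nat_lit 1113133371) (nat_lit 111) (nat_lit 5) (nat_lit 116) (nat_lit 5) (nat_lit 117) (nat_lit 5) (nat_lit 307) (nat_lit 268) (nat_lit 205)) (XT.nd (nat_lit 78) (nat_lit 0) (nat_lit 0) (XT.lf (nat_lit 0) (nat_lit 940069529) (nat_lit 532) (nat_lit 8086161763) (nat_lit 76) (nat_lit 1762722360) (nat_lit 104)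 (nat_lit 5) (nat_lit 111) (nat_lit 5) (nat_lit 105) (nat_lit 5) (nat_lit 308) (nat_lit 268) (nat_lit 204)) (XT.lf (nat_lit 0) (nat_lit 3046455378) (nat_lit 532) (nat_lit 2589021647) (nat_lit 76) (nat_lit 5337287420) (nat_lit 104) (nat_lit 5) (nat_lit 111) (nat_lit 5) (nat_lit 105) (nat_lit 5) (nat_lit 309) (nat_lit 268) (nat_lit 203)))) (XT.nd (nat_lit 78) (nat_lit 380) (nat_lit 0) (XT.lf (nat_lit 0) (nat_lit 3096343432) (nat_lit 380) (nat_lit 2118660554) (nat_lit 456) (nat_lit 5947161787) (nat_lit 99) (nat_lit 5) (nat_lit 104) (nat_lit 5) (nat_lit 105) (nat_lit 5) (nat_lit 310) (nat_lit 268) (nat_lit 202)) (XT.nd (nat_lit 78) (nat_lit 380) (nat_lit 0) (XT.lf (nat_lit 0) (nat_lit 7459154483) (nat_lit 456) (nat_lit 2403471181) (nat_lit 76) (nat_lit 1494351141) (nat_lit 99) (nat_lit 5) (nat_lit 105) (nat_lit 5) (nat_lit 100) (nat_lit 5) (nat_lit 311) (nat_lit 268) (nat_lit 201)) (XT.lf (nat_lit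 0) (nat_lit 3438328754) (nat_lit 380) (nat_lit 6356900190) (nat_lit 456) (nat_lit 1761707984) (nat_lit 94) (nat_lit 5) (nat_lit 99) (nat_lit 5) (nat_lit 100) (nat_lit 5) (nat_lit 312) (nat_lit 268) (nat_lit 200))))) (XT.nd (nat_lit 234) (nat_lit 684) (nat_lit 0) (XT.nd (nat_lit 78) (nat_lit 304) (nat_lit 0) (XT.lf (nat_lit 0) (nat_lit 425197542) (nat_lit 456) (nat_lit 2298774813) (nat_lit 76) (nat_lit 9038979411) (nat_lit 93) (nat_lit 5) (nat_lit 99) (nat_lit 5) (nat_lit 94) (nat_lit 5) (nat_lit 313) (nat_lit 268) (nat_lit 199)) (XT.nd (nat_lit 78) (nat_lit 0) (nat_lit 0) (XT.lf (nat_lit 0) (nat_lit 2659858535) (nat_lit 380) (nat_lit 8269712150) (nat_lit 76) (nat_lit 1044565495) (nat_lit 89) (nat_lit 5) (nat_lit 94) (nat_lit 5) (nat_lit 90) (nat_lit 5) (nat_lit 314) (nat_lit 268) (nat_lit 198)) (XT.lf (nat_lit 0) (nat_lit 4983992879) (nat_lit 380) (nat_lit 2319502467) (nat_lit 76) (nat_lit 4887525753)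 (nat_lit 89) (nat_lit 5) (nat_lit 94) (nat_lit 5) (nat_lit 90) (nat_lit 5) (nat_lit 315) (nat_lit 268) (nat_lit 197)))) (XT.nd (nat_lit 78) (nat_lit 304) (nat_lit 0) (XT.lf (nat_lit 0) (nat_lit 3849194725) (nat_lit 380) (nat_lit 3538492825) (nat_lit 456) (nat_lit 5026466798) (nat_lit 84) (nat_lit 5) (nat_lit 89) (nat_lit 5) (nat_lit 90) (nat_lit 5) (nat_lit 316) (nat_lit 268) (nat_lit 196)) (XT.nd (nat_lit 78) (nat_lit 304) (nat_lit 0) (XT.lf (nat_lit 0) (nat_lit 9863625132) (nat_lit 456) (nat_lit 2431818956) (nat_lit 76) (nat_lit 348569341) (nat_lit 84) (nat_lit 5) (nat_lit 90) (nat_lit 5) (nat_lit 85) (nat_lit 5) (nat_lit 317) (nat_lit 268) (nat_lit 195)) (XT.lf (nat_lit 0) (nat_lit 3891712588) (nat_lit 304) (nat_lit 8568567158) (nat_lit 380) (nat_lit 419130125) (nat_lit 80) (nat_lit 5) (nat_lit 84) (nat_lit 5) (nat_lit 85) (nat_lit 5) (nat_lit 318) (nat_lit 268) (nat_lit 194)))))) (XT.nd (nat_lit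 468) (nat_lit 608) (nat_lit 0) (XT.nd (nat_lit 234) (nat_lit 684) (nat_lit 0) (XT.nd (nat_lit 78) (nat_lit 304) (nat_lit 0) (XT.lf (nat_lit 0) (nat_lit 1972622754) (nat_lit 380) (nat_lit 2720643751) (nat_lit 76) (nat_lit 8428085849) (nat_lit 79) (nat_lit 5) (nat_lit 84) (nat_lit 5) (nat_lit 80) (nat_lit 5) (nat_lit 319) (nat_lit 268) (nat_lit 193)) (XT.nd (nat_lit 78) (nat_lit 0) (nat_lit 0) (XT.lf (nat_lit 0) (nat_lit 3770132455) (nat_lit 304) (nat_lit 668703202) (nat_lit 380) (nat_lit 8931290821) (nat_lit 75) (nat_lit 5) (nat_lit 79) (nat_lit 5) (nat_lit 80) (nat_lit 5) (nat_lit 320) (nat_lit 268) (nat_lit 192)) (XT.lf (nat_lit 0) (nat_lit 7015417088) (nat_lit 380) (nat_lit 3181894282) (nat_lit 76) (nat_lit 3427991870) (nat_lit 75) (nat_lit 5) (nat_lit 80) (nat_lit 5) (nat_lit 76) (nat_lit 5) (nat_lit 321) (nat_lit 268) (nat_lit 191)))) (XT.nd (nat_lit 78) (nat_lit 380) (nat_lit 0) (XT.lf (nat_lit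 0) (nat_lit 3456502717) (nat_lit 304) (nat_lit 6228579684) (nat_lit 380) (nat_lit 4202609292) (nat_lit 71) (nat_lit 5) (nat_lit 75) (nat_lit 5) (nat_lit 76) (nat_lit 5) (nat_lit 322) (nat_lit 268) (nat_lit 190)) (XT.nd (nat_lit 78) (nat_lit 380) (nat_lit 0) (XT.lf (nat_lit 0) (nat_lit 10326527865) (nat_lit 304) (nat_lit 2116766279) (nat_lit 380) (nat_lit 1714433066) (nat_lit 71) (nat_lit 5) (nat_lit 75) (nat_lit 5) (nat_lit 76) (nat_lit 5) (nat_lit 323) (nat_lit 268) (nat_lit 189)) (XT.lf (nat_lit 0) (nat_lit 857924094) (nat_lit 380) (nat_lit 11471535049) (nat_lit 76) (nat_lit 2105404708) (nat_lit 66) (nat_lit 5) (nat_lit 71) (nat_lit 5) (nat_lit 67) (nat_lit 5) (nat_lit 324) (nat_lit 268) (nat_lit 188))))) (XT.nd (nat_lit 234) (nat_lit 380) (nat_lit 0) (XT.nd (nat_lit 78) (nat_lit 228) (nat_lit 0) (XT.lf (nat_lit 0) (nat_lit 3510064266) (nat_lit 380) (nat_lit 4749835384) (nat_lit 76) (nat_lit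 6458820218) (nat_lit 66) (nat_lit 5) (nat_lit 71) (nat_lit 5) (nat_lit 67) (nat_lit 5) (nat_lit 325) (nat_lit 268) (nat_lit 187)) (XT.nd (nat_lit 78) (nat_lit 0) (nat_lit 0) (XT.lf (nat_lit 0) (nat_lit 2184497702) (nat_lit 228) (nat_lit 4055980325) (nat_lit 304) (nat_lit 8770678117) (nat_lit 63) (nat_lit 5) (nat_lit 66) (nat_lit 5) (nat_lit 67) (nat_lit 5) (nat_lit 326) (nat_lit 268) (nat_lit 186)) (XT.lf (nat_lit 0) (nat_lit 9081845872) (nat_lit 304) (nat_lit 5921735925) (nat_lit 76) (nat_lit 307937570) (nat_lit 63) (nat_lit 5) (nat_lit 67) (nat_lit 5) (nat_lit 64) (nat_lit 5) (nat_lit 327) (nat_lit 268) (nat_lit 185)))) (XT.nd (nat_lit 78) (nat_lit 76) (nat_lit 0) (XT.lf (nat_lit 0) (nat_lit 1141452028) (nat_lit 304) (nat_lit 10896743334) (nat_lit 380) (nat_lit 3581830283) (nat_lit 59) (nat_lit 5) (nat_lit 63) (nat_lit 5) (nat_lit 64) (nat_lit 5) (nat_lit 328) (nat_lit 268) (nat_lit 184)) (XT.nd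 (nat_lit 78) (nat_lit 76) (nat_lit 0) (XT.lf (nat_lit 0) (nat_lit 8507231443) (nat_lit 304) (nat_lit 6614739829) (nat_lit 380) (nat_lit 814677428) (nat_lit 59) (nat_lit 5) (nat_lit 63) (nat_lit 5) (nat_lit 64) (nat_lit 5) (nat_lit 329) (nat_lit 268) (nat_lit 183)) (XT.lf (nat_lit 0) (nat_lit 1975096750) (nat_lit 380) (nat_lit 218586292) (nat_lit 76) (nat_lit 14069142925) (nat_lit 58) (nat_lit 5) (nat_lit 63) (nat_lit 5) (nat_lit 59) (nat_lit 5) (nat_lit 330) (nat_lit 268) (nat_lit 182))))))))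
noncomputable def xc132 : XT := (XT.nd (nat_lit 1794) (nat_lit 1064) (nat_lit 0) (XT.nd (nat_lit 858) (nat_lit 988) (nat_lit 0) (XT.nd (nat_lit 390) (nat_lit 456) (nat_lit 0) (XT.nd (nat_lit 156) (nat_lit 456) (nat_lit 0) (XT.nd (nat_lit 78) (nat_lit 0) (nat_lit 0) (XT.lf (nat_lit 0) (nat_lit 4905796511) (nat_lit 304) (nat_lit 9306563434) (nat_lit 76) (nat_lit 2384000085) (nat_lit 55) (nat_lit 5) (nat_lit 59) (nat_lit 5) (nat_lit 56) (nat_lit 5) (nat_lit 331) (nat_lit 268) (nat_lit 181)) (XT.lf (nat_lit 0) (nat_lit 7928510488) (nat_lit 304) (nat_lit 1963253573) (nat_lit 76) (nat_lit 7048034287) (nat_lit 55) (nat_lit 5) (nat_lit 59) (nat_lit 5) (nat_lit 56) (nat_lit 5) (nat_lit 332) (nat_lit 268) (nat_lit 180))) (XT.nd (nat_lit 78) (nat_lit 228) (nat_lit 0) (XT.lf (nat_lit 0) (nat_lit 5682513774) (nat_lit 228) (nat_lit 5394738667) (nat_lit 304) (nat_lit 6215247391) (nat_lit 52) (nat_lit 5) (nat_lit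 55) (nat_lit 5) (nat_lit 56) (nat_lit 5) (nat_lit 333) (nat_lit 268) (nat_lit 179)) (XT.nd (nat_lit 78) (nat_lit 228) (nat_lit 0) (XT.lf (nat_lit 0) (nat_lit 13569452442) (nat_lit 228) (nat_lit 751840008) (nat_lit 304) (nat_lit 3334484657) (nat_lit 52) (nat_lit 5) (nat_lit 55) (nat_lit 5) (nat_lit 56) (nat_lit 5) (nat_lit 334) (nat_lit 268) (nat_lit 178)) (XT.lf (nat_lit 0) (nat_lit 3667773900) (nat_lit 228) (nat_lit 14050354403) (nat_lit 304) (nat_lit 310179400) (nat_lit 49) (nat_lit 5) (nat_lit 52) (nat_lit 5) (nat_lit 53) (nat_lit 5) (nat_lit 335) (nat_lit 268) (nat_lit 177))))) (XT.nd (nat_lit 234) (nat_lit 152) (nat_lit 0) (XT.nd (nat_lit 78) (nat_lit 228) (nat_lit 0) (XT.lf (nat_lit 0) (nat_lit 2780787204) (nat_lit 304) (nat_lit 6735541572) (nat_lit 76) (nat_lit 8893974770) (nat_lit 48) (nat_lit 5) (nat_lit 52) (nat_lit 5) (nat_lit 49) (nat_lit 5) (nat_lit 336) (nat_lit 268) (nat_lit 176))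 (XT.nd (nat_lit 78) (nat_lit 0) (nat_lit 0) (XT.lf (nat_lit 0) (nat_lit 1109387341) (nat_lit 228) (nat_lit 4841611331) (nat_lit 304) (nat_lit 12852903565) (nat_lit 45) (nat_lit 5) (nat_lit 48) (nat_lit 5) (nat_lit 49) (nat_lit 5) (nat_lit 337) (nat_lit 268) (nat_lit 175)) (XT.lf (nat_lit 0) (nat_lit 9267005563) (nat_lit 304) (nat_lit 9907526796) (nat_lit 76) (nat_lit 33272954) (nat_lit 45) (nat_lit 5) (nat_lit 49) (nat_lit 5) (nat_lit 46) (nat_lit 5) (nat_lit 338) (nat_lit 268) (nat_lit 174)))) (XT.nd (nat_lit 78) (nat_lit 152) (nat_lit 0) (XT.lf (nat_lit 0) (nat_lit 12713202310) (nat_lit 304) (nat_lit 1961639854) (nat_lit 76) (nat_lit 4948078628) (nat_lit 45) (nat_lit 5) (nat_lit 49) (nat_lit 5) (nat_lit 46) (nat_lit 5) (nat_lit 339) (nat_lit 268) (nat_lit 173)) (XT.nd (nat_lit 78) (nat_lit 0) (nat_lit 0) (XT.lf (nat_lit 0) (nat_lit 6319954543) (nat_lit 152) (nat_lit 9986856347) (nat_lit 228)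 (nat_lit 3742374181) (nat_lit 43) (nat_lit 5) (nat_lit 45) (nat_lit 5) (nat_lit 46) (nat_lit 5) (nat_lit 340) (nat_lit 268) (nat_lit 172)) (XT.lf (nat_lit 0) (nat_lit 14864469085) (nat_lit 152) (nat_lit 5147081748) (nat_lit 228) (nat_lit 476602402) (nat_lit 43) (nat_lit 5) (nat_lit 45) (nat_lit 5) (nat_lit 46) (nat_lit 5) (nat_lit 341) (nat_lit 268) (nat_lit 171)))))) (XT.nd (nat_lit 468) (nat_lit 380) (nat_lit 0) (XT.nd (nat_lit 234) (nat_lit 304) (nat_lit 0) (XT.nd (nat_lit 78) (nat_lit 0) (nat_lit 0) (XT.lf (nat_lit 0) (nat_lit 2725126237) (nat_lit 228) (nat_lit 115694510) (nat_lit 304) (nat_lit 18098351350) (nat_lit 39) (nat_lit 5) (nat_lit 42) (nat_lit 5) (nat_lit 43) (nat_lit 5) (nat_lit 342) (nat_lit 268) (nat_lit 170)) (XT.nd (nat_lit 78) (nat_lit 0) (nat_lit 0) (XT.lf (nat_lit 0) (nat_lit 6338204975) (nat_lit 304) (nat_lit 10041804768) (nat_lit 76) (nat_lit 5020884007) (nat_lit 39) (nat_lit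 5) (nat_lit 43) (nat_lit 5) (nat_lit 40) (nat_lit 5) (nat_lit 343) (nat_lit 268) (nat_lit 169)) (XT.lf (nat_lit 0) (nat_lit 9926086889) (nat_lit 304) (nat_lit 1650282858) (nat_lit 76) (nat_lit 10300543923) (nat_lit 39) (nat_lit 5) (nat_lit 43) (nat_lit 5) (nat_lit 40) (nat_lit 5) (nat_lit 344) (nat_lit 268) (nat_lit 168)))) (XT.nd (nat_lit 78) (nat_lit 152) (nat_lit 0) (XT.lf (nat_lit 0) (nat_lit 7107660450) (nat_lit 152) (nat_lit 6567152136) (nat_lit 228) (nat_lit 8690818879) (nat_lit 37) (nat_lit 5) (nat_lit 39) (nat_lit 5) (nat_lit 40) (nat_lit 5) (nat_lit 345) (nat_lit 268) (nat_lit 167)) (XT.nd (nat_lit 78) (nat_lit 152) (nat_lit 0) (XT.lf (nat_lit 0) (nat_lit 16138386417) (nat_lit 152) (nat_lit 1399374035) (nat_lit 228) (nat_lit 5331210631) (nat_lit 37) (nat_lit 5) (nat_lit 39) (nat_lit 5) (nat_lit 40) (nat_lit 5) (nat_lit 346) (nat_lit 268) (nat_lit 166)) (XT.lf (nat_lit 0) (nat_lit 2031086598)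 (nat_lit 152) (nat_lit 19528195686) (nat_lit 228) (nat_lit 1826860763) (nat_lit 35) (nat_lit 5) (nat_lit 37) (nat_lit 5) (nat_lit 38) (nat_lit 5) (nat_lit 347) (nat_lit 268) (nat_lit 165))))) (XT.nd (nat_lit 234) (nat_lit 152) (nat_lit 0) (XT.nd (nat_lit 78) (nat_lit 152) (nat_lit 0) (XT.lf (nat_lit 0) (nat_lit 1815821495) (nat_lit 228) (nat_lit 12778403303) (nat_lit 76) (nat_lit 9322063678) (nat_lit 34) (nat_lit 5) (nat_lit 37) (nat_lit 5) (nat_lit 35) (nat_lit 5) (nat_lit 348) (nat_lit 268) (nat_lit 164)) (XT.nd (nat_lit 78) (nat_lit 152) (nat_lit 0) (XT.lf (nat_lit 0) (nat_lit 5516982052) (nat_lit 228) (nat_lit 3985379793) (nat_lit 76) (nat_lit 14959867955) (nat_lit 34) (nat_lit 5) (nat_lit 37) (nat_lit 5) (nat_lit 35) (nat_lit 5) (nat_lit 349) (nat_lit 268) (nat_lit 163)) (XT.lf (nat_lit 0) (nat_lit 5149748344) (nat_lit 152) (nat_lit 4215257751) (nat_lit 228) (nat_lit 15658479713) (nat_lit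 32) (nat_lit 5) (nat_lit 34) (nat_lit 5) (nat_lit 35) (nat_lit 5) (nat_lit 350) (nat_lit 268) (nat_lit 162)))) (XT.nd (nat_lit 78) (nat_lit 152) (nat_lit 0) (XT.lf (nat_lit 0) (nat_lit 13367373656) (nat_lit 228) (nat_lit 10994264781) (nat_lit 76) (nat_lit 1238784949) (nat_lit 32) (nat_lit 5) (nat_lit 35) (nat_lit 5) (nat_lit 33) (nat_lit 5) (nat_lit 351) (nat_lit 268) (nat_lit 161)) (XT.nd (nat_lit 78) (nat_lit 152) (nat_lit 0) (XT.lf (nat_lit 0) (nat_lit 17518374541) (nat_lit 228) (nat_lit 1911786770) (nat_lit 76) (nat_lit 6763661565) (nat_lit 32) (nat_lit 5) (nat_lit 35) (nat_lit 5) (nat_lit 33) (nat_lit 5) (nat_lit 352) (nat_lit 268) (nat_lit 160)) (XT.lf (nat_lit 0) (nat_lit 7569867735) (nat_lit 152) (nat_lit 14284014668) (nat_lit 228) (nat_lit 4949352983) (nat_lit 30) (nat_lit 5) (nat_lit 32) (nat_lit 5) (nat_lit 33) (nat_lit 5) (nat_lit 353) (nat_lit 268) (nat_lit 159))))))) (XT.nd (nat_lit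 936) (nat_lit 380) (nat_lit 0) (XT.nd (nat_lit 468) (nat_lit 304) (nat_lit 0) (XT.nd (nat_lit 234) (nat_lit 152) (nat_lit 0) (XT.nd (nat_lit 78) (nat_lit 228) (nat_lit 0) (XT.lf (nat_lit 0) (nat_lit 17354354413) (nat_lit 152) (nat_lit 8971789628) (nat_lit 228) (nat_lit 1104595619) (nat_lit 30) (nat_lit 5) (nat_lit 32) (nat_lit 5) (nat_lit 33) (nat_lit 5) (nat_lit 354) (nat_lit 268) (nat_lit 158)) (XT.nd (nat_lit 78) (nat_lit 152) (nat_lit 0) (XT.lf (nat_lit 0) (nat_lit 2787403169) (nat_lit 228) (nat_lit 692599263) (nat_lit 76) (nat_lit 24596624032) (nat_lit 29) (nat_lit 5) (nat_lit 32) (nat_lit 5) (nat_lit 30) (nat_lit 5) (nat_lit 355) (nat_lit 268) (nat_lit 157)) (XT.lf (nat_lit 0) (nat_lit 6871429918) (nat_lit 228) (nat_lit 19641260781) (nat_lit 76) (nat_lit 2225956188) (nat_lit 27) (nat_lit 5) (nat_lit 30) (nat_lit 5) (nat_lit 28) (nat_lit 5) (nat_lit 356) (nat_lit 268) (nat_lit 156)))) (XT.nd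 (nat_lit 78) (nat_lit 152) (nat_lit 0) (XT.lf (nat_lit 0) (nat_lit 11107562529) (nat_lit 228) (nat_lit 10279530285) (nat_lit 76) (nat_lit 8032556481) (nat_lit 27) (nat_lit 5) (nat_lit 30) (nat_lit 5) (nat_lit 28) (nat_lit 5) (nat_lit 357) (nat_lit 268) (nat_lit 155)) (XT.nd (nat_lit 78) (nat_lit 152) (nat_lit 0) (XT.lf (nat_lit 0) (nat_lit 15459193145) (nat_lit 228) (nat_lit 656322735) (nat_lit 76) (nat_lit 14005922136) (nat_lit 27) (nat_lit 5) (nat_lit 30) (nat_lit 5) (nat_lit 28) (nat_lit 5) (nat_lit 358) (nat_lit 268) (nat_lit 154)) (XT.lf (nat_lit 0) (nat_lit 9420600340) (nat_lit 152) (nat_lit 10600080395) (nat_lit 228) (nat_lit 10821228833) (nat_lit 25) (nat_lit 5) (nat_lit 27) (nat_lit 5) (nat_lit 28) (nat_lit 5) (nat_lit 359) (nat_lit 268) (nat_lit 153))))) (XT.nd (nat_lit 234) (nat_lit 152) (nat_lit 0) (XT.nd (nat_lit 78) (nat_lit 152) (nat_lit 0) (XT.lf (nat_lit 0) (nat_lit 19794658954)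 (nat_lit 152) (nat_lit 4919881636) (nat_lit 228) (nat_lit 6869597014) (nat_lit 25) (nat_lit 5) (nat_lit 27) (nat_lit 5) (nat_lit 28) (nat_lit 5) (nat_lit 360) (nat_lit 268) (nat_lit 152)) (XT.nd (nat_lit 78) (nat_lit 152) (nat_lit 0) (XT.lf (nat_lit 0) (nat_lit 29547316043) (nat_lit 228) (nat_lit 1895984441) (nat_lit 76) (nat_lit 905396930) (nat_lit 25) (nat_lit 5) (nat_lit 28) (nat_lit 5) (nat_lit 26) (nat_lit 4) (nat_lit 361) (nat_lit 268) (nat_lit 151)) (XT.lf (nat_lit 0) (nat_lit 1481793199) (nat_lit 152) (nat_lit 24755621937) (nat_lit 76) (nat_lit 6894785396) (nat_lit 23) (nat_lit 5) (nat_lit 25) (nat_lit 5) (nat_lit 24) (nat_lit 5) (nat_lit 362) (nat_lit 268) (nat_lit 150)))) (XT.nd (nat_lit 78) (nat_lit 152) (nat_lit 0) (XT.lf (nat_lit 0) (nat_lit 5845989320) (nat_lit 152) (nat_lit 14988228029) (nat_lit 76) (nat_lit 13103901618) (nat_lit 23) (nat_lit 5) (nat_lit 25) (nat_lit 5) (nat_lit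 24) (nat_lit 5) (nat_lit 363) (nat_lit 268) (nat_lit 149)) (XT.nd (nat_lit 78) (nat_lit 152) (nat_lit 0) (XT.lf (nat_lit 0) (nat_lit 10330913285) (nat_lit 152) (nat_lit 4945144334) (nat_lit 76) (nat_lit 19492470321) (nat_lit 23) (nat_lit 5) (nat_lit 25) (nat_lit 5) (nat_lit 24) (nat_lit 5) (nat_lit 364) (nat_lit 268) (nat_lit 148)) (XT.lf (nat_lit 0) (nat_lit 5489525062) (nat_lit 152) (nat_lit 9503727568) (nat_lit 228) (nat_lit 20629317360) (nat_lit 21) (nat_lit 5) (nat_lit 23) (nat_lit 5) (nat_lit 24) (nat_lit 5) (nat_lit 365) (nat_lit 268) (nat_lit 147)))))) (XT.nd (nat_lit 468) (nat_lit 228) (nat_lit 0) (XT.nd (nat_lit 234) (nat_lit 76) (nat_lit 0) (XT.nd (nat_lit 78) (nat_lit 76) (nat_lit 0) (XT.lf (nat_lit 0) (nat_lit 16321942910) (nat_lit 152) (nat_lit 3513682709) (nat_lit 228) (nat_lit 16665409418) (nat_lit 21) (nat_lit 5) (nat_lit 23) (nat_lit 5) (nat_lit 24) (nat_lit 5) (nat_lit 366)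 (nat_lit 268) (nat_lit 146)) (XT.nd (nat_lit 78) (nat_lit 76) (nat_lit 0) (XT.lf (nat_lit 0) (nat_lit 24839249055) (nat_lit 228) (nat_lit 9968456178) (nat_lit 76) (nat_lit 2597675872) (nat_lit 21) (nat_lit 5) (nat_lit 24) (nat_lit 5) (nat_lit 22) (nat_lit 4) (nat_lit 367) (nat_lit 268) (nat_lit 145)) (XT.lf (nat_lit 0) (nat_lit 507690839) (nat_lit 76) (nat_lit 29515685302) (nat_lit 152) (nat_lit 8312575823) (nat_lit 20) (nat_lit 5) (nat_lit 21) (nat_lit 5) (nat_lit 22) (nat_lit 4) (nat_lit 368) (nat_lit 268) (nat_lit 144)))) (XT.nd (nat_lit 78) (nat_lit 76) (nat_lit 0) (XT.lf (nat_lit 0) (nat_lit 11486696034) (nat_lit 76) (nat_lit 23967837177) (nat_lit 152) (nat_lit 3837167629) (nat_lit 20) (nat_lit 5) (nat_lit 21) (nat_lit 5) (nat_lit 22) (nat_lit 4) (nat_lit 369) (nat_lit 268) (nat_lit 143)) (XT.nd (nat_lit 78) (nat_lit 0) (nat_lit 0) (XT.lf (nat_lit 0) (nat_lit 748445684) (nat_lit 152) (nat_lit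 17503971568) (nat_lit 76) (nat_lit 22023757368) (nat_lit 19) (nat_lit 5) (nat_lit 21) (nat_lit 5) (nat_lit 20) (nat_lit 5) (nat_lit 370) (nat_lit 268) (nat_lit 142)) (XT.lf (nat_lit 0) (nat_lit 5385782949) (nat_lit 152) (nat_lit 6946942782) (nat_lit 76) (nat_lit 28956584327) (nat_lit 19) (nat_lit 5) (nat_lit 21) (nat_lit 5) (nat_lit 20) (nat_lit 5) (nat_lit 371) (nat_lit 268) (nat_lit 141))))) (XT.nd (nat_lit 234) (nat_lit 76) (nat_lit 0) (XT.nd (nat_lit 78) (nat_lit 0) (nat_lit 0) (XT.lf (nat_lit 0) (nat_lit 3990051622) (nat_lit 152) (nat_lit 6202076362) (nat_lit 228) (nat_lit 32139820342) (nat_lit 17) (nat_lit 5) (nat_lit 19) (nat_lit 5) (nat_lit 20) (nat_lit 5) (nat_lit 372) (nat_lit 268) (nat_lit 140)) (XT.nd (nat_lit 78) (nat_lit 0) (nat_lit 0) (XT.lf (nat_lit 0) (nat_lit 15206171547) (nat_lit 228) (nat_lit 28022635457) (nat_lit 76) (nat_lit 175158735) (nat_lit 17) (nat_lit 5) (nat_lit 20)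 (nat_lit 5) (nat_lit 18) (nat_lit 4) (nat_lit 373) (nat_lit 268) (nat_lit 139)) (XT.lf (nat_lit 0) (nat_lit 20423870073) (nat_lit 228) (nat_lit 17469435784) (nat_lit 76) (nat_lit 6613245896) (nat_lit 17) (nat_lit 5) (nat_lit 20) (nat_lit 5) (nat_lit 18) (nat_lit 4) (nat_lit 374) (nat_lit 268) (nat_lit 138)))) (XT.nd (nat_lit 78) (nat_lit 76) (nat_lit 0) (XT.lf (nat_lit 0) (nat_lit 25790164565) (nat_lit 228) (nat_lit 6613458293) (nat_lit 76) (nat_lit 13238835482) (nat_lit 17) (nat_lit 5) (nat_lit 20) (nat_lit 5) (nat_lit 18) (nat_lit 4) (nat_lit 375) (nat_lit 268) (nat_lit 137)) (XT.nd (nat_lit 78) (nat_lit 0) (nat_lit 0) (XT.lf (nat_lit 0) (nat_lit 4645431932) (nat_lit 76) (nat_lit 26708966817) (nat_lit 152) (nat_lit 15456939643) (nat_lit 16) (nat_lit 5) (nat_lit 17) (nat_lit 5) (nat_lit 18) (nat_lit 4) (nat_lit 376) (nat_lit 268) (nat_lit 136)) (XT.lf (nat_lit 0) (nat_lit 16364374103) (nat_lit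 76) (nat_lit 20780361633) (nat_lit 152) (nat_lit 10868778494) (nat_lit 16) (nat_lit 5) (nat_lit 17) (nat_lit 5) (nat_lit 18) (nat_lit 4) (nat_lit 377) (nat_lit 268) (nat_lit 135))))))))
noncomputable def xc133 : XT := (XT.nd (nat_lit 32448) (nat_lit 0) (nat_lit 10868) (XT.nd (nat_lit 858) (nat_lit 228) (nat_lit 0) (XT.nd (nat_lit 390) (nat_lit 76) (nat_lit 0) (XT.nd (nat_lit 156) (nat_lit 228) (nat_lit 0) (XT.nd (nat_lit 78) (nat_lit 0) (nat_lit 0) (XT.lf (nat_lit 0) (nat_lit 28421987283) (nat_lit 76) (nat_lit 14679409933) (nat_lit 152) (nat_lit 6150584218) (nat_lit 16) (nat_lit 5) (nat_lit 17) (nat_lit 5) (nat_lit 18) (nat_lit 4) (nat_lit 378) (nat_lit 268) (nat_lit 134)) (XT.lf (nat_lit 0) (nat_lit 40828807250) (nat_lit 76) (nat_lit 8400780788) (nat_lit 152) (nat_lit 1298234119) (nat_lit 16) (nat_lit 5) (nat_lit 17) (nat_lit 5) (nat_lit 18) (nat_lit 4) (nat_lit 379) (nat_lit 268) (nat_lit 133)))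 (XT.nd (nat_lit 78) (nat_lit 0) (nat_lit 0) (XT.lf (nat_lit 0) (nat_lit 1752221166) (nat_lit 152) (nat_lit 1885079771) (nat_lit 228) (nat_lit 48203280134) (nat_lit 13) (nat_lit 5) (nat_lit 15) (nat_lit 5) (nat_lit 16) (nat_lit 5) (nat_lit 380) (nat_lit 268) (nat_lit 132)) (XT.nd (nat_lit 78) (nat_lit 0) (nat_lit 0) (XT.lf (nat_lit 0) (nat_lit 8833113668) (nat_lit 228) (nat_lit 39516527331) (nat_lit 76) (nat_lit 4838551010) (nat_lit 13) (nat_lit 5) (nat_lit 16) (nat_lit 5) (nat_lit 14) (nat_lit 4) (nat_lit 381) (nat_lit 268) (nat_lit 131)) (XT.lf (nat_lit 0) (nat_lit 14196671484) (nat_lit 228) (nat_lit 28658187008) (nat_lit 76) (nat_lit 11721020562) (nat_lit 13) (nat_lit 5) (nat_lit 16) (nat_lit 5) (nat_lit 14) (nat_lit 4) (nat_lit 382) (nat_lit 268) (nat_lit 130))))) (XT.nd (nat_lit 234) (nat_lit 0) (nat_lit 0) (XT.nd (nat_lit 78) (nat_lit 76) (nat_lit 0) (XT.lf (nat_lit 0) (nat_lit 19714540451)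 (nat_lit 228) (nat_lit 17485730524) (nat_lit 76) (nat_lit 18805127390) (nat_lit 13) (nat_lit 5) (nat_lit 16) (nat_lit 5) (nat_lit 14) (nat_lit 4) (nat_lit 383) (nat_lit 268) (nat_lit 129)) (XT.nd (nat_lit 78) (nat_lit 76) (nat_lit 0) (XT.lf (nat_lit 0) (nat_lit 25391542007) (nat_lit 228) (nat_lit 5989395539) (nat_lit 76) (nat_lit 26097061490) (nat_lit 13) (nat_lit 5) (nat_lit 16) (nat_lit 5) (nat_lit 14) (nat_lit 4) (nat_lit 384) (nat_lit 268) (nat_lit 128)) (XT.lf (nat_lit 0) (nat_lit 5957107920) (nat_lit 76) (nat_lit 25332792084) (nat_lit 152) (nat_lit 27703349900) (nat_lit 12) (nat_lit 5) (nat_lit 13) (nat_lit 5) (nat_lit 14) (nat_lit 4) (nat_lit 385) (nat_lit 268) (nat_lit 127)))) (XT.nd (nat_lit 78) (nat_lit 0) (nat_lit 0) (XT.lf (nat_lit 0) (nat_lit 18373924524) (nat_lit 76) (nat_lit 19045625093) (nat_lit 152) (nat_lit 23132781918) (nat_lit 12) (nat_lit 5) (nat_lit 13) (nat_lit 5) (nat_lit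 14) (nat_lit 4) (nat_lit 386) (nat_lit 268) (nat_lit 126)) (XT.nd (nat_lit 78) (nat_lit 0) (nat_lit 0) (XT.lf (nat_lit 0) (nat_lit 31152703204) (nat_lit 76) (nat_lit 12574424084) (nat_lit 152) (nat_lit 18431240536) (nat_lit 12) (nat_lit 5) (nat_lit 13) (nat_lit 5) (nat_lit 14) (nat_lit 4) (nat_lit 387) (nat_lit 268) (nat_lit 125)) (XT.lf (nat_lit 0) (nat_lit 44304609883) (nat_lit 76) (nat_lit 5913534609) (nat_lit 152) (nat_lit 13594617610) (nat_lit 12) (nat_lit 5) (nat_lit 13) (nat_lit 5) (nat_lit 14) (nat_lit 4) (nat_lit 388) (nat_lit 268) (nat_lit 124)))))) (XT.nd (nat_lit 468) (nat_lit 76) (nat_lit 0) (XT.nd (nat_lit 234) (nat_lit 0) (nat_lit 0) (XT.nd (nat_lit 78) (nat_lit 152) (nat_lit 0) (XT.lf (nat_lit 0) (nat_lit 56907336372) (nat_lit 152) (nat_lit 7684886819) (nat_lit 0) (nat_lit 924464862) (nat_lit 12) (nat_lit 5) (nat_lit 14) (nat_lit 4) (nat_lit 12) (nat_lit 4) (nat_lit 389) (nat_lit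 268) (nat_lit 123)) (XT.nd (nat_lit 78) (nat_lit 76) (nat_lit 0) (XT.lf (nat_lit 0) (nat_lit 4512813687) (nat_lit 76) (nat_lit 59380824242) (nat_lit 76) (nat_lit 3375203917) (nat_lit 11) (nat_lit 4) (nat_lit 12) (nat_lit 5) (nat_lit 12) (nat_lit 4) (nat_lit 390) (nat_lit 268) (nat_lit 122)) (XT.lf (nat_lit 0) (nat_lit 2049514611) (nat_lit 152) (nat_lit 51867191892) (nat_lit 76) (nat_lit 15154088734) (nat_lit 10) (nat_lit 5) (nat_lit 12) (nat_lit 5) (nat_lit 11) (nat_lit 4) (nat_lit 391) (nat_lit 268) (nat_lit 121)))) (XT.nd (nat_lit 78) (nat_lit 0) (nat_lit 0) (XT.lf (nat_lit 0) (nat_lit 7563810714) (nat_lit 152) (nat_lit 40694613743) (nat_lit 76) (nat_lit 22667542827) (nat_lit 10) (nat_lit 5) (nat_lit 12) (nat_lit 5) (nat_lit 11) (nat_lit 4) (nat_lit 392) (nat_lit 268) (nat_lit 120)) (XT.nd (nat_lit 78) (nat_lit 0) (nat_lit 0) (XT.lf (nat_lit 0) (nat_lit 13238365094) (nat_lit 152) (nat_lit 29196086739)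 (nat_lit 76) (nat_lit 30402500512) (nat_lit 10) (nat_lit 5) (nat_lit 12) (nat_lit 5) (nat_lit 11) (nat_lit 4) (nat_lit 393) (nat_lit 268) (nat_lit 119)) (XT.lf (nat_lit 0) (nat_lit 19078136100) (nat_lit 152) (nat_lit 17361563625) (nat_lit 76) (nat_lit 38365720490) (nat_lit 10) (nat_lit 5) (nat_lit 12) (nat_lit 5) (nat_lit 11) (nat_lit 4) (nat_lit 394) (nat_lit 268) (nat_lit 118))))) (XT.nd (nat_lit 30888) (nat_lit 0) (nat_lit 18544) (XT.nd (nat_lit 78) (nat_lit 76) (nat_lit 0) (XT.lf (nat_lit 0) (nat_lit 25088226445) (nat_lit 152) (nat_lit 5180703553) (nat_lit 76) (nat_lit 46564160914) (nat_lit 10) (nat_lit 5) (nat_lit 12) (nat_lit 5) (nat_lit 11) (nat_lit 4) (nat_lit 395) (nat_lit 268) (nat_lit 117)) (XT.nd (nat_lit 30732) (nat_lit 0) (nat_lit 19152) (XT.lf (nat_lit 0) (nat_lit 7503558395) (nat_lit 76) (nat_lit 23842458061) (nat_lit 152) (nat_lit 47573555870) (nat_lit 9) (nat_lit 5) (nat_lit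 10) (nat_lit 5) (nat_lit 11) (nat_lit 4) (nat_lit 396) (nat_lit 268) (nat_lit 116)) (XT.lf (nat_lit 0) (nat_lit 933344227) (nat_lit 0) (nat_lit 933344227) (nat_lit 532) (nat_lit 1532721253) (nat_lit 261) (nat_lit 5) (nat_lit 261) (nat_lit 3) (nat_lit 268) (nat_lit 3) (nat_lit 269) (nat_lit 269) (nat_lit 242)))) (XT.nd (nat_lit 78) (nat_lit 608) (nat_lit 0) (XT.lf (nat_lit 0) (nat_lit 4960634803) (nat_lit 0) (nat_lit 703204419) (nat_lit 532) (nat_lit 1176067053) (nat_lit 261) (nat_lit 5) (nat_lit 261) (nat_lit 3) (nat_lit 268) (nat_lit 3) (nat_lit 270) (nat_lit 269) (nat_lit 241)) (XT.nd (nat_lit 78) (nat_lit 0) (nat_lit 0) (XT.lf (nat_lit 0) (nat_lit 698159116) (nat_lit 608) (nat_lit 5645523970) (nat_lit 684) (nat_lit 540201395) (nat_lit 253) (nat_lit 5) (nat_lit 261) (nat_lit 5) (nat_lit 262) (nat_lit 5) (nat_lit 271) (nat_lit 269) (nat_lit 240)) (XT.lf (nat_lit 0) (nat_lit 2559167807) (nat_lit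 608) (nat_lit 2499886026) (nat_lit 684) (nat_lit 1871324553) (nat_lit 253) (nat_lit 5) (nat_lit 261) (nat_lit 5) (nat_lit 262) (nat_lit 5) (nat_lit 272) (nat_lit 269) (nat_lit 239))))))) (XT.nd (nat_lit 936) (nat_lit 5548) (nat_lit 0) (XT.nd (nat_lit 468) (nat_lit 1444) (nat_lit 0) (XT.nd (nat_lit 234) (nat_lit 0) (nat_lit 76) (XT.nd (nat_lit 78) (nat_lit 684) (nat_lit 0) (XT.lf (nat_lit 76) (nat_lit 714724764) (nat_lit 0) (nat_lit 3698313775) (nat_lit 684) (nat_lit 2567284107) (nat_lit 254) (nat_lit 5) (nat_lit 253) (nat_lit 5) (nat_lit 262) (nat_lit 5) (nat_lit 273) (nat_lit 269) (nat_lit 238)) (XT.nd (nat_lit 78) (nat_lit 684) (nat_lit 0) (XT.lf (nat_lit 76) (nat_lit 4038061663) (nat_lit 0) (nat_lit 2241528738) (nat_lit 684) (nat_lit 753624523) (nat_lit 254) (nat_lit 5) (nat_lit 253) (nat_lit 5) (nat_lit 262) (nat_lit 5) (nat_lit 274) (nat_lit 269) (nat_lit 237)) (XT.lf (nat_lit 76) (nat_lit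 329819347) (nat_lit 0) (nat_lit 699046698) (nat_lit 760) (nat_lit 6060573865) (nat_lit 245) (nat_lit 5) (nat_lit 244) (nat_lit 5) (nat_lit 254) (nat_lit 5) (nat_lit 275) (nat_lit 269) (nat_lit 236)))) (XT.nd (nat_lit 78) (nat_lit 0) (nat_lit 0) (XT.lf (nat_lit 0) (nat_lit 2823611024) (nat_lit 684) (nat_lit 3388107607) (nat_lit 760) (nat_lit 936339287) (nat_lit 245) (nat_lit 5) (nat_lit 254) (nat_lit 5) (nat_lit 255) (nat_lit 5) (nat_lit 276) (nat_lit 269) (nat_lit 235)) (XT.nd (nat_lit 78) (nat_lit 0) (nat_lit 0) (XT.lf (nat_lit 76) (nat_lit 38290617) (nat_lit 0) (nat_lit 4577924954) (nat_lit 760) (nat_lit 2594041993) (nat_lit 246) (nat_lit 5) (nat_lit 245) (nat_lit 5) (nat_lit 255) (nat_lit 5) (nat_lit 277) (nat_lit 269) (nat_lit 234)) (XT.lf (nat_lit 76) (nat_lit 3597240619) (nat_lit 0) (nat_lit 2837760096) (nat_lit 760) (nat_lit 840289845) (nat_lit 246) (nat_lit 5) (nat_lit 245) (nat_lit 5)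 (nat_lit 255) (nat_lit 5) (nat_lit 278) (nat_lit 269) (nat_lit 233))))) (XT.nd (nat_lit 234) (nat_lit 760) (nat_lit 0) (XT.nd (nat_lit 78) (nat_lit 0) (nat_lit 76) (XT.lf (nat_lit 0) (nat_lit 886485904) (nat_lit 760) (nat_lit 128479093) (nat_lit 836) (nat_lit 6328984502) (nat_lit 235) (nat_lit 5) (nat_lit 245) (nat_lit 5) (nat_lit 246) (nat_lit 5) (nat_lit 279) (nat_lit 269) (nat_lit 232)) (XT.nd (nat_lit 78) (nat_lit 0) (nat_lit 0) (XT.lf (nat_lit 0) (nat_lit 2632236512) (nat_lit 760) (nat_lit 3874384374) (nat_lit 836) (nat_lit 908403515) (nat_lit 236) (nat_lit 5) (nat_lit 246) (nat_lit 5) (nat_lit 247) (nat_lit 5) (nat_lit 280) (nat_lit 269) (nat_lit 231)) (XT.lf (nat_lit 0) (nat_lit 4384285090) (nat_lit 760) (nat_lit 216162169) (nat_lit 836) (nat_lit 2889290410) (nat_lit 236) (nat_lit 5) (nat_lit 246) (nat_lit 5) (nat_lit 247) (nat_lit 5) (nat_lit 281) (nat_lit 269) (nat_lit 230)))) (XT.nd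 (nat_lit 78) (nat_lit 836) (nat_lit 0) (XT.lf (nat_lit 76) (nat_lit 3582516486) (nat_lit 0) (nat_lit 2585054873) (nat_lit 836) (nat_lit 1399880966) (nat_lit 237) (nat_lit 5) (nat_lit 236) (nat_lit 5) (nat_lit 247) (nat_lit 5) (nat_lit 282) (nat_lit 269) (nat_lit 229)) (XT.nd (nat_lit 78) (nat_lit 0) (nat_lit 76) (XT.lf (nat_lit 0) (nat_lit 296934346) (nat_lit 836) (nat_lit 191323239) (nat_lit 912) (nat_lit 7160840093) (nat_lit 225) (nat_lit 5) (nat_lit 236) (nat_lit 5) (nat_lit 237) (nat_lit 5) (nat_lit 283) (nat_lit 269) (nat_lit 228)) (XT.lf (nat_lit 0) (nat_lit 2015576860) (nat_lit 836) (nat_lit 4013830227) (nat_lit 76) (nat_lit 1703507800) (nat_lit 226) (nat_lit 5) (nat_lit 237) (nat_lit 5) (nat_lit 227) (nat_lit 5) (nat_lit 284) (nat_lit 269) (nat_lit 227)))))) (XT.nd (nat_lit 468) (nat_lit 2812) (nat_lit 0) (XT.nd (nat_lit 234) (nat_lit 1064) (nat_lit 0) (XT.nd (nat_lit 78) (nat_lit 1748)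 (nat_lit 0) (XT.lf (nat_lit 0) (nat_lit 3740329998) (nat_lit 836) (nat_lit 113604902) (nat_lit 76) (nat_lit 3966782034) (nat_lit 226) (nat_lit 5) (nat_lit 237) (nat_lit 5) (nat_lit 227) (nat_lit 5) (nat_lit 285) (nat_lit 269) (nat_lit 226)) (XT.nd (nat_lit 78) (nat_lit 912) (nat_lit 0) (XT.lf (nat_lit 0) (nat_lit 3941422390) (nat_lit 836) (nat_lit 1562578080) (nat_lit 912) (nat_lit 2407641083) (nat_lit 215) (nat_lit 5) (nat_lit 226) (nat_lit 5) (nat_lit 227) (nat_lit 5) (nat_lit 286) (nat_lit 269) (nat_lit 225)) (XT.lf (nat_lit 0) (nat_lit 68400786) (nat_lit 912) (nat_lit 7212159231) (nat_lit 988) (nat_lit 726035254) (nat_lit 203) (nat_lit 5) (nat_lit 215) (nat_lit 5) (nat_lit 216) (nat_lit 5) (nat_lit 287) (nat_lit 269) (nat_lit 224)))) (XT.nd (nat_lit 78) (nat_lit 988) (nat_lit 0) (XT.lf (nat_lit 0) (nat_lit 993325304) (nat_lit 988) (nat_lit 3860268801) (nat_lit 76) (nat_lit 3250400199) (nat_lit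 202) (nat_lit 5) (nat_lit 215) (nat_lit 5) (nat_lit 203) (nat_lit 5) (nat_lit 288) (nat_lit 269) (nat_lit 223)) (XT.nd (nat_lit 78) (nat_lit 0) (nat_lit 0) (XT.lf (nat_lit 0) (nat_lit 298732230) (nat_lit 988) (nat_lit 2406219439) (nat_lit 1064) (nat_lit 5500581841) (nat_lit 189) (nat_lit 5) (nat_lit 202) (nat_lit 5) (nat_lit 203) (nat_lit 5) (nat_lit 289) (nat_lit 269) (nat_lit 222)) (XT.lf (nat_lit 0) (nat_lit 4461875716) (nat_lit 1064) (nat_lit 3689868997) (nat_lit 76) (nat_lit 158645208) (nat_lit 189) (nat_lit 5) (nat_lit 203) (nat_lit 5) (nat_lit 190) (nat_lit 5) (nat_lit 290) (nat_lit 269) (nat_lit 221))))) (XT.nd (nat_lit 234) (nat_lit 532) (nat_lit 0) (XT.nd (nat_lit 78) (nat_lit 1216) (nat_lit 0) (XT.lf (nat_lit 0) (nat_lit 601615899) (nat_lit 1064) (nat_lit 5654333994) (nat_lit 1140) (nat_lit 2162995750) (nat_lit 175) (nat_lit 5) (nat_lit 189) (nat_lit 5) (nat_lit 190) (nat_lit 5) (nat_lit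 291) (nat_lit 269) (nat_lit 220)) (XT.nd (nat_lit 78) (nat_lit 1216) (nat_lit 0) (XT.lf (nat_lit 0) (nat_lit 5058003838) (nat_lit 1064) (nat_lit 3038874221) (nat_lit 1140) (nat_lit 434173383) (nat_lit 175) (nat_lit 5) (nat_lit 189) (nat_lit 5) (nat_lit 190) (nat_lit 5) (nat_lit 292) (nat_lit 269) (nat_lit 219)) (XT.lf (nat_lit 0) (nat_lit 968238845) (nat_lit 1140) (nat_lit 317860859) (nat_lit 1216) (nat_lit 7361136082) (nat_lit 159) (nat_lit 5) (nat_lit 174) (nat_lit 5) (nat_lit 175) (nat_lit 5) (nat_lit 293) (nat_lit 269) (nat_lit 218)))) (XT.nd (nat_lit 78) (nat_lit 532) (nat_lit 0) (XT.lf (nat_lit 0) (nat_lit 3066038885) (nat_lit 1216) (nat_lit 3220705292) (nat_lit 76) (nat_lit 2479606190) (nat_lit 159) (nat_lit 5) (nat_lit 175) (nat_lit 5) (nat_lit 160) (nat_lit 5) (nat_lit 294) (nat_lit 269) (nat_lit 217)) (XT.nd (nat_lit 78) (nat_lit 0) (nat_lit 0) (XT.lf (nat_lit 0) (nat_lit 1355533995)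 (nat_lit 532) (nat_lit 3518738920) (nat_lit 608) (nat_lit 4015593522) (nat_lit 152) (nat_lit 5) (nat_lit 159) (nat_lit 5) (nat_lit 160) (nat_lit 5) (nat_lit 295) (nat_lit 269) (nat_lit 216)) (XT.lf (nat_lit 0) (nat_lit 6096359823) (nat_lit 532) (nat_lit 632466397) (nat_lit 608) (nat_lit 2288572371) (nat_lit 152) (nat_lit 5) (nat_lit 159) (nat_lit 5) (nat_lit 160) (nat_lit 5) (nat_lit 296) (nat_lit 269) (nat_lit 215))))))))
noncomputable def xc134 : XT := (XT.nd (nat_lit 1794) (nat_lit 3040) (nat_lit 0) (XT.nd (nat_lit 858) (nat_lit 2432) (nat_lit 0) (XT.nd (nat_lit 390) (nat_lit 1368) (nat_lit 0) (XT.nd (nat_lit 156) (nat_lit 1064) (nat_lit 0) (XT.nd (nat_lit 78) (nat_lit 76) (nat_lit 0) (XT.lf (nat_lit 0) (nat_lit 1804509831) (nat_lit 608) (nat_lit 6835093398) (nat_lit 684) (nat_lit 509206518) (nat_lit 144) (nat_lit 5) (nat_lit 152) (nat_lit 5) (nat_lit 153) (nat_lit 5) (nat_lit 297) (nat_lit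 269) (nat_lit 214)) (XT.lf (nat_lit 0) (nat_lit 1294833116) (nat_lit 684) (nat_lit 2610171279) (nat_lit 76) (nat_lit 5378930160) (nat_lit 143) (nat_lit 5) (nat_lit 152) (nat_lit 5) (nat_lit 144) (nat_lit 5) (nat_lit 298) (nat_lit 269) (nat_lit 213))) (XT.nd (nat_lit 78) (nat_lit 532) (nat_lit 0) (XT.lf (nat_lit 0) (nat_lit 2267002688) (nat_lit 532) (nat_lit 859751423) (nat_lit 608) (nat_lit 6296752559) (nat_lit 136) (nat_lit 5) (nat_lit 143) (nat_lit 5) (nat_lit 144) (nat_lit 5) (nat_lit 299) (nat_lit 269) (nat_lit 212)) (XT.nd (nat_lit 78) (nat_lit 532) (nat_lit 0) (XT.lf (nat_lit 0) (nat_lit 5025071194) (nat_lit 608) (nat_lit 2283592373) (nat_lit 76) (nat_lit 2258322000) (nat_lit 136) (nat_lit 5) (nat_lit 144) (nat_lit 5) (nat_lit 137) (nat_lit 5) (nat_lit 300) (nat_lit 269) (nat_lit 211)) (XT.lf (nat_lit 0) (nat_lit 2742681308) (nat_lit 532) (nat_lit 4236546128) (nat_lit 608) (nat_lit 2735635648)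 (nat_lit 129) (nat_lit 5) (nat_lit 136) (nat_lit 5) (nat_lit 137) (nat_lit 5) (nat_lit 301) (nat_lit 269) (nat_lit 210))))) (XT.nd (nat_lit 234) (nat_lit 836) (nat_lit 0) (XT.nd (nat_lit 78) (nat_lit 532) (nat_lit 0) (XT.lf (nat_lit 0) (nat_lit 7929093036) (nat_lit 532) (nat_lit 1050676125) (nat_lit 608) (nat_lit 887834109) (nat_lit 129) (nat_lit 5) (nat_lit 136) (nat_lit 5) (nat_lit 137) (nat_lit 5) (nat_lit 302) (nat_lit 269) (nat_lit 209)) (XT.nd (nat_lit 78) (nat_lit 0) (nat_lit 0) (XT.lf (nat_lit 0) (nat_lit 1014113616) (nat_lit 532) (nat_lit 6783647941) (nat_lit 76) (nat_lit 2226371268) (nat_lit 122) (nat_lit 5) (nat_lit 129) (nat_lit 5) (nat_lit 123) (nat_lit 5) (nat_lit 303) (nat_lit 269) (nat_lit 208)) (XT.lf (nat_lit 0) (nat_lit 2951410425) (nat_lit 532) (nat_lit 1627370944) (nat_lit 76) (nat_lit 5606483275) (nat_lit 122) (nat_lit 5) (nat_lit 129) (nat_lit 5) (nat_lit 123) (nat_lit 5)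 (nat_lit 304) (nat_lit 269) (nat_lit 207)))) (XT.nd (nat_lit 78) (nat_lit 380) (nat_lit 0) (XT.lf (nat_lit 0) (nat_lit 3719475338) (nat_lit 456) (nat_lit 1230059562) (nat_lit 532) (nat_lit 5401666825) (nat_lit 116) (nat_lit 5) (nat_lit 122) (nat_lit 5) (nat_lit 123) (nat_lit 5) (nat_lit 305) (nat_lit 269) (nat_lit 206)) (XT.nd (nat_lit 78) (nat_lit 380) (nat_lit 0) (XT.lf (nat_lit 0) (nat_lit 7013061137) (nat_lit 532) (nat_lit 1320357704) (nat_lit 76) (nat_lit 2188585374) (nat_lit 116) (nat_lit 5) (nat_lit 123) (nat_lit 5) (nat_lit 117) (nat_lit 5) (nat_lit 306) (nat_lit 269) (nat_lit 205)) (XT.lf (nat_lit 0) (nat_lit 4183570913) (nat_lit 380) (nat_lit 4975792301) (nat_lit 456) (nat_lit 1537991018) (nat_lit 111) (nat_lit 5) (nat_lit 116) (nat_lit 5) (nat_lit 117) (nat_lit 5) (nat_lit 307) (nat_lit 269) (nat_lit 204)))))) (XT.nd (nat_lit 468) (nat_lit 1140) (nat_lit 0) (XT.nd (nat_lit 234) (nat_lit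 760) (nat_lit 0) (XT.nd (nat_lit 78) (nat_lit 456) (nat_lit 0) (XT.lf (nat_lit 0) (nat_lit 464648023) (nat_lit 456) (nat_lit 1039296900) (nat_lit 76) (nat_lit 9374459798) (nat_lit 110) (nat_lit 5) (nat_lit 116) (nat_lit 5) (nat_lit 111) (nat_lit 5) (nat_lit 308) (nat_lit 269) (nat_lit 203)) (XT.nd (nat_lit 78) (nat_lit 0) (nat_lit 0) (XT.lf (nat_lit 0) (nat_lit 2531118116) (nat_lit 532) (nat_lit 6445274321) (nat_lit 76) (nat_lit 2087042888) (nat_lit 104) (nat_lit 5) (nat_lit 111) (nat_lit 5) (nat_lit 105) (nat_lit 5) (nat_lit 309) (nat_lit 269) (nat_lit 202)) (XT.lf (nat_lit 0) (nat_lit 4655175740) (nat_lit 532) (nat_lit 838078418) (nat_lit 76) (nat_lit 5760938913) (nat_lit 104) (nat_lit 5) (nat_lit 111) (nat_lit 5) (nat_lit 105) (nat_lit 5) (nat_lit 310) (nat_lit 269) (nat_lit 201)))) (XT.nd (nat_lit 78) (nat_lit 380) (nat_lit 0) (XT.lf (nat_lit 0) (nat_lit 4999920026) (nat_lit 380) (nat_lit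 1862072223) (nat_lit 456) (nat_lit 4588152930) (nat_lit 99) (nat_lit 5) (nat_lit 104) (nat_lit 5) (nat_lit 105) (nat_lit 5) (nat_lit 311) (nat_lit 269) (nat_lit 200)) (XT.nd (nat_lit 78) (nat_lit 380) (nat_lit 0) (XT.lf (nat_lit 0) (nat_lit 9133041354) (nat_lit 456) (nat_lit 675095317) (nat_lit 76) (nat_lit 1843939835) (nat_lit 99) (nat_lit 5) (nat_lit 105) (nat_lit 5) (nat_lit 100) (nat_lit 5) (nat_lit 312) (nat_lit 269) (nat_lit 199)) (XT.lf (nat_lit 0) (nat_lit 5324306850) (nat_lit 380) (nat_lit 6189792555) (nat_lit 456) (nat_lit 344750333) (nat_lit 94) (nat_lit 5) (nat_lit 99) (nat_lit 5) (nat_lit 100) (nat_lit 5) (nat_lit 313) (nat_lit 269) (nat_lit 198))))) (XT.nd (nat_lit 234) (nat_lit 760) (nat_lit 0) (XT.nd (nat_lit 78) (nat_lit 304) (nat_lit 0) (XT.lf (nat_lit 0) (nat_lit 1837106502) (nat_lit 456) (nat_lit 607063467) (nat_lit 76) (nat_lit 9627768255) (nat_lit 93) (nat_lit 5) (nat_lit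 99) (nat_lit 5) (nat_lit 94) (nat_lit 5) (nat_lit 314) (nat_lit 269) (nat_lit 197)) (XT.nd (nat_lit 78) (nat_lit 0) (nat_lit 0) (XT.lf (nat_lit 0) (nat_lit 4118353924) (nat_lit 380) (nat_lit 6734804159) (nat_lit 76) (nat_lit 1436969830) (nat_lit 89) (nat_lit 5) (nat_lit 94) (nat_lit 5) (nat_lit 90) (nat_lit 5) (nat_lit 315) (nat_lit 269) (nat_lit 196)) (XT.lf (nat_lit 0) (nat_lit 6472055998) (nat_lit 380) (nat_lit 658020205) (nat_lit 76) (nat_lit 5384702370) (nat_lit 89) (nat_lit 5) (nat_lit 94) (nat_lit 5) (nat_lit 90) (nat_lit 5) (nat_lit 316) (nat_lit 269) (nat_lit 195)))) (XT.nd (nat_lit 78) (nat_lit 380) (nat_lit 0) (XT.lf (nat_lit 0) (nat_lit 5678766653) (nat_lit 380) (nat_lit 3246585097) (nat_lit 456) (nat_lit 3819982281) (nat_lit 84) (nat_lit 5) (nat_lit 89) (nat_lit 5) (nat_lit 90) (nat_lit 5) (nat_lit 317) (nat_lit 269) (nat_lit 194)) (XT.nd (nat_lit 78) (nat_lit 380) (nat_lit 0) (XT.lf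 (nat_lit 0) (nat_lit 11440951356) (nat_lit 456) (nat_lit 804273900) (nat_lit 76) (nat_lit 737953489) (nat_lit 84) (nat_lit 5) (nat_lit 90) (nat_lit 5) (nat_lit 85) (nat_lit 5) (nat_lit 318) (nat_lit 269) (nat_lit 193)) (XT.lf (nat_lit 0) (nat_lit 851108950) (nat_lit 380) (nat_lit 7542373247) (nat_lit 76) (nat_lit 4832588542) (nat_lit 79) (nat_lit 5) (nat_lit 84) (nat_lit 5) (nat_lit 80) (nat_lit 5) (nat_lit 319) (nat_lit 269) (nat_lit 192))))))) (XT.nd (nat_lit 936) (nat_lit 1216) (nat_lit 0) (XT.nd (nat_lit 468) (nat_lit 836) (nat_lit 0) (XT.nd (nat_lit 234) (nat_lit 684) (nat_lit 0) (XT.nd (nat_lit 78) (nat_lit 304) (nat_lit 0) (XT.lf (nat_lit 0) (nat_lit 3269072194) (nat_lit 380) (nat_lit 1141287188) (nat_lit 76) (nat_lit 9065948183) (nat_lit 79) (nat_lit 5) (nat_lit 84) (nat_lit 5) (nat_lit 80) (nat_lit 5) (nat_lit 320) (nat_lit 269) (nat_lit 191)) (XT.nd (nat_lit 78) (nat_lit 0) (nat_lit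 0) (XT.lf (nat_lit 0) (nat_lit 5527928226) (nat_lit 304) (nat_lit 261116029) (nat_lit 380) (nat_lit 7944153122) (nat_lit 75) (nat_lit 5) (nat_lit 79) (nat_lit 5) (nat_lit 80) (nat_lit 5) (nat_lit 321) (nat_lit 269) (nat_lit 190)) (XT.lf (nat_lit 0) (nat_lit 8411466344) (nat_lit 380) (nat_lit 1647628900) (nat_lit 76) (nat_lit 3937922220) (nat_lit 75) (nat_lit 5) (nat_lit 80) (nat_lit 5) (nat_lit 76) (nat_lit 5) (nat_lit 322) (nat_lit 269) (nat_lit 189)))) (XT.nd (nat_lit 78) (nat_lit 380) (nat_lit 0) (XT.lf (nat_lit 0) (nat_lit 5173942340) (nat_lit 304) (nat_lit 5968259923) (nat_lit 380) (nat_lit 3125688915) (nat_lit 71) (nat_lit 5) (nat_lit 75) (nat_lit 5) (nat_lit 76) (nat_lit 5) (nat_lit 323) (nat_lit 269) (nat_lit 188)) (XT.nd (nat_lit 78) (nat_lit 380) (nat_lit 0) (XT.lf (nat_lit 0) (nat_lit 12203065975) (nat_lit 304) (nat_lit 1746116693) (nat_lit 380) (nat_lit 597906198) (nat_lit 71) (nat_lit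 5) (nat_lit 75) (nat_lit 5) (nat_lit 76) (nat_lit 5) (nat_lit 324) (nat_lit 269) (nat_lit 187)) (XT.lf (nat_lit 0) (nat_lit 2014928415) (nat_lit 380) (nat_lit 10209581115) (nat_lit 76) (nat_lit 2608149702) (nat_lit 66) (nat_lit 5) (nat_lit 71) (nat_lit 5) (nat_lit 67) (nat_lit 5) (nat_lit 325) (nat_lit 269) (nat_lit 186))))) (XT.nd (nat_lit 234) (nat_lit 608) (nat_lit 0) (XT.nd (nat_lit 78) (nat_lit 228) (nat_lit 0) (XT.lf (nat_lit 0) (nat_lit 4713683280) (nat_lit 380) (nat_lit 3333010072) (nat_lit 76) (nat_lit 7079364292) (nat_lit 66) (nat_lit 5) (nat_lit 71) (nat_lit 5) (nat_lit 67) (nat_lit 5) (nat_lit 326) (nat_lit 269) (nat_lit 185)) (XT.nd (nat_lit 78) (nat_lit 0) (nat_lit 0) (XT.lf (nat_lit 0) (nat_lit 3794065552) (nat_lit 228) (nat_lit 3714796272) (nat_lit 304) (nat_lit 7918956729) (nat_lit 63) (nat_lit 5) (nat_lit 66) (nat_lit 5) (nat_lit 67) (nat_lit 5) (nat_lit 327) (nat_lit 269) (nat_lit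 184)) (XT.lf (nat_lit 0) (nat_lit 10408300067) (nat_lit 304) (nat_lit 4571955122) (nat_lit 76) (nat_lit 757788638) (nat_lit 63) (nat_lit 5) (nat_lit 67) (nat_lit 5) (nat_lit 64) (nat_lit 5) (nat_lit 328) (nat_lit 269) (nat_lit 183)))) (XT.nd (nat_lit 78) (nat_lit 304) (nat_lit 0) (XT.lf (nat_lit 0) (nat_lit 2688153637) (nat_lit 304) (nat_lit 10749026082) (nat_lit 380) (nat_lit 2619145369) (nat_lit 59) (nat_lit 5) (nat_lit 63) (nat_lit 5) (nat_lit 64) (nat_lit 5) (nat_lit 329) (nat_lit 269) (nat_lit 182)) (XT.nd (nat_lit 78) (nat_lit 228) (nat_lit 0) (XT.lf (nat_lit 0) (nat_lit 195953099) (nat_lit 380) (nat_lit 6154454500) (nat_lit 76) (nat_lit 10032922417) (nat_lit 58) (nat_lit 5) (nat_lit 63) (nat_lit 5) (nat_lit 59) (nat_lit 5) (nat_lit 330) (nat_lit 269) (nat_lit 181)) (XT.lf (nat_lit 0) (nat_lit 1245548797) (nat_lit 228) (nat_lit 1789799697) (nat_lit 304) (nat_lit 13684265075) (nat_lit 55)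 (nat_lit 5) (nat_lit 58) (nat_lit 5) (nat_lit 59) (nat_lit 5) (nat_lit 331) (nat_lit 269) (nat_lit 180)))))) (XT.nd (nat_lit 468) (nat_lit 684) (nat_lit 0) (XT.nd (nat_lit 234) (nat_lit 304) (nat_lit 0) (XT.nd (nat_lit 78) (nat_lit 228) (nat_lit 0) (XT.lf (nat_lit 0) (nat_lit 6031361643) (nat_lit 304) (nat_lit 8127702045) (nat_lit 76) (nat_lit 2904799278) (nat_lit 55) (nat_lit 5) (nat_lit 59) (nat_lit 5) (nat_lit 56) (nat_lit 5) (nat_lit 332) (nat_lit 269) (nat_lit 179)) (XT.nd (nat_lit 78) (nat_lit 228) (nat_lit 0) (XT.lf (nat_lit 0) (nat_lit 9116260207) (nat_lit 304) (nat_lit 606560605) (nat_lit 76) (nat_lit 7695668704) (nat_lit 55) (nat_lit 5) (nat_lit 59) (nat_lit 5) (nat_lit 56) (nat_lit 5) (nat_lit 333) (nat_lit 269) (nat_lit 178)) (XT.lf (nat_lit 0) (nat_lit 7254701423) (nat_lit 228) (nat_lit 5090570283) (nat_lit 304) (nat_lit 5436955419) (nat_lit 52) (nat_lit 5) (nat_lit 55) (nat_lit 5)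 (nat_lit 56) (nat_lit 5) (nat_lit 334) (nat_lit 269) (nat_lit 177)))) (XT.nd (nat_lit 78) (nat_lit 304) (nat_lit 0) (XT.lf (nat_lit 0) (nat_lit 15337421681) (nat_lit 228) (nat_lit 321957787) (nat_lit 304) (nat_lit 2497869299) (nat_lit 52) (nat_lit 5) (nat_lit 55) (nat_lit 5) (nat_lit 56) (nat_lit 5) (nat_lit 335) (nat_lit 269) (nat_lit 176)) (XT.nd (nat_lit 78) (nat_lit 0) (nat_lit 0) (XT.lf (nat_lit 0) (nat_lit 595948475) (nat_lit 304) (nat_lit 13398127771) (nat_lit 76) (nat_lit 4547003078) (nat_lit 48) (nat_lit 5) (nat_lit 52) (nat_lit 5) (nat_lit 49) (nat_lit 5) (nat_lit 336) (nat_lit 269) (nat_lit 175)) (XT.lf (nat_lit 0) (nat_lit 3746928257) (nat_lit 304) (nat_lit 5587946690) (nat_lit 76) (nat_lit 9600388441) (nat_lit 48) (nat_lit 5) (nat_lit 52) (nat_lit 5) (nat_lit 49) (nat_lit 5) (nat_lit 337) (nat_lit 269) (nat_lit 174))))) (XT.nd (nat_lit 234) (nat_lit 456) (nat_lit 0) (XT.nd (nat_lit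 78) (nat_lit 0) (nat_lit 0) (XT.lf (nat_lit 0) (nat_lit 2479098119) (nat_lit 228) (nat_lit 4520284308) (nat_lit 304) (nat_lit 12341698796) (nat_lit 45) (nat_lit 5) (nat_lit 48) (nat_lit 5) (nat_lit 49) (nat_lit 5) (nat_lit 338) (nat_lit 269) (nat_lit 173)) (XT.nd (nat_lit 78) (nat_lit 0) (nat_lit 0) (XT.lf (nat_lit 0) (nat_lit 10393888354) (nat_lit 304) (nat_lit 8885449463) (nat_lit 76) (nat_lit 478417547) (nat_lit 45) (nat_lit 5) (nat_lit 49) (nat_lit 5) (nat_lit 46) (nat_lit 5) (nat_lit 339) (nat_lit 269) (nat_lit 172)) (XT.lf (nat_lit 0) (nat_lit 13918746558) (nat_lit 304) (nat_lit 739612218) (nat_lit 76) (nat_lit 5527731089) (nat_lit 45) (nat_lit 5) (nat_lit 49) (nat_lit 5) (nat_lit 46) (nat_lit 5) (nat_lit 340) (nat_lit 269) (nat_lit 171)))) (XT.nd (nat_lit 78) (nat_lit 304) (nat_lit 0) (XT.lf (nat_lit 0) (nat_lit 7777872396) (nat_lit 152) (nat_lit 9830478545) (nat_lit 228) (nat_lit 3017168635)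 (nat_lit 43) (nat_lit 5) (nat_lit 45) (nat_lit 5) (nat_lit 46) (nat_lit 5) (nat_lit 341) (nat_lit 269) (nat_lit 170)) (XT.nd (nat_lit 78) (nat_lit 228) (nat_lit 0) (XT.lf (nat_lit 0) (nat_lit 315896804) (nat_lit 228) (nat_lit 4539705038) (nat_lit 76) (nat_lit 16222694294) (nat_lit 42) (nat_lit 5) (nat_lit 45) (nat_lit 5) (nat_lit 43) (nat_lit 5) (nat_lit 342) (nat_lit 269) (nat_lit 169)) (XT.lf (nat_lit 0) (nat_lit 3715100947) (nat_lit 304) (nat_lit 17503628418) (nat_lit 76) (nat_lit 324240675) (nat_lit 39) (nat_lit 5) (nat_lit 43) (nat_lit 5) (nat_lit 40) (nat_lit 5) (nat_lit 343) (nat_lit 269) (nat_lit 168))))))))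
noncomputable def xc135 : XT := (XT.nd (nat_lit 1872) (nat_lit 760) (nat_lit 0) (XT.nd (nat_lit 936) (nat_lit 684) (nat_lit 0) (XT.nd (nat_lit 468) (nat_lit 304) (nat_lit 0) (XT.nd (nat_lit 234) (nat_lit 228) (nat_lit 0) (XT.nd (nat_lit 78) (nat_lit 152) (nat_lit 0) (XT.lf (nat_lit 0) (nat_lit 7295536627) (nat_lit 304) (nat_lit 9123939175) (nat_lit 76) (nat_lit 5599744193) (nat_lit 39) (nat_lit 5) (nat_lit 43) (nat_lit 5) (nat_lit 40) (nat_lit 5) (nat_lit 344) (nat_lit 269) (nat_lit 167)) (XT.nd (nat_lit 78) (nat_lit 152) (nat_lit 0) (XT.lf (nat_lit 0) (nat_lit 10968709790) (nat_lit 304) (nat_lit 516179949) (nat_lit 76) (nat_lit 11025321081) (nat_lit 39) (nat_lit 5) (nat_lit 43) (nat_lit 5) (nat_lit 40) (nat_lit 5) (nat_lit 345) (nat_lit 269) (nat_lit 166)) (XT.lf (nat_lit 0) (nat_lit 8492897625) (nat_lit 152) (nat_lit 6326571306) (nat_lit 228) (nat_lit 8194453437) (nat_lit 37) (nat_lit 5) (nat_lit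 39) (nat_lit 5) (nat_lit 40) (nat_lit 5) (nat_lit 346) (nat_lit 269) (nat_lit 165)))) (XT.nd (nat_lit 78) (nat_lit 228) (nat_lit 0) (XT.lf (nat_lit 0) (nat_lit 17760409234) (nat_lit 152) (nat_lit 1016505360) (nat_lit 228) (nat_lit 4756108107) (nat_lit 37) (nat_lit 5) (nat_lit 39) (nat_lit 5) (nat_lit 40) (nat_lit 5) (nat_lit 347) (nat_lit 269) (nat_lit 164)) (XT.nd (nat_lit 78) (nat_lit 76) (nat_lit 0) (XT.lf (nat_lit 0) (nat_lit 3236492598) (nat_lit 152) (nat_lit 19676788218) (nat_lit 228) (nat_lit 1152621304) (nat_lit 35) (nat_lit 5) (nat_lit 37) (nat_lit 5) (nat_lit 38) (nat_lit 5) (nat_lit 348) (nat_lit 269) (nat_lit 163)) (XT.lf (nat_lit 0) (nat_lit 2564295152) (nat_lit 228) (nat_lit 12036230556) (nat_lit 76) (nat_lit 10011857773) (nat_lit 34) (nat_lit 5) (nat_lit 37) (nat_lit 5) (nat_lit 35) (nat_lit 5) (nat_lit 349) (nat_lit 269) (nat_lit 162))))) (XT.nd (nat_lit 234) (nat_lit 152) (nat_lit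 0) (XT.nd (nat_lit 78) (nat_lit 152) (nat_lit 0) (XT.lf (nat_lit 0) (nat_lit 6356276962) (nat_lit 228) (nat_lit 3012198619) (nat_lit 76) (nat_lit 15806850581) (nat_lit 34) (nat_lit 5) (nat_lit 37) (nat_lit 5) (nat_lit 35) (nat_lit 5) (nat_lit 350) (nat_lit 269) (nat_lit 161)) (XT.nd (nat_lit 78) (nat_lit 0) (nat_lit 0) (XT.lf (nat_lit 0) (nat_lit 6386270201) (nat_lit 152) (nat_lit 3924247835) (nat_lit 228) (nat_lit 15443194746) (nat_lit 32) (nat_lit 5) (nat_lit 34) (nat_lit 5) (nat_lit 35) (nat_lit 5) (nat_lit 351) (nat_lit 269) (nat_lit 160)) (XT.lf (nat_lit 0) (nat_lit 14417496528) (nat_lit 228) (nat_lit 10257593645) (nat_lit 76) (nat_lit 1673347867) (nat_lit 32) (nat_lit 5) (nat_lit 35) (nat_lit 5) (nat_lit 33) (nat_lit 5) (nat_lit 352) (nat_lit 269) (nat_lit 159)))) (XT.nd (nat_lit 78) (nat_lit 152) (nat_lit 0) (XT.lf (nat_lit 0) (nat_lit 18674121566) (nat_lit 228) (nat_lit 933704373) (nat_lit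 76) (nat_lit 7352396042) (nat_lit 32) (nat_lit 5) (nat_lit 35) (nat_lit 5) (nat_lit 33) (nat_lit 5) (nat_lit 353) (nat_lit 269) (nat_lit 158)) (XT.nd (nat_lit 78) (nat_lit 0) (nat_lit 0) (XT.lf (nat_lit 0) (nat_lit 8822248434) (nat_lit 152) (nat_lit 14308946677) (nat_lit 228) (nat_lit 4456991590) (nat_lit 30) (nat_lit 5) (nat_lit 32) (nat_lit 5) (nat_lit 33) (nat_lit 5) (nat_lit 354) (nat_lit 269) (nat_lit 157)) (XT.lf (nat_lit 0) (nat_lit 18870407051) (nat_lit 152) (nat_lit 8849109888) (nat_lit 228) (nat_lit 515556805) (nat_lit 30) (nat_lit 5) (nat_lit 32) (nat_lit 5) (nat_lit 33) (nat_lit 5) (nat_lit 355) (nat_lit 269) (nat_lit 156)))))) (XT.nd (nat_lit 468) (nat_lit 304) (nat_lit 0) (XT.nd (nat_lit 234) (nat_lit 152) (nat_lit 0) (XT.nd (nat_lit 78) (nat_lit 0) (nat_lit 0) (XT.lf (nat_lit 0) (nat_lit 270571879) (nat_lit 152) (nat_lit 3195322028) (nat_lit 228) (nat_lit 25434732423) (nat_lit 27)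 (nat_lit 5) (nat_lit 29) (nat_lit 5) (nat_lit 30) (nat_lit 5) (nat_lit 356) (nat_lit 269) (nat_lit 155)) (XT.nd (nat_lit 78) (nat_lit 0) (nat_lit 0) (XT.lf (nat_lit 0) (nat_lit 7665603753) (nat_lit 228) (nat_lit 19247152832) (nat_lit 76) (nat_lit 2669969103) (nat_lit 27) (nat_lit 5) (nat_lit 30) (nat_lit 5) (nat_lit 28) (nat_lit 5) (nat_lit 357) (nat_lit 269) (nat_lit 154)) (XT.lf (nat_lit 0) (nat_lit 12011693227) (nat_lit 228) (nat_lit 9633211560) (nat_lit 76) (nat_lit 8639780000) (nat_lit 27) (nat_lit 5) (nat_lit 30) (nat_lit 5) (nat_lit 28) (nat_lit 5) (nat_lit 358) (nat_lit 269) (nat_lit 153)))) (XT.nd (nat_lit 78) (nat_lit 0) (nat_lit 0) (XT.lf (nat_lit 0) (nat_lit 255878393) (nat_lit 152) (nat_lit 16223825761) (nat_lit 228) (nat_lit 14528260508) (nat_lit 25) (nat_lit 5) (nat_lit 27) (nat_lit 5) (nat_lit 28) (nat_lit 5) (nat_lit 359) (nat_lit 269) (nat_lit 152)) (XT.nd (nat_lit 78) (nat_lit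 0) (nat_lit 0) (XT.lf (nat_lit 0) (nat_lit 10621028820) (nat_lit 152) (nat_lit 10547226500) (nat_lit 228) (nat_lit 10582100543) (nat_lit 25) (nat_lit 5) (nat_lit 27) (nat_lit 5) (nat_lit 28) (nat_lit 5) (nat_lit 360) (nat_lit 269) (nat_lit 151)) (XT.lf (nat_lit 0) (nat_lit 21279576848) (nat_lit 152) (nat_lit 4707423418) (nat_lit 228) (nat_lit 6528340114) (nat_lit 25) (nat_lit 5) (nat_lit 27) (nat_lit 5) (nat_lit 28) (nat_lit 5) (nat_lit 361) (nat_lit 269) (nat_lit 150))))) (XT.nd (nat_lit 234) (nat_lit 152) (nat_lit 0) (XT.nd (nat_lit 78) (nat_lit 152) (nat_lit 0) (XT.lf (nat_lit 0) (nat_lit 30952652539) (nat_lit 228) (nat_lit 1075253866) (nat_lit 76) (nat_lit 1275305151) (nat_lit 25) (nat_lit 5) (nat_lit 28) (nat_lit 5) (nat_lit 26) (nat_lit 4) (nat_lit 362) (nat_lit 269) (nat_lit 149)) (XT.nd (nat_lit 78) (nat_lit 0) (nat_lit 0) (XT.lf (nat_lit 0) (nat_lit 2043835232) (nat_lit 152) (nat_lit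 24618625989) (nat_lit 76) (nat_lit 7447820182) (nat_lit 23) (nat_lit 5) (nat_lit 25) (nat_lit 5) (nat_lit 24) (nat_lit 5) (nat_lit 363) (nat_lit 269) (nat_lit 148)) (XT.lf (nat_lit 0) (nat_lit 6523881852) (nat_lit 152) (nat_lit 14583831563) (nat_lit 76) (nat_lit 13833126651) (nat_lit 23) (nat_lit 5) (nat_lit 25) (nat_lit 5) (nat_lit 24) (nat_lit 5) (nat_lit 364) (nat_lit 269) (nat_lit 147)))) (XT.nd (nat_lit 78) (nat_lit 152) (nat_lit 0) (XT.lf (nat_lit 0) (nat_lit 11128717238) (nat_lit 152) (nat_lit 4264330405) (nat_lit 76) (nat_lit 20403562862) (nat_lit 23) (nat_lit 5) (nat_lit 25) (nat_lit 5) (nat_lit 24) (nat_lit 5) (nat_lit 365) (nat_lit 269) (nat_lit 146)) (XT.nd (nat_lit 78) (nat_lit 0) (nat_lit 0) (XT.lf (nat_lit 0) (nat_lit 6475249973) (nat_lit 152) (nat_lit 9449359126) (nat_lit 228) (nat_lit 20751864063) (nat_lit 21) (nat_lit 5) (nat_lit 23) (nat_lit 5) (nat_lit 24) (nat_lit 5) (nat_lit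 366) (nat_lit 269) (nat_lit 145)) (XT.lf (nat_lit 0) (nat_lit 17608726594) (nat_lit 152) (nat_lit 3289500696) (nat_lit 228) (nat_lit 16683495179) (nat_lit 21) (nat_lit 5) (nat_lit 23) (nat_lit 5) (nat_lit 24) (nat_lit 5) (nat_lit 367) (nat_lit 269) (nat_lit 144))))))) (XT.nd (nat_lit 936) (nat_lit 380) (nat_lit 0) (XT.nd (nat_lit 468) (nat_lit 76) (nat_lit 0) (XT.nd (nat_lit 234) (nat_lit 228) (nat_lit 0) (XT.nd (nat_lit 78) (nat_lit 76) (nat_lit 0) (XT.lf (nat_lit 0) (nat_lit 26041417931) (nat_lit 228) (nat_lit 9482751833) (nat_lit 76) (nat_lit 2989354651) (nat_lit 21) (nat_lit 5) (nat_lit 24) (nat_lit 5) (nat_lit 22) (nat_lit 4) (nat_lit 368) (nat_lit 269) (nat_lit 143)) (XT.nd (nat_lit 78) (nat_lit 0) (nat_lit 0) (XT.lf (nat_lit 0) (nat_lit 1299985889) (nat_lit 76) (nat_lit 30075242129) (nat_lit 152) (nat_lit 8096968588) (nat_lit 20) (nat_lit 5) (nat_lit 21) (nat_lit 5) (nat_lit 22) (nat_lit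 4) (nat_lit 369) (nat_lit 269) (nat_lit 142)) (XT.lf (nat_lit 0) (nat_lit 12585728298) (nat_lit 76) (nat_lit 24370451194) (nat_lit 152) (nat_lit 3500841386) (nat_lit 20) (nat_lit 5) (nat_lit 21) (nat_lit 5) (nat_lit 22) (nat_lit 4) (nat_lit 370) (nat_lit 269) (nat_lit 141)))) (XT.nd (nat_lit 78) (nat_lit 152) (nat_lit 0) (XT.lf (nat_lit 0) (nat_lit 1200638886) (nat_lit 152) (nat_lit 17287806405) (nat_lit 76) (nat_lit 22982848382) (nat_lit 19) (nat_lit 5) (nat_lit 21) (nat_lit 5) (nat_lit 20) (nat_lit 5) (nat_lit 371) (nat_lit 269) (nat_lit 140)) (XT.nd (nat_lit 78) (nat_lit 152) (nat_lit 0) (XT.lf (nat_lit 0) (nat_lit 5964579574) (nat_lit 152) (nat_lit 6435657559) (nat_lit 76) (nat_lit 30114969520) (nat_lit 19) (nat_lit 5) (nat_lit 21) (nat_lit 5) (nat_lit 20) (nat_lit 5) (nat_lit 372) (nat_lit 269) (nat_lit 139)) (XT.lf (nat_lit 0) (nat_lit 4822390858) (nat_lit 152) (nat_lit 6087422282) (nat_lit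 228) (nat_lit 32679477733) (nat_lit 17) (nat_lit 5) (nat_lit 19) (nat_lit 5) (nat_lit 20) (nat_lit 5) (nat_lit 373) (nat_lit 269) (nat_lit 138))))) (XT.nd (nat_lit 234) (nat_lit 76) (nat_lit 0) (XT.nd (nat_lit 78) (nat_lit 0) (nat_lit 0) (XT.lf (nat_lit 0) (nat_lit 16065086777) (nat_lit 228) (nat_lit 28161991296) (nat_lit 76) (nat_lit 466673994) (nat_lit 17) (nat_lit 5) (nat_lit 20) (nat_lit 5) (nat_lit 18) (nat_lit 4) (nat_lit 374) (nat_lit 269) (nat_lit 137)) (XT.nd (nat_lit 78) (nat_lit 0) (nat_lit 0) (XT.lf (nat_lit 0) (nat_lit 21427586257) (nat_lit 228) (nat_lit 17312622524) (nat_lit 76) (nat_lit 7089566085) (nat_lit 17) (nat_lit 5) (nat_lit 20) (nat_lit 5) (nat_lit 18) (nat_lit 4) (nat_lit 375) (nat_lit 269) (nat_lit 136)) (XT.lf (nat_lit 0) (nat_lit 26943481231) (nat_lit 228) (nat_lit 6150797639) (nat_lit 76) (nat_lit 13905828519) (nat_lit 17) (nat_lit 5) (nat_lit 20) (nat_lit 5) (nat_lit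 18) (nat_lit 4) (nat_lit 376) (nat_lit 269) (nat_lit 135)))) (XT.nd (nat_lit 78) (nat_lit 0) (nat_lit 0) (XT.lf (nat_lit 0) (nat_lit 5439378269) (nat_lit 76) (nat_lit 27230499776) (nat_lit 152) (nat_lit 15534325615) (nat_lit 16) (nat_lit 5) (nat_lit 17) (nat_lit 5) (nat_lit 18) (nat_lit 4) (nat_lit 377) (nat_lit 269) (nat_lit 134)) (XT.nd (nat_lit 78) (nat_lit 0) (nat_lit 0) (XT.lf (nat_lit 0) (nat_lit 17490823169) (nat_lit 76) (nat_lit 21132184088) (nat_lit 152) (nat_lit 10819771735) (nat_lit 16) (nat_lit 5) (nat_lit 17) (nat_lit 5) (nat_lit 18) (nat_lit 4) (nat_lit 378) (nat_lit 269) (nat_lit 133)) (XT.lf (nat_lit 0) (nat_lit 29891654516) (nat_lit 76) (nat_lit 14856114179) (nat_lit 152) (nat_lit 5970956003) (nat_lit 16) (nat_lit 5) (nat_lit 17) (nat_lit 5) (nat_lit 18) (nat_lit 4) (nat_lit 379) (nat_lit 269) (nat_lit 132)))))) (XT.nd (nat_lit 468) (nat_lit 152) (nat_lit 0) (XT.nd (nat_lit 234)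 (nat_lit 0) (nat_lit 0) (XT.nd (nat_lit 78) (nat_lit 228) (nat_lit 0) (XT.lf (nat_lit 0) (nat_lit 42652707987) (nat_lit 76) (nat_lit 8396806103) (nat_lit 152) (nat_lit 983641587) (nat_lit 16) (nat_lit 5) (nat_lit 17) (nat_lit 5) (nat_lit 18) (nat_lit 4) (nat_lit 380) (nat_lit 269) (nat_lit 131)) (XT.nd (nat_lit 78) (nat_lit 0) (nat_lit 0) (XT.lf (nat_lit 0) (nat_lit 2404984485) (nat_lit 152) (nat_lit 1683749330) (nat_lit 228) (nat_lit 49296597334) (nat_lit 13) (nat_lit 5) (nat_lit 15) (nat_lit 5) (nat_lit 16) (nat_lit 5) (nat_lit 381) (nat_lit 269) (nat_lit 130)) (XT.lf (nat_lit 0) (nat_lit 9432857348) (nat_lit 228) (nat_lit 40111552171) (nat_lit 76) (nat_lit 5229193570) (nat_lit 13) (nat_lit 5) (nat_lit 16) (nat_lit 5) (nat_lit 14) (nat_lit 4) (nat_lit 382) (nat_lit 269) (nat_lit 129)))) (XT.nd (nat_lit 78) (nat_lit 0) (nat_lit 0) (XT.lf (nat_lit 0) (nat_lit 14947571891) (nat_lit 228) (nat_lit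 28944659822) (nat_lit 76) (nat_lit 12310987130) (nat_lit 13) (nat_lit 5) (nat_lit 16) (nat_lit 5) (nat_lit 14) (nat_lit 4) (nat_lit 383) (nat_lit 269) (nat_lit 128)) (XT.nd (nat_lit 78) (nat_lit 0) (nat_lit 0) (XT.lf (nat_lit 0) (nat_lit 20621510900) (nat_lit 228) (nat_lit 17453726909) (nat_lit 76) (nat_lit 19600675339) (nat_lit 13) (nat_lit 5) (nat_lit 16) (nat_lit 5) (nat_lit 14) (nat_lit 4) (nat_lit 384) (nat_lit 269) (nat_lit 127)) (XT.lf (nat_lit 0) (nat_lit 26459632185) (nat_lit 228) (nat_lit 5628712812) (nat_lit 76) (nat_lit 27104627827) (nat_lit 13) (nat_lit 5) (nat_lit 16) (nat_lit 5) (nat_lit 14) (nat_lit 4) (nat_lit 385) (nat_lit 269) (nat_lit 126))))) (XT.nd (nat_lit 234) (nat_lit 76) (nat_lit 0) (XT.nd (nat_lit 78) (nat_lit 0) (nat_lit 0) (XT.lf (nat_lit 0) (nat_lit 6670888058) (nat_lit 76) (nat_lit 25860273615) (nat_lit 152) (nat_lit 28222638044) (nat_lit 12) (nat_lit 5) (nat_lit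 13) (nat_lit 5) (nat_lit 14) (nat_lit 4) (nat_lit 386) (nat_lit 269) (nat_lit 125)) (XT.nd (nat_lit 78) (nat_lit 0) (nat_lit 0) (XT.lf (nat_lit 0) (nat_lit 19444624688) (nat_lit 76) (nat_lit 19391263524) (nat_lit 152) (nat_lit 23524034936) (nat_lit 12) (nat_lit 5) (nat_lit 13) (nat_lit 5) (nat_lit 14) (nat_lit 4) (nat_lit 387) (nat_lit 269) (nat_lit 124)) (XT.lf (nat_lit 0) (nat_lit 32591636172) (nat_lit 76) (nat_lit 12732501155) (nat_lit 152) (nat_lit 18690264704) (nat_lit 12) (nat_lit 5) (nat_lit 13) (nat_lit 5) (nat_lit 14) (nat_lit 4) (nat_lit 388) (nat_lit 269) (nat_lit 123)))) (XT.nd (nat_lit 78) (nat_lit 76) (nat_lit 0) (XT.lf (nat_lit 0) (nat_lit 46123410191) (nat_lit 76) (nat_lit 5878168170) (nat_lit 152) (nat_lit 13717103664) (nat_lit 12) (nat_lit 5) (nat_lit 13) (nat_lit 5) (nat_lit 14) (nat_lit 4) (nat_lit 389) (nat_lit 269) (nat_lit 122)) (XT.nd (nat_lit 78) (nat_lit 76) (nat_lit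 0) (XT.lf (nat_lit 0) (nat_lit 58885366981) (nat_lit 152) (nat_lit 7433802693) (nat_lit 0) (nat_lit 1154743003) (nat_lit 12) (nat_lit 5) (nat_lit 14) (nat_lit 4) (nat_lit 12) (nat_lit 4) (nat_lit 390) (nat_lit 269) (nat_lit 121)) (XT.lf (nat_lit 0) (nat_lit 5125106958) (nat_lit 76) (nat_lit 60952847281) (nat_lit 76) (nat_lit 3200780362) (nat_lit 11) (nat_lit 4) (nat_lit 12) (nat_lit 5) (nat_lit 12) (nat_lit 4) (nat_lit 391) (nat_lit 269) (nat_lit 120))))))))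
noncomputable def xc136 : XT := (XT.nd (nat_lit 32526) (nat_lit 0) (nat_lit 6764) (XT.nd (nat_lit 31590) (nat_lit 0) (nat_lit 15504) (XT.nd (nat_lit 31122) (nat_lit 0) (nat_lit 17784) (XT.nd (nat_lit 156) (nat_lit 0) (nat_lit 0) (XT.nd (nat_lit 78) (nat_lit 0) (nat_lit 0) (XT.lf (nat_lit 0) (nat_lit 2373427397) (nat_lit 152) (nat_lit 52954827690) (nat_lit 76) (nat_lit 15806652357) (nat_lit 10) (nat_lit 5) (nat_lit 12) (nat_lit 5) (nat_lit 11) (nat_lit 4) (nat_lit 392) (nat_lit 269) (nat_lit 119)) (XT.lf (nat_lit 0) (nat_lit 8045508868) (nat_lit 152) (nat_lit 41460714331) (nat_lit 76) (nat_lit 23539744802) (nat_lit 10) (nat_lit 5) (nat_lit 12) (nat_lit 5) (nat_lit 11) (nat_lit 4) (nat_lit 393) (nat_lit 269) (nat_lit 118))) (XT.nd (nat_lit 78) (nat_lit 0) (nat_lit 0) (XT.lf (nat_lit 0) (nat_lit 13882878992) (nat_lit 152) (nat_lit 29630476308) (nat_lit 76) (nat_lit 31501153868) (nat_lit 10) (nat_lit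 5) (nat_lit 12) (nat_lit 5) (nat_lit 11) (nat_lit 4) (nat_lit 394) (nat_lit 269) (nat_lit 117)) (XT.nd (nat_lit 78) (nat_lit 0) (nat_lit 0) (XT.lf (nat_lit 0) (nat_lit 19890638382) (nat_lit 152) (nat_lit 17453776520) (nat_lit 76) (nat_lit 39697836125) (nat_lit 10) (nat_lit 5) (nat_lit 12) (nat_lit 5) (nat_lit 11) (nat_lit 4) (nat_lit 395) (nat_lit 269) (nat_lit 116)) (XT.lf (nat_lit 0) (nat_lit 26074036538) (nat_lit 152) (nat_lit 4919975132) (nat_lit 76) (nat_lit 48136953722) (nat_lit 10) (nat_lit 5) (nat_lit 12) (nat_lit 5) (nat_lit 11) (nat_lit 4) (nat_lit 396) (nat_lit 269) (nat_lit 115))))) (XT.nd (nat_lit 234) (nat_lit 608) (nat_lit 0) (XT.nd (nat_lit 78) (nat_lit 0) (nat_lit 0) (XT.lf (nat_lit 0) (nat_lit 331453783) (nat_lit 684) (nat_lit 1554765331) (nat_lit 684) (nat_lit 1554765331) (nat_lit 252) (nat_lit 3) (nat_lit 261) (nat_lit 3) (nat_lit 261) (nat_lit 5) (nat_lit 270) (nat_lit 270)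 (nat_lit 240)) (XT.nd (nat_lit 78) (nat_lit 0) (nat_lit 0) (XT.lf (nat_lit 0) (nat_lit 2461512979) (nat_lit 684) (nat_lit 40303145) (nat_lit 684) (nat_lit 4425456440) (nat_lit 252) (nat_lit 3) (nat_lit 261) (nat_lit 3) (nat_lit 261) (nat_lit 5) (nat_lit 271) (nat_lit 270) (nat_lit 239)) (XT.lf (nat_lit 76) (nat_lit 3146364525) (nat_lit 0) (nat_lit 1128150341) (nat_lit 684) (nat_lit 2700773823) (nat_lit 253) (nat_lit 5) (nat_lit 252) (nat_lit 3) (nat_lit 261) (nat_lit 5) (nat_lit 272) (nat_lit 270) (nat_lit 238)))) (XT.nd (nat_lit 78) (nat_lit 684) (nat_lit 0) (XT.lf (nat_lit 0) (nat_lit 6077269546) (nat_lit 608) (nat_lit 636232126) (nat_lit 684) (nat_lit 313344385) (nat_lit 253) (nat_lit 5) (nat_lit 261) (nat_lit 5) (nat_lit 262) (nat_lit 5) (nat_lit 273) (nat_lit 270) (nat_lit 237)) (XT.nd (nat_lit 78) (nat_lit 0) (nat_lit 0) (XT.lf (nat_lit 0) (nat_lit 807916265) (nat_lit 684) (nat_lit 4433091130)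 (nat_lit 760) (nat_lit 1839735975) (nat_lit 244) (nat_lit 5) (nat_lit 253) (nat_lit 5) (nat_lit 254) (nat_lit 5) (nat_lit 274) (nat_lit 270) (nat_lit 236)) (XT.lf (nat_lit 0) (nat_lit 2540485719) (nat_lit 684) (nat_lit 1140598624) (nat_lit 760) (nat_lit 3456796009) (nat_lit 244) (nat_lit 5) (nat_lit 253) (nat_lit 5) (nat_lit 254) (nat_lit 5) (nat_lit 275) (nat_lit 270) (nat_lit 235)))))) (XT.nd (nat_lit 468) (nat_lit 1596) (nat_lit 0) (XT.nd (nat_lit 234) (nat_lit 0) (nat_lit 0) (XT.nd (nat_lit 78) (nat_lit 684) (nat_lit 0) (XT.lf (nat_lit 76) (nat_lit 2257671852) (nat_lit 0) (nat_lit 2025906344) (nat_lit 760) (nat_lit 2914540485) (nat_lit 245) (nat_lit 5) (nat_lit 244) (nat_lit 5) (nat_lit 254) (nat_lit 5) (nat_lit 276) (nat_lit 270) (nat_lit 234)) (XT.nd (nat_lit 78) (nat_lit 684) (nat_lit 0) (XT.lf (nat_lit 76) (nat_lit 5744582739) (nat_lit 0) (nat_lit 284229161) (nat_lit 760) (nat_lit 1232996239)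 (nat_lit 245) (nat_lit 5) (nat_lit 244) (nat_lit 5) (nat_lit 254) (nat_lit 5) (nat_lit 277) (nat_lit 270) (nat_lit 233)) (XT.lf (nat_lit 0) (nat_lit 462919984) (nat_lit 760) (nat_lit 5337528827) (nat_lit 836) (nat_lit 1527737116) (nat_lit 235) (nat_lit 5) (nat_lit 245) (nat_lit 5) (nat_lit 246) (nat_lit 5) (nat_lit 278) (nat_lit 270) (nat_lit 232)))) (XT.nd (nat_lit 78) (nat_lit 0) (nat_lit 0) (XT.lf (nat_lit 0) (nat_lit 2144250222) (nat_lit 760) (nat_lit 1815107131) (nat_lit 836) (nat_lit 3438179503) (nat_lit 235) (nat_lit 5) (nat_lit 245) (nat_lit 5) (nat_lit 246) (nat_lit 5) (nat_lit 279) (nat_lit 270) (nat_lit 231)) (XT.nd (nat_lit 78) (nat_lit 0) (nat_lit 76) (XT.lf (nat_lit 76) (nat_lit 1810733085) (nat_lit 0) (nat_lit 2025442366) (nat_lit 836) (nat_lit 3634112093) (nat_lit 236) (nat_lit 5) (nat_lit 235) (nat_lit 5) (nat_lit 246) (nat_lit 5) (nat_lit 280) (nat_lit 270) (nat_lit 230)) (XT.lf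 (nat_lit 0) (nat_lit 5541285714) (nat_lit 760) (nat_lit 2001171830) (nat_lit 836) (nat_lit 4010668) (nat_lit 236) (nat_lit 5) (nat_lit 246) (nat_lit 5) (nat_lit 247) (nat_lit 5) (nat_lit 281) (nat_lit 270) (nat_lit 229))))) (XT.nd (nat_lit 234) (nat_lit 836) (nat_lit 0) (XT.nd (nat_lit 78) (nat_lit 836) (nat_lit 0) (XT.lf (nat_lit 76) (nat_lit 1742861573) (nat_lit 0) (nat_lit 5537358051) (nat_lit 836) (nat_lit 345351338) (nat_lit 237) (nat_lit 5) (nat_lit 236) (nat_lit 5) (nat_lit 247) (nat_lit 5) (nat_lit 282) (nat_lit 270) (nat_lit 228)) (XT.nd (nat_lit 78) (nat_lit 0) (nat_lit 0) (XT.lf (nat_lit 0) (nat_lit 1304503265) (nat_lit 836) (nat_lit 2118376033) (nat_lit 912) (nat_lit 4284878627) (nat_lit 225) (nat_lit 5) (nat_lit 236) (nat_lit 5) (nat_lit 237) (nat_lit 5) (nat_lit 283) (nat_lit 270) (nat_lit 227)) (XT.lf (nat_lit 76) (nat_lit 1751927037) (nat_lit 0) (nat_lit 1209828205) (nat_lit 912)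 (nat_lit 4831714250) (nat_lit 226) (nat_lit 5) (nat_lit 225) (nat_lit 5) (nat_lit 237) (nat_lit 5) (nat_lit 284) (nat_lit 270) (nat_lit 226)))) (XT.nd (nat_lit 78) (nat_lit 912) (nat_lit 0) (XT.lf (nat_lit 0) (nat_lit 4649897183) (nat_lit 836) (nat_lit 2148956555) (nat_lit 76) (nat_lit 1083567246) (nat_lit 226) (nat_lit 5) (nat_lit 237) (nat_lit 5) (nat_lit 227) (nat_lit 5) (nat_lit 285) (nat_lit 270) (nat_lit 225)) (XT.nd (nat_lit 78) (nat_lit 76) (nat_lit 0) (XT.lf (nat_lit 0) (nat_lit 1846483127) (nat_lit 836) (nat_lit 4522692722) (nat_lit 912) (nat_lit 1605551129) (nat_lit 215) (nat_lit 5) (nat_lit 226) (nat_lit 5) (nat_lit 227) (nat_lit 5) (nat_lit 286) (nat_lit 270) (nat_lit 224)) (XT.lf (nat_lit 0) (nat_lit 42039632) (nat_lit 912) (nat_lit 2102872991) (nat_lit 76) (nat_lit 5925768839) (nat_lit 214) (nat_lit 5) (nat_lit 226) (nat_lit 5) (nat_lit 215) (nat_lit 5) (nat_lit 287) (nat_lit 270)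 (nat_lit 223))))))) (XT.nd (nat_lit 936) (nat_lit 3344) (nat_lit 0) (XT.nd (nat_lit 468) (nat_lit 2356) (nat_lit 0) (XT.nd (nat_lit 234) (nat_lit 1140) (nat_lit 0) (XT.nd (nat_lit 78) (nat_lit 988) (nat_lit 0) (XT.lf (nat_lit 0) (nat_lit 1682348562) (nat_lit 988) (nat_lit 6143912116) (nat_lit 76) (nat_lit 343602378) (nat_lit 202) (nat_lit 5) (nat_lit 215) (nat_lit 5) (nat_lit 203) (nat_lit 5) (nat_lit 288) (nat_lit 270) (nat_lit 222)) (XT.nd (nat_lit 78) (nat_lit 988) (nat_lit 0) (XT.lf (nat_lit 0) (nat_lit 3368340874) (nat_lit 988) (nat_lit 2009824694) (nat_lit 76) (nat_lit 2894049801) (nat_lit 202) (nat_lit 5) (nat_lit 215) (nat_lit 5) (nat_lit 203) (nat_lit 5) (nat_lit 289) (nat_lit 270) (nat_lit 221)) (XT.lf (nat_lit 0) (nat_lit 2254669386) (nat_lit 988) (nat_lit 2827054903) (nat_lit 1064) (nat_lit 3296696514) (nat_lit 189) (nat_lit 5) (nat_lit 202) (nat_lit 5) (nat_lit 203) (nat_lit 5) (nat_lit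 290) (nat_lit 270) (nat_lit 220)))) (XT.nd (nat_lit 78) (nat_lit 1140) (nat_lit 0) (XT.lf (nat_lit 0) (nat_lit 6651053792) (nat_lit 988) (nat_lit 171837423) (nat_lit 1064) (nat_lit 1665714083) (nat_lit 189) (nat_lit 5) (nat_lit 202) (nat_lit 5) (nat_lit 203) (nat_lit 5) (nat_lit 291) (nat_lit 270) (nat_lit 219)) (XT.nd (nat_lit 78) (nat_lit 0) (nat_lit 0) (XT.lf (nat_lit 0) (nat_lit 20629495) (nat_lit 1140) (nat_lit 6037109490) (nat_lit 76) (nat_lit 2544230505) (nat_lit 174) (nat_lit 5) (nat_lit 189) (nat_lit 5) (nat_lit 175) (nat_lit 5) (nat_lit 292) (nat_lit 270) (nat_lit 218)) (XT.lf (nat_lit 0) (nat_lit 1702344418) (nat_lit 1140) (nat_lit 1637673930) (nat_lit 76) (nat_lit 5378950885) (nat_lit 174) (nat_lit 5) (nat_lit 189) (nat_lit 5) (nat_lit 175) (nat_lit 5) (nat_lit 293) (nat_lit 270) (nat_lit 217))))) (XT.nd (nat_lit 234) (nat_lit 684) (nat_lit 0) (XT.nd (nat_lit 78) (nat_lit 532) (nat_lit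 0) (XT.lf (nat_lit 0) (nat_lit 2913579168) (nat_lit 1140) (nat_lit 507986778) (nat_lit 1216) (nat_lit 5418376320) (nat_lit 159) (nat_lit 5) (nat_lit 174) (nat_lit 5) (nat_lit 175) (nat_lit 5) (nat_lit 294) (nat_lit 270) (nat_lit 216)) (XT.nd (nat_lit 78) (nat_lit 532) (nat_lit 0) (XT.lf (nat_lit 0) (nat_lit 5192143652) (nat_lit 1216) (nat_lit 1390394709) (nat_lit 76) (nat_lit 2382085511) (nat_lit 159) (nat_lit 5) (nat_lit 175) (nat_lit 5) (nat_lit 160) (nat_lit 5) (nat_lit 295) (nat_lit 270) (nat_lit 215)) (XT.lf (nat_lit 0) (nat_lit 3304240268) (nat_lit 532) (nat_lit 3709479366) (nat_lit 608) (nat_lit 2079460514) (nat_lit 152) (nat_lit 5) (nat_lit 159) (nat_lit 5) (nat_lit 160) (nat_lit 5) (nat_lit 296) (nat_lit 270) (nat_lit 214)))) (XT.nd (nat_lit 78) (nat_lit 684) (nat_lit 0) (XT.lf (nat_lit 0) (nat_lit 8131716884) (nat_lit 532) (nat_lit 734137747) (nat_lit 608) (nat_lit 360529723) (nat_lit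 152) (nat_lit 5) (nat_lit 159) (nat_lit 5) (nat_lit 160) (nat_lit 5) (nat_lit 297) (nat_lit 270) (nat_lit 213)) (XT.nd (nat_lit 78) (nat_lit 0) (nat_lit 0) (XT.lf (nat_lit 0) (nat_lit 1404094158) (nat_lit 684) (nat_lit 5622102170) (nat_lit 76) (nat_lit 2336397245) (nat_lit 143) (nat_lit 5) (nat_lit 152) (nat_lit 5) (nat_lit 144) (nat_lit 5) (nat_lit 298) (nat_lit 270) (nat_lit 212)) (XT.lf (nat_lit 0) (nat_lit 3196146386) (nat_lit 684) (nat_lit 807422927) (nat_lit 76) (nat_lit 5499823360) (nat_lit 143) (nat_lit 5) (nat_lit 152) (nat_lit 5) (nat_lit 144) (nat_lit 5) (nat_lit 299) (nat_lit 270) (nat_lit 211)))))) (XT.nd (nat_lit 468) (nat_lit 1292) (nat_lit 0) (XT.nd (nat_lit 234) (nat_lit 988) (nat_lit 0) (XT.nd (nat_lit 78) (nat_lit 532) (nat_lit 0) (XT.lf (nat_lit 0) (nat_lit 4197624559) (nat_lit 532) (nat_lit 849058368) (nat_lit 608) (nat_lit 4601652079) (nat_lit 136) (nat_lit 5) (nat_lit 143)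 (nat_lit 5) (nat_lit 144) (nat_lit 5) (nat_lit 300) (nat_lit 270) (nat_lit 210)) (XT.nd (nat_lit 78) (nat_lit 532) (nat_lit 0) (XT.lf (nat_lit 0) (nat_lit 6949101887) (nat_lit 608) (nat_lit 487888560) (nat_lit 76) (nat_lit 2360803342) (nat_lit 136) (nat_lit 5) (nat_lit 144) (nat_lit 5) (nat_lit 137) (nat_lit 5) (nat_lit 301) (nat_lit 270) (nat_lit 209)) (XT.lf (nat_lit 0) (nat_lit 4670896748) (nat_lit 532) (nat_lit 4257081435) (nat_lit 608) (nat_lit 1023234053) (nat_lit 129) (nat_lit 5) (nat_lit 136) (nat_lit 5) (nat_lit 137) (nat_lit 5) (nat_lit 302) (nat_lit 270) (nat_lit 208)))) (XT.nd (nat_lit 78) (nat_lit 912) (nat_lit 0) (XT.lf (nat_lit 0) (nat_lit 811583297) (nat_lit 608) (nat_lit 158960356) (nat_lit 76) (nat_lit 9139357034) (nat_lit 128) (nat_lit 5) (nat_lit 136) (nat_lit 5) (nat_lit 129) (nat_lit 5) (nat_lit 303) (nat_lit 270) (nat_lit 207)) (XT.nd (nat_lit 78) (nat_lit 456) (nat_lit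 0) (XT.lf (nat_lit 0) (nat_lit 2721698402) (nat_lit 532) (nat_lit 5124528048) (nat_lit 76) (nat_lit 2425647403) (nat_lit 122) (nat_lit 5) (nat_lit 129) (nat_lit 5) (nat_lit 123) (nat_lit 5) (nat_lit 304) (nat_lit 270) (nat_lit 206)) (XT.lf (nat_lit 0) (nat_lit 134816677) (nat_lit 456) (nat_lit 4534744017) (nat_lit 532) (nat_lit 5769783247) (nat_lit 116) (nat_lit 5) (nat_lit 122) (nat_lit 5) (nat_lit 123) (nat_lit 5) (nat_lit 305) (nat_lit 270) (nat_lit 205))))) (XT.nd (nat_lit 234) (nat_lit 912) (nat_lit 0) (XT.nd (nat_lit 78) (nat_lit 380) (nat_lit 0) (XT.lf (nat_lit 0) (nat_lit 5621708394) (nat_lit 456) (nat_lit 1074410818) (nat_lit 532) (nat_lit 3915160661) (nat_lit 116) (nat_lit 5) (nat_lit 122) (nat_lit 5) (nat_lit 123) (nat_lit 5) (nat_lit 306) (nat_lit 270) (nat_lit 204)) (XT.nd (nat_lit 78) (nat_lit 0) (nat_lit 0) (XT.lf (nat_lit 0) (nat_lit 434189392) (nat_lit 380) (nat_lit 8346785990)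 (nat_lit 456) (nat_lit 2007521583) (nat_lit 111) (nat_lit 5) (nat_lit 116) (nat_lit 5) (nat_lit 117) (nat_lit 5) (nat_lit 307) (nat_lit 270) (nat_lit 203)) (XT.lf (nat_lit 0) (nat_lit 6077256552) (nat_lit 380) (nat_lit 4881989923) (nat_lit 456) (nat_lit 10904726) (nat_lit 111) (nat_lit 5) (nat_lit 116) (nat_lit 5) (nat_lit 117) (nat_lit 5) (nat_lit 308) (nat_lit 270) (nat_lit 202)))) (XT.nd (nat_lit 78) (nat_lit 380) (nat_lit 0) (XT.lf (nat_lit 0) (nat_lit 691740361) (nat_lit 456) (nat_lit 1291095287) (nat_lit 532) (nat_lit 9174559264) (nat_lit 104) (nat_lit 5) (nat_lit 110) (nat_lit 5) (nat_lit 111) (nat_lit 5) (nat_lit 309) (nat_lit 270) (nat_lit 201)) (XT.nd (nat_lit 78) (nat_lit 380) (nat_lit 0) (XT.lf (nat_lit 0) (nat_lit 4080184379) (nat_lit 532) (nat_lit 4863279271) (nat_lit 76) (nat_lit 2405511330) (nat_lit 104) (nat_lit 5) (nat_lit 111) (nat_lit 5) (nat_lit 105) (nat_lit 5) (nat_lit 310)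 (nat_lit 270) (nat_lit 200)) (XT.lf (nat_lit 0) (nat_lit 877547298) (nat_lit 380) (nat_lit 5355945176) (nat_lit 456) (nat_lit 5313060309) (nat_lit 99) (nat_lit 5) (nat_lit 104) (nat_lit 5) (nat_lit 105) (nat_lit 5) (nat_lit 311) (nat_lit 270) (nat_lit 199))))))))
noncomputable def xc137 : XT := (XT.nd (nat_lit 1794) (nat_lit 1900) (nat_lit 0) (XT.nd (nat_lit 858) (nat_lit 1748) (nat_lit 0) (XT.nd (nat_lit 390) (nat_lit 1064) (nat_lit 0) (XT.nd (nat_lit 156) (nat_lit 380) (nat_lit 0) (XT.nd (nat_lit 78) (nat_lit 380) (nat_lit 0) (XT.lf (nat_lit 0) (nat_lit 6856663118) (nat_lit 380) (nat_lit 1616164055) (nat_lit 456) (nat_lit 3276628217) (nat_lit 99) (nat_lit 5) (nat_lit 104) (nat_lit 5) (nat_lit 105) (nat_lit 5) (nat_lit 312) (nat_lit 270) (nat_lit 198)) (XT.lf (nat_lit 0) (nat_lit 1021714228) (nat_lit 380) (nat_lit 9762009570) (nat_lit 456) (nat_lit 1174628937) (nat_lit 94) (nat_lit 5) (nat_lit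 99) (nat_lit 5) (nat_lit 100) (nat_lit 5) (nat_lit 313) (nat_lit 270) (nat_lit 197))) (XT.nd (nat_lit 78) (nat_lit 304) (nat_lit 0) (XT.lf (nat_lit 0) (nat_lit 1010237300) (nat_lit 456) (nat_lit 5017772999) (nat_lit 76) (nat_lit 6144083940) (nat_lit 93) (nat_lit 5) (nat_lit 99) (nat_lit 5) (nat_lit 94) (nat_lit 5) (nat_lit 314) (nat_lit 270) (nat_lit 196)) (XT.nd (nat_lit 78) (nat_lit 0) (nat_lit 0) (XT.lf (nat_lit 0) (nat_lit 1054914476) (nat_lit 304) (nat_lit 2166281630) (nat_lit 380) (nat_lit 9171214115) (nat_lit 89) (nat_lit 5) (nat_lit 93) (nat_lit 5) (nat_lit 94) (nat_lit 5) (nat_lit 315) (nat_lit 270) (nat_lit 195)) (XT.lf (nat_lit 0) (nat_lit 5541461176) (nat_lit 380) (nat_lit 5256200386) (nat_lit 76) (nat_lit 1820419551) (nat_lit 89) (nat_lit 5) (nat_lit 94) (nat_lit 5) (nat_lit 90) (nat_lit 5) (nat_lit 316) (nat_lit 270) (nat_lit 194))))) (XT.nd (nat_lit 234) (nat_lit 380) (nat_lit 0)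 (XT.nd (nat_lit 78) (nat_lit 304) (nat_lit 0) (XT.lf (nat_lit 0) (nat_lit 972921376) (nat_lit 380) (nat_lit 6964354087) (nat_lit 456) (nat_lit 4913102172) (nat_lit 84) (nat_lit 5) (nat_lit 89) (nat_lit 5) (nat_lit 90) (nat_lit 5) (nat_lit 317) (nat_lit 270) (nat_lit 193)) (XT.nd (nat_lit 78) (nat_lit 304) (nat_lit 0) (XT.lf (nat_lit 0) (nat_lit 7464829612) (nat_lit 380) (nat_lit 2968770554) (nat_lit 456) (nat_lit 2655216568) (nat_lit 84) (nat_lit 5) (nat_lit 89) (nat_lit 5) (nat_lit 90) (nat_lit 5) (nat_lit 318) (nat_lit 270) (nat_lit 192)) (XT.lf (nat_lit 0) (nat_lit 789895579) (nat_lit 304) (nat_lit 12209736142) (nat_lit 380) (nat_lit 334964577) (nat_lit 80) (nat_lit 5) (nat_lit 84) (nat_lit 5) (nat_lit 85) (nat_lit 5) (nat_lit 319) (nat_lit 270) (nat_lit 191)))) (XT.nd (nat_lit 78) (nat_lit 304) (nat_lit 0) (XT.lf (nat_lit 0) (nat_lit 2077875964) (nat_lit 380) (nat_lit 6156046508) (nat_lit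 76) (nat_lit 5351371789) (nat_lit 79) (nat_lit 5) (nat_lit 84) (nat_lit 5) (nat_lit 80) (nat_lit 5) (nat_lit 320) (nat_lit 270) (nat_lit 190)) (XT.nd (nat_lit 78) (nat_lit 0) (nat_lit 0) (XT.lf (nat_lit 0) (nat_lit 397867080) (nat_lit 304) (nat_lit 4139348176) (nat_lit 380) (nat_lit 9306802138) (nat_lit 75) (nat_lit 5) (nat_lit 79) (nat_lit 5) (nat_lit 80) (nat_lit 5) (nat_lit 321) (nat_lit 270) (nat_lit 189)) (XT.lf (nat_lit 0) (nat_lit 7111185366) (nat_lit 380) (nat_lit 6866587346) (nat_lit 76) (nat_lit 131532249) (nat_lit 75) (nat_lit 5) (nat_lit 80) (nat_lit 5) (nat_lit 76) (nat_lit 5) (nat_lit 322) (nat_lit 270) (nat_lit 188)))))) (XT.nd (nat_lit 468) (nat_lit 836) (nat_lit 0) (XT.nd (nat_lit 234) (nat_lit 532) (nat_lit 0) (XT.nd (nat_lit 78) (nat_lit 380) (nat_lit 0) (XT.lf (nat_lit 0) (nat_lit 9781339548) (nat_lit 380) (nat_lit 160888279) (nat_lit 76) (nat_lit 4439781815) (nat_lit 75) (nat_lit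 5) (nat_lit 80) (nat_lit 5) (nat_lit 76) (nat_lit 5) (nat_lit 323) (nat_lit 270) (nat_lit 187)) (XT.nd (nat_lit 78) (nat_lit 76) (nat_lit 0) (XT.lf (nat_lit 0) (nat_lit 6850269614) (nat_lit 304) (nat_lit 5725800367) (nat_lit 380) (nat_lit 2085517970) (nat_lit 71) (nat_lit 5) (nat_lit 75) (nat_lit 5) (nat_lit 76) (nat_lit 5) (nat_lit 324) (nat_lit 270) (nat_lit 186)) (XT.lf (nat_lit 0) (nat_lit 475605322) (nat_lit 380) (nat_lit 908861750) (nat_lit 76) (nat_lit 13565554807) (nat_lit 70) (nat_lit 5) (nat_lit 75) (nat_lit 5) (nat_lit 71) (nat_lit 5) (nat_lit 325) (nat_lit 270) (nat_lit 185)))) (XT.nd (nat_lit 78) (nat_lit 228) (nat_lit 0) (XT.lf (nat_lit 0) (nat_lit 3141703534) (nat_lit 380) (nat_lit 9001965274) (nat_lit 76) (nat_lit 3100743191) (nat_lit 66) (nat_lit 5) (nat_lit 71) (nat_lit 5) (nat_lit 67) (nat_lit 5) (nat_lit 326) (nat_lit 270) (nat_lit 184)) (XT.nd (nat_lit 78) (nat_lit 228) (nat_lit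 0) (XT.lf (nat_lit 0) (nat_lit 5890362970) (nat_lit 380) (nat_lit 1963191369) (nat_lit 76) (nat_lit 7694025802) (nat_lit 66) (nat_lit 5) (nat_lit 71) (nat_lit 5) (nat_lit 67) (nat_lit 5) (nat_lit 327) (nat_lit 270) (nat_lit 183)) (XT.lf (nat_lit 0) (nat_lit 5363286631) (nat_lit 228) (nat_lit 3389946954) (nat_lit 304) (nat_lit 7105680176) (nat_lit 63) (nat_lit 5) (nat_lit 66) (nat_lit 5) (nat_lit 67) (nat_lit 5) (nat_lit 328) (nat_lit 270) (nat_lit 182))))) (XT.nd (nat_lit 234) (nat_lit 456) (nat_lit 0) (XT.nd (nat_lit 78) (nat_lit 380) (nat_lit 0) (XT.lf (nat_lit 0) (nat_lit 11714044044) (nat_lit 304) (nat_lit 3269361791) (nat_lit 76) (nat_lit 1195842253) (nat_lit 63) (nat_lit 5) (nat_lit 67) (nat_lit 5) (nat_lit 64) (nat_lit 5) (nat_lit 329) (nat_lit 270) (nat_lit 181)) (XT.nd (nat_lit 78) (nat_lit 76) (nat_lit 0) (XT.lf (nat_lit 0) (nat_lit 4194435016) (nat_lit 304) (nat_lit 10624122415) (nat_lit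 380) (nat_lit 1689010312) (nat_lit 59) (nat_lit 5) (nat_lit 63) (nat_lit 5) (nat_lit 64) (nat_lit 5) (nat_lit 330) (nat_lit 270) (nat_lit 180)) (XT.lf (nat_lit 0) (nat_lit 1162050978) (nat_lit 380) (nat_lit 4934828392) (nat_lit 76) (nat_lit 10748107839) (nat_lit 58) (nat_lit 5) (nat_lit 63) (nat_lit 5) (nat_lit 59) (nat_lit 5) (nat_lit 331) (nat_lit 270) (nat_lit 179)))) (XT.nd (nat_lit 78) (nat_lit 228) (nat_lit 0) (XT.lf (nat_lit 0) (nat_lit 2673407752) (nat_lit 228) (nat_lit 1398619196) (nat_lit 304) (nat_lit 13119800539) (nat_lit 55) (nat_lit 5) (nat_lit 58) (nat_lit 5) (nat_lit 59) (nat_lit 5) (nat_lit 332) (nat_lit 270) (nat_lit 178)) (XT.nd (nat_lit 78) (nat_lit 228) (nat_lit 0) (XT.lf (nat_lit 0) (nat_lit 7134530070) (nat_lit 304) (nat_lit 6997173325) (nat_lit 76) (nat_lit 3415431983) (nat_lit 55) (nat_lit 5) (nat_lit 59) (nat_lit 5) (nat_lit 56) (nat_lit 5) (nat_lit 333) (nat_lit 270)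 (nat_lit 177)) (XT.lf (nat_lit 0) (nat_lit 723694344) (nat_lit 228) (nat_lit 9568376841) (nat_lit 304) (nat_lit 7620955117) (nat_lit 52) (nat_lit 5) (nat_lit 55) (nat_lit 5) (nat_lit 56) (nat_lit 5) (nat_lit 334) (nat_lit 270) (nat_lit 176))))))) (XT.nd (nat_lit 936) (nat_lit 760) (nat_lit 0) (XT.nd (nat_lit 468) (nat_lit 608) (nat_lit 0) (XT.nd (nat_lit 234) (nat_lit 228) (nat_lit 0) (XT.nd (nat_lit 78) (nat_lit 304) (nat_lit 0) (XT.lf (nat_lit 0) (nat_lit 8793590685) (nat_lit 228) (nat_lit 4804027760) (nat_lit 304) (nat_lit 4690695250) (nat_lit 52) (nat_lit 5) (nat_lit 55) (nat_lit 5) (nat_lit 56) (nat_lit 5) (nat_lit 335) (nat_lit 270) (nat_lit 175)) (XT.nd (nat_lit 78) (nat_lit 304) (nat_lit 0) (XT.lf (nat_lit 0) (nat_lit 16986372201) (nat_lit 304) (nat_lit 1595985625) (nat_lit 76) (nat_lit 92998292) (nat_lit 52) (nat_lit 5) (nat_lit 56) (nat_lit 5) (nat_lit 53) (nat_lit 5) (nat_lit 336) (nat_lit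 270) (nat_lit 174)) (XT.lf (nat_lit 0) (nat_lit 1470834150) (nat_lit 304) (nat_lit 12489720993) (nat_lit 76) (nat_lit 5110203877) (nat_lit 48) (nat_lit 5) (nat_lit 52) (nat_lit 5) (nat_lit 49) (nat_lit 5) (nat_lit 337) (nat_lit 270) (nat_lit 173)))) (XT.nd (nat_lit 78) (nat_lit 228) (nat_lit 0) (XT.lf (nat_lit 0) (nat_lit 4691381950) (nat_lit 304) (nat_lit 4483400031) (nat_lit 76) (nat_lit 10302760004) (nat_lit 48) (nat_lit 5) (nat_lit 52) (nat_lit 5) (nat_lit 49) (nat_lit 5) (nat_lit 338) (nat_lit 270) (nat_lit 172)) (XT.nd (nat_lit 78) (nat_lit 0) (nat_lit 0) (XT.lf (nat_lit 0) (nat_lit 3813183719) (nat_lit 228) (nat_lit 4216100810) (nat_lit 304) (nat_lit 11866637406) (nat_lit 45) (nat_lit 5) (nat_lit 48) (nat_lit 5) (nat_lit 49) (nat_lit 5) (nat_lit 339) (nat_lit 270) (nat_lit 171)) (XT.lf (nat_lit 0) (nat_lit 11505848868) (nat_lit 304) (nat_lit 7908443208) (nat_lit 76) (nat_lit 911420658)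 (nat_lit 45) (nat_lit 5) (nat_lit 49) (nat_lit 5) (nat_lit 46) (nat_lit 5) (nat_lit 340) (nat_lit 270) (nat_lit 170))))) (XT.nd (nat_lit 234) (nat_lit 380) (nat_lit 0) (XT.nd (nat_lit 78) (nat_lit 76) (nat_lit 0) (XT.lf (nat_lit 0) (nat_lit 454415969) (nat_lit 152) (nat_lit 14663099811) (nat_lit 228) (nat_lit 5649972054) (nat_lit 43) (nat_lit 5) (nat_lit 45) (nat_lit 5) (nat_lit 46) (nat_lit 5) (nat_lit 341) (nat_lit 270) (nat_lit 169)) (XT.nd (nat_lit 78) (nat_lit 76) (nat_lit 0) (XT.lf (nat_lit 0) (nat_lit 9206721072) (nat_lit 152) (nat_lit 9695584726) (nat_lit 228) (nat_lit 2318281516) (nat_lit 43) (nat_lit 5) (nat_lit 45) (nat_lit 5) (nat_lit 46) (nat_lit 5) (nat_lit 342) (nat_lit 270) (nat_lit 168)) (XT.lf (nat_lit 0) (nat_lit 1076828173) (nat_lit 228) (nat_lit 3499564017) (nat_lit 76) (nat_lit 17111024193) (nat_lit 42) (nat_lit 5) (nat_lit 45) (nat_lit 5) (nat_lit 43) (nat_lit 5) (nat_lit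 343) (nat_lit 270) (nat_lit 167)))) (XT.nd (nat_lit 78) (nat_lit 152) (nat_lit 0) (XT.lf (nat_lit 0) (nat_lit 4571394269) (nat_lit 304) (nat_lit 16845125876) (nat_lit 76) (nat_lit 749728736) (nat_lit 39) (nat_lit 5) (nat_lit 43) (nat_lit 5) (nat_lit 40) (nat_lit 5) (nat_lit 344) (nat_lit 270) (nat_lit 166)) (XT.nd (nat_lit 78) (nat_lit 152) (nat_lit 0) (XT.lf (nat_lit 0) (nat_lit 8237548642) (nat_lit 304) (nat_lit 8248520074) (nat_lit 76) (nat_lit 6171387820) (nat_lit 39) (nat_lit 5) (nat_lit 43) (nat_lit 5) (nat_lit 40) (nat_lit 5) (nat_lit 345) (nat_lit 270) (nat_lit 165)) (XT.lf (nat_lit 0) (nat_lit 595624693) (nat_lit 152) (nat_lit 11409955313) (nat_lit 228) (nat_lit 11158075996) (nat_lit 37) (nat_lit 5) (nat_lit 39) (nat_lit 5) (nat_lit 40) (nat_lit 5) (nat_lit 346) (nat_lit 270) (nat_lit 164)))))) (XT.nd (nat_lit 468) (nat_lit 380) (nat_lit 0) (XT.nd (nat_lit 234) (nat_lit 228) (nat_lit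 0) (XT.nd (nat_lit 78) (nat_lit 152) (nat_lit 0) (XT.lf (nat_lit 0) (nat_lit 9852413898) (nat_lit 152) (nat_lit 6103892818) (nat_lit 228) (nat_lit 7726657095) (nat_lit 37) (nat_lit 5) (nat_lit 39) (nat_lit 5) (nat_lit 40) (nat_lit 5) (nat_lit 347) (nat_lit 270) (nat_lit 163)) (XT.nd (nat_lit 78) (nat_lit 152) (nat_lit 0) (XT.lf (nat_lit 0) (nat_lit 19365774272) (nat_lit 152) (nat_lit 646538747) (nat_lit 228) (nat_lit 4205946744) (nat_lit 37) (nat_lit 5) (nat_lit 39) (nat_lit 5) (nat_lit 40) (nat_lit 5) (nat_lit 348) (nat_lit 270) (nat_lit 162)) (XT.lf (nat_lit 0) (nat_lit 4412363323) (nat_lit 152) (nat_lit 19854938656) (nat_lit 228) (nat_lit 500004844) (nat_lit 35) (nat_lit 5) (nat_lit 37) (nat_lit 5) (nat_lit 38) (nat_lit 5) (nat_lit 349) (nat_lit 270) (nat_lit 161)))) (XT.nd (nat_lit 78) (nat_lit 152) (nat_lit 0) (XT.lf (nat_lit 0) (nat_lit 3295384636) (nat_lit 228) (nat_lit 11336402358) (nat_lit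 76) (nat_lit 10698802425) (nat_lit 34) (nat_lit 5) (nat_lit 37) (nat_lit 5) (nat_lit 35) (nat_lit 5) (nat_lit 350) (nat_lit 270) (nat_lit 160)) (XT.nd (nat_lit 78) (nat_lit 152) (nat_lit 0) (XT.lf (nat_lit 0) (nat_lit 7182072678) (nat_lit 228) (nat_lit 2072549902) (nat_lit 76) (nat_lit 16656385146) (nat_lit 34) (nat_lit 5) (nat_lit 37) (nat_lit 5) (nat_lit 35) (nat_lit 5) (nat_lit 351) (nat_lit 270) (nat_lit 159)) (XT.lf (nat_lit 0) (nat_lit 7597774799) (nat_lit 152) (nat_lit 3648471972) (nat_lit 228) (nat_lit 15260775292) (nat_lit 32) (nat_lit 5) (nat_lit 34) (nat_lit 5) (nat_lit 35) (nat_lit 5) (nat_lit 352) (nat_lit 270) (nat_lit 158))))) (XT.nd (nat_lit 234) (nat_lit 228) (nat_lit 0) (XT.nd (nat_lit 78) (nat_lit 152) (nat_lit 0) (XT.lf (nat_lit 0) (nat_lit 15461861995) (nat_lit 228) (nat_lit 9560043784) (nat_lit 76) (nat_lit 2098135323) (nat_lit 32) (nat_lit 5) (nat_lit 35) (nat_lit 5) (nat_lit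 33) (nat_lit 5) (nat_lit 353) (nat_lit 270) (nat_lit 157)) (XT.nd (nat_lit 78) (nat_lit 0) (nat_lit 0) (XT.lf (nat_lit 0) (nat_lit 14566477) (nat_lit 152) (nat_lit 19813938731) (nat_lit 228) (nat_lit 7922218187) (nat_lit 30) (nat_lit 5) (nat_lit 32) (nat_lit 5) (nat_lit 33) (nat_lit 5) (nat_lit 354) (nat_lit 270) (nat_lit 156)) (XT.lf (nat_lit 0) (nat_lit 10053345019) (nat_lit 152) (nat_lit 14357794272) (nat_lit 228) (nat_lit 3986646306) (nat_lit 30) (nat_lit 5) (nat_lit 32) (nat_lit 5) (nat_lit 33) (nat_lit 5) (nat_lit 355) (nat_lit 270) (nat_lit 155)))) (XT.nd (nat_lit 78) (nat_lit 152) (nat_lit 0) (XT.lf (nat_lit 0) (nat_lit 54355897) (nat_lit 228) (nat_lit 8690337812) (nat_lit 76) (nat_lit 20319895189) (nat_lit 29) (nat_lit 5) (nat_lit 32) (nat_lit 5) (nat_lit 30) (nat_lit 5) (nat_lit 356) (nat_lit 270) (nat_lit 154)) (XT.nd (nat_lit 78) (nat_lit 0) (nat_lit 0) (XT.lf (nat_lit 0) (nat_lit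 1219538058) (nat_lit 152) (nat_lit 2917645835) (nat_lit 228) (nat_lit 25613014962) (nat_lit 27) (nat_lit 5) (nat_lit 29) (nat_lit 5) (nat_lit 30) (nat_lit 5) (nat_lit 357) (nat_lit 270) (nat_lit 153)) (XT.lf (nat_lit 0) (nat_lit 8449847421) (nat_lit 228) (nat_lit 18897669715) (nat_lit 76) (nat_lit 3105647618) (nat_lit 27) (nat_lit 5) (nat_lit 30) (nat_lit 5) (nat_lit 28) (nat_lit 5) (nat_lit 358) (nat_lit 270) (nat_lit 152))))))))
noncomputable def xc138 : XT := (XT.nd (nat_lit 1794) (nat_lit 456) (nat_lit 0) (XT.nd (nat_lit 858) (nat_lit 380) (nat_lit 0) (XT.nd (nat_lit 390) (nat_lit 304) (nat_lit 0) (XT.nd (nat_lit 156) (nat_lit 0) (nat_lit 0) (XT.nd (nat_lit 78) (nat_lit 152) (nat_lit 0) (XT.lf (nat_lit 0) (nat_lit 12910175632) (nat_lit 228) (nat_lit 9022307226) (nat_lit 76) (nat_lit 9244196158) (nat_lit 27) (nat_lit 5) (nat_lit 30) (nat_lit 5) (nat_lit 28) (nat_lit 5) (nat_lit 359) (nat_lit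 270) (nat_lit 151)) (XT.lf (nat_lit 0) (nat_lit 1154632871) (nat_lit 152) (nat_lit 16350485868) (nat_lit 228) (nat_lit 14416763512) (nat_lit 25) (nat_lit 5) (nat_lit 27) (nat_lit 5) (nat_lit 28) (nat_lit 5) (nat_lit 360) (nat_lit 270) (nat_lit 150))) (XT.nd (nat_lit 78) (nat_lit 0) (nat_lit 0) (XT.lf (nat_lit 0) (nat_lit 11804784079) (nat_lit 152) (nat_lit 10514075658) (nat_lit 228) (nat_lit 10368160831) (nat_lit 25) (nat_lit 5) (nat_lit 27) (nat_lit 5) (nat_lit 28) (nat_lit 5) (nat_lit 361) (nat_lit 270) (nat_lit 149)) (XT.nd (nat_lit 78) (nat_lit 0) (nat_lit 0) (XT.lf (nat_lit 0) (nat_lit 22757890750) (nat_lit 152) (nat_lit 4509260065) (nat_lit 228) (nat_lit 6208265338) (nat_lit 25) (nat_lit 5) (nat_lit 27) (nat_lit 5) (nat_lit 28) (nat_lit 5) (nat_lit 362) (nat_lit 270) (nat_lit 148)) (XT.lf (nat_lit 0) (nat_lit 32370361171) (nat_lit 228) (nat_lit 280279785) (nat_lit 76) (nat_lit 1636635579)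 (nat_lit 25) (nat_lit 5) (nat_lit 28) (nat_lit 5) (nat_lit 26) (nat_lit 4) (nat_lit 363) (nat_lit 270) (nat_lit 147))))) (XT.nd (nat_lit 234) (nat_lit 152) (nat_lit 0) (XT.nd (nat_lit 78) (nat_lit 0) (nat_lit 0) (XT.lf (nat_lit 0) (nat_lit 2593026844) (nat_lit 152) (nat_lit 24528016510) (nat_lit 76) (nat_lit 7997573219) (nat_lit 23) (nat_lit 5) (nat_lit 25) (nat_lit 5) (nat_lit 24) (nat_lit 5) (nat_lit 364) (nat_lit 270) (nat_lit 146)) (XT.nd (nat_lit 78) (nat_lit 0) (nat_lit 0) (XT.lf (nat_lit 0) (nat_lit 7193264866) (nat_lit 152) (nat_lit 14216328782) (nat_lit 76) (nat_lit 14564934461) (nat_lit 23) (nat_lit 5) (nat_lit 25) (nat_lit 5) (nat_lit 24) (nat_lit 5) (nat_lit 365) (nat_lit 270) (nat_lit 145)) (XT.lf (nat_lit 0) (nat_lit 11922449201) (nat_lit 152) (nat_lit 3610689708) (nat_lit 76) (nat_lit 21323256166) (nat_lit 23) (nat_lit 5) (nat_lit 25) (nat_lit 5) (nat_lit 24) (nat_lit 5) (nat_lit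 366) (nat_lit 270) (nat_lit 144)))) (XT.nd (nat_lit 78) (nat_lit 0) (nat_lit 0) (XT.lf (nat_lit 0) (nat_lit 7443415624) (nat_lit 152) (nat_lit 9412847186) (nat_lit 228) (nat_lit 20906578702) (nat_lit 21) (nat_lit 5) (nat_lit 23) (nat_lit 5) (nat_lit 24) (nat_lit 5) (nat_lit 367) (nat_lit 270) (nat_lit 143)) (XT.nd (nat_lit 78) (nat_lit 0) (nat_lit 0) (XT.lf (nat_lit 0) (nat_lit 18888355530) (nat_lit 152) (nat_lit 3077513179) (nat_lit 228) (nat_lit 16729785197) (nat_lit 21) (nat_lit 5) (nat_lit 23) (nat_lit 5) (nat_lit 24) (nat_lit 5) (nat_lit 368) (nat_lit 270) (nat_lit 142)) (XT.lf (nat_lit 0) (nat_lit 27253418698) (nat_lit 228) (nat_lit 9027524679) (nat_lit 76) (nat_lit 3374773346) (nat_lit 21) (nat_lit 5) (nat_lit 24) (nat_lit 5) (nat_lit 22) (nat_lit 4) (nat_lit 369) (nat_lit 270) (nat_lit 141)))))) (XT.nd (nat_lit 468) (nat_lit 76) (nat_lit 0) (XT.nd (nat_lit 234) (nat_lit 152) (nat_lit 0)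 (XT.nd (nat_lit 78) (nat_lit 76) (nat_lit 0) (XT.lf (nat_lit 0) (nat_lit 2071443119) (nat_lit 76) (nat_lit 30670294443) (nat_lit 152) (nat_lit 7901585149) (nat_lit 20) (nat_lit 5) (nat_lit 21) (nat_lit 5) (nat_lit 22) (nat_lit 4) (nat_lit 370) (nat_lit 270) (nat_lit 140)) (XT.nd (nat_lit 78) (nat_lit 76) (nat_lit 0) (XT.lf (nat_lit 0) (nat_lit 13674424082) (nat_lit 76) (nat_lit 24803307497) (nat_lit 152) (nat_lit 3180339932) (nat_lit 20) (nat_lit 5) (nat_lit 21) (nat_lit 5) (nat_lit 22) (nat_lit 4) (nat_lit 371) (nat_lit 270) (nat_lit 139)) (XT.lf (nat_lit 0) (nat_lit 1641729059) (nat_lit 152) (nat_lit 17107709038) (nat_lit 76) (nat_lit 23953583991) (nat_lit 19) (nat_lit 5) (nat_lit 21) (nat_lit 5) (nat_lit 20) (nat_lit 5) (nat_lit 372) (nat_lit 270) (nat_lit 138)))) (XT.nd (nat_lit 78) (nat_lit 152) (nat_lit 0) (XT.lf (nat_lit 0) (nat_lit 6536789784) (nat_lit 152) (nat_lit 5950347132) (nat_lit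 76) (nat_lit 31291477011) (nat_lit 19) (nat_lit 5) (nat_lit 21) (nat_lit 5) (nat_lit 20) (nat_lit 5) (nat_lit 373) (nat_lit 270) (nat_lit 137)) (XT.nd (nat_lit 78) (nat_lit 0) (nat_lit 0) (XT.lf (nat_lit 0) (nat_lit 5638791952) (nat_lit 152) (nat_lit 5986590930) (nat_lit 228) (nat_lit 33259695018) (nat_lit 17) (nat_lit 5) (nat_lit 19) (nat_lit 5) (nat_lit 20) (nat_lit 5) (nat_lit 374) (nat_lit 270) (nat_lit 136)) (XT.lf (nat_lit 0) (nat_lit 16926651110) (nat_lit 228) (nat_lit 28345786633) (nat_lit 76) (nat_lit 750502186) (nat_lit 17) (nat_lit 5) (nat_lit 20) (nat_lit 5) (nat_lit 18) (nat_lit 4) (nat_lit 375) (nat_lit 270) (nat_lit 135))))) (XT.nd (nat_lit 234) (nat_lit 0) (nat_lit 0) (XT.nd (nat_lit 78) (nat_lit 76) (nat_lit 0) (XT.lf (nat_lit 0) (nat_lit 22438968921) (nat_lit 228) (nat_lit 17190191100) (nat_lit 76) (nat_lit 7564221973) (nat_lit 17) (nat_lit 5) (nat_lit 20) (nat_lit 5) (nat_lit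 18) (nat_lit 4) (nat_lit 376) (nat_lit 270) (nat_lit 134)) (XT.nd (nat_lit 78) (nat_lit 76) (nat_lit 0) (XT.lf (nat_lit 0) (nat_lit 28109606131) (nat_lit 228) (nat_lit 5712204967) (nat_lit 76) (nat_lit 14577342118) (nat_lit 17) (nat_lit 5) (nat_lit 20) (nat_lit 5) (nat_lit 18) (nat_lit 4) (nat_lit 377) (nat_lit 270) (nat_lit 133)) (XT.lf (nat_lit 0) (nat_lit 6219567232) (nat_lit 76) (nat_lit 27783736717) (nat_lit 152) (nat_lit 15636209642) (nat_lit 16) (nat_lit 5) (nat_lit 17) (nat_lit 5) (nat_lit 18) (nat_lit 4) (nat_lit 378) (nat_lit 270) (nat_lit 132)))) (XT.nd (nat_lit 78) (nat_lit 0) (nat_lit 0) (XT.lf (nat_lit 0) (nat_lit 18614584383) (nat_lit 76) (nat_lit 21510151502) (nat_lit 152) (nat_lit 10790825333) (nat_lit 16) (nat_lit 5) (nat_lit 17) (nat_lit 5) (nat_lit 18) (nat_lit 4) (nat_lit 379) (nat_lit 270) (nat_lit 131)) (XT.nd (nat_lit 78) (nat_lit 0) (nat_lit 0) (XT.lf (nat_lit 0) (nat_lit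 31369993005) (nat_lit 76) (nat_lit 15053255751) (nat_lit 152) (nat_lit 5806842396) (nat_lit 16) (nat_lit 5) (nat_lit 17) (nat_lit 5) (nat_lit 18) (nat_lit 4) (nat_lit 380) (nat_lit 270) (nat_lit 130)) (XT.lf (nat_lit 0) (nat_lit 44496938599) (nat_lit 76) (nat_lit 8407407515) (nat_lit 152) (nat_lit 679905897) (nat_lit 16) (nat_lit 5) (nat_lit 17) (nat_lit 5) (nat_lit 18) (nat_lit 4) (nat_lit 381) (nat_lit 270) (nat_lit 129))))))) (XT.nd (nat_lit 936) (nat_lit 0) (nat_lit 0) (XT.nd (nat_lit 468) (nat_lit 152) (nat_lit 0) (XT.nd (nat_lit 234) (nat_lit 76) (nat_lit 0) (XT.nd (nat_lit 78) (nat_lit 0) (nat_lit 0) (XT.lf (nat_lit 0) (nat_lit 3042876959) (nat_lit 152) (nat_lit 1491182507) (nat_lit 228) (nat_lit 50442965134) (nat_lit 13) (nat_lit 5) (nat_lit 15) (nat_lit 5) (nat_lit 16) (nat_lit 5) (nat_lit 382) (nat_lit 270) (nat_lit 128)) (XT.nd (nat_lit 78) (nat_lit 0) (nat_lit 0) (XT.lf (nat_lit 0)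 (nat_lit 10031377303) (nat_lit 228) (nat_lit 40758323205) (nat_lit 76) (nat_lit 5617463504) (nat_lit 13) (nat_lit 5) (nat_lit 16) (nat_lit 5) (nat_lit 14) (nat_lit 4) (nat_lit 383) (nat_lit 270) (nat_lit 127)) (XT.lf (nat_lit 0) (nat_lit 15702342965) (nat_lit 228) (nat_lit 29272635023) (nat_lit 76) (nat_lit 12904971236) (nat_lit 13) (nat_lit 5) (nat_lit 16) (nat_lit 5) (nat_lit 14) (nat_lit 4) (nat_lit 384) (nat_lit 270) (nat_lit 126)))) (XT.nd (nat_lit 78) (nat_lit 76) (nat_lit 0) (XT.lf (nat_lit 0) (nat_lit 21537577506) (nat_lit 228) (nat_lit 17452712898) (nat_lit 76) (nat_lit 20406806757) (nat_lit 13) (nat_lit 5) (nat_lit 16) (nat_lit 5) (nat_lit 14) (nat_lit 4) (nat_lit 385) (nat_lit 270) (nat_lit 125)) (XT.nd (nat_lit 78) (nat_lit 76) (nat_lit 0) (XT.lf (nat_lit 0) (nat_lit 27542179674) (nat_lit 228) (nat_lit 5288228742) (nat_lit 76) (nat_lit 28129525067) (nat_lit 13) (nat_lit 5) (nat_lit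 16) (nat_lit 5) (nat_lit 14) (nat_lit 4) (nat_lit 386) (nat_lit 270) (nat_lit 124)) (XT.lf (nat_lit 0) (nat_lit 7375366572) (nat_lit 76) (nat_lit 26416926172) (nat_lit 152) (nat_lit 28775404137) (nat_lit 12) (nat_lit 5) (nat_lit 13) (nat_lit 5) (nat_lit 14) (nat_lit 4) (nat_lit 387) (nat_lit 270) (nat_lit 123))))) (XT.nd (nat_lit 234) (nat_lit 152) (nat_lit 0) (XT.nd (nat_lit 78) (nat_lit 0) (nat_lit 0) (XT.lf (nat_lit 0) (nat_lit 20517625440) (nat_lit 76) (nat_lit 19760228953) (nat_lit 152) (nat_lit 23944403510) (nat_lit 12) (nat_lit 5) (nat_lit 13) (nat_lit 5) (nat_lit 14) (nat_lit 4) (nat_lit 388) (nat_lit 270) (nat_lit 122)) (XT.nd (nat_lit 78) (nat_lit 0) (nat_lit 0) (XT.lf (nat_lit 0) (nat_lit 34044785269) (nat_lit 76) (nat_lit 12907900968) (nat_lit 152) (nat_lit 18973931408) (nat_lit 12) (nat_lit 5) (nat_lit 13) (nat_lit 5) (nat_lit 14) (nat_lit 4) (nat_lit 389) (nat_lit 270) (nat_lit 121))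 (XT.lf (nat_lit 0) (nat_lit 47968665906) (nat_lit 76) (nat_lit 5853954748) (nat_lit 152) (nat_lit 13859644700) (nat_lit 12) (nat_lit 5) (nat_lit 13) (nat_lit 5) (nat_lit 14) (nat_lit 4) (nat_lit 390) (nat_lit 270) (nat_lit 120)))) (XT.nd (nat_lit 78) (nat_lit 152) (nat_lit 0) (XT.lf (nat_lit 0) (nat_lit 60907192876) (nat_lit 152) (nat_lit 7202833618) (nat_lit 0) (nat_lit 1380302622) (nat_lit 12) (nat_lit 5) (nat_lit 14) (nat_lit 4) (nat_lit 12) (nat_lit 4) (nat_lit 391) (nat_lit 270) (nat_lit 119)) (XT.nd (nat_lit 78) (nat_lit 76) (nat_lit 0) (XT.lf (nat_lit 0) (nat_lit 5728392508) (nat_lit 76) (nat_lit 62584051524) (nat_lit 76) (nat_lit 3036949242) (nat_lit 11) (nat_lit 4) (nat_lit 12) (nat_lit 5) (nat_lit 12) (nat_lit 4) (nat_lit 392) (nat_lit 270) (nat_lit 118)) (XT.lf (nat_lit 0) (nat_lit 2691993164) (nat_lit 152) (nat_lit 54101979486) (nat_lit 76) (nat_lit 16467430269) (nat_lit 10) (nat_lit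 5) (nat_lit 12) (nat_lit 5) (nat_lit 11) (nat_lit 4) (nat_lit 393) (nat_lit 270) (nat_lit 117)))))) (XT.nd (nat_lit 31278) (nat_lit 0) (nat_lit 17024) (XT.nd (nat_lit 31044) (nat_lit 0) (nat_lit 17708) (XT.nd (nat_lit 78) (nat_lit 0) (nat_lit 0) (XT.lf (nat_lit 0) (nat_lit 8527032333) (nat_lit 152) (nat_lit 42275901747) (nat_lit 76) (nat_lit 24427081166) (nat_lit 10) (nat_lit 5) (nat_lit 12) (nat_lit 5) (nat_lit 11) (nat_lit 4) (nat_lit 394) (nat_lit 270) (nat_lit 116)) (XT.nd (nat_lit 78) (nat_lit 0) (nat_lit 0) (XT.lf (nat_lit 0) (nat_lit 14532528661) (nat_lit 152) (nat_lit 30103241069) (nat_lit 76) (nat_lit 32622056464) (nat_lit 10) (nat_lit 5) (nat_lit 12) (nat_lit 5) (nat_lit 11) (nat_lit 4) (nat_lit 395) (nat_lit 270) (nat_lit 115)) (XT.lf (nat_lit 0) (nat_lit 20713729669) (nat_lit 152) (nat_lit 17573361148) (nat_lit 76) (nat_lit 41059516820) (nat_lit 10) (nat_lit 5) (nat_lit 12) (nat_lit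 5) (nat_lit 11) (nat_lit 4) (nat_lit 396) (nat_lit 270) (nat_lit 114)))) (XT.nd (nat_lit 78) (nat_lit 684) (nat_lit 0) (XT.lf (nat_lit 0) (nat_lit 2112865484) (nat_lit 684) (nat_lit 686989726) (nat_lit 684) (nat_lit 686989726) (nat_lit 252) (nat_lit 3) (nat_lit 261) (nat_lit 3) (nat_lit 261) (nat_lit 5) (nat_lit 271) (nat_lit 271) (nat_lit 238)) (XT.nd (nat_lit 78) (nat_lit 684) (nat_lit 0) (XT.lf (nat_lit 76) (nat_lit 1768568938) (nat_lit 0) (nat_lit 4223533857) (nat_lit 684) (nat_lit 1031081734) (nat_lit 253) (nat_lit 5) (nat_lit 252) (nat_lit 3) (nat_lit 261) (nat_lit 5) (nat_lit 272) (nat_lit 271) (nat_lit 237)) (XT.lf (nat_lit 0) (nat_lit 669985282) (nat_lit 684) (nat_lit 2083539231) (nat_lit 760) (nat_lit 4322167119) (nat_lit 243) (nat_lit 5) (nat_lit 252) (nat_lit 3) (nat_lit 253) (nat_lit 5) (nat_lit 273) (nat_lit 271) (nat_lit 236))))) (XT.nd (nat_lit 234) (nat_lit 684) (nat_lit 0) (XT.nd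 (nat_lit 78) (nat_lit 0) (nat_lit 76) (XT.lf (nat_lit 76) (nat_lit 1160023437) (nat_lit 0) (nat_lit 1187496812) (nat_lit 760) (nat_lit 4783710573) (nat_lit 244) (nat_lit 5) (nat_lit 243) (nat_lit 5) (nat_lit 253) (nat_lit 5) (nat_lit 274) (nat_lit 271) (nat_lit 235)) (XT.nd (nat_lit 78) (nat_lit 0) (nat_lit 0) (XT.lf (nat_lit 0) (nat_lit 4037563337) (nat_lit 684) (nat_lit 2685552207) (nat_lit 760) (nat_lit 466598798) (nat_lit 244) (nat_lit 5) (nat_lit 253) (nat_lit 5) (nat_lit 254) (nat_lit 5) (nat_lit 275) (nat_lit 271) (nat_lit 234)) (XT.lf (nat_lit 76) (nat_lit 663897335) (nat_lit 0) (nat_lit 5071232882) (nat_lit 760) (nat_lit 1516256908) (nat_lit 245) (nat_lit 5) (nat_lit 244) (nat_lit 5) (nat_lit 254) (nat_lit 5) (nat_lit 276) (nat_lit 271) (nat_lit 233)))) (XT.nd (nat_lit 78) (nat_lit 0) (nat_lit 0) (XT.lf (nat_lit 0) (nat_lit 132210411) (nat_lit 760) (nat_lit 3184062974) (nat_lit 836) (nat_lit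 3999715824) (nat_lit 234) (nat_lit 5) (nat_lit 244) (nat_lit 5) (nat_lit 245) (nat_lit 5) (nat_lit 277) (nat_lit 271) (nat_lit 232)) (XT.nd (nat_lit 78) (nat_lit 0) (nat_lit 76) (XT.lf (nat_lit 76) (nat_lit 275957859) (nat_lit 0) (nat_lit 1467517618) (nat_lit 836) (nat_lit 5640416536) (nat_lit 235) (nat_lit 5) (nat_lit 234) (nat_lit 5) (nat_lit 245) (nat_lit 5) (nat_lit 278) (nat_lit 271) (nat_lit 231)) (XT.lf (nat_lit 0) (nat_lit 3382496679) (nat_lit 760) (nat_lit 3589922064) (nat_lit 836) (nat_lit 482154497) (nat_lit 235) (nat_lit 5) (nat_lit 245) (nat_lit 5) (nat_lit 246) (nat_lit 5) (nat_lit 279) (nat_lit 271) (nat_lit 230))))))))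
noncomputable def xc139 : XT := (XT.nd (nat_lit 1872) (nat_lit 4712) (nat_lit 0) (XT.nd (nat_lit 936) (nat_lit 4636) (nat_lit 0) (XT.nd (nat_lit 468) (nat_lit 2660) (nat_lit 0) (XT.nd (nat_lit 234) (nat_lit 0) (nat_lit 76) (XT.nd (nat_lit 78) (nat_lit 836) (nat_lit 0) (XT.lf (nat_lit 0) (nat_lit 5029635103) (nat_lit 760) (nat_lit 17392745) (nat_lit 836) (nat_lit 2481698934) (nat_lit 235) (nat_lit 5) (nat_lit 245) (nat_lit 5) (nat_lit 246) (nat_lit 5) (nat_lit 280) (nat_lit 271) (nat_lit 229)) (XT.nd (nat_lit 78) (nat_lit 836) (nat_lit 0) (XT.lf (nat_lit 76) (nat_lit 3699064172) (nat_lit 0) (nat_lit 3008716815) (nat_lit 836) (nat_lit 897992917) (nat_lit 236) (nat_lit 5) (nat_lit 235) (nat_lit 5) (nat_lit 246) (nat_lit 5) (nat_lit 281) (nat_lit 271) (nat_lit 228)) (XT.lf (nat_lit 0) (nat_lit 683295696) (nat_lit 836) (nat_lit 201233074) (nat_lit 912) (nat_lit 6802092699) (nat_lit 224) (nat_lit 5)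 (nat_lit 235) (nat_lit 5) (nat_lit 236) (nat_lit 5) (nat_lit 282) (nat_lit 271) (nat_lit 227)))) (XT.nd (nat_lit 78) (nat_lit 0) (nat_lit 0) (XT.lf (nat_lit 0) (nat_lit 2290301612) (nat_lit 836) (nat_lit 4140967783) (nat_lit 912) (nat_lit 1338575375) (nat_lit 225) (nat_lit 5) (nat_lit 236) (nat_lit 5) (nat_lit 237) (nat_lit 5) (nat_lit 283) (nat_lit 271) (nat_lit 226)) (XT.nd (nat_lit 78) (nat_lit 0) (nat_lit 0) (XT.lf (nat_lit 0) (nat_lit 3905844451) (nat_lit 836) (nat_lit 322894724) (nat_lit 912) (nat_lit 3628119545) (nat_lit 225) (nat_lit 5) (nat_lit 236) (nat_lit 5) (nat_lit 237) (nat_lit 5) (nat_lit 284) (nat_lit 271) (nat_lit 225)) (XT.lf (nat_lit 76) (nat_lit 3645291627) (nat_lit 0) (nat_lit 1910589958) (nat_lit 912) (nat_lit 2391121392) (nat_lit 226) (nat_lit 5) (nat_lit 225) (nat_lit 5) (nat_lit 237) (nat_lit 5) (nat_lit 285) (nat_lit 271) (nat_lit 224))))) (XT.nd (nat_lit 234) (nat_lit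 1900) (nat_lit 0) (XT.nd (nat_lit 78) (nat_lit 912) (nat_lit 0) (XT.lf (nat_lit 0) (nat_lit 7215497424) (nat_lit 836) (nat_lit 342100358) (nat_lit 76) (nat_lit 483549249) (nat_lit 226) (nat_lit 5) (nat_lit 237) (nat_lit 5) (nat_lit 227) (nat_lit 5) (nat_lit 286) (nat_lit 271) (nat_lit 223)) (XT.nd (nat_lit 78) (nat_lit 0) (nat_lit 0) (XT.lf (nat_lit 0) (nat_lit 780026836) (nat_lit 912) (nat_lit 4390743440) (nat_lit 76) (nat_lit 2966952613) (nat_lit 214) (nat_lit 5) (nat_lit 226) (nat_lit 5) (nat_lit 215) (nat_lit 5) (nat_lit 287) (nat_lit 271) (nat_lit 222)) (XT.lf (nat_lit 0) (nat_lit 2374829473) (nat_lit 912) (nat_lit 316006579) (nat_lit 76) (nat_lit 5547477706) (nat_lit 214) (nat_lit 5) (nat_lit 226) (nat_lit 5) (nat_lit 215) (nat_lit 5) (nat_lit 288) (nat_lit 271) (nat_lit 221)))) (XT.nd (nat_lit 78) (nat_lit 988) (nat_lit 0) (XT.lf (nat_lit 0) (nat_lit 3922119083) (nat_lit 912) (nat_lit 88458810)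 (nat_lit 988) (nat_lit 4331638298) (nat_lit 202) (nat_lit 5) (nat_lit 214) (nat_lit 5) (nat_lit 215) (nat_lit 5) (nat_lit 289) (nat_lit 271) (nat_lit 220)) (XT.nd (nat_lit 78) (nat_lit 988) (nat_lit 0) (XT.lf (nat_lit 0) (nat_lit 5679981929) (nat_lit 988) (nat_lit 216738182) (nat_lit 76) (nat_lit 2553062451) (nat_lit 202) (nat_lit 5) (nat_lit 215) (nat_lit 5) (nat_lit 203) (nat_lit 5) (nat_lit 290) (nat_lit 271) (nat_lit 219)) (XT.lf (nat_lit 0) (nat_lit 4157520316) (nat_lit 988) (nat_lit 3240501560) (nat_lit 1064) (nat_lit 1162679337) (nat_lit 189) (nat_lit 5) (nat_lit 202) (nat_lit 5) (nat_lit 203) (nat_lit 5) (nat_lit 291) (nat_lit 271) (nat_lit 218)))))) (XT.nd (nat_lit 468) (nat_lit 1824) (nat_lit 0) (XT.nd (nat_lit 234) (nat_lit 532) (nat_lit 0) (XT.nd (nat_lit 78) (nat_lit 2204) (nat_lit 0) (XT.lf (nat_lit 0) (nat_lit 443372142) (nat_lit 1064) (nat_lit 48206330) (nat_lit 76) (nat_lit 8184494180)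 (nat_lit 188) (nat_lit 5) (nat_lit 202) (nat_lit 5) (nat_lit 189) (nat_lit 5) (nat_lit 292) (nat_lit 271) (nat_lit 217)) (XT.nd (nat_lit 78) (nat_lit 1140) (nat_lit 0) (XT.lf (nat_lit 0) (nat_lit 2099711048) (nat_lit 1140) (nat_lit 4339323399) (nat_lit 76) (nat_lit 2354836151) (nat_lit 174) (nat_lit 5) (nat_lit 189) (nat_lit 5) (nat_lit 175) (nat_lit 5) (nat_lit 293) (nat_lit 271) (nat_lit 216)) (XT.lf (nat_lit 0) (nat_lit 140103935) (nat_lit 1140) (nat_lit 3632582500) (nat_lit 1216) (nat_lit 5143580426) (nat_lit 159) (nat_lit 5) (nat_lit 174) (nat_lit 5) (nat_lit 175) (nat_lit 5) (nat_lit 294) (nat_lit 271) (nat_lit 215)))) (XT.nd (nat_lit 78) (nat_lit 532) (nat_lit 0) (XT.lf (nat_lit 0) (nat_lit 4807276633) (nat_lit 1140) (nat_lit 693449864) (nat_lit 1216) (nat_lit 3541532903) (nat_lit 159) (nat_lit 5) (nat_lit 174) (nat_lit 5) (nat_lit 175) (nat_lit 5) (nat_lit 295) (nat_lit 271) (nat_lit 214))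 (XT.nd (nat_lit 78) (nat_lit 0) (nat_lit 0) (XT.lf (nat_lit 0) (nat_lit 391857985) (nat_lit 532) (nat_lit 6877173339) (nat_lit 608) (nat_lit 1903416277) (nat_lit 152) (nat_lit 5) (nat_lit 159) (nat_lit 5) (nat_lit 160) (nat_lit 5) (nat_lit 296) (nat_lit 271) (nat_lit 213)) (XT.lf (nat_lit 0) (nat_lit 5201878414) (nat_lit 532) (nat_lit 3901052444) (nat_lit 608) (nat_lit 203300817) (nat_lit 152) (nat_lit 5) (nat_lit 159) (nat_lit 5) (nat_lit 160) (nat_lit 5) (nat_lit 297) (nat_lit 271) (nat_lit 212))))) (XT.nd (nat_lit 234) (nat_lit 608) (nat_lit 0) (XT.nd (nat_lit 78) (nat_lit 532) (nat_lit 0) (XT.lf (nat_lit 0) (nat_lit 675278395) (nat_lit 608) (nat_lit 812468368) (nat_lit 684) (nat_lit 7956794956) (nat_lit 143) (nat_lit 5) (nat_lit 151) (nat_lit 5) (nat_lit 152) (nat_lit 5) (nat_lit 298) (nat_lit 271) (nat_lit 211)) (XT.nd (nat_lit 78) (nat_lit 532) (nat_lit 0) (XT.lf (nat_lit 0) (nat_lit 3254438611)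 (nat_lit 684) (nat_lit 3964499709) (nat_lit 76) (nat_lit 2367193332) (nat_lit 143) (nat_lit 5) (nat_lit 152) (nat_lit 5) (nat_lit 144) (nat_lit 5) (nat_lit 299) (nat_lit 271) (nat_lit 210)) (XT.lf (nat_lit 0) (nat_lit 960163968) (nat_lit 532) (nat_lit 4096651472) (nat_lit 608) (nat_lit 4675732484) (nat_lit 136) (nat_lit 5) (nat_lit 143) (nat_lit 5) (nat_lit 144) (nat_lit 5) (nat_lit 300) (nat_lit 271) (nat_lit 209)))) (XT.nd (nat_lit 78) (nat_lit 608) (nat_lit 0) (XT.lf (nat_lit 0) (nat_lit 6079243550) (nat_lit 532) (nat_lit 840138944) (nat_lit 608) (nat_lit 2963848068) (nat_lit 136) (nat_lit 5) (nat_lit 143) (nat_lit 5) (nat_lit 144) (nat_lit 5) (nat_lit 301) (nat_lit 271) (nat_lit 208)) (XT.nd (nat_lit 78) (nat_lit 76) (nat_lit 0) (XT.lf (nat_lit 0) (nat_lit 1279643449) (nat_lit 532) (nat_lit 7561717324) (nat_lit 608) (nat_lit 1197022650) (nat_lit 129) (nat_lit 5) (nat_lit 136) (nat_lit 5) (nat_lit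 137) (nat_lit 5) (nat_lit 302) (nat_lit 271) (nat_lit 207)) (XT.lf (nat_lit 0) (nat_lit 625089133) (nat_lit 608) (nat_lit 3652948535) (nat_lit 76) (nat_lit 5919593123) (nat_lit 128) (nat_lit 5) (nat_lit 136) (nat_lit 5) (nat_lit 129) (nat_lit 5) (nat_lit 303) (nat_lit 271) (nat_lit 206))))))) (XT.nd (nat_lit 936) (nat_lit 2052) (nat_lit 0) (XT.nd (nat_lit 468) (nat_lit 1292) (nat_lit 0) (XT.nd (nat_lit 234) (nat_lit 456) (nat_lit 0) (XT.nd (nat_lit 78) (nat_lit 456) (nat_lit 0) (XT.lf (nat_lit 0) (nat_lit 1591249400) (nat_lit 456) (nat_lit 870127183) (nat_lit 532) (nat_lit 7900467346) (nat_lit 122) (nat_lit 5) (nat_lit 128) (nat_lit 5) (nat_lit 129) (nat_lit 5) (nat_lit 304) (nat_lit 271) (nat_lit 205)) (XT.nd (nat_lit 78) (nat_lit 456) (nat_lit 0) (XT.lf (nat_lit 0) (nat_lit 4384234808) (nat_lit 532) (nat_lit 3522557101) (nat_lit 76) (nat_lit 2623296640) (nat_lit 122) (nat_lit 5) (nat_lit 129)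 (nat_lit 5) (nat_lit 123) (nat_lit 5) (nat_lit 305) (nat_lit 271) (nat_lit 204)) (XT.lf (nat_lit 0) (nat_lit 1877355154) (nat_lit 456) (nat_lit 4483844075) (nat_lit 532) (nat_lit 4342336774) (nat_lit 116) (nat_lit 5) (nat_lit 122) (nat_lit 5) (nat_lit 123) (nat_lit 5) (nat_lit 306) (nat_lit 271) (nat_lit 203)))) (XT.nd (nat_lit 78) (nat_lit 456) (nat_lit 0) (XT.lf (nat_lit 0) (nat_lit 7478217876) (nat_lit 456) (nat_lit 925145800) (nat_lit 532) (nat_lit 2478693180) (nat_lit 116) (nat_lit 5) (nat_lit 122) (nat_lit 5) (nat_lit 123) (nat_lit 5) (nat_lit 307) (nat_lit 271) (nat_lit 202)) (XT.nd (nat_lit 78) (nat_lit 76) (nat_lit 0) (XT.lf (nat_lit 0) (nat_lit 2163893240) (nat_lit 380) (nat_lit 8361193310) (nat_lit 456) (nat_lit 540343326) (nat_lit 111) (nat_lit 5) (nat_lit 116) (nat_lit 5) (nat_lit 117) (nat_lit 5) (nat_lit 308) (nat_lit 271) (nat_lit 201)) (XT.lf (nat_lit 0) (nat_lit 1442966677) (nat_lit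 456) (nat_lit 3341789227) (nat_lit 76) (nat_lit 6468714268) (nat_lit 110) (nat_lit 5) (nat_lit 116) (nat_lit 5) (nat_lit 111) (nat_lit 5) (nat_lit 309) (nat_lit 271) (nat_lit 200))))) (XT.nd (nat_lit 234) (nat_lit 456) (nat_lit 0) (XT.nd (nat_lit 78) (nat_lit 380) (nat_lit 0) (XT.lf (nat_lit 0) (nat_lit 2393631922) (nat_lit 456) (nat_lit 1076479393) (nat_lit 532) (nat_lit 7977065491) (nat_lit 104) (nat_lit 5) (nat_lit 110) (nat_lit 5) (nat_lit 111) (nat_lit 5) (nat_lit 310) (nat_lit 271) (nat_lit 199)) (XT.nd (nat_lit 78) (nat_lit 380) (nat_lit 0) (XT.lf (nat_lit 0) (nat_lit 5591158786) (nat_lit 532) (nat_lit 3335736910) (nat_lit 76) (nat_lit 2718846579) (nat_lit 104) (nat_lit 5) (nat_lit 111) (nat_lit 5) (nat_lit 105) (nat_lit 5) (nat_lit 311) (nat_lit 271) (nat_lit 198)) (XT.lf (nat_lit 0) (nat_lit 2560908174) (nat_lit 380) (nat_lit 5223642625) (nat_lit 456) (nat_lit 4065491633) (nat_lit 99)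 (nat_lit 5) (nat_lit 104) (nat_lit 5) (nat_lit 105) (nat_lit 5) (nat_lit 312) (nat_lit 271) (nat_lit 197)))) (XT.nd (nat_lit 78) (nat_lit 456) (nat_lit 0) (XT.lf (nat_lit 0) (nat_lit 8671134329) (nat_lit 380) (nat_lit 1380201495) (nat_lit 456) (nat_lit 2008946009) (nat_lit 99) (nat_lit 5) (nat_lit 104) (nat_lit 5) (nat_lit 105) (nat_lit 5) (nat_lit 313) (nat_lit 271) (nat_lit 196)) (XT.nd (nat_lit 78) (nat_lit 0) (nat_lit 0) (XT.lf (nat_lit 0) (nat_lit 132576998) (nat_lit 456) (nat_lit 9593503007) (nat_lit 76) (nat_lit 2549990277) (nat_lit 93) (nat_lit 5) (nat_lit 99) (nat_lit 5) (nat_lit 94) (nat_lit 5) (nat_lit 314) (nat_lit 271) (nat_lit 195)) (XT.lf (nat_lit 0) (nat_lit 2320967648) (nat_lit 456) (nat_lit 3557039522) (nat_lit 76) (nat_lit 6619073260) (nat_lit 93) (nat_lit 5) (nat_lit 99) (nat_lit 5) (nat_lit 94) (nat_lit 5) (nat_lit 315) (nat_lit 271) (nat_lit 194)))))) (XT.nd (nat_lit 468)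 (nat_lit 988) (nat_lit 0) (XT.nd (nat_lit 234) (nat_lit 380) (nat_lit 0) (XT.nd (nat_lit 78) (nat_lit 380) (nat_lit 0) (XT.lf (nat_lit 0) (nat_lit 2682031846) (nat_lit 304) (nat_lit 1894266125) (nat_lit 380) (nat_lit 8148418015) (nat_lit 89) (nat_lit 5) (nat_lit 93) (nat_lit 5) (nat_lit 94) (nat_lit 5) (nat_lit 316) (nat_lit 271) (nat_lit 193)) (XT.nd (nat_lit 78) (nat_lit 380) (nat_lit 0) (XT.lf (nat_lit 0) (nat_lit 6932661778) (nat_lit 380) (nat_lit 3829714564) (nat_lit 76) (nat_lit 2195835819) (nat_lit 89) (nat_lit 5) (nat_lit 94) (nat_lit 5) (nat_lit 90) (nat_lit 5) (nat_lit 317) (nat_lit 271) (nat_lit 192)) (XT.lf (nat_lit 0) (nat_lit 2570749755) (nat_lit 380) (nat_lit 6809001121) (nat_lit 456) (nat_lit 3818393120) (nat_lit 84) (nat_lit 5) (nat_lit 89) (nat_lit 5) (nat_lit 90) (nat_lit 5) (nat_lit 318) (nat_lit 271) (nat_lit 191)))) (XT.nd (nat_lit 78) (nat_lit 380) (nat_lit 0) (XT.lf (nat_lit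 0) (nat_lit 9211726673) (nat_lit 380) (nat_lit 2704160284) (nat_lit 456) (nat_lit 1528948679) (nat_lit 84) (nat_lit 5) (nat_lit 89) (nat_lit 5) (nat_lit 90) (nat_lit 5) (nat_lit 319) (nat_lit 271) (nat_lit 190)) (XT.nd (nat_lit 78) (nat_lit 0) (nat_lit 0) (XT.lf (nat_lit 0) (nat_lit 827965295) (nat_lit 380) (nat_lit 11352096195) (nat_lit 76) (nat_lit 1518207529) (nat_lit 79) (nat_lit 5) (nat_lit 84) (nat_lit 5) (nat_lit 80) (nat_lit 5) (nat_lit 320) (nat_lit 271) (nat_lit 189)) (XT.lf (nat_lit 0) (nat_lit 3272490256) (nat_lit 380) (nat_lit 4820699685) (nat_lit 76) (nat_lit 5864260563) (nat_lit 79) (nat_lit 5) (nat_lit 84) (nat_lit 5) (nat_lit 80) (nat_lit 5) (nat_lit 321) (nat_lit 271) (nat_lit 188))))) (XT.nd (nat_lit 234) (nat_lit 380) (nat_lit 0) (XT.nd (nat_lit 78) (nat_lit 304) (nat_lit 0) (XT.lf (nat_lit 0) (nat_lit 1914929073) (nat_lit 304) (nat_lit 3872169874) (nat_lit 380) (nat_lit 8437433481)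 (nat_lit 75) (nat_lit 5) (nat_lit 79) (nat_lit 5) (nat_lit 80) (nat_lit 5) (nat_lit 322) (nat_lit 271) (nat_lit 187)) (XT.nd (nat_lit 78) (nat_lit 304) (nat_lit 0) (XT.lf (nat_lit 0) (nat_lit 8409500746) (nat_lit 380) (nat_lit 5581158278) (nat_lit 76) (nat_lit 508023778) (nat_lit 75) (nat_lit 5) (nat_lit 80) (nat_lit 5) (nat_lit 76) (nat_lit 5) (nat_lit 323) (nat_lit 271) (nat_lit 186)) (XT.lf (nat_lit 0) (nat_lit 1307791877) (nat_lit 304) (nat_lit 9832937618) (nat_lit 380) (nat_lit 3639449407) (nat_lit 71) (nat_lit 5) (nat_lit 75) (nat_lit 5) (nat_lit 76) (nat_lit 5) (nat_lit 324) (nat_lit 271) (nat_lit 185)))) (XT.nd (nat_lit 78) (nat_lit 380) (nat_lit 0) (XT.lf (nat_lit 0) (nat_lit 8489568826) (nat_lit 304) (nat_lit 5500263271) (nat_lit 380) (nat_lit 1079234785) (nat_lit 71) (nat_lit 5) (nat_lit 75) (nat_lit 5) (nat_lit 76) (nat_lit 5) (nat_lit 325) (nat_lit 271) (nat_lit 184)) (XT.nd (nat_lit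 78) (nat_lit 0) (nat_lit 0) (XT.lf (nat_lit 0) (nat_lit 486853639) (nat_lit 304) (nat_lit 1025167385) (nat_lit 380) (nat_lit 13854635928) (nat_lit 66) (nat_lit 5) (nat_lit 70) (nat_lit 5) (nat_lit 71) (nat_lit 5) (nat_lit 326) (nat_lit 271) (nat_lit 183)) (XT.lf (nat_lit 0) (nat_lit 4241070360) (nat_lit 380) (nat_lit 7845025198) (nat_lit 76) (nat_lit 3584329157) (nat_lit 66) (nat_lit 5) (nat_lit 71) (nat_lit 5) (nat_lit 67) (nat_lit 5) (nat_lit 327) (nat_lit 271) (nat_lit 182))))))))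
noncomputable def xc140 : XT := (XT.nd (nat_lit 1794) (nat_lit 1140) (nat_lit 0) (XT.nd (nat_lit 858) (nat_lit 1064) (nat_lit 0) (XT.nd (nat_lit 390) (nat_lit 760) (nat_lit 0) (XT.nd (nat_lit 156) (nat_lit 380) (nat_lit 0) (XT.nd (nat_lit 78) (nat_lit 228) (nat_lit 0) (XT.lf (nat_lit 0) (nat_lit 7042914364) (nat_lit 380) (nat_lit 636651155) (nat_lit 76) (nat_lit 8304034606) (nat_lit 66) (nat_lit 5) (nat_lit 71) (nat_lit 5) (nat_lit 67) (nat_lit 5) (nat_lit 328) (nat_lit 271) (nat_lit 181)) (XT.lf (nat_lit 0) (nat_lit 6896038480) (nat_lit 228) (nat_lit 3080397172) (nat_lit 304) (nat_lit 6328328142) (nat_lit 63) (nat_lit 5) (nat_lit 66) (nat_lit 5) (nat_lit 67) (nat_lit 5) (nat_lit 329) (nat_lit 271) (nat_lit 180))) (XT.nd (nat_lit 78) (nat_lit 380) (nat_lit 0) (XT.lf (nat_lit 0) (nat_lit 13001929664) (nat_lit 304) (nat_lit 2010338314) (nat_lit 76) (nat_lit 1623196411) (nat_lit 63) (nat_lit 5) (nat_lit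 67) (nat_lit 5) (nat_lit 64) (nat_lit 5) (nat_lit 330) (nat_lit 271) (nat_lit 179)) (XT.nd (nat_lit 78) (nat_lit 76) (nat_lit 0) (XT.lf (nat_lit 0) (nat_lit 5664067453) (nat_lit 304) (nat_lit 10521152762) (nat_lit 380) (nat_lit 788875249) (nat_lit 59) (nat_lit 5) (nat_lit 63) (nat_lit 5) (nat_lit 64) (nat_lit 5) (nat_lit 331) (nat_lit 271) (nat_lit 178)) (XT.lf (nat_lit 0) (nat_lit 2102011278) (nat_lit 380) (nat_lit 3759223754) (nat_lit 76) (nat_lit 11460972179) (nat_lit 58) (nat_lit 5) (nat_lit 63) (nat_lit 5) (nat_lit 59) (nat_lit 5) (nat_lit 332) (nat_lit 271) (nat_lit 177))))) (XT.nd (nat_lit 234) (nat_lit 304) (nat_lit 0) (XT.nd (nat_lit 78) (nat_lit 228) (nat_lit 0) (XT.lf (nat_lit 0) (nat_lit 4064282518) (nat_lit 228) (nat_lit 1021240895) (nat_lit 304) (nat_lit 12594370624) (nat_lit 55) (nat_lit 5) (nat_lit 58) (nat_lit 5) (nat_lit 59) (nat_lit 5) (nat_lit 333) (nat_lit 271) (nat_lit 176))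 (XT.nd (nat_lit 78) (nat_lit 228) (nat_lit 0) (XT.lf (nat_lit 0) (nat_lit 8217853913) (nat_lit 304) (nat_lit 5911622617) (nat_lit 76) (nat_lit 3917073684) (nat_lit 55) (nat_lit 5) (nat_lit 59) (nat_lit 5) (nat_lit 56) (nat_lit 5) (nat_lit 334) (nat_lit 271) (nat_lit 175)) (XT.lf (nat_lit 0) (nat_lit 2028170436) (nat_lit 228) (nat_lit 9428962484) (nat_lit 304) (nat_lit 6966701409) (nat_lit 52) (nat_lit 5) (nat_lit 55) (nat_lit 5) (nat_lit 56) (nat_lit 5) (nat_lit 335) (nat_lit 271) (nat_lit 174)))) (XT.nd (nat_lit 78) (nat_lit 304) (nat_lit 0) (XT.lf (nat_lit 0) (nat_lit 10302801572) (nat_lit 228) (nat_lit 4534104261) (nat_lit 304) (nat_lit 3974248767) (nat_lit 52) (nat_lit 5) (nat_lit 55) (nat_lit 5) (nat_lit 56) (nat_lit 5) (nat_lit 336) (nat_lit 271) (nat_lit 173)) (XT.nd (nat_lit 78) (nat_lit 304) (nat_lit 0) (XT.lf (nat_lit 0) (nat_lit 18306971990) (nat_lit 304) (nat_lit 413543227) (nat_lit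 76) (nat_lit 489928858) (nat_lit 52) (nat_lit 5) (nat_lit 56) (nat_lit 5) (nat_lit 53) (nat_lit 5) (nat_lit 337) (nat_lit 271) (nat_lit 172)) (XT.lf (nat_lit 0) (nat_lit 2322770674) (nat_lit 304) (nat_lit 11629281497) (nat_lit 76) (nat_lit 5665801168) (nat_lit 48) (nat_lit 5) (nat_lit 52) (nat_lit 5) (nat_lit 49) (nat_lit 5) (nat_lit 338) (nat_lit 271) (nat_lit 171)))))) (XT.nd (nat_lit 468) (nat_lit 608) (nat_lit 0) (XT.nd (nat_lit 234) (nat_lit 228) (nat_lit 0) (XT.nd (nat_lit 78) (nat_lit 228) (nat_lit 0) (XT.lf (nat_lit 0) (nat_lit 5616406418) (nat_lit 304) (nat_lit 3418745600) (nat_lit 76) (nat_lit 11002416760) (nat_lit 48) (nat_lit 5) (nat_lit 52) (nat_lit 5) (nat_lit 49) (nat_lit 5) (nat_lit 339) (nat_lit 271) (nat_lit 170)) (XT.nd (nat_lit 78) (nat_lit 0) (nat_lit 0) (XT.lf (nat_lit 0) (nat_lit 5114979228) (nat_lit 228) (nat_lit 3928037667) (nat_lit 304) (nat_lit 11425848562) (nat_lit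 45) (nat_lit 5) (nat_lit 48) (nat_lit 5) (nat_lit 49) (nat_lit 5) (nat_lit 340) (nat_lit 271) (nat_lit 169)) (XT.lf (nat_lit 0) (nat_lit 12605236665) (nat_lit 304) (nat_lit 6973512755) (nat_lit 76) (nat_lit 1333381606) (nat_lit 45) (nat_lit 5) (nat_lit 49) (nat_lit 5) (nat_lit 46) (nat_lit 5) (nat_lit 341) (nat_lit 271) (nat_lit 168)))) (XT.nd (nat_lit 78) (nat_lit 76) (nat_lit 0) (XT.lf (nat_lit 0) (nat_lit 1628740199) (nat_lit 152) (nat_lit 14685703315) (nat_lit 228) (nat_lit 5053061333) (nat_lit 43) (nat_lit 5) (nat_lit 45) (nat_lit 5) (nat_lit 46) (nat_lit 5) (nat_lit 342) (nat_lit 271) (nat_lit 167)) (XT.nd (nat_lit 78) (nat_lit 76) (nat_lit 0) (XT.lf (nat_lit 0) (nat_lit 10609807900) (nat_lit 152) (nat_lit 9581316841) (nat_lit 228) (nat_lit 1643742697) (nat_lit 43) (nat_lit 5) (nat_lit 45) (nat_lit 5) (nat_lit 46) (nat_lit 5) (nat_lit 343) (nat_lit 271) (nat_lit 166)) (XT.lf (nat_lit 0)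 (nat_lit 1817450923) (nat_lit 228) (nat_lit 2495745044) (nat_lit 76) (nat_lit 18002947689) (nat_lit 42) (nat_lit 5) (nat_lit 45) (nat_lit 5) (nat_lit 43) (nat_lit 5) (nat_lit 344) (nat_lit 271) (nat_lit 165))))) (XT.nd (nat_lit 234) (nat_lit 228) (nat_lit 0) (XT.nd (nat_lit 78) (nat_lit 152) (nat_lit 0) (XT.lf (nat_lit 0) (nat_lit 5410619511) (nat_lit 304) (nat_lit 16234812393) (nat_lit 76) (nat_lit 1164115065) (nat_lit 39) (nat_lit 5) (nat_lit 43) (nat_lit 5) (nat_lit 40) (nat_lit 5) (nat_lit 345) (nat_lit 271) (nat_lit 164)) (XT.nd (nat_lit 78) (nat_lit 152) (nat_lit 0) (XT.lf (nat_lit 0) (nat_lit 9166309484) (nat_lit 304) (nat_lit 7412803580) (nat_lit 76) (nat_lit 6737009520) (nat_lit 39) (nat_lit 5) (nat_lit 43) (nat_lit 5) (nat_lit 40) (nat_lit 5) (nat_lit 346) (nat_lit 271) (nat_lit 163)) (XT.lf (nat_lit 0) (nat_lit 1686046195) (nat_lit 152) (nat_lit 11351792198) (nat_lit 228) (nat_lit 10799973670)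 (nat_lit 37) (nat_lit 5) (nat_lit 39) (nat_lit 5) (nat_lit 40) (nat_lit 5) (nat_lit 347) (nat_lit 271) (nat_lit 162)))) (XT.nd (nat_lit 78) (nat_lit 228) (nat_lit 0) (XT.lf (nat_lit 0) (nat_lit 11189299675) (nat_lit 152) (nat_lit 5898211764) (nat_lit 228) (nat_lit 7285792142) (nat_lit 37) (nat_lit 5) (nat_lit 39) (nat_lit 5) (nat_lit 40) (nat_lit 5) (nat_lit 348) (nat_lit 271) (nat_lit 161)) (XT.nd (nat_lit 78) (nat_lit 228) (nat_lit 0) (XT.lf (nat_lit 0) (nat_lit 20957731346) (nat_lit 152) (nat_lit 288461279) (nat_lit 228) (nat_lit 3679052655) (nat_lit 37) (nat_lit 5) (nat_lit 39) (nat_lit 5) (nat_lit 40) (nat_lit 5) (nat_lit 349) (nat_lit 271) (nat_lit 160)) (XT.lf (nat_lit 0) (nat_lit 130152019) (nat_lit 228) (nat_lit 19930626587) (nat_lit 76) (nat_lit 5430117718) (nat_lit 34) (nat_lit 5) (nat_lit 37) (nat_lit 5) (nat_lit 35) (nat_lit 5) (nat_lit 350) (nat_lit 271) (nat_lit 159))))))) (XT.nd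 (nat_lit 936) (nat_lit 456) (nat_lit 0) (XT.nd (nat_lit 468) (nat_lit 380) (nat_lit 0) (XT.nd (nat_lit 234) (nat_lit 152) (nat_lit 0) (XT.nd (nat_lit 78) (nat_lit 152) (nat_lit 0) (XT.lf (nat_lit 0) (nat_lit 4010855308) (nat_lit 228) (nat_lit 10676480181) (nat_lit 76) (nat_lit 11384163632) (nat_lit 34) (nat_lit 5) (nat_lit 37) (nat_lit 5) (nat_lit 35) (nat_lit 5) (nat_lit 351) (nat_lit 271) (nat_lit 158)) (XT.nd (nat_lit 78) (nat_lit 152) (nat_lit 0) (XT.lf (nat_lit 0) (nat_lit 7996184502) (nat_lit 228) (nat_lit 1163838780) (nat_lit 76) (nat_lit 17509860326) (nat_lit 34) (nat_lit 5) (nat_lit 37) (nat_lit 5) (nat_lit 35) (nat_lit 5) (nat_lit 352) (nat_lit 271) (nat_lit 157)) (XT.lf (nat_lit 0) (nat_lit 8787077156) (nat_lit 152) (nat_lit 3387011533) (nat_lit 228) (nat_lit 15109949954) (nat_lit 32) (nat_lit 5) (nat_lit 34) (nat_lit 5) (nat_lit 35) (nat_lit 5) (nat_lit 353) (nat_lit 271) (nat_lit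 156)))) (XT.nd (nat_lit 78) (nat_lit 152) (nat_lit 0) (XT.lf (nat_lit 0) (nat_lit 16502436275) (nat_lit 228) (nat_lit 8899274479) (nat_lit 76) (nat_lit 2514163576) (nat_lit 32) (nat_lit 5) (nat_lit 35) (nat_lit 5) (nat_lit 33) (nat_lit 5) (nat_lit 354) (nat_lit 271) (nat_lit 155)) (XT.nd (nat_lit 78) (nat_lit 0) (nat_lit 0) (XT.lf (nat_lit 0) (nat_lit 953284182) (nat_lit 152) (nat_lit 20039016306) (nat_lit 228) (nat_lit 7573423537) (nat_lit 30) (nat_lit 5) (nat_lit 32) (nat_lit 5) (nat_lit 33) (nat_lit 5) (nat_lit 355) (nat_lit 271) (nat_lit 154)) (XT.lf (nat_lit 0) (nat_lit 11265897517) (nat_lit 152) (nat_lit 14429945007) (nat_lit 228) (nat_lit 3536865894) (nat_lit 30) (nat_lit 5) (nat_lit 32) (nat_lit 5) (nat_lit 33) (nat_lit 5) (nat_lit 356) (nat_lit 271) (nat_lit 153))))) (XT.nd (nat_lit 234) (nat_lit 152) (nat_lit 0) (XT.nd (nat_lit 78) (nat_lit 152) (nat_lit 0) (XT.lf (nat_lit 0) (nat_lit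 597995458) (nat_lit 228) (nat_lit 8055426909) (nat_lit 76) (nat_lit 21266429493) (nat_lit 29) (nat_lit 5) (nat_lit 32) (nat_lit 5) (nat_lit 30) (nat_lit 5) (nat_lit 357) (nat_lit 271) (nat_lit 152)) (XT.nd (nat_lit 78) (nat_lit 0) (nat_lit 0) (XT.lf (nat_lit 0) (nat_lit 2142964638) (nat_lit 152) (nat_lit 2653081841) (nat_lit 228) (nat_lit 25830213561) (nat_lit 27) (nat_lit 5) (nat_lit 29) (nat_lit 5) (nat_lit 30) (nat_lit 5) (nat_lit 358) (nat_lit 271) (nat_lit 151)) (XT.lf (nat_lit 0) (nat_lit 9225800715) (nat_lit 228) (nat_lit 18590909825) (nat_lit 76) (nat_lit 3533984773) (nat_lit 27) (nat_lit 5) (nat_lit 30) (nat_lit 5) (nat_lit 28) (nat_lit 5) (nat_lit 359) (nat_lit 271) (nat_lit 150)))) (XT.nd (nat_lit 78) (nat_lit 152) (nat_lit 0) (XT.lf (nat_lit 0) (nat_lit 13804721552) (nat_lit 228) (nat_lit 8444733742) (nat_lit 76) (nat_lit 9846927603) (nat_lit 27) (nat_lit 5) (nat_lit 30) (nat_lit 5)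 (nat_lit 28) (nat_lit 5) (nat_lit 360) (nat_lit 271) (nat_lit 149)) (XT.nd (nat_lit 78) (nat_lit 0) (nat_lit 0) (XT.lf (nat_lit 0) (nat_lit 2029198453) (nat_lit 152) (nat_lit 16501614388) (nat_lit 228) (nat_lit 14333341438) (nat_lit 25) (nat_lit 5) (nat_lit 27) (nat_lit 5) (nat_lit 28) (nat_lit 5) (nat_lit 361) (nat_lit 271) (nat_lit 148)) (XT.lf (nat_lit 0) (nat_lit 12974390316) (nat_lit 152) (nat_lit 10499996903) (nat_lit 228) (nat_lit 10178307617) (nat_lit 25) (nat_lit 5) (nat_lit 27) (nat_lit 5) (nat_lit 28) (nat_lit 5) (nat_lit 362) (nat_lit 271) (nat_lit 147)))))) (XT.nd (nat_lit 468) (nat_lit 152) (nat_lit 0) (XT.nd (nat_lit 234) (nat_lit 152) (nat_lit 0) (XT.nd (nat_lit 78) (nat_lit 152) (nat_lit 0) (XT.lf (nat_lit 0) (nat_lit 24232338846) (nat_lit 152) (nat_lit 4324633960) (nat_lit 228) (nat_lit 5908204523) (nat_lit 25) (nat_lit 5) (nat_lit 27) (nat_lit 5) (nat_lit 28) (nat_lit 5) (nat_lit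 363) (nat_lit 271) (nat_lit 146)) (XT.nd (nat_lit 78) (nat_lit 76) (nat_lit 0) (XT.lf (nat_lit 0) (nat_lit 500830033) (nat_lit 76) (nat_lit 33306507304) (nat_lit 152) (nat_lit 1494244558) (nat_lit 24) (nat_lit 5) (nat_lit 25) (nat_lit 5) (nat_lit 26) (nat_lit 4) (nat_lit 364) (nat_lit 271) (nat_lit 145)) (XT.lf (nat_lit 0) (nat_lit 3130688095) (nat_lit 152) (nat_lit 24482286396) (nat_lit 76) (nat_lit 8545086834) (nat_lit 23) (nat_lit 5) (nat_lit 25) (nat_lit 5) (nat_lit 24) (nat_lit 5) (nat_lit 365) (nat_lit 271) (nat_lit 144)))) (XT.nd (nat_lit 78) (nat_lit 152) (nat_lit 0) (XT.lf (nat_lit 0) (nat_lit 7855538972) (nat_lit 152) (nat_lit 13884012229) (nat_lit 76) (nat_lit 15300510086) (nat_lit 23) (nat_lit 5) (nat_lit 25) (nat_lit 5) (nat_lit 24) (nat_lit 5) (nat_lit 366) (nat_lit 271) (nat_lit 143)) (XT.nd (nat_lit 78) (nat_lit 152) (nat_lit 0) (XT.lf (nat_lit 0) (nat_lit 12713594677) (nat_lit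 152) (nat_lit 2982305140) (nat_lit 76) (nat_lit 22252883551) (nat_lit 23) (nat_lit 5) (nat_lit 25) (nat_lit 5) (nat_lit 24) (nat_lit 5) (nat_lit 367) (nat_lit 271) (nat_lit 142)) (XT.lf (nat_lit 0) (nat_lit 8396200751) (nat_lit 152) (nat_lit 9393608779) (nat_lit 228) (nat_lit 21092790784) (nat_lit 21) (nat_lit 5) (nat_lit 23) (nat_lit 5) (nat_lit 24) (nat_lit 5) (nat_lit 368) (nat_lit 271) (nat_lit 141))))) (XT.nd (nat_lit 234) (nat_lit 76) (nat_lit 0) (XT.nd (nat_lit 78) (nat_lit 76) (nat_lit 0) (XT.lf (nat_lit 0) (nat_lit 20163241787) (nat_lit 152) (nat_lit 2876999912) (nat_lit 228) (nat_lit 16803537705) (nat_lit 21) (nat_lit 5) (nat_lit 23) (nat_lit 5) (nat_lit 24) (nat_lit 5) (nat_lit 369) (nat_lit 271) (nat_lit 140)) (XT.nd (nat_lit 78) (nat_lit 76) (nat_lit 0) (XT.lf (nat_lit 0) (nat_lit 28477052202) (nat_lit 228) (nat_lit 8601103073) (nat_lit 76) (nat_lit 3754778028) (nat_lit 21) (nat_lit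 5) (nat_lit 24) (nat_lit 5) (nat_lit 22) (nat_lit 4) (nat_lit 370) (nat_lit 271) (nat_lit 139)) (XT.lf (nat_lit 0) (nat_lit 2823998000) (nat_lit 76) (nat_lit 31300833147) (nat_lit 152) (nat_lit 7725499990) (nat_lit 20) (nat_lit 5) (nat_lit 21) (nat_lit 5) (nat_lit 22) (nat_lit 4) (nat_lit 371) (nat_lit 271) (nat_lit 138)))) (XT.nd (nat_lit 78) (nat_lit 76) (nat_lit 0) (XT.lf (nat_lit 0) (nat_lit 14754959316) (nat_lit 76) (nat_lit 25266270674) (nat_lit 152) (nat_lit 2874650408) (nat_lit 20) (nat_lit 5) (nat_lit 21) (nat_lit 5) (nat_lit 22) (nat_lit 4) (nat_lit 372) (nat_lit 271) (nat_lit 137)) (XT.nd (nat_lit 78) (nat_lit 0) (nat_lit 0) (XT.lf (nat_lit 0) (nat_lit 2072799205) (nat_lit 152) (nat_lit 16962318800) (nat_lit 76) (nat_lit 24937296758) (nat_lit 19) (nat_lit 5) (nat_lit 21) (nat_lit 5) (nat_lit 20) (nat_lit 5) (nat_lit 373) (nat_lit 271) (nat_lit 136)) (XT.lf (nat_lit 0) (nat_lit 7103590831)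 (nat_lit 152) (nat_lit 5489419187) (nat_lit 76) (nat_lit 32487605057) (nat_lit 19) (nat_lit 5) (nat_lit 21) (nat_lit 5) (nat_lit 20) (nat_lit 5) (nat_lit 374) (nat_lit 271) (nat_lit 135))))))))
noncomputable def xc141 : XT := (XT.nd (nat_lit 32760) (nat_lit 0) (nat_lit 10792) (XT.nd (nat_lit 936) (nat_lit 228) (nat_lit 0) (XT.nd (nat_lit 468) (nat_lit 228) (nat_lit 0) (XT.nd (nat_lit 234) (nat_lit 76) (nat_lit 0) (XT.nd (nat_lit 78) (nat_lit 0) (nat_lit 0) (XT.lf (nat_lit 0) (nat_lit 6441125066) (nat_lit 152) (nat_lit 5899006057) (nat_lit 228) (nat_lit 33880290047) (nat_lit 17) (nat_lit 5) (nat_lit 19) (nat_lit 5) (nat_lit 20) (nat_lit 5) (nat_lit 375) (nat_lit 271) (nat_lit 134)) (XT.nd (nat_lit 78) (nat_lit 0) (nat_lit 0) (XT.lf (nat_lit 0) (nat_lit 17792271106) (nat_lit 228) (nat_lit 28573043631) (nat_lit 76) (nat_lit 1027355995) (nat_lit 17) (nat_lit 5) (nat_lit 20) (nat_lit 5) (nat_lit 18)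 (nat_lit 4) (nat_lit 376) (nat_lit 271) (nat_lit 133)) (XT.lf (nat_lit 0) (nat_lit 23459536497) (nat_lit 228) (nat_lit 17100929260) (nat_lit 76) (nat_lit 8038079451) (nat_lit 17) (nat_lit 5) (nat_lit 20) (nat_lit 5) (nat_lit 18) (nat_lit 4) (nat_lit 377) (nat_lit 271) (nat_lit 132)))) (XT.nd (nat_lit 78) (nat_lit 76) (nat_lit 0) (XT.lf (nat_lit 0) (nat_lit 29290174419) (nat_lit 228) (nat_lit 5296223957) (nat_lit 76) (nat_lit 15254401040) (nat_lit 17) (nat_lit 5) (nat_lit 20) (nat_lit 5) (nat_lit 18) (nat_lit 4) (nat_lit 378) (nat_lit 271) (nat_lit 131)) (XT.nd (nat_lit 78) (nat_lit 0) (nat_lit 0) (XT.lf (nat_lit 0) (nat_lit 6987743102) (nat_lit 76) (nat_lit 28368706965) (nat_lit 152) (nat_lit 15762053645) (nat_lit 16) (nat_lit 5) (nat_lit 17) (nat_lit 5) (nat_lit 18) (nat_lit 4) (nat_lit 379) (nat_lit 271) (nat_lit 130)) (XT.lf (nat_lit 0) (nat_lit 19737671287) (nat_lit 76) (nat_lit 21914153277)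 (nat_lit 152) (nat_lit 10781305155) (nat_lit 16) (nat_lit 5) (nat_lit 17) (nat_lit 5) (nat_lit 18) (nat_lit 4) (nat_lit 380) (nat_lit 271) (nat_lit 129))))) (XT.nd (nat_lit 234) (nat_lit 0) (nat_lit 0) (XT.nd (nat_lit 78) (nat_lit 228) (nat_lit 0) (XT.lf (nat_lit 0) (nat_lit 32859296069) (nat_lit 76) (nat_lit 15270578889) (nat_lit 152) (nat_lit 5657508893) (nat_lit 16) (nat_lit 5) (nat_lit 17) (nat_lit 5) (nat_lit 18) (nat_lit 4) (nat_lit 381) (nat_lit 271) (nat_lit 128)) (XT.nd (nat_lit 78) (nat_lit 228) (nat_lit 0) (XT.lf (nat_lit 0) (nat_lit 46364082946) (nat_lit 76) (nat_lit 8432178737) (nat_lit 152) (nat_lit 386187758) (nat_lit 16) (nat_lit 5) (nat_lit 17) (nat_lit 5) (nat_lit 18) (nat_lit 4) (nat_lit 382) (nat_lit 271) (nat_lit 127)) (XT.lf (nat_lit 0) (nat_lit 3667430248) (nat_lit 152) (nat_lit 1306792424) (nat_lit 228) (nat_lit 51642812557) (nat_lit 13) (nat_lit 5) (nat_lit 15) (nat_lit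 5) (nat_lit 16) (nat_lit 5) (nat_lit 383) (nat_lit 271) (nat_lit 126)))) (XT.nd (nat_lit 78) (nat_lit 0) (nat_lit 0) (XT.lf (nat_lit 0) (nat_lit 10629739902) (nat_lit 228) (nat_lit 41456447083) (nat_lit 76) (nat_lit 6004098567) (nat_lit 13) (nat_lit 5) (nat_lit 16) (nat_lit 5) (nat_lit 14) (nat_lit 4) (nat_lit 384) (nat_lit 271) (nat_lit 125)) (XT.nd (nat_lit 78) (nat_lit 0) (nat_lit 0) (XT.lf (nat_lit 0) (nat_lit 16462171778) (nat_lit 228) (nat_lit 29641468620) (nat_lit 76) (nat_lit 13503878779) (nat_lit 13) (nat_lit 5) (nat_lit 16) (nat_lit 5) (nat_lit 14) (nat_lit 4) (nat_lit 385) (nat_lit 271) (nat_lit 124)) (XT.lf (nat_lit 0) (nat_lit 22464052912) (nat_lit 228) (nat_lit 17481784135) (nat_lit 76) (nat_lit 21224601644) (nat_lit 13) (nat_lit 5) (nat_lit 16) (nat_lit 5) (nat_lit 14) (nat_lit 4) (nat_lit 386) (nat_lit 271) (nat_lit 123)))))) (XT.nd (nat_lit 468) (nat_lit 152) (nat_lit 0) (XT.nd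 (nat_lit 234) (nat_lit 0) (nat_lit 0) (XT.nd (nat_lit 78) (nat_lit 76) (nat_lit 0) (XT.lf (nat_lit 0) (nat_lit 28640627667) (nat_lit 228) (nat_lit 4966768662) (nat_lit 76) (nat_lit 29173013426) (nat_lit 13) (nat_lit 5) (nat_lit 16) (nat_lit 5) (nat_lit 14) (nat_lit 4) (nat_lit 387) (nat_lit 271) (nat_lit 122)) (XT.nd (nat_lit 78) (nat_lit 0) (nat_lit 0) (XT.lf (nat_lit 0) (nat_lit 8072027580) (nat_lit 76) (nat_lit 27002858736) (nat_lit 152) (nat_lit 29361625024) (nat_lit 12) (nat_lit 5) (nat_lit 13) (nat_lit 5) (nat_lit 14) (nat_lit 4) (nat_lit 388) (nat_lit 271) (nat_lit 121)) (XT.lf (nat_lit 0) (nat_lit 21594707612) (nat_lit 76) (nat_lit 20152477354) (nat_lit 152) (nat_lit 24393763541) (nat_lit 12) (nat_lit 5) (nat_lit 13) (nat_lit 5) (nat_lit 14) (nat_lit 4) (nat_lit 389) (nat_lit 271) (nat_lit 120)))) (XT.nd (nat_lit 78) (nat_lit 0) (nat_lit 0) (XT.lf (nat_lit 0) (nat_lit 35514238932) (nat_lit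 76) (nat_lit 13100421039) (nat_lit 152) (nat_lit 19282011414) (nat_lit 12) (nat_lit 5) (nat_lit 13) (nat_lit 5) (nat_lit 14) (nat_lit 4) (nat_lit 390) (nat_lit 271) (nat_lit 119)) (XT.nd (nat_lit 78) (nat_lit 0) (nat_lit 0) (XT.lf (nat_lit 0) (nat_lit 49842784238) (nat_lit 76) (nat_lit 5840527800) (nat_lit 152) (nat_lit 14021902064) (nat_lit 12) (nat_lit 5) (nat_lit 13) (nat_lit 5) (nat_lit 14) (nat_lit 4) (nat_lit 391) (nat_lit 271) (nat_lit 118)) (XT.lf (nat_lit 0) (nat_lit 62975020300) (nat_lit 152) (nat_lit 6990995961) (nat_lit 0) (nat_lit 1601669594) (nat_lit 12) (nat_lit 5) (nat_lit 14) (nat_lit 4) (nat_lit 12) (nat_lit 4) (nat_lit 392) (nat_lit 271) (nat_lit 117))))) (XT.nd (nat_lit 234) (nat_lit 0) (nat_lit 0) (XT.nd (nat_lit 78) (nat_lit 76) (nat_lit 0) (XT.lf (nat_lit 0) (nat_lit 6323971629) (nat_lit 76) (nat_lit 64275522382) (nat_lit 76) (nat_lit 2883119902) (nat_lit 11) (nat_lit 4)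 (nat_lit 12) (nat_lit 5) (nat_lit 12) (nat_lit 4) (nat_lit 393) (nat_lit 271) (nat_lit 116)) (XT.nd (nat_lit 78) (nat_lit 0) (nat_lit 0) (XT.lf (nat_lit 0) (nat_lit 3005916258) (nat_lit 152) (nat_lit 55308889343) (nat_lit 76) (nat_lit 17137321157) (nat_lit 10) (nat_lit 5) (nat_lit 12) (nat_lit 5) (nat_lit 11) (nat_lit 4) (nat_lit 394) (nat_lit 271) (nat_lit 115)) (XT.lf (nat_lit 0) (nat_lit 9009215439) (nat_lit 152) (nat_lit 43140150132) (nat_lit 76) (nat_lit 25330639213) (nat_lit 10) (nat_lit 5) (nat_lit 12) (nat_lit 5) (nat_lit 11) (nat_lit 4) (nat_lit 395) (nat_lit 271) (nat_lit 114)))) (XT.nd (nat_lit 30966) (nat_lit 0) (nat_lit 17708) (XT.lf (nat_lit 0) (nat_lit 15188283294) (nat_lit 152) (nat_lit 30614077459) (nat_lit 76) (nat_lit 33766490597) (nat_lit 10) (nat_lit 5) (nat_lit 12) (nat_lit 5) (nat_lit 11) (nat_lit 4) (nat_lit 396) (nat_lit 271) (nat_lit 113)) (XT.nd (nat_lit 78) (nat_lit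 0) (nat_lit 0) (XT.lf (nat_lit 0) (nat_lit 152814761) (nat_lit 0) (nat_lit 152814761) (nat_lit 684) (nat_lit 3231566021) (nat_lit 243) (nat_lit 5) (nat_lit 243) (nat_lit 3) (nat_lit 252) (nat_lit 3) (nat_lit 272) (nat_lit 272) (nat_lit 236)) (XT.lf (nat_lit 0) (nat_lit 2257252682) (nat_lit 684) (nat_lit 3621936276) (nat_lit 760) (nat_lit 1248533360) (nat_lit 243) (nat_lit 5) (nat_lit 252) (nat_lit 3) (nat_lit 253) (nat_lit 5) (nat_lit 273) (nat_lit 272) (nat_lit 235))))))) (XT.nd (nat_lit 936) (nat_lit 5472) (nat_lit 0) (XT.nd (nat_lit 468) (nat_lit 760) (nat_lit 0) (XT.nd (nat_lit 234) (nat_lit 684) (nat_lit 0) (XT.nd (nat_lit 78) (nat_lit 0) (nat_lit 0) (XT.lf (nat_lit 0) (nat_lit 3892553915) (nat_lit 684) (nat_lit 417784192) (nat_lit 760) (nat_lit 2874261160) (nat_lit 243) (nat_lit 5) (nat_lit 252) (nat_lit 3) (nat_lit 253) (nat_lit 5) (nat_lit 274) (nat_lit 272) (nat_lit 234)) (XT.nd (nat_lit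 78) (nat_lit 0) (nat_lit 0) (XT.lf (nat_lit 76) (nat_lit 2906141619) (nat_lit 0) (nat_lit 2637447745) (nat_lit 760) (nat_lit 1700732339) (nat_lit 244) (nat_lit 5) (nat_lit 243) (nat_lit 5) (nat_lit 253) (nat_lit 5) (nat_lit 275) (nat_lit 272) (nat_lit 233)) (XT.lf (nat_lit 76) (nat_lit 6305613365) (nat_lit 0) (nat_lit 882970486) (nat_lit 760) (nat_lit 119054493) (nat_lit 244) (nat_lit 5) (nat_lit 243) (nat_lit 5) (nat_lit 253) (nat_lit 5) (nat_lit 276) (nat_lit 272) (nat_lit 232)))) (XT.nd (nat_lit 78) (nat_lit 0) (nat_lit 0) (XT.lf (nat_lit 0) (nat_lit 1454757572) (nat_lit 760) (nat_lit 4948994833) (nat_lit 836) (nat_lit 969569681) (nat_lit 234) (nat_lit 5) (nat_lit 244) (nat_lit 5) (nat_lit 245) (nat_lit 5) (nat_lit 277) (nat_lit 272) (nat_lit 231)) (XT.nd (nat_lit 78) (nat_lit 0) (nat_lit 0) (XT.lf (nat_lit 0) (nat_lit 3035231990) (nat_lit 760) (nat_lit 1511519614) (nat_lit 836) (nat_lit 2895458031)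 (nat_lit 234) (nat_lit 5) (nat_lit 244) (nat_lit 5) (nat_lit 245) (nat_lit 5) (nat_lit 278) (nat_lit 272) (nat_lit 230)) (XT.lf (nat_lit 76) (nat_lit 2034967872) (nat_lit 0) (nat_lit 2592257734) (nat_lit 836) (nat_lit 2887135334) (nat_lit 235) (nat_lit 5) (nat_lit 234) (nat_lit 5) (nat_lit 245) (nat_lit 5) (nat_lit 279) (nat_lit 272) (nat_lit 229))))) (XT.nd (nat_lit 234) (nat_lit 0) (nat_lit 0) (XT.nd (nat_lit 78) (nat_lit 760) (nat_lit 0) (XT.lf (nat_lit 76) (nat_lit 5685344695) (nat_lit 0) (nat_lit 542734637) (nat_lit 836) (nat_lit 1361881215) (nat_lit 235) (nat_lit 5) (nat_lit 234) (nat_lit 5) (nat_lit 245) (nat_lit 5) (nat_lit 280) (nat_lit 272) (nat_lit 228)) (XT.nd (nat_lit 78) (nat_lit 0) (nat_lit 0) (XT.lf (nat_lit 0) (nat_lit 184359854) (nat_lit 836) (nat_lit 5908039979) (nat_lit 912) (nat_lit 1576098763) (nat_lit 224) (nat_lit 5) (nat_lit 235) (nat_lit 5) (nat_lit 236) (nat_lit 5) (nat_lit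 281) (nat_lit 272) (nat_lit 227)) (XT.lf (nat_lit 0) (nat_lit 1722603818) (nat_lit 836) (nat_lit 2228534843) (nat_lit 912) (nat_lit 3798766827) (nat_lit 224) (nat_lit 5) (nat_lit 235) (nat_lit 5) (nat_lit 236) (nat_lit 5) (nat_lit 282) (nat_lit 272) (nat_lit 226)))) (XT.nd (nat_lit 78) (nat_lit 0) (nat_lit 76) (XT.lf (nat_lit 76) (nat_lit 1557575454) (nat_lit 0) (nat_lit 1714092213) (nat_lit 912) (nat_lit 4563250493) (nat_lit 225) (nat_lit 5) (nat_lit 224) (nat_lit 5) (nat_lit 236) (nat_lit 5) (nat_lit 283) (nat_lit 272) (nat_lit 225)) (XT.nd (nat_lit 78) (nat_lit 0) (nat_lit 0) (XT.lf (nat_lit 0) (nat_lit 4846589387) (nat_lit 836) (nat_lit 2460310808) (nat_lit 912) (nat_lit 616300170) (nat_lit 225) (nat_lit 5) (nat_lit 236) (nat_lit 5) (nat_lit 237) (nat_lit 5) (nat_lit 284) (nat_lit 272) (nat_lit 224)) (XT.lf (nat_lit 76) (nat_lit 1447990456) (nat_lit 0) (nat_lit 5004073275) (nat_lit 912) (nat_lit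 1562665950) (nat_lit 226) (nat_lit 5) (nat_lit 225) (nat_lit 5) (nat_lit 237) (nat_lit 5) (nat_lit 285) (nat_lit 272) (nat_lit 223)))))) (XT.nd (nat_lit 468) (nat_lit 2812) (nat_lit 0) (XT.nd (nat_lit 234) (nat_lit 1824) (nat_lit 0) (XT.nd (nat_lit 78) (nat_lit 912) (nat_lit 0) (XT.lf (nat_lit 76) (nat_lit 5489787316) (nat_lit 0) (nat_lit 2594231446) (nat_lit 912) (nat_lit 25731568) (nat_lit 226) (nat_lit 5) (nat_lit 225) (nat_lit 5) (nat_lit 237) (nat_lit 5) (nat_lit 286) (nat_lit 272) (nat_lit 222)) (XT.nd (nat_lit 78) (nat_lit 0) (nat_lit 76) (XT.lf (nat_lit 76) (nat_lit 1423840031) (nat_lit 0) (nat_lit 71058575) (nat_lit 988) (nat_lit 6713324099) (nat_lit 214) (nat_lit 5) (nat_lit 213) (nat_lit 5) (nat_lit 226) (nat_lit 5) (nat_lit 287) (nat_lit 272) (nat_lit 221)) (XT.lf (nat_lit 0) (nat_lit 3067047691) (nat_lit 912) (nat_lit 2726395255) (nat_lit 76) (nat_lit 2516093038) (nat_lit 214) (nat_lit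 5) (nat_lit 226) (nat_lit 5) (nat_lit 215) (nat_lit 5) (nat_lit 288) (nat_lit 272) (nat_lit 220)))) (XT.nd (nat_lit 78) (nat_lit 988) (nat_lit 0) (XT.lf (nat_lit 0) (nat_lit 1446497352) (nat_lit 912) (nat_lit 3211170991) (nat_lit 988) (nat_lit 3757165464) (nat_lit 202) (nat_lit 5) (nat_lit 214) (nat_lit 5) (nat_lit 215) (nat_lit 5) (nat_lit 289) (nat_lit 272) (nat_lit 219)) (XT.nd (nat_lit 78) (nat_lit 988) (nat_lit 0) (XT.lf (nat_lit 0) (nat_lit 5766444746) (nat_lit 912) (nat_lit 514727215) (nat_lit 988) (nat_lit 2242645575) (nat_lit 202) (nat_lit 5) (nat_lit 214) (nat_lit 5) (nat_lit 215) (nat_lit 5) (nat_lit 290) (nat_lit 272) (nat_lit 218)) (XT.lf (nat_lit 0) (nat_lit 1554074857) (nat_lit 988) (nat_lit 6394939121) (nat_lit 1064) (nat_lit 687267318) (nat_lit 189) (nat_lit 5) (nat_lit 202) (nat_lit 5) (nat_lit 203) (nat_lit 5) (nat_lit 291) (nat_lit 272) (nat_lit 217))))) (XT.nd (nat_lit 234)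 (nat_lit 1672) (nat_lit 0) (XT.nd (nat_lit 78) (nat_lit 1064) (nat_lit 0) (XT.lf (nat_lit 0) (nat_lit 889477378) (nat_lit 1064) (nat_lit 2749027266) (nat_lit 76) (nat_lit 5113648807) (nat_lit 188) (nat_lit 5) (nat_lit 202) (nat_lit 5) (nat_lit 189) (nat_lit 5) (nat_lit 292) (nat_lit 272) (nat_lit 216)) (XT.nd (nat_lit 78) (nat_lit 0) (nat_lit 0) (XT.lf (nat_lit 0) (nat_lit 1706697292) (nat_lit 1064) (nat_lit 769943378) (nat_lit 1140) (nat_lit 6395421842) (nat_lit 174) (nat_lit 5) (nat_lit 188) (nat_lit 5) (nat_lit 189) (nat_lit 5) (nat_lit 293) (nat_lit 272) (nat_lit 215)) (XT.lf (nat_lit 0) (nat_lit 4121852788) (nat_lit 1140) (nat_lit 2698460236) (nat_lit 76) (nat_lit 2175013454) (nat_lit 174) (nat_lit 5) (nat_lit 189) (nat_lit 5) (nat_lit 175) (nat_lit 5) (nat_lit 294) (nat_lit 272) (nat_lit 214)))) (XT.nd (nat_lit 78) (nat_lit 532) (nat_lit 0) (XT.lf (nat_lit 0) (nat_lit 1897986753) (nat_lit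 1140) (nat_lit 3906825493) (nat_lit 1216) (nat_lit 3317892978) (nat_lit 159) (nat_lit 5) (nat_lit 174) (nat_lit 5) (nat_lit 175) (nat_lit 5) (nat_lit 295) (nat_lit 272) (nat_lit 213)) (XT.nd (nat_lit 78) (nat_lit 532) (nat_lit 0) (XT.lf (nat_lit 0) (nat_lit 6654096583) (nat_lit 1140) (nat_lit 874705319) (nat_lit 1216) (nat_lit 1725453783) (nat_lit 159) (nat_lit 5) (nat_lit 174) (nat_lit 5) (nat_lit 175) (nat_lit 5) (nat_lit 296) (nat_lit 272) (nat_lit 212)) (XT.lf (nat_lit 0) (nat_lit 2149740849) (nat_lit 532) (nat_lit 7161438730) (nat_lit 608) (nat_lit 78437684) (nat_lit 152) (nat_lit 5) (nat_lit 159) (nat_lit 5) (nat_lit 160) (nat_lit 5) (nat_lit 297) (nat_lit 272) (nat_lit 211))))))))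
noncomputable def xc142 : XT := (XT.nd (nat_lit 1794) (nat_lit 3116) (nat_lit 0) (XT.nd (nat_lit 858) (nat_lit 2432) (nat_lit 0) (XT.nd (nat_lit 390) (nat_lit 1520) (nat_lit 0) (XT.nd (nat_lit 156) (nat_lit 532) (nat_lit 0) (XT.nd (nat_lit 78) (nat_lit 608) (nat_lit 0) (XT.lf (nat_lit 0) (nat_lit 1586293002) (nat_lit 608) (nat_lit 2491452363) (nat_lit 76) (nat_lit 5450892367) (nat_lit 151) (nat_lit 5) (nat_lit 159) (nat_lit 5) (nat_lit 152) (nat_lit 5) (nat_lit 298) (nat_lit 272) (nat_lit 210)) (XT.lf (nat_lit 0) (nat_lit 2412555181) (nat_lit 608) (nat_lit 875752996) (nat_lit 684) (nat_lit 6383888934) (nat_lit 143) (nat_lit 5) (nat_lit 151) (nat_lit 5) (nat_lit 152) (nat_lit 5) (nat_lit 299) (nat_lit 272) (nat_lit 209))) (XT.nd (nat_lit 78) (nat_lit 532) (nat_lit 0) (XT.lf (nat_lit 0) (nat_lit 5056494079) (nat_lit 684) (nat_lit 2362004287) (nat_lit 76) (nat_lit 2401169043) (nat_lit 143) (nat_lit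 5) (nat_lit 152) (nat_lit 5) (nat_lit 144) (nat_lit 5) (nat_lit 300) (nat_lit 272) (nat_lit 208)) (XT.nd (nat_lit 78) (nat_lit 0) (nat_lit 0) (XT.lf (nat_lit 0) (nat_lit 2693522531) (nat_lit 532) (nat_lit 4186161526) (nat_lit 608) (nat_lit 3091874776) (nat_lit 136) (nat_lit 5) (nat_lit 143) (nat_lit 5) (nat_lit 144) (nat_lit 5) (nat_lit 301) (nat_lit 272) (nat_lit 207)) (XT.lf (nat_lit 0) (nat_lit 7916527307) (nat_lit 532) (nat_lit 832926131) (nat_lit 608) (nat_lit 1378851196) (nat_lit 136) (nat_lit 5) (nat_lit 143) (nat_lit 5) (nat_lit 144) (nat_lit 5) (nat_lit 302) (nat_lit 272) (nat_lit 206))))) (XT.nd (nat_lit 234) (nat_lit 456) (nat_lit 0) (XT.nd (nat_lit 78) (nat_lit 456) (nat_lit 0) (XT.lf (nat_lit 0) (nat_lit 401275365) (nat_lit 608) (nat_lit 7285722903) (nat_lit 76) (nat_lit 2601997312) (nat_lit 128) (nat_lit 5) (nat_lit 136) (nat_lit 5) (nat_lit 129) (nat_lit 5) (nat_lit 303) (nat_lit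 272) (nat_lit 205)) (XT.nd (nat_lit 78) (nat_lit 456) (nat_lit 0) (XT.lf (nat_lit 0) (nat_lit 2207093967) (nat_lit 608) (nat_lit 2088820913) (nat_lit 76) (nat_lit 6158232314) (nat_lit 128) (nat_lit 5) (nat_lit 136) (nat_lit 5) (nat_lit 129) (nat_lit 5) (nat_lit 304) (nat_lit 272) (nat_lit 204)) (XT.lf (nat_lit 0) (nat_lit 3296293979) (nat_lit 456) (nat_lit 772575494) (nat_lit 532) (nat_lit 6555378521) (nat_lit 122) (nat_lit 5) (nat_lit 128) (nat_lit 5) (nat_lit 129) (nat_lit 5) (nat_lit 305) (nat_lit 272) (nat_lit 203)))) (XT.nd (nat_lit 78) (nat_lit 456) (nat_lit 0) (XT.lf (nat_lit 0) (nat_lit 6005898013) (nat_lit 532) (nat_lit 1973311778) (nat_lit 76) (nat_lit 2819706743) (nat_lit 122) (nat_lit 5) (nat_lit 129) (nat_lit 5) (nat_lit 123) (nat_lit 5) (nat_lit 306) (nat_lit 272) (nat_lit 202)) (XT.nd (nat_lit 78) (nat_lit 0) (nat_lit 0) (XT.lf (nat_lit 0) (nat_lit 3572373119) (nat_lit 456) (nat_lit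 4442148385) (nat_lit 532) (nat_lit 2963944450) (nat_lit 116) (nat_lit 5) (nat_lit 122) (nat_lit 5) (nat_lit 123) (nat_lit 5) (nat_lit 307) (nat_lit 272) (nat_lit 201)) (XT.lf (nat_lit 0) (nat_lit 9293532674) (nat_lit 456) (nat_lit 781821521) (nat_lit 532) (nat_lit 1088333172) (nat_lit 116) (nat_lit 5) (nat_lit 122) (nat_lit 5) (nat_lit 123) (nat_lit 5) (nat_lit 308) (nat_lit 272) (nat_lit 200)))))) (XT.nd (nat_lit 468) (nat_lit 1140) (nat_lit 0) (XT.nd (nat_lit 234) (nat_lit 380) (nat_lit 0) (XT.nd (nat_lit 78) (nat_lit 456) (nat_lit 0) (XT.lf (nat_lit 0) (nat_lit 865937197) (nat_lit 456) (nat_lit 7514898535) (nat_lit 76) (nat_lit 2972262388) (nat_lit 110) (nat_lit 5) (nat_lit 116) (nat_lit 5) (nat_lit 111) (nat_lit 5) (nat_lit 309) (nat_lit 272) (nat_lit 199)) (XT.nd (nat_lit 78) (nat_lit 456) (nat_lit 0) (XT.lf (nat_lit 0) (nat_lit 2856770685) (nat_lit 456) (nat_lit 1841718373) (nat_lit 76)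 (nat_lit 6849424879) (nat_lit 110) (nat_lit 5) (nat_lit 116) (nat_lit 5) (nat_lit 111) (nat_lit 5) (nat_lit 310) (nat_lit 272) (nat_lit 198)) (XT.lf (nat_lit 0) (nat_lit 4050075955) (nat_lit 456) (nat_lit 869968277) (nat_lit 532) (nat_lit 6828187662) (nat_lit 104) (nat_lit 5) (nat_lit 110) (nat_lit 5) (nat_lit 111) (nat_lit 5) (nat_lit 311) (nat_lit 272) (nat_lit 197)))) (XT.nd (nat_lit 78) (nat_lit 380) (nat_lit 0) (XT.lf (nat_lit 0) (nat_lit 7067752890) (nat_lit 532) (nat_lit 1858430623) (nat_lit 76) (nat_lit 3027737746) (nat_lit 104) (nat_lit 5) (nat_lit 111) (nat_lit 5) (nat_lit 105) (nat_lit 5) (nat_lit 312) (nat_lit 272) (nat_lit 196)) (XT.nd (nat_lit 78) (nat_lit 0) (nat_lit 0) (XT.lf (nat_lit 0) (nat_lit 4199649320) (nat_lit 380) (nat_lit 5104189299) (nat_lit 456) (nat_lit 2861261183) (nat_lit 99) (nat_lit 5) (nat_lit 104) (nat_lit 5) (nat_lit 105) (nat_lit 5) (nat_lit 313) (nat_lit 272)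 (nat_lit 195)) (XT.lf (nat_lit 0) (nat_lit 10447689622) (nat_lit 380) (nat_lit 1153488506) (nat_lit 456) (nat_lit 781646236) (nat_lit 99) (nat_lit 5) (nat_lit 104) (nat_lit 5) (nat_lit 105) (nat_lit 5) (nat_lit 314) (nat_lit 272) (nat_lit 194))))) (XT.nd (nat_lit 234) (nat_lit 380) (nat_lit 0) (XT.nd (nat_lit 78) (nat_lit 304) (nat_lit 0) (XT.lf (nat_lit 0) (nat_lit 1379683657) (nat_lit 456) (nat_lit 8316971527) (nat_lit 76) (nat_lit 2908690764) (nat_lit 93) (nat_lit 5) (nat_lit 99) (nat_lit 5) (nat_lit 94) (nat_lit 5) (nat_lit 315) (nat_lit 272) (nat_lit 193)) (XT.nd (nat_lit 78) (nat_lit 304) (nat_lit 0) (XT.lf (nat_lit 0) (nat_lit 3597518375) (nat_lit 456) (nat_lit 2144977339) (nat_lit 76) (nat_lit 7091626795) (nat_lit 93) (nat_lit 5) (nat_lit 99) (nat_lit 5) (nat_lit 94) (nat_lit 5) (nat_lit 316) (nat_lit 272) (nat_lit 192)) (XT.lf (nat_lit 0) (nat_lit 4266376235) (nat_lit 304) (nat_lit 1633435562)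 (nat_lit 380) (nat_lit 7169444668) (nat_lit 89) (nat_lit 5) (nat_lit 93) (nat_lit 5) (nat_lit 94) (nat_lit 5) (nat_lit 317) (nat_lit 272) (nat_lit 191)))) (XT.nd (nat_lit 78) (nat_lit 380) (nat_lit 0) (XT.lf (nat_lit 0) (nat_lit 8295280868) (nat_lit 380) (nat_lit 2451372111) (nat_lit 76) (nat_lit 2564099132) (nat_lit 89) (nat_lit 5) (nat_lit 94) (nat_lit 5) (nat_lit 90) (nat_lit 5) (nat_lit 318) (nat_lit 272) (nat_lit 190)) (XT.nd (nat_lit 78) (nat_lit 0) (nat_lit 0) (XT.lf (nat_lit 0) (nat_lit 4126466589) (nat_lit 380) (nat_lit 6669898934) (nat_lit 456) (nat_lit 2762144539) (nat_lit 84) (nat_lit 5) (nat_lit 89) (nat_lit 5) (nat_lit 90) (nat_lit 5) (nat_lit 319) (nat_lit 272) (nat_lit 189)) (XT.lf (nat_lit 0) (nat_lit 10923606960) (nat_lit 380) (nat_lit 2451914005) (nat_lit 456) (nat_lit 438117747) (nat_lit 84) (nat_lit 5) (nat_lit 89) (nat_lit 5) (nat_lit 90) (nat_lit 5) (nat_lit 320) (nat_lit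 272) (nat_lit 188))))))) (XT.nd (nat_lit 936) (nat_lit 1140) (nat_lit 0) (XT.nd (nat_lit 468) (nat_lit 988) (nat_lit 0) (XT.nd (nat_lit 234) (nat_lit 304) (nat_lit 0) (XT.nd (nat_lit 78) (nat_lit 304) (nat_lit 0) (XT.lf (nat_lit 0) (nat_lit 1952103297) (nat_lit 380) (nat_lit 10216903529) (nat_lit 76) (nat_lit 1905838823) (nat_lit 79) (nat_lit 5) (nat_lit 84) (nat_lit 5) (nat_lit 80) (nat_lit 5) (nat_lit 321) (nat_lit 272) (nat_lit 187)) (XT.nd (nat_lit 78) (nat_lit 304) (nat_lit 0) (XT.lf (nat_lit 0) (nat_lit 4437945588) (nat_lit 380) (nat_lit 3532548295) (nat_lit 76) (nat_lit 6372309805) (nat_lit 79) (nat_lit 5) (nat_lit 84) (nat_lit 5) (nat_lit 80) (nat_lit 5) (nat_lit 322) (nat_lit 272) (nat_lit 186)) (XT.lf (nat_lit 0) (nat_lit 3391102538) (nat_lit 304) (nat_lit 3619441817) (nat_lit 380) (nat_lit 7607916538) (nat_lit 75) (nat_lit 5) (nat_lit 79) (nat_lit 5) (nat_lit 80) (nat_lit 5) (nat_lit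 323) (nat_lit 272) (nat_lit 185)))) (XT.nd (nat_lit 78) (nat_lit 304) (nat_lit 0) (XT.lf (nat_lit 0) (nat_lit 9684483308) (nat_lit 380) (nat_lit 4342780332) (nat_lit 76) (nat_lit 874424413) (nat_lit 75) (nat_lit 5) (nat_lit 80) (nat_lit 5) (nat_lit 76) (nat_lit 5) (nat_lit 324) (nat_lit 272) (nat_lit 184)) (XT.nd (nat_lit 78) (nat_lit 0) (nat_lit 0) (XT.lf (nat_lit 0) (nat_lit 2739055850) (nat_lit 304) (nat_lit 9742186807) (nat_lit 380) (nat_lit 2710915681) (nat_lit 71) (nat_lit 5) (nat_lit 75) (nat_lit 5) (nat_lit 76) (nat_lit 5) (nat_lit 325) (nat_lit 272) (nat_lit 183)) (XT.lf (nat_lit 0) (nat_lit 10095741538) (nat_lit 304) (nat_lit 5290767345) (nat_lit 380) (nat_lit 104119394) (nat_lit 71) (nat_lit 5) (nat_lit 75) (nat_lit 5) (nat_lit 76) (nat_lit 5) (nat_lit 326) (nat_lit 272) (nat_lit 182))))) (XT.nd (nat_lit 234) (nat_lit 380) (nat_lit 0) (XT.nd (nat_lit 78) (nat_lit 228) (nat_lit 0) (XT.lf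 (nat_lit 0) (nat_lit 1860316839) (nat_lit 304) (nat_lit 669187791) (nat_lit 380) (nat_lit 13267856136) (nat_lit 66) (nat_lit 5) (nat_lit 70) (nat_lit 5) (nat_lit 71) (nat_lit 5) (nat_lit 327) (nat_lit 272) (nat_lit 181)) (XT.nd (nat_lit 78) (nat_lit 228) (nat_lit 0) (XT.lf (nat_lit 0) (nat_lit 5315720437) (nat_lit 380) (nat_lit 6735292503) (nat_lit 76) (nat_lit 4060002750) (nat_lit 66) (nat_lit 5) (nat_lit 71) (nat_lit 5) (nat_lit 67) (nat_lit 5) (nat_lit 328) (nat_lit 272) (nat_lit 180)) (XT.lf (nat_lit 0) (nat_lit 663094944) (nat_lit 228) (nat_lit 7517304192) (nat_lit 304) (nat_lit 8253855859) (nat_lit 63) (nat_lit 5) (nat_lit 66) (nat_lit 5) (nat_lit 67) (nat_lit 5) (nat_lit 329) (nat_lit 272) (nat_lit 179)))) (XT.nd (nat_lit 78) (nat_lit 380) (nat_lit 0) (XT.lf (nat_lit 0) (nat_lit 8396022896) (nat_lit 228) (nat_lit 2785168224) (nat_lit 304) (nat_lit 5584515588) (nat_lit 63) (nat_lit 5) (nat_lit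 66) (nat_lit 5) (nat_lit 67) (nat_lit 5) (nat_lit 330) (nat_lit 272) (nat_lit 178)) (XT.nd (nat_lit 78) (nat_lit 380) (nat_lit 0) (XT.lf (nat_lit 0) (nat_lit 14274694970) (nat_lit 304) (nat_lit 791447472) (nat_lit 76) (nat_lit 2040898705) (nat_lit 63) (nat_lit 5) (nat_lit 67) (nat_lit 5) (nat_lit 64) (nat_lit 5) (nat_lit 331) (nat_lit 272) (nat_lit 177)) (XT.lf (nat_lit 0) (nat_lit 82050775) (nat_lit 380) (nat_lit 10356421615) (nat_lit 76) (nat_lit 7017769954) (nat_lit 58) (nat_lit 5) (nat_lit 63) (nat_lit 5) (nat_lit 59) (nat_lit 5) (nat_lit 332) (nat_lit 272) (nat_lit 176)))))) (XT.nd (nat_lit 468) (nat_lit 456) (nat_lit 0) (XT.nd (nat_lit 234) (nat_lit 456) (nat_lit 0) (XT.nd (nat_lit 78) (nat_lit 228) (nat_lit 0) (XT.lf (nat_lit 0) (nat_lit 3018214016) (nat_lit 380) (nat_lit 2624333873) (nat_lit 76) (nat_lit 12172810681) (nat_lit 58) (nat_lit 5) (nat_lit 63) (nat_lit 5) (nat_lit 59) (nat_lit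 5) (nat_lit 333) (nat_lit 272) (nat_lit 175)) (XT.nd (nat_lit 78) (nat_lit 0) (nat_lit 0) (XT.lf (nat_lit 0) (nat_lit 5421645562) (nat_lit 228) (nat_lit 656612897) (nat_lit 304) (nat_lit 12105933545) (nat_lit 55) (nat_lit 5) (nat_lit 58) (nat_lit 5) (nat_lit 59) (nat_lit 5) (nat_lit 334) (nat_lit 272) (nat_lit 174)) (XT.lf (nat_lit 0) (nat_lit 9283776788) (nat_lit 304) (nat_lit 4867870430) (nat_lit 76) (nat_lit 4410850144) (nat_lit 55) (nat_lit 5) (nat_lit 59) (nat_lit 5) (nat_lit 56) (nat_lit 5) (nat_lit 335) (nat_lit 272) (nat_lit 173)))) (XT.nd (nat_lit 78) (nat_lit 228) (nat_lit 0) (XT.lf (nat_lit 0) (nat_lit 3298144837) (nat_lit 228) (nat_lit 9309846570) (nat_lit 304) (nat_lit 6343501150) (nat_lit 52) (nat_lit 5) (nat_lit 55) (nat_lit 5) (nat_lit 56) (nat_lit 5) (nat_lit 336) (nat_lit 272) (nat_lit 172)) (XT.nd (nat_lit 78) (nat_lit 228) (nat_lit 0) (XT.lf (nat_lit 0) (nat_lit 11785797550)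 (nat_lit 228) (nat_lit 4279850895) (nat_lit 304) (nat_lit 3285513801) (nat_lit 52) (nat_lit 5) (nat_lit 55) (nat_lit 5) (nat_lit 56) (nat_lit 5) (nat_lit 337) (nat_lit 272) (nat_lit 171)) (XT.lf (nat_lit 0) (nat_lit 748349930) (nat_lit 228) (nat_lit 18879478227) (nat_lit 304) (nat_lit 134985724) (nat_lit 49) (nat_lit 5) (nat_lit 52) (nat_lit 5) (nat_lit 53) (nat_lit 5) (nat_lit 338) (nat_lit 272) (nat_lit 170))))) (XT.nd (nat_lit 234) (nat_lit 152) (nat_lit 0) (XT.nd (nat_lit 78) (nat_lit 228) (nat_lit 0) (XT.lf (nat_lit 0) (nat_lit 3153893610) (nat_lit 304) (nat_lit 10813930396) (nat_lit 76) (nat_lit 6214973218) (nat_lit 48) (nat_lit 5) (nat_lit 52) (nat_lit 5) (nat_lit 49) (nat_lit 5) (nat_lit 339) (nat_lit 272) (nat_lit 169)) (XT.nd (nat_lit 78) (nat_lit 228) (nat_lit 0) (XT.lf (nat_lit 0) (nat_lit 6524160567) (nat_lit 304) (nat_lit 2390988020) (nat_lit 76) (nat_lit 11700642675) (nat_lit 48)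 (nat_lit 5) (nat_lit 52) (nat_lit 5) (nat_lit 49) (nat_lit 5) (nat_lit 340) (nat_lit 272) (nat_lit 168)) (XT.lf (nat_lit 0) (nat_lit 6387666984) (nat_lit 228) (nat_lit 3655129276) (nat_lit 304) (nat_lit 11017574941) (nat_lit 45) (nat_lit 5) (nat_lit 48) (nat_lit 5) (nat_lit 49) (nat_lit 5) (nat_lit 341) (nat_lit 272) (nat_lit 167)))) (XT.nd (nat_lit 78) (nat_lit 152) (nat_lit 0) (XT.lf (nat_lit 0) (nat_lit 13694311224) (nat_lit 304) (nat_lit 6077822530) (nat_lit 76) (nat_lit 1745348675) (nat_lit 45) (nat_lit 5) (nat_lit 49) (nat_lit 5) (nat_lit 46) (nat_lit 5) (nat_lit 342) (nat_lit 272) (nat_lit 166)) (XT.nd (nat_lit 78) (nat_lit 0) (nat_lit 0) (XT.lf (nat_lit 0) (nat_lit 2771665702) (nat_lit 152) (nat_lit 14732939048) (nat_lit 228) (nat_lit 4482238354) (nat_lit 43) (nat_lit 5) (nat_lit 45) (nat_lit 5) (nat_lit 46) (nat_lit 5) (nat_lit 343) (nat_lit 272) (nat_lit 165)) (XT.lf (nat_lit 0) (nat_lit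 11990299512) (nat_lit 152) (nat_lit 9486877349) (nat_lit 228) (nat_lit 991681366) (nat_lit 43) (nat_lit 5) (nat_lit 45) (nat_lit 5) (nat_lit 46) (nat_lit 5) (nat_lit 344) (nat_lit 272) (nat_lit 164))))))))
noncomputable def xc143 : XT := (XT.nd (nat_lit 1872) (nat_lit 836) (nat_lit 0) (XT.nd (nat_lit 936) (nat_lit 532) (nat_lit 0) (XT.nd (nat_lit 468) (nat_lit 532) (nat_lit 0) (XT.nd (nat_lit 234) (nat_lit 152) (nat_lit 0) (XT.nd (nat_lit 78) (nat_lit 228) (nat_lit 0) (XT.lf (nat_lit 0) (nat_lit 2539632010) (nat_lit 228) (nat_lit 1525461497) (nat_lit 76) (nat_lit 18899896116) (nat_lit 42) (nat_lit 5) (nat_lit 45) (nat_lit 5) (nat_lit 43) (nat_lit 5) (nat_lit 345) (nat_lit 272) (nat_lit 163)) (XT.nd (nat_lit 78) (nat_lit 0) (nat_lit 0) (XT.lf (nat_lit 0) (nat_lit 6234719050) (nat_lit 304) (nat_lit 15670233371) (nat_lit 76) (nat_lit 1568436639) (nat_lit 39) (nat_lit 5) (nat_lit 43) (nat_lit 5) (nat_lit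 40) (nat_lit 5) (nat_lit 346) (nat_lit 272) (nat_lit 162)) (XT.lf (nat_lit 0) (nat_lit 10083804549) (nat_lit 304) (nat_lit 6614194101) (nat_lit 76) (nat_lit 7297758759) (nat_lit 39) (nat_lit 5) (nat_lit 43) (nat_lit 5) (nat_lit 40) (nat_lit 5) (nat_lit 347) (nat_lit 272) (nat_lit 161)))) (XT.nd (nat_lit 78) (nat_lit 0) (nat_lit 0) (XT.lf (nat_lit 0) (nat_lit 2747611427) (nat_lit 152) (nat_lit 11314872333) (nat_lit 228) (nat_lit 10470900388) (nat_lit 37) (nat_lit 5) (nat_lit 39) (nat_lit 5) (nat_lit 40) (nat_lit 5) (nat_lit 348) (nat_lit 272) (nat_lit 160)) (XT.nd (nat_lit 78) (nat_lit 0) (nat_lit 0) (XT.lf (nat_lit 0) (nat_lit 12506516379) (nat_lit 152) (nat_lit 5708678864) (nat_lit 228) (nat_lit 6870314943) (nat_lit 37) (nat_lit 5) (nat_lit 39) (nat_lit 5) (nat_lit 40) (nat_lit 5) (nat_lit 349) (nat_lit 272) (nat_lit 159)) (XT.lf (nat_lit 0) (nat_lit 22481286705) (nat_lit 228) (nat_lit 3115714958)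 (nat_lit 76) (nat_lit 57544728) (nat_lit 37) (nat_lit 5) (nat_lit 40) (nat_lit 5) (nat_lit 38) (nat_lit 5) (nat_lit 350) (nat_lit 272) (nat_lit 158))))) (XT.nd (nat_lit 234) (nat_lit 304) (nat_lit 0) (XT.nd (nat_lit 78) (nat_lit 0) (nat_lit 0) (XT.lf (nat_lit 0) (nat_lit 732706224) (nat_lit 228) (nat_lit 19557657766) (nat_lit 76) (nat_lit 5946804874) (nat_lit 34) (nat_lit 5) (nat_lit 37) (nat_lit 5) (nat_lit 35) (nat_lit 5) (nat_lit 351) (nat_lit 272) (nat_lit 157)) (XT.nd (nat_lit 78) (nat_lit 0) (nat_lit 0) (XT.lf (nat_lit 0) (nat_lit 4712394214) (nat_lit 228) (nat_lit 10054165247) (nat_lit 76) (nat_lit 12069167789) (nat_lit 34) (nat_lit 5) (nat_lit 37) (nat_lit 5) (nat_lit 35) (nat_lit 5) (nat_lit 352) (nat_lit 272) (nat_lit 156)) (XT.lf (nat_lit 0) (nat_lit 8800354743) (nat_lit 228) (nat_lit 283599246) (nat_lit 76) (nat_lit 18368631133) (nat_lit 34) (nat_lit 5) (nat_lit 37) (nat_lit 5) (nat_lit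 35) (nat_lit 5) (nat_lit 353) (nat_lit 272) (nat_lit 155)))) (XT.nd (nat_lit 78) (nat_lit 152) (nat_lit 0) (XT.lf (nat_lit 0) (nat_lit 9956872063) (nat_lit 152) (nat_lit 3138999296) (nat_lit 228) (nat_lit 14989538774) (nat_lit 32) (nat_lit 5) (nat_lit 34) (nat_lit 5) (nat_lit 35) (nat_lit 5) (nat_lit 354) (nat_lit 272) (nat_lit 154)) (XT.nd (nat_lit 78) (nat_lit 152) (nat_lit 0) (XT.lf (nat_lit 0) (nat_lit 17541121787) (nat_lit 228) (nat_lit 8273076524) (nat_lit 76) (nat_lit 2922404199) (nat_lit 32) (nat_lit 5) (nat_lit 35) (nat_lit 5) (nat_lit 33) (nat_lit 5) (nat_lit 355) (nat_lit 272) (nat_lit 153)) (XT.lf (nat_lit 0) (nat_lit 1866302268) (nat_lit 152) (nat_lit 20292047869) (nat_lit 228) (nat_lit 7247830319) (nat_lit 30) (nat_lit 5) (nat_lit 32) (nat_lit 5) (nat_lit 33) (nat_lit 5) (nat_lit 356) (nat_lit 272) (nat_lit 152)))))) (XT.nd (nat_lit 468) (nat_lit 152) (nat_lit 0) (XT.nd (nat_lit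 234) (nat_lit 152) (nat_lit 0) (XT.nd (nat_lit 78) (nat_lit 228) (nat_lit 0) (XT.lf (nat_lit 0) (nat_lit 12462534209) (nat_lit 152) (nat_lit 14524844399) (nat_lit 228) (nat_lit 3106276799) (nat_lit 30) (nat_lit 5) (nat_lit 32) (nat_lit 5) (nat_lit 33) (nat_lit 5) (nat_lit 357) (nat_lit 272) (nat_lit 151)) (XT.nd (nat_lit 78) (nat_lit 152) (nat_lit 0) (XT.lf (nat_lit 0) (nat_lit 1126830679) (nat_lit 228) (nat_lit 7452880990) (nat_lit 76) (nat_lit 22222018239) (nat_lit 29) (nat_lit 5) (nat_lit 32) (nat_lit 5) (nat_lit 30) (nat_lit 5) (nat_lit 358) (nat_lit 272) (nat_lit 150)) (XT.lf (nat_lit 0) (nat_lit 3043185748) (nat_lit 152) (nat_lit 2400792528) (nat_lit 228) (nat_lit 26085568785) (nat_lit 27) (nat_lit 5) (nat_lit 29) (nat_lit 5) (nat_lit 30) (nat_lit 5) (nat_lit 359) (nat_lit 272) (nat_lit 149)))) (XT.nd (nat_lit 78) (nat_lit 152) (nat_lit 0) (XT.lf (nat_lit 0) (nat_lit 9995041389) (nat_lit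 228) (nat_lit 18325100517) (nat_lit 76) (nat_lit 3955932045) (nat_lit 27) (nat_lit 5) (nat_lit 30) (nat_lit 5) (nat_lit 28) (nat_lit 5) (nat_lit 360) (nat_lit 272) (nat_lit 148)) (XT.nd (nat_lit 78) (nat_lit 152) (nat_lit 0) (XT.lf (nat_lit 0) (nat_lit 14696986162) (nat_lit 228) (nat_lit 7898525654) (nat_lit 76) (nat_lit 10449061381) (nat_lit 27) (nat_lit 5) (nat_lit 30) (nat_lit 5) (nat_lit 28) (nat_lit 5) (nat_lit 361) (nat_lit 272) (nat_lit 147)) (XT.lf (nat_lit 0) (nat_lit 2881785780) (nat_lit 152) (nat_lit 16676758912) (nat_lit 228) (nat_lit 14277032906) (nat_lit 25) (nat_lit 5) (nat_lit 27) (nat_lit 5) (nat_lit 28) (nat_lit 5) (nat_lit 362) (nat_lit 272) (nat_lit 146))))) (XT.nd (nat_lit 234) (nat_lit 76) (nat_lit 0) (XT.nd (nat_lit 78) (nat_lit 76) (nat_lit 0) (XT.lf (nat_lit 0) (nat_lit 14132273844) (nat_lit 152) (nat_lit 10504410492) (nat_lit 228) (nat_lit 10011512404) (nat_lit 25) (nat_lit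 5) (nat_lit 27) (nat_lit 5) (nat_lit 28) (nat_lit 5) (nat_lit 363) (nat_lit 272) (nat_lit 145)) (XT.nd (nat_lit 78) (nat_lit 76) (nat_lit 0) (XT.lf (nat_lit 0) (nat_lit 25705572913) (nat_lit 152) (nat_lit 4152832864) (nat_lit 228) (nat_lit 5627057997) (nat_lit 25) (nat_lit 5) (nat_lit 27) (nat_lit 5) (nat_lit 28) (nat_lit 5) (nat_lit 364) (nat_lit 272) (nat_lit 144)) (XT.lf (nat_lit 0) (nat_lit 1265467219) (nat_lit 76) (nat_lit 33997880800) (nat_lit 152) (nat_lit 1083709983) (nat_lit 24) (nat_lit 5) (nat_lit 25) (nat_lit 5) (nat_lit 26) (nat_lit 4) (nat_lit 365) (nat_lit 272) (nat_lit 143)))) (XT.nd (nat_lit 78) (nat_lit 0) (nat_lit 0) (XT.lf (nat_lit 0) (nat_lit 3658080738) (nat_lit 152) (nat_lit 24480049729) (nat_lit 76) (nat_lit 9091369139) (nat_lit 23) (nat_lit 5) (nat_lit 25) (nat_lit 5) (nat_lit 24) (nat_lit 5) (nat_lit 366) (nat_lit 272) (nat_lit 142)) (XT.nd (nat_lit 78) (nat_lit 0) (nat_lit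 0) (XT.lf (nat_lit 0) (nat_lit 8512051743) (nat_lit 152) (nat_lit 13585284772) (nat_lit 76) (nat_lit 16041010534) (nat_lit 23) (nat_lit 5) (nat_lit 25) (nat_lit 5) (nat_lit 24) (nat_lit 5) (nat_lit 367) (nat_lit 272) (nat_lit 141)) (XT.lf (nat_lit 0) (nat_lit 13503591451) (nat_lit 152) (nat_lit 2377358931) (nat_lit 76) (nat_lit 23193756606) (nat_lit 23) (nat_lit 5) (nat_lit 25) (nat_lit 5) (nat_lit 24) (nat_lit 5) (nat_lit 368) (nat_lit 272) (nat_lit 140))))))) (XT.nd (nat_lit 936) (nat_lit 304) (nat_lit 0) (XT.nd (nat_lit 468) (nat_lit 228) (nat_lit 0) (XT.nd (nat_lit 234) (nat_lit 152) (nat_lit 0) (XT.nd (nat_lit 78) (nat_lit 0) (nat_lit 0) (XT.lf (nat_lit 0) (nat_lit 9335694143) (nat_lit 152) (nat_lit 9391107661) (nat_lit 228) (nat_lit 21309903587) (nat_lit 21) (nat_lit 5) (nat_lit 23) (nat_lit 5) (nat_lit 24) (nat_lit 5) (nat_lit 369) (nat_lit 272) (nat_lit 139)) (XT.nd (nat_lit 78) (nat_lit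 0) (nat_lit 0) (XT.lf (nat_lit 0) (nat_lit 21435719011) (nat_lit 152) (nat_lit 2687281384) (nat_lit 228) (nat_lit 16904079836) (nat_lit 21) (nat_lit 5) (nat_lit 23) (nat_lit 5) (nat_lit 24) (nat_lit 5) (nat_lit 370) (nat_lit 272) (nat_lit 138)) (XT.lf (nat_lit 0) (nat_lit 29714086875) (nat_lit 228) (nat_lit 8201913669) (nat_lit 76) (nat_lit 4130180800) (nat_lit 21) (nat_lit 5) (nat_lit 24) (nat_lit 5) (nat_lit 22) (nat_lit 4) (nat_lit 371) (nat_lit 272) (nat_lit 137)))) (XT.nd (nat_lit 78) (nat_lit 76) (nat_lit 0) (XT.lf (nat_lit 0) (nat_lit 3559497078) (nat_lit 76) (nat_lit 31966910523) (nat_lit 152) (nat_lit 7567847783) (nat_lit 20) (nat_lit 5) (nat_lit 21) (nat_lit 5) (nat_lit 22) (nat_lit 4) (nat_lit 372) (nat_lit 272) (nat_lit 136)) (XT.nd (nat_lit 78) (nat_lit 76) (nat_lit 0) (XT.lf (nat_lit 0) (nat_lit 15829432502) (nat_lit 76) (nat_lit 25759261106) (nat_lit 152) (nat_lit 2582814962) (nat_lit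 20) (nat_lit 5) (nat_lit 21) (nat_lit 5) (nat_lit 22) (nat_lit 4) (nat_lit 373) (nat_lit 272) (nat_lit 135)) (XT.lf (nat_lit 0) (nat_lit 2494883524) (nat_lit 152) (nat_lit 16850374424) (nat_lit 76) (nat_lit 25935302783) (nat_lit 19) (nat_lit 5) (nat_lit 21) (nat_lit 5) (nat_lit 20) (nat_lit 5) (nat_lit 374) (nat_lit 272) (nat_lit 134))))) (XT.nd (nat_lit 234) (nat_lit 76) (nat_lit 0) (XT.nd (nat_lit 78) (nat_lit 152) (nat_lit 0) (XT.lf (nat_lit 0) (nat_lit 7666116365) (nat_lit 152) (nat_lit 5051369782) (nat_lit 76) (nat_lit 33704842065) (nat_lit 19) (nat_lit 5) (nat_lit 21) (nat_lit 5) (nat_lit 20) (nat_lit 5) (nat_lit 375) (nat_lit 272) (nat_lit 133)) (XT.nd (nat_lit 78) (nat_lit 0) (nat_lit 0) (XT.lf (nat_lit 0) (nat_lit 7231181661) (nat_lit 152) (nat_lit 5824131013) (nat_lit 228) (nat_lit 34541155510) (nat_lit 17) (nat_lit 5) (nat_lit 19) (nat_lit 5) (nat_lit 20) (nat_lit 5) (nat_lit 376) (nat_lit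 272) (nat_lit 132)) (XT.lf (nat_lit 0) (nat_lit 18663319344) (nat_lit 228) (nat_lit 28842887781) (nat_lit 76) (nat_lit 1297915334) (nat_lit 17) (nat_lit 5) (nat_lit 20) (nat_lit 5) (nat_lit 18) (nat_lit 4) (nat_lit 377) (nat_lit 272) (nat_lit 131)))) (XT.nd (nat_lit 78) (nat_lit 76) (nat_lit 0) (XT.lf (nat_lit 0) (nat_lit 24490779004) (nat_lit 228) (nat_lit 17043717177) (nat_lit 76) (nat_lit 8511977814) (nat_lit 17) (nat_lit 5) (nat_lit 20) (nat_lit 5) (nat_lit 18) (nat_lit 4) (nat_lit 378) (nat_lit 272) (nat_lit 130)) (XT.nd (nat_lit 78) (nat_lit 76) (nat_lit 0) (XT.lf (nat_lit 0) (nat_lit 30486798499) (nat_lit 228) (nat_lit 4901479647) (nat_lit 76) (nat_lit 15938009751) (nat_lit 17) (nat_lit 5) (nat_lit 20) (nat_lit 5) (nat_lit 18) (nat_lit 4) (nat_lit 379) (nat_lit 272) (nat_lit 129)) (XT.lf (nat_lit 0) (nat_lit 7745578670) (nat_lit 76) (nat_lit 28985493639) (nat_lit 152) (nat_lit 15911376480)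 (nat_lit 16) (nat_lit 5) (nat_lit 17) (nat_lit 5) (nat_lit 18) (nat_lit 4) (nat_lit 380) (nat_lit 272) (nat_lit 128)))))) (XT.nd (nat_lit 468) (nat_lit 76) (nat_lit 0) (XT.nd (nat_lit 234) (nat_lit 228) (nat_lit 0) (XT.nd (nat_lit 78) (nat_lit 0) (nat_lit 0) (XT.lf (nat_lit 0) (nat_lit 20862037615) (nat_lit 76) (nat_lit 22344126871) (nat_lit 152) (nat_lit 10790628994) (nat_lit 16) (nat_lit 5) (nat_lit 17) (nat_lit 5) (nat_lit 18) (nat_lit 4) (nat_lit 381) (nat_lit 272) (nat_lit 127)) (XT.nd (nat_lit 78) (nat_lit 0) (nat_lit 0) (XT.lf (nat_lit 0) (nat_lit 34361809115) (nat_lit 76) (nat_lit 15507870038) (nat_lit 152) (nat_lit 5522267835) (nat_lit 16) (nat_lit 5) (nat_lit 17) (nat_lit 5) (nat_lit 18) (nat_lit 4) (nat_lit 382) (nat_lit 272) (nat_lit 126)) (XT.lf (nat_lit 0) (nat_lit 48256689088) (nat_lit 76) (nat_lit 8470749713) (nat_lit 152) (nat_lit 101689580) (nat_lit 16) (nat_lit 5) (nat_lit 17)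 (nat_lit 5) (nat_lit 18) (nat_lit 4) (nat_lit 383) (nat_lit 272) (nat_lit 125)))) (XT.nd (nat_lit 78) (nat_lit 0) (nat_lit 0) (XT.lf (nat_lit 0) (nat_lit 4280108429) (nat_lit 152) (nat_lit 1130023384) (nat_lit 228) (nat_lit 52896648229) (nat_lit 13) (nat_lit 5) (nat_lit 15) (nat_lit 5) (nat_lit 16) (nat_lit 5) (nat_lit 384) (nat_lit 272) (nat_lit 124)) (XT.nd (nat_lit 78) (nat_lit 0) (nat_lit 0) (XT.lf (nat_lit 0) (nat_lit 11228980180) (nat_lit 228) (nat_lit 42205630346) (nat_lit 76) (nat_lit 6389812209) (nat_lit 13) (nat_lit 5) (nat_lit 16) (nat_lit 5) (nat_lit 14) (nat_lit 4) (nat_lit 385) (nat_lit 272) (nat_lit 123)) (XT.lf (nat_lit 0) (nat_lit 17228219534) (nat_lit 228) (nat_lit 30050605736) (nat_lit 76) (nat_lit 14108597749) (nat_lit 13) (nat_lit 5) (nat_lit 16) (nat_lit 5) (nat_lit 14) (nat_lit 4) (nat_lit 386) (nat_lit 272) (nat_lit 122))))) (XT.nd (nat_lit 234) (nat_lit 0) (nat_lit 0)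 (XT.nd (nat_lit 78) (nat_lit 76) (nat_lit 0) (XT.lf (nat_lit 0) (nat_lit 23402229454) (nat_lit 228) (nat_lit 17540114414) (nat_lit 76) (nat_lit 22055128632) (nat_lit 13) (nat_lit 5) (nat_lit 16) (nat_lit 5) (nat_lit 14) (nat_lit 4) (nat_lit 387) (nat_lit 272) (nat_lit 121)) (XT.nd (nat_lit 78) (nat_lit 76) (nat_lit 0) (XT.lf (nat_lit 0) (nat_lit 29756404705) (nat_lit 228) (nat_lit 4663224883) (nat_lit 76) (nat_lit 30236348429) (nat_lit 13) (nat_lit 5) (nat_lit 16) (nat_lit 5) (nat_lit 14) (nat_lit 4) (nat_lit 388) (nat_lit 272) (nat_lit 120)) (XT.lf (nat_lit 0) (nat_lit 8762298513) (nat_lit 76) (nat_lit 27618227540) (nat_lit 152) (nat_lit 29981335839) (nat_lit 12) (nat_lit 5) (nat_lit 13) (nat_lit 5) (nat_lit 14) (nat_lit 4) (nat_lit 389) (nat_lit 272) (nat_lit 119)))) (XT.nd (nat_lit 78) (nat_lit 0) (nat_lit 0) (XT.lf (nat_lit 0) (nat_lit 22677607196) (nat_lit 76) (nat_lit 20568006084) (nat_lit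 152) (nat_lit 24872044470) (nat_lit 12) (nat_lit 5) (nat_lit 13) (nat_lit 5) (nat_lit 14) (nat_lit 4) (nat_lit 390) (nat_lit 272) (nat_lit 118)) (XT.nd (nat_lit 78) (nat_lit 0) (nat_lit 0) (XT.lf (nat_lit 0) (nat_lit 37002052853) (nat_lit 76) (nat_lit 13309894262) (nat_lit 152) (nat_lit 19614324206) (nat_lit 12) (nat_lit 5) (nat_lit 13) (nat_lit 5) (nat_lit 14) (nat_lit 4) (nat_lit 391) (nat_lit 272) (nat_lit 117)) (XT.lf (nat_lit 0) (nat_lit 51748151991) (nat_lit 76) (nat_lit 5837550033) (nat_lit 152) (nat_lit 14203580921) (nat_lit 12) (nat_lit 5) (nat_lit 13) (nat_lit 5) (nat_lit 14) (nat_lit 4) (nat_lit 392) (nat_lit 272) (nat_lit 116))))))))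
noncomputable def xc144 : XT := (XT.nd (nat_lit 32838) (nat_lit 0) (nat_lit 6308) (XT.nd (nat_lit 31902) (nat_lit 0) (nat_lit 13528) (XT.nd (nat_lit 31434) (nat_lit 0) (nat_lit 16948) (XT.nd (nat_lit 156) (nat_lit 76) (nat_lit 0) (XT.nd (nat_lit 78) (nat_lit 76) (nat_lit 0) (XT.lf (nat_lit 0) (nat_lit 65091070454) (nat_lit 152) (nat_lit 6797367685) (nat_lit 0) (nat_lit 1819347256) (nat_lit 12) (nat_lit 5) (nat_lit 14) (nat_lit 4) (nat_lit 12) (nat_lit 4) (nat_lit 393) (nat_lit 272) (nat_lit 115)) (XT.lf (nat_lit 0) (nat_lit 6913094440) (nat_lit 76) (nat_lit 66028417437) (nat_lit 76) (nat_lit 2738736114) (nat_lit 11) (nat_lit 4) (nat_lit 12) (nat_lit 5) (nat_lit 12) (nat_lit 4) (nat_lit 394) (nat_lit 272) (nat_lit 114))) (XT.nd (nat_lit 31122) (nat_lit 0) (nat_lit 17708) (XT.lf (nat_lit 0) (nat_lit 3315872519) (nat_lit 152) (nat_lit 56575895181) (nat_lit 76) (nat_lit 17817213231) (nat_lit 10) (nat_lit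 5) (nat_lit 12) (nat_lit 5) (nat_lit 11) (nat_lit 4) (nat_lit 395) (nat_lit 272) (nat_lit 113)) (XT.nd (nat_lit 78) (nat_lit 0) (nat_lit 0) (XT.lf (nat_lit 0) (nat_lit 961883069) (nat_lit 0) (nat_lit 961883069) (nat_lit 684) (nat_lit 1667631720) (nat_lit 243) (nat_lit 5) (nat_lit 243) (nat_lit 3) (nat_lit 252) (nat_lit 3) (nat_lit 273) (nat_lit 273) (nat_lit 234)) (XT.lf (nat_lit 0) (nat_lit 5186050186) (nat_lit 0) (nat_lit 250521519) (nat_lit 684) (nat_lit 1804557501) (nat_lit 243) (nat_lit 5) (nat_lit 243) (nat_lit 3) (nat_lit 252) (nat_lit 3) (nat_lit 274) (nat_lit 273) (nat_lit 233))))) (XT.nd (nat_lit 234) (nat_lit 0) (nat_lit 0) (XT.nd (nat_lit 78) (nat_lit 760) (nat_lit 0) (XT.lf (nat_lit 76) (nat_lit 1222591395) (nat_lit 0) (nat_lit 5817125683) (nat_lit 760) (nat_lit 262637951) (nat_lit 244) (nat_lit 5) (nat_lit 243) (nat_lit 5) (nat_lit 253) (nat_lit 5) (nat_lit 275) (nat_lit 273) (nat_lit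 232)) (XT.nd (nat_lit 78) (nat_lit 0) (nat_lit 0) (XT.lf (nat_lit 0) (nat_lit 1264358332) (nat_lit 760) (nat_lit 2772583233) (nat_lit 836) (nat_lit 3329280849) (nat_lit 233) (nat_lit 5) (nat_lit 243) (nat_lit 5) (nat_lit 244) (nat_lit 5) (nat_lit 276) (nat_lit 273) (nat_lit 231)) (XT.lf (nat_lit 76) (nat_lit 611019441) (nat_lit 0) (nat_lit 2169698088) (nat_lit 836) (nat_lit 4652869212) (nat_lit 234) (nat_lit 5) (nat_lit 233) (nat_lit 5) (nat_lit 244) (nat_lit 5) (nat_lit 277) (nat_lit 273) (nat_lit 230)))) (XT.nd (nat_lit 78) (nat_lit 0) (nat_lit 76) (XT.lf (nat_lit 76) (nat_lit 4121164345) (nat_lit 0) (nat_lit 193714823) (nat_lit 836) (nat_lit 3189043756) (nat_lit 234) (nat_lit 5) (nat_lit 233) (nat_lit 5) (nat_lit 244) (nat_lit 5) (nat_lit 278) (nat_lit 273) (nat_lit 229)) (XT.nd (nat_lit 78) (nat_lit 0) (nat_lit 0) (XT.lf (nat_lit 76) (nat_lit 111889230) (nat_lit 0) (nat_lit 5748112903) (nat_lit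 836) (nat_lit 1717535738) (nat_lit 235) (nat_lit 5) (nat_lit 234) (nat_lit 5) (nat_lit 245) (nat_lit 5) (nat_lit 279) (nat_lit 273) (nat_lit 228)) (XT.lf (nat_lit 76) (nat_lit 3746249047) (nat_lit 0) (nat_lit 3688702616) (nat_lit 836) (nat_lit 219018790) (nat_lit 235) (nat_lit 5) (nat_lit 234) (nat_lit 5) (nat_lit 245) (nat_lit 5) (nat_lit 280) (nat_lit 273) (nat_lit 227)))))) (XT.nd (nat_lit 468) (nat_lit 1900) (nat_lit 0) (XT.nd (nat_lit 234) (nat_lit 760) (nat_lit 0) (XT.nd (nat_lit 78) (nat_lit 0) (nat_lit 76) (XT.lf (nat_lit 0) (nat_lit 1246941499) (nat_lit 836) (nat_lit 288490453) (nat_lit 912) (nat_lit 6198538998) (nat_lit 223) (nat_lit 5) (nat_lit 234) (nat_lit 5) (nat_lit 235) (nat_lit 5) (nat_lit 281) (nat_lit 273) (nat_lit 226)) (XT.nd (nat_lit 78) (nat_lit 0) (nat_lit 0) (XT.lf (nat_lit 0) (nat_lit 2742791384) (nat_lit 836) (nat_lit 4350829563) (nat_lit 912) (nat_lit 723079826) (nat_lit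 224) (nat_lit 5) (nat_lit 235) (nat_lit 5) (nat_lit 236) (nat_lit 5) (nat_lit 282) (nat_lit 273) (nat_lit 225)) (XT.lf (nat_lit 0) (nat_lit 4252826334) (nat_lit 836) (nat_lit 611457282) (nat_lit 912) (nat_lit 3038650317) (nat_lit 224) (nat_lit 5) (nat_lit 235) (nat_lit 5) (nat_lit 236) (nat_lit 5) (nat_lit 283) (nat_lit 273) (nat_lit 224)))) (XT.nd (nat_lit 78) (nat_lit 836) (nat_lit 0) (XT.lf (nat_lit 76) (nat_lit 3271727172) (nat_lit 0) (nat_lit 2520472618) (nat_lit 912) (nat_lit 2200130971) (nat_lit 225) (nat_lit 5) (nat_lit 224) (nat_lit 5) (nat_lit 236) (nat_lit 5) (nat_lit 284) (nat_lit 273) (nat_lit 223)) (XT.nd (nat_lit 78) (nat_lit 836) (nat_lit 0) (XT.lf (nat_lit 76) (nat_lit 7252045063) (nat_lit 0) (nat_lit 85545855) (nat_lit 912) (nat_lit 748118427) (nat_lit 225) (nat_lit 5) (nat_lit 224) (nat_lit 5) (nat_lit 236) (nat_lit 5) (nat_lit 285) (nat_lit 273) (nat_lit 222)) (XT.lf (nat_lit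 0) (nat_lit 741829496) (nat_lit 912) (nat_lit 5012956302) (nat_lit 988) (nat_lit 2426708620) (nat_lit 213) (nat_lit 5) (nat_lit 225) (nat_lit 5) (nat_lit 226) (nat_lit 5) (nat_lit 286) (nat_lit 273) (nat_lit 221))))) (XT.nd (nat_lit 234) (nat_lit 1900) (nat_lit 0) (XT.nd (nat_lit 78) (nat_lit 0) (nat_lit 0) (XT.lf (nat_lit 0) (nat_lit 2226409185) (nat_lit 912) (nat_lit 1013537078) (nat_lit 988) (nat_lit 5041122365) (nat_lit 213) (nat_lit 5) (nat_lit 225) (nat_lit 5) (nat_lit 226) (nat_lit 5) (nat_lit 287) (nat_lit 273) (nat_lit 220)) (XT.nd (nat_lit 78) (nat_lit 0) (nat_lit 76) (XT.lf (nat_lit 76) (nat_lit 3134807938) (nat_lit 0) (nat_lit 607765661) (nat_lit 988) (nat_lit 4641529403) (nat_lit 214) (nat_lit 5) (nat_lit 213) (nat_lit 5) (nat_lit 226) (nat_lit 5) (nat_lit 288) (nat_lit 273) (nat_lit 219)) (XT.lf (nat_lit 0) (nat_lit 5292738121) (nat_lit 912) (nat_lit 1115218418) (nat_lit 76) (nat_lit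 2082698315) (nat_lit 214) (nat_lit 5) (nat_lit 226) (nat_lit 5) (nat_lit 215) (nat_lit 5) (nat_lit 289) (nat_lit 273) (nat_lit 218)))) (XT.nd (nat_lit 78) (nat_lit 1064) (nat_lit 0) (XT.lf (nat_lit 0) (nat_lit 3166263235) (nat_lit 912) (nat_lit 3718782471) (nat_lit 988) (nat_lit 1715567930) (nat_lit 202) (nat_lit 5) (nat_lit 214) (nat_lit 5) (nat_lit 215) (nat_lit 5) (nat_lit 290) (nat_lit 273) (nat_lit 217)) (XT.nd (nat_lit 78) (nat_lit 1064) (nat_lit 0) (XT.lf (nat_lit 0) (nat_lit 7566982712) (nat_lit 912) (nat_lit 929466459) (nat_lit 988) (nat_lit 218359411) (nat_lit 202) (nat_lit 5) (nat_lit 214) (nat_lit 5) (nat_lit 215) (nat_lit 5) (nat_lit 291) (nat_lit 273) (nat_lit 216)) (XT.lf (nat_lit 0) (nat_lit 1309489600) (nat_lit 1064) (nat_lit 5564822004) (nat_lit 76) (nat_lit 1957462125) (nat_lit 188) (nat_lit 5) (nat_lit 202) (nat_lit 5) (nat_lit 189) (nat_lit 5) (nat_lit 292) (nat_lit 273) (nat_lit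 215))))))) (XT.nd (nat_lit 936) (nat_lit 2660) (nat_lit 0) (XT.nd (nat_lit 468) (nat_lit 1748) (nat_lit 0) (XT.nd (nat_lit 234) (nat_lit 1748) (nat_lit 0) (XT.nd (nat_lit 78) (nat_lit 1064) (nat_lit 0) (XT.lf (nat_lit 0) (nat_lit 2861367084) (nat_lit 1064) (nat_lit 1158637888) (nat_lit 76) (nat_lit 4932771195) (nat_lit 188) (nat_lit 5) (nat_lit 202) (nat_lit 5) (nat_lit 189) (nat_lit 5) (nat_lit 293) (nat_lit 273) (nat_lit 214)) (XT.nd (nat_lit 78) (nat_lit 0) (nat_lit 0) (XT.lf (nat_lit 0) (nat_lit 3414357817) (nat_lit 1064) (nat_lit 1041053894) (nat_lit 1140) (nat_lit 4622197236) (nat_lit 174) (nat_lit 5) (nat_lit 188) (nat_lit 5) (nat_lit 189) (nat_lit 5) (nat_lit 294) (nat_lit 273) (nat_lit 213)) (XT.lf (nat_lit 0) (nat_lit 6092195532) (nat_lit 1140) (nat_lit 1110036283) (nat_lit 76) (nat_lit 2004173952) (nat_lit 174) (nat_lit 5) (nat_lit 189) (nat_lit 5) (nat_lit 175) (nat_lit 5) (nat_lit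 295) (nat_lit 273) (nat_lit 212)))) (XT.nd (nat_lit 78) (nat_lit 608) (nat_lit 0) (XT.lf (nat_lit 0) (nat_lit 3607937666) (nat_lit 1140) (nat_lit 4179808859) (nat_lit 1216) (nat_lit 1551094712) (nat_lit 159) (nat_lit 5) (nat_lit 174) (nat_lit 5) (nat_lit 175) (nat_lit 5) (nat_lit 296) (nat_lit 273) (nat_lit 211)) (XT.nd (nat_lit 78) (nat_lit 532) (nat_lit 0) (XT.lf (nat_lit 0) (nat_lit 34080124) (nat_lit 1216) (nat_lit 1017763572) (nat_lit 76) (nat_lit 8424160564) (nat_lit 158) (nat_lit 5) (nat_lit 174) (nat_lit 5) (nat_lit 159) (nat_lit 5) (nat_lit 297) (nat_lit 273) (nat_lit 210)) (XT.lf (nat_lit 0) (nat_lit 1660209683) (nat_lit 608) (nat_lit 5772782876) (nat_lit 76) (nat_lit 2183150812) (nat_lit 151) (nat_lit 5) (nat_lit 159) (nat_lit 5) (nat_lit 152) (nat_lit 5) (nat_lit 298) (nat_lit 273) (nat_lit 209))))) (XT.nd (nat_lit 234) (nat_lit 1140) (nat_lit 0) (XT.nd (nat_lit 78) (nat_lit 608) (nat_lit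 0) (XT.lf (nat_lit 0) (nat_lit 3322642938) (nat_lit 608) (nat_lit 931717079) (nat_lit 76) (nat_lit 5506558490) (nat_lit 151) (nat_lit 5) (nat_lit 159) (nat_lit 5) (nat_lit 152) (nat_lit 5) (nat_lit 299) (nat_lit 273) (nat_lit 208)) (XT.nd (nat_lit 78) (nat_lit 0) (nat_lit 0) (XT.lf (nat_lit 0) (nat_lit 4103386388) (nat_lit 608) (nat_lit 938702537) (nat_lit 684) (nat_lit 4867789550) (nat_lit 143) (nat_lit 5) (nat_lit 151) (nat_lit 5) (nat_lit 152) (nat_lit 5) (nat_lit 300) (nat_lit 273) (nat_lit 207)) (XT.lf (nat_lit 0) (nat_lit 6814770398) (nat_lit 684) (nat_lit 810251151) (nat_lit 76) (nat_lit 2438290278) (nat_lit 143) (nat_lit 5) (nat_lit 152) (nat_lit 5) (nat_lit 144) (nat_lit 5) (nat_lit 301) (nat_lit 273) (nat_lit 206)))) (XT.nd (nat_lit 78) (nat_lit 608) (nat_lit 0) (XT.lf (nat_lit 0) (nat_lit 4381033499) (nat_lit 532) (nat_lit 4280273574) (nat_lit 608) (nat_lit 1559473433) (nat_lit 136)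 (nat_lit 5) (nat_lit 143) (nat_lit 5) (nat_lit 144) (nat_lit 5) (nat_lit 302) (nat_lit 273) (nat_lit 205)) (XT.nd (nat_lit 78) (nat_lit 532) (nat_lit 0) (XT.lf (nat_lit 0) (nat_lit 154530702) (nat_lit 608) (nat_lit 671266641) (nat_lit 76) (nat_lit 9557840017) (nat_lit 135) (nat_lit 5) (nat_lit 143) (nat_lit 5) (nat_lit 136) (nat_lit 5) (nat_lit 303) (nat_lit 273) (nat_lit 204)) (XT.lf (nat_lit 0) (nat_lit 1931034170) (nat_lit 608) (nat_lit 5879327524) (nat_lit 76) (nat_lit 2739330433) (nat_lit 128) (nat_lit 5) (nat_lit 136) (nat_lit 5) (nat_lit 129) (nat_lit 5) (nat_lit 304) (nat_lit 273) (nat_lit 203)))))) (XT.nd (nat_lit 468) (nat_lit 1292) (nat_lit 0) (XT.nd (nat_lit 234) (nat_lit 912) (nat_lit 0) (XT.nd (nat_lit 78) (nat_lit 456) (nat_lit 0) (XT.lf (nat_lit 0) (nat_lit 3746821877) (nat_lit 608) (nat_lit 573847612) (nat_lit 76) (nat_lit 6400526081) (nat_lit 128) (nat_lit 5) (nat_lit 136) (nat_lit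 5) (nat_lit 129) (nat_lit 5) (nat_lit 305) (nat_lit 273) (nat_lit 202)) (XT.nd (nat_lit 78) (nat_lit 0) (nat_lit 0) (XT.lf (nat_lit 0) (nat_lit 4957353689) (nat_lit 456) (nat_lit 679195587) (nat_lit 532) (nat_lit 5260756206) (nat_lit 122) (nat_lit 5) (nat_lit 128) (nat_lit 5) (nat_lit 129) (nat_lit 5) (nat_lit 306) (nat_lit 273) (nat_lit 201)) (XT.lf (nat_lit 0) (nat_lit 7590671203) (nat_lit 532) (nat_lit 472588390) (nat_lit 76) (nat_lit 3015252044) (nat_lit 122) (nat_lit 5) (nat_lit 129) (nat_lit 5) (nat_lit 123) (nat_lit 5) (nat_lit 307) (nat_lit 273) (nat_lit 200)))) (XT.nd (nat_lit 78) (nat_lit 456) (nat_lit 0) (XT.lf (nat_lit 0) (nat_lit 5224173694) (nat_lit 456) (nat_lit 4409317057) (nat_lit 532) (nat_lit 1630803751) (nat_lit 116) (nat_lit 5) (nat_lit 122) (nat_lit 5) (nat_lit 123) (nat_lit 5) (nat_lit 308) (nat_lit 273) (nat_lit 199)) (XT.nd (nat_lit 78) (nat_lit 380) (nat_lit 0) (XT.lf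 (nat_lit 0) (nat_lit 254589833) (nat_lit 532) (nat_lit 386857437) (nat_lit 76) (nat_lit 10814818139) (nat_lit 115) (nat_lit 5) (nat_lit 122) (nat_lit 5) (nat_lit 116) (nat_lit 5) (nat_lit 309) (nat_lit 273) (nat_lit 198)) (XT.lf (nat_lit 0) (nat_lit 2222512408) (nat_lit 456) (nat_lit 6186632355) (nat_lit 76) (nat_lit 3242643059) (nat_lit 110) (nat_lit 5) (nat_lit 116) (nat_lit 5) (nat_lit 111) (nat_lit 5) (nat_lit 310) (nat_lit 273) (nat_lit 197))))) (XT.nd (nat_lit 234) (nat_lit 836) (nat_lit 0) (XT.nd (nat_lit 78) (nat_lit 456) (nat_lit 0) (XT.lf (nat_lit 0) (nat_lit 4234315646) (nat_lit 456) (nat_lit 388510568) (nat_lit 76) (nat_lit 7230842382) (nat_lit 110) (nat_lit 5) (nat_lit 116) (nat_lit 5) (nat_lit 111) (nat_lit 5) (nat_lit 311) (nat_lit 273) (nat_lit 196)) (XT.nd (nat_lit 78) (nat_lit 0) (nat_lit 0) (XT.lf (nat_lit 0) (nat_lit 5665248772) (nat_lit 456) (nat_lit 670970240) (nat_lit 532)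 (nat_lit 5724531272) (nat_lit 104) (nat_lit 5) (nat_lit 110) (nat_lit 5) (nat_lit 111) (nat_lit 5) (nat_lit 312) (nat_lit 273) (nat_lit 195)) (XT.lf (nat_lit 0) (nat_lit 8513510938) (nat_lit 532) (nat_lit 427353120) (nat_lit 76) (nat_lit 3332846218) (nat_lit 104) (nat_lit 5) (nat_lit 111) (nat_lit 5) (nat_lit 105) (nat_lit 5) (nat_lit 313) (nat_lit 273) (nat_lit 194)))) (XT.nd (nat_lit 78) (nat_lit 456) (nat_lit 0) (XT.lf (nat_lit 0) (nat_lit 5797892453) (nat_lit 380) (nat_lit 4997005237) (nat_lit 456) (nat_lit 1697032850) (nat_lit 99) (nat_lit 5) (nat_lit 104) (nat_lit 5) (nat_lit 105) (nat_lit 5) (nat_lit 314) (nat_lit 273) (nat_lit 193)) (XT.nd (nat_lit 78) (nat_lit 380) (nat_lit 0) (XT.lf (nat_lit 0) (nat_lit 400588357) (nat_lit 456) (nat_lit 530731743) (nat_lit 76) (nat_lit 11785859275) (nat_lit 98) (nat_lit 5) (nat_lit 104) (nat_lit 5) (nat_lit 99) (nat_lit 5) (nat_lit 315) (nat_lit 273)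 (nat_lit 192)) (XT.lf (nat_lit 0) (nat_lit 2592842805) (nat_lit 456) (nat_lit 7091943422) (nat_lit 76) (nat_lit 3261952786) (nat_lit 93) (nat_lit 5) (nat_lit 99) (nat_lit 5) (nat_lit 94) (nat_lit 5) (nat_lit 316) (nat_lit 273) (nat_lit 191))))))))
noncomputable def xc145 : XT := (XT.nd (nat_lit 1794) (nat_lit 1748) (nat_lit 0) (XT.nd (nat_lit 858) (nat_lit 1672) (nat_lit 0) (XT.nd (nat_lit 390) (nat_lit 988) (nat_lit 0) (XT.nd (nat_lit 156) (nat_lit 456) (nat_lit 0) (XT.nd (nat_lit 78) (nat_lit 304) (nat_lit 0) (XT.lf (nat_lit 0) (nat_lit 4843083381) (nat_lit 456) (nat_lit 777737095) (nat_lit 76) (nat_lit 7562629288) (nat_lit 93) (nat_lit 5) (nat_lit 99) (nat_lit 5) (nat_lit 94) (nat_lit 5) (nat_lit 317) (nat_lit 273) (nat_lit 190)) (XT.lf (nat_lit 0) (nat_lit 5811921894) (nat_lit 304) (nat_lit 1383014981) (nat_lit 380) (nat_lit 6231331772) (nat_lit 89) (nat_lit 5) (nat_lit 93) (nat_lit 5) (nat_lit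 94) (nat_lit 5) (nat_lit 318) (nat_lit 273) (nat_lit 189))) (XT.nd (nat_lit 78) (nat_lit 456) (nat_lit 0) (XT.lf (nat_lit 0) (nat_lit 9632497516) (nat_lit 380) (nat_lit 1117397118) (nat_lit 76) (nat_lit 2926052022) (nat_lit 89) (nat_lit 5) (nat_lit 94) (nat_lit 5) (nat_lit 90) (nat_lit 5) (nat_lit 319) (nat_lit 273) (nat_lit 188)) (XT.nd (nat_lit 78) (nat_lit 76) (nat_lit 0) (XT.lf (nat_lit 0) (nat_lit 5643977565) (nat_lit 380) (nat_lit 6546334652) (nat_lit 456) (nat_lit 1741417231) (nat_lit 84) (nat_lit 5) (nat_lit 89) (nat_lit 5) (nat_lit 90) (nat_lit 5) (nat_lit 320) (nat_lit 273) (nat_lit 187)) (XT.lf (nat_lit 0) (nat_lit 608084837) (nat_lit 456) (nat_lit 1597011899) (nat_lit 76) (nat_lit 11990213146) (nat_lit 83) (nat_lit 5) (nat_lit 89) (nat_lit 5) (nat_lit 84) (nat_lit 5) (nat_lit 321) (nat_lit 273) (nat_lit 186))))) (XT.nd (nat_lit 234) (nat_lit 380) (nat_lit 0) (XT.nd (nat_lit 78) (nat_lit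 304) (nat_lit 0) (XT.lf (nat_lit 0) (nat_lit 3046861176) (nat_lit 380) (nat_lit 9132369489) (nat_lit 76) (nat_lit 2285461973) (nat_lit 79) (nat_lit 5) (nat_lit 84) (nat_lit 5) (nat_lit 80) (nat_lit 5) (nat_lit 322) (nat_lit 273) (nat_lit 185)) (XT.nd (nat_lit 78) (nat_lit 304) (nat_lit 0) (XT.lf (nat_lit 0) (nat_lit 5577098305) (nat_lit 380) (nat_lit 2287999359) (nat_lit 76) (nat_lit 6876535396) (nat_lit 79) (nat_lit 5) (nat_lit 84) (nat_lit 5) (nat_lit 80) (nat_lit 5) (nat_lit 323) (nat_lit 273) (nat_lit 184)) (XT.lf (nat_lit 0) (nat_lit 4830120553) (nat_lit 304) (nat_lit 3380307893) (nat_lit 380) (nat_lit 6815662047) (nat_lit 75) (nat_lit 5) (nat_lit 79) (nat_lit 5) (nat_lit 80) (nat_lit 5) (nat_lit 324) (nat_lit 273) (nat_lit 183)))) (XT.nd (nat_lit 78) (nat_lit 380) (nat_lit 0) (XT.lf (nat_lit 0) (nat_lit 10939008324) (nat_lit 380) (nat_lit 3147950447) (nat_lit 76) (nat_lit 1231659051) (nat_lit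 75) (nat_lit 5) (nat_lit 80) (nat_lit 5) (nat_lit 76) (nat_lit 5) (nat_lit 325) (nat_lit 273) (nat_lit 182)) (XT.nd (nat_lit 78) (nat_lit 76) (nat_lit 0) (XT.lf (nat_lit 0) (nat_lit 4133349514) (nat_lit 304) (nat_lit 9670856466) (nat_lit 380) (nat_lit 1814095156) (nat_lit 71) (nat_lit 5) (nat_lit 75) (nat_lit 5) (nat_lit 76) (nat_lit 5) (nat_lit 326) (nat_lit 273) (nat_lit 181)) (XT.lf (nat_lit 0) (nat_lit 825976715) (nat_lit 380) (nat_lit 4262167132) (nat_lit 76) (nat_lit 10838201166) (nat_lit 70) (nat_lit 5) (nat_lit 75) (nat_lit 5) (nat_lit 71) (nat_lit 5) (nat_lit 327) (nat_lit 273) (nat_lit 180)))))) (XT.nd (nat_lit 468) (nat_lit 760) (nat_lit 0) (XT.nd (nat_lit 234) (nat_lit 380) (nat_lit 0) (XT.nd (nat_lit 78) (nat_lit 228) (nat_lit 0) (XT.lf (nat_lit 0) (nat_lit 3196979949) (nat_lit 304) (nat_lit 324728959) (nat_lit 380) (nat_lit 12721015895) (nat_lit 66) (nat_lit 5) (nat_lit 70) (nat_lit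 5) (nat_lit 71) (nat_lit 5) (nat_lit 328) (nat_lit 273) (nat_lit 179)) (XT.nd (nat_lit 78) (nat_lit 228) (nat_lit 0) (XT.lf (nat_lit 0) (nat_lit 6368224349) (nat_lit 380) (nat_lit 5669481119) (nat_lit 76) (nat_lit 4528813595) (nat_lit 66) (nat_lit 5) (nat_lit 71) (nat_lit 5) (nat_lit 67) (nat_lit 5) (nat_lit 329) (nat_lit 273) (nat_lit 178)) (XT.lf (nat_lit 0) (nat_lit 1938427852) (nat_lit 228) (nat_lit 7366472966) (nat_lit 304) (nat_lit 7595003187) (nat_lit 63) (nat_lit 5) (nat_lit 66) (nat_lit 5) (nat_lit 67) (nat_lit 5) (nat_lit 330) (nat_lit 273) (nat_lit 177)))) (XT.nd (nat_lit 78) (nat_lit 380) (nat_lit 0) (XT.lf (nat_lit 0) (nat_lit 9866777426) (nat_lit 228) (nat_lit 2503334580) (nat_lit 304) (nat_lit 4871984698) (nat_lit 63) (nat_lit 5) (nat_lit 66) (nat_lit 5) (nat_lit 67) (nat_lit 5) (nat_lit 331) (nat_lit 273) (nat_lit 176)) (XT.nd (nat_lit 78) (nat_lit 76) (nat_lit 0) (XT.lf (nat_lit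 0) (nat_lit 398352006) (nat_lit 304) (nat_lit 15140449417) (nat_lit 380) (nat_lit 2055426787) (nat_lit 59) (nat_lit 5) (nat_lit 63) (nat_lit 5) (nat_lit 64) (nat_lit 5) (nat_lit 332) (nat_lit 273) (nat_lit 175)) (XT.lf (nat_lit 0) (nat_lit 912805889) (nat_lit 380) (nat_lit 9455787473) (nat_lit 76) (nat_lit 7585593670) (nat_lit 58) (nat_lit 5) (nat_lit 63) (nat_lit 5) (nat_lit 59) (nat_lit 5) (nat_lit 333) (nat_lit 273) (nat_lit 174))))) (XT.nd (nat_lit 234) (nat_lit 532) (nat_lit 0) (XT.nd (nat_lit 78) (nat_lit 228) (nat_lit 0) (XT.lf (nat_lit 0) (nat_lit 3912928971) (nat_lit 380) (nat_lit 1527018462) (nat_lit 76) (nat_lit 12884879096) (nat_lit 58) (nat_lit 5) (nat_lit 63) (nat_lit 5) (nat_lit 59) (nat_lit 5) (nat_lit 334) (nat_lit 273) (nat_lit 173)) (XT.nd (nat_lit 78) (nat_lit 0) (nat_lit 0) (XT.lf (nat_lit 0) (nat_lit 6748810499) (nat_lit 228) (nat_lit 303735901) (nat_lit 304) (nat_lit 11652570691)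 (nat_lit 55) (nat_lit 5) (nat_lit 58) (nat_lit 5) (nat_lit 59) (nat_lit 5) (nat_lit 335) (nat_lit 273) (nat_lit 172)) (XT.lf (nat_lit 0) (nat_lit 10334641169) (nat_lit 304) (nat_lit 3862901863) (nat_lit 76) (nat_lit 4897840790) (nat_lit 55) (nat_lit 5) (nat_lit 59) (nat_lit 5) (nat_lit 56) (nat_lit 5) (nat_lit 336) (nat_lit 273) (nat_lit 171)))) (XT.nd (nat_lit 78) (nat_lit 304) (nat_lit 0) (XT.lf (nat_lit 0) (nat_lit 4536809503) (nat_lit 228) (nat_lit 9210232750) (nat_lit 304) (nat_lit 5749376642) (nat_lit 52) (nat_lit 5) (nat_lit 55) (nat_lit 5) (nat_lit 56) (nat_lit 5) (nat_lit 337) (nat_lit 273) (nat_lit 170)) (XT.nd (nat_lit 78) (nat_lit 304) (nat_lit 0) (XT.lf (nat_lit 0) (nat_lit 13245896059) (nat_lit 228) (nat_lit 4040373395) (nat_lit 304) (nat_lit 2622497134) (nat_lit 52) (nat_lit 5) (nat_lit 55) (nat_lit 5) (nat_lit 56) (nat_lit 5) (nat_lit 338) (nat_lit 273) (nat_lit 169)) (XT.lf (nat_lit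 0) (nat_lit 602939740) (nat_lit 304) (nat_lit 18453241429) (nat_lit 76) (nat_lit 1276652645) (nat_lit 48) (nat_lit 5) (nat_lit 52) (nat_lit 5) (nat_lit 49) (nat_lit 5) (nat_lit 339) (nat_lit 273) (nat_lit 168))))))) (XT.nd (nat_lit 936) (nat_lit 912) (nat_lit 0) (XT.nd (nat_lit 468) (nat_lit 456) (nat_lit 0) (XT.nd (nat_lit 234) (nat_lit 152) (nat_lit 0) (XT.nd (nat_lit 78) (nat_lit 228) (nat_lit 0) (XT.lf (nat_lit 0) (nat_lit 3966240473) (nat_lit 304) (nat_lit 10040950301) (nat_lit 76) (nat_lit 6758852913) (nat_lit 48) (nat_lit 5) (nat_lit 52) (nat_lit 5) (nat_lit 49) (nat_lit 5) (nat_lit 340) (nat_lit 273) (nat_lit 167)) (XT.nd (nat_lit 78) (nat_lit 228) (nat_lit 0) (XT.lf (nat_lit 0) (nat_lit 7416710680) (nat_lit 304) (nat_lit 1397282702) (nat_lit 76) (nat_lit 12398681856) (nat_lit 48) (nat_lit 5) (nat_lit 52) (nat_lit 5) (nat_lit 49) (nat_lit 5) (nat_lit 341) (nat_lit 273) (nat_lit 166)) (XT.lf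 (nat_lit 0) (nat_lit 7634286512) (nat_lit 228) (nat_lit 3396464255) (nat_lit 304) (nat_lit 10640166401) (nat_lit 45) (nat_lit 5) (nat_lit 48) (nat_lit 5) (nat_lit 49) (nat_lit 5) (nat_lit 342) (nat_lit 273) (nat_lit 165)))) (XT.nd (nat_lit 78) (nat_lit 152) (nat_lit 0) (XT.lf (nat_lit 0) (nat_lit 14775248449) (nat_lit 304) (nat_lit 5218687127) (nat_lit 76) (nat_lit 2148322409) (nat_lit 45) (nat_lit 5) (nat_lit 49) (nat_lit 5) (nat_lit 46) (nat_lit 5) (nat_lit 343) (nat_lit 273) (nat_lit 164)) (XT.nd (nat_lit 78) (nat_lit 0) (nat_lit 0) (XT.lf (nat_lit 0) (nat_lit 3886075261) (nat_lit 152) (nat_lit 14804170913) (nat_lit 228) (nat_lit 3935760250) (nat_lit 43) (nat_lit 5) (nat_lit 45) (nat_lit 5) (nat_lit 46) (nat_lit 5) (nat_lit 344) (nat_lit 273) (nat_lit 163)) (XT.lf (nat_lit 0) (nat_lit 13351231399) (nat_lit 152) (nat_lit 9411526090) (nat_lit 228) (nat_lit 360319910) (nat_lit 43) (nat_lit 5)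 (nat_lit 45) (nat_lit 5) (nat_lit 46) (nat_lit 5) (nat_lit 345) (nat_lit 273) (nat_lit 162))))) (XT.nd (nat_lit 234) (nat_lit 152) (nat_lit 0) (XT.nd (nat_lit 78) (nat_lit 228) (nat_lit 0) (XT.lf (nat_lit 0) (nat_lit 3245152254) (nat_lit 228) (nat_lit 586065667) (nat_lit 76) (nat_lit 19803267773) (nat_lit 42) (nat_lit 5) (nat_lit 45) (nat_lit 5) (nat_lit 43) (nat_lit 5) (nat_lit 346) (nat_lit 273) (nat_lit 161)) (XT.nd (nat_lit 78) (nat_lit 0) (nat_lit 0) (XT.lf (nat_lit 0) (nat_lit 7045552642) (nat_lit 304) (nat_lit 15149084463) (nat_lit 76) (nat_lit 1963682897) (nat_lit 39) (nat_lit 5) (nat_lit 43) (nat_lit 5) (nat_lit 40) (nat_lit 5) (nat_lit 347) (nat_lit 273) (nat_lit 160)) (XT.lf (nat_lit 0) (nat_lit 10991942006) (nat_lit 304) (nat_lit 5850235547) (nat_lit 76) (nat_lit 7854743132) (nat_lit 39) (nat_lit 5) (nat_lit 43) (nat_lit 5) (nat_lit 40) (nat_lit 5) (nat_lit 348) (nat_lit 273) (nat_lit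 159)))) (XT.nd (nat_lit 78) (nat_lit 0) (nat_lit 0) (XT.lf (nat_lit 0) (nat_lit 3782989006) (nat_lit 152) (nat_lit 11298513404) (nat_lit 228) (nat_lit 10169443941) (nat_lit 37) (nat_lit 5) (nat_lit 39) (nat_lit 5) (nat_lit 40) (nat_lit 5) (nat_lit 349) (nat_lit 273) (nat_lit 158)) (XT.nd (nat_lit 78) (nat_lit 0) (nat_lit 0) (XT.lf (nat_lit 0) (nat_lit 13806905304) (nat_lit 152) (nat_lit 5534497385) (nat_lit 228) (nat_lit 6478770548) (nat_lit 37) (nat_lit 5) (nat_lit 39) (nat_lit 5) (nat_lit 40) (nat_lit 5) (nat_lit 350) (nat_lit 273) (nat_lit 157)) (XT.lf (nat_lit 0) (nat_lit 23721814809) (nat_lit 228) (nat_lit 2296783407) (nat_lit 76) (nat_lit 388107021) (nat_lit 37) (nat_lit 5) (nat_lit 40) (nat_lit 5) (nat_lit 38) (nat_lit 5) (nat_lit 351) (nat_lit 273) (nat_lit 156)))))) (XT.nd (nat_lit 468) (nat_lit 380) (nat_lit 0) (XT.nd (nat_lit 234) (nat_lit 152) (nat_lit 0) (XT.nd (nat_lit 78) (nat_lit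 152) (nat_lit 0) (XT.lf (nat_lit 0) (nat_lit 1318972116) (nat_lit 228) (nat_lit 19229232801) (nat_lit 76) (nat_lit 6458684018) (nat_lit 34) (nat_lit 5) (nat_lit 37) (nat_lit 5) (nat_lit 35) (nat_lit 5) (nat_lit 352) (nat_lit 273) (nat_lit 155)) (XT.nd (nat_lit 78) (nat_lit 152) (nat_lit 0) (XT.lf (nat_lit 0) (nat_lit 5401615269) (nat_lit 228) (nat_lit 9467290498) (nat_lit 76) (nat_lit 12755004956) (nat_lit 34) (nat_lit 5) (nat_lit 37) (nat_lit 5) (nat_lit 35) (nat_lit 5) (nat_lit 353) (nat_lit 273) (nat_lit 154)) (XT.lf (nat_lit 0) (nat_lit 581868195) (nat_lit 152) (nat_lit 9019982917) (nat_lit 228) (nat_lit 18657747313) (nat_lit 32) (nat_lit 5) (nat_lit 34) (nat_lit 5) (nat_lit 35) (nat_lit 5) (nat_lit 354) (nat_lit 273) (nat_lit 153)))) (XT.nd (nat_lit 78) (nat_lit 152) (nat_lit 0) (XT.lf (nat_lit 0) (nat_lit 11109742230) (nat_lit 152) (nat_lit 2903616458) (nat_lit 228) (nat_lit 14898448542)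 (nat_lit 32) (nat_lit 5) (nat_lit 34) (nat_lit 5) (nat_lit 35) (nat_lit 5) (nat_lit 355) (nat_lit 273) (nat_lit 152)) (XT.nd (nat_lit 78) (nat_lit 152) (nat_lit 0) (XT.lf (nat_lit 0) (nat_lit 18579762287) (nat_lit 228) (nat_lit 7679364597) (nat_lit 76) (nat_lit 3323787057) (nat_lit 32) (nat_lit 5) (nat_lit 35) (nat_lit 5) (nat_lit 33) (nat_lit 5) (nat_lit 356) (nat_lit 273) (nat_lit 151)) (XT.lf (nat_lit 0) (nat_lit 2755941595) (nat_lit 152) (nat_lit 20572654977) (nat_lit 228) (nat_lit 6944202052) (nat_lit 30) (nat_lit 5) (nat_lit 32) (nat_lit 5) (nat_lit 33) (nat_lit 5) (nat_lit 357) (nat_lit 273) (nat_lit 150))))) (XT.nd (nat_lit 234) (nat_lit 152) (nat_lit 0) (XT.nd (nat_lit 78) (nat_lit 228) (nat_lit 0) (XT.lf (nat_lit 0) (nat_lit 13645779419) (nat_lit 152) (nat_lit 14641993297) (nat_lit 228) (nat_lit 2693578524) (nat_lit 30) (nat_lit 5) (nat_lit 32) (nat_lit 5) (nat_lit 33) (nat_lit 5) (nat_lit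 358) (nat_lit 273) (nat_lit 149)) (XT.nd (nat_lit 78) (nat_lit 152) (nat_lit 0) (XT.lf (nat_lit 0) (nat_lit 1642203473) (nat_lit 228) (nat_lit 6880719728) (nat_lit 76) (nat_lit 23188043345) (nat_lit 29) (nat_lit 5) (nat_lit 32) (nat_lit 5) (nat_lit 30) (nat_lit 5) (nat_lit 359) (nat_lit 273) (nat_lit 148)) (XT.lf (nat_lit 0) (nat_lit 3922427564) (nat_lit 152) (nat_lit 2159985906) (nat_lit 228) (nat_lit 26378409030) (nat_lit 27) (nat_lit 5) (nat_lit 29) (nat_lit 5) (nat_lit 30) (nat_lit 5) (nat_lit 360) (nat_lit 273) (nat_lit 147)))) (XT.nd (nat_lit 78) (nat_lit 152) (nat_lit 0) (XT.lf (nat_lit 0) (nat_lit 10759089682) (nat_lit 228) (nat_lit 18098591299) (nat_lit 76) (nat_lit 4372402190) (nat_lit 27) (nat_lit 5) (nat_lit 30) (nat_lit 5) (nat_lit 28) (nat_lit 5) (nat_lit 361) (nat_lit 273) (nat_lit 146)) (XT.nd (nat_lit 78) (nat_lit 152) (nat_lit 0) (XT.lf (nat_lit 0) (nat_lit 15588572496) (nat_lit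 228) (nat_lit 7381828770) (nat_lit 76) (nat_lit 11051651848) (nat_lit 27) (nat_lit 5) (nat_lit 30) (nat_lit 5) (nat_lit 28) (nat_lit 5) (nat_lit 362) (nat_lit 273) (nat_lit 145)) (XT.lf (nat_lit 0) (nat_lit 3714503255) (nat_lit 152) (nat_lit 16875521565) (nat_lit 228) (nat_lit 14246951231) (nat_lit 25) (nat_lit 5) (nat_lit 27) (nat_lit 5) (nat_lit 28) (nat_lit 5) (nat_lit 363) (nat_lit 273) (nat_lit 144))))))))
noncomputable def xc146 : XT := (XT.nd (nat_lit 1794) (nat_lit 152) (nat_lit 0) (XT.nd (nat_lit 858) (nat_lit 532) (nat_lit 0) (XT.nd (nat_lit 390) (nat_lit 228) (nat_lit 0) (XT.nd (nat_lit 156) (nat_lit 152) (nat_lit 0) (XT.nd (nat_lit 78) (nat_lit 0) (nat_lit 0) (XT.lf (nat_lit 0) (nat_lit 15280770119) (nat_lit 152) (nat_lit 10526785414) (nat_lit 228) (nat_lit 9866816356) (nat_lit 25) (nat_lit 5) (nat_lit 27) (nat_lit 5) (nat_lit 28) (nat_lit 5) (nat_lit 364) (nat_lit 273) (nat_lit 143))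 (XT.lf (nat_lit 0) (nat_lit 27180165401) (nat_lit 152) (nat_lit 3993187371) (nat_lit 228) (nat_lit 5363790688) (nat_lit 25) (nat_lit 5) (nat_lit 27) (nat_lit 5) (nat_lit 28) (nat_lit 5) (nat_lit 365) (nat_lit 273) (nat_lit 142))) (XT.nd (nat_lit 78) (nat_lit 76) (nat_lit 0) (XT.lf (nat_lit 0) (nat_lit 2010012708) (nat_lit 76) (nat_lit 34727665728) (nat_lit 152) (nat_lit 686999008) (nat_lit 24) (nat_lit 5) (nat_lit 25) (nat_lit 5) (nat_lit 26) (nat_lit 4) (nat_lit 366) (nat_lit 273) (nat_lit 141)) (XT.nd (nat_lit 78) (nat_lit 0) (nat_lit 0) (XT.lf (nat_lit 0) (nat_lit 4176412094) (nat_lit 152) (nat_lit 24520035858) (nat_lit 76) (nat_lit 9637396762) (nat_lit 23) (nat_lit 5) (nat_lit 25) (nat_lit 5) (nat_lit 24) (nat_lit 5) (nat_lit 367) (nat_lit 273) (nat_lit 140)) (XT.lf (nat_lit 0) (nat_lit 9164101581) (nat_lit 152) (nat_lit 13318653642) (nat_lit 76) (nat_lit 16787567596) (nat_lit 23) (nat_lit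 5) (nat_lit 25) (nat_lit 5) (nat_lit 24) (nat_lit 5) (nat_lit 368) (nat_lit 273) (nat_lit 139))))) (XT.nd (nat_lit 234) (nat_lit 76) (nat_lit 0) (XT.nd (nat_lit 78) (nat_lit 152) (nat_lit 0) (XT.lf (nat_lit 0) (nat_lit 14293833453) (nat_lit 152) (nat_lit 1794126619) (nat_lit 76) (nat_lit 24147168087) (nat_lit 23) (nat_lit 5) (nat_lit 25) (nat_lit 5) (nat_lit 24) (nat_lit 5) (nat_lit 369) (nat_lit 273) (nat_lit 138)) (XT.nd (nat_lit 78) (nat_lit 0) (nat_lit 0) (XT.lf (nat_lit 0) (nat_lit 10263900861) (nat_lit 152) (nat_lit 9404852032) (nat_lit 228) (nat_lit 21557390986) (nat_lit 21) (nat_lit 5) (nat_lit 23) (nat_lit 5) (nat_lit 24) (nat_lit 5) (nat_lit 370) (nat_lit 273) (nat_lit 137)) (XT.lf (nat_lit 0) (nat_lit 22708048730) (nat_lit 152) (nat_lit 2507716467) (nat_lit 228) (nat_lit 17030804455) (nat_lit 21) (nat_lit 5) (nat_lit 23) (nat_lit 5) (nat_lit 24) (nat_lit 5) (nat_lit 371) (nat_lit 273)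 (nat_lit 136)))) (XT.nd (nat_lit 78) (nat_lit 76) (nat_lit 0) (XT.lf (nat_lit 0) (nat_lit 30966262716) (nat_lit 228) (nat_lit 7828475844) (nat_lit 76) (nat_lit 4501762190) (nat_lit 21) (nat_lit 5) (nat_lit 24) (nat_lit 5) (nat_lit 22) (nat_lit 4) (nat_lit 372) (nat_lit 273) (nat_lit 135)) (XT.nd (nat_lit 78) (nat_lit 0) (nat_lit 0) (XT.lf (nat_lit 0) (nat_lit 4279703743) (nat_lit 76) (nat_lit 32668638529) (nat_lit 152) (nat_lit 7427820151) (nat_lit 20) (nat_lit 5) (nat_lit 21) (nat_lit 5) (nat_lit 22) (nat_lit 4) (nat_lit 373) (nat_lit 273) (nat_lit 134)) (XT.lf (nat_lit 0) (nat_lit 16899870577) (nat_lit 76) (nat_lit 26282253202) (nat_lit 152) (nat_lit 2303927503) (nat_lit 20) (nat_lit 5) (nat_lit 21) (nat_lit 5) (nat_lit 22) (nat_lit 4) (nat_lit 374) (nat_lit 273) (nat_lit 133)))))) (XT.nd (nat_lit 468) (nat_lit 304) (nat_lit 0) (XT.nd (nat_lit 234) (nat_lit 0) (nat_lit 0) (XT.nd (nat_lit 78)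 (nat_lit 152) (nat_lit 0) (XT.lf (nat_lit 0) (nat_lit 2908970621) (nat_lit 152) (nat_lit 16770708976) (nat_lit 76) (nat_lit 26948904446) (nat_lit 19) (nat_lit 5) (nat_lit 21) (nat_lit 5) (nat_lit 20) (nat_lit 5) (nat_lit 375) (nat_lit 273) (nat_lit 132)) (XT.nd (nat_lit 78) (nat_lit 152) (nat_lit 0) (XT.lf (nat_lit 0) (nat_lit 8225459653) (nat_lit 152) (nat_lit 4634778177) (nat_lit 76) (nat_lit 34944669443) (nat_lit 19) (nat_lit 5) (nat_lit 21) (nat_lit 5) (nat_lit 20) (nat_lit 5) (nat_lit 376) (nat_lit 273) (nat_lit 131)) (XT.lf (nat_lit 0) (nat_lit 8010679882) (nat_lit 152) (nat_lit 5761466663) (nat_lit 228) (nat_lit 35242256574) (nat_lit 17) (nat_lit 5) (nat_lit 19) (nat_lit 5) (nat_lit 20) (nat_lit 5) (nat_lit 377) (nat_lit 273) (nat_lit 130)))) (XT.nd (nat_lit 78) (nat_lit 0) (nat_lit 0) (XT.lf (nat_lit 0) (nat_lit 19541137772) (nat_lit 228) (nat_lit 29154543385) (nat_lit 76) (nat_lit 1562829473)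 (nat_lit 17) (nat_lit 5) (nat_lit 20) (nat_lit 5) (nat_lit 18) (nat_lit 4) (nat_lit 378) (nat_lit 273) (nat_lit 129)) (XT.nd (nat_lit 78) (nat_lit 0) (nat_lit 0) (XT.lf (nat_lit 0) (nat_lit 25534161449) (nat_lit 228) (nat_lit 17017522839) (nat_lit 76) (nat_lit 8986731983) (nat_lit 17) (nat_lit 5) (nat_lit 20) (nat_lit 5) (nat_lit 18) (nat_lit 4) (nat_lit 379) (nat_lit 273) (nat_lit 128)) (XT.lf (nat_lit 0) (nat_lit 31701071458) (nat_lit 228) (nat_lit 4526673693) (nat_lit 76) (nat_lit 16629154737) (nat_lit 17) (nat_lit 5) (nat_lit 20) (nat_lit 5) (nat_lit 18) (nat_lit 4) (nat_lit 380) (nat_lit 273) (nat_lit 127))))) (XT.nd (nat_lit 234) (nat_lit 228) (nat_lit 0) (XT.nd (nat_lit 78) (nat_lit 0) (nat_lit 0) (XT.lf (nat_lit 0) (nat_lit 8494680193) (nat_lit 76) (nat_lit 29634232231) (nat_lit 152) (nat_lit 16083751448) (nat_lit 16) (nat_lit 5) (nat_lit 17) (nat_lit 5) (nat_lit 18) (nat_lit 4) (nat_lit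 381) (nat_lit 273) (nat_lit 126)) (XT.nd (nat_lit 78) (nat_lit 0) (nat_lit 0) (XT.lf (nat_lit 0) (nat_lit 21989582397) (nat_lit 76) (nat_lit 22800056291) (nat_lit 152) (nat_lit 10818264052) (nat_lit 16) (nat_lit 5) (nat_lit 17) (nat_lit 5) (nat_lit 18) (nat_lit 4) (nat_lit 382) (nat_lit 273) (nat_lit 125)) (XT.lf (nat_lit 0) (nat_lit 35879734897) (nat_lit 76) (nat_lit 15764956250) (nat_lit 152) (nat_lit 5400475859) (nat_lit 16) (nat_lit 5) (nat_lit 17) (nat_lit 5) (nat_lit 18) (nat_lit 4) (nat_lit 383) (nat_lit 273) (nat_lit 124)))) (XT.nd (nat_lit 78) (nat_lit 152) (nat_lit 0) (XT.lf (nat_lit 0) (nat_lit 170944981) (nat_lit 152) (nat_lit 8350113743) (nat_lit 76) (nat_lit 50004603530) (nat_lit 15) (nat_lit 5) (nat_lit 17) (nat_lit 5) (nat_lit 16) (nat_lit 5) (nat_lit 384) (nat_lit 273) (nat_lit 123)) (XT.nd (nat_lit 78) (nat_lit 0) (nat_lit 0) (XT.lf (nat_lit 0) (nat_lit 4882312486) (nat_lit 152)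 (nat_lit 960348996) (nat_lit 228) (nat_lit 54205058936) (nat_lit 13) (nat_lit 5) (nat_lit 15) (nat_lit 5) (nat_lit 16) (nat_lit 5) (nat_lit 385) (nat_lit 273) (nat_lit 122)) (XT.lf (nat_lit 0) (nat_lit 11830104540) (nat_lit 228) (nat_lit 43005676012) (nat_lit 76) (nat_lit 6775295513) (nat_lit 13) (nat_lit 5) (nat_lit 16) (nat_lit 5) (nat_lit 14) (nat_lit 4) (nat_lit 386) (nat_lit 273) (nat_lit 121))))))) (XT.nd (nat_lit 32058) (nat_lit 0) (nat_lit 15276) (XT.nd (nat_lit 468) (nat_lit 76) (nat_lit 0) (XT.nd (nat_lit 234) (nat_lit 76) (nat_lit 0) (XT.nd (nat_lit 78) (nat_lit 0) (nat_lit 0) (XT.lf (nat_lit 0) (nat_lit 18001624328) (nat_lit 228) (nat_lit 30499577069) (nat_lit 76) (nat_lit 14720000282) (nat_lit 13) (nat_lit 5) (nat_lit 16) (nat_lit 5) (nat_lit 14) (nat_lit 4) (nat_lit 387) (nat_lit 273) (nat_lit 120)) (XT.nd (nat_lit 78) (nat_lit 0) (nat_lit 0) (XT.lf (nat_lit 0) (nat_lit 24353381977)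 (nat_lit 228) (nat_lit 17626951983) (nat_lit 76) (nat_lit 22899447152) (nat_lit 13) (nat_lit 5) (nat_lit 16) (nat_lit 5) (nat_lit 14) (nat_lit 4) (nat_lit 388) (nat_lit 273) (nat_lit 119)) (XT.lf (nat_lit 0) (nat_lit 30890927564) (nat_lit 228) (nat_lit 4376552830) (nat_lit 76) (nat_lit 31320783213) (nat_lit 13) (nat_lit 5) (nat_lit 16) (nat_lit 5) (nat_lit 14) (nat_lit 4) (nat_lit 389) (nat_lit 273) (nat_lit 118)))) (XT.nd (nat_lit 78) (nat_lit 0) (nat_lit 0) (XT.lf (nat_lit 0) (nat_lit 9447554221) (nat_lit 76) (nat_lit 28263234958) (nat_lit 152) (nat_lit 30634628363) (nat_lit 12) (nat_lit 5) (nat_lit 13) (nat_lit 5) (nat_lit 14) (nat_lit 4) (nat_lit 390) (nat_lit 273) (nat_lit 117)) (XT.nd (nat_lit 78) (nat_lit 0) (nat_lit 0) (XT.lf (nat_lit 0) (nat_lit 23768019637) (nat_lit 76) (nat_lit 21006852667) (nat_lit 152) (nat_lit 25379227600) (nat_lit 12) (nat_lit 5) (nat_lit 13) (nat_lit 5) (nat_lit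 14) (nat_lit 4) (nat_lit 391) (nat_lit 273) (nat_lit 116)) (XT.lf (nat_lit 0) (nat_lit 38510254463) (nat_lit 76) (nat_lit 13536187595) (nat_lit 152) (nat_lit 19970736258) (nat_lit 12) (nat_lit 5) (nat_lit 13) (nat_lit 5) (nat_lit 14) (nat_lit 4) (nat_lit 392) (nat_lit 273) (nat_lit 115))))) (XT.nd (nat_lit 31356) (nat_lit 0) (nat_lit 16796) (XT.nd (nat_lit 78) (nat_lit 76) (nat_lit 0) (XT.lf (nat_lit 0) (nat_lit 53687140264) (nat_lit 76) (nat_lit 5844711976) (nat_lit 152) (nat_lit 14404428471) (nat_lit 12) (nat_lit 5) (nat_lit 13) (nat_lit 5) (nat_lit 14) (nat_lit 4) (nat_lit 393) (nat_lit 273) (nat_lit 114)) (XT.nd (nat_lit 78) (nat_lit 76) (nat_lit 0) (XT.lf (nat_lit 0) (nat_lit 67257582891) (nat_lit 152) (nat_lit 6621084970) (nat_lit 0) (nat_lit 2033817931) (nat_lit 12) (nat_lit 5) (nat_lit 14) (nat_lit 4) (nat_lit 12) (nat_lit 4) (nat_lit 394) (nat_lit 273) (nat_lit 113)) (XT.lf (nat_lit 0)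 (nat_lit 7496963531) (nat_lit 76) (nat_lit 67843966334) (nat_lit 76) (nat_lit 2603274119) (nat_lit 11) (nat_lit 4) (nat_lit 12) (nat_lit 5) (nat_lit 12) (nat_lit 4) (nat_lit 395) (nat_lit 273) (nat_lit 112)))) (XT.nd (nat_lit 78) (nat_lit 836) (nat_lit 0) (XT.lf (nat_lit 0) (nat_lit 1749042760) (nat_lit 0) (nat_lit 1749042760) (nat_lit 684) (nat_lit 152120771) (nat_lit 243) (nat_lit 5) (nat_lit 243) (nat_lit 3) (nat_lit 252) (nat_lit 3) (nat_lit 274) (nat_lit 274) (nat_lit 232)) (XT.nd (nat_lit 78) (nat_lit 0) (nat_lit 76) (XT.lf (nat_lit 0) (nat_lit 1158139823) (nat_lit 836) (nat_lit 560635797) (nat_lit 836) (nat_lit 5644230324) (nat_lit 232) (nat_lit 3) (nat_lit 243) (nat_lit 3) (nat_lit 243) (nat_lit 5) (nat_lit 275) (nat_lit 274) (nat_lit 231)) (XT.lf (nat_lit 0) (nat_lit 2629838960) (nat_lit 760) (nat_lit 4629552944) (nat_lit 836) (nat_lit 168971876) (nat_lit 233) (nat_lit 5) (nat_lit 243)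 (nat_lit 5) (nat_lit 244) (nat_lit 5) (nat_lit 276) (nat_lit 274) (nat_lit 230)))))) (XT.nd (nat_lit 468) (nat_lit 836) (nat_lit 0) (XT.nd (nat_lit 234) (nat_lit 760) (nat_lit 0) (XT.nd (nat_lit 78) (nat_lit 0) (nat_lit 0) (XT.lf (nat_lit 0) (nat_lit 4113043730) (nat_lit 760) (nat_lit 1273233329) (nat_lit 836) (nat_lit 2110504930) (nat_lit 233) (nat_lit 5) (nat_lit 243) (nat_lit 5) (nat_lit 244) (nat_lit 5) (nat_lit 277) (nat_lit 274) (nat_lit 229)) (XT.nd (nat_lit 78) (nat_lit 0) (nat_lit 0) (XT.lf (nat_lit 76) (nat_lit 2196362451) (nat_lit 0) (nat_lit 3411727694) (nat_lit 836) (nat_lit 1960259008) (nat_lit 234) (nat_lit 5) (nat_lit 233) (nat_lit 5) (nat_lit 244) (nat_lit 5) (nat_lit 278) (nat_lit 274) (nat_lit 228)) (XT.lf (nat_lit 76) (nat_lit 5766170563) (nat_lit 0) (nat_lit 1342185164) (nat_lit 836) (nat_lit 535009942) (nat_lit 234) (nat_lit 5) (nat_lit 233) (nat_lit 5) (nat_lit 244) (nat_lit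 5) (nat_lit 279) (nat_lit 274) (nat_lit 227)))) (XT.nd (nat_lit 78) (nat_lit 0) (nat_lit 0) (XT.lf (nat_lit 0) (nat_lit 887765644) (nat_lit 836) (nat_lit 6012832895) (nat_lit 912) (nat_lit 820682696) (nat_lit 223) (nat_lit 5) (nat_lit 234) (nat_lit 5) (nat_lit 235) (nat_lit 5) (nat_lit 280) (nat_lit 274) (nat_lit 226)) (XT.nd (nat_lit 78) (nat_lit 0) (nat_lit 0) (XT.lf (nat_lit 0) (nat_lit 2324741529) (nat_lit 836) (nat_lit 2411347747) (nat_lit 912) (nat_lit 3065921721) (nat_lit 223) (nat_lit 5) (nat_lit 234) (nat_lit 5) (nat_lit 235) (nat_lit 5) (nat_lit 281) (nat_lit 274) (nat_lit 225)) (XT.lf (nat_lit 76) (nat_lit 1292579459) (nat_lit 0) (nat_lit 2475970905) (nat_lit 912) (nat_lit 4117801309) (nat_lit 224) (nat_lit 5) (nat_lit 223) (nat_lit 5) (nat_lit 235) (nat_lit 5) (nat_lit 282) (nat_lit 274) (nat_lit 224))))) (XT.nd (nat_lit 234) (nat_lit 0) (nat_lit 0) (XT.nd (nat_lit 78) (nat_lit 836)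 (nat_lit 0) (XT.lf (nat_lit 76) (nat_lit 5126531579) (nat_lit 0) (nat_lit 105915457) (nat_lit 912) (nat_lit 2741570120) (nat_lit 224) (nat_lit 5) (nat_lit 223) (nat_lit 5) (nat_lit 235) (nat_lit 5) (nat_lit 283) (nat_lit 274) (nat_lit 223)) (XT.nd (nat_lit 78) (nat_lit 912) (nat_lit 0) (XT.lf (nat_lit 76) (nat_lit 976523417) (nat_lit 0) (nat_lit 5749540461) (nat_lit 912) (nat_lit 1338769576) (nat_lit 225) (nat_lit 5) (nat_lit 224) (nat_lit 5) (nat_lit 236) (nat_lit 5) (nat_lit 284) (nat_lit 274) (nat_lit 222)) (XT.lf (nat_lit 0) (nat_lit 88607469) (nat_lit 912) (nat_lit 3218204547) (nat_lit 988) (nat_lit 4852084224) (nat_lit 212) (nat_lit 5) (nat_lit 224) (nat_lit 5) (nat_lit 225) (nat_lit 5) (nat_lit 285) (nat_lit 274) (nat_lit 221)))) (XT.nd (nat_lit 78) (nat_lit 0) (nat_lit 76) (XT.lf (nat_lit 76) (nat_lit 738120440) (nat_lit 0) (nat_lit 756674444) (nat_lit 988) (nat_lit 6761788352) (nat_lit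 213) (nat_lit 5) (nat_lit 212) (nat_lit 5) (nat_lit 225) (nat_lit 5) (nat_lit 286) (nat_lit 274) (nat_lit 220)) (XT.nd (nat_lit 78) (nat_lit 0) (nat_lit 0) (XT.lf (nat_lit 0) (nat_lit 2950876150) (nat_lit 912) (nat_lit 3527645905) (nat_lit 988) (nat_lit 1878531900) (nat_lit 213) (nat_lit 5) (nat_lit 225) (nat_lit 5) (nat_lit 226) (nat_lit 5) (nat_lit 287) (nat_lit 274) (nat_lit 219)) (XT.lf (nat_lit 76) (nat_lit 554943113) (nat_lit 0) (nat_lit 3866691604) (nat_lit 988) (nat_lit 4039856133) (nat_lit 214) (nat_lit 5) (nat_lit 213) (nat_lit 5) (nat_lit 226) (nat_lit 5) (nat_lit 288) (nat_lit 274) (nat_lit 218))))))))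
noncomputable def xc147 : XT := (XT.nd (nat_lit 1872) (nat_lit 3724) (nat_lit 0) (XT.nd (nat_lit 936) (nat_lit 2964) (nat_lit 0) (XT.nd (nat_lit 468) (nat_lit 2356) (nat_lit 0) (XT.nd (nat_lit 234) (nat_lit 2052) (nat_lit 0) (XT.nd (nat_lit 78) (nat_lit 912) (nat_lit 0) (XT.lf (nat_lit 76) (nat_lit 4801340351) (nat_lit 0) (nat_lit 1129887149) (nat_lit 988) (nat_lit 2638071525) (nat_lit 214) (nat_lit 5) (nat_lit 213) (nat_lit 5) (nat_lit 226) (nat_lit 5) (nat_lit 289) (nat_lit 274) (nat_lit 217)) (XT.nd (nat_lit 78) (nat_lit 76) (nat_lit 0) (XT.lf (nat_lit 0) (nat_lit 456008767) (nat_lit 912) (nat_lit 7011092028) (nat_lit 988) (nat_lit 1213888070) (nat_lit 202) (nat_lit 5) (nat_lit 214) (nat_lit 5) (nat_lit 215) (nat_lit 5) (nat_lit 290) (nat_lit 274) (nat_lit 216)) (XT.lf (nat_lit 0) (nat_lit 258467174) (nat_lit 988) (nat_lit 3956936164) (nat_lit 76) (nat_lit 4580314357) (nat_lit 201) (nat_lit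 5) (nat_lit 214) (nat_lit 5) (nat_lit 202) (nat_lit 5) (nat_lit 291) (nat_lit 274) (nat_lit 215)))) (XT.nd (nat_lit 78) (nat_lit 1064) (nat_lit 0) (XT.lf (nat_lit 0) (nat_lit 403957714) (nat_lit 988) (nat_lit 1312434013) (nat_lit 1064) (nat_lit 7198232852) (nat_lit 188) (nat_lit 5) (nat_lit 201) (nat_lit 5) (nat_lit 202) (nat_lit 5) (nat_lit 292) (nat_lit 274) (nat_lit 214)) (XT.nd (nat_lit 78) (nat_lit 1064) (nat_lit 0) (XT.lf (nat_lit 0) (nat_lit 3237323206) (nat_lit 1064) (nat_lit 4107630552) (nat_lit 76) (nat_lit 1691635430) (nat_lit 188) (nat_lit 5) (nat_lit 202) (nat_lit 5) (nat_lit 189) (nat_lit 5) (nat_lit 293) (nat_lit 274) (nat_lit 213)) (XT.lf (nat_lit 0) (nat_lit 391065243) (nat_lit 1064) (nat_lit 4393444650) (nat_lit 1140) (nat_lit 4378350616) (nat_lit 174) (nat_lit 5) (nat_lit 188) (nat_lit 5) (nat_lit 189) (nat_lit 5) (nat_lit 294) (nat_lit 274) (nat_lit 212))))) (XT.nd (nat_lit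 234) (nat_lit 1140) (nat_lit 0) (XT.nd (nat_lit 78) (nat_lit 1216) (nat_lit 0) (XT.lf (nat_lit 0) (nat_lit 5078160599) (nat_lit 1064) (nat_lit 1306060810) (nat_lit 1140) (nat_lit 2908579939) (nat_lit 174) (nat_lit 5) (nat_lit 188) (nat_lit 5) (nat_lit 189) (nat_lit 5) (nat_lit 295) (nat_lit 274) (nat_lit 211)) (XT.nd (nat_lit 78) (nat_lit 76) (nat_lit 0) (XT.lf (nat_lit 0) (nat_lit 438773322) (nat_lit 1140) (nat_lit 7581085596) (nat_lit 1216) (nat_lit 1407206226) (nat_lit 159) (nat_lit 5) (nat_lit 174) (nat_lit 5) (nat_lit 175) (nat_lit 5) (nat_lit 296) (nat_lit 274) (nat_lit 210)) (XT.lf (nat_lit 0) (nat_lit 158419378) (nat_lit 1216) (nat_lit 4292020292) (nat_lit 76) (nat_lit 5114278392) (nat_lit 158) (nat_lit 5) (nat_lit 174) (nat_lit 5) (nat_lit 159) (nat_lit 5) (nat_lit 297) (nat_lit 274) (nat_lit 209)))) (XT.nd (nat_lit 78) (nat_lit 608) (nat_lit 0) (XT.lf (nat_lit 0) (nat_lit 510651681)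 (nat_lit 532) (nat_lit 1203992032) (nat_lit 608) (nat_lit 7992338915) (nat_lit 151) (nat_lit 5) (nat_lit 158) (nat_lit 5) (nat_lit 159) (nat_lit 5) (nat_lit 298) (nat_lit 274) (nat_lit 208)) (XT.nd (nat_lit 78) (nat_lit 608) (nat_lit 0) (XT.lf (nat_lit 0) (nat_lit 3349589902) (nat_lit 608) (nat_lit 4359093688) (nat_lit 76) (nat_lit 2143926260) (nat_lit 151) (nat_lit 5) (nat_lit 159) (nat_lit 5) (nat_lit 152) (nat_lit 5) (nat_lit 299) (nat_lit 274) (nat_lit 207)) (XT.lf (nat_lit 0) (nat_lit 592547220) (nat_lit 608) (nat_lit 4427290279) (nat_lit 684) (nat_lit 4983234945) (nat_lit 143) (nat_lit 5) (nat_lit 151) (nat_lit 5) (nat_lit 152) (nat_lit 5) (nat_lit 300) (nat_lit 274) (nat_lit 206)))))) (XT.nd (nat_lit 468) (nat_lit 1368) (nat_lit 0) (XT.nd (nat_lit 234) (nat_lit 1064) (nat_lit 0) (XT.nd (nat_lit 78) (nat_lit 532) (nat_lit 0) (XT.lf (nat_lit 0) (nat_lit 5752036620) (nat_lit 608) (nat_lit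 1001435157) (nat_lit 684) (nat_lit 3404231331) (nat_lit 143) (nat_lit 5) (nat_lit 151) (nat_lit 5) (nat_lit 152) (nat_lit 5) (nat_lit 301) (nat_lit 274) (nat_lit 205)) (XT.nd (nat_lit 78) (nat_lit 0) (nat_lit 0) (XT.lf (nat_lit 0) (nat_lit 708740010) (nat_lit 532) (nat_lit 7831643488) (nat_lit 608) (nat_lit 1776602179) (nat_lit 136) (nat_lit 5) (nat_lit 143) (nat_lit 5) (nat_lit 144) (nat_lit 5) (nat_lit 302) (nat_lit 274) (nat_lit 204)) (XT.lf (nat_lit 0) (nat_lit 6026938340) (nat_lit 532) (nat_lit 4379015652) (nat_lit 608) (nat_lit 74390743) (nat_lit 136) (nat_lit 5) (nat_lit 143) (nat_lit 5) (nat_lit 144) (nat_lit 5) (nat_lit 303) (nat_lit 274) (nat_lit 203)))) (XT.nd (nat_lit 78) (nat_lit 456) (nat_lit 0) (XT.lf (nat_lit 0) (nat_lit 826478049) (nat_lit 532) (nat_lit 798861004) (nat_lit 608) (nat_lit 9023451669) (nat_lit 128) (nat_lit 5) (nat_lit 135) (nat_lit 5) (nat_lit 136) (nat_lit 5) (nat_lit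 304) (nat_lit 274) (nat_lit 202)) (XT.nd (nat_lit 78) (nat_lit 456) (nat_lit 0) (XT.lf (nat_lit 0) (nat_lit 3419562371) (nat_lit 608) (nat_lit 4524020041) (nat_lit 76) (nat_lit 2877381023) (nat_lit 128) (nat_lit 5) (nat_lit 136) (nat_lit 5) (nat_lit 129) (nat_lit 5) (nat_lit 305) (nat_lit 274) (nat_lit 201)) (XT.lf (nat_lit 0) (nat_lit 913844412) (nat_lit 456) (nat_lit 4343095849) (nat_lit 532) (nat_lit 5741725259) (nat_lit 122) (nat_lit 5) (nat_lit 128) (nat_lit 5) (nat_lit 129) (nat_lit 5) (nat_lit 306) (nat_lit 274) (nat_lit 200))))) (XT.nd (nat_lit 234) (nat_lit 912) (nat_lit 0) (XT.nd (nat_lit 78) (nat_lit 456) (nat_lit 0) (XT.lf (nat_lit 0) (nat_lit 6578570190) (nat_lit 456) (nat_lit 589705142) (nat_lit 532) (nat_lit 4012901005) (nat_lit 122) (nat_lit 5) (nat_lit 128) (nat_lit 5) (nat_lit 129) (nat_lit 5) (nat_lit 307) (nat_lit 274) (nat_lit 199)) (XT.nd (nat_lit 78) (nat_lit 0) (nat_lit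 0) (XT.lf (nat_lit 0) (nat_lit 1003186534) (nat_lit 456) (nat_lit 8148814726) (nat_lit 532) (nat_lit 2216751193) (nat_lit 116) (nat_lit 5) (nat_lit 122) (nat_lit 5) (nat_lit 123) (nat_lit 5) (nat_lit 308) (nat_lit 274) (nat_lit 198)) (XT.lf (nat_lit 0) (nat_lit 6836860240) (nat_lit 456) (nat_lit 4385035366) (nat_lit 532) (nat_lit 339300837) (nat_lit 116) (nat_lit 5) (nat_lit 122) (nat_lit 5) (nat_lit 123) (nat_lit 5) (nat_lit 309) (nat_lit 274) (nat_lit 197)))) (XT.nd (nat_lit 78) (nat_lit 456) (nat_lit 0) (XT.lf (nat_lit 0) (nat_lit 1063159833) (nat_lit 380) (nat_lit 485278182) (nat_lit 456) (nat_lit 10211001538) (nat_lit 110) (nat_lit 5) (nat_lit 115) (nat_lit 5) (nat_lit 116) (nat_lit 5) (nat_lit 310) (nat_lit 274) (nat_lit 196)) (XT.nd (nat_lit 78) (nat_lit 456) (nat_lit 0) (XT.lf (nat_lit 0) (nat_lit 3543403159) (nat_lit 456) (nat_lit 4907707679) (nat_lit 76) (nat_lit 3510732794) (nat_lit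 110) (nat_lit 5) (nat_lit 116) (nat_lit 5) (nat_lit 111) (nat_lit 5) (nat_lit 311) (nat_lit 274) (nat_lit 195)) (XT.lf (nat_lit 0) (nat_lit 1042035600) (nat_lit 456) (nat_lit 4547011032) (nat_lit 532) (nat_lit 6581584119) (nat_lit 104) (nat_lit 5) (nat_lit 110) (nat_lit 5) (nat_lit 111) (nat_lit 5) (nat_lit 312) (nat_lit 274) (nat_lit 194))))))) (XT.nd (nat_lit 936) (nat_lit 1824) (nat_lit 0) (XT.nd (nat_lit 468) (nat_lit 760) (nat_lit 0) (XT.nd (nat_lit 234) (nat_lit 760) (nat_lit 0) (XT.nd (nat_lit 78) (nat_lit 380) (nat_lit 0) (XT.lf (nat_lit 0) (nat_lit 7243133975) (nat_lit 456) (nat_lit 478923756) (nat_lit 532) (nat_lit 4662878558) (nat_lit 104) (nat_lit 5) (nat_lit 110) (nat_lit 5) (nat_lit 111) (nat_lit 5) (nat_lit 313) (nat_lit 274) (nat_lit 193)) (XT.nd (nat_lit 78) (nat_lit 0) (nat_lit 0) (XT.lf (nat_lit 0) (nat_lit 980438445) (nat_lit 380) (nat_lit 8960806967) (nat_lit 456) (nat_lit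 2663793735) (nat_lit 99) (nat_lit 5) (nat_lit 104) (nat_lit 5) (nat_lit 105) (nat_lit 5) (nat_lit 314) (nat_lit 274) (nat_lit 192)) (XT.lf (nat_lit 0) (nat_lit 7359569497) (nat_lit 380) (nat_lit 4901548497) (nat_lit 456) (nat_lit 569636579) (nat_lit 99) (nat_lit 5) (nat_lit 104) (nat_lit 5) (nat_lit 105) (nat_lit 5) (nat_lit 315) (nat_lit 274) (nat_lit 191)))) (XT.nd (nat_lit 78) (nat_lit 304) (nat_lit 0) (XT.lf (nat_lit 0) (nat_lit 840967823) (nat_lit 380) (nat_lit 701386391) (nat_lit 456) (nat_lit 11520880859) (nat_lit 93) (nat_lit 5) (nat_lit 98) (nat_lit 5) (nat_lit 99) (nat_lit 5) (nat_lit 316) (nat_lit 274) (nat_lit 190)) (XT.nd (nat_lit 78) (nat_lit 304) (nat_lit 0) (XT.lf (nat_lit 0) (nat_lit 3775132414) (nat_lit 456) (nat_lit 5914808944) (nat_lit 76) (nat_lit 3610543105) (nat_lit 93) (nat_lit 5) (nat_lit 99) (nat_lit 5) (nat_lit 94) (nat_lit 5) (nat_lit 317) (nat_lit 274) (nat_lit 189))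 (XT.lf (nat_lit 0) (nat_lit 559254324) (nat_lit 304) (nat_lit 5506831749) (nat_lit 380) (nat_lit 7479058607) (nat_lit 89) (nat_lit 5) (nat_lit 93) (nat_lit 5) (nat_lit 94) (nat_lit 5) (nat_lit 318) (nat_lit 274) (nat_lit 188))))) (XT.nd (nat_lit 234) (nat_lit 380) (nat_lit 0) (XT.nd (nat_lit 78) (nat_lit 380) (nat_lit 0) (XT.lf (nat_lit 0) (nat_lit 7322460503) (nat_lit 304) (nat_lit 1142269925) (nat_lit 380) (nat_lit 5331273670) (nat_lit 89) (nat_lit 5) (nat_lit 93) (nat_lit 5) (nat_lit 94) (nat_lit 5) (nat_lit 319) (nat_lit 274) (nat_lit 187)) (XT.nd (nat_lit 78) (nat_lit 0) (nat_lit 0) (XT.lf (nat_lit 0) (nat_lit 179298701) (nat_lit 380) (nat_lit 10769779276) (nat_lit 456) (nat_lit 3104926443) (nat_lit 84) (nat_lit 5) (nat_lit 89) (nat_lit 5) (nat_lit 90) (nat_lit 5) (nat_lit 320) (nat_lit 274) (nat_lit 186)) (XT.lf (nat_lit 0) (nat_lit 7127008813) (nat_lit 380) (nat_lit 6437642922) (nat_lit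 456) (nat_lit 753418779) (nat_lit 84) (nat_lit 5) (nat_lit 89) (nat_lit 5) (nat_lit 90) (nat_lit 5) (nat_lit 321) (nat_lit 274) (nat_lit 185)))) (XT.nd (nat_lit 78) (nat_lit 304) (nat_lit 0) (XT.lf (nat_lit 0) (nat_lit 1616562451) (nat_lit 456) (nat_lit 348491862) (nat_lit 76) (nat_lit 12625133507) (nat_lit 83) (nat_lit 5) (nat_lit 89) (nat_lit 5) (nat_lit 84) (nat_lit 5) (nat_lit 322) (nat_lit 274) (nat_lit 184)) (XT.nd (nat_lit 78) (nat_lit 0) (nat_lit 0) (XT.lf (nat_lit 0) (nat_lit 4114979972) (nat_lit 380) (nat_lit 8095150880) (nat_lit 76) (nat_lit 2657963985) (nat_lit 79) (nat_lit 5) (nat_lit 84) (nat_lit 5) (nat_lit 80) (nat_lit 5) (nat_lit 323) (nat_lit 274) (nat_lit 183)) (XT.lf (nat_lit 0) (nat_lit 6692676265) (nat_lit 380) (nat_lit 1083639638) (nat_lit 76) (nat_lit 7377917042) (nat_lit 79) (nat_lit 5) (nat_lit 84) (nat_lit 5) (nat_lit 80) (nat_lit 5) (nat_lit 324) (nat_lit 274) (nat_lit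 182)))))) (XT.nd (nat_lit 468) (nat_lit 836) (nat_lit 0) (XT.nd (nat_lit 234) (nat_lit 380) (nat_lit 0) (XT.nd (nat_lit 78) (nat_lit 304) (nat_lit 0) (XT.lf (nat_lit 0) (nat_lit 6235543483) (nat_lit 304) (nat_lit 3153960341) (nat_lit 380) (nat_lit 6058220337) (nat_lit 75) (nat_lit 5) (nat_lit 79) (nat_lit 5) (nat_lit 80) (nat_lit 5) (nat_lit 325) (nat_lit 274) (nat_lit 181)) (XT.nd (nat_lit 78) (nat_lit 304) (nat_lit 0) (XT.lf (nat_lit 0) (nat_lit 12175832091) (nat_lit 380) (nat_lit 1993342590) (nat_lit 76) (nat_lit 1580609865) (nat_lit 75) (nat_lit 5) (nat_lit 80) (nat_lit 5) (nat_lit 76) (nat_lit 5) (nat_lit 326) (nat_lit 274) (nat_lit 180)) (XT.lf (nat_lit 0) (nat_lit 5494150818) (nat_lit 304) (nat_lit 9618258109) (nat_lit 380) (nat_lit 946519712) (nat_lit 71) (nat_lit 5) (nat_lit 75) (nat_lit 5) (nat_lit 76) (nat_lit 5) (nat_lit 327) (nat_lit 274) (nat_lit 179)))) (XT.nd (nat_lit 78) (nat_lit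 304) (nat_lit 0) (XT.lf (nat_lit 0) (nat_lit 1728432513) (nat_lit 380) (nat_lit 3170751040) (nat_lit 76) (nat_lit 11477585387) (nat_lit 70) (nat_lit 5) (nat_lit 75) (nat_lit 5) (nat_lit 71) (nat_lit 5) (nat_lit 328) (nat_lit 274) (nat_lit 178)) (XT.nd (nat_lit 78) (nat_lit 0) (nat_lit 0) (XT.lf (nat_lit 0) (nat_lit 4491166687) (nat_lit 380) (nat_lit 12202960159) (nat_lit 76) (nat_lit 8959555) (nat_lit 66) (nat_lit 5) (nat_lit 71) (nat_lit 5) (nat_lit 67) (nat_lit 5) (nat_lit 329) (nat_lit 274) (nat_lit 177)) (XT.lf (nat_lit 0) (nat_lit 7401039671) (nat_lit 380) (nat_lit 4644476327) (nat_lit 76) (nat_lit 4991768929) (nat_lit 66) (nat_lit 5) (nat_lit 71) (nat_lit 5) (nat_lit 67) (nat_lit 5) (nat_lit 330) (nat_lit 274) (nat_lit 176))))) (XT.nd (nat_lit 234) (nat_lit 304) (nat_lit 0) (XT.nd (nat_lit 78) (nat_lit 304) (nat_lit 0) (XT.lf (nat_lit 0) (nat_lit 3179953351) (nat_lit 228) (nat_lit 7232720852)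 (nat_lit 304) (nat_lit 6968419925) (nat_lit 63) (nat_lit 5) (nat_lit 66) (nat_lit 5) (nat_lit 67) (nat_lit 5) (nat_lit 331) (nat_lit 274) (nat_lit 175)) (XT.nd (nat_lit 78) (nat_lit 304) (nat_lit 0) (XT.lf (nat_lit 0) (nat_lit 11311686248) (nat_lit 228) (nat_lit 2234020731) (nat_lit 304) (nat_lit 4188597290) (nat_lit 63) (nat_lit 5) (nat_lit 66) (nat_lit 5) (nat_lit 67) (nat_lit 5) (nat_lit 332) (nat_lit 274) (nat_lit 174)) (XT.lf (nat_lit 0) (nat_lit 1569475722) (nat_lit 304) (nat_lit 15230906532) (nat_lit 380) (nat_lit 1296916525) (nat_lit 59) (nat_lit 5) (nat_lit 63) (nat_lit 5) (nat_lit 64) (nat_lit 5) (nat_lit 333) (nat_lit 274) (nat_lit 173)))) (XT.nd (nat_lit 78) (nat_lit 228) (nat_lit 0) (XT.lf (nat_lit 0) (nat_lit 1720936216) (nat_lit 380) (nat_lit 8597669420) (nat_lit 76) (nat_lit 8149942155) (nat_lit 58) (nat_lit 5) (nat_lit 63) (nat_lit 5) (nat_lit 59) (nat_lit 5) (nat_lit 334) (nat_lit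 274) (nat_lit 172)) (XT.nd (nat_lit 78) (nat_lit 228) (nat_lit 0) (XT.lf (nat_lit 0) (nat_lit 4788322812) (nat_lit 380) (nat_lit 464293407) (nat_lit 76) (nat_lit 13598396998) (nat_lit 58) (nat_lit 5) (nat_lit 63) (nat_lit 5) (nat_lit 59) (nat_lit 5) (nat_lit 335) (nat_lit 274) (nat_lit 171)) (XT.lf (nat_lit 0) (nat_lit 8010970921) (nat_lit 304) (nat_lit 11194508232) (nat_lit 76) (nat_lit 37591901) (nat_lit 55) (nat_lit 5) (nat_lit 59) (nat_lit 5) (nat_lit 56) (nat_lit 5) (nat_lit 336) (nat_lit 274) (nat_lit 170))))))))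
noncomputable def xc148 : XT := (XT.nd (nat_lit 1794) (nat_lit 1064) (nat_lit 0) (XT.nd (nat_lit 858) (nat_lit 684) (nat_lit 0) (XT.nd (nat_lit 390) (nat_lit 684) (nat_lit 0) (XT.nd (nat_lit 156) (nat_lit 304) (nat_lit 0) (XT.nd (nat_lit 78) (nat_lit 228) (nat_lit 0) (XT.lf (nat_lit 0) (nat_lit 11372695369) (nat_lit 304) (nat_lit 2893856616) (nat_lit 76) (nat_lit 5379081925) (nat_lit 55) (nat_lit 5) (nat_lit 59) (nat_lit 5) (nat_lit 56) (nat_lit 5) (nat_lit 337) (nat_lit 274) (nat_lit 169)) (XT.lf (nat_lit 0) (nat_lit 5747209500) (nat_lit 228) (nat_lit 9129381455) (nat_lit 304) (nat_lit 5182457863) (nat_lit 52) (nat_lit 5) (nat_lit 55) (nat_lit 5) (nat_lit 56) (nat_lit 5) (nat_lit 338) (nat_lit 274) (nat_lit 168))) (XT.nd (nat_lit 78) (nat_lit 304) (nat_lit 0) (XT.lf (nat_lit 0) (nat_lit 14686278486) (nat_lit 228) (nat_lit 3814828987) (nat_lit 304) (nat_lit 1983307895) (nat_lit 52) (nat_lit 5)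 (nat_lit 55) (nat_lit 5) (nat_lit 56) (nat_lit 5) (nat_lit 339) (nat_lit 274) (nat_lit 167)) (XT.nd (nat_lit 78) (nat_lit 0) (nat_lit 0) (XT.lf (nat_lit 0) (nat_lit 1317853228) (nat_lit 304) (nat_lit 17941403713) (nat_lit 76) (nat_lit 1661972125) (nat_lit 48) (nat_lit 5) (nat_lit 52) (nat_lit 5) (nat_lit 49) (nat_lit 5) (nat_lit 340) (nat_lit 274) (nat_lit 166)) (XT.lf (nat_lit 0) (nat_lit 4761757101) (nat_lit 304) (nat_lit 9307775937) (nat_lit 76) (nat_lit 7298531026) (nat_lit 48) (nat_lit 5) (nat_lit 52) (nat_lit 5) (nat_lit 49) (nat_lit 5) (nat_lit 341) (nat_lit 274) (nat_lit 165))))) (XT.nd (nat_lit 234) (nat_lit 456) (nat_lit 0) (XT.nd (nat_lit 78) (nat_lit 228) (nat_lit 0) (XT.lf (nat_lit 0) (nat_lit 8296036674) (nat_lit 304) (nat_lit 434926550) (nat_lit 76) (nat_lit 13097741851) (nat_lit 48) (nat_lit 5) (nat_lit 52) (nat_lit 5) (nat_lit 49) (nat_lit 5) (nat_lit 342) (nat_lit 274) (nat_lit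 164)) (XT.nd (nat_lit 78) (nat_lit 0) (nat_lit 0) (XT.lf (nat_lit 0) (nat_lit 8857743911) (nat_lit 228) (nat_lit 3151182295) (nat_lit 304) (nat_lit 10292074015) (nat_lit 45) (nat_lit 5) (nat_lit 48) (nat_lit 5) (nat_lit 49) (nat_lit 5) (nat_lit 343) (nat_lit 274) (nat_lit 163)) (XT.lf (nat_lit 0) (nat_lit 15850146856) (nat_lit 304) (nat_lit 4393562305) (nat_lit 76) (nat_lit 2543258718) (nat_lit 45) (nat_lit 5) (nat_lit 49) (nat_lit 5) (nat_lit 46) (nat_lit 5) (nat_lit 344) (nat_lit 274) (nat_lit 162)))) (XT.nd (nat_lit 78) (nat_lit 304) (nat_lit 0) (XT.lf (nat_lit 0) (nat_lit 4974718588) (nat_lit 152) (nat_lit 14898822661) (nat_lit 228) (nat_lit 3411976847) (nat_lit 43) (nat_lit 5) (nat_lit 45) (nat_lit 5) (nat_lit 46) (nat_lit 5) (nat_lit 345) (nat_lit 274) (nat_lit 161)) (XT.nd (nat_lit 78) (nat_lit 228) (nat_lit 0) (XT.lf (nat_lit 0) (nat_lit 247113812) (nat_lit 228) (nat_lit 9104968153) (nat_lit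 76) (nat_lit 14445907774) (nat_lit 42) (nat_lit 5) (nat_lit 45) (nat_lit 5) (nat_lit 43) (nat_lit 5) (nat_lit 346) (nat_lit 274) (nat_lit 160)) (XT.lf (nat_lit 0) (nat_lit 331427179) (nat_lit 228) (nat_lit 3607470617) (nat_lit 304) (nat_lit 20386189992) (nat_lit 39) (nat_lit 5) (nat_lit 42) (nat_lit 5) (nat_lit 43) (nat_lit 5) (nat_lit 347) (nat_lit 274) (nat_lit 159)))))) (XT.nd (nat_lit 468) (nat_lit 304) (nat_lit 0) (XT.nd (nat_lit 234) (nat_lit 228) (nat_lit 0) (XT.nd (nat_lit 78) (nat_lit 152) (nat_lit 0) (XT.lf (nat_lit 0) (nat_lit 7844903027) (nat_lit 304) (nat_lit 14669203233) (nat_lit 76) (nat_lit 2350798830) (nat_lit 39) (nat_lit 5) (nat_lit 43) (nat_lit 5) (nat_lit 40) (nat_lit 5) (nat_lit 348) (nat_lit 274) (nat_lit 158)) (XT.nd (nat_lit 78) (nat_lit 152) (nat_lit 0) (XT.lf (nat_lit 0) (nat_lit 11892558330) (nat_lit 304) (nat_lit 5118603036) (nat_lit 76) (nat_lit 8409031491) (nat_lit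 39) (nat_lit 5) (nat_lit 43) (nat_lit 5) (nat_lit 40) (nat_lit 5) (nat_lit 349) (nat_lit 274) (nat_lit 157)) (XT.lf (nat_lit 0) (nat_lit 4794724728) (nat_lit 152) (nat_lit 11302088375) (nat_lit 228) (nat_lit 9894280809) (nat_lit 37) (nat_lit 5) (nat_lit 39) (nat_lit 5) (nat_lit 40) (nat_lit 5) (nat_lit 350) (nat_lit 274) (nat_lit 156)))) (XT.nd (nat_lit 78) (nat_lit 228) (nat_lit 0) (XT.lf (nat_lit 0) (nat_lit 15093196009) (nat_lit 152) (nat_lit 5374920238) (nat_lit 228) (nat_lit 6109787597) (nat_lit 37) (nat_lit 5) (nat_lit 39) (nat_lit 5) (nat_lit 40) (nat_lit 5) (nat_lit 351) (nat_lit 274) (nat_lit 155)) (XT.nd (nat_lit 78) (nat_lit 228) (nat_lit 0) (XT.lf (nat_lit 0) (nat_lit 24967062902) (nat_lit 228) (nat_lit 1505659574) (nat_lit 76) (nat_lit 709709654) (nat_lit 37) (nat_lit 5) (nat_lit 40) (nat_lit 5) (nat_lit 38) (nat_lit 5) (nat_lit 352) (nat_lit 274) (nat_lit 154)) (XT.lf (nat_lit 0)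 (nat_lit 1890433734) (nat_lit 228) (nat_lit 18943488710) (nat_lit 76) (nat_lit 6966776708) (nat_lit 34) (nat_lit 5) (nat_lit 37) (nat_lit 5) (nat_lit 35) (nat_lit 5) (nat_lit 353) (nat_lit 274) (nat_lit 153))))) (XT.nd (nat_lit 234) (nat_lit 152) (nat_lit 0) (XT.nd (nat_lit 78) (nat_lit 152) (nat_lit 0) (XT.lf (nat_lit 0) (nat_lit 6080064169) (nat_lit 228) (nat_lit 8913813024) (nat_lit 76) (nat_lit 13442831968) (nat_lit 34) (nat_lit 5) (nat_lit 37) (nat_lit 5) (nat_lit 35) (nat_lit 5) (nat_lit 354) (nat_lit 274) (nat_lit 152)) (XT.nd (nat_lit 78) (nat_lit 0) (nat_lit 0) (XT.lf (nat_lit 0) (nat_lit 1428609683) (nat_lit 152) (nat_lit 8970628214) (nat_lit 228) (nat_lit 18692454106) (nat_lit 32) (nat_lit 5) (nat_lit 34) (nat_lit 5) (nat_lit 35) (nat_lit 5) (nat_lit 355) (nat_lit 274) (nat_lit 151)) (XT.lf (nat_lit 0) (nat_lit 12248165994) (nat_lit 152) (nat_lit 2680089815) (nat_lit 228) (nat_lit 14835668380)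 (nat_lit 32) (nat_lit 5) (nat_lit 34) (nat_lit 5) (nat_lit 35) (nat_lit 5) (nat_lit 356) (nat_lit 274) (nat_lit 150)))) (XT.nd (nat_lit 78) (nat_lit 152) (nat_lit 0) (XT.lf (nat_lit 0) (nat_lit 19620147753) (nat_lit 228) (nat_lit 7116170060) (nat_lit 76) (nat_lit 3719203122) (nat_lit 32) (nat_lit 5) (nat_lit 35) (nat_lit 5) (nat_lit 33) (nat_lit 5) (nat_lit 357) (nat_lit 274) (nat_lit 149)) (XT.nd (nat_lit 78) (nat_lit 0) (nat_lit 0) (XT.lf (nat_lit 0) (nat_lit 3624415167) (nat_lit 152) (nat_lit 20880517699) (nat_lit 228) (nat_lit 6661376095) (nat_lit 30) (nat_lit 5) (nat_lit 32) (nat_lit 5) (nat_lit 33) (nat_lit 5) (nat_lit 358) (nat_lit 274) (nat_lit 148)) (XT.lf (nat_lit 0) (nat_lit 14818060883) (nat_lit 152) (nat_lit 14780945400) (nat_lit 228) (nat_lit 2297539259) (nat_lit 30) (nat_lit 5) (nat_lit 32) (nat_lit 5) (nat_lit 33) (nat_lit 5) (nat_lit 359) (nat_lit 274) (nat_lit 147))))))) (XT.nd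 (nat_lit 936) (nat_lit 380) (nat_lit 0) (XT.nd (nat_lit 468) (nat_lit 304) (nat_lit 0) (XT.nd (nat_lit 234) (nat_lit 152) (nat_lit 0) (XT.nd (nat_lit 78) (nat_lit 152) (nat_lit 0) (XT.lf (nat_lit 0) (nat_lit 2145393485) (nat_lit 228) (nat_lit 6337072801) (nat_lit 76) (nat_lit 24165864454) (nat_lit 29) (nat_lit 5) (nat_lit 32) (nat_lit 5) (nat_lit 30) (nat_lit 5) (nat_lit 360) (nat_lit 274) (nat_lit 146)) (XT.nd (nat_lit 78) (nat_lit 0) (nat_lit 0) (XT.lf (nat_lit 0) (nat_lit 4782815297) (nat_lit 152) (nat_lit 1929912830) (nat_lit 228) (nat_lit 26708146804) (nat_lit 27) (nat_lit 5) (nat_lit 29) (nat_lit 5) (nat_lit 30) (nat_lit 5) (nat_lit 361) (nat_lit 274) (nat_lit 145)) (XT.lf (nat_lit 0) (nat_lit 11519412615) (nat_lit 228) (nat_lit 17909847433) (nat_lit 76) (nat_lit 4784271951) (nat_lit 27) (nat_lit 5) (nat_lit 30) (nat_lit 5) (nat_lit 28) (nat_lit 5) (nat_lit 362) (nat_lit 274) (nat_lit 144))))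 (XT.nd (nat_lit 78) (nat_lit 152) (nat_lit 0) (XT.lf (nat_lit 0) (nat_lit 16481035732) (nat_lit 228) (nat_lit 6892893725) (nat_lit 76) (nat_lit 11655723437) (nat_lit 27) (nat_lit 5) (nat_lit 30) (nat_lit 5) (nat_lit 28) (nat_lit 5) (nat_lit 363) (nat_lit 274) (nat_lit 143)) (XT.nd (nat_lit 78) (nat_lit 0) (nat_lit 0) (XT.lf (nat_lit 0) (nat_lit 4529363654) (nat_lit 152) (nat_lit 17097556733) (nat_lit 228) (nat_lit 14242280720) (nat_lit 25) (nat_lit 5) (nat_lit 27) (nat_lit 5) (nat_lit 28) (nat_lit 5) (nat_lit 364) (nat_lit 274) (nat_lit 142)) (XT.lf (nat_lit 0) (nat_lit 16422130408) (nat_lit 152) (nat_lit 10566637056) (nat_lit 228) (nat_lit 9743326626) (nat_lit 25) (nat_lit 5) (nat_lit 27) (nat_lit 5) (nat_lit 28) (nat_lit 5) (nat_lit 365) (nat_lit 274) (nat_lit 141))))) (XT.nd (nat_lit 234) (nat_lit 152) (nat_lit 0) (XT.nd (nat_lit 78) (nat_lit 152) (nat_lit 0) (XT.lf (nat_lit 0) (nat_lit 28658616174)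 (nat_lit 152) (nat_lit 3845068506) (nat_lit 228) (nat_lit 5117428466) (nat_lit 25) (nat_lit 5) (nat_lit 27) (nat_lit 5) (nat_lit 28) (nat_lit 5) (nat_lit 366) (nat_lit 274) (nat_lit 140)) (XT.nd (nat_lit 78) (nat_lit 76) (nat_lit 0) (XT.lf (nat_lit 0) (nat_lit 2736333896) (nat_lit 76) (nat_lit 35496000086) (nat_lit 152) (nat_lit 303025818) (nat_lit 24) (nat_lit 5) (nat_lit 25) (nat_lit 5) (nat_lit 26) (nat_lit 4) (nat_lit 367) (nat_lit 274) (nat_lit 139)) (XT.lf (nat_lit 0) (nat_lit 4686838715) (nat_lit 152) (nat_lit 24601083853) (nat_lit 76) (nat_lit 10184117448) (nat_lit 23) (nat_lit 5) (nat_lit 25) (nat_lit 5) (nat_lit 24) (nat_lit 5) (nat_lit 368) (nat_lit 274) (nat_lit 138)))) (XT.nd (nat_lit 78) (nat_lit 152) (nat_lit 0) (XT.lf (nat_lit 0) (nat_lit 9812941384) (nat_lit 152) (nat_lit 13082724823) (nat_lit 76) (nat_lit 17541290530) (nat_lit 23) (nat_lit 5) (nat_lit 25) (nat_lit 5) (nat_lit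 24) (nat_lit 5) (nat_lit 369) (nat_lit 274) (nat_lit 137)) (XT.nd (nat_lit 78) (nat_lit 152) (nat_lit 0) (XT.lf (nat_lit 0) (nat_lit 15085674432) (nat_lit 152) (nat_lit 1230971361) (nat_lit 76) (nat_lit 25114394689) (nat_lit 23) (nat_lit 5) (nat_lit 25) (nat_lit 5) (nat_lit 24) (nat_lit 5) (nat_lit 370) (nat_lit 274) (nat_lit 136)) (XT.lf (nat_lit 0) (nat_lit 11182748129) (nat_lit 152) (nat_lit 9434392390) (nat_lit 228) (nat_lit 21834794487) (nat_lit 21) (nat_lit 5) (nat_lit 23) (nat_lit 5) (nat_lit 24) (nat_lit 5) (nat_lit 371) (nat_lit 274) (nat_lit 135)))))) (XT.nd (nat_lit 468) (nat_lit 228) (nat_lit 0) (XT.nd (nat_lit 234) (nat_lit 76) (nat_lit 0) (XT.nd (nat_lit 78) (nat_lit 76) (nat_lit 0) (XT.lf (nat_lit 0) (nat_lit 23982426349) (nat_lit 152) (nat_lit 2337700191) (nat_lit 228) (nat_lit 17183167201) (nat_lit 21) (nat_lit 5) (nat_lit 23) (nat_lit 5) (nat_lit 24) (nat_lit 5) (nat_lit 372)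 (nat_lit 274) (nat_lit 134)) (XT.nd (nat_lit 78) (nat_lit 76) (nat_lit 0) (XT.lf (nat_lit 0) (nat_lit 32235295121) (nat_lit 228) (nat_lit 7479396444) (nat_lit 76) (nat_lit 4870273407) (nat_lit 21) (nat_lit 5) (nat_lit 24) (nat_lit 5) (nat_lit 22) (nat_lit 4) (nat_lit 373) (nat_lit 274) (nat_lit 133)) (XT.lf (nat_lit 0) (nat_lit 4986303691) (nat_lit 76) (nat_lit 33406187261) (nat_lit 152) (nat_lit 7304662611) (nat_lit 20) (nat_lit 5) (nat_lit 21) (nat_lit 5) (nat_lit 22) (nat_lit 4) (nat_lit 374) (nat_lit 274) (nat_lit 132)))) (XT.nd (nat_lit 78) (nat_lit 76) (nat_lit 0) (XT.lf (nat_lit 0) (nat_lit 17968234496) (nat_lit 76) (nat_lit 26835273784) (nat_lit 152) (nat_lit 2037130625) (nat_lit 20) (nat_lit 5) (nat_lit 21) (nat_lit 5) (nat_lit 22) (nat_lit 4) (nat_lit 375) (nat_lit 274) (nat_lit 131)) (XT.nd (nat_lit 78) (nat_lit 0) (nat_lit 0) (XT.lf (nat_lit 0) (nat_lit 3316006534) (nat_lit 152) (nat_lit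 16722245101) (nat_lit 76) (nat_lit 27979393051) (nat_lit 19) (nat_lit 5) (nat_lit 21) (nat_lit 5) (nat_lit 20) (nat_lit 5) (nat_lit 376) (nat_lit 274) (nat_lit 130)) (XT.lf (nat_lit 0) (nat_lit 8782676640) (nat_lit 152) (nat_lit 4238301964) (nat_lit 76) (nat_lit 36208564353) (nat_lit 19) (nat_lit 5) (nat_lit 21) (nat_lit 5) (nat_lit 20) (nat_lit 5) (nat_lit 377) (nat_lit 274) (nat_lit 129))))) (XT.nd (nat_lit 234) (nat_lit 76) (nat_lit 0) (XT.nd (nat_lit 78) (nat_lit 0) (nat_lit 0) (XT.lf (nat_lit 0) (nat_lit 8781269645) (nat_lit 152) (nat_lit 5710549442) (nat_lit 228) (nat_lit 35983628709) (nat_lit 17) (nat_lit 5) (nat_lit 19) (nat_lit 5) (nat_lit 20) (nat_lit 5) (nat_lit 378) (nat_lit 274) (nat_lit 128)) (XT.nd (nat_lit 78) (nat_lit 0) (nat_lit 0) (XT.lf (nat_lit 0) (nat_lit 20427040909) (nat_lit 228) (nat_lit 29507329343) (nat_lit 76) (nat_lit 1822719051) (nat_lit 17) (nat_lit 5) (nat_lit 20)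 (nat_lit 5) (nat_lit 18) (nat_lit 4) (nat_lit 379) (nat_lit 274) (nat_lit 127)) (XT.lf (nat_lit 0) (nat_lit 26591127074) (nat_lit 228) (nat_lit 17021397705) (nat_lit 76) (nat_lit 9463134615) (nat_lit 17) (nat_lit 5) (nat_lit 20) (nat_lit 5) (nat_lit 18) (nat_lit 4) (nat_lit 380) (nat_lit 274) (nat_lit 126)))) (XT.nd (nat_lit 78) (nat_lit 76) (nat_lit 0) (XT.lf (nat_lit 0) (nat_lit 32934570380) (nat_lit 228) (nat_lit 4170579904) (nat_lit 76) (nat_lit 17328806731) (nat_lit 17) (nat_lit 5) (nat_lit 20) (nat_lit 5) (nat_lit 18) (nat_lit 4) (nat_lit 381) (nat_lit 274) (nat_lit 125)) (XT.nd (nat_lit 78) (nat_lit 0) (nat_lit 0) (XT.lf (nat_lit 0) (nat_lit 9236592108) (nat_lit 76) (nat_lit 30315109309) (nat_lit 152) (nat_lit 16278803981) (nat_lit 16) (nat_lit 5) (nat_lit 17) (nat_lit 5) (nat_lit 18) (nat_lit 4) (nat_lit 382) (nat_lit 274) (nat_lit 124)) (XT.lf (nat_lit 0) (nat_lit 23122154829) (nat_lit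 76) (nat_lit 23281970709) (nat_lit 152) (nat_lit 10863724585) (nat_lit 16) (nat_lit 5) (nat_lit 17) (nat_lit 5) (nat_lit 18) (nat_lit 4) (nat_lit 383) (nat_lit 274) (nat_lit 123))))))))
noncomputable def xc149 : XT := (XT.nd (nat_lit 33072) (nat_lit 0) (nat_lit 7828) (XT.nd (nat_lit 32136) (nat_lit 0) (nat_lit 15200) (XT.nd (nat_lit 468) (nat_lit 76) (nat_lit 0) (XT.nd (nat_lit 234) (nat_lit 0) (nat_lit 0) (XT.nd (nat_lit 78) (nat_lit 228) (nat_lit 0) (XT.lf (nat_lit 0) (nat_lit 37415238556) (nat_lit 76) (nat_lit 16041703703) (nat_lit 152) (nat_lit 5291531504) (nat_lit 16) (nat_lit 5) (nat_lit 17) (nat_lit 5) (nat_lit 18) (nat_lit 4) (nat_lit 384) (nat_lit 274) (nat_lit 122)) (XT.nd (nat_lit 78) (nat_lit 152) (nat_lit 0) (XT.lf (nat_lit 0) (nat_lit 434006584) (nat_lit 152) (nat_lit 8149592646) (nat_lit 76) (nat_lit 51689943191) (nat_lit 15) (nat_lit 5) (nat_lit 17) (nat_lit 5) (nat_lit 16) (nat_lit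 5) (nat_lit 385) (nat_lit 274) (nat_lit 121)) (XT.lf (nat_lit 0) (nat_lit 5475384561) (nat_lit 152) (nat_lit 797270419) (nat_lit 228) (nat_lit 55568708357) (nat_lit 13) (nat_lit 5) (nat_lit 15) (nat_lit 5) (nat_lit 16) (nat_lit 5) (nat_lit 386) (nat_lit 274) (nat_lit 120)))) (XT.nd (nat_lit 78) (nat_lit 0) (nat_lit 0) (XT.lf (nat_lit 0) (nat_lit 12434093315) (nat_lit 228) (nat_lit 43856480428) (nat_lit 76) (nat_lit 7161219040) (nat_lit 13) (nat_lit 5) (nat_lit 16) (nat_lit 5) (nat_lit 14) (nat_lit 4) (nat_lit 387) (nat_lit 274) (nat_lit 119)) (XT.nd (nat_lit 78) (nat_lit 0) (nat_lit 0) (XT.lf (nat_lit 0) (nat_lit 18783503776) (nat_lit 228) (nat_lit 30987995582) (nat_lit 76) (nat_lit 15338944621) (nat_lit 13) (nat_lit 5) (nat_lit 16) (nat_lit 5) (nat_lit 14) (nat_lit 4) (nat_lit 388) (nat_lit 274) (nat_lit 118)) (XT.lf (nat_lit 0) (nat_lit 25318770540) (nat_lit 228) (nat_lit 17741616077) (nat_lit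 76) (nat_lit 23758609529) (nat_lit 13) (nat_lit 5) (nat_lit 16) (nat_lit 5) (nat_lit 14) (nat_lit 4) (nat_lit 389) (nat_lit 274) (nat_lit 117))))) (XT.nd (nat_lit 234) (nat_lit 0) (nat_lit 0) (XT.nd (nat_lit 78) (nat_lit 76) (nat_lit 0) (XT.lf (nat_lit 0) (nat_lit 32045604036) (nat_lit 228) (nat_lit 4105767409) (nat_lit 76) (nat_lit 32427570750) (nat_lit 13) (nat_lit 5) (nat_lit 16) (nat_lit 5) (nat_lit 14) (nat_lit 4) (nat_lit 390) (nat_lit 274) (nat_lit 116)) (XT.nd (nat_lit 78) (nat_lit 0) (nat_lit 0) (XT.lf (nat_lit 0) (nat_lit 10129120872) (nat_lit 76) (nat_lit 28938128511) (nat_lit 152) (nat_lit 31321649540) (nat_lit 12) (nat_lit 5) (nat_lit 13) (nat_lit 5) (nat_lit 14) (nat_lit 4) (nat_lit 391) (nat_lit 274) (nat_lit 115)) (XT.lf (nat_lit 0) (nat_lit 24867603940) (nat_lit 76) (nat_lit 21469093688) (nat_lit 152) (nat_lit 25915344550) (nat_lit 12) (nat_lit 5) (nat_lit 13) (nat_lit 5) (nat_lit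 14) (nat_lit 4) (nat_lit 392) (nat_lit 274) (nat_lit 114)))) (XT.nd (nat_lit 78) (nat_lit 0) (nat_lit 0) (XT.lf (nat_lit 0) (nat_lit 40040847256) (nat_lit 76) (nat_lit 13779200835) (nat_lit 152) (nat_lit 20351159435) (nat_lit 12) (nat_lit 5) (nat_lit 13) (nat_lit 5) (nat_lit 14) (nat_lit 4) (nat_lit 393) (nat_lit 274) (nat_lit 113)) (XT.nd (nat_lit 78) (nat_lit 0) (nat_lit 0) (XT.lf (nat_lit 0) (nat_lit 55662108995) (nat_lit 76) (nat_lit 5861730629) (nat_lit 152) (nat_lit 14624232285) (nat_lit 12) (nat_lit 5) (nat_lit 13) (nat_lit 5) (nat_lit 14) (nat_lit 4) (nat_lit 394) (nat_lit 274) (nat_lit 112)) (XT.lf (nat_lit 0) (nat_lit 69476818836) (nat_lit 152) (nat_lit 6461339023) (nat_lit 0) (nat_lit 2245544371) (nat_lit 12) (nat_lit 5) (nat_lit 14) (nat_lit 4) (nat_lit 12) (nat_lit 4) (nat_lit 395) (nat_lit 274) (nat_lit 111)))))) (XT.nd (nat_lit 468) (nat_lit 760) (nat_lit 0) (XT.nd (nat_lit 234)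 (nat_lit 760) (nat_lit 0) (XT.nd (nat_lit 78) (nat_lit 0) (nat_lit 0) (XT.lf (nat_lit 0) (nat_lit 1293248922) (nat_lit 836) (nat_lit 1209979336) (nat_lit 836) (nat_lit 1209979336) (nat_lit 232) (nat_lit 3) (nat_lit 243) (nat_lit 3) (nat_lit 243) (nat_lit 5) (nat_lit 275) (nat_lit 275) (nat_lit 230)) (XT.nd (nat_lit 78) (nat_lit 0) (nat_lit 0) (XT.lf (nat_lit 76) (nat_lit 889837125) (nat_lit 0) (nat_lit 3121068201) (nat_lit 836) (nat_lit 3482345698) (nat_lit 233) (nat_lit 5) (nat_lit 232) (nat_lit 3) (nat_lit 243) (nat_lit 5) (nat_lit 276) (nat_lit 275) (nat_lit 229)) (XT.lf (nat_lit 76) (nat_lit 4320245723) (nat_lit 0) (nat_lit 1128221569) (nat_lit 836) (nat_lit 2114628749) (nat_lit 233) (nat_lit 5) (nat_lit 232) (nat_lit 3) (nat_lit 243) (nat_lit 5) (nat_lit 277) (nat_lit 275) (nat_lit 228)))) (XT.nd (nat_lit 78) (nat_lit 836) (nat_lit 0) (XT.lf (nat_lit 76) (nat_lit 183840923) (nat_lit 0) (nat_lit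 6703767143) (nat_lit 836) (nat_lit 748788156) (nat_lit 234) (nat_lit 5) (nat_lit 233) (nat_lit 5) (nat_lit 244) (nat_lit 5) (nat_lit 278) (nat_lit 275) (nat_lit 227)) (XT.nd (nat_lit 78) (nat_lit 0) (nat_lit 0) (XT.lf (nat_lit 0) (nat_lit 637855277) (nat_lit 836) (nat_lit 3979160728) (nat_lit 912) (nat_lit 3095016462) (nat_lit 222) (nat_lit 5) (nat_lit 233) (nat_lit 5) (nat_lit 234) (nat_lit 5) (nat_lit 279) (nat_lit 275) (nat_lit 226)) (XT.lf (nat_lit 0) (nat_lit 2000977193) (nat_lit 836) (nat_lit 438333181) (nat_lit 912) (nat_lit 5352010893) (nat_lit 222) (nat_lit 5) (nat_lit 233) (nat_lit 5) (nat_lit 234) (nat_lit 5) (nat_lit 280) (nat_lit 275) (nat_lit 225))))) (XT.nd (nat_lit 234) (nat_lit 760) (nat_lit 0) (XT.nd (nat_lit 78) (nat_lit 0) (nat_lit 76) (XT.lf (nat_lit 76) (nat_lit 3243511673) (nat_lit 0) (nat_lit 144047165) (nat_lit 912) (nat_lit 4486053639) (nat_lit 223) (nat_lit 5) (nat_lit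 222) (nat_lit 5) (nat_lit 234) (nat_lit 5) (nat_lit 281) (nat_lit 275) (nat_lit 224)) (XT.nd (nat_lit 78) (nat_lit 0) (nat_lit 0) (XT.lf (nat_lit 0) (nat_lit 4794265869) (nat_lit 836) (nat_lit 964754446) (nat_lit 912) (nat_lit 2200094068) (nat_lit 223) (nat_lit 5) (nat_lit 234) (nat_lit 5) (nat_lit 235) (nat_lit 5) (nat_lit 282) (nat_lit 275) (nat_lit 223)) (XT.lf (nat_lit 76) (nat_lit 2835399069) (nat_lit 0) (nat_lit 3390551108) (nat_lit 912) (nat_lit 1821842832) (nat_lit 224) (nat_lit 5) (nat_lit 223) (nat_lit 5) (nat_lit 235) (nat_lit 5) (nat_lit 283) (nat_lit 275) (nat_lit 222)))) (XT.nd (nat_lit 78) (nat_lit 836) (nat_lit 0) (XT.lf (nat_lit 76) (nat_lit 6740562698) (nat_lit 0) (nat_lit 924919207) (nat_lit 912) (nat_lit 474795363) (nat_lit 224) (nat_lit 5) (nat_lit 223) (nat_lit 5) (nat_lit 235) (nat_lit 5) (nat_lit 284) (nat_lit 275) (nat_lit 221)) (XT.nd (nat_lit 78) (nat_lit 0) (nat_lit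 0) (XT.lf (nat_lit 0) (nat_lit 891200440) (nat_lit 912) (nat_lit 5712720044) (nat_lit 988) (nat_lit 1631548884) (nat_lit 212) (nat_lit 5) (nat_lit 224) (nat_lit 5) (nat_lit 225) (nat_lit 5) (nat_lit 285) (nat_lit 275) (nat_lit 220)) (XT.lf (nat_lit 0) (nat_lit 2269154199) (nat_lit 912) (nat_lit 1785639857) (nat_lit 988) (nat_lit 4279250873) (nat_lit 212) (nat_lit 5) (nat_lit 224) (nat_lit 5) (nat_lit 225) (nat_lit 5) (nat_lit 286) (nat_lit 275) (nat_lit 219))))))) (XT.nd (nat_lit 936) (nat_lit 3268) (nat_lit 0) (XT.nd (nat_lit 468) (nat_lit 3268) (nat_lit 0) (XT.nd (nat_lit 234) (nat_lit 836) (nat_lit 0) (XT.nd (nat_lit 78) (nat_lit 0) (nat_lit 76) (XT.lf (nat_lit 76) (nat_lit 2274383596) (nat_lit 0) (nat_lit 1394264637) (nat_lit 988) (nat_lit 4767605376) (nat_lit 213) (nat_lit 5) (nat_lit 212) (nat_lit 5) (nat_lit 225) (nat_lit 5) (nat_lit 287) (nat_lit 275) (nat_lit 218)) (XT.nd (nat_lit 78)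 (nat_lit 0) (nat_lit 0) (XT.lf (nat_lit 0) (nat_lit 5100663410) (nat_lit 912) (nat_lit 2091672014) (nat_lit 988) (nat_lit 1349556554) (nat_lit 213) (nat_lit 5) (nat_lit 225) (nat_lit 5) (nat_lit 226) (nat_lit 5) (nat_lit 288) (nat_lit 275) (nat_lit 217)) (XT.lf (nat_lit 76) (nat_lit 2098278955) (nat_lit 0) (nat_lit 4471904506) (nat_lit 988) (nat_lit 2080756904) (nat_lit 214) (nat_lit 5) (nat_lit 213) (nat_lit 5) (nat_lit 226) (nat_lit 5) (nat_lit 289) (nat_lit 275) (nat_lit 216)))) (XT.nd (nat_lit 78) (nat_lit 912) (nat_lit 0) (XT.lf (nat_lit 76) (nat_lit 6427601483) (nat_lit 0) (nat_lit 1638747020) (nat_lit 988) (nat_lit 697509872) (nat_lit 214) (nat_lit 5) (nat_lit 213) (nat_lit 5) (nat_lit 226) (nat_lit 5) (nat_lit 290) (nat_lit 275) (nat_lit 215)) (XT.nd (nat_lit 78) (nat_lit 0) (nat_lit 0) (XT.lf (nat_lit 0) (nat_lit 707123261) (nat_lit 988) (nat_lit 6883537091) (nat_lit 76) (nat_lit 1289542115)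 (nat_lit 201) (nat_lit 5) (nat_lit 214) (nat_lit 5) (nat_lit 202) (nat_lit 5) (nat_lit 291) (nat_lit 275) (nat_lit 214)) (XT.lf (nat_lit 0) (nat_lit 2142949369) (nat_lit 988) (nat_lit 2545378504) (nat_lit 76) (nat_lit 4311478220) (nat_lit 201) (nat_lit 5) (nat_lit 214) (nat_lit 5) (nat_lit 202) (nat_lit 5) (nat_lit 292) (nat_lit 275) (nat_lit 213))))) (XT.nd (nat_lit 234) (nat_lit 1216) (nat_lit 0) (XT.nd (nat_lit 78) (nat_lit 1064) (nat_lit 0) (XT.lf (nat_lit 0) (nat_lit 1931339585) (nat_lit 988) (nat_lit 1673175725) (nat_lit 1064) (nat_lit 5519069162) (nat_lit 188) (nat_lit 5) (nat_lit 201) (nat_lit 5) (nat_lit 202) (nat_lit 5) (nat_lit 293) (nat_lit 275) (nat_lit 212)) (XT.nd (nat_lit 78) (nat_lit 1064) (nat_lit 0) (XT.lf (nat_lit 0) (nat_lit 5114581386) (nat_lit 1064) (nat_lit 2699955413) (nat_lit 76) (nat_lit 1436464463) (nat_lit 188) (nat_lit 5) (nat_lit 202) (nat_lit 5) (nat_lit 189) (nat_lit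 5) (nat_lit 294) (nat_lit 275) (nat_lit 211)) (XT.lf (nat_lit 0) (nat_lit 1918692392) (nat_lit 1064) (nat_lit 4752214299) (nat_lit 1140) (nat_lit 2711367917) (nat_lit 174) (nat_lit 5) (nat_lit 188) (nat_lit 5) (nat_lit 189) (nat_lit 5) (nat_lit 295) (nat_lit 275) (nat_lit 210)))) (XT.nd (nat_lit 78) (nat_lit 1216) (nat_lit 0) (XT.lf (nat_lit 0) (nat_lit 6702248322) (nat_lit 1064) (nat_lit 1565598275) (nat_lit 1140) (nat_lit 1249882757) (nat_lit 174) (nat_lit 5) (nat_lit 188) (nat_lit 5) (nat_lit 189) (nat_lit 5) (nat_lit 296) (nat_lit 275) (nat_lit 209)) (XT.nd (nat_lit 78) (nat_lit 0) (nat_lit 0) (XT.lf (nat_lit 0) (nat_lit 253493528) (nat_lit 1216) (nat_lit 7695024335) (nat_lit 76) (nat_lit 1708622719) (nat_lit 158) (nat_lit 5) (nat_lit 174) (nat_lit 5) (nat_lit 159) (nat_lit 5) (nat_lit 297) (nat_lit 275) (nat_lit 208)) (XT.lf (nat_lit 0) (nat_lit 1789028746) (nat_lit 1216) (nat_lit 2916913418)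 (nat_lit 76) (nat_lit 5094111131) (nat_lit 158) (nat_lit 5) (nat_lit 174) (nat_lit 5) (nat_lit 159) (nat_lit 5) (nat_lit 298) (nat_lit 275) (nat_lit 207)))))) (XT.nd (nat_lit 468) (nat_lit 1520) (nat_lit 0) (XT.nd (nat_lit 234) (nat_lit 608) (nat_lit 0) (XT.nd (nat_lit 78) (nat_lit 608) (nat_lit 0) (XT.lf (nat_lit 0) (nat_lit 2015094915) (nat_lit 532) (nat_lit 1343804212) (nat_lit 608) (nat_lit 6588760338) (nat_lit 151) (nat_lit 5) (nat_lit 158) (nat_lit 5) (nat_lit 159) (nat_lit 5) (nat_lit 299) (nat_lit 275) (nat_lit 206)) (XT.nd (nat_lit 78) (nat_lit 608) (nat_lit 0) (XT.lf (nat_lit 0) (nat_lit 4995533275) (nat_lit 608) (nat_lit 2994086808) (nat_lit 76) (nat_lit 2109536275) (nat_lit 151) (nat_lit 5) (nat_lit 159) (nat_lit 5) (nat_lit 152) (nat_lit 5) (nat_lit 300) (nat_lit 275) (nat_lit 205)) (XT.lf (nat_lit 0) (nat_lit 2091438821) (nat_lit 608) (nat_lit 4593673592) (nat_lit 684) (nat_lit 3570021405)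 (nat_lit 143) (nat_lit 5) (nat_lit 151) (nat_lit 5) (nat_lit 152) (nat_lit 5) (nat_lit 301) (nat_lit 275) (nat_lit 204)))) (XT.nd (nat_lit 78) (nat_lit 608) (nat_lit 0) (XT.lf (nat_lit 0) (nat_lit 7362573626) (nat_lit 608) (nat_lit 1064065207) (nat_lit 684) (nat_lit 1989163525) (nat_lit 143) (nat_lit 5) (nat_lit 151) (nat_lit 5) (nat_lit 152) (nat_lit 5) (nat_lit 302) (nat_lit 275) (nat_lit 203)) (XT.nd (nat_lit 78) (nat_lit 76) (nat_lit 0) (XT.lf (nat_lit 0) (nat_lit 2200365158) (nat_lit 532) (nat_lit 8037790725) (nat_lit 608) (nat_lit 342650834) (nat_lit 136) (nat_lit 5) (nat_lit 143) (nat_lit 5) (nat_lit 144) (nat_lit 5) (nat_lit 303) (nat_lit 275) (nat_lit 202)) (XT.lf (nat_lit 0) (nat_lit 1340627876) (nat_lit 608) (nat_lit 3128257359) (nat_lit 76) (nat_lit 6281117742) (nat_lit 135) (nat_lit 5) (nat_lit 143) (nat_lit 5) (nat_lit 136) (nat_lit 5) (nat_lit 304) (nat_lit 275) (nat_lit 201)))))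 (XT.nd (nat_lit 234) (nat_lit 532) (nat_lit 0) (XT.nd (nat_lit 78) (nat_lit 456) (nat_lit 0) (XT.lf (nat_lit 0) (nat_lit 2294992815) (nat_lit 532) (nat_lit 767503908) (nat_lit 608) (nat_lit 7861871289) (nat_lit 128) (nat_lit 5) (nat_lit 135) (nat_lit 5) (nat_lit 136) (nat_lit 5) (nat_lit 305) (nat_lit 275) (nat_lit 200)) (XT.nd (nat_lit 78) (nat_lit 456) (nat_lit 0) (XT.lf (nat_lit 0) (nat_lit 4870624288) (nat_lit 608) (nat_lit 3215978450) (nat_lit 76) (nat_lit 3016365926) (nat_lit 128) (nat_lit 5) (nat_lit 136) (nat_lit 5) (nat_lit 129) (nat_lit 5) (nat_lit 306) (nat_lit 275) (nat_lit 199)) (XT.lf (nat_lit 0) (nat_lit 2370867405) (nat_lit 456) (nat_lit 4366722401) (nat_lit 532) (nat_lit 4549241204) (nat_lit 122) (nat_lit 5) (nat_lit 128) (nat_lit 5) (nat_lit 129) (nat_lit 5) (nat_lit 307) (nat_lit 275) (nat_lit 198)))) (XT.nd (nat_lit 78) (nat_lit 532) (nat_lit 0) (XT.lf (nat_lit 0) (nat_lit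 8163895898) (nat_lit 456) (nat_lit 503836758) (nat_lit 532) (nat_lit 2808301809) (nat_lit 122) (nat_lit 5) (nat_lit 128) (nat_lit 5) (nat_lit 129) (nat_lit 5) (nat_lit 308) (nat_lit 275) (nat_lit 197)) (XT.nd (nat_lit 78) (nat_lit 76) (nat_lit 0) (XT.lf (nat_lit 0) (nat_lit 2446836825) (nat_lit 456) (nat_lit 8241278000) (nat_lit 532) (nat_lit 981868266) (nat_lit 116) (nat_lit 5) (nat_lit 122) (nat_lit 5) (nat_lit 123) (nat_lit 5) (nat_lit 309) (nat_lit 275) (nat_lit 196)) (XT.lf (nat_lit 0) (nat_lit 896165714) (nat_lit 532) (nat_lit 3463797248) (nat_lit 76) (nat_lit 7509134015) (nat_lit 115) (nat_lit 5) (nat_lit 122) (nat_lit 5) (nat_lit 116) (nat_lit 5) (nat_lit 310) (nat_lit 275) (nat_lit 195))))))))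
noncomputable def xc150 : XT := (XT.nd (nat_lit 1794) (nat_lit 2356) (nat_lit 0) (XT.nd (nat_lit 858) (nat_lit 1596) (nat_lit 0) (XT.nd (nat_lit 390) (nat_lit 1140) (nat_lit 0) (XT.nd (nat_lit 156) (nat_lit 836) (nat_lit 0) (XT.nd (nat_lit 78) (nat_lit 0) (nat_lit 0) (XT.lf (nat_lit 0) (nat_lit 2480249455) (nat_lit 380) (nat_lit 330700696) (nat_lit 456) (nat_lit 9262973960) (nat_lit 110) (nat_lit 5) (nat_lit 115) (nat_lit 5) (nat_lit 116) (nat_lit 5) (nat_lit 311) (nat_lit 275) (nat_lit 194)) (XT.lf (nat_lit 0) (nat_lit 4831923539) (nat_lit 456) (nat_lit 3674484911) (nat_lit 76) (nat_lit 3777060004) (nat_lit 110) (nat_lit 5) (nat_lit 116) (nat_lit 5) (nat_lit 111) (nat_lit 5) (nat_lit 312) (nat_lit 275) (nat_lit 193))) (XT.nd (nat_lit 78) (nat_lit 380) (nat_lit 0) (XT.lf (nat_lit 0) (nat_lit 2440216803) (nat_lit 456) (nat_lit 4477425643) (nat_lit 532) (nat_lit 5581566933) (nat_lit 104) (nat_lit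 5) (nat_lit 110) (nat_lit 5) (nat_lit 111) (nat_lit 5) (nat_lit 313) (nat_lit 275) (nat_lit 192)) (XT.nd (nat_lit 78) (nat_lit 380) (nat_lit 0) (XT.lf (nat_lit 0) (nat_lit 8787534921) (nat_lit 456) (nat_lit 293295623) (nat_lit 532) (nat_lit 3640177818) (nat_lit 104) (nat_lit 5) (nat_lit 110) (nat_lit 5) (nat_lit 111) (nat_lit 5) (nat_lit 314) (nat_lit 275) (nat_lit 191)) (XT.lf (nat_lit 0) (nat_lit 2357172249) (nat_lit 380) (nat_lit 8991410888) (nat_lit 456) (nat_lit 1599719919) (nat_lit 99) (nat_lit 5) (nat_lit 104) (nat_lit 5) (nat_lit 105) (nat_lit 5) (nat_lit 315) (nat_lit 275) (nat_lit 190))))) (XT.nd (nat_lit 234) (nat_lit 684) (nat_lit 0) (XT.nd (nat_lit 78) (nat_lit 380) (nat_lit 0) (XT.lf (nat_lit 0) (nat_lit 513717929) (nat_lit 456) (nat_lit 4298407645) (nat_lit 76) (nat_lit 8369529411) (nat_lit 98) (nat_lit 5) (nat_lit 104) (nat_lit 5) (nat_lit 99) (nat_lit 5) (nat_lit 316) (nat_lit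 275) (nat_lit 189)) (XT.nd (nat_lit 78) (nat_lit 0) (nat_lit 0) (XT.lf (nat_lit 0) (nat_lit 2184418178) (nat_lit 380) (nat_lit 474154400) (nat_lit 456) (nat_lit 10762983843) (nat_lit 93) (nat_lit 5) (nat_lit 98) (nat_lit 5) (nat_lit 99) (nat_lit 5) (nat_lit 317) (nat_lit 275) (nat_lit 188)) (XT.lf (nat_lit 0) (nat_lit 4929487645) (nat_lit 456) (nat_lit 4782145963) (nat_lit 76) (nat_lit 3955198108) (nat_lit 93) (nat_lit 5) (nat_lit 99) (nat_lit 5) (nat_lit 94) (nat_lit 5) (nat_lit 318) (nat_lit 275) (nat_lit 187)))) (XT.nd (nat_lit 78) (nat_lit 380) (nat_lit 0) (XT.lf (nat_lit 0) (nat_lit 1873295014) (nat_lit 304) (nat_lit 5398021648) (nat_lit 380) (nat_lit 6648092448) (nat_lit 89) (nat_lit 5) (nat_lit 93) (nat_lit 5) (nat_lit 94) (nat_lit 5) (nat_lit 319) (nat_lit 275) (nat_lit 186)) (XT.nd (nat_lit 78) (nat_lit 380) (nat_lit 0) (XT.lf (nat_lit 0) (nat_lit 8801613018) (nat_lit 304) (nat_lit 910503990)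 (nat_lit 380) (nat_lit 4466611961) (nat_lit 89) (nat_lit 5) (nat_lit 93) (nat_lit 5) (nat_lit 94) (nat_lit 5) (nat_lit 320) (nat_lit 275) (nat_lit 185)) (XT.lf (nat_lit 0) (nat_lit 1460126130) (nat_lit 380) (nat_lit 10796676761) (nat_lit 456) (nat_lit 2188131548) (nat_lit 84) (nat_lit 5) (nat_lit 89) (nat_lit 5) (nat_lit 90) (nat_lit 5) (nat_lit 321) (nat_lit 275) (nat_lit 184)))))) (XT.nd (nat_lit 468) (nat_lit 912) (nat_lit 0) (XT.nd (nat_lit 234) (nat_lit 304) (nat_lit 0) (XT.nd (nat_lit 78) (nat_lit 304) (nat_lit 0) (XT.lf (nat_lit 0) (nat_lit 200514898) (nat_lit 456) (nat_lit 6140663675) (nat_lit 76) (nat_lit 8376578855) (nat_lit 83) (nat_lit 5) (nat_lit 89) (nat_lit 5) (nat_lit 84) (nat_lit 5) (nat_lit 322) (nat_lit 275) (nat_lit 183)) (XT.nd (nat_lit 78) (nat_lit 0) (nat_lit 0) (XT.lf (nat_lit 0) (nat_lit 880240021) (nat_lit 304) (nat_lit 1726672233) (nat_lit 380) (nat_lit 12391524455)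 (nat_lit 79) (nat_lit 5) (nat_lit 83) (nat_lit 5) (nat_lit 84) (nat_lit 5) (nat_lit 323) (nat_lit 275) (nat_lit 182)) (XT.lf (nat_lit 0) (nat_lit 5159075013) (nat_lit 380) (nat_lit 7102083365) (nat_lit 76) (nat_lit 3024193763) (nat_lit 79) (nat_lit 5) (nat_lit 84) (nat_lit 5) (nat_lit 80) (nat_lit 5) (nat_lit 324) (nat_lit 275) (nat_lit 181)))) (XT.nd (nat_lit 78) (nat_lit 0) (nat_lit 0) (XT.lf (nat_lit 0) (nat_lit 85442781) (nat_lit 304) (nat_lit 7702665820) (nat_lit 380) (nat_lit 7792779566) (nat_lit 75) (nat_lit 5) (nat_lit 79) (nat_lit 5) (nat_lit 80) (nat_lit 5) (nat_lit 325) (nat_lit 275) (nat_lit 180)) (XT.nd (nat_lit 78) (nat_lit 0) (nat_lit 0) (XT.lf (nat_lit 0) (nat_lit 7610770136) (nat_lit 304) (nat_lit 2939636943) (nat_lit 380) (nat_lit 5333273035) (nat_lit 75) (nat_lit 5) (nat_lit 79) (nat_lit 5) (nat_lit 80) (nat_lit 5) (nat_lit 326) (nat_lit 275) (nat_lit 179)) (XT.lf (nat_lit 0)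 (nat_lit 13397600142) (nat_lit 380) (nat_lit 875796868) (nat_lit 76) (nat_lit 1922119067) (nat_lit 75) (nat_lit 5) (nat_lit 80) (nat_lit 5) (nat_lit 76) (nat_lit 5) (nat_lit 327) (nat_lit 275) (nat_lit 178))))) (XT.nd (nat_lit 234) (nat_lit 228) (nat_lit 0) (XT.nd (nat_lit 78) (nat_lit 380) (nat_lit 0) (XT.lf (nat_lit 0) (nat_lit 6824778734) (nat_lit 304) (nat_lit 9583755563) (nat_lit 380) (nat_lit 105843479) (nat_lit 71) (nat_lit 5) (nat_lit 75) (nat_lit 5) (nat_lit 76) (nat_lit 5) (nat_lit 328) (nat_lit 275) (nat_lit 177)) (XT.nd (nat_lit 78) (nat_lit 304) (nat_lit 0) (XT.lf (nat_lit 0) (nat_lit 2607579763) (nat_lit 380) (nat_lit 2116584190) (nat_lit 76) (nat_lit 12118112577) (nat_lit 70) (nat_lit 5) (nat_lit 75) (nat_lit 5) (nat_lit 71) (nat_lit 5) (nat_lit 329) (nat_lit 275) (nat_lit 176)) (XT.lf (nat_lit 0) (nat_lit 5443152748) (nat_lit 380) (nat_lit 11408768163) (nat_lit 76) (nat_lit 326792347)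 (nat_lit 66) (nat_lit 5) (nat_lit 71) (nat_lit 5) (nat_lit 67) (nat_lit 5) (nat_lit 330) (nat_lit 275) (nat_lit 175)))) (XT.nd (nat_lit 78) (nat_lit 228) (nat_lit 0) (XT.lf (nat_lit 0) (nat_lit 8416518492) (nat_lit 380) (nat_lit 3657324402) (nat_lit 76) (nat_lit 5449836565) (nat_lit 66) (nat_lit 5) (nat_lit 71) (nat_lit 5) (nat_lit 67) (nat_lit 5) (nat_lit 331) (nat_lit 275) (nat_lit 174)) (XT.nd (nat_lit 78) (nat_lit 0) (nat_lit 0) (XT.lf (nat_lit 0) (nat_lit 4390794184) (nat_lit 228) (nat_lit 7115320065) (nat_lit 304) (nat_lit 6372087136) (nat_lit 63) (nat_lit 5) (nat_lit 66) (nat_lit 5) (nat_lit 67) (nat_lit 5) (nat_lit 332) (nat_lit 275) (nat_lit 173)) (XT.lf (nat_lit 0) (nat_lit 12733990459) (nat_lit 228) (nat_lit 1976398233) (nat_lit 304) (nat_lit 3532327649) (nat_lit 63) (nat_lit 5) (nat_lit 66) (nat_lit 5) (nat_lit 67) (nat_lit 5) (nat_lit 333) (nat_lit 275) (nat_lit 172))))))) (XT.nd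 (nat_lit 936) (nat_lit 988) (nat_lit 0) (XT.nd (nat_lit 468) (nat_lit 532) (nat_lit 0) (XT.nd (nat_lit 234) (nat_lit 228) (nat_lit 0) (XT.nd (nat_lit 78) (nat_lit 304) (nat_lit 0) (XT.lf (nat_lit 0) (nat_lit 2709191867) (nat_lit 304) (nat_lit 15344958465) (nat_lit 380) (nat_lit 562732244) (nat_lit 59) (nat_lit 5) (nat_lit 63) (nat_lit 5) (nat_lit 64) (nat_lit 5) (nat_lit 334) (nat_lit 275) (nat_lit 171)) (XT.nd (nat_lit 78) (nat_lit 228) (nat_lit 0) (XT.lf (nat_lit 0) (nat_lit 2508492430) (nat_lit 380) (nat_lit 7779351339) (nat_lit 76) (nat_lit 8711888506) (nat_lit 58) (nat_lit 5) (nat_lit 63) (nat_lit 5) (nat_lit 59) (nat_lit 5) (nat_lit 335) (nat_lit 275) (nat_lit 170)) (XT.lf (nat_lit 0) (nat_lit 577956941) (nat_lit 228) (nat_lit 5074064558) (nat_lit 304) (nat_lit 13742149667) (nat_lit 55) (nat_lit 5) (nat_lit 58) (nat_lit 5) (nat_lit 59) (nat_lit 5) (nat_lit 336) (nat_lit 275) (nat_lit 169))))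 (XT.nd (nat_lit 78) (nat_lit 228) (nat_lit 0) (XT.lf (nat_lit 0) (nat_lit 8958110695) (nat_lit 304) (nat_lit 10477011146) (nat_lit 76) (nat_lit 363288504) (nat_lit 55) (nat_lit 5) (nat_lit 59) (nat_lit 5) (nat_lit 56) (nat_lit 5) (nat_lit 337) (nat_lit 275) (nat_lit 168)) (XT.nd (nat_lit 78) (nat_lit 228) (nat_lit 0) (XT.lf (nat_lit 0) (nat_lit 12400100159) (nat_lit 304) (nat_lit 1958019564) (nat_lit 76) (nat_lit 5855569767) (nat_lit 55) (nat_lit 5) (nat_lit 59) (nat_lit 5) (nat_lit 56) (nat_lit 5) (nat_lit 338) (nat_lit 275) (nat_lit 167)) (XT.lf (nat_lit 0) (nat_lit 6932252528) (nat_lit 228) (nat_lit 9066606967) (nat_lit 304) (nat_lit 4640976110) (nat_lit 52) (nat_lit 5) (nat_lit 55) (nat_lit 5) (nat_lit 56) (nat_lit 5) (nat_lit 339) (nat_lit 275) (nat_lit 166))))) (XT.nd (nat_lit 234) (nat_lit 228) (nat_lit 0) (XT.nd (nat_lit 78) (nat_lit 304) (nat_lit 0) (XT.lf (nat_lit 0) (nat_lit 16109999601)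 (nat_lit 228) (nat_lit 3602423438) (nat_lit 304) (nat_lit 1366151318) (nat_lit 52) (nat_lit 5) (nat_lit 55) (nat_lit 5) (nat_lit 56) (nat_lit 5) (nat_lit 340) (nat_lit 275) (nat_lit 165)) (XT.nd (nat_lit 78) (nat_lit 0) (nat_lit 0) (XT.lf (nat_lit 0) (nat_lit 2014213498) (nat_lit 304) (nat_lit 17475371191) (nat_lit 76) (nat_lit 2038930828) (nat_lit 48) (nat_lit 5) (nat_lit 52) (nat_lit 5) (nat_lit 49) (nat_lit 5) (nat_lit 341) (nat_lit 275) (nat_lit 164)) (XT.lf (nat_lit 0) (nat_lit 5542303671) (nat_lit 304) (nat_lit 8611985299) (nat_lit 76) (nat_lit 7835059324) (nat_lit 48) (nat_lit 5) (nat_lit 52) (nat_lit 5) (nat_lit 49) (nat_lit 5) (nat_lit 342) (nat_lit 275) (nat_lit 163)))) (XT.nd (nat_lit 78) (nat_lit 0) (nat_lit 0) (XT.lf (nat_lit 0) (nat_lit 508574943) (nat_lit 228) (nat_lit 8660351814) (nat_lit 304) (nat_lit 13295310584) (nat_lit 45) (nat_lit 5) (nat_lit 48) (nat_lit 5) (nat_lit 49)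 (nat_lit 5) (nat_lit 343) (nat_lit 275) (nat_lit 162)) (XT.nd (nat_lit 78) (nat_lit 0) (nat_lit 0) (XT.lf (nat_lit 0) (nat_lit 10060820751) (nat_lit 228) (nat_lit 2918471191) (nat_lit 304) (nat_lit 9971844457) (nat_lit 45) (nat_lit 5) (nat_lit 48) (nat_lit 5) (nat_lit 49) (nat_lit 5) (nat_lit 344) (nat_lit 275) (nat_lit 161)) (XT.lf (nat_lit 0) (nat_lit 16921033441) (nat_lit 304) (nat_lit 3600036498) (nat_lit 76) (nat_lit 2931071832) (nat_lit 45) (nat_lit 5) (nat_lit 49) (nat_lit 5) (nat_lit 46) (nat_lit 5) (nat_lit 345) (nat_lit 275) (nat_lit 160)))))) (XT.nd (nat_lit 468) (nat_lit 380) (nat_lit 0) (XT.nd (nat_lit 234) (nat_lit 152) (nat_lit 0) (XT.nd (nat_lit 78) (nat_lit 304) (nat_lit 0) (XT.lf (nat_lit 0) (nat_lit 6040220933) (nat_lit 152) (nat_lit 15016375164) (nat_lit 228) (nat_lit 2909325114) (nat_lit 43) (nat_lit 5) (nat_lit 45) (nat_lit 5) (nat_lit 46) (nat_lit 5) (nat_lit 346) (nat_lit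 275) (nat_lit 159)) (XT.nd (nat_lit 78) (nat_lit 228) (nat_lit 0) (XT.lf (nat_lit 0) (nat_lit 830454502) (nat_lit 228) (nat_lit 8476556538) (nat_lit 76) (nat_lit 15187115575) (nat_lit 42) (nat_lit 5) (nat_lit 45) (nat_lit 5) (nat_lit 43) (nat_lit 5) (nat_lit 347) (nat_lit 275) (nat_lit 158)) (XT.lf (nat_lit 0) (nat_lit 1234091824) (nat_lit 228) (nat_lit 3390706989) (nat_lit 304) (nat_lit 20412499880) (nat_lit 39) (nat_lit 5) (nat_lit 42) (nat_lit 5) (nat_lit 43) (nat_lit 5) (nat_lit 348) (nat_lit 275) (nat_lit 157)))) (XT.nd (nat_lit 78) (nat_lit 152) (nat_lit 0) (XT.lf (nat_lit 0) (nat_lit 8634481248) (nat_lit 304) (nat_lit 14228561293) (nat_lit 76) (nat_lit 2730687907) (nat_lit 39) (nat_lit 5) (nat_lit 43) (nat_lit 5) (nat_lit 40) (nat_lit 5) (nat_lit 349) (nat_lit 275) (nat_lit 156)) (XT.nd (nat_lit 78) (nat_lit 152) (nat_lit 0) (XT.lf (nat_lit 0) (nat_lit 12787423556) (nat_lit 304) (nat_lit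 4417095072) (nat_lit 76) (nat_lit 8961656913) (nat_lit 39) (nat_lit 5) (nat_lit 43) (nat_lit 5) (nat_lit 40) (nat_lit 5) (nat_lit 350) (nat_lit 275) (nat_lit 155)) (XT.lf (nat_lit 0) (nat_lit 5785249524) (nat_lit 152) (nat_lit 11325022803) (nat_lit 228) (nat_lit 9644171303) (nat_lit 37) (nat_lit 5) (nat_lit 39) (nat_lit 5) (nat_lit 40) (nat_lit 5) (nat_lit 351) (nat_lit 275) (nat_lit 154))))) (XT.nd (nat_lit 234) (nat_lit 152) (nat_lit 0) (XT.nd (nat_lit 78) (nat_lit 228) (nat_lit 0) (XT.lf (nat_lit 0) (nat_lit 16368014272) (nat_lit 152) (nat_lit 5229247240) (nat_lit 228) (nat_lit 5762073525) (nat_lit 37) (nat_lit 5) (nat_lit 39) (nat_lit 5) (nat_lit 40) (nat_lit 5) (nat_lit 352) (nat_lit 275) (nat_lit 153)) (XT.nd (nat_lit 78) (nat_lit 228) (nat_lit 0) (XT.lf (nat_lit 0) (nat_lit 26219037980) (nat_lit 228) (nat_lit 740171114) (nat_lit 76) (nat_lit 1023167428) (nat_lit 37) (nat_lit 5) (nat_lit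 40) (nat_lit 5) (nat_lit 38) (nat_lit 5) (nat_lit 353) (nat_lit 275) (nat_lit 152)) (XT.lf (nat_lit 0) (nat_lit 2448506398) (nat_lit 228) (nat_lit 18698690275) (nat_lit 76) (nat_lit 7472068225) (nat_lit 34) (nat_lit 5) (nat_lit 37) (nat_lit 5) (nat_lit 35) (nat_lit 5) (nat_lit 354) (nat_lit 275) (nat_lit 151)))) (XT.nd (nat_lit 78) (nat_lit 152) (nat_lit 0) (XT.lf (nat_lit 0) (nat_lit 6749223037) (nat_lit 228) (nat_lit 8391806933) (nat_lit 76) (nat_lit 14133775389) (nat_lit 34) (nat_lit 5) (nat_lit 37) (nat_lit 5) (nat_lit 35) (nat_lit 5) (nat_lit 355) (nat_lit 275) (nat_lit 150)) (XT.nd (nat_lit 78) (nat_lit 0) (nat_lit 0) (XT.lf (nat_lit 0) (nat_lit 2253149038) (nat_lit 152) (nat_lit 8938159549) (nat_lit 228) (nat_lit 18758340722) (nat_lit 32) (nat_lit 5) (nat_lit 34) (nat_lit 5) (nat_lit 35) (nat_lit 5) (nat_lit 356) (nat_lit 275) (nat_lit 149)) (XT.lf (nat_lit 0) (nat_lit 13374524630) (nat_lit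 152) (nat_lit 2467689100) (nat_lit 228) (nat_lit 14800265609) (nat_lit 32) (nat_lit 5) (nat_lit 34) (nat_lit 5) (nat_lit 35) (nat_lit 5) (nat_lit 357) (nat_lit 275) (nat_lit 148))))))))
noncomputable def xc151 : XT := (XT.nd (nat_lit 1872) (nat_lit 380) (nat_lit 0) (XT.nd (nat_lit 936) (nat_lit 456) (nat_lit 0) (XT.nd (nat_lit 468) (nat_lit 304) (nat_lit 0) (XT.nd (nat_lit 234) (nat_lit 228) (nat_lit 0) (XT.nd (nat_lit 78) (nat_lit 152) (nat_lit 0) (XT.lf (nat_lit 0) (nat_lit 20664019032) (nat_lit 228) (nat_lit 6581634165) (nat_lit 76) (nat_lit 4109507138) (nat_lit 32) (nat_lit 5) (nat_lit 35) (nat_lit 5) (nat_lit 33) (nat_lit 5) (nat_lit 358) (nat_lit 275) (nat_lit 147)) (XT.nd (nat_lit 78) (nat_lit 0) (nat_lit 0) (XT.lf (nat_lit 0) (nat_lit 4473835079) (nat_lit 152) (nat_lit 21215372361) (nat_lit 228) (nat_lit 6398259495) (nat_lit 30) (nat_lit 5) (nat_lit 32) (nat_lit 5) (nat_lit 33) (nat_lit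 5) (nat_lit 359) (nat_lit 275) (nat_lit 146)) (XT.lf (nat_lit 0) (nat_lit 15981716746) (nat_lit 152) (nat_lit 14941304956) (nat_lit 228) (nat_lit 1916991764) (nat_lit 30) (nat_lit 5) (nat_lit 32) (nat_lit 5) (nat_lit 33) (nat_lit 5) (nat_lit 360) (nat_lit 275) (nat_lit 145)))) (XT.nd (nat_lit 78) (nat_lit 152) (nat_lit 0) (XT.lf (nat_lit 0) (nat_lit 2637622108) (nat_lit 228) (nat_lit 5820173468) (nat_lit 76) (nat_lit 25156821921) (nat_lit 29) (nat_lit 5) (nat_lit 32) (nat_lit 5) (nat_lit 30) (nat_lit 5) (nat_lit 361) (nat_lit 275) (nat_lit 144)) (XT.nd (nat_lit 78) (nat_lit 0) (nat_lit 0) (XT.lf (nat_lit 0) (nat_lit 5626379788) (nat_lit 152) (nat_lit 1709864458) (nat_lit 228) (nat_lit 27074275272) (nat_lit 27) (nat_lit 5) (nat_lit 29) (nat_lit 5) (nat_lit 30) (nat_lit 5) (nat_lit 362) (nat_lit 275) (nat_lit 143)) (XT.lf (nat_lit 0) (nat_lit 12277428061) (nat_lit 228) (nat_lit 17757443916) (nat_lit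 76) (nat_lit 5192384608) (nat_lit 27) (nat_lit 5) (nat_lit 30) (nat_lit 5) (nat_lit 28) (nat_lit 5) (nat_lit 363) (nat_lit 275) (nat_lit 142))))) (XT.nd (nat_lit 234) (nat_lit 152) (nat_lit 0) (XT.nd (nat_lit 78) (nat_lit 152) (nat_lit 0) (XT.lf (nat_lit 0) (nat_lit 17375887258) (nat_lit 228) (nat_lit 6430069916) (nat_lit 76) (nat_lit 12262273294) (nat_lit 27) (nat_lit 5) (nat_lit 30) (nat_lit 5) (nat_lit 28) (nat_lit 5) (nat_lit 364) (nat_lit 275) (nat_lit 141)) (XT.nd (nat_lit 78) (nat_lit 0) (nat_lit 0) (XT.lf (nat_lit 0) (nat_lit 5328290374) (nat_lit 152) (nat_lit 17342568949) (nat_lit 228) (nat_lit 14262273199) (nat_lit 25) (nat_lit 5) (nat_lit 27) (nat_lit 5) (nat_lit 28) (nat_lit 5) (nat_lit 365) (nat_lit 275) (nat_lit 140)) (XT.lf (nat_lit 0) (nat_lit 17558528118) (nat_lit 152) (nat_lit 10623525016) (nat_lit 228) (nat_lit 9640212888) (nat_lit 25) (nat_lit 5) (nat_lit 27) (nat_lit 5) (nat_lit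 28) (nat_lit 5) (nat_lit 366) (nat_lit 275) (nat_lit 139)))) (XT.nd (nat_lit 78) (nat_lit 152) (nat_lit 0) (XT.lf (nat_lit 0) (nat_lit 30143358929) (nat_lit 152) (nat_lit 3707885463) (nat_lit 228) (nat_lit 4887054682) (nat_lit 25) (nat_lit 5) (nat_lit 27) (nat_lit 5) (nat_lit 28) (nat_lit 5) (nat_lit 367) (nat_lit 275) (nat_lit 138)) (XT.nd (nat_lit 78) (nat_lit 0) (nat_lit 0) (XT.lf (nat_lit 0) (nat_lit 67890681) (nat_lit 152) (nat_lit 36234507998) (nat_lit 76) (nat_lit 3377636155) (nat_lit 23) (nat_lit 5) (nat_lit 25) (nat_lit 5) (nat_lit 24) (nat_lit 5) (nat_lit 368) (nat_lit 275) (nat_lit 137)) (XT.lf (nat_lit 0) (nat_lit 5190469852) (nat_lit 152) (nat_lit 24722137312) (nat_lit 76) (nat_lit 10732452530) (nat_lit 23) (nat_lit 5) (nat_lit 25) (nat_lit 5) (nat_lit 24) (nat_lit 5) (nat_lit 369) (nat_lit 275) (nat_lit 136)))))) (XT.nd (nat_lit 468) (nat_lit 228) (nat_lit 0) (XT.nd (nat_lit 234)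 (nat_lit 76) (nat_lit 0) (XT.nd (nat_lit 78) (nat_lit 152) (nat_lit 0) (XT.lf (nat_lit 0) (nat_lit 10459782029) (nat_lit 152) (nat_lit 12876197776) (nat_lit 76) (nat_lit 18303268624) (nat_lit 23) (nat_lit 5) (nat_lit 25) (nat_lit 5) (nat_lit 24) (nat_lit 5) (nat_lit 370) (nat_lit 275) (nat_lit 135)) (XT.nd (nat_lit 78) (nat_lit 152) (nat_lit 0) (XT.lf (nat_lit 0) (nat_lit 15880431465) (nat_lit 152) (nat_lit 686338568) (nat_lit 76) (nat_lit 26096699712) (nat_lit 23) (nat_lit 5) (nat_lit 25) (nat_lit 5) (nat_lit 24) (nat_lit 5) (nat_lit 371) (nat_lit 275) (nat_lit 134)) (XT.lf (nat_lit 0) (nat_lit 12094090919) (nat_lit 152) (nat_lit 9479319531) (nat_lit 228) (nat_lit 22141720470) (nat_lit 21) (nat_lit 5) (nat_lit 23) (nat_lit 5) (nat_lit 24) (nat_lit 5) (nat_lit 372) (nat_lit 275) (nat_lit 133)))) (XT.nd (nat_lit 78) (nat_lit 76) (nat_lit 0) (XT.lf (nat_lit 0) (nat_lit 25260986855) (nat_lit 152)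 (nat_lit 2176661652) (nat_lit 228) (nat_lit 17360683721) (nat_lit 21) (nat_lit 5) (nat_lit 23) (nat_lit 5) (nat_lit 24) (nat_lit 5) (nat_lit 373) (nat_lit 275) (nat_lit 132)) (XT.nd (nat_lit 78) (nat_lit 76) (nat_lit 0) (XT.lf (nat_lit 0) (nat_lit 33522878551) (nat_lit 228) (nat_lit 7153364844) (nat_lit 76) (nat_lit 5236438497) (nat_lit 21) (nat_lit 5) (nat_lit 24) (nat_lit 5) (nat_lit 22) (nat_lit 4) (nat_lit 374) (nat_lit 275) (nat_lit 131)) (XT.lf (nat_lit 0) (nat_lit 5680910084) (nat_lit 76) (nat_lit 34179783545) (nat_lit 152) (nat_lit 7197671710) (nat_lit 20) (nat_lit 5) (nat_lit 21) (nat_lit 5) (nat_lit 22) (nat_lit 4) (nat_lit 375) (nat_lit 275) (nat_lit 130))))) (XT.nd (nat_lit 234) (nat_lit 152) (nat_lit 0) (XT.nd (nat_lit 78) (nat_lit 76) (nat_lit 0) (XT.lf (nat_lit 0) (nat_lit 19036424523) (nat_lit 76) (nat_lit 27418400606) (nat_lit 152) (nat_lit 1781612719) (nat_lit 20) (nat_lit 5)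 (nat_lit 21) (nat_lit 5) (nat_lit 22) (nat_lit 4) (nat_lit 376) (nat_lit 275) (nat_lit 129)) (XT.nd (nat_lit 78) (nat_lit 0) (nat_lit 0) (XT.lf (nat_lit 0) (nat_lit 3716897601) (nat_lit 152) (nat_lit 16703990552) (nat_lit 76) (nat_lit 29028051374) (nat_lit 19) (nat_lit 5) (nat_lit 21) (nat_lit 5) (nat_lit 20) (nat_lit 5) (nat_lit 377) (nat_lit 275) (nat_lit 128)) (XT.lf (nat_lit 0) (nat_lit 9338788853) (nat_lit 152) (nat_lit 3860672478) (nat_lit 76) (nat_lit 37498002382) (nat_lit 19) (nat_lit 5) (nat_lit 21) (nat_lit 5) (nat_lit 20) (nat_lit 5) (nat_lit 378) (nat_lit 275) (nat_lit 127)))) (XT.nd (nat_lit 78) (nat_lit 0) (nat_lit 0) (XT.lf (nat_lit 0) (nat_lit 9544537470) (nat_lit 152) (nat_lit 5670949513) (nat_lit 228) (nat_lit 36765375706) (nat_lit 17) (nat_lit 5) (nat_lit 19) (nat_lit 5) (nat_lit 20) (nat_lit 5) (nat_lit 379) (nat_lit 275) (nat_lit 126)) (XT.nd (nat_lit 78) (nat_lit 0) (nat_lit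 0) (XT.lf (nat_lit 0) (nat_lit 21322318914) (nat_lit 228) (nat_lit 29900655225) (nat_lit 76) (nat_lit 2078177975) (nat_lit 17) (nat_lit 5) (nat_lit 20) (nat_lit 5) (nat_lit 18) (nat_lit 4) (nat_lit 380) (nat_lit 275) (nat_lit 125)) (XT.lf (nat_lit 0) (nat_lit 27663100476) (nat_lit 228) (nat_lit 17054472647) (nat_lit 76) (nat_lit 9941958122) (nat_lit 17) (nat_lit 5) (nat_lit 20) (nat_lit 5) (nat_lit 18) (nat_lit 4) (nat_lit 381) (nat_lit 275) (nat_lit 124))))))) (XT.nd (nat_lit 936) (nat_lit 0) (nat_lit 0) (XT.nd (nat_lit 468) (nat_lit 76) (nat_lit 0) (XT.nd (nat_lit 234) (nat_lit 228) (nat_lit 0) (XT.nd (nat_lit 78) (nat_lit 76) (nat_lit 0) (XT.lf (nat_lit 0) (nat_lit 34188859521) (nat_lit 228) (nat_lit 3832040030) (nat_lit 76) (nat_lit 18037922844) (nat_lit 17) (nat_lit 5) (nat_lit 20) (nat_lit 5) (nat_lit 18) (nat_lit 4) (nat_lit 382) (nat_lit 275) (nat_lit 123)) (XT.nd (nat_lit 78) (nat_lit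 0) (nat_lit 0) (XT.lf (nat_lit 0) (nat_lit 9972801483) (nat_lit 76) (nat_lit 31028361354) (nat_lit 152) (nat_lit 16496209470) (nat_lit 16) (nat_lit 5) (nat_lit 17) (nat_lit 5) (nat_lit 18) (nat_lit 4) (nat_lit 383) (nat_lit 275) (nat_lit 122)) (XT.lf (nat_lit 0) (nat_lit 24261558903) (nat_lit 76) (nat_lit 23789943195) (nat_lit 152) (nat_lit 10926569691) (nat_lit 16) (nat_lit 5) (nat_lit 17) (nat_lit 5) (nat_lit 18) (nat_lit 4) (nat_lit 384) (nat_lit 275) (nat_lit 121)))) (XT.nd (nat_lit 78) (nat_lit 228) (nat_lit 0) (XT.lf (nat_lit 0) (nat_lit 38970452440) (nat_lit 76) (nat_lit 16338016334) (nat_lit 152) (nat_lit 5194872953) (nat_lit 16) (nat_lit 5) (nat_lit 17) (nat_lit 5) (nat_lit 18) (nat_lit 4) (nat_lit 385) (nat_lit 275) (nat_lit 120)) (XT.nd (nat_lit 78) (nat_lit 152) (nat_lit 0) (XT.lf (nat_lit 0) (nat_lit 690153612) (nat_lit 152) (nat_lit 7968946568) (nat_lit 76) (nat_lit 53415211715)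 (nat_lit 15) (nat_lit 5) (nat_lit 17) (nat_lit 5) (nat_lit 16) (nat_lit 5) (nat_lit 386) (nat_lit 275) (nat_lit 119)) (XT.lf (nat_lit 0) (nat_lit 6060611976) (nat_lit 152) (nat_lit 640314700) (nat_lit 228) (nat_lit 56988335969) (nat_lit 13) (nat_lit 5) (nat_lit 15) (nat_lit 5) (nat_lit 16) (nat_lit 5) (nat_lit 387) (nat_lit 275) (nat_lit 118))))) (XT.nd (nat_lit 234) (nat_lit 76) (nat_lit 0) (XT.nd (nat_lit 78) (nat_lit 0) (nat_lit 0) (XT.lf (nat_lit 0) (nat_lit 13041903219) (nat_lit 228) (nat_lit 44758030376) (nat_lit 76) (nat_lit 7548234573) (nat_lit 13) (nat_lit 5) (nat_lit 16) (nat_lit 5) (nat_lit 14) (nat_lit 4) (nat_lit 388) (nat_lit 275) (nat_lit 117)) (XT.nd (nat_lit 78) (nat_lit 0) (nat_lit 0) (XT.lf (nat_lit 0) (nat_lit 19574957534) (nat_lit 228) (nat_lit 31515553444) (nat_lit 76) (nat_lit 15966277001) (nat_lit 13) (nat_lit 5) (nat_lit 16) (nat_lit 5) (nat_lit 14) (nat_lit 4) (nat_lit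 389) (nat_lit 275) (nat_lit 116)) (XT.lf (nat_lit 0) (nat_lit 26299643020) (nat_lit 228) (nat_lit 17883493681) (nat_lit 76) (nat_lit 24633663000) (nat_lit 13) (nat_lit 5) (nat_lit 16) (nat_lit 5) (nat_lit 14) (nat_lit 4) (nat_lit 390) (nat_lit 275) (nat_lit 115)))) (XT.nd (nat_lit 78) (nat_lit 76) (nat_lit 0) (XT.lf (nat_lit 0) (nat_lit 33221835617) (nat_lit 228) (nat_lit 3849939578) (nat_lit 76) (nat_lit 33557966014) (nat_lit 13) (nat_lit 5) (nat_lit 16) (nat_lit 5) (nat_lit 14) (nat_lit 4) (nat_lit 391) (nat_lit 275) (nat_lit 114)) (XT.nd (nat_lit 78) (nat_lit 0) (nat_lit 0) (XT.lf (nat_lit 0) (nat_lit 10808279657) (nat_lit 76) (nat_lit 29643199979) (nat_lit 152) (nat_lit 32042600116) (nat_lit 12) (nat_lit 5) (nat_lit 13) (nat_lit 5) (nat_lit 14) (nat_lit 4) (nat_lit 392) (nat_lit 275) (nat_lit 113)) (XT.lf (nat_lit 0) (nat_lit 25977986581) (nat_lit 76) (nat_lit 21954843793) (nat_lit 152) (nat_lit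 26480475847) (nat_lit 12) (nat_lit 5) (nat_lit 13) (nat_lit 5) (nat_lit 14) (nat_lit 4) (nat_lit 393) (nat_lit 275) (nat_lit 112)))))) (XT.nd (nat_lit 31824) (nat_lit 0) (nat_lit 15124) (XT.nd (nat_lit 31590) (nat_lit 0) (nat_lit 15884) (XT.nd (nat_lit 31434) (nat_lit 0) (nat_lit 16720) (XT.lf (nat_lit 0) (nat_lit 41595814929) (nat_lit 76) (nat_lit 14038865496) (nat_lit 152) (nat_lit 20755549520) (nat_lit 12) (nat_lit 5) (nat_lit 13) (nat_lit 5) (nat_lit 14) (nat_lit 4) (nat_lit 394) (nat_lit 275) (nat_lit 111)) (XT.nd (nat_lit 78) (nat_lit 0) (nat_lit 0) (XT.lf (nat_lit 0) (nat_lit 2695865638) (nat_lit 836) (nat_lit 542430138) (nat_lit 836) (nat_lit 542430138) (nat_lit 232) (nat_lit 3) (nat_lit 243) (nat_lit 3) (nat_lit 243) (nat_lit 5) (nat_lit 276) (nat_lit 276) (nat_lit 228)) (XT.lf (nat_lit 76) (nat_lit 2310428440) (nat_lit 0) (nat_lit 4482395743) (nat_lit 836) (nat_lit 839622584) (nat_lit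 233) (nat_lit 5) (nat_lit 232) (nat_lit 3) (nat_lit 243) (nat_lit 5) (nat_lit 277) (nat_lit 276) (nat_lit 227)))) (XT.nd (nat_lit 78) (nat_lit 0) (nat_lit 0) (XT.lf (nat_lit 0) (nat_lit 479566220) (nat_lit 836) (nat_lit 1908431643) (nat_lit 912) (nat_lit 5318741479) (nat_lit 221) (nat_lit 5) (nat_lit 232) (nat_lit 3) (nat_lit 233) (nat_lit 5) (nat_lit 278) (nat_lit 276) (nat_lit 226)) (XT.nd (nat_lit 78) (nat_lit 0) (nat_lit 76) (XT.lf (nat_lit 76) (nat_lit 1603553915) (nat_lit 0) (nat_lit 183290346) (nat_lit 912) (nat_lit 5997309116) (nat_lit 222) (nat_lit 5) (nat_lit 221) (nat_lit 5) (nat_lit 233) (nat_lit 5) (nat_lit 279) (nat_lit 276) (nat_lit 225)) (XT.lf (nat_lit 0) (nat_lit 3124257211) (nat_lit 836) (nat_lit 2652049482) (nat_lit 912) (nat_lit 2087956373) (nat_lit 222) (nat_lit 5) (nat_lit 233) (nat_lit 5) (nat_lit 234) (nat_lit 5) (nat_lit 280) (nat_lit 276) (nat_lit 224))))) (XT.nd (nat_lit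 234) (nat_lit 836) (nat_lit 0) (XT.nd (nat_lit 78) (nat_lit 0) (nat_lit 0) (XT.lf (nat_lit 76) (nat_lit 971836254) (nat_lit 0) (nat_lit 3493916289) (nat_lit 912) (nat_lit 3482202497) (nat_lit 223) (nat_lit 5) (nat_lit 222) (nat_lit 5) (nat_lit 234) (nat_lit 5) (nat_lit 281) (nat_lit 276) (nat_lit 223)) (XT.nd (nat_lit 78) (nat_lit 0) (nat_lit 76) (XT.lf (nat_lit 76) (nat_lit 4731404239) (nat_lit 0) (nat_lit 1096783637) (nat_lit 912) (nat_lit 2206643992) (nat_lit 223) (nat_lit 5) (nat_lit 222) (nat_lit 5) (nat_lit 234) (nat_lit 5) (nat_lit 282) (nat_lit 276) (nat_lit 222)) (XT.lf (nat_lit 76) (nat_lit 446761571) (nat_lit 0) (nat_lit 6757651603) (nat_lit 912) (nat_lit 920806501) (nat_lit 224) (nat_lit 5) (nat_lit 223) (nat_lit 5) (nat_lit 235) (nat_lit 5) (nat_lit 283) (nat_lit 276) (nat_lit 221)))) (XT.nd (nat_lit 78) (nat_lit 0) (nat_lit 0) (XT.lf (nat_lit 0) (nat_lit 396220073) (nat_lit 912)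 (nat_lit 3884110877) (nat_lit 988) (nat_lit 3937943971) (nat_lit 211) (nat_lit 5) (nat_lit 223) (nat_lit 5) (nat_lit 224) (nat_lit 5) (nat_lit 284) (nat_lit 276) (nat_lit 220)) (XT.nd (nat_lit 78) (nat_lit 0) (nat_lit 76) (XT.lf (nat_lit 0) (nat_lit 1691475491) (nat_lit 912) (nat_lit 13105226) (nat_lit 988) (nat_lit 6610635200) (nat_lit 211) (nat_lit 5) (nat_lit 223) (nat_lit 5) (nat_lit 224) (nat_lit 5) (nat_lit 285) (nat_lit 276) (nat_lit 219)) (XT.lf (nat_lit 0) (nat_lit 3032391313) (nat_lit 912) (nat_lit 4399528028) (nat_lit 988) (nat_lit 983023623) (nat_lit 212) (nat_lit 5) (nat_lit 224) (nat_lit 5) (nat_lit 225) (nat_lit 5) (nat_lit 286) (nat_lit 276) (nat_lit 218))))))))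
noncomputable def xc152 : XT := (XT.nd (nat_lit 1794) (nat_lit 4484) (nat_lit 0) (XT.nd (nat_lit 858) (nat_lit 3876) (nat_lit 0) (XT.nd (nat_lit 390) (nat_lit 2052) (nat_lit 0) (XT.nd (nat_lit 156) (nat_lit 912) (nat_lit 0) (XT.nd (nat_lit 78) (nat_lit 0) (nat_lit 0) (XT.lf (nat_lit 0) (nat_lit 4390097620) (nat_lit 912) (nat_lit 397875444) (nat_lit 988) (nat_lit 3730471382) (nat_lit 212) (nat_lit 5) (nat_lit 224) (nat_lit 5) (nat_lit 225) (nat_lit 5) (nat_lit 287) (nat_lit 276) (nat_lit 217)) (XT.lf (nat_lit 76) (nat_lit 3769817992) (nat_lit 0) (nat_lit 2015685337) (nat_lit 988) (nat_lit 2839715800) (nat_lit 213) (nat_lit 5) (nat_lit 212) (nat_lit 5) (nat_lit 225) (nat_lit 5) (nat_lit 288) (nat_lit 276) (nat_lit 216))) (XT.nd (nat_lit 78) (nat_lit 988) (nat_lit 0) (XT.lf (nat_lit 0) (nat_lit 7196619475) (nat_lit 912) (nat_lit 701124722) (nat_lit 988) (nat_lit 838312359) (nat_lit 213) (nat_lit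 5) (nat_lit 225) (nat_lit 5) (nat_lit 226) (nat_lit 5) (nat_lit 289) (nat_lit 276) (nat_lit 215)) (XT.nd (nat_lit 78) (nat_lit 988) (nat_lit 0) (XT.lf (nat_lit 76) (nat_lit 3600276762) (nat_lit 0) (nat_lit 5067191016) (nat_lit 988) (nat_lit 182302137) (nat_lit 214) (nat_lit 5) (nat_lit 213) (nat_lit 5) (nat_lit 226) (nat_lit 5) (nat_lit 290) (nat_lit 276) (nat_lit 214)) (XT.lf (nat_lit 0) (nat_lit 1162199324) (nat_lit 988) (nat_lit 961672594) (nat_lit 1064) (nat_lit 6843629646) (nat_lit 200) (nat_lit 5) (nat_lit 213) (nat_lit 5) (nat_lit 214) (nat_lit 5) (nat_lit 291) (nat_lit 276) (nat_lit 213))))) (XT.nd (nat_lit 234) (nat_lit 1140) (nat_lit 0) (XT.nd (nat_lit 78) (nat_lit 988) (nat_lit 0) (XT.lf (nat_lit 0) (nat_lit 2550403153) (nat_lit 988) (nat_lit 5604348305) (nat_lit 76) (nat_lit 933815205) (nat_lit 201) (nat_lit 5) (nat_lit 214) (nat_lit 5) (nat_lit 202) (nat_lit 5) (nat_lit 292) (nat_lit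 276) (nat_lit 212)) (XT.nd (nat_lit 78) (nat_lit 988) (nat_lit 0) (XT.lf (nat_lit 0) (nat_lit 3976234156) (nat_lit 988) (nat_lit 1179317628) (nat_lit 76) (nat_lit 4057897156) (nat_lit 201) (nat_lit 5) (nat_lit 214) (nat_lit 5) (nat_lit 202) (nat_lit 5) (nat_lit 293) (nat_lit 276) (nat_lit 211)) (XT.lf (nat_lit 0) (nat_lit 3417560609) (nat_lit 988) (nat_lit 2026291810) (nat_lit 1064) (nat_lit 3898317667) (nat_lit 188) (nat_lit 5) (nat_lit 201) (nat_lit 5) (nat_lit 202) (nat_lit 5) (nat_lit 294) (nat_lit 276) (nat_lit 210)))) (XT.nd (nat_lit 78) (nat_lit 1140) (nat_lit 0) (XT.lf (nat_lit 0) (nat_lit 6945970080) (nat_lit 1064) (nat_lit 1337930175) (nat_lit 76) (nat_lit 1191199429) (nat_lit 188) (nat_lit 5) (nat_lit 202) (nat_lit 5) (nat_lit 189) (nat_lit 5) (nat_lit 295) (nat_lit 276) (nat_lit 209)) (XT.nd (nat_lit 78) (nat_lit 76) (nat_lit 0) (XT.lf (nat_lit 0) (nat_lit 3405129771) (nat_lit 1064)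 (nat_lit 5108718244) (nat_lit 1140) (nat_lit 1097607420) (nat_lit 174) (nat_lit 5) (nat_lit 188) (nat_lit 5) (nat_lit 189) (nat_lit 5) (nat_lit 296) (nat_lit 276) (nat_lit 208)) (XT.lf (nat_lit 0) (nat_lit 351357698) (nat_lit 1140) (nat_lit 1465366827) (nat_lit 76) (nat_lit 7935668892) (nat_lit 173) (nat_lit 5) (nat_lit 188) (nat_lit 5) (nat_lit 174) (nat_lit 5) (nat_lit 297) (nat_lit 276) (nat_lit 207)))))) (XT.nd (nat_lit 468) (nat_lit 1596) (nat_lit 0) (XT.nd (nat_lit 234) (nat_lit 608) (nat_lit 0) (XT.nd (nat_lit 78) (nat_lit 532) (nat_lit 0) (XT.lf (nat_lit 0) (nat_lit 1839600068) (nat_lit 1216) (nat_lit 6465809548) (nat_lit 76) (nat_lit 1591341972) (nat_lit 158) (nat_lit 5) (nat_lit 174) (nat_lit 5) (nat_lit 159) (nat_lit 5) (nat_lit 298) (nat_lit 276) (nat_lit 206)) (XT.nd (nat_lit 78) (nat_lit 532) (nat_lit 0) (XT.lf (nat_lit 0) (nat_lit 3375225564) (nat_lit 1216) (nat_lit 1586881484)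 (nat_lit 76) (nat_lit 5083303952) (nat_lit 158) (nat_lit 5) (nat_lit 174) (nat_lit 5) (nat_lit 159) (nat_lit 5) (nat_lit 299) (nat_lit 276) (nat_lit 205)) (XT.lf (nat_lit 0) (nat_lit 3479189655) (nat_lit 532) (nat_lit 1481858387) (nat_lit 608) (nat_lit 5237409343) (nat_lit 151) (nat_lit 5) (nat_lit 158) (nat_lit 5) (nat_lit 159) (nat_lit 5) (nat_lit 300) (nat_lit 276) (nat_lit 204)))) (XT.nd (nat_lit 78) (nat_lit 608) (nat_lit 0) (XT.lf (nat_lit 0) (nat_lit 6602139472) (nat_lit 608) (nat_lit 1673993594) (nat_lit 76) (nat_lit 2079780821) (nat_lit 151) (nat_lit 5) (nat_lit 159) (nat_lit 5) (nat_lit 152) (nat_lit 5) (nat_lit 301) (nat_lit 276) (nat_lit 203)) (XT.nd (nat_lit 78) (nat_lit 0) (nat_lit 0) (XT.lf (nat_lit 0) (nat_lit 3550275099) (nat_lit 608) (nat_lit 4763121660) (nat_lit 684) (nat_lit 2204117440) (nat_lit 143) (nat_lit 5) (nat_lit 151) (nat_lit 5) (nat_lit 152) (nat_lit 5) (nat_lit 302)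 (nat_lit 276) (nat_lit 202)) (XT.lf (nat_lit 0) (nat_lit 8938881042) (nat_lit 608) (nat_lit 1126703532) (nat_lit 684) (nat_lit 618736870) (nat_lit 143) (nat_lit 5) (nat_lit 151) (nat_lit 5) (nat_lit 152) (nat_lit 5) (nat_lit 303) (nat_lit 276) (nat_lit 201))))) (XT.nd (nat_lit 234) (nat_lit 456) (nat_lit 0) (XT.nd (nat_lit 78) (nat_lit 532) (nat_lit 0) (XT.lf (nat_lit 0) (nat_lit 1028476157) (nat_lit 608) (nat_lit 7212913985) (nat_lit 76) (nat_lit 2613472461) (nat_lit 135) (nat_lit 5) (nat_lit 143) (nat_lit 5) (nat_lit 136) (nat_lit 5) (nat_lit 304) (nat_lit 276) (nat_lit 200)) (XT.nd (nat_lit 78) (nat_lit 532) (nat_lit 0) (XT.lf (nat_lit 0) (nat_lit 2715331737) (nat_lit 608) (nat_lit 1847786401) (nat_lit 76) (nat_lit 6467180955) (nat_lit 135) (nat_lit 5) (nat_lit 143) (nat_lit 5) (nat_lit 136) (nat_lit 5) (nat_lit 305) (nat_lit 276) (nat_lit 199)) (XT.lf (nat_lit 0) (nat_lit 3724687566) (nat_lit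 532) (nat_lit 738381862) (nat_lit 608) (nat_lit 6747662455) (nat_lit 128) (nat_lit 5) (nat_lit 135) (nat_lit 5) (nat_lit 136) (nat_lit 5) (nat_lit 306) (nat_lit 276) (nat_lit 198)))) (XT.nd (nat_lit 78) (nat_lit 456) (nat_lit 0) (XT.lf (nat_lit 0) (nat_lit 6287810078) (nat_lit 608) (nat_lit 1951573468) (nat_lit 76) (nat_lit 3156497277) (nat_lit 128) (nat_lit 5) (nat_lit 136) (nat_lit 5) (nat_lit 129) (nat_lit 5) (nat_lit 307) (nat_lit 276) (nat_lit 197)) (XT.nd (nat_lit 78) (nat_lit 0) (nat_lit 0) (XT.lf (nat_lit 0) (nat_lit 3789535760) (nat_lit 456) (nat_lit 4397180833) (nat_lit 532) (nat_lit 3399324046) (nat_lit 122) (nat_lit 5) (nat_lit 128) (nat_lit 5) (nat_lit 129) (nat_lit 5) (nat_lit 308) (nat_lit 276) (nat_lit 196)) (XT.lf (nat_lit 0) (nat_lit 9717106301) (nat_lit 456) (nat_lit 421337065) (nat_lit 532) (nat_lit 1643624267) (nat_lit 122) (nat_lit 5) (nat_lit 128) (nat_lit 5) (nat_lit 129)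 (nat_lit 5) (nat_lit 309) (nat_lit 276) (nat_lit 195))))))) (XT.nd (nat_lit 936) (nat_lit 1976) (nat_lit 0) (XT.nd (nat_lit 468) (nat_lit 1140) (nat_lit 0) (XT.nd (nat_lit 234) (nat_lit 456) (nat_lit 0) (XT.nd (nat_lit 78) (nat_lit 380) (nat_lit 0) (XT.lf (nat_lit 0) (nat_lit 211153922) (nat_lit 532) (nat_lit 8131954499) (nat_lit 76) (nat_lit 3639366640) (nat_lit 115) (nat_lit 5) (nat_lit 122) (nat_lit 5) (nat_lit 116) (nat_lit 5) (nat_lit 310) (nat_lit 276) (nat_lit 194)) (XT.nd (nat_lit 78) (nat_lit 380) (nat_lit 0) (XT.lf (nat_lit 0) (nat_lit 2090762973) (nat_lit 532) (nat_lit 2249104673) (nat_lit 76) (nat_lit 7848506932) (nat_lit 115) (nat_lit 5) (nat_lit 122) (nat_lit 5) (nat_lit 116) (nat_lit 5) (nat_lit 311) (nat_lit 276) (nat_lit 193)) (XT.lf (nat_lit 0) (nat_lit 3860335917) (nat_lit 380) (nat_lit 181194974) (nat_lit 456) (nat_lit 8358510814) (nat_lit 110) (nat_lit 5) (nat_lit 115) (nat_lit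 5) (nat_lit 116) (nat_lit 5) (nat_lit 312) (nat_lit 276) (nat_lit 192)))) (XT.nd (nat_lit 78) (nat_lit 456) (nat_lit 0) (XT.lf (nat_lit 0) (nat_lit 6091235364) (nat_lit 456) (nat_lit 2483509167) (nat_lit 76) (nat_lit 4042134670) (nat_lit 110) (nat_lit 5) (nat_lit 116) (nat_lit 5) (nat_lit 111) (nat_lit 5) (nat_lit 313) (nat_lit 276) (nat_lit 191)) (XT.nd (nat_lit 78) (nat_lit 0) (nat_lit 0) (XT.lf (nat_lit 0) (nat_lit 3801876635) (nat_lit 456) (nat_lit 4417577689) (nat_lit 532) (nat_lit 4620288604) (nat_lit 104) (nat_lit 5) (nat_lit 110) (nat_lit 5) (nat_lit 111) (nat_lit 5) (nat_lit 314) (nat_lit 276) (nat_lit 190)) (XT.lf (nat_lit 0) (nat_lit 10302086530) (nat_lit 456) (nat_lit 113579227) (nat_lit 532) (nat_lit 2653533310) (nat_lit 104) (nat_lit 5) (nat_lit 110) (nat_lit 5) (nat_lit 111) (nat_lit 5) (nat_lit 315) (nat_lit 276) (nat_lit 189))))) (XT.nd (nat_lit 234) (nat_lit 304) (nat_lit 0)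 (XT.nd (nat_lit 78) (nat_lit 456) (nat_lit 0) (XT.lf (nat_lit 0) (nat_lit 3697866351) (nat_lit 380) (nat_lit 9036607745) (nat_lit 456) (nat_lit 569393459) (nat_lit 99) (nat_lit 5) (nat_lit 104) (nat_lit 5) (nat_lit 105) (nat_lit 5) (nat_lit 316) (nat_lit 276) (nat_lit 188)) (XT.nd (nat_lit 78) (nat_lit 380) (nat_lit 0) (XT.lf (nat_lit 0) (nat_lit 1555611204) (nat_lit 456) (nat_lit 3172507375) (nat_lit 76) (nat_lit 8816757360) (nat_lit 98) (nat_lit 5) (nat_lit 104) (nat_lit 5) (nat_lit 99) (nat_lit 5) (nat_lit 317) (nat_lit 276) (nat_lit 187)) (XT.lf (nat_lit 0) (nat_lit 3492500748) (nat_lit 380) (nat_lit 254357370) (nat_lit 456) (nat_lit 10045696676) (nat_lit 93) (nat_lit 5) (nat_lit 98) (nat_lit 5) (nat_lit 99) (nat_lit 5) (nat_lit 318) (nat_lit 276) (nat_lit 186)))) (XT.nd (nat_lit 78) (nat_lit 304) (nat_lit 0) (XT.lf (nat_lit 0) (nat_lit 6058710062) (nat_lit 456) (nat_lit 3690708608) (nat_lit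 76) (nat_lit 4296625951) (nat_lit 93) (nat_lit 5) (nat_lit 99) (nat_lit 5) (nat_lit 94) (nat_lit 5) (nat_lit 319) (nat_lit 276) (nat_lit 185)) (XT.nd (nat_lit 78) (nat_lit 0) (nat_lit 0) (XT.lf (nat_lit 0) (nat_lit 3152288719) (nat_lit 304) (nat_lit 5301676829) (nat_lit 380) (nat_lit 5852778018) (nat_lit 89) (nat_lit 5) (nat_lit 93) (nat_lit 5) (nat_lit 94) (nat_lit 5) (nat_lit 320) (nat_lit 276) (nat_lit 184)) (XT.lf (nat_lit 0) (nat_lit 10252840879) (nat_lit 304) (nat_lit 687056519) (nat_lit 380) (nat_lit 3634826627) (nat_lit 89) (nat_lit 5) (nat_lit 93) (nat_lit 5) (nat_lit 94) (nat_lit 5) (nat_lit 321) (nat_lit 276) (nat_lit 183)))))) (XT.nd (nat_lit 468) (nat_lit 912) (nat_lit 0) (XT.nd (nat_lit 234) (nat_lit 304) (nat_lit 0) (XT.nd (nat_lit 78) (nat_lit 380) (nat_lit 0) (XT.lf (nat_lit 0) (nat_lit 2706162422) (nat_lit 380) (nat_lit 10841384027) (nat_lit 456) (nat_lit 1301807649) (nat_lit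 84) (nat_lit 5) (nat_lit 89) (nat_lit 5) (nat_lit 90) (nat_lit 5) (nat_lit 322) (nat_lit 276) (nat_lit 182)) (XT.nd (nat_lit 78) (nat_lit 304) (nat_lit 0) (XT.lf (nat_lit 0) (nat_lit 1112735709) (nat_lit 456) (nat_lit 5138466123) (nat_lit 76) (nat_lit 8879735987) (nat_lit 83) (nat_lit 5) (nat_lit 89) (nat_lit 5) (nat_lit 84) (nat_lit 5) (nat_lit 323) (nat_lit 276) (nat_lit 181)) (XT.lf (nat_lit 0) (nat_lit 2081433141) (nat_lit 304) (nat_lit 1494790275) (nat_lit 380) (nat_lit 11844301076) (nat_lit 79) (nat_lit 5) (nat_lit 83) (nat_lit 5) (nat_lit 84) (nat_lit 5) (nat_lit 324) (nat_lit 276) (nat_lit 180)))) (XT.nd (nat_lit 78) (nat_lit 304) (nat_lit 0) (XT.lf (nat_lit 0) (nat_lit 6181644079) (nat_lit 380) (nat_lit 6150170806) (nat_lit 76) (nat_lit 3384964688) (nat_lit 79) (nat_lit 5) (nat_lit 84) (nat_lit 5) (nat_lit 80) (nat_lit 5) (nat_lit 325) (nat_lit 276) (nat_lit 179)) (XT.nd (nat_lit 78)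 (nat_lit 0) (nat_lit 0) (XT.lf (nat_lit 0) (nat_lit 1241559800) (nat_lit 304) (nat_lit 7633801903) (nat_lit 380) (nat_lit 7146277601) (nat_lit 75) (nat_lit 5) (nat_lit 79) (nat_lit 5) (nat_lit 80) (nat_lit 5) (nat_lit 326) (nat_lit 276) (nat_lit 178)) (XT.lf (nat_lit 0) (nat_lit 8959048324) (nat_lit 304) (nat_lit 2736618389) (nat_lit 380) (nat_lit 4638625253) (nat_lit 75) (nat_lit 5) (nat_lit 79) (nat_lit 5) (nat_lit 80) (nat_lit 5) (nat_lit 327) (nat_lit 276) (nat_lit 177))))) (XT.nd (nat_lit 234) (nat_lit 532) (nat_lit 0) (XT.nd (nat_lit 78) (nat_lit 76) (nat_lit 0) (XT.lf (nat_lit 0) (nat_lit 211824201) (nat_lit 304) (nat_lit 14397067010) (nat_lit 380) (nat_lit 2047203507) (nat_lit 71) (nat_lit 5) (nat_lit 75) (nat_lit 5) (nat_lit 76) (nat_lit 5) (nat_lit 328) (nat_lit 276) (nat_lit 176)) (XT.nd (nat_lit 78) (nat_lit 0) (nat_lit 0) (XT.lf (nat_lit 0) (nat_lit 696306890) (nat_lit 380) (nat_lit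 8863424125) (nat_lit 76) (nat_lit 7425065379) (nat_lit 70) (nat_lit 5) (nat_lit 75) (nat_lit 5) (nat_lit 71) (nat_lit 5) (nat_lit 329) (nat_lit 276) (nat_lit 175)) (XT.lf (nat_lit 0) (nat_lit 3465611355) (nat_lit 380) (nat_lit 1096766246) (nat_lit 76) (nat_lit 12760852512) (nat_lit 70) (nat_lit 5) (nat_lit 75) (nat_lit 5) (nat_lit 71) (nat_lit 5) (nat_lit 330) (nat_lit 276) (nat_lit 174)))) (XT.nd (nat_lit 78) (nat_lit 228) (nat_lit 0) (XT.lf (nat_lit 0) (nat_lit 6376784836) (nat_lit 380) (nat_lit 10657355271) (nat_lit 76) (nat_lit 635930649) (nat_lit 66) (nat_lit 5) (nat_lit 71) (nat_lit 5) (nat_lit 67) (nat_lit 5) (nat_lit 331) (nat_lit 276) (nat_lit 173)) (XT.nd (nat_lit 78) (nat_lit 228) (nat_lit 0) (XT.lf (nat_lit 0) (nat_lit 9416914538) (nat_lit 380) (nat_lit 2705222837) (nat_lit 76) (nat_lit 5903947712) (nat_lit 66) (nat_lit 5) (nat_lit 71) (nat_lit 5) (nat_lit 67) (nat_lit 5) (nat_lit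 332) (nat_lit 276) (nat_lit 172)) (XT.lf (nat_lit 0) (nat_lit 5573929295) (nat_lit 228) (nat_lit 7013592172) (nat_lit 304) (nat_lit 5804096779) (nat_lit 63) (nat_lit 5) (nat_lit 66) (nat_lit 5) (nat_lit 67) (nat_lit 5) (nat_lit 333) (nat_lit 276) (nat_lit 171))))))))
noncomputable def xc153 : XT := (XT.nd (nat_lit 1794) (nat_lit 1292) (nat_lit 0) (XT.nd (nat_lit 858) (nat_lit 836) (nat_lit 0) (XT.nd (nat_lit 390) (nat_lit 760) (nat_lit 0) (XT.nd (nat_lit 156) (nat_lit 228) (nat_lit 0) (XT.nd (nat_lit 78) (nat_lit 380) (nat_lit 0) (XT.lf (nat_lit 0) (nat_lit 14136797829) (nat_lit 228) (nat_lit 1729682904) (nat_lit 304) (nat_lit 2901255759) (nat_lit 63) (nat_lit 5) (nat_lit 66) (nat_lit 5) (nat_lit 67) (nat_lit 5) (nat_lit 334) (nat_lit 276) (nat_lit 170)) (XT.lf (nat_lit 0) (nat_lit 146189476) (nat_lit 380) (nat_lit 15334448695) (nat_lit 76) (nat_lit 3672712255) (nat_lit 58) (nat_lit 5) (nat_lit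 63) (nat_lit 5) (nat_lit 59) (nat_lit 5) (nat_lit 335) (nat_lit 276) (nat_lit 169))) (XT.nd (nat_lit 78) (nat_lit 228) (nat_lit 0) (XT.lf (nat_lit 0) (nat_lit 3277430046) (nat_lit 380) (nat_lit 6998264763) (nat_lit 76) (nat_lit 9272470428) (nat_lit 58) (nat_lit 5) (nat_lit 63) (nat_lit 5) (nat_lit 59) (nat_lit 5) (nat_lit 336) (nat_lit 276) (nat_lit 168)) (XT.nd (nat_lit 78) (nat_lit 0) (nat_lit 0) (XT.lf (nat_lit 0) (nat_lit 1599817010) (nat_lit 228) (nat_lit 4904899696) (nat_lit 304) (nat_lit 13450058839) (nat_lit 55) (nat_lit 5) (nat_lit 58) (nat_lit 5) (nat_lit 59) (nat_lit 5) (nat_lit 337) (nat_lit 276) (nat_lit 167)) (XT.lf (nat_lit 0) (nat_lit 9893090839) (nat_lit 304) (nat_lit 9798454733) (nat_lit 76) (nat_lit 680124426) (nat_lit 55) (nat_lit 5) (nat_lit 59) (nat_lit 5) (nat_lit 56) (nat_lit 5) (nat_lit 338) (nat_lit 276) (nat_lit 166))))) (XT.nd (nat_lit 234) (nat_lit 532) (nat_lit 0)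 (XT.nd (nat_lit 78) (nat_lit 228) (nat_lit 0) (XT.lf (nat_lit 0) (nat_lit 13418935031) (nat_lit 304) (nat_lit 1052811852) (nat_lit 76) (nat_lit 6328263333) (nat_lit 55) (nat_lit 5) (nat_lit 59) (nat_lit 5) (nat_lit 56) (nat_lit 5) (nat_lit 339) (nat_lit 276) (nat_lit 165)) (XT.nd (nat_lit 78) (nat_lit 0) (nat_lit 0) (XT.lf (nat_lit 0) (nat_lit 8094717929) (nat_lit 228) (nat_lit 9021274672) (nat_lit 304) (nat_lit 4123258001) (nat_lit 52) (nat_lit 5) (nat_lit 55) (nat_lit 5) (nat_lit 56) (nat_lit 5) (nat_lit 340) (nat_lit 276) (nat_lit 164)) (XT.lf (nat_lit 0) (nat_lit 17519996507) (nat_lit 228) (nat_lit 3402408273) (nat_lit 304) (nat_lit 769322855) (nat_lit 52) (nat_lit 5) (nat_lit 55) (nat_lit 5) (nat_lit 56) (nat_lit 5) (nat_lit 341) (nat_lit 276) (nat_lit 163)))) (XT.nd (nat_lit 78) (nat_lit 228) (nat_lit 0) (XT.lf (nat_lit 0) (nat_lit 2693760153) (nat_lit 304) (nat_lit 17053007166) (nat_lit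 76) (nat_lit 2408421440) (nat_lit 48) (nat_lit 5) (nat_lit 52) (nat_lit 5) (nat_lit 49) (nat_lit 5) (nat_lit 342) (nat_lit 276) (nat_lit 162)) (XT.nd (nat_lit 78) (nat_lit 228) (nat_lit 0) (XT.lf (nat_lit 0) (nat_lit 6309660403) (nat_lit 304) (nat_lit 7951291303) (nat_lit 76) (nat_lit 8369453519) (nat_lit 48) (nat_lit 5) (nat_lit 52) (nat_lit 5) (nat_lit 49) (nat_lit 5) (nat_lit 343) (nat_lit 276) (nat_lit 161)) (XT.lf (nat_lit 0) (nat_lit 1433875417) (nat_lit 228) (nat_lit 8602447250) (nat_lit 304) (nat_lit 13083498272) (nat_lit 45) (nat_lit 5) (nat_lit 48) (nat_lit 5) (nat_lit 49) (nat_lit 5) (nat_lit 344) (nat_lit 276) (nat_lit 160)))))) (XT.nd (nat_lit 468) (nat_lit 380) (nat_lit 0) (XT.nd (nat_lit 234) (nat_lit 304) (nat_lit 0) (XT.nd (nat_lit 78) (nat_lit 152) (nat_lit 0) (XT.lf (nat_lit 0) (nat_lit 11246182486) (nat_lit 228) (nat_lit 2697564047) (nat_lit 304) (nat_lit 9678114713) (nat_lit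 45) (nat_lit 5) (nat_lit 48) (nat_lit 5) (nat_lit 49) (nat_lit 5) (nat_lit 345) (nat_lit 276) (nat_lit 159)) (XT.nd (nat_lit 78) (nat_lit 152) (nat_lit 0) (XT.lf (nat_lit 0) (nat_lit 17989869251) (nat_lit 304) (nat_lit 2835822798) (nat_lit 76) (nat_lit 3312637083) (nat_lit 45) (nat_lit 5) (nat_lit 49) (nat_lit 5) (nat_lit 46) (nat_lit 5) (nat_lit 346) (nat_lit 276) (nat_lit 158)) (XT.lf (nat_lit 0) (nat_lit 7085091230) (nat_lit 152) (nat_lit 15156363849) (nat_lit 228) (nat_lit 2426323938) (nat_lit 43) (nat_lit 5) (nat_lit 45) (nat_lit 5) (nat_lit 46) (nat_lit 5) (nat_lit 347) (nat_lit 276) (nat_lit 157)))) (XT.nd (nat_lit 78) (nat_lit 228) (nat_lit 0) (XT.lf (nat_lit 0) (nat_lit 1398234831) (nat_lit 228) (nat_lit 7881045845) (nat_lit 76) (nat_lit 15932888876) (nat_lit 42) (nat_lit 5) (nat_lit 45) (nat_lit 5) (nat_lit 43) (nat_lit 5) (nat_lit 348) (nat_lit 276) (nat_lit 156)) (XT.nd (nat_lit 78)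 (nat_lit 0) (nat_lit 0) (XT.lf (nat_lit 0) (nat_lit 2112590523) (nat_lit 228) (nat_lit 3186096078) (nat_lit 304) (nat_lit 20473196290) (nat_lit 39) (nat_lit 5) (nat_lit 42) (nat_lit 5) (nat_lit 43) (nat_lit 5) (nat_lit 349) (nat_lit 276) (nat_lit 155)) (XT.lf (nat_lit 0) (nat_lit 9415931682) (nat_lit 304) (nat_lit 13825256914) (nat_lit 76) (nat_lit 3104214832) (nat_lit 39) (nat_lit 5) (nat_lit 43) (nat_lit 5) (nat_lit 40) (nat_lit 5) (nat_lit 350) (nat_lit 276) (nat_lit 154))))) (XT.nd (nat_lit 234) (nat_lit 228) (nat_lit 0) (XT.nd (nat_lit 78) (nat_lit 152) (nat_lit 0) (XT.lf (nat_lit 0) (nat_lit 13678246259) (nat_lit 304) (nat_lit 3743626159) (nat_lit 76) (nat_lit 9513619522) (nat_lit 39) (nat_lit 5) (nat_lit 43) (nat_lit 5) (nat_lit 40) (nat_lit 5) (nat_lit 351) (nat_lit 276) (nat_lit 153)) (XT.nd (nat_lit 78) (nat_lit 0) (nat_lit 0) (XT.lf (nat_lit 0) (nat_lit 6756886993) (nat_lit 152) (nat_lit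 11366792318) (nat_lit 228) (nat_lit 9417954987) (nat_lit 37) (nat_lit 5) (nat_lit 39) (nat_lit 5) (nat_lit 40) (nat_lit 5) (nat_lit 352) (nat_lit 276) (nat_lit 152)) (XT.lf (nat_lit 0) (nat_lit 17633889636) (nat_lit 152) (nat_lit 5096822551) (nat_lit 228) (nat_lit 5434410046) (nat_lit 37) (nat_lit 5) (nat_lit 39) (nat_lit 5) (nat_lit 40) (nat_lit 5) (nat_lit 353) (nat_lit 276) (nat_lit 151)))) (XT.nd (nat_lit 78) (nat_lit 76) (nat_lit 0) (XT.lf (nat_lit 0) (nat_lit 1781666) (nat_lit 152) (nat_lit 27477935626) (nat_lit 228) (nat_lit 1327492842) (nat_lit 35) (nat_lit 5) (nat_lit 37) (nat_lit 5) (nat_lit 38) (nat_lit 5) (nat_lit 354) (nat_lit 276) (nat_lit 150)) (XT.nd (nat_lit 78) (nat_lit 0) (nat_lit 0) (XT.lf (nat_lit 0) (nat_lit 2994541147) (nat_lit 228) (nat_lit 18493223332) (nat_lit 76) (nat_lit 7975510332) (nat_lit 34) (nat_lit 5) (nat_lit 37) (nat_lit 5) (nat_lit 35) (nat_lit 5) (nat_lit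 355) (nat_lit 276) (nat_lit 149)) (XT.lf (nat_lit 0) (nat_lit 7410514832) (nat_lit 228) (nat_lit 7899456625) (nat_lit 76) (nat_lit 14828934341) (nat_lit 34) (nat_lit 5) (nat_lit 37) (nat_lit 5) (nat_lit 35) (nat_lit 5) (nat_lit 356) (nat_lit 276) (nat_lit 148))))))) (XT.nd (nat_lit 936) (nat_lit 608) (nat_lit 0) (XT.nd (nat_lit 468) (nat_lit 304) (nat_lit 0) (XT.nd (nat_lit 234) (nat_lit 228) (nat_lit 0) (XT.nd (nat_lit 78) (nat_lit 0) (nat_lit 0) (XT.lf (nat_lit 0) (nat_lit 3057552884) (nat_lit 152) (nat_lit 8922029181) (nat_lit 228) (nat_lit 18854612474) (nat_lit 32) (nat_lit 5) (nat_lit 34) (nat_lit 5) (nat_lit 35) (nat_lit 5) (nat_lit 357) (nat_lit 276) (nat_lit 147)) (XT.nd (nat_lit 78) (nat_lit 0) (nat_lit 0) (XT.lf (nat_lit 0) (nat_lit 14491109275) (nat_lit 152) (nat_lit 2265724478) (nat_lit 228) (nat_lit 14791381859) (nat_lit 32) (nat_lit 5) (nat_lit 34) (nat_lit 5) (nat_lit 35) (nat_lit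 5) (nat_lit 358) (nat_lit 276) (nat_lit 146)) (XT.lf (nat_lit 0) (nat_lit 21713072269) (nat_lit 228) (nat_lit 6074001658) (nat_lit 76) (nat_lit 4495520151) (nat_lit 32) (nat_lit 5) (nat_lit 35) (nat_lit 5) (nat_lit 33) (nat_lit 5) (nat_lit 359) (nat_lit 276) (nat_lit 145)))) (XT.nd (nat_lit 78) (nat_lit 76) (nat_lit 0) (XT.lf (nat_lit 0) (nat_lit 5306219099) (nat_lit 152) (nat_lit 21577009448) (nat_lit 228) (nat_lit 6153825073) (nat_lit 30) (nat_lit 5) (nat_lit 32) (nat_lit 5) (nat_lit 33) (nat_lit 5) (nat_lit 360) (nat_lit 276) (nat_lit 144)) (XT.nd (nat_lit 78) (nat_lit 76) (nat_lit 0) (XT.lf (nat_lit 0) (nat_lit 17139002198) (nat_lit 152) (nat_lit 15122724606) (nat_lit 228) (nat_lit 1550829471) (nat_lit 30) (nat_lit 5) (nat_lit 32) (nat_lit 5) (nat_lit 33) (nat_lit 5) (nat_lit 361) (nat_lit 276) (nat_lit 143)) (XT.lf (nat_lit 0) (nat_lit 3120056284) (nat_lit 228) (nat_lit 5328352508) (nat_lit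 76) (nat_lit 26162239684) (nat_lit 29) (nat_lit 5) (nat_lit 32) (nat_lit 5) (nat_lit 30) (nat_lit 5) (nat_lit 362) (nat_lit 276) (nat_lit 142))))) (XT.nd (nat_lit 234) (nat_lit 152) (nat_lit 0) (XT.nd (nat_lit 78) (nat_lit 0) (nat_lit 0) (XT.lf (nat_lit 0) (nat_lit 6455063755) (nat_lit 152) (nat_lit 1499169859) (nat_lit 228) (nat_lit 27476365029) (nat_lit 27) (nat_lit 5) (nat_lit 29) (nat_lit 5) (nat_lit 30) (nat_lit 5) (nat_lit 363) (nat_lit 276) (nat_lit 141)) (XT.nd (nat_lit 78) (nat_lit 0) (nat_lit 0) (XT.lf (nat_lit 0) (nat_lit 13034508626) (nat_lit 228) (nat_lit 17640059835) (nat_lit 76) (nat_lit 5597552412) (nat_lit 27) (nat_lit 5) (nat_lit 30) (nat_lit 5) (nat_lit 28) (nat_lit 5) (nat_lit 364) (nat_lit 276) (nat_lit 140)) (XT.lf (nat_lit 0) (nat_lit 18274598558) (nat_lit 228) (nat_lit 5991799782) (nat_lit 76) (nat_lit 12872273790) (nat_lit 27) (nat_lit 5) (nat_lit 30) (nat_lit 5) (nat_lit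 28) (nat_lit 5) (nat_lit 365) (nat_lit 276) (nat_lit 139)))) (XT.nd (nat_lit 78) (nat_lit 0) (nat_lit 0) (XT.lf (nat_lit 0) (nat_lit 6113123355) (nat_lit 152) (nat_lit 17610310919) (nat_lit 228) (nat_lit 14306244757) (nat_lit 25) (nat_lit 5) (nat_lit 27) (nat_lit 5) (nat_lit 28) (nat_lit 5) (nat_lit 366) (nat_lit 276) (nat_lit 138)) (XT.nd (nat_lit 78) (nat_lit 0) (nat_lit 0) (XT.lf (nat_lit 0) (nat_lit 18692064805) (nat_lit 152) (nat_lit 10697051059) (nat_lit 228) (nat_lit 9556704092) (nat_lit 25) (nat_lit 5) (nat_lit 27) (nat_lit 5) (nat_lit 28) (nat_lit 5) (nat_lit 367) (nat_lit 276) (nat_lit 137)) (XT.lf (nat_lit 0) (nat_lit 31636767312) (nat_lit 152) (nat_lit 3581083476) (nat_lit 228) (nat_lit 4671806922) (nat_lit 25) (nat_lit 5) (nat_lit 27) (nat_lit 5) (nat_lit 28) (nat_lit 5) (nat_lit 368) (nat_lit 276) (nat_lit 136)))))) (XT.nd (nat_lit 468) (nat_lit 304) (nat_lit 0) (XT.nd (nat_lit 234)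 (nat_lit 152) (nat_lit 0) (XT.nd (nat_lit 78) (nat_lit 0) (nat_lit 0) (XT.lf (nat_lit 0) (nat_lit 422379805) (nat_lit 152) (nat_lit 36722534445) (nat_lit 76) (nat_lit 3714704618) (nat_lit 23) (nat_lit 5) (nat_lit 25) (nat_lit 5) (nat_lit 24) (nat_lit 5) (nat_lit 369) (nat_lit 276) (nat_lit 135)) (XT.nd (nat_lit 78) (nat_lit 0) (nat_lit 0) (XT.lf (nat_lit 0) (nat_lit 5688370747) (nat_lit 152) (nat_lit 24882239497) (nat_lit 76) (nat_lit 11283299289) (nat_lit 23) (nat_lit 5) (nat_lit 25) (nat_lit 5) (nat_lit 24) (nat_lit 5) (nat_lit 370) (nat_lit 276) (nat_lit 134)) (XT.lf (nat_lit 0) (nat_lit 11105795684) (nat_lit 152) (nat_lit 12697860472) (nat_lit 76) (nat_lit 19074573656) (nat_lit 23) (nat_lit 5) (nat_lit 25) (nat_lit 5) (nat_lit 24) (nat_lit 5) (nat_lit 371) (nat_lit 276) (nat_lit 133)))) (XT.nd (nat_lit 78) (nat_lit 152) (nat_lit 0) (XT.lf (nat_lit 0) (nat_lit 16679388287) (nat_lit 152) (nat_lit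 158750825) (nat_lit 76) (nat_lit 27095335629) (nat_lit 23) (nat_lit 5) (nat_lit 25) (nat_lit 5) (nat_lit 24) (nat_lit 5) (nat_lit 372) (nat_lit 276) (nat_lit 132)) (XT.nd (nat_lit 78) (nat_lit 0) (nat_lit 0) (XT.lf (nat_lit 0) (nat_lit 12999717254) (nat_lit 152) (nat_lit 9539262666) (nat_lit 228) (nat_lit 22477837621) (nat_lit 21) (nat_lit 5) (nat_lit 23) (nat_lit 5) (nat_lit 24) (nat_lit 5) (nat_lit 373) (nat_lit 276) (nat_lit 131)) (XT.lf (nat_lit 0) (nat_lit 26545810254) (nat_lit 152) (nat_lit 2024062035) (nat_lit 228) (nat_lit 17562927084) (nat_lit 21) (nat_lit 5) (nat_lit 23) (nat_lit 5) (nat_lit 24) (nat_lit 5) (nat_lit 374) (nat_lit 276) (nat_lit 130))))) (XT.nd (nat_lit 234) (nat_lit 228) (nat_lit 0) (XT.nd (nat_lit 78) (nat_lit 76) (nat_lit 0) (XT.lf (nat_lit 0) (nat_lit 34830690063) (nat_lit 228) (nat_lit 6849148282) (nat_lit 76) (nat_lit 5600956374) (nat_lit 21) (nat_lit 5) (nat_lit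 24) (nat_lit 5) (nat_lit 22) (nat_lit 4) (nat_lit 375) (nat_lit 276) (nat_lit 129)) (XT.nd (nat_lit 78) (nat_lit 0) (nat_lit 0) (XT.lf (nat_lit 0) (nat_lit 6365068448) (nat_lit 76) (nat_lit 34989709680) (nat_lit 152) (nat_lit 7106192322) (nat_lit 20) (nat_lit 5) (nat_lit 21) (nat_lit 5) (nat_lit 22) (nat_lit 4) (nat_lit 376) (nat_lit 276) (nat_lit 128)) (XT.lf (nat_lit 0) (nat_lit 20106285279) (nat_lit 76) (nat_lit 28031761002) (nat_lit 152) (nat_lit 1536605237) (nat_lit 20) (nat_lit 5) (nat_lit 21) (nat_lit 5) (nat_lit 22) (nat_lit 4) (nat_lit 377) (nat_lit 276) (nat_lit 127)))) (XT.nd (nat_lit 78) (nat_lit 152) (nat_lit 0) (XT.lf (nat_lit 0) (nat_lit 4112513183) (nat_lit 152) (nat_lit 16715034012) (nat_lit 76) (nat_lit 30096156117) (nat_lit 19) (nat_lit 5) (nat_lit 21) (nat_lit 5) (nat_lit 20) (nat_lit 5) (nat_lit 378) (nat_lit 276) (nat_lit 126)) (XT.nd (nat_lit 78) (nat_lit 152) (nat_lit 0)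 (XT.lf (nat_lit 0) (nat_lit 9894786164) (nat_lit 152) (nat_lit 3500690461) (nat_lit 76) (nat_lit 38814460125) (nat_lit 19) (nat_lit 5) (nat_lit 21) (nat_lit 5) (nat_lit 20) (nat_lit 5) (nat_lit 379) (nat_lit 276) (nat_lit 125)) (XT.lf (nat_lit 0) (nat_lit 10302011058) (nat_lit 152) (nat_lit 5642269051) (nat_lit 228) (nat_lit 37587667862) (nat_lit 17) (nat_lit 5) (nat_lit 19) (nat_lit 5) (nat_lit 20) (nat_lit 5) (nat_lit 380) (nat_lit 276) (nat_lit 124))))))))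
noncomputable def xc154 : XT := (XT.nd (nat_lit 33228) (nat_lit 0) (nat_lit 8360) (XT.nd (nat_lit 858) (nat_lit 76) (nat_lit 0) (XT.nd (nat_lit 390) (nat_lit 228) (nat_lit 0) (XT.nd (nat_lit 156) (nat_lit 76) (nat_lit 0) (XT.nd (nat_lit 78) (nat_lit 0) (nat_lit 0) (XT.lf (nat_lit 0) (nat_lit 22228240511) (nat_lit 228) (nat_lit 30334017610) (nat_lit 76) (nat_lit 2329775225) (nat_lit 17) (nat_lit 5) (nat_lit 20) (nat_lit 5) (nat_lit 18) (nat_lit 4) (nat_lit 381) (nat_lit 276) (nat_lit 123)) (XT.lf (nat_lit 0) (nat_lit 28751490606) (nat_lit 228) (nat_lit 17115954136) (nat_lit 76) (nat_lit 10423956586) (nat_lit 17) (nat_lit 5) (nat_lit 20) (nat_lit 5) (nat_lit 18) (nat_lit 4) (nat_lit 382) (nat_lit 276) (nat_lit 122))) (XT.nd (nat_lit 78) (nat_lit 76) (nat_lit 0) (XT.lf (nat_lit 0) (nat_lit 35465493380) (nat_lit 228) (nat_lit 3509959784) (nat_lit 76) (nat_lit 18757448607) (nat_lit 17) (nat_lit 5)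 (nat_lit 20) (nat_lit 5) (nat_lit 18) (nat_lit 4) (nat_lit 383) (nat_lit 276) (nat_lit 121)) (XT.nd (nat_lit 78) (nat_lit 0) (nat_lit 0) (XT.lf (nat_lit 0) (nat_lit 10704742254) (nat_lit 76) (nat_lit 31774273714) (nat_lit 152) (nat_lit 16735691257) (nat_lit 16) (nat_lit 5) (nat_lit 17) (nat_lit 5) (nat_lit 18) (nat_lit 4) (nat_lit 384) (nat_lit 276) (nat_lit 120)) (XT.lf (nat_lit 0) (nat_lit 25409557832) (nat_lit 76) (nat_lit 24324089567) (nat_lit 152) (nat_lit 11006401251) (nat_lit 16) (nat_lit 5) (nat_lit 17) (nat_lit 5) (nat_lit 18) (nat_lit 4) (nat_lit 385) (nat_lit 276) (nat_lit 119))))) (XT.nd (nat_lit 234) (nat_lit 0) (nat_lit 0) (XT.nd (nat_lit 78) (nat_lit 228) (nat_lit 0) (XT.lf (nat_lit 0) (nat_lit 40547480733) (nat_lit 76) (nat_lit 16653834568) (nat_lit 152) (nat_lit 5109975908) (nat_lit 16) (nat_lit 5) (nat_lit 17) (nat_lit 5) (nat_lit 18) (nat_lit 4) (nat_lit 386) (nat_lit 276) (nat_lit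 118)) (XT.nd (nat_lit 78) (nat_lit 152) (nat_lit 0) (XT.lf (nat_lit 0) (nat_lit 940028575) (nat_lit 152) (nat_lit 7807285530) (nat_lit 76) (nat_lit 55182217249) (nat_lit 15) (nat_lit 5) (nat_lit 17) (nat_lit 5) (nat_lit 16) (nat_lit 5) (nat_lit 387) (nat_lit 276) (nat_lit 117)) (XT.lf (nat_lit 0) (nat_lit 6639231050) (nat_lit 152) (nat_lit 489033208) (nat_lit 228) (nat_lit 58464756113) (nat_lit 13) (nat_lit 5) (nat_lit 15) (nat_lit 5) (nat_lit 16) (nat_lit 5) (nat_lit 388) (nat_lit 276) (nat_lit 116)))) (XT.nd (nat_lit 78) (nat_lit 0) (nat_lit 0) (XT.lf (nat_lit 0) (nat_lit 13654469679) (nat_lit 228) (nat_lit 45710400408) (nat_lit 76) (nat_lit 7936976795) (nat_lit 13) (nat_lit 5) (nat_lit 16) (nat_lit 5) (nat_lit 14) (nat_lit 4) (nat_lit 389) (nat_lit 276) (nat_lit 115)) (XT.nd (nat_lit 78) (nat_lit 0) (nat_lit 0) (XT.lf (nat_lit 0) (nat_lit 20377069720) (nat_lit 228) (nat_lit 32082019194) (nat_lit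 76) (nat_lit 16602833452) (nat_lit 13) (nat_lit 5) (nat_lit 16) (nat_lit 5) (nat_lit 14) (nat_lit 4) (nat_lit 390) (nat_lit 276) (nat_lit 114)) (XT.lf (nat_lit 0) (nat_lit 27297237612) (nat_lit 228) (nat_lit 18052036497) (nat_lit 76) (nat_lit 25525651667) (nat_lit 13) (nat_lit 5) (nat_lit 16) (nat_lit 5) (nat_lit 14) (nat_lit 4) (nat_lit 391) (nat_lit 276) (nat_lit 113)))))) (XT.nd (nat_lit 31902) (nat_lit 0) (nat_lit 15048) (XT.nd (nat_lit 31668) (nat_lit 0) (nat_lit 15884) (XT.nd (nat_lit 78) (nat_lit 76) (nat_lit 0) (XT.lf (nat_lit 0) (nat_lit 34421020104) (nat_lit 228) (nat_lit 3608193112) (nat_lit 76) (nat_lit 34713228079) (nat_lit 13) (nat_lit 5) (nat_lit 16) (nat_lit 5) (nat_lit 14) (nat_lit 4) (nat_lit 392) (nat_lit 276) (nat_lit 112)) (XT.nd (nat_lit 78) (nat_lit 0) (nat_lit 0) (XT.lf (nat_lit 0) (nat_lit 11486270302) (nat_lit 76) (nat_lit 30378784614) (nat_lit 152) (nat_lit 32797733421)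 (nat_lit 12) (nat_lit 5) (nat_lit 13) (nat_lit 5) (nat_lit 14) (nat_lit 4) (nat_lit 393) (nat_lit 276) (nat_lit 111)) (XT.lf (nat_lit 0) (nat_lit 27100765261) (nat_lit 76) (nat_lit 22464254772) (nat_lit 152) (nat_lit 27074749639) (nat_lit 12) (nat_lit 5) (nat_lit 13) (nat_lit 5) (nat_lit 14) (nat_lit 4) (nat_lit 394) (nat_lit 276) (nat_lit 110)))) (XT.nd (nat_lit 78) (nat_lit 0) (nat_lit 0) (XT.lf (nat_lit 0) (nat_lit 103714866) (nat_lit 0) (nat_lit 103714866) (nat_lit 836) (nat_lit 3645237394) (nat_lit 221) (nat_lit 5) (nat_lit 221) (nat_lit 3) (nat_lit 232) (nat_lit 3) (nat_lit 277) (nat_lit 277) (nat_lit 226)) (XT.nd (nat_lit 78) (nat_lit 0) (nat_lit 0) (XT.lf (nat_lit 0) (nat_lit 1691027319) (nat_lit 836) (nat_lit 4103688824) (nat_lit 912) (nat_lit 1985518771) (nat_lit 221) (nat_lit 5) (nat_lit 232) (nat_lit 3) (nat_lit 233) (nat_lit 5) (nat_lit 278) (nat_lit 277) (nat_lit 225)) (XT.lf (nat_lit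 0) (nat_lit 2958965827) (nat_lit 836) (nat_lit 635901137) (nat_lit 912) (nat_lit 4264011792) (nat_lit 221) (nat_lit 5) (nat_lit 232) (nat_lit 3) (nat_lit 233) (nat_lit 5) (nat_lit 279) (nat_lit 277) (nat_lit 224))))) (XT.nd (nat_lit 234) (nat_lit 836) (nat_lit 0) (XT.nd (nat_lit 78) (nat_lit 0) (nat_lit 76) (XT.lf (nat_lit 76) (nat_lit 2968406895) (nat_lit 0) (nat_lit 1277916202) (nat_lit 912) (nat_lit 3694215194) (nat_lit 222) (nat_lit 5) (nat_lit 221) (nat_lit 5) (nat_lit 233) (nat_lit 5) (nat_lit 280) (nat_lit 277) (nat_lit 223)) (XT.nd (nat_lit 78) (nat_lit 0) (nat_lit 0) (XT.lf (nat_lit 0) (nat_lit 5543620026) (nat_lit 836) (nat_lit 1368159115) (nat_lit 912) (nat_lit 1113823849) (nat_lit 222) (nat_lit 5) (nat_lit 233) (nat_lit 5) (nat_lit 234) (nat_lit 5) (nat_lit 281) (nat_lit 277) (nat_lit 222)) (XT.lf (nat_lit 76) (nat_lit 2351076018) (nat_lit 0) (nat_lit 4519525096) (nat_lit 912) (nat_lit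 1242987741) (nat_lit 223) (nat_lit 5) (nat_lit 222) (nat_lit 5) (nat_lit 234) (nat_lit 5) (nat_lit 282) (nat_lit 277) (nat_lit 221)))) (XT.nd (nat_lit 78) (nat_lit 0) (nat_lit 76) (XT.lf (nat_lit 0) (nat_lit 2524724) (nat_lit 912) (nat_lit 2021109081) (nat_lit 988) (nat_lit 6181557969) (nat_lit 210) (nat_lit 5) (nat_lit 222) (nat_lit 5) (nat_lit 223) (nat_lit 5) (nat_lit 283) (nat_lit 277) (nat_lit 220)) (XT.nd (nat_lit 78) (nat_lit 0) (nat_lit 0) (XT.lf (nat_lit 0) (nat_lit 1241048402) (nat_lit 912) (nat_lit 6475795113) (nat_lit 988) (nat_lit 582995560) (nat_lit 211) (nat_lit 5) (nat_lit 223) (nat_lit 5) (nat_lit 224) (nat_lit 5) (nat_lit 284) (nat_lit 277) (nat_lit 219)) (XT.lf (nat_lit 0) (nat_lit 2515846287) (nat_lit 912) (nat_lit 2618207176) (nat_lit 988) (nat_lit 3263380679) (nat_lit 211) (nat_lit 5) (nat_lit 223) (nat_lit 5) (nat_lit 224) (nat_lit 5) (nat_lit 285) (nat_lit 277) (nat_lit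 218))))))) (XT.nd (nat_lit 936) (nat_lit 3876) (nat_lit 0) (XT.nd (nat_lit 468) (nat_lit 2052) (nat_lit 0) (XT.nd (nat_lit 234) (nat_lit 836) (nat_lit 0) (XT.nd (nat_lit 78) (nat_lit 0) (nat_lit 76) (XT.lf (nat_lit 76) (nat_lit 1355106793) (nat_lit 0) (nat_lit 2446488215) (nat_lit 988) (nat_lit 4697260363) (nat_lit 212) (nat_lit 5) (nat_lit 211) (nat_lit 5) (nat_lit 224) (nat_lit 5) (nat_lit 286) (nat_lit 277) (nat_lit 217)) (XT.nd (nat_lit 78) (nat_lit 0) (nat_lit 0) (XT.lf (nat_lit 0) (nat_lit 5116439553) (nat_lit 912) (nat_lit 3132160850) (nat_lit 988) (nat_lit 355080335) (nat_lit 212) (nat_lit 5) (nat_lit 224) (nat_lit 5) (nat_lit 225) (nat_lit 5) (nat_lit 287) (nat_lit 277) (nat_lit 216)) (XT.lf (nat_lit 76) (nat_lit 967666106) (nat_lit 0) (nat_lit 5498461970) (nat_lit 988) (nat_lit 2245735782) (nat_lit 213) (nat_lit 5) (nat_lit 212) (nat_lit 5) (nat_lit 225) (nat_lit 5) (nat_lit 288) (nat_lit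 277) (nat_lit 215)))) (XT.nd (nat_lit 78) (nat_lit 912) (nat_lit 0) (XT.lf (nat_lit 76) (nat_lit 5228188135) (nat_lit 0) (nat_lit 2622477663) (nat_lit 988) (nat_lit 972868688) (nat_lit 213) (nat_lit 5) (nat_lit 212) (nat_lit 5) (nat_lit 225) (nat_lit 5) (nat_lit 289) (nat_lit 277) (nat_lit 214)) (XT.nd (nat_lit 78) (nat_lit 0) (nat_lit 0) (XT.lf (nat_lit 0) (nat_lit 304786117) (nat_lit 988) (nat_lit 8281803470) (nat_lit 1064) (nat_lit 352740682) (nat_lit 200) (nat_lit 5) (nat_lit 213) (nat_lit 5) (nat_lit 214) (nat_lit 5) (nat_lit 290) (nat_lit 277) (nat_lit 213)) (XT.lf (nat_lit 0) (nat_lit 1628140692) (nat_lit 988) (nat_lit 4009283688) (nat_lit 1064) (nat_lit 3420145458) (nat_lit 200) (nat_lit 5) (nat_lit 213) (nat_lit 5) (nat_lit 214) (nat_lit 5) (nat_lit 291) (nat_lit 277) (nat_lit 212))))) (XT.nd (nat_lit 234) (nat_lit 1140) (nat_lit 0) (XT.nd (nat_lit 78) (nat_lit 912) (nat_lit 0) (XT.lf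 (nat_lit 76) (nat_lit 371967981) (nat_lit 0) (nat_lit 2588136790) (nat_lit 1064) (nat_lit 6220249208) (nat_lit 201) (nat_lit 5) (nat_lit 200) (nat_lit 5) (nat_lit 214) (nat_lit 5) (nat_lit 292) (nat_lit 277) (nat_lit 211)) (XT.nd (nat_lit 78) (nat_lit 988) (nat_lit 0) (XT.lf (nat_lit 0) (nat_lit 4344387389) (nat_lit 988) (nat_lit 4372068821) (nat_lit 76) (nat_lit 590057419) (nat_lit 201) (nat_lit 5) (nat_lit 214) (nat_lit 5) (nat_lit 202) (nat_lit 5) (nat_lit 293) (nat_lit 277) (nat_lit 210)) (XT.lf (nat_lit 0) (nat_lit 147808411) (nat_lit 988) (nat_lit 5616582275) (nat_lit 1064) (nat_lit 3672302559) (nat_lit 188) (nat_lit 5) (nat_lit 201) (nat_lit 5) (nat_lit 202) (nat_lit 5) (nat_lit 294) (nat_lit 277) (nat_lit 209)))) (XT.nd (nat_lit 78) (nat_lit 1140) (nat_lit 0) (XT.lf (nat_lit 0) (nat_lit 4866379101) (nat_lit 988) (nat_lit 2372612484) (nat_lit 1064) (nat_lit 2331485907) (nat_lit 188) (nat_lit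 5) (nat_lit 201) (nat_lit 5) (nat_lit 202) (nat_lit 5) (nat_lit 295) (nat_lit 277) (nat_lit 208)) (XT.nd (nat_lit 78) (nat_lit 1140) (nat_lit 0) (XT.lf (nat_lit 0) (nat_lit 8735979168) (nat_lit 1064) (nat_lit 17879656) (nat_lit 76) (nat_lit 955129428) (nat_lit 188) (nat_lit 5) (nat_lit 202) (nat_lit 5) (nat_lit 189) (nat_lit 5) (nat_lit 296) (nat_lit 277) (nat_lit 207)) (XT.lf (nat_lit 0) (nat_lit 458142200) (nat_lit 1140) (nat_lit 5000867879) (nat_lit 76) (nat_lit 4391368370) (nat_lit 173) (nat_lit 5) (nat_lit 188) (nat_lit 5) (nat_lit 174) (nat_lit 5) (nat_lit 297) (nat_lit 277) (nat_lit 206)))))) (XT.nd (nat_lit 468) (nat_lit 1596) (nat_lit 0) (XT.nd (nat_lit 234) (nat_lit 1140) (nat_lit 0) (XT.nd (nat_lit 78) (nat_lit 1140) (nat_lit 0) (XT.lf (nat_lit 0) (nat_lit 1882885828) (nat_lit 1140) (nat_lit 168764574) (nat_lit 76) (nat_lit 7945017078) (nat_lit 173) (nat_lit 5) (nat_lit 188) (nat_lit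 5) (nat_lit 174) (nat_lit 5) (nat_lit 298) (nat_lit 277) (nat_lit 205)) (XT.nd (nat_lit 78) (nat_lit 0) (nat_lit 0) (XT.lf (nat_lit 0) (nat_lit 3382677348) (nat_lit 1216) (nat_lit 5283532051) (nat_lit 76) (nat_lit 1480217655) (nat_lit 158) (nat_lit 5) (nat_lit 174) (nat_lit 5) (nat_lit 159) (nat_lit 5) (nat_lit 299) (nat_lit 277) (nat_lit 204)) (XT.lf (nat_lit 0) (nat_lit 4921035027) (nat_lit 1216) (nat_lit 298321148) (nat_lit 76) (nat_lit 5081565617) (nat_lit 158) (nat_lit 5) (nat_lit 174) (nat_lit 5) (nat_lit 159) (nat_lit 5) (nat_lit 300) (nat_lit 277) (nat_lit 203)))) (XT.nd (nat_lit 78) (nat_lit 608) (nat_lit 0) (XT.lf (nat_lit 0) (nat_lit 4906632451) (nat_lit 532) (nat_lit 1618443509) (nat_lit 608) (nat_lit 3934437548) (nat_lit 151) (nat_lit 5) (nat_lit 158) (nat_lit 5) (nat_lit 159) (nat_lit 5) (nat_lit 301) (nat_lit 277) (nat_lit 202)) (XT.nd (nat_lit 78) (nat_lit 608) (nat_lit 0) (XT.lf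 (nat_lit 0) (nat_lit 8173321008) (nat_lit 608) (nat_lit 395232520) (nat_lit 76) (nat_lit 2054473668) (nat_lit 151) (nat_lit 5) (nat_lit 159) (nat_lit 5) (nat_lit 152) (nat_lit 5) (nat_lit 302) (nat_lit 277) (nat_lit 201)) (XT.lf (nat_lit 0) (nat_lit 4972735010) (nat_lit 608) (nat_lit 4935837027) (nat_lit 684) (nat_lit 881792846) (nat_lit 143) (nat_lit 5) (nat_lit 151) (nat_lit 5) (nat_lit 152) (nat_lit 5) (nat_lit 303) (nat_lit 277) (nat_lit 200))))) (XT.nd (nat_lit 234) (nat_lit 988) (nat_lit 0) (XT.nd (nat_lit 78) (nat_lit 532) (nat_lit 0) (XT.lf (nat_lit 0) (nat_lit 696840413) (nat_lit 684) (nat_lit 485580627) (nat_lit 76) (nat_lit 9780793307) (nat_lit 142) (nat_lit 5) (nat_lit 151) (nat_lit 5) (nat_lit 143) (nat_lit 5) (nat_lit 304) (nat_lit 277) (nat_lit 199)) (XT.nd (nat_lit 78) (nat_lit 0) (nat_lit 0) (XT.lf (nat_lit 0) (nat_lit 2354946971) (nat_lit 608) (nat_lit 6095011425) (nat_lit 76)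 (nat_lit 2689575354) (nat_lit 135) (nat_lit 5) (nat_lit 143) (nat_lit 5) (nat_lit 136) (nat_lit 5) (nat_lit 305) (nat_lit 277) (nat_lit 198)) (XT.lf (nat_lit 0) (nat_lit 4054671814) (nat_lit 608) (nat_lit 607792828) (nat_lit 76) (nat_lit 6658962130) (nat_lit 135) (nat_lit 5) (nat_lit 143) (nat_lit 5) (nat_lit 136) (nat_lit 5) (nat_lit 306) (nat_lit 277) (nat_lit 197)))) (XT.nd (nat_lit 78) (nat_lit 456) (nat_lit 0) (XT.lf (nat_lit 0) (nat_lit 5119155091) (nat_lit 532) (nat_lit 711379615) (nat_lit 608) (nat_lit 5677526608) (nat_lit 128) (nat_lit 5) (nat_lit 135) (nat_lit 5) (nat_lit 136) (nat_lit 5) (nat_lit 307) (nat_lit 277) (nat_lit 196)) (XT.nd (nat_lit 78) (nat_lit 456) (nat_lit 0) (XT.lf (nat_lit 0) (nat_lit 7674546993) (nat_lit 608) (nat_lit 727356664) (nat_lit 76) (nat_lit 3297983008) (nat_lit 128) (nat_lit 5) (nat_lit 136) (nat_lit 5) (nat_lit 129) (nat_lit 5) (nat_lit 308) (nat_lit 277)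 (nat_lit 195)) (XT.lf (nat_lit 0) (nat_lit 5173409722) (nat_lit 456) (nat_lit 4434324611) (nat_lit 532) (nat_lit 2288753674) (nat_lit 122) (nat_lit 5) (nat_lit 128) (nat_lit 5) (nat_lit 129) (nat_lit 5) (nat_lit 309) (nat_lit 277) (nat_lit 194))))))))
noncomputable def xc155 : XT := (XT.nd (nat_lit 1872) (nat_lit 2432) (nat_lit 0) (XT.nd (nat_lit 936) (nat_lit 1748) (nat_lit 0) (XT.nd (nat_lit 468) (nat_lit 1140) (nat_lit 0) (XT.nd (nat_lit 234) (nat_lit 836) (nat_lit 0) (XT.nd (nat_lit 78) (nat_lit 532) (nat_lit 0) (XT.lf (nat_lit 0) (nat_lit 11241811617) (nat_lit 456) (nat_lit 341965869) (nat_lit 532) (nat_lit 515699895) (nat_lit 122) (nat_lit 5) (nat_lit 128) (nat_lit 5) (nat_lit 129) (nat_lit 5) (nat_lit 310) (nat_lit 277) (nat_lit 193)) (XT.nd (nat_lit 78) (nat_lit 0) (nat_lit 0) (XT.lf (nat_lit 0) (nat_lit 1351189789) (nat_lit 532) (nat_lit 7095712656) (nat_lit 76) (nat_lit 3859323267) (nat_lit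 115) (nat_lit 5) (nat_lit 122) (nat_lit 5) (nat_lit 116) (nat_lit 5) (nat_lit 311) (nat_lit 277) (nat_lit 192)) (XT.lf (nat_lit 0) (nat_lit 3254166688) (nat_lit 532) (nat_lit 1073664727) (nat_lit 76) (nat_lit 8191511294) (nat_lit 115) (nat_lit 5) (nat_lit 122) (nat_lit 5) (nat_lit 116) (nat_lit 5) (nat_lit 312) (nat_lit 277) (nat_lit 191)))) (XT.nd (nat_lit 78) (nat_lit 456) (nat_lit 0) (XT.lf (nat_lit 0) (nat_lit 5206873658) (nat_lit 380) (nat_lit 36355828) (nat_lit 456) (nat_lit 7494785636) (nat_lit 110) (nat_lit 5) (nat_lit 115) (nat_lit 5) (nat_lit 116) (nat_lit 5) (nat_lit 313) (nat_lit 277) (nat_lit 190)) (XT.nd (nat_lit 78) (nat_lit 456) (nat_lit 0) (XT.lf (nat_lit 0) (nat_lit 7324358059) (nat_lit 456) (nat_lit 1331498945) (nat_lit 76) (nat_lit 4306449768) (nat_lit 110) (nat_lit 5) (nat_lit 116) (nat_lit 5) (nat_lit 111) (nat_lit 5) (nat_lit 314) (nat_lit 277) (nat_lit 189)) (XT.lf (nat_lit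 0) (nat_lit 5130423770) (nat_lit 456) (nat_lit 4367080491) (nat_lit 532) (nat_lit 3694965376) (nat_lit 104) (nat_lit 5) (nat_lit 110) (nat_lit 5) (nat_lit 111) (nat_lit 5) (nat_lit 315) (nat_lit 277) (nat_lit 188))))) (XT.nd (nat_lit 234) (nat_lit 684) (nat_lit 0) (XT.nd (nat_lit 78) (nat_lit 456) (nat_lit 0) (XT.lf (nat_lit 0) (nat_lit 11730142883) (nat_lit 532) (nat_lit 1640072172) (nat_lit 76) (nat_lit 59522498) (nat_lit 104) (nat_lit 5) (nat_lit 111) (nat_lit 5) (nat_lit 105) (nat_lit 5) (nat_lit 316) (nat_lit 277) (nat_lit 187)) (XT.nd (nat_lit 78) (nat_lit 0) (nat_lit 0) (XT.lf (nat_lit 0) (nat_lit 421553192) (nat_lit 456) (nat_lit 8670240283) (nat_lit 76) (nat_lit 4580069236) (nat_lit 98) (nat_lit 5) (nat_lit 104) (nat_lit 5) (nat_lit 99) (nat_lit 5) (nat_lit 317) (nat_lit 277) (nat_lit 186)) (XT.lf (nat_lit 0) (nat_lit 2569837026) (nat_lit 456) (nat_lit 2084863763) (nat_lit 76) (nat_lit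 9266142791) (nat_lit 98) (nat_lit 5) (nat_lit 104) (nat_lit 5) (nat_lit 99) (nat_lit 5) (nat_lit 318) (nat_lit 277) (nat_lit 185)))) (XT.nd (nat_lit 78) (nat_lit 304) (nat_lit 0) (XT.lf (nat_lit 0) (nat_lit 4768498340) (nat_lit 380) (nat_lit 41400229) (nat_lit 456) (nat_lit 9366601290) (nat_lit 93) (nat_lit 5) (nat_lit 98) (nat_lit 5) (nat_lit 99) (nat_lit 5) (nat_lit 319) (nat_lit 277) (nat_lit 184)) (XT.nd (nat_lit 78) (nat_lit 304) (nat_lit 0) (XT.lf (nat_lit 0) (nat_lit 7165476348) (nat_lit 456) (nat_lit 2637416544) (nat_lit 76) (nat_lit 4635508611) (nat_lit 93) (nat_lit 5) (nat_lit 99) (nat_lit 5) (nat_lit 94) (nat_lit 5) (nat_lit 320) (nat_lit 277) (nat_lit 183)) (XT.lf (nat_lit 0) (nat_lit 4399458807) (nat_lit 304) (nat_lit 5217268308) (nat_lit 380) (nat_lit 5090707288) (nat_lit 89) (nat_lit 5) (nat_lit 93) (nat_lit 5) (nat_lit 94) (nat_lit 5) (nat_lit 321) (nat_lit 277) (nat_lit 182))))))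 (XT.nd (nat_lit 468) (nat_lit 684) (nat_lit 0) (XT.nd (nat_lit 234) (nat_lit 608) (nat_lit 0) (XT.nd (nat_lit 78) (nat_lit 456) (nat_lit 0) (XT.lf (nat_lit 0) (nat_lit 11679456617) (nat_lit 304) (nat_lit 471300423) (nat_lit 380) (nat_lit 2833527668) (nat_lit 89) (nat_lit 5) (nat_lit 93) (nat_lit 5) (nat_lit 94) (nat_lit 5) (nat_lit 322) (nat_lit 277) (nat_lit 181)) (XT.nd (nat_lit 78) (nat_lit 76) (nat_lit 0) (XT.lf (nat_lit 0) (nat_lit 3920566738) (nat_lit 380) (nat_lit 10903459332) (nat_lit 456) (nat_lit 443540881) (nat_lit 84) (nat_lit 5) (nat_lit 89) (nat_lit 5) (nat_lit 90) (nat_lit 5) (nat_lit 323) (nat_lit 277) (nat_lit 180)) (XT.lf (nat_lit 0) (nat_lit 2000303249) (nat_lit 456) (nat_lit 4174307860) (nat_lit 76) (nat_lit 9383530052) (nat_lit 83) (nat_lit 5) (nat_lit 89) (nat_lit 5) (nat_lit 84) (nat_lit 5) (nat_lit 324) (nat_lit 277) (nat_lit 179)))) (XT.nd (nat_lit 78) (nat_lit 304) (nat_lit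 0) (XT.lf (nat_lit 0) (nat_lit 3251224536) (nat_lit 304) (nat_lit 1272236373) (nat_lit 380) (nat_lit 11333413582) (nat_lit 79) (nat_lit 5) (nat_lit 83) (nat_lit 5) (nat_lit 84) (nat_lit 5) (nat_lit 325) (nat_lit 277) (nat_lit 178)) (XT.nd (nat_lit 78) (nat_lit 304) (nat_lit 0) (XT.lf (nat_lit 0) (nat_lit 7185075129) (nat_lit 380) (nat_lit 5236575204) (nat_lit 76) (nat_lit 3741057046) (nat_lit 79) (nat_lit 5) (nat_lit 84) (nat_lit 5) (nat_lit 80) (nat_lit 5) (nat_lit 326) (nat_lit 277) (nat_lit 177)) (XT.lf (nat_lit 0) (nat_lit 2366141627) (nat_lit 304) (nat_lit 7580090074) (nat_lit 380) (nat_lit 6530912557) (nat_lit 75) (nat_lit 5) (nat_lit 79) (nat_lit 5) (nat_lit 80) (nat_lit 5) (nat_lit 327) (nat_lit 277) (nat_lit 176))))) (XT.nd (nat_lit 234) (nat_lit 304) (nat_lit 0) (XT.nd (nat_lit 78) (nat_lit 380) (nat_lit 0) (XT.lf (nat_lit 0) (nat_lit 10283484854) (nat_lit 304) (nat_lit 2544225790) (nat_lit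 380) (nat_lit 3972198213) (nat_lit 75) (nat_lit 5) (nat_lit 79) (nat_lit 5) (nat_lit 80) (nat_lit 5) (nat_lit 328) (nat_lit 277) (nat_lit 175)) (XT.nd (nat_lit 78) (nat_lit 76) (nat_lit 0) (XT.lf (nat_lit 0) (nat_lit 1285054177) (nat_lit 304) (nat_lit 14533342243) (nat_lit 380) (nat_lit 1313295780) (nat_lit 71) (nat_lit 5) (nat_lit 75) (nat_lit 5) (nat_lit 76) (nat_lit 5) (nat_lit 329) (nat_lit 277) (nat_lit 174)) (XT.lf (nat_lit 0) (nat_lit 1474287552) (nat_lit 380) (nat_lit 8077564257) (nat_lit 76) (nat_lit 7918881960) (nat_lit 70) (nat_lit 5) (nat_lit 75) (nat_lit 5) (nat_lit 71) (nat_lit 5) (nat_lit 330) (nat_lit 277) (nat_lit 173)))) (XT.nd (nat_lit 78) (nat_lit 304) (nat_lit 0) (XT.lf (nat_lit 0) (nat_lit 4304619944) (nat_lit 380) (nat_lit 108540503) (nat_lit 76) (nat_lit 13406847621) (nat_lit 70) (nat_lit 5) (nat_lit 75) (nat_lit 5) (nat_lit 71) (nat_lit 5) (nat_lit 331) (nat_lit 277) (nat_lit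 172)) (XT.nd (nat_lit 78) (nat_lit 0) (nat_lit 0) (XT.lf (nat_lit 0) (nat_lit 7294205362) (nat_lit 380) (nat_lit 9946181466) (nat_lit 76) (nat_lit 937160075) (nat_lit 66) (nat_lit 5) (nat_lit 71) (nat_lit 5) (nat_lit 67) (nat_lit 5) (nat_lit 332) (nat_lit 277) (nat_lit 171)) (XT.lf (nat_lit 0) (nat_lit 10404389917) (nat_lit 380) (nat_lit 1785511110) (nat_lit 76) (nat_lit 6354999644) (nat_lit 66) (nat_lit 5) (nat_lit 71) (nat_lit 5) (nat_lit 67) (nat_lit 5) (nat_lit 333) (nat_lit 277) (nat_lit 170))))))) (XT.nd (nat_lit 936) (nat_lit 836) (nat_lit 0) (XT.nd (nat_lit 468) (nat_lit 760) (nat_lit 0) (XT.nd (nat_lit 234) (nat_lit 228) (nat_lit 0) (XT.nd (nat_lit 78) (nat_lit 380) (nat_lit 0) (XT.lf (nat_lit 0) (nat_lit 6732203150) (nat_lit 228) (nat_lit 6926905493) (nat_lit 304) (nat_lit 5262645198) (nat_lit 63) (nat_lit 5) (nat_lit 66) (nat_lit 5) (nat_lit 67) (nat_lit 5) (nat_lit 334) (nat_lit 277)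 (nat_lit 169)) (XT.nd (nat_lit 78) (nat_lit 380) (nat_lit 0) (XT.lf (nat_lit 0) (nat_lit 15523092031) (nat_lit 228) (nat_lit 1493132184) (nat_lit 304) (nat_lit 2293560922) (nat_lit 63) (nat_lit 5) (nat_lit 66) (nat_lit 5) (nat_lit 67) (nat_lit 5) (nat_lit 335) (nat_lit 277) (nat_lit 168)) (XT.lf (nat_lit 0) (nat_lit 824053648) (nat_lit 380) (nat_lit 14809562625) (nat_lit 76) (nat_lit 4073403591) (nat_lit 58) (nat_lit 5) (nat_lit 63) (nat_lit 5) (nat_lit 59) (nat_lit 5) (nat_lit 336) (nat_lit 277) (nat_lit 167)))) (XT.nd (nat_lit 78) (nat_lit 228) (nat_lit 0) (XT.lf (nat_lit 0) (nat_lit 4029615557) (nat_lit 380) (nat_lit 6251980152) (nat_lit 76) (nat_lit 9832693054) (nat_lit 58) (nat_lit 5) (nat_lit 63) (nat_lit 5) (nat_lit 59) (nat_lit 5) (nat_lit 337) (nat_lit 277) (nat_lit 166)) (XT.nd (nat_lit 78) (nat_lit 0) (nat_lit 0) (XT.lf (nat_lit 0) (nat_lit 2594669245) (nat_lit 228) (nat_lit 4749108805)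 (nat_lit 304) (nat_lit 13189638163) (nat_lit 55) (nat_lit 5) (nat_lit 58) (nat_lit 5) (nat_lit 59) (nat_lit 5) (nat_lit 338) (nat_lit 277) (nat_lit 165)) (XT.lf (nat_lit 0) (nat_lit 10817875668) (nat_lit 304) (nat_lit 9156536240) (nat_lit 76) (nat_lit 988903375) (nat_lit 55) (nat_lit 5) (nat_lit 59) (nat_lit 5) (nat_lit 56) (nat_lit 5) (nat_lit 339) (nat_lit 277) (nat_lit 164))))) (XT.nd (nat_lit 234) (nat_lit 532) (nat_lit 0) (XT.nd (nat_lit 78) (nat_lit 228) (nat_lit 0) (XT.lf (nat_lit 0) (nat_lit 14431204154) (nat_lit 304) (nat_lit 175782484) (nat_lit 76) (nat_lit 6798087171) (nat_lit 55) (nat_lit 5) (nat_lit 59) (nat_lit 5) (nat_lit 56) (nat_lit 5) (nat_lit 340) (nat_lit 277) (nat_lit 163)) (XT.nd (nat_lit 78) (nat_lit 0) (nat_lit 0) (XT.lf (nat_lit 0) (nat_lit 9237265213) (nat_lit 228) (nat_lit 8992798477) (nat_lit 304) (nat_lit 3627719816) (nat_lit 52) (nat_lit 5) (nat_lit 55) (nat_lit 5)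 (nat_lit 56) (nat_lit 5) (nat_lit 341) (nat_lit 277) (nat_lit 162)) (XT.lf (nat_lit 0) (nat_lit 18919097126) (nat_lit 228) (nat_lit 3214078157) (nat_lit 304) (nat_lit 191202614) (nat_lit 52) (nat_lit 5) (nat_lit 55) (nat_lit 5) (nat_lit 56) (nat_lit 5) (nat_lit 342) (nat_lit 277) (nat_lit 161)))) (XT.nd (nat_lit 78) (nat_lit 228) (nat_lit 0) (XT.lf (nat_lit 0) (nat_lit 3358153173) (nat_lit 304) (nat_lit 16672312376) (nat_lit 76) (nat_lit 2771297787) (nat_lit 48) (nat_lit 5) (nat_lit 52) (nat_lit 5) (nat_lit 49) (nat_lit 5) (nat_lit 343) (nat_lit 277) (nat_lit 160)) (XT.nd (nat_lit 78) (nat_lit 228) (nat_lit 0) (XT.lf (nat_lit 0) (nat_lit 7065532948) (nat_lit 304) (nat_lit 7323533922) (nat_lit 76) (nat_lit 8902696060) (nat_lit 48) (nat_lit 5) (nat_lit 52) (nat_lit 5) (nat_lit 49) (nat_lit 5) (nat_lit 344) (nat_lit 277) (nat_lit 159)) (XT.lf (nat_lit 0) (nat_lit 2334694701) (nat_lit 228) (nat_lit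 8561043697) (nat_lit 304) (nat_lit 12900386640) (nat_lit 45) (nat_lit 5) (nat_lit 48) (nat_lit 5) (nat_lit 49) (nat_lit 5) (nat_lit 345) (nat_lit 277) (nat_lit 158)))))) (XT.nd (nat_lit 468) (nat_lit 380) (nat_lit 0) (XT.nd (nat_lit 234) (nat_lit 304) (nat_lit 0) (XT.nd (nat_lit 78) (nat_lit 152) (nat_lit 0) (XT.lf (nat_lit 0) (nat_lit 12416386428) (nat_lit 228) (nat_lit 2487736628) (nat_lit 304) (nat_lit 9409607106) (nat_lit 45) (nat_lit 5) (nat_lit 48) (nat_lit 5) (nat_lit 49) (nat_lit 5) (nat_lit 346) (nat_lit 277) (nat_lit 157)) (XT.nd (nat_lit 78) (nat_lit 152) (nat_lit 0) (XT.lf (nat_lit 0) (nat_lit 19058554684) (nat_lit 304) (nat_lit 2098751385) (nat_lit 76) (nat_lit 3688793551) (nat_lit 45) (nat_lit 5) (nat_lit 49) (nat_lit 5) (nat_lit 46) (nat_lit 5) (nat_lit 347) (nat_lit 277) (nat_lit 156)) (XT.lf (nat_lit 0) (nat_lit 8111729809) (nat_lit 152) (nat_lit 15318376311) (nat_lit 228) (nat_lit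 1961569185) (nat_lit 43) (nat_lit 5) (nat_lit 45) (nat_lit 5) (nat_lit 46) (nat_lit 5) (nat_lit 348) (nat_lit 277) (nat_lit 155)))) (XT.nd (nat_lit 78) (nat_lit 228) (nat_lit 0) (XT.lf (nat_lit 0) (nat_lit 1951885800) (nat_lit 228) (nat_lit 7316452252) (nat_lit 76) (nat_lit 16684379015) (nat_lit 42) (nat_lit 5) (nat_lit 45) (nat_lit 5) (nat_lit 43) (nat_lit 5) (nat_lit 349) (nat_lit 277) (nat_lit 154)) (XT.nd (nat_lit 78) (nat_lit 0) (nat_lit 0) (XT.lf (nat_lit 0) (nat_lit 2969140021) (nat_lit 228) (nat_lit 2992931557) (nat_lit 304) (nat_lit 20567382200) (nat_lit 39) (nat_lit 5) (nat_lit 42) (nat_lit 5) (nat_lit 43) (nat_lit 5) (nat_lit 350) (nat_lit 277) (nat_lit 153)) (XT.lf (nat_lit 0) (nat_lit 10190836813) (nat_lit 304) (nat_lit 13457508053) (nat_lit 76) (nat_lit 3472208172) (nat_lit 39) (nat_lit 5) (nat_lit 43) (nat_lit 5) (nat_lit 40) (nat_lit 5) (nat_lit 351) (nat_lit 277) (nat_lit 152)))))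 (XT.nd (nat_lit 234) (nat_lit 228) (nat_lit 0) (XT.nd (nat_lit 78) (nat_lit 152) (nat_lit 0) (XT.lf (nat_lit 0) (nat_lit 14566678288) (nat_lit 304) (nat_lit 3096219829) (nat_lit 76) (nat_lit 10065889170) (nat_lit 39) (nat_lit 5) (nat_lit 43) (nat_lit 5) (nat_lit 40) (nat_lit 5) (nat_lit 352) (nat_lit 277) (nat_lit 151)) (XT.nd (nat_lit 78) (nat_lit 0) (nat_lit 0) (XT.lf (nat_lit 0) (nat_lit 7711860531) (nat_lit 152) (nat_lit 11426920256) (nat_lit 228) (nat_lit 9214546369) (nat_lit 37) (nat_lit 5) (nat_lit 39) (nat_lit 5) (nat_lit 40) (nat_lit 5) (nat_lit 353) (nat_lit 277) (nat_lit 150)) (XT.lf (nat_lit 0) (nat_lit 18893262565) (nat_lit 152) (nat_lit 4977032246) (nat_lit 228) (nat_lit 5125648884) (nat_lit 37) (nat_lit 5) (nat_lit 39) (nat_lit 5) (nat_lit 40) (nat_lit 5) (nat_lit 354) (nat_lit 277) (nat_lit 149)))) (XT.nd (nat_lit 78) (nat_lit 76) (nat_lit 0) (XT.lf (nat_lit 0) (nat_lit 736429043)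 (nat_lit 152) (nat_lit 28021617415) (nat_lit 228) (nat_lit 899371204) (nat_lit 35) (nat_lit 5) (nat_lit 37) (nat_lit 5) (nat_lit 38) (nat_lit 5) (nat_lit 355) (nat_lit 277) (nat_lit 148)) (XT.nd (nat_lit 78) (nat_lit 0) (nat_lit 0) (XT.lf (nat_lit 0) (nat_lit 3529828939) (nat_lit 228) (nat_lit 18325588462) (nat_lit 76) (nat_lit 8478023885) (nat_lit 34) (nat_lit 5) (nat_lit 37) (nat_lit 5) (nat_lit 35) (nat_lit 5) (nat_lit 356) (nat_lit 277) (nat_lit 147)) (XT.lf (nat_lit 0) (nat_lit 8065307517) (nat_lit 228) (nat_lit 7435050450) (nat_lit 76) (nat_lit 15529383189) (nat_lit 34) (nat_lit 5) (nat_lit 37) (nat_lit 5) (nat_lit 35) (nat_lit 5) (nat_lit 357) (nat_lit 277) (nat_lit 146))))))))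
noncomputable def xc156 : XT := (XT.nd (nat_lit 1794) (nat_lit 532) (nat_lit 0) (XT.nd (nat_lit 858) (nat_lit 456) (nat_lit 0) (XT.nd (nat_lit 390) (nat_lit 380) (nat_lit 0) (XT.nd (nat_lit 156) (nat_lit 152) (nat_lit 0) (XT.nd (nat_lit 78) (nat_lit 0) (nat_lit 0) (XT.lf (nat_lit 0) (nat_lit 3843792972) (nat_lit 152) (nat_lit 8921733459) (nat_lit 228) (nat_lit 18980550152) (nat_lit 32) (nat_lit 5) (nat_lit 34) (nat_lit 5) (nat_lit 35) (nat_lit 5) (nat_lit 358) (nat_lit 277) (nat_lit 145)) (XT.lf (nat_lit 0) (nat_lit 15600127507) (nat_lit 152) (nat_lit 2073544175) (nat_lit 228) (nat_lit 14808229435) (nat_lit 32) (nat_lit 5) (nat_lit 34) (nat_lit 5) (nat_lit 35) (nat_lit 5) (nat_lit 359) (nat_lit 277) (nat_lit 144))) (XT.nd (nat_lit 78) (nat_lit 152) (nat_lit 0) (XT.lf (nat_lit 0) (nat_lit 22768963134) (nat_lit 228) (nat_lit 5591614740) (nat_lit 76) (nat_lit 4878031905) (nat_lit 32) (nat_lit 5)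 (nat_lit 35) (nat_lit 5) (nat_lit 33) (nat_lit 5) (nat_lit 360) (nat_lit 277) (nat_lit 143)) (XT.nd (nat_lit 78) (nat_lit 0) (nat_lit 0) (XT.lf (nat_lit 0) (nat_lit 6123496885) (nat_lit 152) (nat_lit 21965271675) (nat_lit 228) (nat_lit 5927107742) (nat_lit 30) (nat_lit 5) (nat_lit 32) (nat_lit 5) (nat_lit 33) (nat_lit 5) (nat_lit 361) (nat_lit 277) (nat_lit 142)) (XT.lf (nat_lit 0) (nat_lit 18292095771) (nat_lit 152) (nat_lit 15324903377) (nat_lit 228) (nat_lit 1198002818) (nat_lit 30) (nat_lit 5) (nat_lit 32) (nat_lit 5) (nat_lit 33) (nat_lit 5) (nat_lit 362) (nat_lit 277) (nat_lit 141))))) (XT.nd (nat_lit 234) (nat_lit 152) (nat_lit 0) (XT.nd (nat_lit 78) (nat_lit 152) (nat_lit 0) (XT.lf (nat_lit 0) (nat_lit 3593812098) (nat_lit 228) (nat_lit 4860032507) (nat_lit 76) (nat_lit 27183428021) (nat_lit 29) (nat_lit 5) (nat_lit 32) (nat_lit 5) (nat_lit 30) (nat_lit 5) (nat_lit 363) (nat_lit 277) (nat_lit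 140)) (XT.nd (nat_lit 78) (nat_lit 0) (nat_lit 0) (XT.lf (nat_lit 0) (nat_lit 7270727709) (nat_lit 152) (nat_lit 1297193750) (nat_lit 228) (nat_lit 27914061106) (nat_lit 27) (nat_lit 5) (nat_lit 29) (nat_lit 5) (nat_lit 30) (nat_lit 5) (nat_lit 364) (nat_lit 277) (nat_lit 139)) (XT.lf (nat_lit 0) (nat_lit 13791985324) (nat_lit 228) (nat_lit 17556473055) (nat_lit 76) (nat_lit 6000558885) (nat_lit 27) (nat_lit 5) (nat_lit 30) (nat_lit 5) (nat_lit 28) (nat_lit 5) (nat_lit 365) (nat_lit 277) (nat_lit 138)))) (XT.nd (nat_lit 78) (nat_lit 152) (nat_lit 0) (XT.lf (nat_lit 0) (nat_lit 19178604903) (nat_lit 228) (nat_lit 5576613411) (nat_lit 76) (nat_lit 13486674917) (nat_lit 27) (nat_lit 5) (nat_lit 30) (nat_lit 5) (nat_lit 28) (nat_lit 5) (nat_lit 366) (nat_lit 277) (nat_lit 137)) (XT.nd (nat_lit 78) (nat_lit 0) (nat_lit 0) (XT.lf (nat_lit 0) (nat_lit 6885624671) (nat_lit 152) (nat_lit 17900581696) (nat_lit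 228) (nat_lit 14373572699) (nat_lit 25) (nat_lit 5) (nat_lit 27) (nat_lit 5) (nat_lit 28) (nat_lit 5) (nat_lit 367) (nat_lit 277) (nat_lit 136)) (XT.lf (nat_lit 0) (nat_lit 19824775890) (nat_lit 152) (nat_lit 10786857201) (nat_lit 228) (nat_lit 9492085409) (nat_lit 25) (nat_lit 5) (nat_lit 27) (nat_lit 5) (nat_lit 28) (nat_lit 5) (nat_lit 368) (nat_lit 277) (nat_lit 135)))))) (XT.nd (nat_lit 468) (nat_lit 152) (nat_lit 0) (XT.nd (nat_lit 234) (nat_lit 152) (nat_lit 0) (XT.nd (nat_lit 78) (nat_lit 152) (nat_lit 0) (XT.lf (nat_lit 0) (nat_lit 33141160759) (nat_lit 152) (nat_lit 3464141816) (nat_lit 228) (nat_lit 4470873940) (nat_lit 25) (nat_lit 5) (nat_lit 27) (nat_lit 5) (nat_lit 28) (nat_lit 5) (nat_lit 369) (nat_lit 277) (nat_lit 134)) (XT.nd (nat_lit 78) (nat_lit 0) (nat_lit 0) (XT.lf (nat_lit 0) (nat_lit 767271393) (nat_lit 152) (nat_lit 37259587241) (nat_lit 76) (nat_lit 4048352729) (nat_lit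 23) (nat_lit 5) (nat_lit 25) (nat_lit 5) (nat_lit 24) (nat_lit 5) (nat_lit 370) (nat_lit 277) (nat_lit 133)) (XT.lf (nat_lit 0) (nat_lit 6181565748) (nat_lit 152) (nat_lit 25080528782) (nat_lit 76) (nat_lit 11837533193) (nat_lit 23) (nat_lit 5) (nat_lit 25) (nat_lit 5) (nat_lit 24) (nat_lit 5) (nat_lit 371) (nat_lit 277) (nat_lit 132)))) (XT.nd (nat_lit 78) (nat_lit 152) (nat_lit 0) (XT.lf (nat_lit 0) (nat_lit 11752118950) (nat_lit 152) (nat_lit 12546584732) (nat_lit 76) (nat_lit 19856262249) (nat_lit 23) (nat_lit 5) (nat_lit 25) (nat_lit 5) (nat_lit 24) (nat_lit 5) (nat_lit 372) (nat_lit 277) (nat_lit 131)) (XT.nd (nat_lit 78) (nat_lit 0) (nat_lit 0) (XT.lf (nat_lit 0) (nat_lit 360226207) (nat_lit 152) (nat_lit 17127034982) (nat_lit 228) (nat_lit 27754783063) (nat_lit 21) (nat_lit 5) (nat_lit 23) (nat_lit 5) (nat_lit 24) (nat_lit 5) (nat_lit 373) (nat_lit 277) (nat_lit 130)) (XT.lf (nat_lit 0)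 (nat_lit 13901353231) (nat_lit 152) (nat_lit 9613887665) (nat_lit 228) (nat_lit 22842874547) (nat_lit 21) (nat_lit 5) (nat_lit 23) (nat_lit 5) (nat_lit 24) (nat_lit 5) (nat_lit 374) (nat_lit 277) (nat_lit 129))))) (XT.nd (nat_lit 234) (nat_lit 76) (nat_lit 0) (XT.nd (nat_lit 78) (nat_lit 76) (nat_lit 0) (XT.lf (nat_lit 0) (nat_lit 27838926755) (nat_lit 152) (nat_lit 1879392750) (nat_lit 228) (nat_lit 17789525380) (nat_lit 21) (nat_lit 5) (nat_lit 23) (nat_lit 5) (nat_lit 24) (nat_lit 5) (nat_lit 375) (nat_lit 277) (nat_lit 128)) (XT.nd (nat_lit 78) (nat_lit 76) (nat_lit 0) (XT.lf (nat_lit 0) (nat_lit 36160392699) (nat_lit 228) (nat_lit 6565587470) (nat_lit 76) (nat_lit 5964502759) (nat_lit 21) (nat_lit 5) (nat_lit 24) (nat_lit 5) (nat_lit 22) (nat_lit 4) (nat_lit 376) (nat_lit 277) (nat_lit 127)) (XT.lf (nat_lit 0) (nat_lit 7040261298) (nat_lit 76) (nat_lit 35836302308) (nat_lit 152) (nat_lit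 7029615118) (nat_lit 20) (nat_lit 5) (nat_lit 21) (nat_lit 5) (nat_lit 22) (nat_lit 4) (nat_lit 377) (nat_lit 277) (nat_lit 126)))) (XT.nd (nat_lit 78) (nat_lit 76) (nat_lit 0) (XT.lf (nat_lit 0) (nat_lit 21179610534) (nat_lit 76) (nat_lit 28675530664) (nat_lit 152) (nat_lit 1301380119) (nat_lit 20) (nat_lit 5) (nat_lit 21) (nat_lit 5) (nat_lit 22) (nat_lit 4) (nat_lit 378) (nat_lit 277) (nat_lit 125)) (XT.nd (nat_lit 78) (nat_lit 0) (nat_lit 0) (XT.lf (nat_lit 0) (nat_lit 4503688234) (nat_lit 152) (nat_lit 16754541157) (nat_lit 76) (nat_lit 31184980287) (nat_lit 19) (nat_lit 5) (nat_lit 21) (nat_lit 5) (nat_lit 20) (nat_lit 5) (nat_lit 379) (nat_lit 277) (nat_lit 124)) (XT.lf (nat_lit 0) (nat_lit 10451629414) (nat_lit 152) (nat_lit 3157221976) (nat_lit 76) (nat_lit 40159417702) (nat_lit 19) (nat_lit 5) (nat_lit 21) (nat_lit 5) (nat_lit 20) (nat_lit 5) (nat_lit 380) (nat_lit 277) (nat_lit 123)))))))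 (XT.nd (nat_lit 936) (nat_lit 76) (nat_lit 0) (XT.nd (nat_lit 468) (nat_lit 228) (nat_lit 0) (XT.nd (nat_lit 234) (nat_lit 76) (nat_lit 0) (XT.nd (nat_lit 78) (nat_lit 0) (nat_lit 0) (XT.lf (nat_lit 0) (nat_lit 11055163636) (nat_lit 152) (nat_lit 5624140623) (nat_lit 228) (nat_lit 38450740338) (nat_lit 17) (nat_lit 5) (nat_lit 19) (nat_lit 5) (nat_lit 20) (nat_lit 5) (nat_lit 381) (nat_lit 277) (nat_lit 122)) (XT.nd (nat_lit 78) (nat_lit 0) (nat_lit 0) (XT.lf (nat_lit 0) (nat_lit 23146055800) (nat_lit 228) (nat_lit 30806996691) (nat_lit 76) (nat_lit 2578056559) (nat_lit 17) (nat_lit 5) (nat_lit 20) (nat_lit 5) (nat_lit 18) (nat_lit 4) (nat_lit 382) (nat_lit 277) (nat_lit 121)) (XT.lf (nat_lit 0) (nat_lit 29857693648) (nat_lit 228) (nat_lit 17205120675) (nat_lit 76) (nat_lit 10909867591) (nat_lit 17) (nat_lit 5) (nat_lit 20) (nat_lit 5) (nat_lit 18) (nat_lit 4) (nat_lit 383) (nat_lit 277) (nat_lit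 120)))) (XT.nd (nat_lit 78) (nat_lit 76) (nat_lit 0) (XT.lf (nat_lit 0) (nat_lit 36766019661) (nat_lit 228) (nat_lit 3203305098) (nat_lit 76) (nat_lit 19488319937) (nat_lit 17) (nat_lit 5) (nat_lit 20) (nat_lit 5) (nat_lit 18) (nat_lit 4) (nat_lit 384) (nat_lit 277) (nat_lit 119)) (XT.nd (nat_lit 78) (nat_lit 0) (nat_lit 0) (XT.lf (nat_lit 0) (nat_lit 11433799242) (nat_lit 76) (nat_lit 32553179670) (nat_lit 152) (nat_lit 16997018762) (nat_lit 16) (nat_lit 5) (nat_lit 17) (nat_lit 5) (nat_lit 18) (nat_lit 4) (nat_lit 385) (nat_lit 277) (nat_lit 118)) (XT.lf (nat_lit 0) (nat_lit 26567878276) (nat_lit 76) (nat_lit 24884567346) (nat_lit 152) (nat_lit 11102861994) (nat_lit 16) (nat_lit 5) (nat_lit 17) (nat_lit 5) (nat_lit 18) (nat_lit 4) (nat_lit 386) (nat_lit 277) (nat_lit 117))))) (XT.nd (nat_lit 234) (nat_lit 0) (nat_lit 0) (XT.nd (nat_lit 78) (nat_lit 228) (nat_lit 0) (XT.lf (nat_lit 0) (nat_lit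 42148403902) (nat_lit 76) (nat_lit 16989134161) (nat_lit 152) (nat_lit 5036351598) (nat_lit 16) (nat_lit 5) (nat_lit 17) (nat_lit 5) (nat_lit 18) (nat_lit 4) (nat_lit 387) (nat_lit 277) (nat_lit 116)) (XT.nd (nat_lit 78) (nat_lit 152) (nat_lit 0) (XT.lf (nat_lit 0) (nat_lit 1184244472) (nat_lit 152) (nat_lit 7663778170) (nat_lit 76) (nat_lit 56992787153) (nat_lit 15) (nat_lit 5) (nat_lit 17) (nat_lit 5) (nat_lit 16) (nat_lit 5) (nat_lit 388) (nat_lit 277) (nat_lit 115)) (XT.lf (nat_lit 0) (nat_lit 7212430712) (nat_lit 152) (nat_lit 343000149) (nat_lit 228) (nat_lit 59998857213) (nat_lit 13) (nat_lit 5) (nat_lit 15) (nat_lit 5) (nat_lit 16) (nat_lit 5) (nat_lit 389) (nat_lit 277) (nat_lit 114)))) (XT.nd (nat_lit 78) (nat_lit 0) (nat_lit 0) (XT.lf (nat_lit 0) (nat_lit 14272709071) (nat_lit 228) (nat_lit 46713750427) (nat_lit 76) (nat_lit 8328064877) (nat_lit 13) (nat_lit 5) (nat_lit 16) (nat_lit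 5) (nat_lit 14) (nat_lit 4) (nat_lit 390) (nat_lit 277) (nat_lit 113)) (XT.nd (nat_lit 78) (nat_lit 0) (nat_lit 0) (XT.lf (nat_lit 0) (nat_lit 21190911230) (nat_lit 228) (nat_lit 32687235115) (nat_lit 76) (nat_lit 17249441541) (nat_lit 13) (nat_lit 5) (nat_lit 16) (nat_lit 5) (nat_lit 14) (nat_lit 4) (nat_lit 391) (nat_lit 277) (nat_lit 112)) (XT.lf (nat_lit 0) (nat_lit 28312785244) (nat_lit 228) (nat_lit 18246758123) (nat_lit 76) (nat_lit 26435618387) (nat_lit 13) (nat_lit 5) (nat_lit 16) (nat_lit 5) (nat_lit 14) (nat_lit 4) (nat_lit 392) (nat_lit 277) (nat_lit 111)))))) (XT.nd (nat_lit 31980) (nat_lit 0) (nat_lit 15048) (XT.nd (nat_lit 31746) (nat_lit 0) (nat_lit 15884) (XT.nd (nat_lit 78) (nat_lit 76) (nat_lit 0) (XT.lf (nat_lit 0) (nat_lit 35644554109) (nat_lit 228) (nat_lit 3379701556) (nat_lit 76) (nat_lit 35894622174) (nat_lit 13) (nat_lit 5) (nat_lit 16) (nat_lit 5) (nat_lit 14) (nat_lit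 4) (nat_lit 393) (nat_lit 277) (nat_lit 110)) (XT.nd (nat_lit 31590) (nat_lit 0) (nat_lit 15884) (XT.lf (nat_lit 0) (nat_lit 12164294414) (nat_lit 76) (nat_lit 31145260449) (nat_lit 152) (nat_lit 33587354274) (nat_lit 12) (nat_lit 5) (nat_lit 13) (nat_lit 5) (nat_lit 14) (nat_lit 4) (nat_lit 394) (nat_lit 277) (nat_lit 109)) (XT.lf (nat_lit 0) (nat_lit 726055673) (nat_lit 0) (nat_lit 726055673) (nat_lit 836) (nat_lit 2476425839) (nat_lit 221) (nat_lit 5) (nat_lit 221) (nat_lit 3) (nat_lit 232) (nat_lit 3) (nat_lit 278) (nat_lit 278) (nat_lit 224)))) (XT.nd (nat_lit 78) (nat_lit 0) (nat_lit 0) (XT.lf (nat_lit 0) (nat_lit 4134974275) (nat_lit 836) (nat_lit 2935747591) (nat_lit 912) (nat_lit 866160130) (nat_lit 221) (nat_lit 5) (nat_lit 232) (nat_lit 3) (nat_lit 233) (nat_lit 5) (nat_lit 279) (nat_lit 278) (nat_lit 223)) (XT.nd (nat_lit 78) (nat_lit 0) (nat_lit 0) (XT.lf (nat_lit 76) (nat_lit 610381004)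 (nat_lit 0) (nat_lit 4766731964) (nat_lit 912) (nat_lit 2642831890) (nat_lit 222) (nat_lit 5) (nat_lit 221) (nat_lit 5) (nat_lit 233) (nat_lit 5) (nat_lit 280) (nat_lit 278) (nat_lit 222)) (XT.lf (nat_lit 76) (nat_lit 4298618836) (nat_lit 0) (nat_lit 2342860480) (nat_lit 912) (nat_lit 1464563569) (nat_lit 222) (nat_lit 5) (nat_lit 221) (nat_lit 5) (nat_lit 233) (nat_lit 5) (nat_lit 281) (nat_lit 278) (nat_lit 221))))) (XT.nd (nat_lit 234) (nat_lit 0) (nat_lit 0) (XT.nd (nat_lit 78) (nat_lit 912) (nat_lit 0) (XT.lf (nat_lit 0) (nat_lit 7902062757) (nat_lit 836) (nat_lit 124019752) (nat_lit 912) (nat_lit 169982258) (nat_lit 222) (nat_lit 5) (nat_lit 233) (nat_lit 5) (nat_lit 234) (nat_lit 5) (nat_lit 282) (nat_lit 278) (nat_lit 220)) (XT.nd (nat_lit 78) (nat_lit 0) (nat_lit 0) (XT.lf (nat_lit 0) (nat_lit 910741058) (nat_lit 912) (nat_lit 4603107220) (nat_lit 988) (nat_lit 2774254834) (nat_lit 210)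 (nat_lit 5) (nat_lit 222) (nat_lit 5) (nat_lit 223) (nat_lit 5) (nat_lit 283) (nat_lit 278) (nat_lit 219)) (XT.lf (nat_lit 0) (nat_lit 2105547658) (nat_lit 912) (nat_lit 800214011) (nat_lit 988) (nat_lit 5478340602) (nat_lit 210) (nat_lit 5) (nat_lit 222) (nat_lit 5) (nat_lit 223) (nat_lit 5) (nat_lit 284) (nat_lit 278) (nat_lit 218)))) (XT.nd (nat_lit 78) (nat_lit 0) (nat_lit 76) (XT.lf (nat_lit 76) (nat_lit 3153793344) (nat_lit 0) (nat_lit 172493762) (nat_lit 988) (nat_lit 5157071157) (nat_lit 211) (nat_lit 5) (nat_lit 210) (nat_lit 5) (nat_lit 223) (nat_lit 5) (nat_lit 285) (nat_lit 278) (nat_lit 217)) (XT.nd (nat_lit 78) (nat_lit 0) (nat_lit 0) (XT.lf (nat_lit 0) (nat_lit 4578068411) (nat_lit 912) (nat_lit 1393683330) (nat_lit 988) (nat_lit 2614084804) (nat_lit 211) (nat_lit 5) (nat_lit 223) (nat_lit 5) (nat_lit 224) (nat_lit 5) (nat_lit 286) (nat_lit 278) (nat_lit 216)) (XT.lf (nat_lit 76)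 (nat_lit 2686054861) (nat_lit 0) (nat_lit 3170871427) (nat_lit 988) (nat_lit 2834852146) (nat_lit 212) (nat_lit 5) (nat_lit 211) (nat_lit 5) (nat_lit 224) (nat_lit 5) (nat_lit 287) (nat_lit 278) (nat_lit 215))))))))
noncomputable def xc157 : XT := (XT.nd (nat_lit 1872) (nat_lit 3952) (nat_lit 0) (XT.nd (nat_lit 936) (nat_lit 3268) (nat_lit 0) (XT.nd (nat_lit 468) (nat_lit 3116) (nat_lit 0) (XT.nd (nat_lit 234) (nat_lit 0) (nat_lit 0) (XT.nd (nat_lit 78) (nat_lit 912) (nat_lit 0) (XT.lf (nat_lit 76) (nat_lit 6892072129) (nat_lit 0) (nat_lit 259016188) (nat_lit 988) (nat_lit 1650574879) (nat_lit 212) (nat_lit 5) (nat_lit 211) (nat_lit 5) (nat_lit 224) (nat_lit 5) (nat_lit 288) (nat_lit 278) (nat_lit 214)) (XT.nd (nat_lit 78) (nat_lit 988) (nat_lit 0) (XT.lf (nat_lit 76) (nat_lit 2302788908) (nat_lit 0) (nat_lit 6193825310) (nat_lit 988) (nat_lit 417924762) (nat_lit 213) (nat_lit 5) (nat_lit 212)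 (nat_lit 5) (nat_lit 225) (nat_lit 5) (nat_lit 289) (nat_lit 278) (nat_lit 213)) (XT.lf (nat_lit 0) (nat_lit 821577827) (nat_lit 988) (nat_lit 2386238501) (nat_lit 1064) (nat_lit 5823210906) (nat_lit 199) (nat_lit 5) (nat_lit 212) (nat_lit 5) (nat_lit 213) (nat_lit 5) (nat_lit 290) (nat_lit 278) (nat_lit 212)))) (XT.nd (nat_lit 78) (nat_lit 0) (nat_lit 76) (XT.lf (nat_lit 76) (nat_lit 1975440312) (nat_lit 0) (nat_lit 98903998) (nat_lit 1064) (nat_lit 7077071982) (nat_lit 200) (nat_lit 5) (nat_lit 199) (nat_lit 5) (nat_lit 213) (nat_lit 5) (nat_lit 291) (nat_lit 278) (nat_lit 211)) (XT.nd (nat_lit 78) (nat_lit 0) (nat_lit 0) (XT.lf (nat_lit 0) (nat_lit 3385202276) (nat_lit 988) (nat_lit 2813802665) (nat_lit 1064) (nat_lit 3075859599) (nat_lit 200) (nat_lit 5) (nat_lit 213) (nat_lit 5) (nat_lit 214) (nat_lit 5) (nat_lit 292) (nat_lit 278) (nat_lit 210)) (XT.lf (nat_lit 76) (nat_lit 1685986951) (nat_lit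 0) (nat_lit 3033908311) (nat_lit 1064) (nat_lit 4682646639) (nat_lit 201) (nat_lit 5) (nat_lit 200) (nat_lit 5) (nat_lit 214) (nat_lit 5) (nat_lit 293) (nat_lit 278) (nat_lit 209))))) (XT.nd (nat_lit 234) (nat_lit 2280) (nat_lit 0) (XT.nd (nat_lit 78) (nat_lit 988) (nat_lit 0) (XT.lf (nat_lit 0) (nat_lit 6093601225) (nat_lit 988) (nat_lit 3183210212) (nat_lit 76) (nat_lit 257328146) (nat_lit 201) (nat_lit 5) (nat_lit 214) (nat_lit 5) (nat_lit 202) (nat_lit 5) (nat_lit 294) (nat_lit 278) (nat_lit 208)) (XT.nd (nat_lit 78) (nat_lit 0) (nat_lit 0) (XT.lf (nat_lit 0) (nat_lit 1459321958) (nat_lit 988) (nat_lit 6062295199) (nat_lit 1064) (nat_lit 2147732520) (nat_lit 188) (nat_lit 5) (nat_lit 201) (nat_lit 5) (nat_lit 202) (nat_lit 5) (nat_lit 295) (nat_lit 278) (nat_lit 207)) (XT.lf (nat_lit 0) (nat_lit 6281379499) (nat_lit 988) (nat_lit 2712932078) (nat_lit 1064) (nat_lit 814305128) (nat_lit 188)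 (nat_lit 5) (nat_lit 201) (nat_lit 5) (nat_lit 202) (nat_lit 5) (nat_lit 296) (nat_lit 278) (nat_lit 206)))) (XT.nd (nat_lit 78) (nat_lit 1140) (nat_lit 0) (XT.lf (nat_lit 0) (nat_lit 538162224) (nat_lit 1140) (nat_lit 8668847080) (nat_lit 76) (nat_lit 745245339) (nat_lit 173) (nat_lit 5) (nat_lit 188) (nat_lit 5) (nat_lit 174) (nat_lit 5) (nat_lit 297) (nat_lit 278) (nat_lit 205)) (XT.nd (nat_lit 78) (nat_lit 1140) (nat_lit 0) (XT.lf (nat_lit 0) (nat_lit 1948573261) (nat_lit 1140) (nat_lit 3849376190) (nat_lit 76) (nat_lit 4301049343) (nat_lit 173) (nat_lit 5) (nat_lit 188) (nat_lit 5) (nat_lit 174) (nat_lit 5) (nat_lit 298) (nat_lit 278) (nat_lit 204)) (XT.lf (nat_lit 0) (nat_lit 1111470727) (nat_lit 1140) (nat_lit 2272262312) (nat_lit 1216) (nat_lit 6866988690) (nat_lit 158) (nat_lit 5) (nat_lit 173) (nat_lit 5) (nat_lit 174) (nat_lit 5) (nat_lit 299) (nat_lit 278) (nat_lit 203)))))) (XT.nd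 (nat_lit 468) (nat_lit 1520) (nat_lit 0) (XT.nd (nat_lit 234) (nat_lit 1216) (nat_lit 0) (XT.nd (nat_lit 78) (nat_lit 532) (nat_lit 0) (XT.lf (nat_lit 0) (nat_lit 4886636014) (nat_lit 1216) (nat_lit 4144788711) (nat_lit 76) (nat_lit 1374879084) (nat_lit 158) (nat_lit 5) (nat_lit 174) (nat_lit 5) (nat_lit 159) (nat_lit 5) (nat_lit 300) (nat_lit 278) (nat_lit 202)) (XT.nd (nat_lit 78) (nat_lit 0) (nat_lit 0) (XT.lf (nat_lit 0) (nat_lit 971145096) (nat_lit 532) (nat_lit 5468485685) (nat_lit 608) (nat_lit 4126819138) (nat_lit 151) (nat_lit 5) (nat_lit 158) (nat_lit 5) (nat_lit 159) (nat_lit 5) (nat_lit 301) (nat_lit 278) (nat_lit 201)) (XT.lf (nat_lit 0) (nat_lit 6300949066) (nat_lit 532) (nat_lit 1753837583) (nat_lit 608) (nat_lit 2676191973) (nat_lit 151) (nat_lit 5) (nat_lit 158) (nat_lit 5) (nat_lit 159) (nat_lit 5) (nat_lit 302) (nat_lit 278) (nat_lit 200)))) (XT.nd (nat_lit 78) (nat_lit 608)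 (nat_lit 0) (XT.lf (nat_lit 0) (nat_lit 862431593) (nat_lit 608) (nat_lit 8858674064) (nat_lit 684) (nat_lit 1179300299) (nat_lit 143) (nat_lit 5) (nat_lit 151) (nat_lit 5) (nat_lit 152) (nat_lit 5) (nat_lit 303) (nat_lit 278) (nat_lit 199)) (XT.nd (nat_lit 78) (nat_lit 532) (nat_lit 0) (XT.lf (nat_lit 0) (nat_lit 392683707) (nat_lit 684) (nat_lit 4715372924) (nat_lit 76) (nat_lit 5965678667) (nat_lit 142) (nat_lit 5) (nat_lit 151) (nat_lit 5) (nat_lit 143) (nat_lit 5) (nat_lit 304) (nat_lit 278) (nat_lit 198)) (XT.lf (nat_lit 0) (nat_lit 745521337) (nat_lit 532) (nat_lit 1225222905) (nat_lit 608) (nat_lit 9281731687) (nat_lit 135) (nat_lit 5) (nat_lit 142) (nat_lit 5) (nat_lit 143) (nat_lit 5) (nat_lit 305) (nat_lit 278) (nat_lit 197))))) (XT.nd (nat_lit 234) (nat_lit 988) (nat_lit 0) (XT.nd (nat_lit 78) (nat_lit 532) (nat_lit 0) (XT.lf (nat_lit 0) (nat_lit 3646838220) (nat_lit 608) (nat_lit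 5020165492) (nat_lit 76) (nat_lit 2768093436) (nat_lit 135) (nat_lit 5) (nat_lit 143) (nat_lit 5) (nat_lit 136) (nat_lit 5) (nat_lit 306) (nat_lit 278) (nat_lit 196)) (XT.nd (nat_lit 78) (nat_lit 0) (nat_lit 0) (XT.lf (nat_lit 0) (nat_lit 606880149) (nat_lit 532) (nat_lit 4760938182) (nat_lit 608) (nat_lit 6255578550) (nat_lit 128) (nat_lit 5) (nat_lit 135) (nat_lit 5) (nat_lit 136) (nat_lit 5) (nat_lit 307) (nat_lit 278) (nat_lit 195)) (XT.lf (nat_lit 0) (nat_lit 6481822871) (nat_lit 532) (nat_lit 686388925) (nat_lit 608) (nat_lit 4648337164) (nat_lit 128) (nat_lit 5) (nat_lit 135) (nat_lit 5) (nat_lit 136) (nat_lit 5) (nat_lit 308) (nat_lit 278) (nat_lit 194)))) (XT.nd (nat_lit 78) (nat_lit 532) (nat_lit 0) (XT.lf (nat_lit 0) (nat_lit 469104662) (nat_lit 456) (nat_lit 8569514682) (nat_lit 532) (nat_lit 2976431985) (nat_lit 122) (nat_lit 5) (nat_lit 128) (nat_lit 5) (nat_lit 129) (nat_lit 5)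 (nat_lit 309) (nat_lit 278) (nat_lit 193)) (XT.nd (nat_lit 78) (nat_lit 532) (nat_lit 0) (XT.lf (nat_lit 0) (nat_lit 6525885923) (nat_lit 456) (nat_lit 4478022982) (nat_lit 532) (nat_lit 1214471526) (nat_lit 122) (nat_lit 5) (nat_lit 128) (nat_lit 5) (nat_lit 129) (nat_lit 5) (nat_lit 310) (nat_lit 278) (nat_lit 192)) (XT.lf (nat_lit 0) (nat_lit 313546527) (nat_lit 456) (nat_lit 256663375) (nat_lit 532) (nat_lit 11858011824) (nat_lit 115) (nat_lit 5) (nat_lit 121) (nat_lit 5) (nat_lit 122) (nat_lit 5) (nat_lit 311) (nat_lit 278) (nat_lit 191))))))) (XT.nd (nat_lit 936) (nat_lit 1976) (nat_lit 0) (XT.nd (nat_lit 468) (nat_lit 1140) (nat_lit 0) (XT.nd (nat_lit 234) (nat_lit 456) (nat_lit 0) (XT.nd (nat_lit 78) (nat_lit 380) (nat_lit 0) (XT.lf (nat_lit 0) (nat_lit 2460347644) (nat_lit 532) (nat_lit 6101872302) (nat_lit 76) (nat_lit 4079519619) (nat_lit 115) (nat_lit 5) (nat_lit 122) (nat_lit 5) (nat_lit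 116) (nat_lit 5) (nat_lit 312) (nat_lit 278) (nat_lit 190)) (XT.nd (nat_lit 78) (nat_lit 0) (nat_lit 0) (XT.lf (nat_lit 0) (nat_lit 66997482) (nat_lit 380) (nat_lit 4322935470) (nat_lit 456) (nat_lit 8472278563) (nat_lit 110) (nat_lit 5) (nat_lit 115) (nat_lit 5) (nat_lit 116) (nat_lit 5) (nat_lit 313) (nat_lit 278) (nat_lit 189)) (XT.lf (nat_lit 0) (nat_lit 6419958290) (nat_lit 456) (nat_lit 6565924005) (nat_lit 76) (nat_lit 102168734) (nat_lit 110) (nat_lit 5) (nat_lit 116) (nat_lit 5) (nat_lit 111) (nat_lit 5) (nat_lit 314) (nat_lit 278) (nat_lit 188)))) (XT.nd (nat_lit 78) (nat_lit 456) (nat_lit 0) (XT.lf (nat_lit 0) (nat_lit 8534178002) (nat_lit 456) (nat_lit 215335423) (nat_lit 76) (nat_lit 4570482602) (nat_lit 110) (nat_lit 5) (nat_lit 116) (nat_lit 5) (nat_lit 111) (nat_lit 5) (nat_lit 315) (nat_lit 278) (nat_lit 187)) (XT.nd (nat_lit 78) (nat_lit 0) (nat_lit 0) (XT.lf (nat_lit 0) (nat_lit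 6429110576) (nat_lit 456) (nat_lit 4325574733) (nat_lit 532) (nat_lit 2802956495) (nat_lit 104) (nat_lit 5) (nat_lit 110) (nat_lit 5) (nat_lit 111) (nat_lit 5) (nat_lit 316) (nat_lit 278) (nat_lit 186)) (XT.lf (nat_lit 0) (nat_lit 13027595005) (nat_lit 532) (nat_lit 549742624) (nat_lit 76) (nat_lit 225533146) (nat_lit 104) (nat_lit 5) (nat_lit 111) (nat_lit 5) (nat_lit 105) (nat_lit 5) (nat_lit 317) (nat_lit 278) (nat_lit 185))))) (XT.nd (nat_lit 234) (nat_lit 304) (nat_lit 0) (XT.nd (nat_lit 78) (nat_lit 380) (nat_lit 0) (XT.lf (nat_lit 0) (nat_lit 1373575987) (nat_lit 456) (nat_lit 7781979693) (nat_lit 76) (nat_lit 4896969090) (nat_lit 98) (nat_lit 5) (nat_lit 104) (nat_lit 5) (nat_lit 99) (nat_lit 5) (nat_lit 318) (nat_lit 278) (nat_lit 184)) (XT.nd (nat_lit 78) (nat_lit 380) (nat_lit 0) (XT.lf (nat_lit 0) (nat_lit 3558947864) (nat_lit 456) (nat_lit 1032489483) (nat_lit 76) (nat_lit 9718396761)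 (nat_lit 98) (nat_lit 5) (nat_lit 104) (nat_lit 5) (nat_lit 99) (nat_lit 5) (nat_lit 319) (nat_lit 278) (nat_lit 183)) (XT.lf (nat_lit 0) (nat_lit 5851848714) (nat_lit 456) (nat_lit 8559721640) (nat_lit 76) (nat_lit 162057714) (nat_lit 93) (nat_lit 5) (nat_lit 99) (nat_lit 5) (nat_lit 94) (nat_lit 5) (nat_lit 320) (nat_lit 278) (nat_lit 182)))) (XT.nd (nat_lit 78) (nat_lit 304) (nat_lit 0) (XT.lf (nat_lit 0) (nat_lit 8252346552) (nat_lit 456) (nat_lit 1619344844) (nat_lit 76) (nat_lit 4972503818) (nat_lit 93) (nat_lit 5) (nat_lit 99) (nat_lit 5) (nat_lit 94) (nat_lit 5) (nat_lit 321) (nat_lit 278) (nat_lit 181)) (XT.nd (nat_lit 78) (nat_lit 0) (nat_lit 0) (XT.lf (nat_lit 0) (nat_lit 5617879962) (nat_lit 304) (nat_lit 5144303063) (nat_lit 380) (nat_lit 4359599615) (nat_lit 89) (nat_lit 5) (nat_lit 93) (nat_lit 5) (nat_lit 94) (nat_lit 5) (nat_lit 322) (nat_lit 278) (nat_lit 180)) (XT.lf (nat_lit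 0) (nat_lit 13084633898) (nat_lit 304) (nat_lit 262640121) (nat_lit 380) (nat_lit 2060447196) (nat_lit 89) (nat_lit 5) (nat_lit 93) (nat_lit 5) (nat_lit 94) (nat_lit 5) (nat_lit 323) (nat_lit 278) (nat_lit 179)))))) (XT.nd (nat_lit 468) (nat_lit 912) (nat_lit 0) (XT.nd (nat_lit 234) (nat_lit 304) (nat_lit 0) (XT.nd (nat_lit 78) (nat_lit 304) (nat_lit 0) (XT.lf (nat_lit 0) (nat_lit 381373905) (nat_lit 456) (nat_lit 10597278681) (nat_lit 76) (nat_lit 4721126718) (nat_lit 83) (nat_lit 5) (nat_lit 89) (nat_lit 5) (nat_lit 84) (nat_lit 5) (nat_lit 324) (nat_lit 278) (nat_lit 178)) (XT.nd (nat_lit 78) (nat_lit 304) (nat_lit 0) (XT.lf (nat_lit 0) (nat_lit 2865464075) (nat_lit 456) (nat_lit 3245420547) (nat_lit 76) (nat_lit 9888810093) (nat_lit 83) (nat_lit 5) (nat_lit 89) (nat_lit 5) (nat_lit 84) (nat_lit 5) (nat_lit 325) (nat_lit 278) (nat_lit 177)) (XT.lf (nat_lit 0) (nat_lit 4392543345) (nat_lit 304)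 (nat_lit 1058355570) (nat_lit 380) (nat_lit 10856923835) (nat_lit 79) (nat_lit 5) (nat_lit 83) (nat_lit 5) (nat_lit 84) (nat_lit 5) (nat_lit 326) (nat_lit 278) (nat_lit 176)))) (XT.nd (nat_lit 78) (nat_lit 304) (nat_lit 0) (XT.lf (nat_lit 0) (nat_lit 8171653614) (nat_lit 380) (nat_lit 4358607208) (nat_lit 76) (nat_lit 4093220341) (nat_lit 79) (nat_lit 5) (nat_lit 84) (nat_lit 5) (nat_lit 80) (nat_lit 5) (nat_lit 327) (nat_lit 278) (nat_lit 175)) (XT.nd (nat_lit 78) (nat_lit 0) (nat_lit 0) (XT.lf (nat_lit 0) (nat_lit 3462043429) (nat_lit 304) (nat_lit 7540996514) (nat_lit 380) (nat_lit 5944717801) (nat_lit 75) (nat_lit 5) (nat_lit 79) (nat_lit 5) (nat_lit 80) (nat_lit 5) (nat_lit 328) (nat_lit 278) (nat_lit 174)) (XT.lf (nat_lit 0) (nat_lit 11587054985) (nat_lit 304) (nat_lit 2361818328) (nat_lit 380) (nat_lit 3332022282) (nat_lit 75) (nat_lit 5) (nat_lit 79) (nat_lit 5) (nat_lit 80) (nat_lit 5)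 (nat_lit 329) (nat_lit 278) (nat_lit 173))))) (XT.nd (nat_lit 234) (nat_lit 228) (nat_lit 0) (XT.nd (nat_lit 78) (nat_lit 380) (nat_lit 0) (XT.lf (nat_lit 0) (nat_lit 2329238049) (nat_lit 304) (nat_lit 14690676494) (nat_lit 380) (nat_lit 603025664) (nat_lit 71) (nat_lit 5) (nat_lit 75) (nat_lit 5) (nat_lit 76) (nat_lit 5) (nat_lit 330) (nat_lit 278) (nat_lit 172)) (XT.nd (nat_lit 78) (nat_lit 304) (nat_lit 0) (XT.lf (nat_lit 0) (nat_lit 2232147488) (nat_lit 380) (nat_lit 7328504068) (nat_lit 76) (nat_lit 8411952820) (nat_lit 70) (nat_lit 5) (nat_lit 75) (nat_lit 5) (nat_lit 71) (nat_lit 5) (nat_lit 331) (nat_lit 278) (nat_lit 171)) (XT.lf (nat_lit 0) (nat_lit 867645942) (nat_lit 304) (nat_lit 4267298874) (nat_lit 380) (nat_lit 13197809976) (nat_lit 66) (nat_lit 5) (nat_lit 70) (nat_lit 5) (nat_lit 71) (nat_lit 5) (nat_lit 332) (nat_lit 278) (nat_lit 170)))) (XT.nd (nat_lit 78) (nat_lit 228) (nat_lit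 0) (XT.lf (nat_lit 0) (nat_lit 8197466420) (nat_lit 380) (nat_lit 9272850006) (nat_lit 76) (nat_lit 1231229732) (nat_lit 66) (nat_lit 5) (nat_lit 71) (nat_lit 5) (nat_lit 67) (nat_lit 5) (nat_lit 333) (nat_lit 278) (nat_lit 169)) (XT.nd (nat_lit 78) (nat_lit 228) (nat_lit 0) (XT.lf (nat_lit 0) (nat_lit 11381021514) (nat_lit 380) (nat_lit 895661973) (nat_lit 76) (nat_lit 6803858231) (nat_lit 66) (nat_lit 5) (nat_lit 71) (nat_lit 5) (nat_lit 67) (nat_lit 5) (nat_lit 334) (nat_lit 278) (nat_lit 168)) (XT.lf (nat_lit 0) (nat_lit 7868334553) (nat_lit 228) (nat_lit 6854672651) (nat_lit 304) (nat_lit 4746026972) (nat_lit 63) (nat_lit 5) (nat_lit 66) (nat_lit 5) (nat_lit 67) (nat_lit 5) (nat_lit 335) (nat_lit 278) (nat_lit 167))))))))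
noncomputable def xc158 : XT := (XT.nd (nat_lit 1794) (nat_lit 1292) (nat_lit 0) (XT.nd (nat_lit 858) (nat_lit 836) (nat_lit 0) (XT.nd (nat_lit 390) (nat_lit 760) (nat_lit 0) (XT.nd (nat_lit 156) (nat_lit 228) (nat_lit 0) (XT.nd (nat_lit 78) (nat_lit 380) (nat_lit 0) (XT.lf (nat_lit 0) (nat_lit 16895741403) (nat_lit 228) (nat_lit 1266042647) (nat_lit 304) (nat_lit 1707515728) (nat_lit 63) (nat_lit 5) (nat_lit 66) (nat_lit 5) (nat_lit 67) (nat_lit 5) (nat_lit 336) (nat_lit 278) (nat_lit 166)) (XT.lf (nat_lit 0) (nat_lit 1483593325) (nat_lit 380) (nat_lit 14325468384) (nat_lit 76) (nat_lit 4469439206) (nat_lit 58) (nat_lit 5) (nat_lit 63) (nat_lit 5) (nat_lit 59) (nat_lit 5) (nat_lit 337) (nat_lit 278) (nat_lit 165))) (XT.nd (nat_lit 78) (nat_lit 228) (nat_lit 0) (XT.lf (nat_lit 0) (nat_lit 4766832245) (nat_lit 380) (nat_lit 5538198663) (nat_lit 76) (nat_lit 10393531620) (nat_lit 58) (nat_lit 5)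 (nat_lit 63) (nat_lit 5) (nat_lit 59) (nat_lit 5) (nat_lit 338) (nat_lit 278) (nat_lit 164)) (XT.nd (nat_lit 78) (nat_lit 0) (nat_lit 0) (XT.lf (nat_lit 0) (nat_lit 3565013541) (nat_lit 228) (nat_lit 4606034061) (nat_lit 304) (nat_lit 12959516730) (nat_lit 55) (nat_lit 5) (nat_lit 58) (nat_lit 5) (nat_lit 59) (nat_lit 5) (nat_lit 339) (nat_lit 278) (nat_lit 163)) (XT.lf (nat_lit 0) (nat_lit 11734354727) (nat_lit 304) (nat_lit 8549083081) (nat_lit 76) (nat_lit 1290391775) (nat_lit 55) (nat_lit 5) (nat_lit 59) (nat_lit 5) (nat_lit 56) (nat_lit 5) (nat_lit 340) (nat_lit 278) (nat_lit 162))))) (XT.nd (nat_lit 234) (nat_lit 456) (nat_lit 0) (XT.nd (nat_lit 78) (nat_lit 76) (nat_lit 0) (XT.lf (nat_lit 0) (nat_lit 688841395) (nat_lit 228) (nat_lit 14756622184) (nat_lit 304) (nat_lit 6583714128) (nat_lit 52) (nat_lit 5) (nat_lit 55) (nat_lit 5) (nat_lit 56) (nat_lit 5) (nat_lit 341) (nat_lit 278) (nat_lit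 161)) (XT.nd (nat_lit 78) (nat_lit 76) (nat_lit 0) (XT.lf (nat_lit 0) (nat_lit 10362442124) (nat_lit 228) (nat_lit 8980638388) (nat_lit 304) (nat_lit 3152862162) (nat_lit 52) (nat_lit 5) (nat_lit 55) (nat_lit 5) (nat_lit 56) (nat_lit 5) (nat_lit 342) (nat_lit 278) (nat_lit 160)) (XT.lf (nat_lit 0) (nat_lit 362534746) (nat_lit 304) (nat_lit 2670572785) (nat_lit 76) (nat_lit 19943832612) (nat_lit 51) (nat_lit 5) (nat_lit 55) (nat_lit 5) (nat_lit 52) (nat_lit 5) (nat_lit 343) (nat_lit 278) (nat_lit 159)))) (XT.nd (nat_lit 78) (nat_lit 228) (nat_lit 0) (XT.lf (nat_lit 0) (nat_lit 4008978091) (nat_lit 304) (nat_lit 16331417553) (nat_lit 76) (nat_lit 3128377435) (nat_lit 48) (nat_lit 5) (nat_lit 52) (nat_lit 5) (nat_lit 49) (nat_lit 5) (nat_lit 344) (nat_lit 278) (nat_lit 158)) (XT.nd (nat_lit 78) (nat_lit 228) (nat_lit 0) (XT.lf (nat_lit 0) (nat_lit 7811557503) (nat_lit 304) (nat_lit 6726672760) (nat_lit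 76) (nat_lit 9435738801) (nat_lit 48) (nat_lit 5) (nat_lit 52) (nat_lit 5) (nat_lit 49) (nat_lit 5) (nat_lit 345) (nat_lit 278) (nat_lit 157)) (XT.lf (nat_lit 0) (nat_lit 3213297161) (nat_lit 228) (nat_lit 8535589240) (nat_lit 304) (nat_lit 12744824406) (nat_lit 45) (nat_lit 5) (nat_lit 48) (nat_lit 5) (nat_lit 49) (nat_lit 5) (nat_lit 346) (nat_lit 278) (nat_lit 156)))))) (XT.nd (nat_lit 468) (nat_lit 380) (nat_lit 0) (XT.nd (nat_lit 234) (nat_lit 304) (nat_lit 0) (XT.nd (nat_lit 78) (nat_lit 152) (nat_lit 0) (XT.lf (nat_lit 0) (nat_lit 13573889301) (nat_lit 228) (nat_lit 2288304875) (nat_lit 304) (nat_lit 9165124608) (nat_lit 45) (nat_lit 5) (nat_lit 48) (nat_lit 5) (nat_lit 49) (nat_lit 5) (nat_lit 347) (nat_lit 278) (nat_lit 155)) (XT.nd (nat_lit 78) (nat_lit 152) (nat_lit 0) (XT.lf (nat_lit 0) (nat_lit 20128934526) (nat_lit 304) (nat_lit 1386762378) (nat_lit 76) (nat_lit 4060346561) (nat_lit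 45) (nat_lit 5) (nat_lit 49) (nat_lit 5) (nat_lit 46) (nat_lit 5) (nat_lit 348) (nat_lit 278) (nat_lit 154)) (XT.lf (nat_lit 0) (nat_lit 9122435688) (nat_lit 152) (nat_lit 15502050089) (nat_lit 228) (nat_lit 1513729040) (nat_lit 43) (nat_lit 5) (nat_lit 45) (nat_lit 5) (nat_lit 46) (nat_lit 5) (nat_lit 349) (nat_lit 278) (nat_lit 153)))) (XT.nd (nat_lit 78) (nat_lit 228) (nat_lit 0) (XT.lf (nat_lit 0) (nat_lit 2492772401) (nat_lit 228) (nat_lit 6780902961) (nat_lit 76) (nat_lit 17442713640) (nat_lit 42) (nat_lit 5) (nat_lit 45) (nat_lit 5) (nat_lit 43) (nat_lit 5) (nat_lit 350) (nat_lit 278) (nat_lit 152)) (XT.nd (nat_lit 78) (nat_lit 0) (nat_lit 0) (XT.lf (nat_lit 0) (nat_lit 3805854700) (nat_lit 228) (nat_lit 2810547383) (nat_lit 304) (nat_lit 20694244387) (nat_lit 39) (nat_lit 5) (nat_lit 42) (nat_lit 5) (nat_lit 43) (nat_lit 5) (nat_lit 351) (nat_lit 278) (nat_lit 151)) (XT.lf (nat_lit 0)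 (nat_lit 10960721763) (nat_lit 304) (nat_lit 13123645805) (nat_lit 76) (nat_lit 3835462828) (nat_lit 39) (nat_lit 5) (nat_lit 43) (nat_lit 5) (nat_lit 40) (nat_lit 5) (nat_lit 352) (nat_lit 278) (nat_lit 150))))) (XT.nd (nat_lit 234) (nat_lit 228) (nat_lit 0) (XT.nd (nat_lit 78) (nat_lit 152) (nat_lit 0) (XT.lf (nat_lit 0) (nat_lit 15454319264) (nat_lit 304) (nat_lit 2473002065) (nat_lit 76) (nat_lit 10619407991) (nat_lit 39) (nat_lit 5) (nat_lit 43) (nat_lit 5) (nat_lit 40) (nat_lit 5) (nat_lit 353) (nat_lit 278) (nat_lit 149)) (XT.nd (nat_lit 78) (nat_lit 0) (nat_lit 0) (XT.lf (nat_lit 0) (nat_lit 8652300075) (nat_lit 152) (nat_lit 11504975454) (nat_lit 228) (nat_lit 9032930854) (nat_lit 37) (nat_lit 5) (nat_lit 39) (nat_lit 5) (nat_lit 40) (nat_lit 5) (nat_lit 354) (nat_lit 278) (nat_lit 148)) (XT.lf (nat_lit 0) (nat_lit 20148491246) (nat_lit 152) (nat_lit 4869302039) (nat_lit 228) (nat_lit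 4834707763) (nat_lit 37) (nat_lit 5) (nat_lit 39) (nat_lit 5) (nat_lit 40) (nat_lit 5) (nat_lit 355) (nat_lit 278) (nat_lit 147)))) (XT.nd (nat_lit 78) (nat_lit 76) (nat_lit 0) (XT.lf (nat_lit 0) (nat_lit 1450947144) (nat_lit 152) (nat_lit 28597720476) (nat_lit 228) (nat_lit 485267955) (nat_lit 35) (nat_lit 5) (nat_lit 37) (nat_lit 5) (nat_lit 38) (nat_lit 5) (nat_lit 356) (nat_lit 278) (nat_lit 146)) (XT.nd (nat_lit 78) (nat_lit 0) (nat_lit 0) (XT.lf (nat_lit 0) (nat_lit 4055604623) (nat_lit 228) (nat_lit 18194395074) (nat_lit 76) (nat_lit 8980501318) (nat_lit 34) (nat_lit 5) (nat_lit 37) (nat_lit 5) (nat_lit 35) (nat_lit 5) (nat_lit 357) (nat_lit 278) (nat_lit 145)) (XT.lf (nat_lit 0) (nat_lit 8714918020) (nat_lit 228) (nat_lit 6996974739) (nat_lit 76) (nat_lit 16236174118) (nat_lit 34) (nat_lit 5) (nat_lit 37) (nat_lit 5) (nat_lit 35) (nat_lit 5) (nat_lit 358) (nat_lit 278) (nat_lit 144)))))))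 (XT.nd (nat_lit 936) (nat_lit 608) (nat_lit 0) (XT.nd (nat_lit 468) (nat_lit 304) (nat_lit 0) (XT.nd (nat_lit 234) (nat_lit 228) (nat_lit 0) (XT.nd (nat_lit 78) (nat_lit 0) (nat_lit 0) (XT.lf (nat_lit 0) (nat_lit 4613752347) (nat_lit 152) (nat_lit 8936810670) (nat_lit 228) (nat_lit 19135506579) (nat_lit 32) (nat_lit 5) (nat_lit 34) (nat_lit 5) (nat_lit 35) (nat_lit 5) (nat_lit 359) (nat_lit 278) (nat_lit 143)) (XT.nd (nat_lit 78) (nat_lit 0) (nat_lit 0) (XT.lf (nat_lit 0) (nat_lit 16703709571) (nat_lit 152) (nat_lit 1890532255) (nat_lit 228) (nat_lit 14850087893) (nat_lit 32) (nat_lit 5) (nat_lit 34) (nat_lit 5) (nat_lit 35) (nat_lit 5) (nat_lit 360) (nat_lit 278) (nat_lit 142)) (XT.lf (nat_lit 0) (nat_lit 23833310844) (nat_lit 228) (nat_lit 5132907374) (nat_lit 76) (nat_lit 5257803109) (nat_lit 32) (nat_lit 5) (nat_lit 35) (nat_lit 5) (nat_lit 33) (nat_lit 5) (nat_lit 361) (nat_lit 278) (nat_lit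 141)))) (XT.nd (nat_lit 78) (nat_lit 76) (nat_lit 0) (XT.lf (nat_lit 0) (nat_lit 6927515877) (nat_lit 152) (nat_lit 22380052187) (nat_lit 228) (nat_lit 5717201035) (nat_lit 30) (nat_lit 5) (nat_lit 32) (nat_lit 5) (nat_lit 33) (nat_lit 5) (nat_lit 362) (nat_lit 278) (nat_lit 140)) (XT.nd (nat_lit 78) (nat_lit 76) (nat_lit 0) (XT.lf (nat_lit 0) (nat_lit 19443105329) (nat_lit 152) (nat_lit 15547584810) (nat_lit 228) (nat_lit 857515778) (nat_lit 30) (nat_lit 5) (nat_lit 32) (nat_lit 5) (nat_lit 33) (nat_lit 5) (nat_lit 363) (nat_lit 278) (nat_lit 139)) (XT.lf (nat_lit 0) (nat_lit 4059958186) (nat_lit 228) (nat_lit 4413722467) (nat_lit 76) (nat_lit 28221686209) (nat_lit 29) (nat_lit 5) (nat_lit 32) (nat_lit 5) (nat_lit 30) (nat_lit 5) (nat_lit 364) (nat_lit 278) (nat_lit 138))))) (XT.nd (nat_lit 234) (nat_lit 152) (nat_lit 0) (XT.nd (nat_lit 78) (nat_lit 0) (nat_lit 0) (XT.lf (nat_lit 0) (nat_lit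 8075155546) (nat_lit 152) (nat_lit 1103334368) (nat_lit 228) (nat_lit 28387080193) (nat_lit 27) (nat_lit 5) (nat_lit 29) (nat_lit 5) (nat_lit 30) (nat_lit 5) (nat_lit 365) (nat_lit 278) (nat_lit 137)) (XT.nd (nat_lit 78) (nat_lit 0) (nat_lit 0) (XT.lf (nat_lit 0) (nat_lit 14551151085) (nat_lit 228) (nat_lit 17505555243) (nat_lit 76) (nat_lit 6402161003) (nat_lit 27) (nat_lit 5) (nat_lit 30) (nat_lit 5) (nat_lit 28) (nat_lit 5) (nat_lit 366) (nat_lit 278) (nat_lit 136)) (XT.lf (nat_lit 0) (nat_lit 20089308876) (nat_lit 228) (nat_lit 5183123460) (nat_lit 76) (nat_lit 14106406574) (nat_lit 27) (nat_lit 5) (nat_lit 30) (nat_lit 5) (nat_lit 28) (nat_lit 5) (nat_lit 367) (nat_lit 278) (nat_lit 135)))) (XT.nd (nat_lit 78) (nat_lit 0) (nat_lit 0) (XT.lf (nat_lit 0) (nat_lit 7647483839) (nat_lit 152) (nat_lit 18213224982) (nat_lit 228) (nat_lit 14463692690) (nat_lit 25) (nat_lit 5) (nat_lit 27) (nat_lit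 5) (nat_lit 28) (nat_lit 5) (nat_lit 368) (nat_lit 278) (nat_lit 134)) (XT.nd (nat_lit 78) (nat_lit 0) (nat_lit 0) (XT.lf (nat_lit 0) (nat_lit 20958636088) (nat_lit 152) (nat_lit 10892623922) (nat_lit 228) (nat_lit 9445695359) (nat_lit 25) (nat_lit 5) (nat_lit 27) (nat_lit 5) (nat_lit 28) (nat_lit 5) (nat_lit 369) (nat_lit 278) (nat_lit 133)) (XT.lf (nat_lit 0) (nat_lit 34658810068) (nat_lit 152) (nat_lit 3356571901) (nat_lit 228) (nat_lit 4283492768) (nat_lit 25) (nat_lit 5) (nat_lit 27) (nat_lit 5) (nat_lit 28) (nat_lit 5) (nat_lit 370) (nat_lit 278) (nat_lit 132)))))) (XT.nd (nat_lit 468) (nat_lit 304) (nat_lit 0) (XT.nd (nat_lit 234) (nat_lit 152) (nat_lit 0) (XT.nd (nat_lit 78) (nat_lit 0) (nat_lit 0) (XT.lf (nat_lit 0) (nat_lit 1103438931) (nat_lit 152) (nat_lit 37845163305) (nat_lit 76) (nat_lit 4379254695) (nat_lit 23) (nat_lit 5) (nat_lit 25) (nat_lit 5) (nat_lit 24) (nat_lit 5) (nat_lit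 371) (nat_lit 278) (nat_lit 131)) (XT.nd (nat_lit 78) (nat_lit 0) (nat_lit 0) (XT.lf (nat_lit 0) (nat_lit 6671041260) (nat_lit 152) (nat_lit 25316234399) (nat_lit 76) (nat_lit 12396010047) (nat_lit 23) (nat_lit 5) (nat_lit 25) (nat_lit 5) (nat_lit 24) (nat_lit 5) (nat_lit 372) (nat_lit 278) (nat_lit 130)) (XT.lf (nat_lit 0) (nat_lit 12399855858) (nat_lit 152) (nat_lit 12421321841) (nat_lit 76) (nat_lit 20649378134) (nat_lit 23) (nat_lit 5) (nat_lit 25) (nat_lit 5) (nat_lit 24) (nat_lit 5) (nat_lit 373) (nat_lit 278) (nat_lit 129)))) (XT.nd (nat_lit 78) (nat_lit 0) (nat_lit 0) (XT.lf (nat_lit 0) (nat_lit 867775187) (nat_lit 152) (nat_lit 17435454886) (nat_lit 228) (nat_lit 28287137038) (nat_lit 21) (nat_lit 5) (nat_lit 23) (nat_lit 5) (nat_lit 24) (nat_lit 5) (nat_lit 374) (nat_lit 278) (nat_lit 128)) (XT.nd (nat_lit 78) (nat_lit 0) (nat_lit 0) (XT.lf (nat_lit 0) (nat_lit 14800667803) (nat_lit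 152) (nat_lit 9702895415) (nat_lit 228) (nat_lit 23236617563) (nat_lit 21) (nat_lit 5) (nat_lit 23) (nat_lit 5) (nat_lit 24) (nat_lit 5) (nat_lit 375) (nat_lit 278) (nat_lit 127)) (XT.lf (nat_lit 0) (nat_lit 29142321718) (nat_lit 152) (nat_lit 1742173678) (nat_lit 228) (nat_lit 18040159471) (nat_lit 21) (nat_lit 5) (nat_lit 23) (nat_lit 5) (nat_lit 24) (nat_lit 5) (nat_lit 376) (nat_lit 278) (nat_lit 126))))) (XT.nd (nat_lit 234) (nat_lit 228) (nat_lit 0) (XT.nd (nat_lit 78) (nat_lit 76) (nat_lit 0) (XT.lf (nat_lit 0) (nat_lit 37513638767) (nat_lit 228) (nat_lit 6301592459) (nat_lit 76) (nat_lit 6327732021) (nat_lit 21) (nat_lit 5) (nat_lit 24) (nat_lit 5) (nat_lit 22) (nat_lit 4) (nat_lit 377) (nat_lit 278) (nat_lit 125)) (XT.nd (nat_lit 78) (nat_lit 0) (nat_lit 0) (XT.lf (nat_lit 0) (nat_lit 7707912531) (nat_lit 76) (nat_lit 36719951409) (nat_lit 152) (nat_lit 6967374178) (nat_lit 20) (nat_lit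 5) (nat_lit 21) (nat_lit 5) (nat_lit 22) (nat_lit 4) (nat_lit 378) (nat_lit 278) (nat_lit 124)) (XT.lf (nat_lit 0) (nat_lit 22258147776) (nat_lit 76) (nat_lit 29349932537) (nat_lit 152) (nat_lit 1075247354) (nat_lit 20) (nat_lit 5) (nat_lit 21) (nat_lit 5) (nat_lit 22) (nat_lit 4) (nat_lit 379) (nat_lit 278) (nat_lit 123)))) (XT.nd (nat_lit 78) (nat_lit 152) (nat_lit 0) (XT.lf (nat_lit 0) (nat_lit 4891225741) (nat_lit 152) (nat_lit 16821750985) (nat_lit 76) (nat_lit 32295795496) (nat_lit 19) (nat_lit 5) (nat_lit 21) (nat_lit 5) (nat_lit 20) (nat_lit 5) (nat_lit 380) (nat_lit 278) (nat_lit 122)) (XT.nd (nat_lit 78) (nat_lit 152) (nat_lit 0) (XT.lf (nat_lit 0) (nat_lit 11010252918) (nat_lit 152) (nat_lit 2829194550) (nat_lit 76) (nat_lit 41534361204) (nat_lit 19) (nat_lit 5) (nat_lit 21) (nat_lit 5) (nat_lit 20) (nat_lit 5) (nat_lit 381) (nat_lit 278) (nat_lit 121)) (XT.lf (nat_lit 0) (nat_lit 11805418080)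 (nat_lit 152) (nat_lit 5616225667) (nat_lit 228) (nat_lit 39354891674) (nat_lit 17) (nat_lit 5) (nat_lit 19) (nat_lit 5) (nat_lit 20) (nat_lit 5) (nat_lit 382) (nat_lit 278) (nat_lit 120))))))))
noncomputable def xc159 : XT := (XT.nd (nat_lit 33540) (nat_lit 0) (nat_lit 7372) (XT.nd (nat_lit 32604) (nat_lit 0) (nat_lit 14060) (XT.nd (nat_lit 468) (nat_lit 228) (nat_lit 0) (XT.nd (nat_lit 234) (nat_lit 76) (nat_lit 0) (XT.nd (nat_lit 78) (nat_lit 0) (nat_lit 0) (XT.lf (nat_lit 0) (nat_lit 24076998953) (nat_lit 228) (nat_lit 31319253112) (nat_lit 76) (nat_lit 2823546128) (nat_lit 17) (nat_lit 5) (nat_lit 20) (nat_lit 5) (nat_lit 18) (nat_lit 4) (nat_lit 383) (nat_lit 278) (nat_lit 119)) (XT.nd (nat_lit 78) (nat_lit 0) (nat_lit 0) (XT.lf (nat_lit 0) (nat_lit 30983095797) (nat_lit 228) (nat_lit 17321319461) (nat_lit 76) (nat_lit 11400413980) (nat_lit 17) (nat_lit 5) (nat_lit 20) (nat_lit 5) (nat_lit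 18) (nat_lit 4) (nat_lit 384) (nat_lit 278) (nat_lit 118)) (XT.lf (nat_lit 0) (nat_lit 38091982133) (nat_lit 228) (nat_lit 2911098586) (nat_lit 76) (nat_lit 20231465031) (nat_lit 17) (nat_lit 5) (nat_lit 20) (nat_lit 5) (nat_lit 18) (nat_lit 4) (nat_lit 385) (nat_lit 278) (nat_lit 117)))) (XT.nd (nat_lit 78) (nat_lit 0) (nat_lit 0) (XT.lf (nat_lit 0) (nat_lit 12161311966) (nat_lit 76) (nat_lit 33365459615) (nat_lit 152) (nat_lit 17280005737) (nat_lit 16) (nat_lit 5) (nat_lit 17) (nat_lit 5) (nat_lit 18) (nat_lit 4) (nat_lit 386) (nat_lit 278) (nat_lit 116)) (XT.nd (nat_lit 78) (nat_lit 0) (nat_lit 0) (XT.lf (nat_lit 0) (nat_lit 27738214378) (nat_lit 76) (nat_lit 25471574809) (nat_lit 152) (nat_lit 11215633691) (nat_lit 16) (nat_lit 5) (nat_lit 17) (nat_lit 5) (nat_lit 18) (nat_lit 4) (nat_lit 387) (nat_lit 278) (nat_lit 115)) (XT.lf (nat_lit 0) (nat_lit 43775282965) (nat_lit 76) (nat_lit 17343925119)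 (nat_lit 152) (nat_lit 4973544901) (nat_lit 16) (nat_lit 5) (nat_lit 17) (nat_lit 5) (nat_lit 18) (nat_lit 4) (nat_lit 388) (nat_lit 278) (nat_lit 114))))) (XT.nd (nat_lit 234) (nat_lit 0) (nat_lit 0) (XT.nd (nat_lit 78) (nat_lit 152) (nat_lit 0) (XT.lf (nat_lit 0) (nat_lit 1423386699) (nat_lit 152) (nat_lit 7537648603) (nat_lit 76) (nat_lit 58848770585) (nat_lit 15) (nat_lit 5) (nat_lit 17) (nat_lit 5) (nat_lit 16) (nat_lit 5) (nat_lit 389) (nat_lit 278) (nat_lit 113)) (XT.nd (nat_lit 78) (nat_lit 0) (nat_lit 0) (XT.lf (nat_lit 0) (nat_lit 7781355929) (nat_lit 152) (nat_lit 201811168) (nat_lit 228) (nat_lit 61591601152) (nat_lit 13) (nat_lit 5) (nat_lit 15) (nat_lit 5) (nat_lit 16) (nat_lit 5) (nat_lit 390) (nat_lit 278) (nat_lit 112)) (XT.lf (nat_lit 0) (nat_lit 14897520847) (nat_lit 228) (nat_lit 47768323470) (nat_lit 76) (nat_lit 8722103993) (nat_lit 13) (nat_lit 5) (nat_lit 16) (nat_lit 5)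 (nat_lit 14) (nat_lit 4) (nat_lit 391) (nat_lit 278) (nat_lit 111)))) (XT.nd (nat_lit 78) (nat_lit 0) (nat_lit 0) (XT.lf (nat_lit 0) (nat_lit 22017541969) (nat_lit 228) (nat_lit 33331114819) (nat_lit 76) (nat_lit 17906922039) (nat_lit 13) (nat_lit 5) (nat_lit 16) (nat_lit 5) (nat_lit 14) (nat_lit 4) (nat_lit 392) (nat_lit 278) (nat_lit 110)) (XT.nd (nat_lit 31746) (nat_lit 0) (nat_lit 15808) (XT.lf (nat_lit 0) (nat_lit 29347511910) (nat_lit 228) (nat_lit 18467231401) (nat_lit 76) (nat_lit 27364606602) (nat_lit 13) (nat_lit 5) (nat_lit 16) (nat_lit 5) (nat_lit 14) (nat_lit 4) (nat_lit 393) (nat_lit 278) (nat_lit 109)) (XT.lf (nat_lit 0) (nat_lit 1331520405) (nat_lit 0) (nat_lit 1331520405) (nat_lit 836) (nat_lit 1345922048) (nat_lit 221) (nat_lit 5) (nat_lit 221) (nat_lit 3) (nat_lit 232) (nat_lit 3) (nat_lit 279) (nat_lit 279) (nat_lit 222)))))) (XT.nd (nat_lit 468) (nat_lit 836) (nat_lit 0) (XT.nd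 (nat_lit 234) (nat_lit 0) (nat_lit 0) (XT.nd (nat_lit 78) (nat_lit 912) (nat_lit 0) (XT.lf (nat_lit 0) (nat_lit 6293542521) (nat_lit 0) (nat_lit 223464801) (nat_lit 836) (nat_lit 1585563059) (nat_lit 221) (nat_lit 5) (nat_lit 221) (nat_lit 3) (nat_lit 232) (nat_lit 3) (nat_lit 280) (nat_lit 279) (nat_lit 221)) (XT.nd (nat_lit 78) (nat_lit 912) (nat_lit 0) (XT.lf (nat_lit 76) (nat_lit 1833701885) (nat_lit 0) (nat_lit 5906439546) (nat_lit 912) (nat_lit 449808031) (nat_lit 222) (nat_lit 5) (nat_lit 221) (nat_lit 5) (nat_lit 233) (nat_lit 5) (nat_lit 281) (nat_lit 279) (nat_lit 220)) (XT.lf (nat_lit 0) (nat_lit 684011418) (nat_lit 912) (nat_lit 2689903064) (nat_lit 988) (nat_lit 4906570896) (nat_lit 209) (nat_lit 5) (nat_lit 221) (nat_lit 5) (nat_lit 222) (nat_lit 5) (nat_lit 282) (nat_lit 279) (nat_lit 219)))) (XT.nd (nat_lit 78) (nat_lit 0) (nat_lit 76) (XT.lf (nat_lit 76) (nat_lit 1079763520) (nat_lit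 0) (nat_lit 732042838) (nat_lit 988) (nat_lit 6562809261) (nat_lit 210) (nat_lit 5) (nat_lit 209) (nat_lit 5) (nat_lit 222) (nat_lit 5) (nat_lit 283) (nat_lit 279) (nat_lit 218)) (XT.nd (nat_lit 78) (nat_lit 0) (nat_lit 0) (XT.lf (nat_lit 0) (nat_lit 2979759593) (nat_lit 912) (nat_lit 3496998164) (nat_lit 988) (nat_lit 1994701794) (nat_lit 210) (nat_lit 5) (nat_lit 222) (nat_lit 5) (nat_lit 223) (nat_lit 5) (nat_lit 284) (nat_lit 279) (nat_lit 217)) (XT.lf (nat_lit 76) (nat_lit 391380177) (nat_lit 0) (nat_lit 3763325517) (nat_lit 988) (nat_lit 4417421679) (nat_lit 211) (nat_lit 5) (nat_lit 210) (nat_lit 5) (nat_lit 223) (nat_lit 5) (nat_lit 285) (nat_lit 279) (nat_lit 216))))) (XT.nd (nat_lit 234) (nat_lit 912) (nat_lit 0) (XT.nd (nat_lit 78) (nat_lit 0) (nat_lit 76) (XT.lf (nat_lit 76) (nat_lit 4444527739) (nat_lit 0) (nat_lit 917540407) (nat_lit 988) (nat_lit 3313906997) (nat_lit 211) (nat_lit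 5) (nat_lit 210) (nat_lit 5) (nat_lit 223) (nat_lit 5) (nat_lit 286) (nat_lit 279) (nat_lit 215)) (XT.nd (nat_lit 78) (nat_lit 0) (nat_lit 0) (XT.lf (nat_lit 0) (nat_lit 6588109809) (nat_lit 912) (nat_lit 207225322) (nat_lit 988) (nat_lit 1988202234) (nat_lit 211) (nat_lit 5) (nat_lit 223) (nat_lit 5) (nat_lit 224) (nat_lit 5) (nat_lit 287) (nat_lit 279) (nat_lit 214)) (XT.lf (nat_lit 76) (nat_lit 3982863168) (nat_lit 0) (nat_lit 3879616728) (nat_lit 988) (nat_lit 1031570791) (nat_lit 212) (nat_lit 5) (nat_lit 211) (nat_lit 5) (nat_lit 224) (nat_lit 5) (nat_lit 288) (nat_lit 279) (nat_lit 213)))) (XT.nd (nat_lit 78) (nat_lit 0) (nat_lit 76) (XT.lf (nat_lit 0) (nat_lit 130635086) (nat_lit 988) (nat_lit 730579185) (nat_lit 1064) (nat_lit 8147682632) (nat_lit 198) (nat_lit 5) (nat_lit 211) (nat_lit 5) (nat_lit 212) (nat_lit 5) (nat_lit 289) (nat_lit 279) (nat_lit 212)) (XT.nd (nat_lit 78) (nat_lit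 0) (nat_lit 0) (XT.lf (nat_lit 0) (nat_lit 1329470261) (nat_lit 988) (nat_lit 5536706572) (nat_lit 1064) (nat_lit 2260095019) (nat_lit 199) (nat_lit 5) (nat_lit 212) (nat_lit 5) (nat_lit 213) (nat_lit 5) (nat_lit 290) (nat_lit 279) (nat_lit 211)) (XT.lf (nat_lit 0) (nat_lit 2546742534) (nat_lit 988) (nat_lit 1225536206) (nat_lit 1064) (nat_lit 5475477920) (nat_lit 199) (nat_lit 5) (nat_lit 212) (nat_lit 5) (nat_lit 213) (nat_lit 5) (nat_lit 291) (nat_lit 279) (nat_lit 210))))))) (XT.nd (nat_lit 936) (nat_lit 3116) (nat_lit 0) (XT.nd (nat_lit 468) (nat_lit 2736) (nat_lit 0) (XT.nd (nat_lit 234) (nat_lit 912) (nat_lit 0) (XT.nd (nat_lit 78) (nat_lit 0) (nat_lit 76) (XT.lf (nat_lit 76) (nat_lit 3254911702) (nat_lit 0) (nat_lit 544380064) (nat_lit 1064) (nat_lit 5573692423) (nat_lit 200) (nat_lit 5) (nat_lit 199) (nat_lit 5) (nat_lit 213) (nat_lit 5) (nat_lit 292) (nat_lit 279) (nat_lit 209)) (XT.nd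 (nat_lit 78) (nat_lit 0) (nat_lit 0) (XT.lf (nat_lit 0) (nat_lit 5096917043) (nat_lit 988) (nat_lit 1657987192) (nat_lit 1064) (nat_lit 2746898492) (nat_lit 200) (nat_lit 5) (nat_lit 213) (nat_lit 5) (nat_lit 214) (nat_lit 5) (nat_lit 293) (nat_lit 279) (nat_lit 208)) (XT.lf (nat_lit 76) (nat_lit 2964636999) (nat_lit 0) (nat_lit 3471920957) (nat_lit 1064) (nat_lit 3197892703) (nat_lit 201) (nat_lit 5) (nat_lit 200) (nat_lit 5) (nat_lit 214) (nat_lit 5) (nat_lit 294) (nat_lit 279) (nat_lit 207)))) (XT.nd (nat_lit 78) (nat_lit 988) (nat_lit 0) (XT.lf (nat_lit 76) (nat_lit 7736435115) (nat_lit 0) (nat_lit 66565769) (nat_lit 1064) (nat_lit 1968534533) (nat_lit 201) (nat_lit 5) (nat_lit 200) (nat_lit 5) (nat_lit 214) (nat_lit 5) (nat_lit 295) (nat_lit 279) (nat_lit 206)) (XT.nd (nat_lit 78) (nat_lit 76) (nat_lit 0) (XT.lf (nat_lit 0) (nat_lit 2735149213) (nat_lit 988) (nat_lit 6505466210) (nat_lit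 1064) (nat_lit 671266092) (nat_lit 188) (nat_lit 5) (nat_lit 201) (nat_lit 5) (nat_lit 202) (nat_lit 5) (nat_lit 296) (nat_lit 279) (nat_lit 205)) (XT.lf (nat_lit 0) (nat_lit 644457614) (nat_lit 1064) (nat_lit 2397046080) (nat_lit 76) (nat_lit 7015018226) (nat_lit 187) (nat_lit 5) (nat_lit 201) (nat_lit 5) (nat_lit 188) (nat_lit 5) (nat_lit 297) (nat_lit 279) (nat_lit 204))))) (XT.nd (nat_lit 234) (nat_lit 532) (nat_lit 0) (XT.nd (nat_lit 78) (nat_lit 1140) (nat_lit 0) (XT.lf (nat_lit 0) (nat_lit 1987983591) (nat_lit 1140) (nat_lit 7665303050) (nat_lit 76) (nat_lit 552010391) (nat_lit 173) (nat_lit 5) (nat_lit 188) (nat_lit 5) (nat_lit 174) (nat_lit 5) (nat_lit 298) (nat_lit 279) (nat_lit 203)) (XT.nd (nat_lit 78) (nat_lit 1140) (nat_lit 0) (XT.lf (nat_lit 0) (nat_lit 3398949392) (nat_lit 1140) (nat_lit 2738052192) (nat_lit 76) (nat_lit 4220767902) (nat_lit 173) (nat_lit 5) (nat_lit 188) (nat_lit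 5) (nat_lit 174) (nat_lit 5) (nat_lit 299) (nat_lit 279) (nat_lit 202)) (XT.lf (nat_lit 0) (nat_lit 2359592630) (nat_lit 1140) (nat_lit 2488707192) (nat_lit 1216) (nat_lit 5666681329) (nat_lit 158) (nat_lit 5) (nat_lit 173) (nat_lit 5) (nat_lit 174) (nat_lit 5) (nat_lit 300) (nat_lit 279) (nat_lit 201)))) (XT.nd (nat_lit 78) (nat_lit 532) (nat_lit 0) (XT.lf (nat_lit 0) (nat_lit 6355205446) (nat_lit 1216) (nat_lit 3046350488) (nat_lit 76) (nat_lit 1274976338) (nat_lit 158) (nat_lit 5) (nat_lit 174) (nat_lit 5) (nat_lit 159) (nat_lit 5) (nat_lit 301) (nat_lit 279) (nat_lit 200)) (XT.nd (nat_lit 78) (nat_lit 0) (nat_lit 0) (XT.lf (nat_lit 0) (nat_lit 2211073275) (nat_lit 532) (nat_lit 5716851680) (nat_lit 608) (nat_lit 2914430798) (nat_lit 151) (nat_lit 5) (nat_lit 158) (nat_lit 5) (nat_lit 159) (nat_lit 5) (nat_lit 302) (nat_lit 279) (nat_lit 199)) (XT.lf (nat_lit 0) (nat_lit 7665505525) (nat_lit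 532) (nat_lit 1888308463) (nat_lit 608) (nat_lit 1459203057) (nat_lit 151) (nat_lit 5) (nat_lit 158) (nat_lit 5) (nat_lit 159) (nat_lit 5) (nat_lit 303) (nat_lit 279) (nat_lit 198)))))) (XT.nd (nat_lit 468) (nat_lit 1368) (nat_lit 0) (XT.nd (nat_lit 234) (nat_lit 532) (nat_lit 0) (XT.nd (nat_lit 78) (nat_lit 532) (nat_lit 0) (XT.lf (nat_lit 0) (nat_lit 54855669) (nat_lit 684) (nat_lit 9096315777) (nat_lit 76) (nat_lit 2037177121) (nat_lit 142) (nat_lit 5) (nat_lit 151) (nat_lit 5) (nat_lit 143) (nat_lit 5) (nat_lit 304) (nat_lit 279) (nat_lit 197)) (XT.nd (nat_lit 78) (nat_lit 532) (nat_lit 0) (XT.lf (nat_lit 0) (nat_lit 1614010053) (nat_lit 684) (nat_lit 3661570445) (nat_lit 76) (nat_lit 6092095154) (nat_lit 142) (nat_lit 5) (nat_lit 151) (nat_lit 5) (nat_lit 143) (nat_lit 5) (nat_lit 305) (nat_lit 279) (nat_lit 196)) (XT.lf (nat_lit 0) (nat_lit 1951432372) (nat_lit 532) (nat_lit 1264127504)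 (nat_lit 608) (nat_lit 8336992028) (nat_lit 135) (nat_lit 5) (nat_lit 142) (nat_lit 5) (nat_lit 143) (nat_lit 5) (nat_lit 306) (nat_lit 279) (nat_lit 195)))) (XT.nd (nat_lit 78) (nat_lit 532) (nat_lit 0) (XT.lf (nat_lit 0) (nat_lit 4907381871) (nat_lit 608) (nat_lit 3985271092) (nat_lit 76) (nat_lit 2849091581) (nat_lit 135) (nat_lit 5) (nat_lit 143) (nat_lit 5) (nat_lit 136) (nat_lit 5) (nat_lit 307) (nat_lit 279) (nat_lit 194)) (XT.nd (nat_lit 78) (nat_lit 0) (nat_lit 0) (XT.lf (nat_lit 0) (nat_lit 1798963376) (nat_lit 532) (nat_lit 4858783726) (nat_lit 608) (nat_lit 5278668001) (nat_lit 128) (nat_lit 5) (nat_lit 135) (nat_lit 5) (nat_lit 136) (nat_lit 5) (nat_lit 308) (nat_lit 279) (nat_lit 193)) (XT.lf (nat_lit 0) (nat_lit 7815963792) (nat_lit 532) (nat_lit 663308164) (nat_lit 608) (nat_lit 3657129119) (nat_lit 128) (nat_lit 5) (nat_lit 135) (nat_lit 5) (nat_lit 136) (nat_lit 5) (nat_lit 309)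 (nat_lit 279) (nat_lit 192))))) (XT.nd (nat_lit 234) (nat_lit 380) (nat_lit 0) (XT.nd (nat_lit 78) (nat_lit 532) (nat_lit 0) (XT.lf (nat_lit 0) (nat_lit 1645579655) (nat_lit 456) (nat_lit 8739870640) (nat_lit 532) (nat_lit 1956069840) (nat_lit 122) (nat_lit 5) (nat_lit 128) (nat_lit 5) (nat_lit 129) (nat_lit 5) (nat_lit 310) (nat_lit 279) (nat_lit 191)) (XT.nd (nat_lit 78) (nat_lit 532) (nat_lit 0) (XT.lf (nat_lit 0) (nat_lit 7850207989) (nat_lit 456) (nat_lit 4528160291) (nat_lit 532) (nat_lit 173570619) (nat_lit 122) (nat_lit 5) (nat_lit 128) (nat_lit 5) (nat_lit 129) (nat_lit 5) (nat_lit 311) (nat_lit 279) (nat_lit 190)) (XT.lf (nat_lit 0) (nat_lit 1462849250) (nat_lit 456) (nat_lit 160970315) (nat_lit 532) (nat_lit 11144586474) (nat_lit 115) (nat_lit 5) (nat_lit 121) (nat_lit 5) (nat_lit 122) (nat_lit 5) (nat_lit 312) (nat_lit 279) (nat_lit 189)))) (XT.nd (nat_lit 78) (nat_lit 380) (nat_lit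 0) (XT.lf (nat_lit 0) (nat_lit 3541436950) (nat_lit 532) (nat_lit 5147486928) (nat_lit 76) (nat_lit 4300327918) (nat_lit 115) (nat_lit 5) (nat_lit 122) (nat_lit 5) (nat_lit 116) (nat_lit 5) (nat_lit 313) (nat_lit 279) (nat_lit 188)) (XT.nd (nat_lit 78) (nat_lit 0) (nat_lit 0) (XT.lf (nat_lit 0) (nat_lit 1195297562) (nat_lit 380) (nat_lit 4315100626) (nat_lit 456) (nat_lit 7706539383) (nat_lit 110) (nat_lit 5) (nat_lit 115) (nat_lit 5) (nat_lit 116) (nat_lit 5) (nat_lit 314) (nat_lit 279) (nat_lit 187)) (XT.lf (nat_lit 0) (nat_lit 7573808691) (nat_lit 456) (nat_lit 5640466298) (nat_lit 76) (nat_lit 236145777) (nat_lit 110) (nat_lit 5) (nat_lit 116) (nat_lit 5) (nat_lit 111) (nat_lit 5) (nat_lit 315) (nat_lit 279) (nat_lit 186))))))))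
noncomputable def xc160 : XT := (XT.nd (nat_lit 1794) (nat_lit 1976) (nat_lit 0) (XT.nd (nat_lit 858) (nat_lit 1900) (nat_lit 0) (XT.nd (nat_lit 390) (nat_lit 1140) (nat_lit 0) (XT.nd (nat_lit 156) (nat_lit 456) (nat_lit 0) (XT.nd (nat_lit 78) (nat_lit 0) (nat_lit 0) (XT.lf (nat_lit 0) (nat_lit 885221507) (nat_lit 456) (nat_lit 8846745157) (nat_lit 532) (nat_lit 3957983875) (nat_lit 104) (nat_lit 5) (nat_lit 110) (nat_lit 5) (nat_lit 111) (nat_lit 5) (nat_lit 316) (nat_lit 279) (nat_lit 185)) (XT.lf (nat_lit 0) (nat_lit 7701043271) (nat_lit 456) (nat_lit 4292727051) (nat_lit 532) (nat_lit 1941755490) (nat_lit 104) (nat_lit 5) (nat_lit 110) (nat_lit 5) (nat_lit 111) (nat_lit 5) (nat_lit 317) (nat_lit 279) (nat_lit 184))) (XT.nd (nat_lit 78) (nat_lit 0) (nat_lit 0) (XT.lf (nat_lit 0) (nat_lit 123457673) (nat_lit 456) (nat_lit 13671976373) (nat_lit 76) (nat_lit 393286542) (nat_lit 98) (nat_lit 5)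 (nat_lit 104) (nat_lit 5) (nat_lit 99) (nat_lit 5) (nat_lit 318) (nat_lit 279) (nat_lit 183)) (XT.nd (nat_lit 78) (nat_lit 0) (nat_lit 0) (XT.lf (nat_lit 0) (nat_lit 2300235430) (nat_lit 456) (nat_lit 6932992295) (nat_lit 76) (nat_lit 5213072032) (nat_lit 98) (nat_lit 5) (nat_lit 104) (nat_lit 5) (nat_lit 99) (nat_lit 5) (nat_lit 319) (nat_lit 279) (nat_lit 182)) (XT.lf (nat_lit 0) (nat_lit 4525378595) (nat_lit 456) (nat_lit 12544954) (nat_lit 76) (nat_lit 10174214556) (nat_lit 98) (nat_lit 5) (nat_lit 104) (nat_lit 5) (nat_lit 99) (nat_lit 5) (nat_lit 320) (nat_lit 279) (nat_lit 181))))) (XT.nd (nat_lit 234) (nat_lit 456) (nat_lit 0) (XT.nd (nat_lit 78) (nat_lit 304) (nat_lit 0) (XT.lf (nat_lit 0) (nat_lit 6873914771) (nat_lit 456) (nat_lit 7751276206) (nat_lit 76) (nat_lit 359084443) (nat_lit 93) (nat_lit 5) (nat_lit 99) (nat_lit 5) (nat_lit 94) (nat_lit 5) (nat_lit 321) (nat_lit 279) (nat_lit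 180)) (XT.nd (nat_lit 78) (nat_lit 304) (nat_lit 0) (XT.lf (nat_lit 0) (nat_lit 9321771896) (nat_lit 456) (nat_lit 633714429) (nat_lit 76) (nat_lit 5308246892) (nat_lit 93) (nat_lit 5) (nat_lit 99) (nat_lit 5) (nat_lit 94) (nat_lit 5) (nat_lit 322) (nat_lit 279) (nat_lit 179)) (XT.lf (nat_lit 0) (nat_lit 6810487800) (nat_lit 304) (nat_lit 5082322142) (nat_lit 380) (nat_lit 3657294106) (nat_lit 89) (nat_lit 5) (nat_lit 93) (nat_lit 5) (nat_lit 94) (nat_lit 5) (nat_lit 323) (nat_lit 279) (nat_lit 178)))) (XT.nd (nat_lit 78) (nat_lit 456) (nat_lit 0) (XT.lf (nat_lit 0) (nat_lit 14471417031) (nat_lit 304) (nat_lit 60509603) (nat_lit 380) (nat_lit 1313431974) (nat_lit 89) (nat_lit 5) (nat_lit 93) (nat_lit 5) (nat_lit 94) (nat_lit 5) (nat_lit 324) (nat_lit 279) (nat_lit 177)) (XT.nd (nat_lit 78) (nat_lit 0) (nat_lit 0) (XT.lf (nat_lit 0) (nat_lit 1174515829) (nat_lit 456) (nat_lit 9891782916) (nat_lit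 76) (nat_lit 5080016966) (nat_lit 83) (nat_lit 5) (nat_lit 89) (nat_lit 5) (nat_lit 84) (nat_lit 5) (nat_lit 325) (nat_lit 279) (nat_lit 176)) (XT.lf (nat_lit 0) (nat_lit 3710360723) (nat_lit 456) (nat_lit 2349177216) (nat_lit 76) (nat_lit 10396402985) (nat_lit 83) (nat_lit 5) (nat_lit 89) (nat_lit 5) (nat_lit 84) (nat_lit 5) (nat_lit 326) (nat_lit 279) (nat_lit 175)))))) (XT.nd (nat_lit 468) (nat_lit 912) (nat_lit 0) (XT.nd (nat_lit 234) (nat_lit 380) (nat_lit 0) (XT.nd (nat_lit 78) (nat_lit 304) (nat_lit 0) (XT.lf (nat_lit 0) (nat_lit 5508184357) (nat_lit 304) (nat_lit 852526924) (nat_lit 380) (nat_lit 10413009385) (nat_lit 79) (nat_lit 5) (nat_lit 83) (nat_lit 5) (nat_lit 84) (nat_lit 5) (nat_lit 327) (nat_lit 279) (nat_lit 174)) (XT.nd (nat_lit 78) (nat_lit 304) (nat_lit 0) (XT.lf (nat_lit 0) (nat_lit 9143569393) (nat_lit 380) (nat_lit 3513717152) (nat_lit 76) (nat_lit 4442175481) (nat_lit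 79) (nat_lit 5) (nat_lit 84) (nat_lit 5) (nat_lit 80) (nat_lit 5) (nat_lit 328) (nat_lit 279) (nat_lit 173)) (XT.lf (nat_lit 0) (nat_lit 4531987825) (nat_lit 304) (nat_lit 7516028122) (nat_lit 380) (nat_lit 5385834211) (nat_lit 75) (nat_lit 5) (nat_lit 79) (nat_lit 5) (nat_lit 80) (nat_lit 5) (nat_lit 329) (nat_lit 279) (nat_lit 172)))) (XT.nd (nat_lit 78) (nat_lit 380) (nat_lit 0) (XT.lf (nat_lit 0) (nat_lit 12872611385) (nat_lit 304) (nat_lit 2188791045) (nat_lit 380) (nat_lit 2716230404) (nat_lit 75) (nat_lit 5) (nat_lit 79) (nat_lit 5) (nat_lit 80) (nat_lit 5) (nat_lit 330) (nat_lit 279) (nat_lit 171)) (XT.nd (nat_lit 78) (nat_lit 0) (nat_lit 0) (XT.lf (nat_lit 0) (nat_lit 83849715) (nat_lit 380) (nat_lit 14784030908) (nat_lit 76) (nat_lit 3262323599) (nat_lit 70) (nat_lit 5) (nat_lit 75) (nat_lit 5) (nat_lit 71) (nat_lit 5) (nat_lit 331) (nat_lit 279) (nat_lit 170)) (XT.lf (nat_lit 0) (nat_lit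 2971777865) (nat_lit 380) (nat_lit 6613881749) (nat_lit 76) (nat_lit 8905148808) (nat_lit 70) (nat_lit 5) (nat_lit 75) (nat_lit 5) (nat_lit 71) (nat_lit 5) (nat_lit 332) (nat_lit 279) (nat_lit 169))))) (XT.nd (nat_lit 234) (nat_lit 608) (nat_lit 0) (XT.nd (nat_lit 78) (nat_lit 0) (nat_lit 0) (XT.lf (nat_lit 0) (nat_lit 1818991217) (nat_lit 304) (nat_lit 4131970386) (nat_lit 380) (nat_lit 12911145803) (nat_lit 66) (nat_lit 5) (nat_lit 70) (nat_lit 5) (nat_lit 71) (nat_lit 5) (nat_lit 333) (nat_lit 279) (nat_lit 168)) (XT.nd (nat_lit 78) (nat_lit 0) (nat_lit 0) (XT.lf (nat_lit 0) (nat_lit 9088535946) (nat_lit 380) (nat_lit 8635099127) (nat_lit 76) (nat_lit 1518854582) (nat_lit 66) (nat_lit 5) (nat_lit 71) (nat_lit 5) (nat_lit 67) (nat_lit 5) (nat_lit 334) (nat_lit 279) (nat_lit 167)) (XT.lf (nat_lit 0) (nat_lit 12348807046) (nat_lit 380) (nat_lit 33273212) (nat_lit 76) (nat_lit 7251360345) (nat_lit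 66) (nat_lit 5) (nat_lit 71) (nat_lit 5) (nat_lit 67) (nat_lit 5) (nat_lit 335) (nat_lit 279) (nat_lit 166)))) (XT.nd (nat_lit 78) (nat_lit 380) (nat_lit 0) (XT.lf (nat_lit 0) (nat_lit 8984924988) (nat_lit 228) (nat_lit 6796348266) (nat_lit 304) (nat_lit 4252629119) (nat_lit 63) (nat_lit 5) (nat_lit 66) (nat_lit 5) (nat_lit 67) (nat_lit 5) (nat_lit 336) (nat_lit 279) (nat_lit 165)) (XT.nd (nat_lit 78) (nat_lit 380) (nat_lit 0) (XT.lf (nat_lit 0) (nat_lit 18257507236) (nat_lit 228) (nat_lit 1047747650) (nat_lit 304) (nat_lit 1141480364) (nat_lit 63) (nat_lit 5) (nat_lit 66) (nat_lit 5) (nat_lit 67) (nat_lit 5) (nat_lit 337) (nat_lit 279) (nat_lit 164)) (XT.lf (nat_lit 0) (nat_lit 2126478039) (nat_lit 380) (nat_lit 13880144189) (nat_lit 76) (nat_lit 4861636726) (nat_lit 58) (nat_lit 5) (nat_lit 63) (nat_lit 5) (nat_lit 59) (nat_lit 5) (nat_lit 338) (nat_lit 279) (nat_lit 163))))))) (XT.nd (nat_lit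 936) (nat_lit 836) (nat_lit 0) (XT.nd (nat_lit 468) (nat_lit 608) (nat_lit 0) (XT.nd (nat_lit 234) (nat_lit 304) (nat_lit 0) (XT.nd (nat_lit 78) (nat_lit 228) (nat_lit 0) (XT.lf (nat_lit 0) (nat_lit 5490785672) (nat_lit 380) (nat_lit 4854744384) (nat_lit 76) (nat_lit 10955934020) (nat_lit 58) (nat_lit 5) (nat_lit 63) (nat_lit 5) (nat_lit 59) (nat_lit 5) (nat_lit 339) (nat_lit 279) (nat_lit 162)) (XT.nd (nat_lit 78) (nat_lit 0) (nat_lit 0) (XT.lf (nat_lit 0) (nat_lit 4513234772) (nat_lit 228) (nat_lit 4475058699) (nat_lit 304) (nat_lit 12758415742) (nat_lit 55) (nat_lit 5) (nat_lit 58) (nat_lit 5) (nat_lit 59) (nat_lit 5) (nat_lit 340) (nat_lit 279) (nat_lit 161)) (XT.lf (nat_lit 0) (nat_lit 12644348220) (nat_lit 304) (nat_lit 7974045303) (nat_lit 76) (nat_lit 1585321172) (nat_lit 55) (nat_lit 5) (nat_lit 59) (nat_lit 5) (nat_lit 56) (nat_lit 5) (nat_lit 341) (nat_lit 279) (nat_lit 160)))) (XT.nd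 (nat_lit 78) (nat_lit 76) (nat_lit 0) (XT.lf (nat_lit 0) (nat_lit 1532864846) (nat_lit 228) (nat_lit 14925588769) (nat_lit 304) (nat_lit 6214536961) (nat_lit 52) (nat_lit 5) (nat_lit 55) (nat_lit 5) (nat_lit 56) (nat_lit 5) (nat_lit 342) (nat_lit 279) (nat_lit 159)) (XT.nd (nat_lit 78) (nat_lit 76) (nat_lit 0) (XT.lf (nat_lit 0) (nat_lit 11472692290) (nat_lit 228) (nat_lit 8984298239) (nat_lit 304) (nat_lit 2697264928) (nat_lit 52) (nat_lit 5) (nat_lit 55) (nat_lit 5) (nat_lit 56) (nat_lit 5) (nat_lit 343) (nat_lit 279) (nat_lit 158)) (XT.lf (nat_lit 0) (nat_lit 897145783) (nat_lit 304) (nat_lit 1963647538) (nat_lit 76) (nat_lit 20789217979) (nat_lit 51) (nat_lit 5) (nat_lit 55) (nat_lit 5) (nat_lit 52) (nat_lit 5) (nat_lit 344) (nat_lit 279) (nat_lit 157))))) (XT.nd (nat_lit 234) (nat_lit 152) (nat_lit 0) (XT.nd (nat_lit 78) (nat_lit 228) (nat_lit 0) (XT.lf (nat_lit 0) (nat_lit 4647750896) (nat_lit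 304) (nat_lit 16028576410) (nat_lit 76) (nat_lit 3480444154) (nat_lit 48) (nat_lit 5) (nat_lit 52) (nat_lit 5) (nat_lit 49) (nat_lit 5) (nat_lit 345) (nat_lit 279) (nat_lit 156)) (XT.nd (nat_lit 78) (nat_lit 228) (nat_lit 0) (XT.lf (nat_lit 0) (nat_lit 8549305648) (nat_lit 304) (nat_lit 6158780060) (nat_lit 76) (nat_lit 9969505524) (nat_lit 48) (nat_lit 5) (nat_lit 52) (nat_lit 5) (nat_lit 49) (nat_lit 5) (nat_lit 346) (nat_lit 279) (nat_lit 155)) (XT.lf (nat_lit 0) (nat_lit 4071842950) (nat_lit 228) (nat_lit 8525575508) (nat_lit 304) (nat_lit 12615741262) (nat_lit 45) (nat_lit 5) (nat_lit 48) (nat_lit 5) (nat_lit 49) (nat_lit 5) (nat_lit 347) (nat_lit 279) (nat_lit 154)))) (XT.nd (nat_lit 78) (nat_lit 152) (nat_lit 0) (XT.lf (nat_lit 0) (nat_lit 14721054402) (nat_lit 228) (nat_lit 2098622555) (nat_lit 304) (nat_lit 8943546427) (nat_lit 45) (nat_lit 5) (nat_lit 48) (nat_lit 5) (nat_lit 49) (nat_lit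 5) (nat_lit 348) (nat_lit 279) (nat_lit 153)) (XT.nd (nat_lit 78) (nat_lit 152) (nat_lit 0) (XT.lf (nat_lit 0) (nat_lit 21202802752) (nat_lit 304) (nat_lit 697899090) (nat_lit 76) (nat_lit 4428070053) (nat_lit 45) (nat_lit 5) (nat_lit 49) (nat_lit 5) (nat_lit 46) (nat_lit 5) (nat_lit 349) (nat_lit 279) (nat_lit 152)) (XT.lf (nat_lit 0) (nat_lit 10119413484) (nat_lit 152) (nat_lit 15707070577) (nat_lit 228) (nat_lit 1081539611) (nat_lit 43) (nat_lit 5) (nat_lit 45) (nat_lit 5) (nat_lit 46) (nat_lit 5) (nat_lit 350) (nat_lit 279) (nat_lit 151)))))) (XT.nd (nat_lit 468) (nat_lit 380) (nat_lit 0) (XT.nd (nat_lit 234) (nat_lit 152) (nat_lit 0) (XT.nd (nat_lit 78) (nat_lit 228) (nat_lit 0) (XT.lf (nat_lit 0) (nat_lit 3022197882) (nat_lit 228) (nat_lit 6272629740) (nat_lit 76) (nat_lit 18208999342) (nat_lit 42) (nat_lit 5) (nat_lit 45) (nat_lit 5) (nat_lit 43) (nat_lit 5) (nat_lit 351) (nat_lit 279)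 (nat_lit 150)) (XT.nd (nat_lit 78) (nat_lit 0) (nat_lit 0) (XT.lf (nat_lit 0) (nat_lit 4624753197) (nat_lit 228) (nat_lit 2638315477) (nat_lit 304) (nat_lit 20853049588) (nat_lit 39) (nat_lit 5) (nat_lit 42) (nat_lit 5) (nat_lit 43) (nat_lit 5) (nat_lit 352) (nat_lit 279) (nat_lit 149)) (XT.lf (nat_lit 0) (nat_lit 11727058589) (nat_lit 304) (nat_lit 12822108228) (nat_lit 76) (nat_lit 4194742388) (nat_lit 39) (nat_lit 5) (nat_lit 43) (nat_lit 5) (nat_lit 40) (nat_lit 5) (nat_lit 353) (nat_lit 279) (nat_lit 148)))) (XT.nd (nat_lit 78) (nat_lit 152) (nat_lit 0) (XT.lf (nat_lit 0) (nat_lit 16342720854) (nat_lit 304) (nat_lit 1872195087) (nat_lit 76) (nat_lit 11175092829) (nat_lit 39) (nat_lit 5) (nat_lit 43) (nat_lit 5) (nat_lit 40) (nat_lit 5) (nat_lit 354) (nat_lit 279) (nat_lit 147)) (XT.nd (nat_lit 78) (nat_lit 0) (nat_lit 0) (XT.lf (nat_lit 0) (nat_lit 9580248498) (nat_lit 152) (nat_lit 11600570180)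 (nat_lit 228) (nat_lit 8872160927) (nat_lit 37) (nat_lit 5) (nat_lit 39) (nat_lit 5) (nat_lit 40) (nat_lit 5) (nat_lit 355) (nat_lit 279) (nat_lit 146)) (XT.lf (nat_lit 0) (nat_lit 21401858043) (nat_lit 152) (nat_lit 4773095141) (nat_lit 228) (nat_lit 4560566614) (nat_lit 37) (nat_lit 5) (nat_lit 39) (nat_lit 5) (nat_lit 40) (nat_lit 5) (nat_lit 356) (nat_lit 279) (nat_lit 145))))) (XT.nd (nat_lit 234) (nat_lit 152) (nat_lit 0) (XT.nd (nat_lit 78) (nat_lit 76) (nat_lit 0) (XT.lf (nat_lit 0) (nat_lit 2147152748) (nat_lit 152) (nat_lit 29206292621) (nat_lit 228) (nat_lit 84061656) (nat_lit 35) (nat_lit 5) (nat_lit 37) (nat_lit 5) (nat_lit 38) (nat_lit 5) (nat_lit 357) (nat_lit 279) (nat_lit 144)) (XT.nd (nat_lit 78) (nat_lit 0) (nat_lit 0) (XT.lf (nat_lit 0) (nat_lit 4573050700) (nat_lit 228) (nat_lit 18098355834) (nat_lit 76) (nat_lit 9483809012) (nat_lit 34) (nat_lit 5) (nat_lit 37) (nat_lit 5)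 (nat_lit 35) (nat_lit 5) (nat_lit 358) (nat_lit 279) (nat_lit 143)) (XT.lf (nat_lit 0) (nat_lit 9360615987) (nat_lit 228) (nat_lit 6583708163) (nat_lit 76) (nat_lit 16950339589) (nat_lit 34) (nat_lit 5) (nat_lit 37) (nat_lit 5) (nat_lit 35) (nat_lit 5) (nat_lit 359) (nat_lit 279) (nat_lit 142)))) (XT.nd (nat_lit 78) (nat_lit 0) (nat_lit 0) (XT.lf (nat_lit 0) (nat_lit 5369231168) (nat_lit 152) (nat_lit 8966839023) (nat_lit 228) (nat_lit 19318903402) (nat_lit 32) (nat_lit 5) (nat_lit 34) (nat_lit 5) (nat_lit 35) (nat_lit 5) (nat_lit 360) (nat_lit 279) (nat_lit 141)) (XT.nd (nat_lit 78) (nat_lit 0) (nat_lit 0) (XT.lf (nat_lit 0) (nat_lit 17803914305) (nat_lit 152) (nat_lit 1716106508) (nat_lit 228) (nat_lit 14916300846) (nat_lit 32) (nat_lit 5) (nat_lit 34) (nat_lit 5) (nat_lit 35) (nat_lit 5) (nat_lit 361) (nat_lit 279) (nat_lit 140)) (XT.lf (nat_lit 0) (nat_lit 24907702022) (nat_lit 228) (nat_lit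 4696399913) (nat_lit 76) (nat_lit 5635567598) (nat_lit 32) (nat_lit 5) (nat_lit 35) (nat_lit 5) (nat_lit 33) (nat_lit 5) (nat_lit 362) (nat_lit 279) (nat_lit 139))))))))
noncomputable def xc161 : XT := (XT.nd (nat_lit 1794) (nat_lit 304) (nat_lit 0) (XT.nd (nat_lit 858) (nat_lit 456) (nat_lit 0) (XT.nd (nat_lit 390) (nat_lit 304) (nat_lit 0) (XT.nd (nat_lit 156) (nat_lit 228) (nat_lit 0) (XT.nd (nat_lit 78) (nat_lit 0) (nat_lit 0) (XT.lf (nat_lit 0) (nat_lit 7720046872) (nat_lit 152) (nat_lit 22821292910) (nat_lit 228) (nat_lit 5523253838) (nat_lit 30) (nat_lit 5) (nat_lit 32) (nat_lit 5) (nat_lit 33) (nat_lit 5) (nat_lit 363) (nat_lit 279) (nat_lit 138)) (XT.lf (nat_lit 0) (nat_lit 20594073750) (nat_lit 152) (nat_lit 15790555225) (nat_lit 228) (nat_lit 528422583) (nat_lit 30) (nat_lit 5) (nat_lit 32) (nat_lit 5) (nat_lit 33) (nat_lit 5) (nat_lit 364) (nat_lit 279) (nat_lit 137))) (XT.nd (nat_lit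 78) (nat_lit 152) (nat_lit 0) (XT.lf (nat_lit 0) (nat_lit 4519518949) (nat_lit 228) (nat_lit 3988012721) (nat_lit 76) (nat_lit 29278305074) (nat_lit 29) (nat_lit 5) (nat_lit 32) (nat_lit 5) (nat_lit 30) (nat_lit 5) (nat_lit 365) (nat_lit 279) (nat_lit 136)) (XT.nd (nat_lit 78) (nat_lit 0) (nat_lit 0) (XT.lf (nat_lit 0) (nat_lit 8870059854) (nat_lit 152) (nat_lit 917021452) (nat_lit 228) (nat_lit 28895208061) (nat_lit 27) (nat_lit 5) (nat_lit 29) (nat_lit 5) (nat_lit 30) (nat_lit 5) (nat_lit 366) (nat_lit 279) (nat_lit 135)) (XT.lf (nat_lit 0) (nat_lit 15313264091) (nat_lit 228) (nat_lit 17486267188) (nat_lit 76) (nat_lit 6803091280) (nat_lit 27) (nat_lit 5) (nat_lit 30) (nat_lit 5) (nat_lit 28) (nat_lit 5) (nat_lit 367) (nat_lit 279) (nat_lit 134))))) (XT.nd (nat_lit 234) (nat_lit 152) (nat_lit 0) (XT.nd (nat_lit 78) (nat_lit 152) (nat_lit 0) (XT.lf (nat_lit 0) (nat_lit 21008083747) (nat_lit 228)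 (nat_lit 4810020356) (nat_lit 76) (nat_lit 14732380758) (nat_lit 27) (nat_lit 5) (nat_lit 30) (nat_lit 5) (nat_lit 28) (nat_lit 5) (nat_lit 368) (nat_lit 279) (nat_lit 133)) (XT.nd (nat_lit 78) (nat_lit 0) (nat_lit 0) (XT.lf (nat_lit 0) (nat_lit 8400322840) (nat_lit 152) (nat_lit 18548127562) (nat_lit 228) (nat_lit 14576096080) (nat_lit 25) (nat_lit 5) (nat_lit 27) (nat_lit 5) (nat_lit 28) (nat_lit 5) (nat_lit 369) (nat_lit 279) (nat_lit 132)) (XT.lf (nat_lit 0) (nat_lit 22095564574) (nat_lit 152) (nat_lit 11014068495) (nat_lit 228) (nat_lit 9416923122) (nat_lit 25) (nat_lit 5) (nat_lit 27) (nat_lit 5) (nat_lit 28) (nat_lit 5) (nat_lit 370) (nat_lit 279) (nat_lit 131)))) (XT.nd (nat_lit 78) (nat_lit 152) (nat_lit 0) (XT.lf (nat_lit 0) (nat_lit 36191942724) (nat_lit 152) (nat_lit 3257915519) (nat_lit 228) (nat_lit 4108946000) (nat_lit 25) (nat_lit 5) (nat_lit 27) (nat_lit 5) (nat_lit 28) (nat_lit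 5) (nat_lit 371) (nat_lit 279) (nat_lit 130)) (XT.nd (nat_lit 78) (nat_lit 0) (nat_lit 0) (XT.lf (nat_lit 0) (nat_lit 1431715438) (nat_lit 152) (nat_lit 38478857771) (nat_lit 76) (nat_lit 4708060354) (nat_lit 23) (nat_lit 5) (nat_lit 25) (nat_lit 5) (nat_lit 24) (nat_lit 5) (nat_lit 372) (nat_lit 279) (nat_lit 129)) (XT.lf (nat_lit 0) (nat_lit 7157748555) (nat_lit 152) (nat_lit 25588672467) (nat_lit 76) (nat_lit 12959568035) (nat_lit 23) (nat_lit 5) (nat_lit 25) (nat_lit 5) (nat_lit 24) (nat_lit 5) (nat_lit 373) (nat_lit 279) (nat_lit 128)))))) (XT.nd (nat_lit 468) (nat_lit 228) (nat_lit 0) (XT.nd (nat_lit 234) (nat_lit 76) (nat_lit 0) (XT.nd (nat_lit 78) (nat_lit 152) (nat_lit 0) (XT.lf (nat_lit 0) (nat_lit 13050080716) (nat_lit 152) (nat_lit 12321098424) (nat_lit 76) (nat_lit 21454954320) (nat_lit 23) (nat_lit 5) (nat_lit 25) (nat_lit 5) (nat_lit 24) (nat_lit 5) (nat_lit 374) (nat_lit 279) (nat_lit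 127)) (XT.nd (nat_lit 78) (nat_lit 0) (nat_lit 0) (XT.lf (nat_lit 0) (nat_lit 1362035602) (nat_lit 152) (nat_lit 17764917678) (nat_lit 228) (nat_lit 28852699479) (nat_lit 21) (nat_lit 5) (nat_lit 23) (nat_lit 5) (nat_lit 24) (nat_lit 5) (nat_lit 375) (nat_lit 279) (nat_lit 126)) (XT.lf (nat_lit 0) (nat_lit 15699277312) (nat_lit 152) (nat_lit 9806020283) (nat_lit 228) (nat_lit 23658908643) (nat_lit 21) (nat_lit 5) (nat_lit 23) (nat_lit 5) (nat_lit 24) (nat_lit 5) (nat_lit 376) (nat_lit 279) (nat_lit 125)))) (XT.nd (nat_lit 78) (nat_lit 76) (nat_lit 0) (XT.lf (nat_lit 0) (nat_lit 30457940375) (nat_lit 152) (nat_lit 1611951515) (nat_lit 228) (nat_lit 18314560909) (nat_lit 21) (nat_lit 5) (nat_lit 23) (nat_lit 5) (nat_lit 24) (nat_lit 5) (nat_lit 377) (nat_lit 279) (nat_lit 124)) (XT.nd (nat_lit 78) (nat_lit 76) (nat_lit 0) (XT.lf (nat_lit 0) (nat_lit 38892072991) (nat_lit 228) (nat_lit 6056138738)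 (nat_lit 76) (nat_lit 6691278920) (nat_lit 21) (nat_lit 5) (nat_lit 24) (nat_lit 5) (nat_lit 22) (nat_lit 4) (nat_lit 378) (nat_lit 279) (nat_lit 123)) (XT.lf (nat_lit 0) (nat_lit 8369391582) (nat_lit 76) (nat_lit 37641099421) (nat_lit 152) (nat_lit 6918944755) (nat_lit 20) (nat_lit 5) (nat_lit 21) (nat_lit 5) (nat_lit 22) (nat_lit 4) (nat_lit 379) (nat_lit 279) (nat_lit 122))))) (XT.nd (nat_lit 234) (nat_lit 152) (nat_lit 0) (XT.nd (nat_lit 78) (nat_lit 76) (nat_lit 0) (XT.lf (nat_lit 0) (nat_lit 23343602574) (nat_lit 76) (nat_lit 30055235823) (nat_lit 152) (nat_lit 857552688) (nat_lit 20) (nat_lit 5) (nat_lit 21) (nat_lit 5) (nat_lit 22) (nat_lit 4) (nat_lit 380) (nat_lit 279) (nat_lit 121)) (XT.nd (nat_lit 78) (nat_lit 0) (nat_lit 0) (XT.lf (nat_lit 0) (nat_lit 5275899038) (nat_lit 152) (nat_lit 16915972365) (nat_lit 76) (nat_lit 33429874187) (nat_lit 19) (nat_lit 5) (nat_lit 21) (nat_lit 5)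 (nat_lit 20) (nat_lit 5) (nat_lit 381) (nat_lit 279) (nat_lit 120)) (XT.lf (nat_lit 0) (nat_lit 11571566840) (nat_lit 152) (nat_lit 2515593542) (nat_lit 76) (nat_lit 42940785075) (nat_lit 19) (nat_lit 5) (nat_lit 21) (nat_lit 5) (nat_lit 20) (nat_lit 5) (nat_lit 382) (nat_lit 279) (nat_lit 119)))) (XT.nd (nat_lit 78) (nat_lit 0) (nat_lit 0) (XT.lf (nat_lit 0) (nat_lit 12554150831) (nat_lit 152) (nat_lit 5618213074) (nat_lit 228) (nat_lit 40300482459) (nat_lit 17) (nat_lit 5) (nat_lit 19) (nat_lit 5) (nat_lit 20) (nat_lit 5) (nat_lit 383) (nat_lit 279) (nat_lit 118)) (XT.nd (nat_lit 78) (nat_lit 0) (nat_lit 0) (XT.lf (nat_lit 0) (nat_lit 25022290805) (nat_lit 228) (nat_lit 31870525040) (nat_lit 76) (nat_lit 3066748008) (nat_lit 17) (nat_lit 5) (nat_lit 20) (nat_lit 5) (nat_lit 18) (nat_lit 4) (nat_lit 384) (nat_lit 279) (nat_lit 117)) (XT.lf (nat_lit 0) (nat_lit 32129075935) (nat_lit 228) (nat_lit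 17463963253) (nat_lit 76) (nat_lit 11896305522) (nat_lit 17) (nat_lit 5) (nat_lit 20) (nat_lit 5) (nat_lit 18) (nat_lit 4) (nat_lit 385) (nat_lit 279) (nat_lit 116))))))) (XT.nd (nat_lit 32682) (nat_lit 0) (nat_lit 14060) (XT.nd (nat_lit 468) (nat_lit 0) (nat_lit 0) (XT.nd (nat_lit 234) (nat_lit 228) (nat_lit 0) (XT.nd (nat_lit 78) (nat_lit 76) (nat_lit 0) (XT.lf (nat_lit 0) (nat_lit 39444923408) (nat_lit 228) (nat_lit 2632416212) (nat_lit 76) (nat_lit 20987806189) (nat_lit 17) (nat_lit 5) (nat_lit 20) (nat_lit 5) (nat_lit 18) (nat_lit 4) (nat_lit 386) (nat_lit 279) (nat_lit 115)) (XT.nd (nat_lit 78) (nat_lit 0) (nat_lit 0) (XT.lf (nat_lit 0) (nat_lit 12888578271) (nat_lit 76) (nat_lit 34211540337) (nat_lit 152) (nat_lit 17584508665) (nat_lit 16) (nat_lit 5) (nat_lit 17) (nat_lit 5) (nat_lit 18) (nat_lit 4) (nat_lit 387) (nat_lit 279) (nat_lit 114)) (XT.lf (nat_lit 0) (nat_lit 28922231631) (nat_lit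 76) (nat_lit 26085350144) (nat_lit 152) (nat_lit 11344435474) (nat_lit 16) (nat_lit 5) (nat_lit 17) (nat_lit 5) (nat_lit 18) (nat_lit 4) (nat_lit 388) (nat_lit 279) (nat_lit 113)))) (XT.nd (nat_lit 78) (nat_lit 228) (nat_lit 0) (XT.lf (nat_lit 0) (nat_lit 45430163610) (nat_lit 76) (nat_lit 17718250728) (nat_lit 152) (nat_lit 4921132580) (nat_lit 16) (nat_lit 5) (nat_lit 17) (nat_lit 5) (nat_lit 18) (nat_lit 4) (nat_lit 389) (nat_lit 279) (nat_lit 112)) (XT.nd (nat_lit 78) (nat_lit 152) (nat_lit 0) (XT.lf (nat_lit 0) (nat_lit 1658014864) (nat_lit 152) (nat_lit 7428173468) (nat_lit 76) (nat_lit 60752041052) (nat_lit 15) (nat_lit 5) (nat_lit 17) (nat_lit 5) (nat_lit 16) (nat_lit 5) (nat_lit 390) (nat_lit 279) (nat_lit 111)) (XT.lf (nat_lit 0) (nat_lit 8347110959) (nat_lit 152) (nat_lit 65082030) (nat_lit 228) (nat_lit 63244022788) (nat_lit 13) (nat_lit 5) (nat_lit 15) (nat_lit 5) (nat_lit 16) (nat_lit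 5) (nat_lit 391) (nat_lit 279) (nat_lit 110))))) (XT.nd (nat_lit 31980) (nat_lit 0) (nat_lit 14820) (XT.nd (nat_lit 78) (nat_lit 0) (nat_lit 0) (XT.lf (nat_lit 0) (nat_lit 15529789580) (nat_lit 228) (nat_lit 48874443708) (nat_lit 76) (nat_lit 9119686775) (nat_lit 13) (nat_lit 5) (nat_lit 16) (nat_lit 5) (nat_lit 14) (nat_lit 4) (nat_lit 392) (nat_lit 279) (nat_lit 109)) (XT.nd (nat_lit 31824) (nat_lit 0) (nat_lit 15808) (XT.lf (nat_lit 0) (nat_lit 22858012993) (nat_lit 228) (nat_lit 34013641016) (nat_lit 76) (nat_lit 18576090538) (nat_lit 13) (nat_lit 5) (nat_lit 16) (nat_lit 5) (nat_lit 14) (nat_lit 4) (nat_lit 393) (nat_lit 279) (nat_lit 108)) (XT.lf (nat_lit 0) (nat_lit 1921643284) (nat_lit 0) (nat_lit 1921643284) (nat_lit 836) (nat_lit 250663396) (nat_lit 221) (nat_lit 5) (nat_lit 221) (nat_lit 3) (nat_lit 232) (nat_lit 3) (nat_lit 280) (nat_lit 280) (nat_lit 220)))) (XT.nd (nat_lit 78) (nat_lit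 0) (nat_lit 76) (XT.lf (nat_lit 0) (nat_lit 560827537) (nat_lit 988) (nat_lit 731983322) (nat_lit 988) (nat_lit 6984163373) (nat_lit 208) (nat_lit 3) (nat_lit 221) (nat_lit 3) (nat_lit 221) (nat_lit 5) (nat_lit 281) (nat_lit 280) (nat_lit 219)) (XT.nd (nat_lit 78) (nat_lit 0) (nat_lit 0) (XT.lf (nat_lit 0) (nat_lit 1645811838) (nat_lit 912) (nat_lit 5360692064) (nat_lit 988) (nat_lit 1362118609) (nat_lit 209) (nat_lit 5) (nat_lit 221) (nat_lit 5) (nat_lit 222) (nat_lit 5) (nat_lit 282) (nat_lit 280) (nat_lit 218)) (XT.lf (nat_lit 0) (nat_lit 2743437989) (nat_lit 912) (nat_lit 1623231810) (nat_lit 988) (nat_lit 4097027188) (nat_lit 209) (nat_lit 5) (nat_lit 221) (nat_lit 5) (nat_lit 222) (nat_lit 5) (nat_lit 283) (nat_lit 280) (nat_lit 217)))))) (XT.nd (nat_lit 468) (nat_lit 0) (nat_lit 0) (XT.nd (nat_lit 234) (nat_lit 836) (nat_lit 0) (XT.nd (nat_lit 78) (nat_lit 0) (nat_lit 76) (XT.lf (nat_lit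 76) (nat_lit 2248276062) (nat_lit 0) (nat_lit 1608326174) (nat_lit 988) (nat_lit 4705620382) (nat_lit 210) (nat_lit 5) (nat_lit 209) (nat_lit 5) (nat_lit 222) (nat_lit 5) (nat_lit 284) (nat_lit 280) (nat_lit 216)) (XT.nd (nat_lit 78) (nat_lit 0) (nat_lit 0) (XT.lf (nat_lit 0) (nat_lit 4993646964) (nat_lit 912) (nat_lit 2429128135) (nat_lit 988) (nat_lit 1241289304) (nat_lit 210) (nat_lit 5) (nat_lit 222) (nat_lit 5) (nat_lit 223) (nat_lit 5) (nat_lit 285) (nat_lit 280) (nat_lit 215)) (XT.lf (nat_lit 76) (nat_lit 1564403712) (nat_lit 0) (nat_lit 4594547450) (nat_lit 988) (nat_lit 2610258605) (nat_lit 211) (nat_lit 5) (nat_lit 210) (nat_lit 5) (nat_lit 223) (nat_lit 5) (nat_lit 286) (nat_lit 280) (nat_lit 214)))) (XT.nd (nat_lit 78) (nat_lit 912) (nat_lit 0) (XT.lf (nat_lit 76) (nat_lit 5705321950) (nat_lit 0) (nat_lit 1642466782) (nat_lit 988) (nat_lit 1530134183) (nat_lit 211) (nat_lit 5) (nat_lit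 210) (nat_lit 5) (nat_lit 223) (nat_lit 5) (nat_lit 287) (nat_lit 280) (nat_lit 213)) (XT.nd (nat_lit 78) (nat_lit 988) (nat_lit 0) (XT.lf (nat_lit 76) (nat_lit 963112585) (nat_lit 0) (nat_lit 7597097287) (nat_lit 988) (nat_lit 430118623) (nat_lit 212) (nat_lit 5) (nat_lit 211) (nat_lit 5) (nat_lit 224) (nat_lit 5) (nat_lit 288) (nat_lit 280) (nat_lit 212)) (XT.lf (nat_lit 0) (nat_lit 703412034) (nat_lit 988) (nat_lit 3863885021) (nat_lit 1064) (nat_lit 4538244220) (nat_lit 198) (nat_lit 5) (nat_lit 211) (nat_lit 5) (nat_lit 212) (nat_lit 5) (nat_lit 289) (nat_lit 280) (nat_lit 211))))) (XT.nd (nat_lit 234) (nat_lit 0) (nat_lit 76) (XT.nd (nat_lit 78) (nat_lit 0) (nat_lit 76) (XT.lf (nat_lit 76) (nat_lit 405339828) (nat_lit 0) (nat_lit 1427476120) (nat_lit 1064) (nat_lit 7392214137) (nat_lit 199) (nat_lit 5) (nat_lit 198) (nat_lit 5) (nat_lit 212) (nat_lit 5) (nat_lit 290) (nat_lit 280) (nat_lit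 210)) (XT.nd (nat_lit 78) (nat_lit 0) (nat_lit 0) (XT.lf (nat_lit 0) (nat_lit 3020342107) (nat_lit 988) (nat_lit 4506410245) (nat_lit 1064) (nat_lit 1820684944) (nat_lit 199) (nat_lit 5) (nat_lit 212) (nat_lit 5) (nat_lit 213) (nat_lit 5) (nat_lit 291) (nat_lit 280) (nat_lit 209)) (XT.lf (nat_lit 0) (nat_lit 4226045527) (nat_lit 988) (nat_lit 100751297) (nat_lit 1064) (nat_lit 5147302524) (nat_lit 199) (nat_lit 5) (nat_lit 212) (nat_lit 5) (nat_lit 213) (nat_lit 5) (nat_lit 292) (nat_lit 280) (nat_lit 208)))) (XT.nd (nat_lit 78) (nat_lit 0) (nat_lit 76) (XT.lf (nat_lit 76) (nat_lit 4502722293) (nat_lit 0) (nat_lit 977818588) (nat_lit 1064) (nat_lit 4123699200) (nat_lit 200) (nat_lit 5) (nat_lit 199) (nat_lit 5) (nat_lit 213) (nat_lit 5) (nat_lit 293) (nat_lit 280) (nat_lit 207)) (XT.nd (nat_lit 78) (nat_lit 0) (nat_lit 0) (XT.lf (nat_lit 0) (nat_lit 6767553557) (nat_lit 988) (nat_lit 538691505)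 (nat_lit 1064) (nat_lit 2432249272) (nat_lit 200) (nat_lit 5) (nat_lit 213) (nat_lit 5) (nat_lit 214) (nat_lit 5) (nat_lit 294) (nat_lit 280) (nat_lit 206)) (XT.lf (nat_lit 76) (nat_lit 4211150282) (nat_lit 0) (nat_lit 3903155028) (nat_lit 1064) (nat_lit 1761891191) (nat_lit 201) (nat_lit 5) (nat_lit 200) (nat_lit 5) (nat_lit 214) (nat_lit 5) (nat_lit 295) (nat_lit 280) (nat_lit 205))))))))
noncomputable def xc162 : XT := (XT.nd (nat_lit 1794) (nat_lit 3724) (nat_lit 0) (XT.nd (nat_lit 858) (nat_lit 2888) (nat_lit 0) (XT.nd (nat_lit 390) (nat_lit 2356) (nat_lit 0) (XT.nd (nat_lit 156) (nat_lit 1064) (nat_lit 0) (XT.nd (nat_lit 78) (nat_lit 988) (nat_lit 0) (XT.lf (nat_lit 76) (nat_lit 9092386589) (nat_lit 0) (nat_lit 386112686) (nat_lit 1064) (nat_lit 540271837) (nat_lit 201) (nat_lit 5) (nat_lit 200) (nat_lit 5) (nat_lit 214) (nat_lit 5) (nat_lit 296) (nat_lit 280) (nat_lit 204)) (XT.lf (nat_lit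 0) (nat_lit 746189815) (nat_lit 1064) (nat_lit 6193207668) (nat_lit 76) (nat_lit 3224801843) (nat_lit 187) (nat_lit 5) (nat_lit 201) (nat_lit 5) (nat_lit 188) (nat_lit 5) (nat_lit 297) (nat_lit 280) (nat_lit 203))) (XT.nd (nat_lit 78) (nat_lit 1064) (nat_lit 0) (XT.lf (nat_lit 0) (nat_lit 2046414748) (nat_lit 1064) (nat_lit 1311500759) (nat_lit 76) (nat_lit 6956381663) (nat_lit 187) (nat_lit 5) (nat_lit 201) (nat_lit 5) (nat_lit 188) (nat_lit 5) (nat_lit 298) (nat_lit 280) (nat_lit 202)) (XT.nd (nat_lit 78) (nat_lit 0) (nat_lit 0) (XT.lf (nat_lit 0) (nat_lit 3399000703) (nat_lit 1140) (nat_lit 6704189051) (nat_lit 76) (nat_lit 365354274) (nat_lit 173) (nat_lit 5) (nat_lit 188) (nat_lit 5) (nat_lit 174) (nat_lit 5) (nat_lit 299) (nat_lit 280) (nat_lit 201)) (XT.lf (nat_lit 0) (nat_lit 4812934965) (nat_lit 1140) (nat_lit 1663812116) (nat_lit 76) (nat_lit 4150093435) (nat_lit 173) (nat_lit 5) (nat_lit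 188) (nat_lit 5) (nat_lit 174) (nat_lit 5) (nat_lit 300) (nat_lit 280) (nat_lit 200))))) (XT.nd (nat_lit 234) (nat_lit 684) (nat_lit 0) (XT.nd (nat_lit 78) (nat_lit 532) (nat_lit 0) (XT.lf (nat_lit 0) (nat_lit 3575424975) (nat_lit 1140) (nat_lit 2703133712) (nat_lit 1216) (nat_lit 4511093097) (nat_lit 158) (nat_lit 5) (nat_lit 173) (nat_lit 5) (nat_lit 174) (nat_lit 5) (nat_lit 301) (nat_lit 280) (nat_lit 199)) (XT.nd (nat_lit 78) (nat_lit 532) (nat_lit 0) (XT.lf (nat_lit 0) (nat_lit 7791945455) (nat_lit 1216) (nat_lit 1985151801) (nat_lit 76) (nat_lit 1180179047) (nat_lit 158) (nat_lit 5) (nat_lit 174) (nat_lit 5) (nat_lit 159) (nat_lit 5) (nat_lit 302) (nat_lit 280) (nat_lit 198)) (XT.lf (nat_lit 0) (nat_lit 3418694782) (nat_lit 532) (nat_lit 5967828835) (nat_lit 608) (nat_lit 1742373746) (nat_lit 151) (nat_lit 5) (nat_lit 158) (nat_lit 5) (nat_lit 159) (nat_lit 5) (nat_lit 303) (nat_lit 280)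 (nat_lit 197)))) (XT.nd (nat_lit 78) (nat_lit 684) (nat_lit 0) (XT.lf (nat_lit 0) (nat_lit 9003518562) (nat_lit 532) (nat_lit 2022114614) (nat_lit 608) (nat_lit 280173348) (nat_lit 151) (nat_lit 5) (nat_lit 158) (nat_lit 5) (nat_lit 159) (nat_lit 5) (nat_lit 304) (nat_lit 280) (nat_lit 196)) (XT.nd (nat_lit 78) (nat_lit 0) (nat_lit 0) (XT.lf (nat_lit 0) (nat_lit 1230817684) (nat_lit 684) (nat_lit 8208755089) (nat_lit 76) (nat_lit 2047269257) (nat_lit 142) (nat_lit 5) (nat_lit 151) (nat_lit 5) (nat_lit 143) (nat_lit 5) (nat_lit 305) (nat_lit 280) (nat_lit 195)) (XT.lf (nat_lit 0) (nat_lit 2802543311) (nat_lit 684) (nat_lit 2644766916) (nat_lit 76) (nat_lit 6225320944) (nat_lit 142) (nat_lit 5) (nat_lit 151) (nat_lit 5) (nat_lit 143) (nat_lit 5) (nat_lit 306) (nat_lit 280) (nat_lit 194)))))) (XT.nd (nat_lit 468) (nat_lit 1292) (nat_lit 0) (XT.nd (nat_lit 234) (nat_lit 532) (nat_lit 0) (XT.nd (nat_lit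 78) (nat_lit 532) (nat_lit 0) (XT.lf (nat_lit 0) (nat_lit 3125580392) (nat_lit 532) (nat_lit 1304075941) (nat_lit 608) (nat_lit 7434126381) (nat_lit 135) (nat_lit 5) (nat_lit 142) (nat_lit 5) (nat_lit 143) (nat_lit 5) (nat_lit 307) (nat_lit 280) (nat_lit 193)) (XT.nd (nat_lit 78) (nat_lit 532) (nat_lit 0) (XT.lf (nat_lit 0) (nat_lit 6139661772) (nat_lit 608) (nat_lit 2987382373) (nat_lit 76) (nat_lit 2932637042) (nat_lit 135) (nat_lit 5) (nat_lit 143) (nat_lit 5) (nat_lit 136) (nat_lit 5) (nat_lit 308) (nat_lit 280) (nat_lit 192)) (XT.lf (nat_lit 0) (nat_lit 2959423768) (nat_lit 532) (nat_lit 4962146822) (nat_lit 608) (nat_lit 4339301672) (nat_lit 128) (nat_lit 5) (nat_lit 135) (nat_lit 5) (nat_lit 136) (nat_lit 5) (nat_lit 309) (nat_lit 280) (nat_lit 191)))) (XT.nd (nat_lit 78) (nat_lit 532) (nat_lit 0) (XT.lf (nat_lit 0) (nat_lit 9124706288) (nat_lit 532) (nat_lit 642041957) (nat_lit 608) (nat_lit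 2701089236) (nat_lit 128) (nat_lit 5) (nat_lit 135) (nat_lit 5) (nat_lit 136) (nat_lit 5) (nat_lit 310) (nat_lit 280) (nat_lit 190)) (XT.nd (nat_lit 78) (nat_lit 76) (nat_lit 0) (XT.lf (nat_lit 0) (nat_lit 2790622277) (nat_lit 456) (nat_lit 8920315904) (nat_lit 532) (nat_lit 968795573) (nat_lit 122) (nat_lit 5) (nat_lit 128) (nat_lit 5) (nat_lit 129) (nat_lit 5) (nat_lit 311) (nat_lit 280) (nat_lit 189)) (XT.lf (nat_lit 0) (nat_lit 820386574) (nat_lit 532) (nat_lit 3755964467) (nat_lit 76) (nat_lit 8320805720) (nat_lit 121) (nat_lit 5) (nat_lit 128) (nat_lit 5) (nat_lit 122) (nat_lit 5) (nat_lit 312) (nat_lit 280) (nat_lit 188))))) (XT.nd (nat_lit 234) (nat_lit 456) (nat_lit 0) (XT.nd (nat_lit 78) (nat_lit 380) (nat_lit 0) (XT.lf (nat_lit 0) (nat_lit 2581196344) (nat_lit 456) (nat_lit 68341643) (nat_lit 532) (nat_lit 10471132848) (nat_lit 115) (nat_lit 5) (nat_lit 121) (nat_lit 5) (nat_lit 122)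 (nat_lit 5) (nat_lit 313) (nat_lit 280) (nat_lit 187)) (XT.nd (nat_lit 78) (nat_lit 380) (nat_lit 0) (XT.lf (nat_lit 0) (nat_lit 4597137008) (nat_lit 532) (nat_lit 4229763790) (nat_lit 76) (nat_lit 4522110600) (nat_lit 115) (nat_lit 5) (nat_lit 122) (nat_lit 5) (nat_lit 116) (nat_lit 5) (nat_lit 314) (nat_lit 280) (nat_lit 186)) (XT.lf (nat_lit 0) (nat_lit 2292792983) (nat_lit 380) (nat_lit 4314925113) (nat_lit 456) (nat_lit 6976374894) (nat_lit 110) (nat_lit 5) (nat_lit 115) (nat_lit 5) (nat_lit 116) (nat_lit 5) (nat_lit 315) (nat_lit 280) (nat_lit 185)))) (XT.nd (nat_lit 78) (nat_lit 456) (nat_lit 0) (XT.lf (nat_lit 0) (nat_lit 8707094827) (nat_lit 456) (nat_lit 4751677245) (nat_lit 76) (nat_lit 366627249) (nat_lit 110) (nat_lit 5) (nat_lit 116) (nat_lit 5) (nat_lit 111) (nat_lit 5) (nat_lit 316) (nat_lit 280) (nat_lit 184)) (XT.nd (nat_lit 78) (nat_lit 0) (nat_lit 0) (XT.lf (nat_lit 0) (nat_lit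 1959408616) (nat_lit 456) (nat_lit 8954268945) (nat_lit 532) (nat_lit 3158966401) (nat_lit 104) (nat_lit 5) (nat_lit 110) (nat_lit 5) (nat_lit 111) (nat_lit 5) (nat_lit 317) (nat_lit 280) (nat_lit 183)) (XT.lf (nat_lit 0) (nat_lit 8949191524) (nat_lit 456) (nat_lit 4268228701) (nat_lit 532) (nat_lit 1108981951) (nat_lit 104) (nat_lit 5) (nat_lit 110) (nat_lit 5) (nat_lit 111) (nat_lit 5) (nat_lit 318) (nat_lit 280) (nat_lit 182))))))) (XT.nd (nat_lit 936) (nat_lit 1520) (nat_lit 0) (XT.nd (nat_lit 468) (nat_lit 1064) (nat_lit 0) (XT.nd (nat_lit 234) (nat_lit 304) (nat_lit 0) (XT.nd (nat_lit 78) (nat_lit 380) (nat_lit 0) (XT.lf (nat_lit 0) (nat_lit 986823698) (nat_lit 456) (nat_lit 13031216451) (nat_lit 76) (nat_lit 569351031) (nat_lit 98) (nat_lit 5) (nat_lit 104) (nat_lit 5) (nat_lit 99) (nat_lit 5) (nat_lit 319) (nat_lit 280) (nat_lit 181)) (XT.nd (nat_lit 78) (nat_lit 380) (nat_lit 0) (XT.lf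 (nat_lit 0) (nat_lit 3203866080) (nat_lit 456) (nat_lit 6120672148) (nat_lit 76) (nat_lit 5528945643) (nat_lit 98) (nat_lit 5) (nat_lit 104) (nat_lit 5) (nat_lit 99) (nat_lit 5) (nat_lit 320) (nat_lit 280) (nat_lit 180)) (XT.lf (nat_lit 0) (nat_lit 997128414) (nat_lit 380) (nat_lit 4483910709) (nat_lit 456) (nat_lit 9646733946) (nat_lit 93) (nat_lit 5) (nat_lit 98) (nat_lit 5) (nat_lit 99) (nat_lit 5) (nat_lit 321) (nat_lit 280) (nat_lit 179)))) (XT.nd (nat_lit 78) (nat_lit 304) (nat_lit 0) (XT.lf (nat_lit 0) (nat_lit 7878049639) (nat_lit 456) (nat_lit 6979726375) (nat_lit 76) (nat_lit 550990917) (nat_lit 93) (nat_lit 5) (nat_lit 99) (nat_lit 5) (nat_lit 94) (nat_lit 5) (nat_lit 322) (nat_lit 280) (nat_lit 178)) (XT.nd (nat_lit 78) (nat_lit 0) (nat_lit 0) (XT.lf (nat_lit 0) (nat_lit 328527728) (nat_lit 304) (nat_lit 10050732444) (nat_lit 380) (nat_lit 5317982774) (nat_lit 89) (nat_lit 5) (nat_lit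 93) (nat_lit 5) (nat_lit 94) (nat_lit 5) (nat_lit 323) (nat_lit 280) (nat_lit 177)) (XT.lf (nat_lit 0) (nat_lit 7980087983) (nat_lit 304) (nat_lit 5030898872) (nat_lit 380) (nat_lit 2981742407) (nat_lit 89) (nat_lit 5) (nat_lit 93) (nat_lit 5) (nat_lit 94) (nat_lit 5) (nat_lit 324) (nat_lit 280) (nat_lit 176))))) (XT.nd (nat_lit 234) (nat_lit 608) (nat_lit 0) (XT.nd (nat_lit 78) (nat_lit 456) (nat_lit 0) (XT.lf (nat_lit 0) (nat_lit 15708404317) (nat_lit 380) (nat_lit 456110707) (nat_lit 76) (nat_lit 132982795) (nat_lit 89) (nat_lit 5) (nat_lit 94) (nat_lit 5) (nat_lit 90) (nat_lit 5) (nat_lit 325) (nat_lit 280) (nat_lit 175)) (XT.nd (nat_lit 78) (nat_lit 0) (nat_lit 0) (XT.lf (nat_lit 0) (nat_lit 1946579193) (nat_lit 456) (nat_lit 9223870436) (nat_lit 76) (nat_lit 5437202513) (nat_lit 83) (nat_lit 5) (nat_lit 89) (nat_lit 5) (nat_lit 84) (nat_lit 5) (nat_lit 326) (nat_lit 280) (nat_lit 174)) (XT.lf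 (nat_lit 0) (nat_lit 4537038427) (nat_lit 456) (nat_lit 1483083632) (nat_lit 76) (nat_lit 10907115500) (nat_lit 83) (nat_lit 5) (nat_lit 89) (nat_lit 5) (nat_lit 84) (nat_lit 5) (nat_lit 327) (nat_lit 280) (nat_lit 173)))) (XT.nd (nat_lit 78) (nat_lit 304) (nat_lit 0) (XT.lf (nat_lit 0) (nat_lit 6600816741) (nat_lit 304) (nat_lit 654161442) (nat_lit 380) (nat_lit 9999956963) (nat_lit 79) (nat_lit 5) (nat_lit 83) (nat_lit 5) (nat_lit 84) (nat_lit 5) (nat_lit 328) (nat_lit 280) (nat_lit 172)) (XT.nd (nat_lit 78) (nat_lit 304) (nat_lit 0) (XT.lf (nat_lit 0) (nat_lit 10102923295) (nat_lit 380) (nat_lit 2699486597) (nat_lit 76) (nat_lit 4788616851) (nat_lit 79) (nat_lit 5) (nat_lit 84) (nat_lit 5) (nat_lit 80) (nat_lit 5) (nat_lit 329) (nat_lit 280) (nat_lit 171)) (XT.lf (nat_lit 0) (nat_lit 5578573432) (nat_lit 304) (nat_lit 7504730487) (nat_lit 380) (nat_lit 4852503852) (nat_lit 75) (nat_lit 5) (nat_lit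 79) (nat_lit 5) (nat_lit 80) (nat_lit 5) (nat_lit 330) (nat_lit 280) (nat_lit 170)))))) (XT.nd (nat_lit 468) (nat_lit 608) (nat_lit 0) (XT.nd (nat_lit 234) (nat_lit 532) (nat_lit 0) (XT.nd (nat_lit 78) (nat_lit 380) (nat_lit 0) (XT.lf (nat_lit 0) (nat_lit 14142892612) (nat_lit 304) (nat_lit 2024572759) (nat_lit 380) (nat_lit 2123051893) (nat_lit 75) (nat_lit 5) (nat_lit 79) (nat_lit 5) (nat_lit 80) (nat_lit 5) (nat_lit 331) (nat_lit 280) (nat_lit 169)) (XT.nd (nat_lit 78) (nat_lit 0) (nat_lit 0) (XT.lf (nat_lit 0) (nat_lit 739438947) (nat_lit 380) (nat_lit 14320292184) (nat_lit 76) (nat_lit 3594016029) (nat_lit 70) (nat_lit 5) (nat_lit 75) (nat_lit 5) (nat_lit 71) (nat_lit 5) (nat_lit 332) (nat_lit 280) (nat_lit 168)) (XT.lf (nat_lit 0) (nat_lit 3694983375) (nat_lit 380) (nat_lit 5931463589) (nat_lit 76) (nat_lit 9399315623) (nat_lit 70) (nat_lit 5) (nat_lit 75) (nat_lit 5) (nat_lit 71) (nat_lit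 5) (nat_lit 333) (nat_lit 280) (nat_lit 167)))) (XT.nd (nat_lit 78) (nat_lit 228) (nat_lit 0) (XT.lf (nat_lit 0) (nat_lit 2745759932) (nat_lit 304) (nat_lit 4007699265) (nat_lit 380) (nat_lit 12655065649) (nat_lit 66) (nat_lit 5) (nat_lit 70) (nat_lit 5) (nat_lit 71) (nat_lit 5) (nat_lit 334) (nat_lit 280) (nat_lit 166)) (XT.nd (nat_lit 78) (nat_lit 228) (nat_lit 0) (XT.lf (nat_lit 0) (nat_lit 9969303565) (nat_lit 380) (nat_lit 8030794217) (nat_lit 76) (nat_lit 1800717663) (nat_lit 66) (nat_lit 5) (nat_lit 71) (nat_lit 5) (nat_lit 67) (nat_lit 5) (nat_lit 335) (nat_lit 280) (nat_lit 165)) (XT.lf (nat_lit 0) (nat_lit 819940113) (nat_lit 228) (nat_lit 12497612464) (nat_lit 304) (nat_lit 6886257802) (nat_lit 63) (nat_lit 5) (nat_lit 66) (nat_lit 5) (nat_lit 67) (nat_lit 5) (nat_lit 336) (nat_lit 280) (nat_lit 164))))) (XT.nd (nat_lit 234) (nat_lit 228) (nat_lit 0) (XT.nd (nat_lit 78) (nat_lit 380)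 (nat_lit 0) (XT.lf (nat_lit 0) (nat_lit 10084466515) (nat_lit 228) (nat_lit 6751426795) (nat_lit 304) (nat_lit 3780925627) (nat_lit 63) (nat_lit 5) (nat_lit 66) (nat_lit 5) (nat_lit 67) (nat_lit 5) (nat_lit 337) (nat_lit 280) (nat_lit 163)) (XT.nd (nat_lit 78) (nat_lit 380) (nat_lit 0) (XT.lf (nat_lit 0) (nat_lit 19611051654) (nat_lit 228) (nat_lit 837615110) (nat_lit 304) (nat_lit 593897235) (nat_lit 63) (nat_lit 5) (nat_lit 66) (nat_lit 5) (nat_lit 67) (nat_lit 5) (nat_lit 338) (nat_lit 280) (nat_lit 162)) (XT.lf (nat_lit 0) (nat_lit 2754300011) (nat_lit 380) (nat_lit 13471693914) (nat_lit 76) (nat_lit 5250783353) (nat_lit 58) (nat_lit 5) (nat_lit 63) (nat_lit 5) (nat_lit 59) (nat_lit 5) (nat_lit 339) (nat_lit 280) (nat_lit 161)))) (XT.nd (nat_lit 78) (nat_lit 228) (nat_lit 0) (XT.lf (nat_lit 0) (nat_lit 6203108883) (nat_lit 380) (nat_lit 4199557006) (nat_lit 76) (nat_lit 11520823229) (nat_lit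 58) (nat_lit 5) (nat_lit 63) (nat_lit 5) (nat_lit 59) (nat_lit 5) (nat_lit 340) (nat_lit 280) (nat_lit 160)) (XT.nd (nat_lit 78) (nat_lit 0) (nat_lit 0) (XT.lf (nat_lit 0) (nat_lit 5441610253) (nat_lit 228) (nat_lit 4355604753) (nat_lit 304) (nat_lit 12585143622) (nat_lit 55) (nat_lit 5) (nat_lit 58) (nat_lit 5) (nat_lit 59) (nat_lit 5) (nat_lit 341) (nat_lit 280) (nat_lit 159)) (XT.lf (nat_lit 0) (nat_lit 13549612167) (nat_lit 304) (nat_lit 7429488483) (nat_lit 76) (nat_lit 1874390511) (nat_lit 55) (nat_lit 5) (nat_lit 59) (nat_lit 5) (nat_lit 56) (nat_lit 5) (nat_lit 342) (nat_lit 280) (nat_lit 158))))))))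
noncomputable def xc163 : XT := (XT.nd (nat_lit 1872) (nat_lit 988) (nat_lit 0) (XT.nd (nat_lit 936) (nat_lit 760) (nat_lit 0) (XT.nd (nat_lit 468) (nat_lit 456) (nat_lit 0) (XT.nd (nat_lit 234) (nat_lit 456) (nat_lit 0) (XT.nd (nat_lit 78) (nat_lit 76) (nat_lit 0) (XT.lf (nat_lit 0) (nat_lit 2354944871) (nat_lit 228) (nat_lit 15115337693) (nat_lit 304) (nat_lit 5866814721) (nat_lit 52) (nat_lit 5) (nat_lit 55) (nat_lit 5) (nat_lit 56) (nat_lit 5) (nat_lit 343) (nat_lit 280) (nat_lit 157)) (XT.nd (nat_lit 78) (nat_lit 76) (nat_lit 0) (XT.lf (nat_lit 0) (nat_lit 12570362456) (nat_lit 228) (nat_lit 9003323556) (nat_lit 304) (nat_lit 2259582538) (nat_lit 52) (nat_lit 5) (nat_lit 55) (nat_lit 5) (nat_lit 56) (nat_lit 5) (nat_lit 344) (nat_lit 280) (nat_lit 156)) (XT.lf (nat_lit 0) (nat_lit 1417730621) (nat_lit 304) (nat_lit 1280693989) (nat_lit 76) (nat_lit 21645782055) (nat_lit 51) (nat_lit 5) (nat_lit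 55) (nat_lit 5) (nat_lit 52) (nat_lit 5) (nat_lit 345) (nat_lit 280) (nat_lit 155)))) (XT.nd (nat_lit 78) (nat_lit 228) (nat_lit 0) (XT.lf (nat_lit 0) (nat_lit 5275922666) (nat_lit 304) (nat_lit 15762159058) (nat_lit 76) (nat_lit 3828250256) (nat_lit 48) (nat_lit 5) (nat_lit 52) (nat_lit 5) (nat_lit 49) (nat_lit 5) (nat_lit 346) (nat_lit 280) (nat_lit 154)) (XT.nd (nat_lit 78) (nat_lit 228) (nat_lit 0) (XT.lf (nat_lit 0) (nat_lit 9280288937) (nat_lit 304) (nat_lit 5618034099) (nat_lit 76) (nat_lit 10504894357) (nat_lit 48) (nat_lit 5) (nat_lit 52) (nat_lit 5) (nat_lit 49) (nat_lit 5) (nat_lit 347) (nat_lit 280) (nat_lit 153)) (XT.lf (nat_lit 0) (nat_lit 4912394765) (nat_lit 228) (nat_lit 8530535525) (nat_lit 304) (nat_lit 12512143676) (nat_lit 45) (nat_lit 5) (nat_lit 48) (nat_lit 5) (nat_lit 49) (nat_lit 5) (nat_lit 348) (nat_lit 280) (nat_lit 152))))) (XT.nd (nat_lit 234) (nat_lit 304) (nat_lit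 0) (XT.nd (nat_lit 78) (nat_lit 152) (nat_lit 0) (XT.lf (nat_lit 0) (nat_lit 15860158389) (nat_lit 228) (nat_lit 1918079049) (nat_lit 304) (nat_lit 8743823865) (nat_lit 45) (nat_lit 5) (nat_lit 48) (nat_lit 5) (nat_lit 49) (nat_lit 5) (nat_lit 349) (nat_lit 280) (nat_lit 151)) (XT.nd (nat_lit 78) (nat_lit 152) (nat_lit 0) (XT.lf (nat_lit 0) (nat_lit 22281907091) (nat_lit 304) (nat_lit 30301649) (nat_lit 76) (nat_lit 4792708833) (nat_lit 45) (nat_lit 5) (nat_lit 49) (nat_lit 5) (nat_lit 46) (nat_lit 5) (nat_lit 350) (nat_lit 280) (nat_lit 150)) (XT.lf (nat_lit 0) (nat_lit 11104779965) (nat_lit 152) (nat_lit 15933169098) (nat_lit 228) (nat_lit 663800767) (nat_lit 43) (nat_lit 5) (nat_lit 45) (nat_lit 5) (nat_lit 46) (nat_lit 5) (nat_lit 351) (nat_lit 280) (nat_lit 149)))) (XT.nd (nat_lit 78) (nat_lit 228) (nat_lit 0) (XT.lf (nat_lit 0) (nat_lit 3541407800) (nat_lit 228) (nat_lit 5789962831) (nat_lit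 76) (nat_lit 18984324175) (nat_lit 42) (nat_lit 5) (nat_lit 45) (nat_lit 5) (nat_lit 43) (nat_lit 5) (nat_lit 352) (nat_lit 280) (nat_lit 148)) (XT.nd (nat_lit 78) (nat_lit 0) (nat_lit 0) (XT.lf (nat_lit 0) (nat_lit 5427764674) (nat_lit 228) (nat_lit 2475643536) (nat_lit 304) (nat_lit 21043140906) (nat_lit 39) (nat_lit 5) (nat_lit 42) (nat_lit 5) (nat_lit 43) (nat_lit 5) (nat_lit 353) (nat_lit 280) (nat_lit 147)) (XT.lf (nat_lit 0) (nat_lit 12491270358) (nat_lit 304) (nat_lit 12551434543) (nat_lit 76) (nat_lit 4550781357) (nat_lit 39) (nat_lit 5) (nat_lit 43) (nat_lit 5) (nat_lit 40) (nat_lit 5) (nat_lit 354) (nat_lit 280) (nat_lit 146)))))) (XT.nd (nat_lit 468) (nat_lit 380) (nat_lit 0) (XT.nd (nat_lit 234) (nat_lit 228) (nat_lit 0) (XT.nd (nat_lit 78) (nat_lit 152) (nat_lit 0) (XT.lf (nat_lit 0) (nat_lit 17233390840) (nat_lit 304) (nat_lit 1292111492) (nat_lit 76) (nat_lit 11733837552) (nat_lit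 39) (nat_lit 5) (nat_lit 43) (nat_lit 5) (nat_lit 40) (nat_lit 5) (nat_lit 355) (nat_lit 280) (nat_lit 145)) (XT.nd (nat_lit 78) (nat_lit 0) (nat_lit 0) (XT.lf (nat_lit 0) (nat_lit 10497667662) (nat_lit 152) (nat_lit 11713358199) (nat_lit 228) (nat_lit 8731352570) (nat_lit 37) (nat_lit 5) (nat_lit 39) (nat_lit 5) (nat_lit 40) (nat_lit 5) (nat_lit 356) (nat_lit 280) (nat_lit 144)) (XT.lf (nat_lit 0) (nat_lit 22655575637) (nat_lit 152) (nat_lit 4687910241) (nat_lit 228) (nat_lit 4302264015) (nat_lit 37) (nat_lit 5) (nat_lit 39) (nat_lit 5) (nat_lit 40) (nat_lit 5) (nat_lit 357) (nat_lit 280) (nat_lit 143)))) (XT.nd (nat_lit 78) (nat_lit 0) (nat_lit 0) (XT.lf (nat_lit 0) (nat_lit 299356475) (nat_lit 228) (nat_lit 29545056795) (nat_lit 76) (nat_lit 2524398790) (nat_lit 34) (nat_lit 5) (nat_lit 37) (nat_lit 5) (nat_lit 35) (nat_lit 5) (nat_lit 358) (nat_lit 280) (nat_lit 142)) (XT.nd (nat_lit 78) (nat_lit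 0) (nat_lit 0) (XT.lf (nat_lit 0) (nat_lit 5083300888) (nat_lit 228) (nat_lit 18036281443) (nat_lit 76) (nat_lit 9988789541) (nat_lit 34) (nat_lit 5) (nat_lit 37) (nat_lit 5) (nat_lit 35) (nat_lit 5) (nat_lit 359) (nat_lit 280) (nat_lit 141)) (XT.lf (nat_lit 0) (nat_lit 10003627346) (nat_lit 228) (nat_lit 6193816431) (nat_lit 76) (nat_lit 17672894688) (nat_lit 34) (nat_lit 5) (nat_lit 37) (nat_lit 5) (nat_lit 35) (nat_lit 5) (nat_lit 360) (nat_lit 280) (nat_lit 140))))) (XT.nd (nat_lit 234) (nat_lit 228) (nat_lit 0) (XT.nd (nat_lit 78) (nat_lit 0) (nat_lit 0) (XT.lf (nat_lit 0) (nat_lit 6111952227) (nat_lit 152) (nat_lit 9011434762) (nat_lit 228) (nat_lit 19530228093) (nat_lit 32) (nat_lit 5) (nat_lit 34) (nat_lit 5) (nat_lit 35) (nat_lit 5) (nat_lit 361) (nat_lit 280) (nat_lit 139)) (XT.nd (nat_lit 78) (nat_lit 0) (nat_lit 0) (XT.lf (nat_lit 0) (nat_lit 18902734768) (nat_lit 152) (nat_lit 1549716468)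 (nat_lit 228) (nat_lit 15006272968) (nat_lit 32) (nat_lit 5) (nat_lit 34) (nat_lit 5) (nat_lit 35) (nat_lit 5) (nat_lit 362) (nat_lit 280) (nat_lit 138)) (XT.lf (nat_lit 0) (nat_lit 25993694373) (nat_lit 228) (nat_lit 4280694038) (nat_lit 76) (nat_lit 6012034377) (nat_lit 32) (nat_lit 5) (nat_lit 35) (nat_lit 5) (nat_lit 33) (nat_lit 5) (nat_lit 363) (nat_lit 280) (nat_lit 137)))) (XT.nd (nat_lit 78) (nat_lit 76) (nat_lit 0) (XT.lf (nat_lit 0) (nat_lit 8502789308) (nat_lit 152) (nat_lit 23288983028) (nat_lit 228) (nat_lit 5344467309) (nat_lit 30) (nat_lit 5) (nat_lit 32) (nat_lit 5) (nat_lit 33) (nat_lit 5) (nat_lit 364) (nat_lit 280) (nat_lit 136)) (XT.nd (nat_lit 78) (nat_lit 76) (nat_lit 0) (XT.lf (nat_lit 0) (nat_lit 21746984341) (nat_lit 152) (nat_lit 16053642106) (nat_lit 228) (nat_lit 209824635) (nat_lit 30) (nat_lit 5) (nat_lit 32) (nat_lit 5) (nat_lit 33) (nat_lit 5) (nat_lit 365) (nat_lit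 280) (nat_lit 135)) (XT.lf (nat_lit 0) (nat_lit 4973477613) (nat_lit 228) (nat_lit 3581570134) (nat_lit 76) (nat_lit 30354569466) (nat_lit 29) (nat_lit 5) (nat_lit 32) (nat_lit 5) (nat_lit 30) (nat_lit 5) (nat_lit 366) (nat_lit 280) (nat_lit 134))))))) (XT.nd (nat_lit 936) (nat_lit 380) (nat_lit 0) (XT.nd (nat_lit 468) (nat_lit 304) (nat_lit 0) (XT.nd (nat_lit 234) (nat_lit 152) (nat_lit 0) (XT.nd (nat_lit 78) (nat_lit 0) (nat_lit 0) (XT.lf (nat_lit 0) (nat_lit 9657086941) (nat_lit 152) (nat_lit 737714350) (nat_lit 228) (nat_lit 29438297182) (nat_lit 27) (nat_lit 5) (nat_lit 29) (nat_lit 5) (nat_lit 30) (nat_lit 5) (nat_lit 367) (nat_lit 280) (nat_lit 133)) (XT.nd (nat_lit 78) (nat_lit 0) (nat_lit 0) (XT.lf (nat_lit 0) (nat_lit 16079550950) (nat_lit 228) (nat_lit 17497654420) (nat_lit 76) (nat_lit 7204059734) (nat_lit 27) (nat_lit 5) (nat_lit 30) (nat_lit 5) (nat_lit 28) (nat_lit 5) (nat_lit 368)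 (nat_lit 280) (nat_lit 132)) (XT.lf (nat_lit 0) (nat_lit 21936276683) (nat_lit 228) (nat_lit 4456067779) (nat_lit 76) (nat_lit 15365493652) (nat_lit 27) (nat_lit 5) (nat_lit 30) (nat_lit 5) (nat_lit 28) (nat_lit 5) (nat_lit 369) (nat_lit 280) (nat_lit 131)))) (XT.nd (nat_lit 78) (nat_lit 0) (nat_lit 0) (XT.lf (nat_lit 0) (nat_lit 9145700879) (nat_lit 152) (nat_lit 18905217850) (nat_lit 228) (nat_lit 14710327412) (nat_lit 25) (nat_lit 5) (nat_lit 27) (nat_lit 5) (nat_lit 28) (nat_lit 5) (nat_lit 370) (nat_lit 280) (nat_lit 130)) (XT.nd (nat_lit 78) (nat_lit 0) (nat_lit 0) (XT.lf (nat_lit 0) (nat_lit 23237429913) (nat_lit 152) (nat_lit 11150943425) (nat_lit 228) (nat_lit 9405206009) (nat_lit 25) (nat_lit 5) (nat_lit 27) (nat_lit 5) (nat_lit 28) (nat_lit 5) (nat_lit 371) (nat_lit 280) (nat_lit 129)) (XT.lf (nat_lit 0) (nat_lit 37742747997) (nat_lit 152) (nat_lit 3167743154) (nat_lit 228) (nat_lit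 3946559228) (nat_lit 25) (nat_lit 5) (nat_lit 27) (nat_lit 5) (nat_lit 28) (nat_lit 5) (nat_lit 372) (nat_lit 280) (nat_lit 128))))) (XT.nd (nat_lit 234) (nat_lit 152) (nat_lit 0) (XT.nd (nat_lit 78) (nat_lit 0) (nat_lit 0) (XT.lf (nat_lit 0) (nat_lit 1752896084) (nat_lit 152) (nat_lit 39160360432) (nat_lit 76) (nat_lit 5035397006) (nat_lit 23) (nat_lit 5) (nat_lit 25) (nat_lit 5) (nat_lit 24) (nat_lit 5) (nat_lit 373) (nat_lit 280) (nat_lit 127)) (XT.nd (nat_lit 78) (nat_lit 0) (nat_lit 0) (XT.lf (nat_lit 0) (nat_lit 7642606431) (nat_lit 152) (nat_lit 25897242280) (nat_lit 76) (nat_lit 13529029680) (nat_lit 23) (nat_lit 5) (nat_lit 25) (nat_lit 5) (nat_lit 24) (nat_lit 5) (nat_lit 374) (nat_lit 280) (nat_lit 126)) (XT.lf (nat_lit 0) (nat_lit 13703840827) (nat_lit 152) (nat_lit 12245012580) (nat_lit 76) (nat_lit 22274015186) (nat_lit 23) (nat_lit 5) (nat_lit 25) (nat_lit 5) (nat_lit 24) (nat_lit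 5) (nat_lit 375) (nat_lit 280) (nat_lit 125)))) (XT.nd (nat_lit 78) (nat_lit 0) (nat_lit 0) (XT.lf (nat_lit 0) (nat_lit 1844245675) (nat_lit 152) (nat_lit 18115377835) (nat_lit 228) (nat_lit 29451477117) (nat_lit 21) (nat_lit 5) (nat_lit 23) (nat_lit 5) (nat_lit 24) (nat_lit 5) (nat_lit 376) (nat_lit 280) (nat_lit 124)) (XT.nd (nat_lit 78) (nat_lit 0) (nat_lit 0) (XT.lf (nat_lit 0) (nat_lit 16598749811) (nat_lit 152) (nat_lit 9923028685) (nat_lit 228) (nat_lit 24109643528) (nat_lit 21) (nat_lit 5) (nat_lit 23) (nat_lit 5) (nat_lit 24) (nat_lit 5) (nat_lit 377) (nat_lit 280) (nat_lit 123)) (XT.lf (nat_lit 0) (nat_lit 31787692353) (nat_lit 152) (nat_lit 1488298209) (nat_lit 228) (nat_lit 18612509993) (nat_lit 21) (nat_lit 5) (nat_lit 23) (nat_lit 5) (nat_lit 24) (nat_lit 5) (nat_lit 378) (nat_lit 280) (nat_lit 122)))))) (XT.nd (nat_lit 468) (nat_lit 76) (nat_lit 0) (XT.nd (nat_lit 234) (nat_lit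 228) (nat_lit 0) (XT.nd (nat_lit 78) (nat_lit 76) (nat_lit 0) (XT.lf (nat_lit 0) (nat_lit 40297335567) (nat_lit 228) (nat_lit 5828263569) (nat_lit 76) (nat_lit 7055760279) (nat_lit 21) (nat_lit 5) (nat_lit 24) (nat_lit 5) (nat_lit 22) (nat_lit 4) (nat_lit 379) (nat_lit 280) (nat_lit 121)) (XT.nd (nat_lit 78) (nat_lit 0) (nat_lit 0) (XT.lf (nat_lit 0) (nat_lit 9026017374) (nat_lit 76) (nat_lit 38600240471) (nat_lit 152) (nat_lit 6883841169) (nat_lit 20) (nat_lit 5) (nat_lit 21) (nat_lit 5) (nat_lit 22) (nat_lit 4) (nat_lit 380) (nat_lit 280) (nat_lit 120)) (XT.lf (nat_lit 0) (nat_lit 24437642732) (nat_lit 76) (nat_lit 30791755099) (nat_lit 152) (nat_lit 647675455) (nat_lit 20) (nat_lit 5) (nat_lit 21) (nat_lit 5) (nat_lit 22) (nat_lit 4) (nat_lit 381) (nat_lit 280) (nat_lit 119)))) (XT.nd (nat_lit 78) (nat_lit 152) (nat_lit 0) (XT.lf (nat_lit 0) (nat_lit 5658454005) (nat_lit 152) (nat_lit 17036580813)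 (nat_lit 76) (nat_lit 34588491806) (nat_lit 19) (nat_lit 5) (nat_lit 21) (nat_lit 5) (nat_lit 20) (nat_lit 5) (nat_lit 382) (nat_lit 280) (nat_lit 118)) (XT.nd (nat_lit 78) (nat_lit 152) (nat_lit 0) (XT.lf (nat_lit 0) (nat_lit 12136459472) (nat_lit 152) (nat_lit 2215458705) (nat_lit 76) (nat_lit 44380194446) (nat_lit 19) (nat_lit 5) (nat_lit 21) (nat_lit 5) (nat_lit 20) (nat_lit 5) (nat_lit 383) (nat_lit 280) (nat_lit 117)) (XT.lf (nat_lit 0) (nat_lit 13302695620) (nat_lit 152) (nat_lit 5629817847) (nat_lit 228) (nat_lit 41287934141) (nat_lit 17) (nat_lit 5) (nat_lit 19) (nat_lit 5) (nat_lit 20) (nat_lit 5) (nat_lit 384) (nat_lit 280) (nat_lit 116))))) (XT.nd (nat_lit 234) (nat_lit 76) (nat_lit 0) (XT.nd (nat_lit 78) (nat_lit 0) (nat_lit 0) (XT.lf (nat_lit 0) (nat_lit 25983141339) (nat_lit 228) (nat_lit 32460625460) (nat_lit 76) (nat_lit 3308147654) (nat_lit 17) (nat_lit 5) (nat_lit 20) (nat_lit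 5) (nat_lit 18) (nat_lit 4) (nat_lit 385) (nat_lit 280) (nat_lit 115)) (XT.nd (nat_lit 78) (nat_lit 0) (nat_lit 0) (XT.lf (nat_lit 0) (nat_lit 33297008224) (nat_lit 228) (nat_lit 17632527460) (nat_lit 76) (nat_lit 12398240519) (nat_lit 17) (nat_lit 5) (nat_lit 20) (nat_lit 5) (nat_lit 18) (nat_lit 4) (nat_lit 386) (nat_lit 280) (nat_lit 114)) (XT.lf (nat_lit 0) (nat_lit 40826387625) (nat_lit 228) (nat_lit 2366384144) (nat_lit 76) (nat_lit 21758261570) (nat_lit 17) (nat_lit 5) (nat_lit 20) (nat_lit 5) (nat_lit 18) (nat_lit 4) (nat_lit 387) (nat_lit 280) (nat_lit 113)))) (XT.nd (nat_lit 78) (nat_lit 0) (nat_lit 0) (XT.lf (nat_lit 0) (nat_lit 13616857776) (nat_lit 76) (nat_lit 35091894403) (nat_lit 152) (nat_lit 17910425256) (nat_lit 16) (nat_lit 5) (nat_lit 17) (nat_lit 5) (nat_lit 18) (nat_lit 4) (nat_lit 388) (nat_lit 280) (nat_lit 112)) (XT.nd (nat_lit 78) (nat_lit 0) (nat_lit 0) (XT.lf (nat_lit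 0) (nat_lit 30121570576) (nat_lit 76) (nat_lit 26726170702) (nat_lit 152) (nat_lit 11489022258) (nat_lit 16) (nat_lit 5) (nat_lit 17) (nat_lit 5) (nat_lit 18) (nat_lit 4) (nat_lit 389) (nat_lit 280) (nat_lit 111)) (XT.lf (nat_lit 0) (nat_lit 47115080166) (nat_lit 76) (nat_lit 18112186652) (nat_lit 152) (nat_lit 4878721626) (nat_lit 16) (nat_lit 5) (nat_lit 17) (nat_lit 5) (nat_lit 18) (nat_lit 4) (nat_lit 390) (nat_lit 280) (nat_lit 110))))))))
noncomputable def xc164 : XT := (XT.nd (nat_lit 33618) (nat_lit 0) (nat_lit 5776) (XT.nd (nat_lit 32682) (nat_lit 0) (nat_lit 12160) (XT.nd (nat_lit 32214) (nat_lit 0) (nat_lit 13984) (XT.nd (nat_lit 156) (nat_lit 0) (nat_lit 0) (XT.nd (nat_lit 78) (nat_lit 152) (nat_lit 0) (XT.lf (nat_lit 0) (nat_lit 1888664505) (nat_lit 152) (nat_lit 7334679156) (nat_lit 76) (nat_lit 62704498928) (nat_lit 15) (nat_lit 5) (nat_lit 17) (nat_lit 5) (nat_lit 16) (nat_lit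 5) (nat_lit 391) (nat_lit 280) (nat_lit 109)) (XT.lf (nat_lit 0) (nat_lit 8843859168) (nat_lit 228) (nat_lit 64890326339) (nat_lit 76) (nat_lit 66234429) (nat_lit 13) (nat_lit 5) (nat_lit 16) (nat_lit 5) (nat_lit 14) (nat_lit 4) (nat_lit 392) (nat_lit 280) (nat_lit 108))) (XT.nd (nat_lit 31902) (nat_lit 0) (nat_lit 14820) (XT.lf (nat_lit 0) (nat_lit 16170386923) (nat_lit 228) (nat_lit 50032514643) (nat_lit 76) (nat_lit 9521394697) (nat_lit 13) (nat_lit 5) (nat_lit 16) (nat_lit 5) (nat_lit 14) (nat_lit 4) (nat_lit 393) (nat_lit 280) (nat_lit 107)) (XT.nd (nat_lit 78) (nat_lit 0) (nat_lit 0) (XT.lf (nat_lit 0) (nat_lit 796412672) (nat_lit 988) (nat_lit 1693432545) (nat_lit 988) (nat_lit 1693432545) (nat_lit 208) (nat_lit 3) (nat_lit 221) (nat_lit 3) (nat_lit 221) (nat_lit 5) (nat_lit 281) (nat_lit 281) (nat_lit 218)) (XT.lf (nat_lit 76) (nat_lit 303556424) (nat_lit 0) (nat_lit 2314990383) (nat_lit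 988) (nat_lit 5841474053) (nat_lit 209) (nat_lit 5) (nat_lit 208) (nat_lit 3) (nat_lit 221) (nat_lit 5) (nat_lit 282) (nat_lit 281) (nat_lit 217))))) (XT.nd (nat_lit 234) (nat_lit 912) (nat_lit 0) (XT.nd (nat_lit 78) (nat_lit 0) (nat_lit 0) (XT.lf (nat_lit 0) (nat_lit 3674706804) (nat_lit 912) (nat_lit 4407562976) (nat_lit 988) (nat_lit 474107570) (nat_lit 209) (nat_lit 5) (nat_lit 221) (nat_lit 5) (nat_lit 222) (nat_lit 5) (nat_lit 283) (nat_lit 281) (nat_lit 216)) (XT.nd (nat_lit 78) (nat_lit 0) (nat_lit 0) (XT.lf (nat_lit 0) (nat_lit 4747605799) (nat_lit 912) (nat_lit 590424055) (nat_lit 988) (nat_lit 3318118006) (nat_lit 209) (nat_lit 5) (nat_lit 221) (nat_lit 5) (nat_lit 222) (nat_lit 5) (nat_lit 284) (nat_lit 281) (nat_lit 215)) (XT.lf (nat_lit 76) (nat_lit 3386626065) (nat_lit 0) (nat_lit 2461856430) (nat_lit 988) (nat_lit 2910628039) (nat_lit 210) (nat_lit 5) (nat_lit 209) (nat_lit 5)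 (nat_lit 222) (nat_lit 5) (nat_lit 285) (nat_lit 281) (nat_lit 214)))) (XT.nd (nat_lit 78) (nat_lit 988) (nat_lit 0) (XT.lf (nat_lit 0) (nat_lit 6957477095) (nat_lit 912) (nat_lit 1396544374) (nat_lit 988) (nat_lit 511958519) (nat_lit 210) (nat_lit 5) (nat_lit 222) (nat_lit 5) (nat_lit 223) (nat_lit 5) (nat_lit 286) (nat_lit 281) (nat_lit 213)) (XT.nd (nat_lit 78) (nat_lit 988) (nat_lit 0) (XT.lf (nat_lit 76) (nat_lit 2705955609) (nat_lit 0) (nat_lit 5409471410) (nat_lit 988) (nat_lit 860226535) (nat_lit 211) (nat_lit 5) (nat_lit 210) (nat_lit 5) (nat_lit 223) (nat_lit 5) (nat_lit 287) (nat_lit 281) (nat_lit 212)) (XT.lf (nat_lit 0) (nat_lit 195164839) (nat_lit 988) (nat_lit 2151971703) (nat_lit 1064) (nat_lit 6742083643) (nat_lit 197) (nat_lit 5) (nat_lit 210) (nat_lit 5) (nat_lit 211) (nat_lit 5) (nat_lit 288) (nat_lit 281) (nat_lit 211)))))) (XT.nd (nat_lit 468) (nat_lit 1900) (nat_lit 0) (XT.nd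 (nat_lit 234) (nat_lit 0) (nat_lit 76) (XT.nd (nat_lit 78) (nat_lit 0) (nat_lit 0) (XT.lf (nat_lit 0) (nat_lit 1259988211) (nat_lit 988) (nat_lit 7113847039) (nat_lit 1064) (nat_lit 832314025) (nat_lit 198) (nat_lit 5) (nat_lit 211) (nat_lit 5) (nat_lit 212) (nat_lit 5) (nat_lit 289) (nat_lit 281) (nat_lit 210)) (XT.nd (nat_lit 78) (nat_lit 0) (nat_lit 0) (XT.lf (nat_lit 0) (nat_lit 2369529382) (nat_lit 988) (nat_lit 2863367835) (nat_lit 1064) (nat_lit 4093366770) (nat_lit 198) (nat_lit 5) (nat_lit 211) (nat_lit 5) (nat_lit 212) (nat_lit 5) (nat_lit 290) (nat_lit 281) (nat_lit 209)) (XT.lf (nat_lit 76) (nat_lit 1522988331) (nat_lit 0) (nat_lit 1972540653) (nat_lit 1064) (nat_lit 5955017158) (nat_lit 199) (nat_lit 5) (nat_lit 198) (nat_lit 5) (nat_lit 212) (nat_lit 5) (nat_lit 291) (nat_lit 281) (nat_lit 208)))) (XT.nd (nat_lit 78) (nat_lit 0) (nat_lit 0) (XT.lf (nat_lit 0) (nat_lit 4667166660)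 (nat_lit 988) (nat_lit 3513883140) (nat_lit 1064) (nat_lit 1397208664) (nat_lit 199) (nat_lit 5) (nat_lit 212) (nat_lit 5) (nat_lit 213) (nat_lit 5) (nat_lit 292) (nat_lit 281) (nat_lit 207)) (XT.nd (nat_lit 78) (nat_lit 0) (nat_lit 0) (XT.lf (nat_lit 76) (nat_lit 1010824199) (nat_lit 0) (nat_lit 4862607013) (nat_lit 1064) (nat_lit 3836442383) (nat_lit 200) (nat_lit 5) (nat_lit 199) (nat_lit 5) (nat_lit 213) (nat_lit 5) (nat_lit 293) (nat_lit 281) (nat_lit 206)) (XT.lf (nat_lit 76) (nat_lit 5721943126) (nat_lit 0) (nat_lit 1400316613) (nat_lit 1064) (nat_lit 2723040306) (nat_lit 200) (nat_lit 5) (nat_lit 199) (nat_lit 5) (nat_lit 213) (nat_lit 5) (nat_lit 294) (nat_lit 281) (nat_lit 205))))) (XT.nd (nat_lit 234) (nat_lit 988) (nat_lit 0) (XT.nd (nat_lit 78) (nat_lit 1064) (nat_lit 0) (XT.lf (nat_lit 76) (nat_lit 557963521) (nat_lit 0) (nat_lit 7848585278) (nat_lit 1064) (nat_lit 1578353189) (nat_lit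 201) (nat_lit 5) (nat_lit 200) (nat_lit 5) (nat_lit 214) (nat_lit 5) (nat_lit 295) (nat_lit 281) (nat_lit 204)) (XT.nd (nat_lit 78) (nat_lit 1064) (nat_lit 0) (XT.lf (nat_lit 76) (nat_lit 5428609470) (nat_lit 0) (nat_lit 4328550595) (nat_lit 1064) (nat_lit 370749159) (nat_lit 201) (nat_lit 5) (nat_lit 200) (nat_lit 5) (nat_lit 214) (nat_lit 5) (nat_lit 296) (nat_lit 281) (nat_lit 203)) (XT.lf (nat_lit 76) (nat_lit 143108695) (nat_lit 0) (nat_lit 687229530) (nat_lit 1140) (nat_lit 9445436014) (nat_lit 187) (nat_lit 5) (nat_lit 186) (nat_lit 5) (nat_lit 201) (nat_lit 5) (nat_lit 297) (nat_lit 281) (nat_lit 202)))) (XT.nd (nat_lit 78) (nat_lit 1064) (nat_lit 0) (XT.lf (nat_lit 0) (nat_lit 2110928330) (nat_lit 1064) (nat_lit 5255259527) (nat_lit 76) (nat_lit 3060296278) (nat_lit 187) (nat_lit 5) (nat_lit 201) (nat_lit 5) (nat_lit 188) (nat_lit 5) (nat_lit 298) (nat_lit 281) (nat_lit 201)) (XT.nd (nat_lit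 78) (nat_lit 1064) (nat_lit 0) (XT.lf (nat_lit 0) (nat_lit 3411062356) (nat_lit 1064) (nat_lit 259831828) (nat_lit 76) (nat_lit 6911432705) (nat_lit 187) (nat_lit 5) (nat_lit 201) (nat_lit 5) (nat_lit 188) (nat_lit 5) (nat_lit 299) (nat_lit 281) (nat_lit 200)) (XT.lf (nat_lit 0) (nat_lit 4774773726) (nat_lit 1140) (nat_lit 5782614099) (nat_lit 76) (nat_lit 184763928) (nat_lit 173) (nat_lit 5) (nat_lit 188) (nat_lit 5) (nat_lit 174) (nat_lit 5) (nat_lit 300) (nat_lit 281) (nat_lit 199))))))) (XT.nd (nat_lit 936) (nat_lit 2508) (nat_lit 0) (XT.nd (nat_lit 468) (nat_lit 1520) (nat_lit 0) (XT.nd (nat_lit 234) (nat_lit 1216) (nat_lit 0) (XT.nd (nat_lit 78) (nat_lit 1140) (nat_lit 0) (XT.lf (nat_lit 0) (nat_lit 6194024957) (nat_lit 1140) (nat_lit 623725875) (nat_lit 76) (nat_lit 4088624419) (nat_lit 173) (nat_lit 5) (nat_lit 188) (nat_lit 5) (nat_lit 174) (nat_lit 5) (nat_lit 301) (nat_lit 281) (nat_lit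 198)) (XT.nd (nat_lit 78) (nat_lit 0) (nat_lit 0) (XT.lf (nat_lit 0) (nat_lit 4762002049) (nat_lit 1140) (nat_lit 2915969926) (nat_lit 1216) (nat_lit 3396931430) (nat_lit 158) (nat_lit 5) (nat_lit 173) (nat_lit 5) (nat_lit 174) (nat_lit 5) (nat_lit 302) (nat_lit 281) (nat_lit 197)) (XT.lf (nat_lit 0) (nat_lit 9200257354) (nat_lit 1216) (nat_lit 958280488) (nat_lit 76) (nat_lit 1090175255) (nat_lit 158) (nat_lit 5) (nat_lit 174) (nat_lit 5) (nat_lit 159) (nat_lit 5) (nat_lit 303) (nat_lit 281) (nat_lit 196)))) (XT.nd (nat_lit 78) (nat_lit 684) (nat_lit 0) (XT.lf (nat_lit 0) (nat_lit 4597030258) (nat_lit 532) (nat_lit 6221773309) (nat_lit 608) (nat_lit 607454860) (nat_lit 151) (nat_lit 5) (nat_lit 158) (nat_lit 5) (nat_lit 159) (nat_lit 5) (nat_lit 304) (nat_lit 281) (nat_lit 195)) (XT.nd (nat_lit 78) (nat_lit 608) (nat_lit 0) (XT.lf (nat_lit 0) (nat_lit 847172797) (nat_lit 608) (nat_lit 1299778246)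 (nat_lit 76) (nat_lit 9462337928) (nat_lit 150) (nat_lit 5) (nat_lit 158) (nat_lit 5) (nat_lit 151) (nat_lit 5) (nat_lit 305) (nat_lit 281) (nat_lit 194)) (XT.lf (nat_lit 0) (nat_lit 2374647997) (nat_lit 684) (nat_lit 7361182166) (nat_lit 76) (nat_lit 2060593096) (nat_lit 142) (nat_lit 5) (nat_lit 151) (nat_lit 5) (nat_lit 143) (nat_lit 5) (nat_lit 306) (nat_lit 281) (nat_lit 193))))) (XT.nd (nat_lit 234) (nat_lit 988) (nat_lit 0) (XT.nd (nat_lit 78) (nat_lit 532) (nat_lit 0) (XT.lf (nat_lit 0) (nat_lit 3961285418) (nat_lit 684) (nat_lit 1662133636) (nat_lit 76) (nat_lit 6365387137) (nat_lit 142) (nat_lit 5) (nat_lit 151) (nat_lit 5) (nat_lit 143) (nat_lit 5) (nat_lit 307) (nat_lit 281) (nat_lit 192)) (XT.nd (nat_lit 78) (nat_lit 0) (nat_lit 0) (XT.lf (nat_lit 0) (nat_lit 4270912558) (nat_lit 532) (nat_lit 1345106611) (nat_lit 608) (nat_lit 6570360269) (nat_lit 135) (nat_lit 5) (nat_lit 142) (nat_lit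 5) (nat_lit 143) (nat_lit 5) (nat_lit 308) (nat_lit 281) (nat_lit 191)) (XT.lf (nat_lit 0) (nat_lit 7346623278) (nat_lit 608) (nat_lit 2023703013) (nat_lit 76) (nat_lit 3018799501) (nat_lit 135) (nat_lit 5) (nat_lit 143) (nat_lit 5) (nat_lit 136) (nat_lit 5) (nat_lit 309) (nat_lit 281) (nat_lit 190)))) (XT.nd (nat_lit 78) (nat_lit 456) (nat_lit 0) (XT.lf (nat_lit 0) (nat_lit 4091180833) (nat_lit 532) (nat_lit 5071044769) (nat_lit 608) (nat_lit 3434768337) (nat_lit 128) (nat_lit 5) (nat_lit 135) (nat_lit 5) (nat_lit 136) (nat_lit 5) (nat_lit 310) (nat_lit 281) (nat_lit 189)) (XT.nd (nat_lit 78) (nat_lit 456) (nat_lit 0) (XT.lf (nat_lit 0) (nat_lit 10411043936) (nat_lit 532) (nat_lit 622500829) (nat_lit 608) (nat_lit 1777546782) (nat_lit 128) (nat_lit 5) (nat_lit 135) (nat_lit 5) (nat_lit 136) (nat_lit 5) (nat_lit 311) (nat_lit 281) (nat_lit 188)) (XT.lf (nat_lit 0) (nat_lit 3907119936) (nat_lit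 456) (nat_lit 9110867360) (nat_lit 532) (nat_lit 11945252) (nat_lit 122) (nat_lit 5) (nat_lit 128) (nat_lit 5) (nat_lit 129) (nat_lit 5) (nat_lit 312) (nat_lit 281) (nat_lit 187)))))) (XT.nd (nat_lit 468) (nat_lit 1140) (nat_lit 0) (XT.nd (nat_lit 234) (nat_lit 836) (nat_lit 0) (XT.nd (nat_lit 78) (nat_lit 456) (nat_lit 0) (XT.lf (nat_lit 0) (nat_lit 1783518026) (nat_lit 532) (nat_lit 2845832722) (nat_lit 76) (nat_lit 8625130875) (nat_lit 121) (nat_lit 5) (nat_lit 128) (nat_lit 5) (nat_lit 122) (nat_lit 5) (nat_lit 313) (nat_lit 281) (nat_lit 186)) (XT.nd (nat_lit 78) (nat_lit 0) (nat_lit 0) (XT.lf (nat_lit 0) (nat_lit 3650150339) (nat_lit 532) (nat_lit 9814061934) (nat_lit 76) (nat_lit 21052429) (nat_lit 115) (nat_lit 5) (nat_lit 122) (nat_lit 5) (nat_lit 116) (nat_lit 5) (nat_lit 314) (nat_lit 281) (nat_lit 185)) (XT.lf (nat_lit 0) (nat_lit 5630005354) (nat_lit 532) (nat_lit 3346054624) (nat_lit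 76) (nat_lit 4745221222) (nat_lit 115) (nat_lit 5) (nat_lit 122) (nat_lit 5) (nat_lit 116) (nat_lit 5) (nat_lit 315) (nat_lit 281) (nat_lit 184)))) (XT.nd (nat_lit 78) (nat_lit 456) (nat_lit 0) (XT.lf (nat_lit 0) (nat_lit 3362270988) (nat_lit 380) (nat_lit 4322185544) (nat_lit 456) (nat_lit 6279491505) (nat_lit 110) (nat_lit 5) (nat_lit 115) (nat_lit 5) (nat_lit 116) (nat_lit 5) (nat_lit 316) (nat_lit 281) (nat_lit 183)) (XT.nd (nat_lit 78) (nat_lit 456) (nat_lit 0) (XT.lf (nat_lit 0) (nat_lit 9822367314) (nat_lit 456) (nat_lit 3896958222) (nat_lit 76) (nat_lit 493939667) (nat_lit 110) (nat_lit 5) (nat_lit 116) (nat_lit 5) (nat_lit 111) (nat_lit 5) (nat_lit 317) (nat_lit 281) (nat_lit 182)) (XT.lf (nat_lit 0) (nat_lit 3005683064) (nat_lit 456) (nat_lit 9074081322) (nat_lit 532) (nat_lit 2388661408) (nat_lit 104) (nat_lit 5) (nat_lit 110) (nat_lit 5) (nat_lit 111) (nat_lit 5) (nat_lit 318) (nat_lit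 281) (nat_lit 181))))) (XT.nd (nat_lit 234) (nat_lit 684) (nat_lit 0) (XT.nd (nat_lit 78) (nat_lit 456) (nat_lit 0) (XT.lf (nat_lit 0) (nat_lit 10176397550) (nat_lit 456) (nat_lit 4251794309) (nat_lit 532) (nat_lit 302373754) (nat_lit 104) (nat_lit 5) (nat_lit 110) (nat_lit 5) (nat_lit 111) (nat_lit 5) (nat_lit 319) (nat_lit 281) (nat_lit 180)) (XT.nd (nat_lit 78) (nat_lit 0) (nat_lit 0) (XT.lf (nat_lit 0) (nat_lit 1826742570) (nat_lit 456) (nat_lit 12431560793) (nat_lit 76) (nat_lit 741267921) (nat_lit 98) (nat_lit 5) (nat_lit 104) (nat_lit 5) (nat_lit 99) (nat_lit 5) (nat_lit 320) (nat_lit 281) (nat_lit 179)) (XT.lf (nat_lit 0) (nat_lit 4086694841) (nat_lit 456) (nat_lit 5342552360) (nat_lit 76) (nat_lit 5845140574) (nat_lit 98) (nat_lit 5) (nat_lit 104) (nat_lit 5) (nat_lit 99) (nat_lit 5) (nat_lit 321) (nat_lit 281) (nat_lit 178)))) (XT.nd (nat_lit 78) (nat_lit 304) (nat_lit 0) (XT.lf (nat_lit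 0) (nat_lit 1979353396) (nat_lit 380) (nat_lit 4439069912) (nat_lit 456) (nat_lit 9138927150) (nat_lit 93) (nat_lit 5) (nat_lit 98) (nat_lit 5) (nat_lit 99) (nat_lit 5) (nat_lit 322) (nat_lit 281) (nat_lit 177)) (XT.nd (nat_lit 78) (nat_lit 304) (nat_lit 0) (XT.lf (nat_lit 0) (nat_lit 8866504828) (nat_lit 456) (nat_lit 6242668815) (nat_lit 76) (nat_lit 738256757) (nat_lit 93) (nat_lit 5) (nat_lit 99) (nat_lit 5) (nat_lit 94) (nat_lit 5) (nat_lit 323) (nat_lit 281) (nat_lit 176)) (XT.lf (nat_lit 0) (nat_lit 1275553997) (nat_lit 304) (nat_lit 10154300113) (nat_lit 380) (nat_lit 4715123692) (nat_lit 89) (nat_lit 5) (nat_lit 93) (nat_lit 5) (nat_lit 94) (nat_lit 5) (nat_lit 324) (nat_lit 281) (nat_lit 175))))))))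
noncomputable def xc165 : XT := (XT.nd (nat_lit 1794) (nat_lit 1748) (nat_lit 0) (XT.nd (nat_lit 858) (nat_lit 1368) (nat_lit 0) (XT.nd (nat_lit 390) (nat_lit 988) (nat_lit 0) (XT.nd (nat_lit 156) (nat_lit 304) (nat_lit 0) (XT.nd (nat_lit 78) (nat_lit 456) (nat_lit 0) (XT.lf (nat_lit 0) (nat_lit 9129364833) (nat_lit 304) (nat_lit 4989637193) (nat_lit 380) (nat_lit 2331001897) (nat_lit 89) (nat_lit 5) (nat_lit 93) (nat_lit 5) (nat_lit 94) (nat_lit 5) (nat_lit 325) (nat_lit 281) (nat_lit 174)) (XT.lf (nat_lit 0) (nat_lit 115789345) (nat_lit 456) (nat_lit 16323257668) (nat_lit 76) (nat_lit 325308669) (nat_lit 83) (nat_lit 5) (nat_lit 89) (nat_lit 5) (nat_lit 84) (nat_lit 5) (nat_lit 326) (nat_lit 281) (nat_lit 173))) (XT.nd (nat_lit 78) (nat_lit 304) (nat_lit 0) (XT.lf (nat_lit 0) (nat_lit 2699507523) (nat_lit 456) (nat_lit 8591296354) (nat_lit 76) (nat_lit 5793348128) (nat_lit 83) (nat_lit 5) (nat_lit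 89) (nat_lit 5) (nat_lit 84) (nat_lit 5) (nat_lit 327) (nat_lit 281) (nat_lit 172)) (XT.nd (nat_lit 78) (nat_lit 304) (nat_lit 0) (XT.lf (nat_lit 0) (nat_lit 5347451476) (nat_lit 456) (nat_lit 644770127) (nat_lit 76) (nat_lit 11421736284) (nat_lit 83) (nat_lit 5) (nat_lit 89) (nat_lit 5) (nat_lit 84) (nat_lit 5) (nat_lit 328) (nat_lit 281) (nat_lit 171)) (XT.lf (nat_lit 0) (nat_lit 7672992296) (nat_lit 304) (nat_lit 462700142) (nat_lit 380) (nat_lit 9616156347) (nat_lit 79) (nat_lit 5) (nat_lit 83) (nat_lit 5) (nat_lit 84) (nat_lit 5) (nat_lit 329) (nat_lit 281) (nat_lit 170))))) (XT.nd (nat_lit 234) (nat_lit 684) (nat_lit 0) (XT.nd (nat_lit 78) (nat_lit 304) (nat_lit 0) (XT.lf (nat_lit 0) (nat_lit 11051733323) (nat_lit 380) (nat_lit 1913620341) (nat_lit 76) (nat_lit 5133214280) (nat_lit 79) (nat_lit 5) (nat_lit 84) (nat_lit 5) (nat_lit 80) (nat_lit 5) (nat_lit 330) (nat_lit 281) (nat_lit 169))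 (XT.nd (nat_lit 78) (nat_lit 0) (nat_lit 0) (XT.lf (nat_lit 0) (nat_lit 6604282950) (nat_lit 304) (nat_lit 7506685977) (nat_lit 380) (nat_lit 4343063994) (nat_lit 75) (nat_lit 5) (nat_lit 79) (nat_lit 5) (nat_lit 80) (nat_lit 5) (nat_lit 331) (nat_lit 281) (nat_lit 168)) (XT.lf (nat_lit 0) (nat_lit 15400531153) (nat_lit 304) (nat_lit 1868624092) (nat_lit 380) (nat_lit 1550806582) (nat_lit 75) (nat_lit 5) (nat_lit 79) (nat_lit 5) (nat_lit 80) (nat_lit 5) (nat_lit 332) (nat_lit 281) (nat_lit 167)))) (XT.nd (nat_lit 78) (nat_lit 304) (nat_lit 0) (XT.lf (nat_lit 0) (nat_lit 1377206751) (nat_lit 380) (nat_lit 13894721714) (nat_lit 76) (nat_lit 3922236851) (nat_lit 70) (nat_lit 5) (nat_lit 75) (nat_lit 5) (nat_lit 71) (nat_lit 5) (nat_lit 333) (nat_lit 281) (nat_lit 166)) (XT.nd (nat_lit 78) (nat_lit 304) (nat_lit 0) (XT.lf (nat_lit 0) (nat_lit 4403487863) (nat_lit 380) (nat_lit 5279136395) (nat_lit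 76) (nat_lit 9895276005) (nat_lit 70) (nat_lit 5) (nat_lit 75) (nat_lit 5) (nat_lit 71) (nat_lit 5) (nat_lit 334) (nat_lit 281) (nat_lit 165)) (XT.lf (nat_lit 0) (nat_lit 3650263920) (nat_lit 304) (nat_lit 3893949440) (nat_lit 380) (nat_lit 12428237716) (nat_lit 66) (nat_lit 5) (nat_lit 70) (nat_lit 5) (nat_lit 71) (nat_lit 5) (nat_lit 335) (nat_lit 281) (nat_lit 164)))))) (XT.nd (nat_lit 468) (nat_lit 760) (nat_lit 0) (XT.nd (nat_lit 234) (nat_lit 380) (nat_lit 0) (XT.nd (nat_lit 78) (nat_lit 228) (nat_lit 0) (XT.lf (nat_lit 0) (nat_lit 10841586122) (nat_lit 380) (nat_lit 7457920434) (nat_lit 76) (nat_lit 2077472197) (nat_lit 66) (nat_lit 5) (nat_lit 71) (nat_lit 5) (nat_lit 67) (nat_lit 5) (nat_lit 336) (nat_lit 281) (nat_lit 163)) (XT.nd (nat_lit 78) (nat_lit 0) (nat_lit 0) (XT.lf (nat_lit 0) (nat_lit 1650357518) (nat_lit 228) (nat_lit 12630975868) (nat_lit 304) (nat_lit 6511017997) (nat_lit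 63) (nat_lit 5) (nat_lit 66) (nat_lit 5) (nat_lit 67) (nat_lit 5) (nat_lit 337) (nat_lit 281) (nat_lit 162)) (XT.lf (nat_lit 0) (nat_lit 11169349250) (nat_lit 228) (nat_lit 6719440502) (nat_lit 304) (nat_lit 3329472290) (nat_lit 63) (nat_lit 5) (nat_lit 66) (nat_lit 5) (nat_lit 67) (nat_lit 5) (nat_lit 338) (nat_lit 281) (nat_lit 161)))) (XT.nd (nat_lit 78) (nat_lit 380) (nat_lit 0) (XT.lf (nat_lit 0) (nat_lit 20958945086) (nat_lit 228) (nat_lit 635045410) (nat_lit 304) (nat_lit 63285894) (nat_lit 63) (nat_lit 5) (nat_lit 66) (nat_lit 5) (nat_lit 67) (nat_lit 5) (nat_lit 339) (nat_lit 281) (nat_lit 160)) (XT.nd (nat_lit 78) (nat_lit 0) (nat_lit 0) (XT.lf (nat_lit 0) (nat_lit 3368579149) (nat_lit 380) (nat_lit 13098340159) (nat_lit 76) (nat_lit 5637638105) (nat_lit 58) (nat_lit 5) (nat_lit 63) (nat_lit 5) (nat_lit 59) (nat_lit 5) (nat_lit 340) (nat_lit 281) (nat_lit 159)) (XT.lf (nat_lit 0) (nat_lit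 6905367332) (nat_lit 380) (nat_lit 3570684908) (nat_lit 76) (nat_lit 12089099627) (nat_lit 58) (nat_lit 5) (nat_lit 63) (nat_lit 5) (nat_lit 59) (nat_lit 5) (nat_lit 341) (nat_lit 281) (nat_lit 158))))) (XT.nd (nat_lit 234) (nat_lit 304) (nat_lit 0) (XT.nd (nat_lit 78) (nat_lit 228) (nat_lit 0) (XT.lf (nat_lit 0) (nat_lit 6352316792) (nat_lit 228) (nat_lit 4247130935) (nat_lit 304) (nat_lit 12438591424) (nat_lit 55) (nat_lit 5) (nat_lit 58) (nat_lit 5) (nat_lit 59) (nat_lit 5) (nat_lit 342) (nat_lit 281) (nat_lit 157)) (XT.nd (nat_lit 78) (nat_lit 228) (nat_lit 0) (XT.lf (nat_lit 0) (nat_lit 14451843299) (nat_lit 304) (nat_lit 6913587032) (nat_lit 76) (nat_lit 2158268285) (nat_lit 55) (nat_lit 5) (nat_lit 59) (nat_lit 5) (nat_lit 56) (nat_lit 5) (nat_lit 343) (nat_lit 281) (nat_lit 156)) (XT.lf (nat_lit 0) (nat_lit 3157136322) (nat_lit 228) (nat_lit 15325590416) (nat_lit 304) (nat_lit 5539323689)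 (nat_lit 52) (nat_lit 5) (nat_lit 55) (nat_lit 5) (nat_lit 56) (nat_lit 5) (nat_lit 344) (nat_lit 281) (nat_lit 155)))) (XT.nd (nat_lit 78) (nat_lit 304) (nat_lit 0) (XT.lf (nat_lit 0) (nat_lit 13657709354) (nat_lit 228) (nat_lit 9037299565) (nat_lit 304) (nat_lit 1838539457) (nat_lit 52) (nat_lit 5) (nat_lit 55) (nat_lit 5) (nat_lit 56) (nat_lit 5) (nat_lit 345) (nat_lit 281) (nat_lit 154)) (XT.nd (nat_lit 78) (nat_lit 228) (nat_lit 0) (XT.lf (nat_lit 0) (nat_lit 1925594299) (nat_lit 304) (nat_lit 619837802) (nat_lit 76) (nat_lit 22514674357) (nat_lit 51) (nat_lit 5) (nat_lit 55) (nat_lit 5) (nat_lit 52) (nat_lit 5) (nat_lit 346) (nat_lit 281) (nat_lit 153)) (XT.lf (nat_lit 0) (nat_lit 5894883957) (nat_lit 304) (nat_lit 15530645808) (nat_lit 76) (nat_lit 4172518799) (nat_lit 48) (nat_lit 5) (nat_lit 52) (nat_lit 5) (nat_lit 49) (nat_lit 5) (nat_lit 347) (nat_lit 281) (nat_lit 152))))))) (XT.nd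 (nat_lit 936) (nat_lit 684) (nat_lit 0) (XT.nd (nat_lit 468) (nat_lit 608) (nat_lit 0) (XT.nd (nat_lit 234) (nat_lit 228) (nat_lit 0) (XT.nd (nat_lit 78) (nat_lit 228) (nat_lit 0) (XT.lf (nat_lit 0) (nat_lit 10005963246) (nat_lit 304) (nat_lit 5102712964) (nat_lit 76) (nat_lit 11042780057) (nat_lit 48) (nat_lit 5) (nat_lit 52) (nat_lit 5) (nat_lit 49) (nat_lit 5) (nat_lit 348) (nat_lit 281) (nat_lit 151)) (XT.nd (nat_lit 78) (nat_lit 0) (nat_lit 0) (XT.lf (nat_lit 0) (nat_lit 5736924234) (nat_lit 228) (nat_lit 8550041704) (nat_lit 304) (nat_lit 12433110943) (nat_lit 45) (nat_lit 5) (nat_lit 48) (nat_lit 5) (nat_lit 49) (nat_lit 5) (nat_lit 349) (nat_lit 281) (nat_lit 150)) (XT.lf (nat_lit 0) (nat_lit 16993397730) (nat_lit 228) (nat_lit 1746097259) (nat_lit 304) (nat_lit 8564976403) (nat_lit 45) (nat_lit 5) (nat_lit 48) (nat_lit 5) (nat_lit 49) (nat_lit 5) (nat_lit 350) (nat_lit 281) (nat_lit 149))))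 (XT.nd (nat_lit 78) (nat_lit 76) (nat_lit 0) (XT.lf (nat_lit 0) (nat_lit 630094433) (nat_lit 152) (nat_lit 22743915805) (nat_lit 228) (nat_lit 4530943117) (nat_lit 43) (nat_lit 5) (nat_lit 45) (nat_lit 5) (nat_lit 46) (nat_lit 5) (nat_lit 351) (nat_lit 281) (nat_lit 148)) (XT.nd (nat_lit 78) (nat_lit 76) (nat_lit 0) (XT.lf (nat_lit 0) (nat_lit 12080570245) (nat_lit 152) (nat_lit 16180121097) (nat_lit 228) (nat_lit 259372221) (nat_lit 43) (nat_lit 5) (nat_lit 45) (nat_lit 5) (nat_lit 46) (nat_lit 5) (nat_lit 352) (nat_lit 281) (nat_lit 147)) (XT.lf (nat_lit 0) (nat_lit 4051593838) (nat_lit 228) (nat_lit 5331325209) (nat_lit 76) (nat_lit 19769760067) (nat_lit 42) (nat_lit 5) (nat_lit 45) (nat_lit 5) (nat_lit 43) (nat_lit 5) (nat_lit 353) (nat_lit 281) (nat_lit 146))))) (XT.nd (nat_lit 234) (nat_lit 380) (nat_lit 0) (XT.nd (nat_lit 78) (nat_lit 0) (nat_lit 0) (XT.lf (nat_lit 0) (nat_lit 6216734744)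 (nat_lit 228) (nat_lit 2321972976) (nat_lit 304) (nat_lit 21263934454) (nat_lit 39) (nat_lit 5) (nat_lit 42) (nat_lit 5) (nat_lit 43) (nat_lit 5) (nat_lit 354) (nat_lit 281) (nat_lit 145)) (XT.nd (nat_lit 78) (nat_lit 0) (nat_lit 0) (XT.lf (nat_lit 0) (nat_lit 13254735032) (nat_lit 304) (nat_lit 12310259669) (nat_lit 76) (nat_lit 4904287262) (nat_lit 39) (nat_lit 5) (nat_lit 43) (nat_lit 5) (nat_lit 40) (nat_lit 5) (nat_lit 355) (nat_lit 281) (nat_lit 144)) (XT.lf (nat_lit 0) (nat_lit 18127796996) (nat_lit 304) (nat_lit 731148710) (nat_lit 76) (nat_lit 12296515266) (nat_lit 39) (nat_lit 5) (nat_lit 43) (nat_lit 5) (nat_lit 40) (nat_lit 5) (nat_lit 356) (nat_lit 281) (nat_lit 143)))) (XT.nd (nat_lit 78) (nat_lit 228) (nat_lit 0) (XT.lf (nat_lit 0) (nat_lit 11406444151) (nat_lit 152) (nat_lit 11843032970) (nat_lit 228) (nat_lit 8609681887) (nat_lit 37) (nat_lit 5) (nat_lit 39) (nat_lit 5) (nat_lit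 40) (nat_lit 5) (nat_lit 357) (nat_lit 281) (nat_lit 142)) (XT.nd (nat_lit 78) (nat_lit 228) (nat_lit 0) (XT.lf (nat_lit 0) (nat_lit 23911792867) (nat_lit 152) (nat_lit 4613279612) (nat_lit 228) (nat_lit 4058893819) (nat_lit 37) (nat_lit 5) (nat_lit 39) (nat_lit 5) (nat_lit 40) (nat_lit 5) (nat_lit 358) (nat_lit 281) (nat_lit 141)) (XT.lf (nat_lit 0) (nat_lit 670530049) (nat_lit 228) (nat_lit 29844005522) (nat_lit 76) (nat_lit 2814175665) (nat_lit 34) (nat_lit 5) (nat_lit 37) (nat_lit 5) (nat_lit 35) (nat_lit 5) (nat_lit 359) (nat_lit 281) (nat_lit 140)))))) (XT.nd (nat_lit 468) (nat_lit 380) (nat_lit 0) (XT.nd (nat_lit 234) (nat_lit 152) (nat_lit 0) (XT.nd (nat_lit 78) (nat_lit 152) (nat_lit 0) (XT.lf (nat_lit 0) (nat_lit 5587443487) (nat_lit 228) (nat_lit 18007075734) (nat_lit 76) (nat_lit 10496263821) (nat_lit 34) (nat_lit 5) (nat_lit 37) (nat_lit 5) (nat_lit 35) (nat_lit 5) (nat_lit 360) (nat_lit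 281) (nat_lit 139)) (XT.nd (nat_lit 78) (nat_lit 152) (nat_lit 0) (XT.lf (nat_lit 0) (nat_lit 10645137694) (nat_lit 228) (nat_lit 5825947281) (nat_lit 76) (nat_lit 18404839386) (nat_lit 34) (nat_lit 5) (nat_lit 37) (nat_lit 5) (nat_lit 35) (nat_lit 5) (nat_lit 361) (nat_lit 281) (nat_lit 138)) (XT.lf (nat_lit 0) (nat_lit 6843566166) (nat_lit 152) (nat_lit 9070250392) (nat_lit 228) (nat_lit 19769031146) (nat_lit 32) (nat_lit 5) (nat_lit 34) (nat_lit 5) (nat_lit 35) (nat_lit 5) (nat_lit 362) (nat_lit 281) (nat_lit 137)))) (XT.nd (nat_lit 78) (nat_lit 152) (nat_lit 0) (XT.lf (nat_lit 0) (nat_lit 20002103579) (nat_lit 152) (nat_lit 1390841542) (nat_lit 228) (nat_lit 15119467186) (nat_lit 32) (nat_lit 5) (nat_lit 34) (nat_lit 5) (nat_lit 35) (nat_lit 5) (nat_lit 363) (nat_lit 281) (nat_lit 136)) (XT.nd (nat_lit 78) (nat_lit 152) (nat_lit 0) (XT.lf (nat_lit 0) (nat_lit 27092820210) (nat_lit 228) (nat_lit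 3884467982) (nat_lit 76) (nat_lit 6387889565) (nat_lit 32) (nat_lit 5) (nat_lit 35) (nat_lit 5) (nat_lit 33) (nat_lit 5) (nat_lit 364) (nat_lit 281) (nat_lit 135)) (XT.lf (nat_lit 0) (nat_lit 9277376268) (nat_lit 152) (nat_lit 23783157591) (nat_lit 228) (nat_lit 5180091984) (nat_lit 30) (nat_lit 5) (nat_lit 32) (nat_lit 5) (nat_lit 33) (nat_lit 5) (nat_lit 365) (nat_lit 281) (nat_lit 134))))) (XT.nd (nat_lit 234) (nat_lit 152) (nat_lit 0) (XT.nd (nat_lit 78) (nat_lit 152) (nat_lit 0) (XT.lf (nat_lit 0) (nat_lit 97197985) (nat_lit 228) (nat_lit 16238533110) (nat_lit 76) (nat_lit 22805586493) (nat_lit 29) (nat_lit 5) (nat_lit 32) (nat_lit 5) (nat_lit 30) (nat_lit 5) (nat_lit 366) (nat_lit 281) (nat_lit 133)) (XT.nd (nat_lit 78) (nat_lit 152) (nat_lit 0) (XT.lf (nat_lit 0) (nat_lit 5422779119) (nat_lit 228) (nat_lit 3193133585) (nat_lit 76) (nat_lit 31451760646) (nat_lit 29) (nat_lit 5) (nat_lit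 32) (nat_lit 5) (nat_lit 30) (nat_lit 5) (nat_lit 367) (nat_lit 281) (nat_lit 132)) (XT.lf (nat_lit 0) (nat_lit 10437821599) (nat_lit 152) (nat_lit 564900219) (nat_lit 228) (nat_lit 30016264535) (nat_lit 27) (nat_lit 5) (nat_lit 29) (nat_lit 5) (nat_lit 30) (nat_lit 5) (nat_lit 368) (nat_lit 281) (nat_lit 131)))) (XT.nd (nat_lit 78) (nat_lit 152) (nat_lit 0) (XT.lf (nat_lit 0) (nat_lit 16851209734) (nat_lit 228) (nat_lit 17538843093) (nat_lit 76) (nat_lit 7605755770) (nat_lit 27) (nat_lit 5) (nat_lit 30) (nat_lit 5) (nat_lit 28) (nat_lit 5) (nat_lit 369) (nat_lit 281) (nat_lit 130)) (XT.nd (nat_lit 78) (nat_lit 152) (nat_lit 0) (XT.lf (nat_lit 0) (nat_lit 22875211834) (nat_lit 228) (nat_lit 4120098395) (nat_lit 76) (nat_lit 16006627631) (nat_lit 27) (nat_lit 5) (nat_lit 30) (nat_lit 5) (nat_lit 28) (nat_lit 5) (nat_lit 370) (nat_lit 281) (nat_lit 129)) (XT.lf (nat_lit 0) (nat_lit 9885118897) (nat_lit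 152) (nat_lit 19284464555) (nat_lit 228) (nat_lit 14865982082) (nat_lit 25) (nat_lit 5) (nat_lit 27) (nat_lit 5) (nat_lit 28) (nat_lit 5) (nat_lit 371) (nat_lit 281) (nat_lit 128))))))))
noncomputable def xc166 : XT := (XT.nd (nat_lit 33774) (nat_lit 0) (nat_lit 9652) (XT.nd (nat_lit 858) (nat_lit 380) (nat_lit 0) (XT.nd (nat_lit 390) (nat_lit 228) (nat_lit 0) (XT.nd (nat_lit 156) (nat_lit 152) (nat_lit 0) (XT.nd (nat_lit 78) (nat_lit 0) (nat_lit 0) (XT.lf (nat_lit 0) (nat_lit 24386054743) (nat_lit 152) (nat_lit 11303034999) (nat_lit 228) (nat_lit 9410027090) (nat_lit 25) (nat_lit 5) (nat_lit 27) (nat_lit 5) (nat_lit 28) (nat_lit 5) (nat_lit 372) (nat_lit 281) (nat_lit 127)) (XT.lf (nat_lit 0) (nat_lit 39313381829) (nat_lit 152) (nat_lit 3085652411) (nat_lit 228) (nat_lit 3795698627) (nat_lit 25) (nat_lit 5) (nat_lit 27) (nat_lit 5) (nat_lit 28) (nat_lit 5) (nat_lit 373) (nat_lit 281) (nat_lit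 126))) (XT.nd (nat_lit 78) (nat_lit 0) (nat_lit 0) (XT.lf (nat_lit 0) (nat_lit 2067740655) (nat_lit 152) (nat_lit 39889452448) (nat_lit 76) (nat_lit 5361871153) (nat_lit 23) (nat_lit 5) (nat_lit 25) (nat_lit 5) (nat_lit 24) (nat_lit 5) (nat_lit 374) (nat_lit 281) (nat_lit 125)) (XT.nd (nat_lit 78) (nat_lit 0) (nat_lit 0) (XT.lf (nat_lit 0) (nat_lit 8126503740) (nat_lit 152) (nat_lit 26241422852) (nat_lit 76) (nat_lit 14105203712) (nat_lit 23) (nat_lit 5) (nat_lit 25) (nat_lit 5) (nat_lit 24) (nat_lit 5) (nat_lit 375) (nat_lit 281) (nat_lit 124)) (XT.lf (nat_lit 0) (nat_lit 14362159076) (nat_lit 152) (nat_lit 12192230242) (nat_lit 76) (nat_lit 23107578498) (nat_lit 23) (nat_lit 5) (nat_lit 25) (nat_lit 5) (nat_lit 24) (nat_lit 5) (nat_lit 376) (nat_lit 281) (nat_lit 123))))) (XT.nd (nat_lit 234) (nat_lit 76) (nat_lit 0) (XT.nd (nat_lit 78) (nat_lit 0) (nat_lit 0) (XT.lf (nat_lit 0) (nat_lit 2315586812)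 (nat_lit 152) (nat_lit 18486827319) (nat_lit 228) (nat_lit 30083533688) (nat_lit 21) (nat_lit 5) (nat_lit 23) (nat_lit 5) (nat_lit 24) (nat_lit 5) (nat_lit 377) (nat_lit 281) (nat_lit 122)) (XT.nd (nat_lit 78) (nat_lit 0) (nat_lit 0) (XT.lf (nat_lit 0) (nat_lit 17500609167) (nat_lit 152) (nat_lit 10053717748) (nat_lit 228) (nat_lit 24588769976) (nat_lit 21) (nat_lit 5) (nat_lit 23) (nat_lit 5) (nat_lit 24) (nat_lit 5) (nat_lit 378) (nat_lit 281) (nat_lit 121)) (XT.lf (nat_lit 0) (nat_lit 33133455998) (nat_lit 152) (nat_lit 1370809488) (nat_lit 228) (nat_lit 18933833975) (nat_lit 21) (nat_lit 5) (nat_lit 23) (nat_lit 5) (nat_lit 24) (nat_lit 5) (nat_lit 379) (nat_lit 281) (nat_lit 120)))) (XT.nd (nat_lit 78) (nat_lit 76) (nat_lit 0) (XT.lf (nat_lit 0) (nat_lit 41731065124) (nat_lit 228) (nat_lit 5617062527) (nat_lit 76) (nat_lit 7421776561) (nat_lit 21) (nat_lit 5) (nat_lit 24) (nat_lit 5) (nat_lit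 22) (nat_lit 4) (nat_lit 380) (nat_lit 281) (nat_lit 119)) (XT.nd (nat_lit 78) (nat_lit 0) (nat_lit 0) (XT.lf (nat_lit 0) (nat_lit 9679062051) (nat_lit 76) (nat_lit 39597919726) (nat_lit 152) (nat_lit 6861614837) (nat_lit 20) (nat_lit 5) (nat_lit 21) (nat_lit 5) (nat_lit 22) (nat_lit 4) (nat_lit 381) (nat_lit 281) (nat_lit 118)) (XT.lf (nat_lit 0) (nat_lit 25541902263) (nat_lit 76) (nat_lit 31559849539) (nat_lit 152) (nat_lit 445026527) (nat_lit 20) (nat_lit 5) (nat_lit 21) (nat_lit 5) (nat_lit 22) (nat_lit 4) (nat_lit 382) (nat_lit 281) (nat_lit 117)))))) (XT.nd (nat_lit 468) (nat_lit 152) (nat_lit 0) (XT.nd (nat_lit 234) (nat_lit 0) (nat_lit 0) (XT.nd (nat_lit 78) (nat_lit 152) (nat_lit 0) (XT.lf (nat_lit 0) (nat_lit 6039611146) (nat_lit 152) (nat_lit 17183015476) (nat_lit 76) (nat_lit 35772928908) (nat_lit 19) (nat_lit 5) (nat_lit 21) (nat_lit 5) (nat_lit 20) (nat_lit 5) (nat_lit 383) (nat_lit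 281) (nat_lit 116)) (XT.nd (nat_lit 78) (nat_lit 152) (nat_lit 0) (XT.lf (nat_lit 0) (nat_lit 12705799393) (nat_lit 152) (nat_lit 1927880951) (nat_lit 76) (nat_lit 45854107414) (nat_lit 19) (nat_lit 5) (nat_lit 21) (nat_lit 5) (nat_lit 20) (nat_lit 5) (nat_lit 384) (nat_lit 281) (nat_lit 115)) (XT.lf (nat_lit 0) (nat_lit 14052347009) (nat_lit 152) (nat_lit 5650779855) (nat_lit 228) (nat_lit 42317727985) (nat_lit 17) (nat_lit 5) (nat_lit 19) (nat_lit 5) (nat_lit 20) (nat_lit 5) (nat_lit 385) (nat_lit 281) (nat_lit 114)))) (XT.nd (nat_lit 78) (nat_lit 0) (nat_lit 0) (XT.lf (nat_lit 0) (nat_lit 26960752094) (nat_lit 228) (nat_lit 33089439670) (nat_lit 76) (nat_lit 3548213279) (nat_lit 17) (nat_lit 5) (nat_lit 20) (nat_lit 5) (nat_lit 18) (nat_lit 4) (nat_lit 386) (nat_lit 281) (nat_lit 113)) (XT.nd (nat_lit 78) (nat_lit 0) (nat_lit 0) (XT.lf (nat_lit 0) (nat_lit 34488264601) (nat_lit 228) (nat_lit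 17826547406) (nat_lit 76) (nat_lit 12906907342) (nat_lit 17) (nat_lit 5) (nat_lit 20) (nat_lit 5) (nat_lit 18) (nat_lit 4) (nat_lit 387) (nat_lit 281) (nat_lit 112)) (XT.lf (nat_lit 0) (nat_lit 42237923070) (nat_lit 228) (nat_lit 2112175787) (nat_lit 76) (nat_lit 22543746900) (nat_lit 17) (nat_lit 5) (nat_lit 20) (nat_lit 5) (nat_lit 18) (nat_lit 4) (nat_lit 388) (nat_lit 281) (nat_lit 111))))) (XT.nd (nat_lit 234) (nat_lit 76) (nat_lit 0) (XT.nd (nat_lit 78) (nat_lit 0) (nat_lit 0) (XT.lf (nat_lit 0) (nat_lit 14347375156) (nat_lit 76) (nat_lit 36007039637) (nat_lit 152) (nat_lit 18257693082) (nat_lit 16) (nat_lit 5) (nat_lit 17) (nat_lit 5) (nat_lit 18) (nat_lit 4) (nat_lit 389) (nat_lit 281) (nat_lit 110)) (XT.nd (nat_lit 78) (nat_lit 0) (nat_lit 0) (XT.lf (nat_lit 0) (nat_lit 31337850361) (nat_lit 76) (nat_lit 27394352330) (nat_lit 152) (nat_lit 11649183284) (nat_lit 16) (nat_lit 5) (nat_lit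 17) (nat_lit 5) (nat_lit 18) (nat_lit 4) (nat_lit 390) (nat_lit 281) (nat_lit 109)) (XT.lf (nat_lit 0) (nat_lit 48832059432) (nat_lit 76) (nat_lit 18525840122) (nat_lit 152) (nat_lit 4845947699) (nat_lit 16) (nat_lit 5) (nat_lit 17) (nat_lit 5) (nat_lit 18) (nat_lit 4) (nat_lit 391) (nat_lit 281) (nat_lit 108)))) (XT.nd (nat_lit 32058) (nat_lit 0) (nat_lit 14668) (XT.lf (nat_lit 0) (nat_lit 2115848707) (nat_lit 152) (nat_lit 7256539197) (nat_lit 76) (nat_lit 64708073941) (nat_lit 15) (nat_lit 5) (nat_lit 17) (nat_lit 5) (nat_lit 16) (nat_lit 5) (nat_lit 392) (nat_lit 281) (nat_lit 107)) (XT.nd (nat_lit 78) (nat_lit 0) (nat_lit 0) (XT.lf (nat_lit 0) (nat_lit 1809614020) (nat_lit 988) (nat_lit 1233761848) (nat_lit 988) (nat_lit 1233761848) (nat_lit 208) (nat_lit 3) (nat_lit 221) (nat_lit 3) (nat_lit 221) (nat_lit 5) (nat_lit 282) (nat_lit 282) (nat_lit 216)) (XT.lf (nat_lit 76) (nat_lit 1323601176)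 (nat_lit 0) (nat_lit 3304208078) (nat_lit 988) (nat_lit 4024286954) (nat_lit 209) (nat_lit 5) (nat_lit 208) (nat_lit 3) (nat_lit 221) (nat_lit 5) (nat_lit 283) (nat_lit 282) (nat_lit 215))))))) (XT.nd (nat_lit 936) (nat_lit 4180) (nat_lit 0) (XT.nd (nat_lit 468) (nat_lit 0) (nat_lit 76) (XT.nd (nat_lit 234) (nat_lit 836) (nat_lit 0) (XT.nd (nat_lit 78) (nat_lit 0) (nat_lit 76) (XT.lf (nat_lit 76) (nat_lit 5259703250) (nat_lit 0) (nat_lit 394929087) (nat_lit 988) (nat_lit 3098652506) (nat_lit 209) (nat_lit 5) (nat_lit 208) (nat_lit 3) (nat_lit 221) (nat_lit 5) (nat_lit 284) (nat_lit 282) (nat_lit 214)) (XT.nd (nat_lit 78) (nat_lit 0) (nat_lit 0) (XT.lf (nat_lit 76) (nat_lit 419470517) (nat_lit 0) (nat_lit 6286137439) (nat_lit 988) (nat_lit 2152171395) (nat_lit 210) (nat_lit 5) (nat_lit 209) (nat_lit 5) (nat_lit 222) (nat_lit 5) (nat_lit 285) (nat_lit 282) (nat_lit 213)) (XT.lf (nat_lit 76) (nat_lit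 4497652429) (nat_lit 0) (nat_lit 3294766199) (nat_lit 988) (nat_lit 1172929484) (nat_lit 210) (nat_lit 5) (nat_lit 209) (nat_lit 5) (nat_lit 222) (nat_lit 5) (nat_lit 286) (nat_lit 282) (nat_lit 212)))) (XT.nd (nat_lit 78) (nat_lit 912) (nat_lit 0) (XT.lf (nat_lit 76) (nat_lit 8678870332) (nat_lit 0) (nat_lit 199133782) (nat_lit 988) (nat_lit 199221303) (nat_lit 210) (nat_lit 5) (nat_lit 209) (nat_lit 5) (nat_lit 222) (nat_lit 5) (nat_lit 287) (nat_lit 282) (nat_lit 211)) (XT.nd (nat_lit 78) (nat_lit 0) (nat_lit 0) (XT.lf (nat_lit 0) (nat_lit 821012550) (nat_lit 988) (nat_lit 5380672326) (nat_lit 1064) (nat_lit 2989615241) (nat_lit 197) (nat_lit 5) (nat_lit 210) (nat_lit 5) (nat_lit 211) (nat_lit 5) (nat_lit 288) (nat_lit 282) (nat_lit 210)) (XT.lf (nat_lit 0) (nat_lit 1841559766) (nat_lit 988) (nat_lit 1179055647) (nat_lit 1064) (nat_lit 6288972100) (nat_lit 197) (nat_lit 5) (nat_lit 210) (nat_lit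 5) (nat_lit 211) (nat_lit 5) (nat_lit 289) (nat_lit 282) (nat_lit 209))))) (XT.nd (nat_lit 234) (nat_lit 0) (nat_lit 76) (XT.nd (nat_lit 78) (nat_lit 0) (nat_lit 0) (XT.lf (nat_lit 0) (nat_lit 2894889786) (nat_lit 988) (nat_lit 6243346200) (nat_lit 1064) (nat_lit 293181720) (nat_lit 198) (nat_lit 5) (nat_lit 211) (nat_lit 5) (nat_lit 212) (nat_lit 5) (nat_lit 290) (nat_lit 282) (nat_lit 208)) (XT.nd (nat_lit 78) (nat_lit 0) (nat_lit 0) (XT.lf (nat_lit 0) (nat_lit 3991199659) (nat_lit 988) (nat_lit 1896922996) (nat_lit 1064) (nat_lit 3668496196) (nat_lit 198) (nat_lit 5) (nat_lit 211) (nat_lit 5) (nat_lit 212) (nat_lit 5) (nat_lit 291) (nat_lit 282) (nat_lit 207)) (XT.lf (nat_lit 76) (nat_lit 2610706738) (nat_lit 0) (nat_lit 2505126477) (nat_lit 1064) (nat_lit 4569935555) (nat_lit 199) (nat_lit 5) (nat_lit 198) (nat_lit 5) (nat_lit 212) (nat_lit 5) (nat_lit 292) (nat_lit 282) (nat_lit 206)))) (XT.nd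 (nat_lit 78) (nat_lit 0) (nat_lit 0) (XT.lf (nat_lit 0) (nat_lit 6274062882) (nat_lit 988) (nat_lit 2556315930) (nat_lit 1064) (nat_lit 988472809) (nat_lit 199) (nat_lit 5) (nat_lit 212) (nat_lit 5) (nat_lit 213) (nat_lit 5) (nat_lit 293) (nat_lit 282) (nat_lit 205)) (XT.nd (nat_lit 78) (nat_lit 0) (nat_lit 0) (XT.lf (nat_lit 76) (nat_lit 2093711221) (nat_lit 0) (nat_lit 5390197327) (nat_lit 1064) (nat_lit 2471564906) (nat_lit 200) (nat_lit 5) (nat_lit 199) (nat_lit 5) (nat_lit 213) (nat_lit 5) (nat_lit 294) (nat_lit 282) (nat_lit 204)) (XT.lf (nat_lit 76) (nat_lit 6915506561) (nat_lit 0) (nat_lit 1812920387) (nat_lit 1064) (nat_lit 1367866712) (nat_lit 200) (nat_lit 5) (nat_lit 199) (nat_lit 5) (nat_lit 213) (nat_lit 5) (nat_lit 295) (nat_lit 282) (nat_lit 203)))))) (XT.nd (nat_lit 468) (nat_lit 2356) (nat_lit 0) (XT.nd (nat_lit 234) (nat_lit 988) (nat_lit 0) (XT.nd (nat_lit 78) (nat_lit 1064)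 (nat_lit 0) (XT.lf (nat_lit 76) (nat_lit 1634046776) (nat_lit 0) (nat_lit 8383364114) (nat_lit 1064) (nat_lit 223763233) (nat_lit 201) (nat_lit 5) (nat_lit 200) (nat_lit 5) (nat_lit 214) (nat_lit 5) (nat_lit 296) (nat_lit 282) (nat_lit 202)) (XT.nd (nat_lit 78) (nat_lit 0) (nat_lit 0) (XT.lf (nat_lit 0) (nat_lit 960127282) (nat_lit 1064) (nat_lit 3779187610) (nat_lit 1140) (nat_lit 5650134728) (nat_lit 186) (nat_lit 5) (nat_lit 200) (nat_lit 5) (nat_lit 201) (nat_lit 5) (nat_lit 297) (nat_lit 282) (nat_lit 201)) (XT.lf (nat_lit 76) (nat_lit 1194455443) (nat_lit 0) (nat_lit 966534765) (nat_lit 1140) (nat_lit 8381583462) (nat_lit 187) (nat_lit 5) (nat_lit 186) (nat_lit 5) (nat_lit 201) (nat_lit 5) (nat_lit 298) (nat_lit 282) (nat_lit 200)))) (XT.nd (nat_lit 78) (nat_lit 1064) (nat_lit 0) (XT.lf (nat_lit 0) (nat_lit 3439552458) (nat_lit 1064) (nat_lit 4353680465) (nat_lit 76) (nat_lit 2905852343)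 (nat_lit 187) (nat_lit 5) (nat_lit 201) (nat_lit 5) (nat_lit 188) (nat_lit 5) (nat_lit 299) (nat_lit 282) (nat_lit 199)) (XT.nd (nat_lit 78) (nat_lit 0) (nat_lit 0) (XT.lf (nat_lit 0) (nat_lit 775899091) (nat_lit 1064) (nat_lit 3973396539) (nat_lit 1140) (nat_lit 6111254601) (nat_lit 173) (nat_lit 5) (nat_lit 187) (nat_lit 5) (nat_lit 188) (nat_lit 5) (nat_lit 300) (nat_lit 282) (nat_lit 198)) (XT.lf (nat_lit 0) (nat_lit 6118698436) (nat_lit 1140) (nat_lit 4897839508) (nat_lit 76) (nat_lit 9751681) (nat_lit 173) (nat_lit 5) (nat_lit 188) (nat_lit 5) (nat_lit 174) (nat_lit 5) (nat_lit 301) (nat_lit 282) (nat_lit 197))))) (XT.nd (nat_lit 234) (nat_lit 684) (nat_lit 0) (XT.nd (nat_lit 78) (nat_lit 532) (nat_lit 0) (XT.lf (nat_lit 0) (nat_lit 392654564) (nat_lit 1140) (nat_lit 7156675770) (nat_lit 1216) (nat_lit 3647106747) (nat_lit 158) (nat_lit 5) (nat_lit 173) (nat_lit 5) (nat_lit 174) (nat_lit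 5) (nat_lit 302) (nat_lit 282) (nat_lit 196)) (XT.nd (nat_lit 78) (nat_lit 532) (nat_lit 0) (XT.lf (nat_lit 0) (nat_lit 5922219377) (nat_lit 1140) (nat_lit 3127628686) (nat_lit 1216) (nat_lit 2321071007) (nat_lit 158) (nat_lit 5) (nat_lit 173) (nat_lit 5) (nat_lit 174) (nat_lit 5) (nat_lit 303) (nat_lit 282) (nat_lit 195)) (XT.lf (nat_lit 0) (nat_lit 37768676) (nat_lit 532) (nat_lit 10545988810) (nat_lit 608) (nat_lit 967264726) (nat_lit 151) (nat_lit 5) (nat_lit 158) (nat_lit 5) (nat_lit 159) (nat_lit 5) (nat_lit 304) (nat_lit 282) (nat_lit 194)))) (XT.nd (nat_lit 78) (nat_lit 608) (nat_lit 0) (XT.lf (nat_lit 0) (nat_lit 483734753) (nat_lit 608) (nat_lit 5990416474) (nat_lit 76) (nat_lit 5260342407) (nat_lit 150) (nat_lit 5) (nat_lit 158) (nat_lit 5) (nat_lit 151) (nat_lit 5) (nat_lit 305) (nat_lit 282) (nat_lit 193)) (XT.nd (nat_lit 78) (nat_lit 608) (nat_lit 0) (XT.lf (nat_lit 0) (nat_lit 1937834601)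 (nat_lit 608) (nat_lit 331320975) (nat_lit 76) (nat_lit 9654690726) (nat_lit 150) (nat_lit 5) (nat_lit 158) (nat_lit 5) (nat_lit 151) (nat_lit 5) (nat_lit 306) (nat_lit 282) (nat_lit 192)) (XT.lf (nat_lit 0) (nat_lit 3489252299) (nat_lit 684) (nat_lit 6550972692) (nat_lit 76) (nat_lit 2077077457) (nat_lit 142) (nat_lit 5) (nat_lit 151) (nat_lit 5) (nat_lit 143) (nat_lit 5) (nat_lit 307) (nat_lit 282) (nat_lit 191))))))))
noncomputable def xc167 : XT := (XT.nd (nat_lit 1872) (nat_lit 3040) (nat_lit 0) (XT.nd (nat_lit 936) (nat_lit 1900) (nat_lit 0) (XT.nd (nat_lit 468) (nat_lit 1292) (nat_lit 0) (XT.nd (nat_lit 234) (nat_lit 1064) (nat_lit 0) (XT.nd (nat_lit 78) (nat_lit 532) (nat_lit 0) (XT.lf (nat_lit 0) (nat_lit 5093099575) (nat_lit 684) (nat_lit 710983142) (nat_lit 76) (nat_lit 6512335710) (nat_lit 142) (nat_lit 5) (nat_lit 151) (nat_lit 5) (nat_lit 143) (nat_lit 5) (nat_lit 308) (nat_lit 282)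 (nat_lit 190)) (XT.nd (nat_lit 78) (nat_lit 0) (nat_lit 0) (XT.lf (nat_lit 0) (nat_lit 5390240570) (nat_lit 532) (nat_lit 1387258652) (nat_lit 608) (nat_lit 5743067361) (nat_lit 135) (nat_lit 5) (nat_lit 142) (nat_lit 5) (nat_lit 143) (nat_lit 5) (nat_lit 309) (nat_lit 282) (nat_lit 189)) (XT.lf (nat_lit 0) (nat_lit 8531082351) (nat_lit 608) (nat_lit 1091577049) (nat_lit 76) (nat_lit 3107651117) (nat_lit 135) (nat_lit 5) (nat_lit 143) (nat_lit 5) (nat_lit 136) (nat_lit 5) (nat_lit 310) (nat_lit 282) (nat_lit 188)))) (XT.nd (nat_lit 78) (nat_lit 532) (nat_lit 0) (XT.lf (nat_lit 0) (nat_lit 5197019616) (nat_lit 532) (nat_lit 5185503891) (nat_lit 608) (nat_lit 2562495726) (nat_lit 128) (nat_lit 5) (nat_lit 135) (nat_lit 5) (nat_lit 136) (nat_lit 5) (nat_lit 311) (nat_lit 282) (nat_lit 187)) (XT.nd (nat_lit 78) (nat_lit 532) (nat_lit 0) (XT.lf (nat_lit 0) (nat_lit 11677844533) (nat_lit 532) (nat_lit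 604600882) (nat_lit 608) (nat_lit 883964776) (nat_lit 128) (nat_lit 5) (nat_lit 135) (nat_lit 5) (nat_lit 136) (nat_lit 5) (nat_lit 312) (nat_lit 282) (nat_lit 186)) (XT.lf (nat_lit 0) (nat_lit 899120803) (nat_lit 532) (nat_lit 8403358644) (nat_lit 76) (nat_lit 4089626626) (nat_lit 121) (nat_lit 5) (nat_lit 128) (nat_lit 5) (nat_lit 122) (nat_lit 5) (nat_lit 313) (nat_lit 282) (nat_lit 185))))) (XT.nd (nat_lit 234) (nat_lit 836) (nat_lit 0) (XT.nd (nat_lit 78) (nat_lit 456) (nat_lit 0) (XT.lf (nat_lit 0) (nat_lit 2721668544) (nat_lit 532) (nat_lit 1967110542) (nat_lit 76) (nat_lit 8935445725) (nat_lit 121) (nat_lit 5) (nat_lit 128) (nat_lit 5) (nat_lit 122) (nat_lit 5) (nat_lit 314) (nat_lit 282) (nat_lit 184)) (XT.nd (nat_lit 78) (nat_lit 0) (nat_lit 0) (XT.lf (nat_lit 0) (nat_lit 4628542457) (nat_lit 532) (nat_lit 9127316725) (nat_lit 76) (nat_lit 106584297) (nat_lit 115) (nat_lit 5) (nat_lit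 122) (nat_lit 5) (nat_lit 116) (nat_lit 5) (nat_lit 315) (nat_lit 282) (nat_lit 183)) (XT.lf (nat_lit 0) (nat_lit 6642485716) (nat_lit 532) (nat_lit 2493846877) (nat_lit 76) (nat_lit 4970005329) (nat_lit 115) (nat_lit 5) (nat_lit 122) (nat_lit 5) (nat_lit 116) (nat_lit 5) (nat_lit 316) (nat_lit 282) (nat_lit 182)))) (XT.nd (nat_lit 78) (nat_lit 456) (nat_lit 0) (XT.lf (nat_lit 0) (nat_lit 4406389392) (nat_lit 380) (nat_lit 4336677839) (nat_lit 456) (nat_lit 5613719745) (nat_lit 110) (nat_lit 5) (nat_lit 115) (nat_lit 5) (nat_lit 116) (nat_lit 5) (nat_lit 317) (nat_lit 282) (nat_lit 181)) (XT.nd (nat_lit 78) (nat_lit 456) (nat_lit 0) (XT.lf (nat_lit 0) (nat_lit 10922071459) (nat_lit 456) (nat_lit 3073844969) (nat_lit 76) (nat_lit 618394581) (nat_lit 110) (nat_lit 5) (nat_lit 116) (nat_lit 5) (nat_lit 111) (nat_lit 5) (nat_lit 318) (nat_lit 282) (nat_lit 180)) (XT.lf (nat_lit 0) (nat_lit 4026659653)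 (nat_lit 456) (nat_lit 9206030700) (nat_lit 532) (nat_lit 1644906051) (nat_lit 104) (nat_lit 5) (nat_lit 110) (nat_lit 5) (nat_lit 111) (nat_lit 5) (nat_lit 319) (nat_lit 282) (nat_lit 179)))))) (XT.nd (nat_lit 468) (nat_lit 760) (nat_lit 0) (XT.nd (nat_lit 234) (nat_lit 684) (nat_lit 0) (XT.nd (nat_lit 78) (nat_lit 380) (nat_lit 0) (XT.lf (nat_lit 0) (nat_lit 470849447) (nat_lit 532) (nat_lit 3767556596) (nat_lit 76) (nat_lit 10909780614) (nat_lit 103) (nat_lit 5) (nat_lit 110) (nat_lit 5) (nat_lit 104) (nat_lit 5) (nat_lit 320) (nat_lit 282) (nat_lit 178)) (XT.nd (nat_lit 78) (nat_lit 0) (nat_lit 0) (XT.lf (nat_lit 0) (nat_lit 2645343662) (nat_lit 456) (nat_lit 11870779508) (nat_lit 76) (nat_lit 909454077) (nat_lit 98) (nat_lit 5) (nat_lit 104) (nat_lit 5) (nat_lit 99) (nat_lit 5) (nat_lit 321) (nat_lit 282) (nat_lit 177)) (XT.lf (nat_lit 0) (nat_lit 4950847933) (nat_lit 456) (nat_lit 4596296786)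 (nat_lit 76) (nat_lit 6162191993) (nat_lit 98) (nat_lit 5) (nat_lit 104) (nat_lit 5) (nat_lit 99) (nat_lit 5) (nat_lit 322) (nat_lit 282) (nat_lit 176)))) (XT.nd (nat_lit 78) (nat_lit 304) (nat_lit 0) (XT.lf (nat_lit 0) (nat_lit 2936378572) (nat_lit 380) (nat_lit 4403179781) (nat_lit 456) (nat_lit 8661649198) (nat_lit 93) (nat_lit 5) (nat_lit 98) (nat_lit 5) (nat_lit 99) (nat_lit 5) (nat_lit 323) (nat_lit 282) (nat_lit 175)) (XT.nd (nat_lit 78) (nat_lit 304) (nat_lit 0) (XT.lf (nat_lit 0) (nat_lit 9841439270) (nat_lit 456) (nat_lit 5537829592) (nat_lit 76) (nat_lit 921339620) (nat_lit 93) (nat_lit 5) (nat_lit 99) (nat_lit 5) (nat_lit 94) (nat_lit 5) (nat_lit 324) (nat_lit 282) (nat_lit 174)) (XT.lf (nat_lit 0) (nat_lit 2197193636) (nat_lit 304) (nat_lit 10272338198) (nat_lit 380) (nat_lit 4137943634) (nat_lit 89) (nat_lit 5) (nat_lit 93) (nat_lit 5) (nat_lit 94) (nat_lit 5) (nat_lit 325) (nat_lit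 282) (nat_lit 173))))) (XT.nd (nat_lit 234) (nat_lit 304) (nat_lit 0) (XT.nd (nat_lit 78) (nat_lit 456) (nat_lit 0) (XT.lf (nat_lit 0) (nat_lit 10260889486) (nat_lit 304) (nat_lit 4958170078) (nat_lit 380) (nat_lit 1703229266) (nat_lit 89) (nat_lit 5) (nat_lit 93) (nat_lit 5) (nat_lit 94) (nat_lit 5) (nat_lit 326) (nat_lit 282) (nat_lit 172)) (XT.nd (nat_lit 78) (nat_lit 0) (nat_lit 0) (XT.lf (nat_lit 0) (nat_lit 793564922) (nat_lit 456) (nat_lit 15930149384) (nat_lit 76) (nat_lit 522475248) (nat_lit 83) (nat_lit 5) (nat_lit 89) (nat_lit 5) (nat_lit 84) (nat_lit 5) (nat_lit 327) (nat_lit 282) (nat_lit 171)) (XT.lf (nat_lit 0) (nat_lit 3435154784) (nat_lit 456) (nat_lit 7991942027) (nat_lit 76) (nat_lit 6149097425) (nat_lit 83) (nat_lit 5) (nat_lit 89) (nat_lit 5) (nat_lit 84) (nat_lit 5) (nat_lit 328) (nat_lit 282) (nat_lit 170)))) (XT.nd (nat_lit 78) (nat_lit 0) (nat_lit 0) (XT.lf (nat_lit 0)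 (nat_lit 171359956) (nat_lit 304) (nat_lit 5973756490) (nat_lit 380) (nat_lit 11771325005) (nat_lit 79) (nat_lit 5) (nat_lit 83) (nat_lit 5) (nat_lit 84) (nat_lit 5) (nat_lit 329) (nat_lit 282) (nat_lit 169)) (XT.nd (nat_lit 78) (nat_lit 0) (nat_lit 0) (XT.lf (nat_lit 0) (nat_lit 8727153272) (nat_lit 304) (nat_lit 277612212) (nat_lit 380) (nat_lit 9260094591) (nat_lit 79) (nat_lit 5) (nat_lit 83) (nat_lit 5) (nat_lit 84) (nat_lit 5) (nat_lit 330) (nat_lit 282) (nat_lit 168)) (XT.lf (nat_lit 0) (nat_lit 11991940549) (nat_lit 380) (nat_lit 1153938883) (nat_lit 76) (nat_lit 5476614917) (nat_lit 79) (nat_lit 5) (nat_lit 84) (nat_lit 5) (nat_lit 80) (nat_lit 5) (nat_lit 331) (nat_lit 282) (nat_lit 167))))))) (XT.nd (nat_lit 936) (nat_lit 1216) (nat_lit 0) (XT.nd (nat_lit 468) (nat_lit 836) (nat_lit 0) (XT.nd (nat_lit 234) (nat_lit 304) (nat_lit 0) (XT.nd (nat_lit 78) (nat_lit 380) (nat_lit 0) (XT.lf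 (nat_lit 0) (nat_lit 7611490820) (nat_lit 304) (nat_lit 7521511946) (nat_lit 380) (nat_lit 3855941479) (nat_lit 75) (nat_lit 5) (nat_lit 79) (nat_lit 5) (nat_lit 80) (nat_lit 5) (nat_lit 332) (nat_lit 282) (nat_lit 166)) (XT.nd (nat_lit 78) (nat_lit 380) (nat_lit 0) (XT.lf (nat_lit 0) (nat_lit 16648061050) (nat_lit 304) (nat_lit 1720435620) (nat_lit 380) (nat_lit 997899290) (nat_lit 75) (nat_lit 5) (nat_lit 79) (nat_lit 5) (nat_lit 80) (nat_lit 5) (nat_lit 333) (nat_lit 282) (nat_lit 165)) (XT.lf (nat_lit 0) (nat_lit 1998770513) (nat_lit 380) (nat_lit 13505474917) (nat_lit 76) (nat_lit 4247652416) (nat_lit 70) (nat_lit 5) (nat_lit 75) (nat_lit 5) (nat_lit 71) (nat_lit 5) (nat_lit 334) (nat_lit 282) (nat_lit 164)))) (XT.nd (nat_lit 78) (nat_lit 304) (nat_lit 0) (XT.lf (nat_lit 0) (nat_lit 5098939644) (nat_lit 380) (nat_lit 4654900342) (nat_lit 76) (nat_lit 10393831819) (nat_lit 70) (nat_lit 5)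 (nat_lit 75) (nat_lit 5) (nat_lit 71) (nat_lit 5) (nat_lit 335) (nat_lit 282) (nat_lit 163)) (XT.nd (nat_lit 78) (nat_lit 0) (nat_lit 0) (XT.lf (nat_lit 0) (nat_lit 4534709334) (nat_lit 304) (nat_lit 3790218576) (nat_lit 380) (nat_lit 12229419373) (nat_lit 66) (nat_lit 5) (nat_lit 70) (nat_lit 5) (nat_lit 71) (nat_lit 5) (nat_lit 336) (nat_lit 282) (nat_lit 162)) (XT.lf (nat_lit 0) (nat_lit 11707132933) (nat_lit 380) (nat_lit 6914575750) (nat_lit 76) (nat_lit 2349743581) (nat_lit 66) (nat_lit 5) (nat_lit 71) (nat_lit 5) (nat_lit 67) (nat_lit 5) (nat_lit 337) (nat_lit 282) (nat_lit 161))))) (XT.nd (nat_lit 234) (nat_lit 228) (nat_lit 0) (XT.nd (nat_lit 78) (nat_lit 380) (nat_lit 0) (XT.lf (nat_lit 0) (nat_lit 2459430126) (nat_lit 228) (nat_lit 12782206992) (nat_lit 304) (nat_lit 6157920278) (nat_lit 63) (nat_lit 5) (nat_lit 66) (nat_lit 5) (nat_lit 67) (nat_lit 5) (nat_lit 338) (nat_lit 282) (nat_lit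 160)) (XT.nd (nat_lit 78) (nat_lit 380) (nat_lit 0) (XT.lf (nat_lit 0) (nat_lit 12241868448) (nat_lit 228) (nat_lit 6699957549) (nat_lit 304) (nat_lit 2896901839) (nat_lit 63) (nat_lit 5) (nat_lit 66) (nat_lit 5) (nat_lit 67) (nat_lit 5) (nat_lit 339) (nat_lit 282) (nat_lit 159)) (XT.lf (nat_lit 0) (nat_lit 8107940) (nat_lit 304) (nat_lit 434916260) (nat_lit 380) (nat_lit 21848224209) (nat_lit 58) (nat_lit 5) (nat_lit 62) (nat_lit 5) (nat_lit 63) (nat_lit 5) (nat_lit 340) (nat_lit 282) (nat_lit 158)))) (XT.nd (nat_lit 78) (nat_lit 228) (nat_lit 0) (XT.lf (nat_lit 0) (nat_lit 3970767768) (nat_lit 380) (nat_lit 12758417734) (nat_lit 76) (nat_lit 6022933948) (nat_lit 58) (nat_lit 5) (nat_lit 63) (nat_lit 5) (nat_lit 59) (nat_lit 5) (nat_lit 341) (nat_lit 282) (nat_lit 157)) (XT.nd (nat_lit 78) (nat_lit 228) (nat_lit 0) (XT.lf (nat_lit 0) (nat_lit 7599063541) (nat_lit 380) (nat_lit 2966278630) (nat_lit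 76) (nat_lit 12661643198) (nat_lit 58) (nat_lit 5) (nat_lit 63) (nat_lit 5) (nat_lit 59) (nat_lit 5) (nat_lit 342) (nat_lit 282) (nat_lit 156)) (XT.lf (nat_lit 0) (nat_lit 7247437367) (nat_lit 228) (nat_lit 4149130629) (nat_lit 304) (nat_lit 12317728518) (nat_lit 55) (nat_lit 5) (nat_lit 58) (nat_lit 5) (nat_lit 59) (nat_lit 5) (nat_lit 343) (nat_lit 282) (nat_lit 155)))))) (XT.nd (nat_lit 468) (nat_lit 684) (nat_lit 0) (XT.nd (nat_lit 234) (nat_lit 304) (nat_lit 0) (XT.nd (nat_lit 78) (nat_lit 228) (nat_lit 0) (XT.lf (nat_lit 0) (nat_lit 15352683701) (nat_lit 304) (nat_lit 6424617883) (nat_lit 76) (nat_lit 2437594577) (nat_lit 55) (nat_lit 5) (nat_lit 59) (nat_lit 5) (nat_lit 56) (nat_lit 5) (nat_lit 344) (nat_lit 282) (nat_lit 154)) (XT.nd (nat_lit 78) (nat_lit 0) (nat_lit 0) (XT.lf (nat_lit 0) (nat_lit 3941399949) (nat_lit 228) (nat_lit 15556111821) (nat_lit 304) (nat_lit 5230910626) (nat_lit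 52) (nat_lit 5) (nat_lit 55) (nat_lit 5) (nat_lit 56) (nat_lit 5) (nat_lit 345) (nat_lit 282) (nat_lit 153)) (XT.lf (nat_lit 0) (nat_lit 14736906205) (nat_lit 228) (nat_lit 9085849321) (nat_lit 304) (nat_lit 1432925957) (nat_lit 52) (nat_lit 5) (nat_lit 55) (nat_lit 5) (nat_lit 56) (nat_lit 5) (nat_lit 346) (nat_lit 282) (nat_lit 152)))) (XT.nd (nat_lit 78) (nat_lit 0) (nat_lit 0) (XT.lf (nat_lit 0) (nat_lit 21114732) (nat_lit 228) (nat_lit 2401070176) (nat_lit 304) (nat_lit 23376120383) (nat_lit 48) (nat_lit 5) (nat_lit 51) (nat_lit 5) (nat_lit 52) (nat_lit 5) (nat_lit 347) (nat_lit 282) (nat_lit 151)) (XT.nd (nat_lit 78) (nat_lit 0) (nat_lit 0) (XT.lf (nat_lit 0) (nat_lit 6505968962) (nat_lit 304) (nat_lit 15332621340) (nat_lit 76) (nat_lit 4513945692) (nat_lit 48) (nat_lit 5) (nat_lit 52) (nat_lit 5) (nat_lit 49) (nat_lit 5) (nat_lit 348) (nat_lit 282) (nat_lit 150)) (XT.lf (nat_lit 0) (nat_lit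 10727732907) (nat_lit 304) (nat_lit 4611188681) (nat_lit 76) (nat_lit 11584016206) (nat_lit 48) (nat_lit 5) (nat_lit 52) (nat_lit 5) (nat_lit 49) (nat_lit 5) (nat_lit 349) (nat_lit 282) (nat_lit 149))))) (XT.nd (nat_lit 234) (nat_lit 304) (nat_lit 0) (XT.nd (nat_lit 78) (nat_lit 152) (nat_lit 0) (XT.lf (nat_lit 0) (nat_lit 6547317970) (nat_lit 228) (nat_lit 8583703963) (nat_lit 304) (nat_lit 12377791477) (nat_lit 45) (nat_lit 5) (nat_lit 48) (nat_lit 5) (nat_lit 49) (nat_lit 5) (nat_lit 350) (nat_lit 282) (nat_lit 148)) (XT.nd (nat_lit 78) (nat_lit 152) (nat_lit 0) (XT.lf (nat_lit 0) (nat_lit 18122894816) (nat_lit 228) (nat_lit 1582131641) (nat_lit 304) (nat_lit 8406088031) (nat_lit 45) (nat_lit 5) (nat_lit 48) (nat_lit 5) (nat_lit 49) (nat_lit 5) (nat_lit 351) (nat_lit 282) (nat_lit 147)) (XT.lf (nat_lit 0) (nat_lit 1272926277) (nat_lit 152) (nat_lit 23201919616) (nat_lit 228) (nat_lit 4254888334)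 (nat_lit 43) (nat_lit 5) (nat_lit 45) (nat_lit 5) (nat_lit 46) (nat_lit 5) (nat_lit 352) (nat_lit 282) (nat_lit 146)))) (XT.nd (nat_lit 78) (nat_lit 228) (nat_lit 0) (XT.lf (nat_lit 0) (nat_lit 130238186) (nat_lit 228) (nat_lit 16316191137) (nat_lit 76) (nat_lit 12917190336) (nat_lit 42) (nat_lit 5) (nat_lit 45) (nat_lit 5) (nat_lit 43) (nat_lit 5) (nat_lit 353) (nat_lit 282) (nat_lit 145)) (XT.nd (nat_lit 78) (nat_lit 228) (nat_lit 0) (XT.lf (nat_lit 0) (nat_lit 4553897430) (nat_lit 228) (nat_lit 4895227160) (nat_lit 76) (nat_lit 20566365138) (nat_lit 42) (nat_lit 5) (nat_lit 45) (nat_lit 5) (nat_lit 43) (nat_lit 5) (nat_lit 354) (nat_lit 282) (nat_lit 144)) (XT.lf (nat_lit 0) (nat_lit 6993431083) (nat_lit 228) (nat_lit 2176776980) (nat_lit 304) (nat_lit 21514916227) (nat_lit 39) (nat_lit 5) (nat_lit 42) (nat_lit 5) (nat_lit 43) (nat_lit 5) (nat_lit 355) (nat_lit 282) (nat_lit 143))))))))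
noncomputable def xc168 : XT := (XT.nd (nat_lit 1794) (nat_lit 380) (nat_lit 0) (XT.nd (nat_lit 858) (nat_lit 684) (nat_lit 0) (XT.nd (nat_lit 390) (nat_lit 304) (nat_lit 0) (XT.nd (nat_lit 156) (nat_lit 380) (nat_lit 0) (XT.nd (nat_lit 78) (nat_lit 0) (nat_lit 0) (XT.lf (nat_lit 0) (nat_lit 14018789152) (nat_lit 304) (nat_lit 12097309083) (nat_lit 76) (nat_lit 5255942664) (nat_lit 39) (nat_lit 5) (nat_lit 43) (nat_lit 5) (nat_lit 40) (nat_lit 5) (nat_lit 356) (nat_lit 282) (nat_lit 142)) (XT.lf (nat_lit 0) (nat_lit 19027370778) (nat_lit 304) (nat_lit 187783777) (nat_lit 76) (nat_lit 12863980417) (nat_lit 39) (nat_lit 5) (nat_lit 43) (nat_lit 5) (nat_lit 40) (nat_lit 5) (nat_lit 357) (nat_lit 282) (nat_lit 141))) (XT.nd (nat_lit 78) (nat_lit 228) (nat_lit 0) (XT.lf (nat_lit 0) (nat_lit 12308394718) (nat_lit 152) (nat_lit 11989325962) (nat_lit 228) (nat_lit 8506381939) (nat_lit 37) (nat_lit 5)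 (nat_lit 39) (nat_lit 5) (nat_lit 40) (nat_lit 5) (nat_lit 358) (nat_lit 282) (nat_lit 140)) (XT.nd (nat_lit 78) (nat_lit 228) (nat_lit 0) (XT.lf (nat_lit 0) (nat_lit 25172600287) (nat_lit 152) (nat_lit 4548767323) (nat_lit 228) (nat_lit 3829601989) (nat_lit 37) (nat_lit 5) (nat_lit 39) (nat_lit 5) (nat_lit 40) (nat_lit 5) (nat_lit 359) (nat_lit 282) (nat_lit 139)) (XT.lf (nat_lit 0) (nat_lit 1032047478) (nat_lit 228) (nat_lit 30185642045) (nat_lit 76) (nat_lit 3100358793) (nat_lit 34) (nat_lit 5) (nat_lit 37) (nat_lit 5) (nat_lit 35) (nat_lit 5) (nat_lit 360) (nat_lit 282) (nat_lit 138))))) (XT.nd (nat_lit 234) (nat_lit 152) (nat_lit 0) (XT.nd (nat_lit 78) (nat_lit 152) (nat_lit 0) (XT.lf (nat_lit 0) (nat_lit 6086524585) (nat_lit 228) (nat_lit 18009731072) (nat_lit 76) (nat_lit 11007033151) (nat_lit 34) (nat_lit 5) (nat_lit 37) (nat_lit 5) (nat_lit 35) (nat_lit 5) (nat_lit 361) (nat_lit 282)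 (nat_lit 137)) (XT.nd (nat_lit 78) (nat_lit 152) (nat_lit 0) (XT.lf (nat_lit 0) (nat_lit 11286295507) (nat_lit 228) (nat_lit 5478825763) (nat_lit 76) (nat_lit 19147160699) (nat_lit 34) (nat_lit 5) (nat_lit 37) (nat_lit 5) (nat_lit 35) (nat_lit 5) (nat_lit 362) (nat_lit 282) (nat_lit 136)) (XT.lf (nat_lit 0) (nat_lit 7565656421) (nat_lit 152) (nat_lit 9142973030) (nat_lit 228) (nat_lit 20034923467) (nat_lit 32) (nat_lit 5) (nat_lit 34) (nat_lit 5) (nat_lit 35) (nat_lit 5) (nat_lit 363) (nat_lit 282) (nat_lit 135)))) (XT.nd (nat_lit 78) (nat_lit 152) (nat_lit 0) (XT.lf (nat_lit 0) (nat_lit 21103898017) (nat_lit 152) (nat_lit 1238989241) (nat_lit 228) (nat_lit 15255402063) (nat_lit 32) (nat_lit 5) (nat_lit 34) (nat_lit 5) (nat_lit 35) (nat_lit 5) (nat_lit 364) (nat_lit 282) (nat_lit 134)) (XT.nd (nat_lit 78) (nat_lit 152) (nat_lit 0) (XT.lf (nat_lit 0) (nat_lit 28206589835) (nat_lit 228) (nat_lit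 3506472021) (nat_lit 76) (nat_lit 6763798244) (nat_lit 32) (nat_lit 5) (nat_lit 35) (nat_lit 5) (nat_lit 33) (nat_lit 5) (nat_lit 365) (nat_lit 282) (nat_lit 133)) (XT.lf (nat_lit 0) (nat_lit 10045379223) (nat_lit 152) (nat_lit 24303896236) (nat_lit 228) (nat_lit 5029425043) (nat_lit 30) (nat_lit 5) (nat_lit 32) (nat_lit 5) (nat_lit 33) (nat_lit 5) (nat_lit 366) (nat_lit 282) (nat_lit 132)))))) (XT.nd (nat_lit 468) (nat_lit 304) (nat_lit 0) (XT.nd (nat_lit 234) (nat_lit 152) (nat_lit 0) (XT.nd (nat_lit 78) (nat_lit 152) (nat_lit 0) (XT.lf (nat_lit 0) (nat_lit 391470408) (nat_lit 228) (nat_lit 16244248663) (nat_lit 76) (nat_lit 23670874570) (nat_lit 29) (nat_lit 5) (nat_lit 32) (nat_lit 5) (nat_lit 30) (nat_lit 5) (nat_lit 367) (nat_lit 282) (nat_lit 131)) (XT.nd (nat_lit 78) (nat_lit 152) (nat_lit 0) (XT.lf (nat_lit 0) (nat_lit 5868332865) (nat_lit 228) (nat_lit 2821509689) (nat_lit 76) (nat_lit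 32571158593) (nat_lit 29) (nat_lit 5) (nat_lit 32) (nat_lit 5) (nat_lit 30) (nat_lit 5) (nat_lit 368) (nat_lit 282) (nat_lit 130)) (XT.lf (nat_lit 0) (nat_lit 11213791621) (nat_lit 152) (nat_lit 398092337) (nat_lit 228) (nat_lit 30629089578) (nat_lit 27) (nat_lit 5) (nat_lit 29) (nat_lit 5) (nat_lit 30) (nat_lit 5) (nat_lit 369) (nat_lit 282) (nat_lit 129)))) (XT.nd (nat_lit 78) (nat_lit 152) (nat_lit 0) (XT.lf (nat_lit 0) (nat_lit 17629412871) (nat_lit 228) (nat_lit 17609036136) (nat_lit 76) (nat_lit 8008849966) (nat_lit 27) (nat_lit 5) (nat_lit 30) (nat_lit 5) (nat_lit 28) (nat_lit 5) (nat_lit 370) (nat_lit 282) (nat_lit 128)) (XT.nd (nat_lit 78) (nat_lit 152) (nat_lit 0) (XT.lf (nat_lit 0) (nat_lit 23826193281) (nat_lit 228) (nat_lit 3801009842) (nat_lit 76) (nat_lit 16656653181) (nat_lit 27) (nat_lit 5) (nat_lit 30) (nat_lit 5) (nat_lit 28) (nat_lit 5) (nat_lit 371) (nat_lit 282) (nat_lit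 127)) (XT.lf (nat_lit 0) (nat_lit 10620023855) (nat_lit 152) (nat_lit 19685875455) (nat_lit 228) (nat_lit 15042704167) (nat_lit 25) (nat_lit 5) (nat_lit 27) (nat_lit 5) (nat_lit 28) (nat_lit 5) (nat_lit 372) (nat_lit 282) (nat_lit 126))))) (XT.nd (nat_lit 234) (nat_lit 152) (nat_lit 0) (XT.nd (nat_lit 78) (nat_lit 152) (nat_lit 0) (XT.lf (nat_lit 0) (nat_lit 25543220261) (nat_lit 152) (nat_lit 11470161935) (nat_lit 228) (nat_lit 9430912973) (nat_lit 25) (nat_lit 5) (nat_lit 27) (nat_lit 5) (nat_lit 28) (nat_lit 5) (nat_lit 373) (nat_lit 282) (nat_lit 125)) (XT.nd (nat_lit 78) (nat_lit 152) (nat_lit 0) (XT.lf (nat_lit 0) (nat_lit 40905971512) (nat_lit 152) (nat_lit 3011266533) (nat_lit 228) (nat_lit 3655768683) (nat_lit 25) (nat_lit 5) (nat_lit 27) (nat_lit 5) (nat_lit 28) (nat_lit 5) (nat_lit 374) (nat_lit 282) (nat_lit 124)) (XT.lf (nat_lit 0) (nat_lit 2376975900) (nat_lit 152) (nat_lit 40666003306)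 (nat_lit 76) (nat_lit 5688070144) (nat_lit 23) (nat_lit 5) (nat_lit 25) (nat_lit 5) (nat_lit 24) (nat_lit 5) (nat_lit 375) (nat_lit 282) (nat_lit 123)))) (XT.nd (nat_lit 78) (nat_lit 152) (nat_lit 0) (XT.lf (nat_lit 0) (nat_lit 8610301789) (nat_lit 152) (nat_lit 26620769697) (nat_lit 76) (nat_lit 14688886869) (nat_lit 23) (nat_lit 5) (nat_lit 25) (nat_lit 5) (nat_lit 24) (nat_lit 5) (nat_lit 376) (nat_lit 282) (nat_lit 122)) (XT.nd (nat_lit 78) (nat_lit 152) (nat_lit 0) (XT.lf (nat_lit 0) (nat_lit 15026036408) (nat_lit 152) (nat_lit 12161981771) (nat_lit 76) (nat_lit 23956657353) (nat_lit 23) (nat_lit 5) (nat_lit 25) (nat_lit 5) (nat_lit 24) (nat_lit 5) (nat_lit 377) (nat_lit 282) (nat_lit 121)) (XT.lf (nat_lit 0) (nat_lit 2777187291) (nat_lit 152) (nat_lit 18879294471) (nat_lit 228) (nat_lit 30748988381) (nat_lit 21) (nat_lit 5) (nat_lit 23) (nat_lit 5) (nat_lit 24) (nat_lit 5) (nat_lit 378)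 (nat_lit 282) (nat_lit 120))))))) (XT.nd (nat_lit 936) (nat_lit 0) (nat_lit 0) (XT.nd (nat_lit 468) (nat_lit 228) (nat_lit 0) (XT.nd (nat_lit 234) (nat_lit 152) (nat_lit 0) (XT.nd (nat_lit 78) (nat_lit 0) (nat_lit 0) (XT.lf (nat_lit 0) (nat_lit 18406338971) (nat_lit 152) (nat_lit 10197914070) (nat_lit 228) (nat_lit 25096286165) (nat_lit 21) (nat_lit 5) (nat_lit 23) (nat_lit 5) (nat_lit 24) (nat_lit 5) (nat_lit 379) (nat_lit 282) (nat_lit 119)) (XT.nd (nat_lit 78) (nat_lit 0) (nat_lit 0) (XT.lf (nat_lit 0) (nat_lit 34497082522) (nat_lit 152) (nat_lit 1259103471) (nat_lit 228) (nat_lit 19278405392) (nat_lit 21) (nat_lit 5) (nat_lit 23) (nat_lit 5) (nat_lit 24) (nat_lit 5) (nat_lit 380) (nat_lit 282) (nat_lit 118)) (XT.lf (nat_lit 0) (nat_lit 43194901582) (nat_lit 228) (nat_lit 5421686241) (nat_lit 76) (nat_lit 7789913384) (nat_lit 21) (nat_lit 5) (nat_lit 24) (nat_lit 5) (nat_lit 22) (nat_lit 4)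 (nat_lit 381) (nat_lit 282) (nat_lit 117)))) (XT.nd (nat_lit 78) (nat_lit 76) (nat_lit 0) (XT.lf (nat_lit 0) (nat_lit 10329754543) (nat_lit 76) (nat_lit 40634732839) (nat_lit 152) (nat_lit 6851852416) (nat_lit 20) (nat_lit 5) (nat_lit 21) (nat_lit 5) (nat_lit 22) (nat_lit 4) (nat_lit 382) (nat_lit 282) (nat_lit 116)) (XT.nd (nat_lit 78) (nat_lit 76) (nat_lit 0) (XT.lf (nat_lit 0) (nat_lit 26657985185) (nat_lit 76) (nat_lit 32359922230) (nat_lit 152) (nat_lit 249046386) (nat_lit 20) (nat_lit 5) (nat_lit 21) (nat_lit 5) (nat_lit 22) (nat_lit 4) (nat_lit 383) (nat_lit 282) (nat_lit 115)) (XT.lf (nat_lit 0) (nat_lit 6420067574) (nat_lit 152) (nat_lit 17354776314) (nat_lit 76) (nat_lit 36984473216) (nat_lit 19) (nat_lit 5) (nat_lit 21) (nat_lit 5) (nat_lit 20) (nat_lit 5) (nat_lit 384) (nat_lit 282) (nat_lit 114))))) (XT.nd (nat_lit 234) (nat_lit 76) (nat_lit 0) (XT.nd (nat_lit 78) (nat_lit 152) (nat_lit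 0) (XT.lf (nat_lit 0) (nat_lit 13280437544) (nat_lit 152) (nat_lit 1651999296) (nat_lit 76) (nat_lit 47364057278) (nat_lit 19) (nat_lit 5) (nat_lit 21) (nat_lit 5) (nat_lit 20) (nat_lit 5) (nat_lit 385) (nat_lit 282) (nat_lit 113)) (XT.nd (nat_lit 78) (nat_lit 0) (nat_lit 0) (XT.lf (nat_lit 0) (nat_lit 14804363757) (nat_lit 152) (nat_lit 5680862655) (nat_lit 228) (nat_lit 43390404154) (nat_lit 17) (nat_lit 5) (nat_lit 19) (nat_lit 5) (nat_lit 20) (nat_lit 5) (nat_lit 386) (nat_lit 282) (nat_lit 112)) (XT.lf (nat_lit 0) (nat_lit 27956318474) (nat_lit 228) (nat_lit 33756922979) (nat_lit 76) (nat_lit 3787397161) (nat_lit 17) (nat_lit 5) (nat_lit 20) (nat_lit 5) (nat_lit 18) (nat_lit 4) (nat_lit 387) (nat_lit 282) (nat_lit 111)))) (XT.nd (nat_lit 78) (nat_lit 76) (nat_lit 0) (XT.lf (nat_lit 0) (nat_lit 35704217215) (nat_lit 228) (nat_lit 18045615788) (nat_lit 76) (nat_lit 13422985905) (nat_lit 17)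 (nat_lit 5) (nat_lit 20) (nat_lit 5) (nat_lit 18) (nat_lit 4) (nat_lit 388) (nat_lit 282) (nat_lit 110)) (XT.nd (nat_lit 78) (nat_lit 76) (nat_lit 0) (XT.lf (nat_lit 0) (nat_lit 43681084719) (nat_lit 228) (nat_lit 1869008983) (nat_lit 76) (nat_lit 23345177115) (nat_lit 17) (nat_lit 5) (nat_lit 20) (nat_lit 5) (nat_lit 18) (nat_lit 4) (nat_lit 389) (nat_lit 282) (nat_lit 109)) (XT.lf (nat_lit 0) (nat_lit 15081323272) (nat_lit 76) (nat_lit 36957538696) (nat_lit 152) (nat_lit 18626288300) (nat_lit 16) (nat_lit 5) (nat_lit 17) (nat_lit 5) (nat_lit 18) (nat_lit 4) (nat_lit 390) (nat_lit 282) (nat_lit 108)))))) (XT.nd (nat_lit 32526) (nat_lit 0) (nat_lit 13680) (XT.nd (nat_lit 32292) (nat_lit 0) (nat_lit 14592) (XT.nd (nat_lit 78) (nat_lit 0) (nat_lit 0) (XT.lf (nat_lit 0) (nat_lit 32572672145) (nat_lit 76) (nat_lit 28090248794) (nat_lit 152) (nat_lit 11824740748) (nat_lit 16) (nat_lit 5) (nat_lit 17)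 (nat_lit 5) (nat_lit 18) (nat_lit 4) (nat_lit 391) (nat_lit 282) (nat_lit 107)) (XT.nd (nat_lit 32136) (nat_lit 0) (nat_lit 14592) (XT.lf (nat_lit 0) (nat_lit 50583124393) (nat_lit 76) (nat_lit 18959349203) (nat_lit 152) (nat_lit 4822473670) (nat_lit 16) (nat_lit 5) (nat_lit 17) (nat_lit 5) (nat_lit 18) (nat_lit 4) (nat_lit 392) (nat_lit 282) (nat_lit 106)) (XT.lf (nat_lit 0) (nat_lit 2796421027) (nat_lit 988) (nat_lit 789604307) (nat_lit 988) (nat_lit 789604307) (nat_lit 208) (nat_lit 3) (nat_lit 221) (nat_lit 3) (nat_lit 221) (nat_lit 5) (nat_lit 283) (nat_lit 283) (nat_lit 214)))) (XT.nd (nat_lit 78) (nat_lit 0) (nat_lit 0) (XT.lf (nat_lit 76) (nat_lit 2316215290) (nat_lit 0) (nat_lit 4270303859) (nat_lit 988) (nat_lit 2266957951) (nat_lit 209) (nat_lit 5) (nat_lit 208) (nat_lit 3) (nat_lit 221) (nat_lit 5) (nat_lit 284) (nat_lit 283) (nat_lit 213)) (XT.nd (nat_lit 78) (nat_lit 0) (nat_lit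 76) (XT.lf (nat_lit 76) (nat_lit 6342645880) (nat_lit 0) (nat_lit 1248494958) (nat_lit 988) (nat_lit 1368255177) (nat_lit 209) (nat_lit 5) (nat_lit 208) (nat_lit 3) (nat_lit 221) (nat_lit 5) (nat_lit 285) (nat_lit 283) (nat_lit 212)) (XT.lf (nat_lit 76) (nat_lit 1412081411) (nat_lit 0) (nat_lit 7211667268) (nat_lit 988) (nat_lit 444874988) (nat_lit 210) (nat_lit 5) (nat_lit 209) (nat_lit 5) (nat_lit 222) (nat_lit 5) (nat_lit 286) (nat_lit 283) (nat_lit 211))))) (XT.nd (nat_lit 234) (nat_lit 0) (nat_lit 76) (XT.nd (nat_lit 78) (nat_lit 0) (nat_lit 0) (XT.lf (nat_lit 0) (nat_lit 502142932) (nat_lit 988) (nat_lit 3601876861) (nat_lit 1064) (nat_lit 5076850720) (nat_lit 196) (nat_lit 5) (nat_lit 209) (nat_lit 5) (nat_lit 210) (nat_lit 5) (nat_lit 287) (nat_lit 283) (nat_lit 210)) (XT.nd (nat_lit 78) (nat_lit 0) (nat_lit 76) (XT.lf (nat_lit 76) (nat_lit 562088054) (nat_lit 0) (nat_lit 879680104) (nat_lit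 1064) (nat_lit 7855451259) (nat_lit 197) (nat_lit 5) (nat_lit 196) (nat_lit 5) (nat_lit 210) (nat_lit 5) (nat_lit 288) (nat_lit 283) (nat_lit 209)) (XT.lf (nat_lit 0) (nat_lit 2438400191) (nat_lit 988) (nat_lit 4534835013) (nat_lit 1064) (nat_lit 2443018211) (nat_lit 197) (nat_lit 5) (nat_lit 210) (nat_lit 5) (nat_lit 211) (nat_lit 5) (nat_lit 289) (nat_lit 283) (nat_lit 208)))) (XT.nd (nat_lit 78) (nat_lit 0) (nat_lit 0) (XT.lf (nat_lit 0) (nat_lit 3443172834) (nat_lit 988) (nat_lit 236507430) (nat_lit 1064) (nat_lit 5859888362) (nat_lit 197) (nat_lit 5) (nat_lit 210) (nat_lit 5) (nat_lit 211) (nat_lit 5) (nat_lit 290) (nat_lit 283) (nat_lit 207)) (XT.nd (nat_lit 78) (nat_lit 0) (nat_lit 76) (XT.lf (nat_lit 76) (nat_lit 4255095466) (nat_lit 0) (nat_lit 234315138) (nat_lit 1064) (nat_lit 5176888806) (nat_lit 198) (nat_lit 5) (nat_lit 197) (nat_lit 5) (nat_lit 211) (nat_lit 5) (nat_lit 291) (nat_lit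 283) (nat_lit 206)) (XT.lf (nat_lit 0) (nat_lit 5572510158) (nat_lit 988) (nat_lit 961893771) (nat_lit 1064) (nat_lit 3262318093) (nat_lit 198) (nat_lit 5) (nat_lit 211) (nat_lit 5) (nat_lit 212) (nat_lit 5) (nat_lit 292) (nat_lit 283) (nat_lit 205))))))))
noncomputable def xc169 : XT := (XT.nd (nat_lit 1794) (nat_lit 4408) (nat_lit 0) (XT.nd (nat_lit 858) (nat_lit 2812) (nat_lit 0) (XT.nd (nat_lit 390) (nat_lit 2128) (nat_lit 0) (XT.nd (nat_lit 156) (nat_lit 912) (nat_lit 0) (XT.nd (nat_lit 78) (nat_lit 0) (nat_lit 76) (XT.lf (nat_lit 76) (nat_lit 3671239984) (nat_lit 0) (nat_lit 3026514228) (nat_lit 1064) (nat_lit 3233066125) (nat_lit 199) (nat_lit 5) (nat_lit 198) (nat_lit 5) (nat_lit 212) (nat_lit 5) (nat_lit 293) (nat_lit 283) (nat_lit 204)) (XT.lf (nat_lit 0) (nat_lit 7844961008) (nat_lit 988) (nat_lit 1631041317) (nat_lit 1064) (nat_lit 593344154) (nat_lit 199) (nat_lit 5) (nat_lit 212)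 (nat_lit 5) (nat_lit 213) (nat_lit 5) (nat_lit 294) (nat_lit 283) (nat_lit 203))) (XT.nd (nat_lit 78) (nat_lit 988) (nat_lit 0) (XT.lf (nat_lit 76) (nat_lit 3148663471) (nat_lit 0) (nat_lit 5911703514) (nat_lit 1064) (nat_lit 1150697481) (nat_lit 200) (nat_lit 5) (nat_lit 199) (nat_lit 5) (nat_lit 213) (nat_lit 5) (nat_lit 295) (nat_lit 283) (nat_lit 202)) (XT.nd (nat_lit 78) (nat_lit 988) (nat_lit 0) (XT.lf (nat_lit 76) (nat_lit 8086215364) (nat_lit 0) (nat_lit 2216628646) (nat_lit 1064) (nat_lit 54519827) (nat_lit 200) (nat_lit 5) (nat_lit 199) (nat_lit 5) (nat_lit 213) (nat_lit 5) (nat_lit 296) (nat_lit 283) (nat_lit 201)) (XT.lf (nat_lit 0) (nat_lit 1069698206) (nat_lit 1064) (nat_lit 7836503989) (nat_lit 1140) (nat_lit 1601101769) (nat_lit 186) (nat_lit 5) (nat_lit 200) (nat_lit 5) (nat_lit 201) (nat_lit 5) (nat_lit 297) (nat_lit 283) (nat_lit 200))))) (XT.nd (nat_lit 234) (nat_lit 2128)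 (nat_lit 0) (XT.nd (nat_lit 78) (nat_lit 0) (nat_lit 0) (XT.lf (nat_lit 0) (nat_lit 2246869855) (nat_lit 1064) (nat_lit 2895843140) (nat_lit 1140) (nat_lit 5518447446) (nat_lit 186) (nat_lit 5) (nat_lit 200) (nat_lit 5) (nat_lit 201) (nat_lit 5) (nat_lit 298) (nat_lit 283) (nat_lit 199)) (XT.nd (nat_lit 78) (nat_lit 0) (nat_lit 76) (XT.lf (nat_lit 76) (nat_lit 2217237440) (nat_lit 0) (nat_lit 1239369388) (nat_lit 1140) (nat_lit 7363151022) (nat_lit 187) (nat_lit 5) (nat_lit 186) (nat_lit 5) (nat_lit 201) (nat_lit 5) (nat_lit 299) (nat_lit 283) (nat_lit 198)) (XT.lf (nat_lit 0) (nat_lit 4735402126) (nat_lit 1064) (nat_lit 3485858559) (nat_lit 76) (nat_lit 2760911010) (nat_lit 187) (nat_lit 5) (nat_lit 201) (nat_lit 5) (nat_lit 188) (nat_lit 5) (nat_lit 300) (nat_lit 283) (nat_lit 197)))) (XT.nd (nat_lit 78) (nat_lit 1140) (nat_lit 0) (XT.lf (nat_lit 0) (nat_lit 1787819831) (nat_lit 1064) (nat_lit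 4271383452) (nat_lit 1140) (nat_lit 5090095703) (nat_lit 173) (nat_lit 5) (nat_lit 187) (nat_lit 5) (nat_lit 188) (nat_lit 5) (nat_lit 301) (nat_lit 283) (nat_lit 196)) (XT.nd (nat_lit 78) (nat_lit 1140) (nat_lit 0) (XT.lf (nat_lit 0) (nat_lit 7272253366) (nat_lit 1064) (nat_lit 163333553) (nat_lit 1140) (nat_lit 3885506239) (nat_lit 173) (nat_lit 5) (nat_lit 187) (nat_lit 5) (nat_lit 188) (nat_lit 5) (nat_lit 302) (nat_lit 283) (nat_lit 195)) (XT.lf (nat_lit 0) (nat_lit 1392159702) (nat_lit 1140) (nat_lit 7491938822) (nat_lit 1216) (nat_lit 2613055516) (nat_lit 158) (nat_lit 5) (nat_lit 173) (nat_lit 5) (nat_lit 174) (nat_lit 5) (nat_lit 303) (nat_lit 283) (nat_lit 194)))))) (XT.nd (nat_lit 468) (nat_lit 1064) (nat_lit 0) (XT.nd (nat_lit 234) (nat_lit 1140) (nat_lit 0) (XT.nd (nat_lit 78) (nat_lit 608) (nat_lit 0) (XT.lf (nat_lit 0) (nat_lit 7058842756) (nat_lit 1140) (nat_lit 3338508788) (nat_lit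 1216) (nat_lit 1280543494) (nat_lit 158) (nat_lit 5) (nat_lit 173) (nat_lit 5) (nat_lit 174) (nat_lit 5) (nat_lit 304) (nat_lit 283) (nat_lit 193)) (XT.nd (nat_lit 78) (nat_lit 0) (nat_lit 0) (XT.lf (nat_lit 0) (nat_lit 88405014) (nat_lit 608) (nat_lit 10841623646) (nat_lit 76) (nat_lit 934090187) (nat_lit 150) (nat_lit 5) (nat_lit 158) (nat_lit 5) (nat_lit 151) (nat_lit 5) (nat_lit 305) (nat_lit 283) (nat_lit 192)) (XT.lf (nat_lit 0) (nat_lit 1532466815) (nat_lit 608) (nat_lit 5192021571) (nat_lit 76) (nat_lit 5329300893) (nat_lit 150) (nat_lit 5) (nat_lit 158) (nat_lit 5) (nat_lit 151) (nat_lit 5) (nat_lit 306) (nat_lit 283) (nat_lit 191)))) (XT.nd (nat_lit 78) (nat_lit 532) (nat_lit 0) (XT.lf (nat_lit 0) (nat_lit 620465747) (nat_lit 608) (nat_lit 2385565294) (nat_lit 684) (nat_lit 9243566126) (nat_lit 142) (nat_lit 5) (nat_lit 150) (nat_lit 5) (nat_lit 151) (nat_lit 5) (nat_lit 307) (nat_lit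 283) (nat_lit 190)) (XT.nd (nat_lit 78) (nat_lit 532) (nat_lit 0) (XT.lf (nat_lit 0) (nat_lit 4577401319) (nat_lit 684) (nat_lit 5775643132) (nat_lit 76) (nat_lit 2096658673) (nat_lit 142) (nat_lit 5) (nat_lit 151) (nat_lit 5) (nat_lit 143) (nat_lit 5) (nat_lit 308) (nat_lit 283) (nat_lit 189)) (XT.lf (nat_lit 0) (nat_lit 215443620) (nat_lit 532) (nat_lit 5987346570) (nat_lit 608) (nat_lit 6452846625) (nat_lit 135) (nat_lit 5) (nat_lit 142) (nat_lit 5) (nat_lit 143) (nat_lit 5) (nat_lit 309) (nat_lit 283) (nat_lit 188))))) (XT.nd (nat_lit 234) (nat_lit 532) (nat_lit 0) (XT.nd (nat_lit 78) (nat_lit 532) (nat_lit 0) (XT.lf (nat_lit 0) (nat_lit 6486249452) (nat_lit 532) (nat_lit 1430571992) (nat_lit 608) (nat_lit 4949760629) (nat_lit 135) (nat_lit 5) (nat_lit 142) (nat_lit 5) (nat_lit 143) (nat_lit 5) (nat_lit 310) (nat_lit 283) (nat_lit 187)) (XT.nd (nat_lit 78) (nat_lit 532) (nat_lit 0) (XT.lf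 (nat_lit 0) (nat_lit 9695734187) (nat_lit 608) (nat_lit 188480214) (nat_lit 76) (nat_lit 3199266578) (nat_lit 135) (nat_lit 5) (nat_lit 143) (nat_lit 5) (nat_lit 136) (nat_lit 5) (nat_lit 311) (nat_lit 283) (nat_lit 186)) (XT.lf (nat_lit 0) (nat_lit 6279599407) (nat_lit 532) (nat_lit 5305559327) (nat_lit 608) (nat_lit 1720042045) (nat_lit 128) (nat_lit 5) (nat_lit 135) (nat_lit 5) (nat_lit 136) (nat_lit 5) (nat_lit 312) (nat_lit 283) (nat_lit 185)))) (XT.nd (nat_lit 78) (nat_lit 532) (nat_lit 0) (XT.lf (nat_lit 0) (nat_lit 12927858707) (nat_lit 532) (nat_lit 588263491) (nat_lit 608) (nat_lit 17931727) (nat_lit 128) (nat_lit 5) (nat_lit 135) (nat_lit 5) (nat_lit 136) (nat_lit 5) (nat_lit 313) (nat_lit 283) (nat_lit 184)) (XT.nd (nat_lit 78) (nat_lit 0) (nat_lit 0) (XT.lf (nat_lit 0) (nat_lit 1784973045) (nat_lit 532) (nat_lit 7719442741) (nat_lit 76) (nat_lit 4262374574) (nat_lit 121) (nat_lit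 5) (nat_lit 128) (nat_lit 5) (nat_lit 122) (nat_lit 5) (nat_lit 314) (nat_lit 283) (nat_lit 183)) (XT.lf (nat_lit 0) (nat_lit 3637181336) (nat_lit 532) (nat_lit 1117369817) (nat_lit 76) (nat_lit 9252110212) (nat_lit 121) (nat_lit 5) (nat_lit 128) (nat_lit 5) (nat_lit 122) (nat_lit 5) (nat_lit 315) (nat_lit 283) (nat_lit 182))))))) (XT.nd (nat_lit 936) (nat_lit 1976) (nat_lit 0) (XT.nd (nat_lit 468) (nat_lit 1064) (nat_lit 0) (XT.nd (nat_lit 234) (nat_lit 532) (nat_lit 0) (XT.nd (nat_lit 78) (nat_lit 380) (nat_lit 0) (XT.lf (nat_lit 0) (nat_lit 5586408635) (nat_lit 532) (nat_lit 8476292163) (nat_lit 76) (nat_lit 189808496) (nat_lit 115) (nat_lit 5) (nat_lit 122) (nat_lit 5) (nat_lit 116) (nat_lit 5) (nat_lit 316) (nat_lit 283) (nat_lit 181)) (XT.nd (nat_lit 78) (nat_lit 380) (nat_lit 0) (XT.lf (nat_lit 0) (nat_lit 7636915534) (nat_lit 532) (nat_lit 1670755425) (nat_lit 76) (nat_lit 5196801286)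 (nat_lit 115) (nat_lit 5) (nat_lit 122) (nat_lit 5) (nat_lit 116) (nat_lit 5) (nat_lit 317) (nat_lit 283) (nat_lit 180)) (XT.lf (nat_lit 0) (nat_lit 5427684923) (nat_lit 380) (nat_lit 4358216320) (nat_lit 456) (nat_lit 4977006910) (nat_lit 110) (nat_lit 5) (nat_lit 115) (nat_lit 5) (nat_lit 116) (nat_lit 5) (nat_lit 318) (nat_lit 283) (nat_lit 179)))) (XT.nd (nat_lit 78) (nat_lit 532) (nat_lit 0) (XT.lf (nat_lit 0) (nat_lit 12008554533) (nat_lit 456) (nat_lit 2279999427) (nat_lit 76) (nat_lit 740289546) (nat_lit 110) (nat_lit 5) (nat_lit 116) (nat_lit 5) (nat_lit 111) (nat_lit 5) (nat_lit 319) (nat_lit 283) (nat_lit 178)) (XT.nd (nat_lit 78) (nat_lit 76) (nat_lit 0) (XT.lf (nat_lit 0) (nat_lit 5024833463) (nat_lit 456) (nat_lit 9349990807) (nat_lit 532) (nat_lit 925646202) (nat_lit 104) (nat_lit 5) (nat_lit 110) (nat_lit 5) (nat_lit 111) (nat_lit 5) (nat_lit 320) (nat_lit 283) (nat_lit 177)) (XT.lf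 (nat_lit 0) (nat_lit 1216633900) (nat_lit 532) (nat_lit 3013166280) (nat_lit 76) (nat_lit 11349846178) (nat_lit 103) (nat_lit 5) (nat_lit 110) (nat_lit 5) (nat_lit 104) (nat_lit 5) (nat_lit 321) (nat_lit 283) (nat_lit 176))))) (XT.nd (nat_lit 234) (nat_lit 304) (nat_lit 0) (XT.nd (nat_lit 78) (nat_lit 380) (nat_lit 0) (XT.lf (nat_lit 0) (nat_lit 3444657609) (nat_lit 456) (nat_lit 11346774597) (nat_lit 76) (nat_lit 1074307798) (nat_lit 98) (nat_lit 5) (nat_lit 104) (nat_lit 5) (nat_lit 99) (nat_lit 5) (nat_lit 322) (nat_lit 283) (nat_lit 175)) (XT.nd (nat_lit 78) (nat_lit 380) (nat_lit 0) (XT.lf (nat_lit 0) (nat_lit 5798357485) (nat_lit 456) (nat_lit 3879692198) (nat_lit 76) (nat_lit 6480620956) (nat_lit 98) (nat_lit 5) (nat_lit 104) (nat_lit 5) (nat_lit 99) (nat_lit 5) (nat_lit 323) (nat_lit 283) (nat_lit 174)) (XT.lf (nat_lit 0) (nat_lit 3870586033) (nat_lit 380) (nat_lit 4375917809) (nat_lit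 456) (nat_lit 8213188968) (nat_lit 93) (nat_lit 5) (nat_lit 98) (nat_lit 5) (nat_lit 99) (nat_lit 5) (nat_lit 324) (nat_lit 283) (nat_lit 173)))) (XT.nd (nat_lit 78) (nat_lit 304) (nat_lit 0) (XT.lf (nat_lit 0) (nat_lit 10804925730) (nat_lit 456) (nat_lit 4863056490) (nat_lit 76) (nat_lit 1100676633) (nat_lit 93) (nat_lit 5) (nat_lit 99) (nat_lit 5) (nat_lit 94) (nat_lit 5) (nat_lit 325) (nat_lit 283) (nat_lit 172)) (XT.nd (nat_lit 78) (nat_lit 0) (nat_lit 0) (XT.lf (nat_lit 0) (nat_lit 3095773239) (nat_lit 304) (nat_lit 10404628508) (nat_lit 380) (nat_lit 3584700692) (nat_lit 89) (nat_lit 5) (nat_lit 93) (nat_lit 5) (nat_lit 94) (nat_lit 5) (nat_lit 326) (nat_lit 283) (nat_lit 171)) (XT.lf (nat_lit 0) (nat_lit 11377127622) (nat_lit 304) (nat_lit 4936158058) (nat_lit 380) (nat_lit 1096674444) (nat_lit 89) (nat_lit 5) (nat_lit 93) (nat_lit 5) (nat_lit 94) (nat_lit 5) (nat_lit 327) (nat_lit 283)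 (nat_lit 170)))))) (XT.nd (nat_lit 468) (nat_lit 912) (nat_lit 0) (XT.nd (nat_lit 234) (nat_lit 304) (nat_lit 0) (XT.nd (nat_lit 78) (nat_lit 304) (nat_lit 0) (XT.lf (nat_lit 0) (nat_lit 1452966079) (nat_lit 456) (nat_lit 15575924528) (nat_lit 76) (nat_lit 714798878) (nat_lit 83) (nat_lit 5) (nat_lit 89) (nat_lit 5) (nat_lit 84) (nat_lit 5) (nat_lit 328) (nat_lit 283) (nat_lit 169)) (XT.nd (nat_lit 78) (nat_lit 304) (nat_lit 0) (XT.lf (nat_lit 0) (nat_lit 4155291184) (nat_lit 456) (nat_lit 7423807727) (nat_lit 76) (nat_lit 6505074593) (nat_lit 83) (nat_lit 5) (nat_lit 89) (nat_lit 5) (nat_lit 84) (nat_lit 5) (nat_lit 329) (nat_lit 283) (nat_lit 168)) (XT.lf (nat_lit 0) (nat_lit 976472801) (nat_lit 304) (nat_lit 5959795462) (nat_lit 380) (nat_lit 11498691507) (nat_lit 79) (nat_lit 5) (nat_lit 83) (nat_lit 5) (nat_lit 84) (nat_lit 5) (nat_lit 330) (nat_lit 283) (nat_lit 167)))) (XT.nd (nat_lit 78)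 (nat_lit 304) (nat_lit 0) (XT.lf (nat_lit 0) (nat_lit 9765639759) (nat_lit 304) (nat_lit 98393274) (nat_lit 380) (nat_lit 8930350585) (nat_lit 79) (nat_lit 5) (nat_lit 83) (nat_lit 5) (nat_lit 84) (nat_lit 5) (nat_lit 331) (nat_lit 283) (nat_lit 166)) (XT.nd (nat_lit 78) (nat_lit 304) (nat_lit 0) (XT.lf (nat_lit 0) (nat_lit 12925414692) (nat_lit 380) (nat_lit 418371294) (nat_lit 76) (nat_lit 5819444996) (nat_lit 79) (nat_lit 5) (nat_lit 84) (nat_lit 5) (nat_lit 80) (nat_lit 5) (nat_lit 332) (nat_lit 283) (nat_lit 165)) (XT.lf (nat_lit 0) (nat_lit 8602470459) (nat_lit 304) (nat_lit 7548859056) (nat_lit 380) (nat_lit 3389647403) (nat_lit 75) (nat_lit 5) (nat_lit 79) (nat_lit 5) (nat_lit 80) (nat_lit 5) (nat_lit 333) (nat_lit 283) (nat_lit 164))))) (XT.nd (nat_lit 234) (nat_lit 532) (nat_lit 0) (XT.nd (nat_lit 78) (nat_lit 380) (nat_lit 0) (XT.lf (nat_lit 0) (nat_lit 17887925129) (nat_lit 304) (nat_lit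 1579526118) (nat_lit 380) (nat_lit 462814598) (nat_lit 75) (nat_lit 5) (nat_lit 79) (nat_lit 5) (nat_lit 80) (nat_lit 5) (nat_lit 334) (nat_lit 283) (nat_lit 163)) (XT.nd (nat_lit 78) (nat_lit 0) (nat_lit 0) (XT.lf (nat_lit 0) (nat_lit 2605672604) (nat_lit 380) (nat_lit 13150823490) (nat_lit 76) (nat_lit 4570904837) (nat_lit 70) (nat_lit 5) (nat_lit 75) (nat_lit 5) (nat_lit 71) (nat_lit 5) (nat_lit 335) (nat_lit 283) (nat_lit 162)) (XT.lf (nat_lit 0) (nat_lit 5782916547) (nat_lit 380) (nat_lit 4056862232) (nat_lit 76) (nat_lit 10895766044) (nat_lit 70) (nat_lit 5) (nat_lit 75) (nat_lit 5) (nat_lit 71) (nat_lit 5) (nat_lit 336) (nat_lit 283) (nat_lit 161)))) (XT.nd (nat_lit 78) (nat_lit 228) (nat_lit 0) (XT.lf (nat_lit 0) (nat_lit 5401203527) (nat_lit 304) (nat_lit 3696036221) (nat_lit 380) (nat_lit 12057452417) (nat_lit 66) (nat_lit 5) (nat_lit 70) (nat_lit 5) (nat_lit 71) (nat_lit 5) (nat_lit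 337) (nat_lit 283) (nat_lit 160)) (XT.nd (nat_lit 78) (nat_lit 228) (nat_lit 0) (XT.lf (nat_lit 0) (nat_lit 12567630763) (nat_lit 380) (nat_lit 6398964387) (nat_lit 76) (nat_lit 2618131278) (nat_lit 66) (nat_lit 5) (nat_lit 71) (nat_lit 5) (nat_lit 67) (nat_lit 5) (nat_lit 338) (nat_lit 283) (nat_lit 159)) (XT.lf (nat_lit 0) (nat_lit 3249172953) (nat_lit 228) (nat_lit 12951045855) (nat_lit 304) (nat_lit 5825711654) (nat_lit 63) (nat_lit 5) (nat_lit 66) (nat_lit 5) (nat_lit 67) (nat_lit 5) (nat_lit 339) (nat_lit 283) (nat_lit 158))))))))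
noncomputable def xc170 : XT := (XT.nd (nat_lit 1794) (nat_lit 1140) (nat_lit 0) (XT.nd (nat_lit 858) (nat_lit 1064) (nat_lit 0) (XT.nd (nat_lit 390) (nat_lit 532) (nat_lit 0) (XT.nd (nat_lit 156) (nat_lit 228) (nat_lit 0) (XT.nd (nat_lit 78) (nat_lit 380) (nat_lit 0) (XT.lf (nat_lit 0) (nat_lit 13304231223) (nat_lit 228) (nat_lit 6692580211) (nat_lit 304) (nat_lit 2481919348) (nat_lit 63) (nat_lit 5) (nat_lit 66) (nat_lit 5) (nat_lit 67) (nat_lit 5) (nat_lit 340) (nat_lit 283) (nat_lit 157)) (XT.lf (nat_lit 0) (nat_lit 706876230) (nat_lit 304) (nat_lit 233916330) (nat_lit 380) (nat_lit 22004133975) (nat_lit 58) (nat_lit 5) (nat_lit 62) (nat_lit 5) (nat_lit 63) (nat_lit 5) (nat_lit 341) (nat_lit 283) (nat_lit 156))) (XT.nd (nat_lit 78) (nat_lit 228) (nat_lit 0) (XT.lf (nat_lit 0) (nat_lit 4562255062) (nat_lit 380) (nat_lit 12450367524) (nat_lit 76) (nat_lit 6407379813) (nat_lit 58) (nat_lit 5)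 (nat_lit 63) (nat_lit 5) (nat_lit 59) (nat_lit 5) (nat_lit 342) (nat_lit 283) (nat_lit 155)) (XT.nd (nat_lit 78) (nat_lit 228) (nat_lit 0) (XT.lf (nat_lit 0) (nat_lit 8285641526) (nat_lit 380) (nat_lit 2384584715) (nat_lit 76) (nat_lit 13239315646) (nat_lit 58) (nat_lit 5) (nat_lit 63) (nat_lit 5) (nat_lit 59) (nat_lit 5) (nat_lit 343) (nat_lit 283) (nat_lit 154)) (XT.lf (nat_lit 0) (nat_lit 8128967446) (nat_lit 228) (nat_lit 4061130012) (nat_lit 304) (nat_lit 12221598531) (nat_lit 55) (nat_lit 5) (nat_lit 58) (nat_lit 5) (nat_lit 59) (nat_lit 5) (nat_lit 344) (nat_lit 283) (nat_lit 153))))) (XT.nd (nat_lit 234) (nat_lit 304) (nat_lit 0) (XT.nd (nat_lit 78) (nat_lit 228) (nat_lit 0) (XT.lf (nat_lit 0) (nat_lit 16253725239) (nat_lit 304) (nat_lit 5960954533) (nat_lit 76) (nat_lit 2712982989) (nat_lit 55) (nat_lit 5) (nat_lit 59) (nat_lit 5) (nat_lit 56) (nat_lit 5) (nat_lit 345) (nat_lit 283) (nat_lit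 152)) (XT.nd (nat_lit 78) (nat_lit 0) (nat_lit 0) (XT.lf (nat_lit 0) (nat_lit 4709608521) (nat_lit 228) (nat_lit 15806708543) (nat_lit 304) (nat_lit 4940488737) (nat_lit 52) (nat_lit 5) (nat_lit 55) (nat_lit 5) (nat_lit 56) (nat_lit 5) (nat_lit 346) (nat_lit 283) (nat_lit 151)) (XT.lf (nat_lit 0) (nat_lit 15810048899) (nat_lit 228) (nat_lit 9148631954) (nat_lit 304) (nat_lit 1041594117) (nat_lit 52) (nat_lit 5) (nat_lit 55) (nat_lit 5) (nat_lit 56) (nat_lit 5) (nat_lit 347) (nat_lit 283) (nat_lit 150)))) (XT.nd (nat_lit 78) (nat_lit 0) (nat_lit 0) (XT.lf (nat_lit 0) (nat_lit 655411796) (nat_lit 228) (nat_lit 2258971063) (nat_lit 304) (nat_lit 23644871181) (nat_lit 48) (nat_lit 5) (nat_lit 51) (nat_lit 5) (nat_lit 52) (nat_lit 5) (nat_lit 348) (nat_lit 283) (nat_lit 149)) (XT.nd (nat_lit 78) (nat_lit 0) (nat_lit 0) (XT.lf (nat_lit 0) (nat_lit 7110459452) (nat_lit 304) (nat_lit 15166769231) (nat_lit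 76) (nat_lit 4853201682) (nat_lit 48) (nat_lit 5) (nat_lit 52) (nat_lit 5) (nat_lit 49) (nat_lit 5) (nat_lit 349) (nat_lit 283) (nat_lit 148)) (XT.lf (nat_lit 0) (nat_lit 11446954624) (nat_lit 304) (nat_lit 4141921672) (nat_lit 76) (nat_lit 12129437292) (nat_lit 48) (nat_lit 5) (nat_lit 52) (nat_lit 5) (nat_lit 49) (nat_lit 5) (nat_lit 350) (nat_lit 283) (nat_lit 147)))))) (XT.nd (nat_lit 468) (nat_lit 380) (nat_lit 0) (XT.nd (nat_lit 234) (nat_lit 304) (nat_lit 0) (XT.nd (nat_lit 78) (nat_lit 152) (nat_lit 0) (XT.lf (nat_lit 0) (nat_lit 7345383290) (nat_lit 228) (nat_lit 8631167960) (nat_lit 304) (nat_lit 12345399333) (nat_lit 45) (nat_lit 5) (nat_lit 48) (nat_lit 5) (nat_lit 49) (nat_lit 5) (nat_lit 351) (nat_lit 283) (nat_lit 146)) (XT.nd (nat_lit 78) (nat_lit 152) (nat_lit 0) (XT.lf (nat_lit 0) (nat_lit 19250703777) (nat_lit 228) (nat_lit 1425666346) (nat_lit 304) (nat_lit 8266303790) (nat_lit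 45) (nat_lit 5) (nat_lit 48) (nat_lit 5) (nat_lit 49) (nat_lit 5) (nat_lit 352) (nat_lit 283) (nat_lit 145)) (XT.lf (nat_lit 0) (nat_lit 1899226999) (nat_lit 152) (nat_lit 23686540063) (nat_lit 228) (nat_lit 3994201420) (nat_lit 43) (nat_lit 5) (nat_lit 45) (nat_lit 5) (nat_lit 46) (nat_lit 5) (nat_lit 353) (nat_lit 283) (nat_lit 144)))) (XT.nd (nat_lit 78) (nat_lit 228) (nat_lit 0) (XT.lf (nat_lit 0) (nat_lit 503811135) (nat_lit 228) (nat_lit 16226999391) (nat_lit 76) (nat_lit 13502290774) (nat_lit 42) (nat_lit 5) (nat_lit 45) (nat_lit 5) (nat_lit 43) (nat_lit 5) (nat_lit 354) (nat_lit 283) (nat_lit 143)) (XT.nd (nat_lit 78) (nat_lit 228) (nat_lit 0) (XT.lf (nat_lit 0) (nat_lit 5049413190) (nat_lit 228) (nat_lit 4480261179) (nat_lit 76) (nat_lit 21375185925) (nat_lit 42) (nat_lit 5) (nat_lit 45) (nat_lit 5) (nat_lit 43) (nat_lit 5) (nat_lit 355) (nat_lit 283) (nat_lit 142)) (XT.lf (nat_lit 0)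 (nat_lit 7759548745) (nat_lit 228) (nat_lit 2039558670) (nat_lit 304) (nat_lit 21795639177) (nat_lit 39) (nat_lit 5) (nat_lit 42) (nat_lit 5) (nat_lit 43) (nat_lit 5) (nat_lit 356) (nat_lit 283) (nat_lit 141))))) (XT.nd (nat_lit 234) (nat_lit 228) (nat_lit 0) (XT.nd (nat_lit 78) (nat_lit 152) (nat_lit 0) (XT.lf (nat_lit 0) (nat_lit 14784731343) (nat_lit 304) (nat_lit 11911393993) (nat_lit 76) (nat_lit 5606407053) (nat_lit 39) (nat_lit 5) (nat_lit 43) (nat_lit 5) (nat_lit 40) (nat_lit 5) (nat_lit 357) (nat_lit 283) (nat_lit 140)) (XT.nd (nat_lit 78) (nat_lit 0) (nat_lit 0) (XT.lf (nat_lit 0) (nat_lit 346186959) (nat_lit 152) (nat_lit 19590651651) (nat_lit 228) (nat_lit 13094211611) (nat_lit 37) (nat_lit 5) (nat_lit 39) (nat_lit 5) (nat_lit 40) (nat_lit 5) (nat_lit 358) (nat_lit 283) (nat_lit 139)) (XT.lf (nat_lit 0) (nat_lit 13205271447) (nat_lit 152) (nat_lit 12152005084) (nat_lit 228) (nat_lit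 8420739761) (nat_lit 37) (nat_lit 5) (nat_lit 39) (nat_lit 5) (nat_lit 40) (nat_lit 5) (nat_lit 359) (nat_lit 283) (nat_lit 138)))) (XT.nd (nat_lit 78) (nat_lit 228) (nat_lit 0) (XT.lf (nat_lit 0) (nat_lit 26440035467) (nat_lit 152) (nat_lit 4493967569) (nat_lit 228) (nat_lit 3613583606) (nat_lit 37) (nat_lit 5) (nat_lit 39) (nat_lit 5) (nat_lit 40) (nat_lit 5) (nat_lit 360) (nat_lit 283) (nat_lit 137)) (XT.nd (nat_lit 78) (nat_lit 0) (nat_lit 0) (XT.lf (nat_lit 0) (nat_lit 1384812585) (nat_lit 228) (nat_lit 30569311370) (nat_lit 76) (nat_lit 3383545689) (nat_lit 34) (nat_lit 5) (nat_lit 37) (nat_lit 5) (nat_lit 35) (nat_lit 5) (nat_lit 361) (nat_lit 283) (nat_lit 136)) (XT.lf (nat_lit 0) (nat_lit 6581551082) (nat_lit 228) (nat_lit 18043324036) (nat_lit 76) (nat_lit 11521881166) (nat_lit 34) (nat_lit 5) (nat_lit 37) (nat_lit 5) (nat_lit 35) (nat_lit 5) (nat_lit 362) (nat_lit 283) (nat_lit 135)))))))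 (XT.nd (nat_lit 936) (nat_lit 456) (nat_lit 0) (XT.nd (nat_lit 468) (nat_lit 304) (nat_lit 0) (XT.nd (nat_lit 234) (nat_lit 228) (nat_lit 0) (XT.nd (nat_lit 78) (nat_lit 152) (nat_lit 0) (XT.lf (nat_lit 0) (nat_lit 11928215207) (nat_lit 228) (nat_lit 5151249791) (nat_lit 76) (nat_lit 19900834764) (nat_lit 34) (nat_lit 5) (nat_lit 37) (nat_lit 5) (nat_lit 35) (nat_lit 5) (nat_lit 363) (nat_lit 283) (nat_lit 134)) (XT.nd (nat_lit 78) (nat_lit 0) (nat_lit 0) (XT.lf (nat_lit 0) (nat_lit 8279743911) (nat_lit 152) (nat_lit 9229322855) (nat_lit 228) (nat_lit 20327573949) (nat_lit 32) (nat_lit 5) (nat_lit 34) (nat_lit 5) (nat_lit 35) (nat_lit 5) (nat_lit 364) (nat_lit 283) (nat_lit 133)) (XT.lf (nat_lit 0) (nat_lit 22209944858) (nat_lit 152) (nat_lit 1093693514) (nat_lit 228) (nat_lit 15413649346) (nat_lit 32) (nat_lit 5) (nat_lit 34) (nat_lit 5) (nat_lit 35) (nat_lit 5) (nat_lit 365) (nat_lit 283) (nat_lit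 132)))) (XT.nd (nat_lit 78) (nat_lit 228) (nat_lit 0) (XT.lf (nat_lit 0) (nat_lit 29336494777) (nat_lit 228) (nat_lit 3145524227) (nat_lit 76) (nat_lit 7140406218) (nat_lit 32) (nat_lit 5) (nat_lit 35) (nat_lit 5) (nat_lit 33) (nat_lit 5) (nat_lit 366) (nat_lit 283) (nat_lit 131)) (XT.nd (nat_lit 78) (nat_lit 76) (nat_lit 0) (XT.lf (nat_lit 0) (nat_lit 10808312535) (nat_lit 152) (nat_lit 24851322028) (nat_lit 228) (nat_lit 4891807747) (nat_lit 30) (nat_lit 5) (nat_lit 32) (nat_lit 5) (nat_lit 33) (nat_lit 5) (nat_lit 367) (nat_lit 283) (nat_lit 130)) (XT.lf (nat_lit 0) (nat_lit 677845949) (nat_lit 228) (nat_lit 16277772333) (nat_lit 76) (nat_lit 24551724232) (nat_lit 29) (nat_lit 5) (nat_lit 32) (nat_lit 5) (nat_lit 30) (nat_lit 5) (nat_lit 368) (nat_lit 283) (nat_lit 129))))) (XT.nd (nat_lit 234) (nat_lit 152) (nat_lit 0) (XT.nd (nat_lit 78) (nat_lit 152) (nat_lit 0) (XT.lf (nat_lit 0) (nat_lit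 6311015307) (nat_lit 228) (nat_lit 2465568777) (nat_lit 76) (nat_lit 33714044249) (nat_lit 29) (nat_lit 5) (nat_lit 32) (nat_lit 5) (nat_lit 30) (nat_lit 5) (nat_lit 369) (nat_lit 283) (nat_lit 128)) (XT.nd (nat_lit 78) (nat_lit 0) (nat_lit 0) (XT.lf (nat_lit 0) (nat_lit 11986472101) (nat_lit 152) (nat_lit 236828500) (nat_lit 228) (nat_lit 31276812399) (nat_lit 27) (nat_lit 5) (nat_lit 29) (nat_lit 5) (nat_lit 30) (nat_lit 5) (nat_lit 370) (nat_lit 283) (nat_lit 127)) (XT.lf (nat_lit 0) (nat_lit 18415309910) (nat_lit 228) (nat_lit 17707509643) (nat_lit 76) (nat_lit 8413995777) (nat_lit 27) (nat_lit 5) (nat_lit 30) (nat_lit 5) (nat_lit 28) (nat_lit 5) (nat_lit 371) (nat_lit 283) (nat_lit 126)))) (XT.nd (nat_lit 78) (nat_lit 152) (nat_lit 0) (XT.lf (nat_lit 0) (nat_lit 24790507869) (nat_lit 228) (nat_lit 3497760936) (nat_lit 76) (nat_lit 17316430750) (nat_lit 27) (nat_lit 5) (nat_lit 30) (nat_lit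 5) (nat_lit 28) (nat_lit 5) (nat_lit 372) (nat_lit 283) (nat_lit 125)) (XT.nd (nat_lit 78) (nat_lit 0) (nat_lit 0) (XT.lf (nat_lit 0) (nat_lit 11351812800) (nat_lit 152) (nat_lit 20109496268) (nat_lit 228) (nat_lit 15240184389) (nat_lit 25) (nat_lit 5) (nat_lit 27) (nat_lit 5) (nat_lit 28) (nat_lit 5) (nat_lit 373) (nat_lit 283) (nat_lit 124)) (XT.lf (nat_lit 0) (nat_lit 26710670489) (nat_lit 152) (nat_lit 11652174123) (nat_lit 228) (nat_lit 9467431719) (nat_lit 25) (nat_lit 5) (nat_lit 27) (nat_lit 5) (nat_lit 28) (nat_lit 5) (nat_lit 374) (nat_lit 283) (nat_lit 123)))))) (XT.nd (nat_lit 468) (nat_lit 152) (nat_lit 0) (XT.nd (nat_lit 234) (nat_lit 152) (nat_lit 0) (XT.nd (nat_lit 78) (nat_lit 152) (nat_lit 0) (XT.lf (nat_lit 0) (nat_lit 42522620191) (nat_lit 152) (nat_lit 2944233005) (nat_lit 228) (nat_lit 3526210050) (nat_lit 25) (nat_lit 5) (nat_lit 27) (nat_lit 5) (nat_lit 28) (nat_lit 5)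 (nat_lit 375) (nat_lit 283) (nat_lit 122)) (XT.nd (nat_lit 78) (nat_lit 0) (nat_lit 0) (XT.lf (nat_lit 0) (nat_lit 2681297736) (nat_lit 152) (nat_lit 41489968027) (nat_lit 76) (nat_lit 6014563748) (nat_lit 23) (nat_lit 5) (nat_lit 25) (nat_lit 5) (nat_lit 24) (nat_lit 5) (nat_lit 376) (nat_lit 283) (nat_lit 121)) (XT.lf (nat_lit 0) (nat_lit 9094836629) (nat_lit 152) (nat_lit 27034911838) (nat_lit 76) (nat_lit 15280865611) (nat_lit 23) (nat_lit 5) (nat_lit 25) (nat_lit 5) (nat_lit 24) (nat_lit 5) (nat_lit 377) (nat_lit 283) (nat_lit 120)))) (XT.nd (nat_lit 78) (nat_lit 152) (nat_lit 0) (XT.lf (nat_lit 0) (nat_lit 15696454186) (nat_lit 152) (nat_lit 12153558748) (nat_lit 76) (nat_lit 24822262060) (nat_lit 23) (nat_lit 5) (nat_lit 25) (nat_lit 5) (nat_lit 24) (nat_lit 5) (nat_lit 378) (nat_lit 283) (nat_lit 119)) (XT.nd (nat_lit 78) (nat_lit 0) (nat_lit 0) (XT.lf (nat_lit 0) (nat_lit 3230125754)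 (nat_lit 152) (nat_lit 19292843004) (nat_lit 228) (nat_lit 31448014430) (nat_lit 21) (nat_lit 5) (nat_lit 23) (nat_lit 5) (nat_lit 24) (nat_lit 5) (nat_lit 379) (nat_lit 283) (nat_lit 118)) (XT.lf (nat_lit 0) (nat_lit 19317386269) (nat_lit 152) (nat_lit 10355472558) (nat_lit 228) (nat_lit 25632239214) (nat_lit 21) (nat_lit 5) (nat_lit 23) (nat_lit 5) (nat_lit 24) (nat_lit 5) (nat_lit 380) (nat_lit 283) (nat_lit 117))))) (XT.nd (nat_lit 234) (nat_lit 76) (nat_lit 0) (XT.nd (nat_lit 78) (nat_lit 76) (nat_lit 0) (XT.lf (nat_lit 0) (nat_lit 35880399978) (nat_lit 152) (nat_lit 1152819358) (nat_lit 228) (nat_lit 19646140529) (nat_lit 21) (nat_lit 5) (nat_lit 23) (nat_lit 5) (nat_lit 24) (nat_lit 5) (nat_lit 381) (nat_lit 283) (nat_lit 116)) (XT.nd (nat_lit 78) (nat_lit 76) (nat_lit 0) (XT.lf (nat_lit 0) (nat_lit 44690488949) (nat_lit 228) (nat_lit 5241337337) (nat_lit 76) (nat_lit 8160742963) (nat_lit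 21) (nat_lit 5) (nat_lit 24) (nat_lit 5) (nat_lit 22) (nat_lit 4) (nat_lit 382) (nat_lit 283) (nat_lit 115)) (XT.lf (nat_lit 0) (nat_lit 10979283931) (nat_lit 76) (nat_lit 41711325508) (nat_lit 152) (nat_lit 6854174069) (nat_lit 20) (nat_lit 5) (nat_lit 21) (nat_lit 5) (nat_lit 22) (nat_lit 4) (nat_lit 383) (nat_lit 283) (nat_lit 114)))) (XT.nd (nat_lit 78) (nat_lit 76) (nat_lit 0) (XT.lf (nat_lit 0) (nat_lit 27787469160) (nat_lit 76) (nat_lit 33192419591) (nat_lit 152) (nat_lit 59203292) (nat_lit 20) (nat_lit 5) (nat_lit 21) (nat_lit 5) (nat_lit 22) (nat_lit 4) (nat_lit 384) (nat_lit 283) (nat_lit 113)) (XT.nd (nat_lit 78) (nat_lit 0) (nat_lit 0) (XT.lf (nat_lit 0) (nat_lit 6800498891) (nat_lit 152) (nat_lit 17551421464) (nat_lit 76) (nat_lit 38224421628) (nat_lit 19) (nat_lit 5) (nat_lit 21) (nat_lit 5) (nat_lit 20) (nat_lit 5) (nat_lit 385) (nat_lit 283) (nat_lit 112)) (XT.lf (nat_lit 0) (nat_lit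 13861209204) (nat_lit 152) (nat_lit 1386997974) (nat_lit 76) (nat_lit 48911594739) (nat_lit 19) (nat_lit 5) (nat_lit 21) (nat_lit 5) (nat_lit 20) (nat_lit 5) (nat_lit 386) (nat_lit 283) (nat_lit 111))))))))
noncomputable def xc171 : XT := (XT.nd (nat_lit 34008) (nat_lit 0) (nat_lit 5852) (XT.nd (nat_lit 33072) (nat_lit 0) (nat_lit 12844) (XT.nd (nat_lit 32604) (nat_lit 0) (nat_lit 13604) (XT.nd (nat_lit 234) (nat_lit 76) (nat_lit 0) (XT.nd (nat_lit 78) (nat_lit 0) (nat_lit 0) (XT.lf (nat_lit 0) (nat_lit 15559972037) (nat_lit 152) (nat_lit 5719852400) (nat_lit 228) (nat_lit 44506560928) (nat_lit 17) (nat_lit 5) (nat_lit 19) (nat_lit 5) (nat_lit 20) (nat_lit 5) (nat_lit 387) (nat_lit 283) (nat_lit 110)) (XT.nd (nat_lit 78) (nat_lit 0) (nat_lit 0) (XT.lf (nat_lit 0) (nat_lit 28971031985) (nat_lit 228) (nat_lit 34463098590) (nat_lit 76) (nat_lit 4026136884) (nat_lit 17) (nat_lit 5) (nat_lit 20) (nat_lit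 5) (nat_lit 18) (nat_lit 4) (nat_lit 388) (nat_lit 283) (nat_lit 109)) (XT.lf (nat_lit 0) (nat_lit 36946240778) (nat_lit 228) (nat_lit 18289380303) (nat_lit 76) (nat_lit 13947149082) (nat_lit 17) (nat_lit 5) (nat_lit 20) (nat_lit 5) (nat_lit 18) (nat_lit 4) (nat_lit 389) (nat_lit 283) (nat_lit 108)))) (XT.nd (nat_lit 78) (nat_lit 76) (nat_lit 0) (XT.lf (nat_lit 0) (nat_lit 45157436723) (nat_lit 228) (nat_lit 1636143370) (nat_lit 76) (nat_lit 24163467963) (nat_lit 17) (nat_lit 5) (nat_lit 20) (nat_lit 5) (nat_lit 18) (nat_lit 4) (nat_lit 390) (nat_lit 283) (nat_lit 107)) (XT.nd (nat_lit 78) (nat_lit 0) (nat_lit 0) (XT.lf (nat_lit 0) (nat_lit 15819866148) (nat_lit 76) (nat_lit 37943998735) (nat_lit 152) (nat_lit 19016224488) (nat_lit 16) (nat_lit 5) (nat_lit 17) (nat_lit 5) (nat_lit 18) (nat_lit 4) (nat_lit 391) (nat_lit 283) (nat_lit 106)) (XT.lf (nat_lit 0) (nat_lit 33827622385) (nat_lit 76) (nat_lit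 28814251284) (nat_lit 152) (nat_lit 12015548543) (nat_lit 16) (nat_lit 5) (nat_lit 17) (nat_lit 5) (nat_lit 18) (nat_lit 4) (nat_lit 392) (nat_lit 283) (nat_lit 105))))) (XT.nd (nat_lit 234) (nat_lit 0) (nat_lit 76) (XT.nd (nat_lit 78) (nat_lit 988) (nat_lit 0) (XT.lf (nat_lit 0) (nat_lit 3759301862) (nat_lit 988) (nat_lit 359743189) (nat_lit 988) (nat_lit 359743189) (nat_lit 208) (nat_lit 3) (nat_lit 221) (nat_lit 3) (nat_lit 221) (nat_lit 5) (nat_lit 284) (nat_lit 284) (nat_lit 212)) (XT.nd (nat_lit 78) (nat_lit 988) (nat_lit 0) (XT.lf (nat_lit 76) (nat_lit 3283907120) (nat_lit 0) (nat_lit 5215614916) (nat_lit 988) (nat_lit 564717268) (nat_lit 209) (nat_lit 5) (nat_lit 208) (nat_lit 3) (nat_lit 221) (nat_lit 5) (nat_lit 285) (nat_lit 284) (nat_lit 211)) (XT.lf (nat_lit 0) (nat_lit 303348692) (nat_lit 988) (nat_lit 1772937830) (nat_lit 1064) (nat_lit 7098557387) (nat_lit 195) (nat_lit 5) (nat_lit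 208) (nat_lit 3) (nat_lit 209) (nat_lit 5) (nat_lit 286) (nat_lit 284) (nat_lit 210)))) (XT.nd (nat_lit 78) (nat_lit 0) (nat_lit 0) (XT.lf (nat_lit 0) (nat_lit 1188279124) (nat_lit 988) (nat_lit 6922380879) (nat_lit 1064) (nat_lit 1177934672) (nat_lit 196) (nat_lit 5) (nat_lit 209) (nat_lit 5) (nat_lit 210) (nat_lit 5) (nat_lit 287) (nat_lit 284) (nat_lit 209)) (XT.nd (nat_lit 78) (nat_lit 0) (nat_lit 0) (XT.lf (nat_lit 0) (nat_lit 2107070148) (nat_lit 988) (nat_lit 2778425456) (nat_lit 1064) (nat_lit 4520102147) (nat_lit 196) (nat_lit 5) (nat_lit 209) (nat_lit 5) (nat_lit 210) (nat_lit 5) (nat_lit 288) (nat_lit 284) (nat_lit 208)) (XT.lf (nat_lit 76) (nat_lit 1501325978) (nat_lit 0) (nat_lit 1536117902) (nat_lit 1064) (nat_lit 6489203917) (nat_lit 197) (nat_lit 5) (nat_lit 196) (nat_lit 5) (nat_lit 210) (nat_lit 5) (nat_lit 289) (nat_lit 284) (nat_lit 207)))))) (XT.nd (nat_lit 468) (nat_lit 912)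 (nat_lit 0) (XT.nd (nat_lit 234) (nat_lit 0) (nat_lit 76) (XT.nd (nat_lit 78) (nat_lit 0) (nat_lit 0) (XT.lf (nat_lit 0) (nat_lit 4012878678) (nat_lit 988) (nat_lit 3721443280) (nat_lit 1064) (nat_lit 1916548660) (nat_lit 197) (nat_lit 5) (nat_lit 210) (nat_lit 5) (nat_lit 211) (nat_lit 5) (nat_lit 290) (nat_lit 284) (nat_lit 206)) (XT.nd (nat_lit 78) (nat_lit 0) (nat_lit 0) (XT.lf (nat_lit 76) (nat_lit 691677755) (nat_lit 0) (nat_lit 4319037620) (nat_lit 1064) (nat_lit 4768364731) (nat_lit 198) (nat_lit 5) (nat_lit 197) (nat_lit 5) (nat_lit 211) (nat_lit 5) (nat_lit 291) (nat_lit 284) (nat_lit 205)) (XT.lf (nat_lit 76) (nat_lit 5295494523) (nat_lit 0) (nat_lit 752516473) (nat_lit 1064) (nat_lit 3862891737) (nat_lit 198) (nat_lit 5) (nat_lit 197) (nat_lit 5) (nat_lit 211) (nat_lit 5) (nat_lit 292) (nat_lit 284) (nat_lit 204)))) (XT.nd (nat_lit 78) (nat_lit 0) (nat_lit 0) (XT.lf (nat_lit 0) (nat_lit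 7117359615) (nat_lit 988) (nat_lit 55754905) (nat_lit 1064) (nat_lit 2873588532) (nat_lit 198) (nat_lit 5) (nat_lit 211) (nat_lit 5) (nat_lit 212) (nat_lit 5) (nat_lit 293) (nat_lit 284) (nat_lit 203)) (XT.nd (nat_lit 78) (nat_lit 0) (nat_lit 76) (XT.lf (nat_lit 76) (nat_lit 4707206238) (nat_lit 0) (nat_lit 3537927957) (nat_lit 1064) (nat_lit 1940702375) (nat_lit 199) (nat_lit 5) (nat_lit 198) (nat_lit 5) (nat_lit 212) (nat_lit 5) (nat_lit 294) (nat_lit 284) (nat_lit 202)) (XT.lf (nat_lit 0) (nat_lit 9383614805) (nat_lit 988) (nat_lit 735525303) (nat_lit 1064) (nat_lit 210745911) (nat_lit 199) (nat_lit 5) (nat_lit 212) (nat_lit 5) (nat_lit 213) (nat_lit 5) (nat_lit 295) (nat_lit 284) (nat_lit 201))))) (XT.nd (nat_lit 234) (nat_lit 0) (nat_lit 76) (XT.nd (nat_lit 78) (nat_lit 0) (nat_lit 0) (XT.lf (nat_lit 0) (nat_lit 127185200) (nat_lit 1064) (nat_lit 6299731359) (nat_lit 1140) (nat_lit 4049841821)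 (nat_lit 185) (nat_lit 5) (nat_lit 199) (nat_lit 5) (nat_lit 200) (nat_lit 5) (nat_lit 296) (nat_lit 284) (nat_lit 200)) (XT.nd (nat_lit 78) (nat_lit 0) (nat_lit 76) (XT.lf (nat_lit 0) (nat_lit 1196664377) (nat_lit 1064) (nat_lit 1403647378) (nat_lit 1140) (nat_lit 8028002966) (nat_lit 185) (nat_lit 5) (nat_lit 199) (nat_lit 5) (nat_lit 200) (nat_lit 5) (nat_lit 297) (nat_lit 284) (nat_lit 199)) (XT.lf (nat_lit 0) (nat_lit 2323088914) (nat_lit 1064) (nat_lit 7103909693) (nat_lit 1140) (nat_lit 1356716060) (nat_lit 186) (nat_lit 5) (nat_lit 200) (nat_lit 5) (nat_lit 201) (nat_lit 5) (nat_lit 298) (nat_lit 284) (nat_lit 198)))) (XT.nd (nat_lit 78) (nat_lit 0) (nat_lit 0) (XT.lf (nat_lit 0) (nat_lit 3500003875) (nat_lit 1064) (nat_lit 2043214146) (nat_lit 1140) (nat_lit 5400099159) (nat_lit 186) (nat_lit 5) (nat_lit 200) (nat_lit 5) (nat_lit 201) (nat_lit 5) (nat_lit 299) (nat_lit 284) (nat_lit 197))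 (XT.nd (nat_lit 78) (nat_lit 0) (nat_lit 76) (XT.lf (nat_lit 76) (nat_lit 3214048024) (nat_lit 0) (nat_lit 1506391718) (nat_lit 1140) (nat_lit 6387061913) (nat_lit 187) (nat_lit 5) (nat_lit 186) (nat_lit 5) (nat_lit 201) (nat_lit 5) (nat_lit 300) (nat_lit 284) (nat_lit 196)) (XT.lf (nat_lit 0) (nat_lit 6001663544) (nat_lit 1064) (nat_lit 2649316096) (nat_lit 76) (nat_lit 2624945896) (nat_lit 187) (nat_lit 5) (nat_lit 201) (nat_lit 5) (nat_lit 188) (nat_lit 5) (nat_lit 301) (nat_lit 284) (nat_lit 195))))))) (XT.nd (nat_lit 936) (nat_lit 2660) (nat_lit 0) (XT.nd (nat_lit 468) (nat_lit 1672) (nat_lit 0) (XT.nd (nat_lit 234) (nat_lit 608) (nat_lit 0) (XT.nd (nat_lit 78) (nat_lit 1140) (nat_lit 0) (XT.lf (nat_lit 0) (nat_lit 2773345997) (nat_lit 1064) (nat_lit 4568046980) (nat_lit 1140) (nat_lit 4107445067) (nat_lit 173) (nat_lit 5) (nat_lit 187) (nat_lit 5) (nat_lit 188) (nat_lit 5) (nat_lit 302)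 (nat_lit 284) (nat_lit 194)) (XT.nd (nat_lit 78) (nat_lit 1140) (nat_lit 0) (XT.lf (nat_lit 0) (nat_lit 8395170065) (nat_lit 1064) (nat_lit 331847176) (nat_lit 1140) (nat_lit 2899786468) (nat_lit 173) (nat_lit 5) (nat_lit 187) (nat_lit 5) (nat_lit 188) (nat_lit 5) (nat_lit 303) (nat_lit 284) (nat_lit 193)) (XT.lf (nat_lit 0) (nat_lit 2364950511) (nat_lit 1140) (nat_lit 7830338969) (nat_lit 1216) (nat_lit 1613622285) (nat_lit 158) (nat_lit 5) (nat_lit 173) (nat_lit 5) (nat_lit 174) (nat_lit 5) (nat_lit 304) (nat_lit 284) (nat_lit 192)))) (XT.nd (nat_lit 78) (nat_lit 608) (nat_lit 0) (XT.lf (nat_lit 0) (nat_lit 8174516794) (nat_lit 1140) (nat_lit 3548996073) (nat_lit 1216) (nat_lit 272527860) (nat_lit 158) (nat_lit 5) (nat_lit 173) (nat_lit 5) (nat_lit 174) (nat_lit 5) (nat_lit 305) (nat_lit 284) (nat_lit 191)) (XT.nd (nat_lit 78) (nat_lit 0) (nat_lit 0) (XT.lf (nat_lit 0) (nat_lit 1095154271) (nat_lit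 608) (nat_lit 10217253524) (nat_lit 76) (nat_lit 875849023) (nat_lit 150) (nat_lit 5) (nat_lit 158) (nat_lit 5) (nat_lit 151) (nat_lit 5) (nat_lit 306) (nat_lit 284) (nat_lit 190)) (XT.lf (nat_lit 0) (nat_lit 2553292379) (nat_lit 608) (nat_lit 4425822188) (nat_lit 76) (nat_lit 5405428590) (nat_lit 150) (nat_lit 5) (nat_lit 158) (nat_lit 5) (nat_lit 151) (nat_lit 5) (nat_lit 307) (nat_lit 284) (nat_lit 189))))) (XT.nd (nat_lit 234) (nat_lit 532) (nat_lit 0) (XT.nd (nat_lit 78) (nat_lit 532) (nat_lit 0) (XT.lf (nat_lit 0) (nat_lit 1552000926) (nat_lit 608) (nat_lit 2499444428) (nat_lit 684) (nat_lit 8535415489) (nat_lit 142) (nat_lit 5) (nat_lit 150) (nat_lit 5) (nat_lit 151) (nat_lit 5) (nat_lit 308) (nat_lit 284) (nat_lit 188)) (XT.nd (nat_lit 78) (nat_lit 532) (nat_lit 0) (XT.lf (nat_lit 0) (nat_lit 5641739525) (nat_lit 684) (nat_lit 5032842352) (nat_lit 76) (nat_lit 2119280266) (nat_lit 142)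 (nat_lit 5) (nat_lit 151) (nat_lit 5) (nat_lit 143) (nat_lit 5) (nat_lit 309) (nat_lit 284) (nat_lit 187)) (XT.lf (nat_lit 0) (nat_lit 1128995923) (nat_lit 532) (nat_lit 6168613162) (nat_lit 608) (nat_lit 5708957507) (nat_lit 135) (nat_lit 5) (nat_lit 142) (nat_lit 5) (nat_lit 143) (nat_lit 5) (nat_lit 310) (nat_lit 284) (nat_lit 186)))) (XT.nd (nat_lit 78) (nat_lit 532) (nat_lit 0) (XT.lf (nat_lit 0) (nat_lit 7561505862) (nat_lit 532) (nat_lit 1475087400) (nat_lit 608) (nat_lit 4188084014) (nat_lit 135) (nat_lit 5) (nat_lit 142) (nat_lit 5) (nat_lit 143) (nat_lit 5) (nat_lit 311) (nat_lit 284) (nat_lit 185)) (XT.nd (nat_lit 78) (nat_lit 0) (nat_lit 0) (XT.lf (nat_lit 0) (nat_lit 701680557) (nat_lit 532) (nat_lit 10148225795) (nat_lit 608) (nat_lit 2598787584) (nat_lit 128) (nat_lit 5) (nat_lit 135) (nat_lit 5) (nat_lit 136) (nat_lit 5) (nat_lit 312) (nat_lit 284) (nat_lit 184)) (XT.lf (nat_lit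 0) (nat_lit 7341461990) (nat_lit 532) (nat_lit 5431254827) (nat_lit 608) (nat_lit 905087974) (nat_lit 128) (nat_lit 5) (nat_lit 135) (nat_lit 5) (nat_lit 136) (nat_lit 5) (nat_lit 313) (nat_lit 284) (nat_lit 183)))))) (XT.nd (nat_lit 468) (nat_lit 1292) (nat_lit 0) (XT.nd (nat_lit 234) (nat_lit 836) (nat_lit 0) (XT.nd (nat_lit 78) (nat_lit 0) (nat_lit 0) (XT.lf (nat_lit 0) (nat_lit 246328219) (nat_lit 456) (nat_lit 562829122) (nat_lit 532) (nat_lit 13104831222) (nat_lit 121) (nat_lit 5) (nat_lit 127) (nat_lit 5) (nat_lit 128) (nat_lit 5) (nat_lit 314) (nat_lit 284) (nat_lit 182)) (XT.nd (nat_lit 78) (nat_lit 0) (nat_lit 0) (XT.lf (nat_lit 0) (nat_lit 2648097708) (nat_lit 532) (nat_lit 7068740547) (nat_lit 76) (nat_lit 4437431360) (nat_lit 121) (nat_lit 5) (nat_lit 128) (nat_lit 5) (nat_lit 122) (nat_lit 5) (nat_lit 315) (nat_lit 284) (nat_lit 181)) (XT.lf (nat_lit 0) (nat_lit 4532292379) (nat_lit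 532) (nat_lit 294303071) (nat_lit 76) (nat_lit 9575484731) (nat_lit 121) (nat_lit 5) (nat_lit 128) (nat_lit 5) (nat_lit 122) (nat_lit 5) (nat_lit 316) (nat_lit 284) (nat_lit 180)))) (XT.nd (nat_lit 78) (nat_lit 380) (nat_lit 0) (XT.lf (nat_lit 0) (nat_lit 6525996280) (nat_lit 532) (nat_lit 7858826697) (nat_lit 76) (nat_lit 270935564) (nat_lit 115) (nat_lit 5) (nat_lit 122) (nat_lit 5) (nat_lit 116) (nat_lit 5) (nat_lit 317) (nat_lit 284) (nat_lit 179)) (XT.nd (nat_lit 78) (nat_lit 380) (nat_lit 0) (XT.lf (nat_lit 0) (nat_lit 8615533083) (nat_lit 532) (nat_lit 874514757) (nat_lit 76) (nat_lit 5425941064) (nat_lit 115) (nat_lit 5) (nat_lit 122) (nat_lit 5) (nat_lit 116) (nat_lit 5) (nat_lit 318) (nat_lit 284) (nat_lit 178)) (XT.lf (nat_lit 0) (nat_lit 6428581122) (nat_lit 380) (nat_lit 4386632850) (nat_lit 456) (nat_lit 4367410126) (nat_lit 110) (nat_lit 5) (nat_lit 115) (nat_lit 5) (nat_lit 116)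 (nat_lit 5) (nat_lit 319) (nat_lit 284) (nat_lit 177))))) (XT.nd (nat_lit 234) (nat_lit 760) (nat_lit 0) (XT.nd (nat_lit 78) (nat_lit 532) (nat_lit 0) (XT.lf (nat_lit 0) (nat_lit 13084072674) (nat_lit 456) (nat_lit 1513202038) (nat_lit 76) (nat_lit 859909041) (nat_lit 110) (nat_lit 5) (nat_lit 116) (nat_lit 5) (nat_lit 111) (nat_lit 5) (nat_lit 320) (nat_lit 284) (nat_lit 176)) (XT.nd (nat_lit 78) (nat_lit 76) (nat_lit 0) (XT.lf (nat_lit 0) (nat_lit 6002587629) (nat_lit 456) (nat_lit 9505859733) (nat_lit 532) (nat_lit 228929745) (nat_lit 104) (nat_lit 5) (nat_lit 110) (nat_lit 5) (nat_lit 111) (nat_lit 5) (nat_lit 321) (nat_lit 284) (nat_lit 175)) (XT.lf (nat_lit 0) (nat_lit 1942791669) (nat_lit 532) (nat_lit 2285937540) (nat_lit 76) (nat_lit 11796640127) (nat_lit 103) (nat_lit 5) (nat_lit 110) (nat_lit 5) (nat_lit 104) (nat_lit 5) (nat_lit 322) (nat_lit 284) (nat_lit 174)))) (XT.nd (nat_lit 78)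 (nat_lit 380) (nat_lit 0) (XT.lf (nat_lit 0) (nat_lit 4226622691) (nat_lit 456) (nat_lit 10857572504) (nat_lit 76) (nat_lit 1236210045) (nat_lit 98) (nat_lit 5) (nat_lit 104) (nat_lit 5) (nat_lit 99) (nat_lit 5) (nat_lit 323) (nat_lit 284) (nat_lit 173)) (XT.nd (nat_lit 78) (nat_lit 380) (nat_lit 0) (XT.lf (nat_lit 0) (nat_lit 6631167776) (nat_lit 456) (nat_lit 3190640895) (nat_lit 76) (nat_lit 6800935714) (nat_lit 98) (nat_lit 5) (nat_lit 104) (nat_lit 5) (nat_lit 99) (nat_lit 5) (nat_lit 324) (nat_lit 284) (nat_lit 172)) (XT.lf (nat_lit 0) (nat_lit 4784249193) (nat_lit 380) (nat_lit 4356985744) (nat_lit 456) (nat_lit 7791934806) (nat_lit 93) (nat_lit 5) (nat_lit 98) (nat_lit 5) (nat_lit 99) (nat_lit 5) (nat_lit 325) (nat_lit 284) (nat_lit 171))))))))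
noncomputable def xc172 : XT := (XT.nd (nat_lit 1794) (nat_lit 1900) (nat_lit 0) (XT.nd (nat_lit 858) (nat_lit 1368) (nat_lit 0) (XT.nd (nat_lit 390) (nat_lit 988) (nat_lit 0) (XT.nd (nat_lit 156) (nat_lit 456) (nat_lit 0) (XT.nd (nat_lit 78) (nat_lit 304) (nat_lit 0) (XT.lf (nat_lit 0) (nat_lit 11758956885) (nat_lit 456) (nat_lit 4216311753) (nat_lit 76) (nat_lit 1276685737) (nat_lit 93) (nat_lit 5) (nat_lit 99) (nat_lit 5) (nat_lit 94) (nat_lit 5) (nat_lit 326) (nat_lit 284) (nat_lit 170)) (XT.lf (nat_lit 0) (nat_lit 3973511923) (nat_lit 304) (nat_lit 10550983750) (nat_lit 380) (nat_lit 3053744917) (nat_lit 89) (nat_lit 5) (nat_lit 93) (nat_lit 5) (nat_lit 94) (nat_lit 5) (nat_lit 327) (nat_lit 284) (nat_lit 169))) (XT.nd (nat_lit 78) (nat_lit 456) (nat_lit 0) (XT.lf (nat_lit 0) (nat_lit 12480446777) (nat_lit 304) (nat_lit 4923287835) (nat_lit 380) (nat_lit 509674876) (nat_lit 89) (nat_lit 5)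 (nat_lit 93) (nat_lit 5) (nat_lit 94) (nat_lit 5) (nat_lit 328) (nat_lit 284) (nat_lit 168)) (XT.nd (nat_lit 78) (nat_lit 0) (nat_lit 0) (XT.lf (nat_lit 0) (nat_lit 2095663563) (nat_lit 456) (nat_lit 15258840554) (nat_lit 76) (nat_lit 902751820) (nat_lit 83) (nat_lit 5) (nat_lit 89) (nat_lit 5) (nat_lit 84) (nat_lit 5) (nat_lit 329) (nat_lit 284) (nat_lit 167)) (XT.lf (nat_lit 0) (nat_lit 4861608660) (nat_lit 456) (nat_lit 6885005736) (nat_lit 76) (nat_lit 6861886031) (nat_lit 83) (nat_lit 5) (nat_lit 89) (nat_lit 5) (nat_lit 84) (nat_lit 5) (nat_lit 330) (nat_lit 284) (nat_lit 166))))) (XT.nd (nat_lit 234) (nat_lit 380) (nat_lit 0) (XT.nd (nat_lit 78) (nat_lit 304) (nat_lit 0) (XT.lf (nat_lit 0) (nat_lit 1759817362) (nat_lit 304) (nat_lit 5956504564) (nat_lit 380) (nat_lit 11253800947) (nat_lit 79) (nat_lit 5) (nat_lit 83) (nat_lit 5) (nat_lit 84) (nat_lit 5) (nat_lit 331) (nat_lit 284) (nat_lit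 165)) (XT.nd (nat_lit 78) (nat_lit 304) (nat_lit 0) (XT.lf (nat_lit 0) (nat_lit 10715985588) (nat_lit 380) (nat_lit 8550878823) (nat_lit 76) (nat_lit 73964215) (nat_lit 79) (nat_lit 5) (nat_lit 84) (nat_lit 5) (nat_lit 80) (nat_lit 5) (nat_lit 332) (nat_lit 284) (nat_lit 164)) (XT.lf (nat_lit 0) (nat_lit 300923612) (nat_lit 304) (nat_lit 13555928468) (nat_lit 380) (nat_lit 5864280581) (nat_lit 75) (nat_lit 5) (nat_lit 79) (nat_lit 5) (nat_lit 80) (nat_lit 5) (nat_lit 333) (nat_lit 284) (nat_lit 163)))) (XT.nd (nat_lit 78) (nat_lit 380) (nat_lit 0) (XT.lf (nat_lit 0) (nat_lit 9579401124) (nat_lit 304) (nat_lit 7588409711) (nat_lit 380) (nat_lit 2942772097) (nat_lit 75) (nat_lit 5) (nat_lit 79) (nat_lit 5) (nat_lit 80) (nat_lit 5) (nat_lit 334) (nat_lit 284) (nat_lit 162)) (XT.nd (nat_lit 78) (nat_lit 304) (nat_lit 0) (XT.lf (nat_lit 0) (nat_lit 54797500) (nat_lit 380) (nat_lit 1390090066) (nat_lit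 76) (nat_lit 19067131017) (nat_lit 74) (nat_lit 5) (nat_lit 79) (nat_lit 5) (nat_lit 75) (nat_lit 5) (nat_lit 335) (nat_lit 284) (nat_lit 161)) (XT.lf (nat_lit 0) (nat_lit 3199385223) (nat_lit 380) (nat_lit 12829149048) (nat_lit 76) (nat_lit 4892613798) (nat_lit 70) (nat_lit 5) (nat_lit 75) (nat_lit 5) (nat_lit 71) (nat_lit 5) (nat_lit 336) (nat_lit 284) (nat_lit 160)))))) (XT.nd (nat_lit 468) (nat_lit 456) (nat_lit 0) (XT.nd (nat_lit 234) (nat_lit 608) (nat_lit 0) (XT.nd (nat_lit 78) (nat_lit 304) (nat_lit 0) (XT.lf (nat_lit 0) (nat_lit 6456930686) (nat_lit 380) (nat_lit 3483229122) (nat_lit 76) (nat_lit 11401844672) (nat_lit 70) (nat_lit 5) (nat_lit 75) (nat_lit 5) (nat_lit 71) (nat_lit 5) (nat_lit 337) (nat_lit 284) (nat_lit 159)) (XT.nd (nat_lit 78) (nat_lit 0) (nat_lit 0) (XT.lf (nat_lit 0) (nat_lit 6251761561) (nat_lit 304) (nat_lit 3610962070) (nat_lit 380) (nat_lit 11911258620) (nat_lit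 66) (nat_lit 5) (nat_lit 70) (nat_lit 5) (nat_lit 71) (nat_lit 5) (nat_lit 338) (nat_lit 284) (nat_lit 158)) (XT.lf (nat_lit 0) (nat_lit 13424708551) (nat_lit 380) (nat_lit 5909390633) (nat_lit 76) (nat_lit 2883210600) (nat_lit 66) (nat_lit 5) (nat_lit 71) (nat_lit 5) (nat_lit 67) (nat_lit 5) (nat_lit 339) (nat_lit 284) (nat_lit 157)))) (XT.nd (nat_lit 78) (nat_lit 380) (nat_lit 0) (XT.lf (nat_lit 0) (nat_lit 4021509036) (nat_lit 228) (nat_lit 13137270371) (nat_lit 304) (nat_lit 5513211599) (nat_lit 63) (nat_lit 5) (nat_lit 66) (nat_lit 5) (nat_lit 67) (nat_lit 5) (nat_lit 340) (nat_lit 284) (nat_lit 156)) (XT.nd (nat_lit 78) (nat_lit 380) (nat_lit 0) (XT.lf (nat_lit 0) (nat_lit 14358562912) (nat_lit 228) (nat_lit 6696943190) (nat_lit 304) (nat_lit 2083297895) (nat_lit 63) (nat_lit 5) (nat_lit 66) (nat_lit 5) (nat_lit 67) (nat_lit 5) (nat_lit 341) (nat_lit 284) (nat_lit 155)) (XT.lf (nat_lit 0)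 (nat_lit 1386509374) (nat_lit 304) (nat_lit 39173599) (nat_lit 380) (nat_lit 22193396498) (nat_lit 58) (nat_lit 5) (nat_lit 62) (nat_lit 5) (nat_lit 63) (nat_lit 5) (nat_lit 342) (nat_lit 284) (nat_lit 154))))) (XT.nd (nat_lit 234) (nat_lit 228) (nat_lit 0) (XT.nd (nat_lit 78) (nat_lit 228) (nat_lit 0) (XT.lf (nat_lit 0) (nat_lit 5144371334) (nat_lit 380) (nat_lit 12172730711) (nat_lit 76) (nat_lit 6791662521) (nat_lit 58) (nat_lit 5) (nat_lit 63) (nat_lit 5) (nat_lit 59) (nat_lit 5) (nat_lit 343) (nat_lit 284) (nat_lit 153)) (XT.nd (nat_lit 78) (nat_lit 228) (nat_lit 0) (XT.lf (nat_lit 0) (nat_lit 8966490986) (nat_lit 380) (nat_lit 1823939889) (nat_lit 76) (nat_lit 13822962410) (nat_lit 58) (nat_lit 5) (nat_lit 63) (nat_lit 5) (nat_lit 59) (nat_lit 5) (nat_lit 344) (nat_lit 284) (nat_lit 152)) (XT.lf (nat_lit 0) (nat_lit 8998820971) (nat_lit 228) (nat_lit 3982686285) (nat_lit 304) (nat_lit 12149315539)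 (nat_lit 55) (nat_lit 5) (nat_lit 58) (nat_lit 5) (nat_lit 59) (nat_lit 5) (nat_lit 345) (nat_lit 284) (nat_lit 151)))) (XT.nd (nat_lit 78) (nat_lit 228) (nat_lit 0) (XT.lf (nat_lit 0) (nat_lit 17156513758) (nat_lit 304) (nat_lit 5521061437) (nat_lit 76) (nat_lit 2985022468) (nat_lit 55) (nat_lit 5) (nat_lit 59) (nat_lit 5) (nat_lit 56) (nat_lit 5) (nat_lit 346) (nat_lit 284) (nat_lit 150)) (XT.nd (nat_lit 78) (nat_lit 0) (nat_lit 0) (XT.lf (nat_lit 0) (nat_lit 5463552609) (nat_lit 228) (nat_lit 16077227424) (nat_lit 304) (nat_lit 4667033867) (nat_lit 52) (nat_lit 5) (nat_lit 55) (nat_lit 5) (nat_lit 56) (nat_lit 5) (nat_lit 347) (nat_lit 284) (nat_lit 149)) (XT.lf (nat_lit 0) (nat_lit 16879161854) (nat_lit 228) (nat_lit 9225341034) (nat_lit 304) (nat_lit 663454045) (nat_lit 52) (nat_lit 5) (nat_lit 55) (nat_lit 5) (nat_lit 56) (nat_lit 5) (nat_lit 348) (nat_lit 284) (nat_lit 148))))))) (XT.nd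 (nat_lit 936) (nat_lit 760) (nat_lit 0) (XT.nd (nat_lit 468) (nat_lit 456) (nat_lit 0) (XT.nd (nat_lit 234) (nat_lit 380) (nat_lit 0) (XT.nd (nat_lit 78) (nat_lit 0) (nat_lit 0) (XT.lf (nat_lit 0) (nat_lit 1272362888) (nat_lit 228) (nat_lit 2124900984) (nat_lit 304) (nat_lit 23946513655) (nat_lit 48) (nat_lit 5) (nat_lit 51) (nat_lit 5) (nat_lit 52) (nat_lit 5) (nat_lit 349) (nat_lit 284) (nat_lit 147)) (XT.nd (nat_lit 78) (nat_lit 0) (nat_lit 0) (XT.lf (nat_lit 0) (nat_lit 7709588507) (nat_lit 304) (nat_lit 15031866803) (nat_lit 76) (nat_lit 5190934237) (nat_lit 48) (nat_lit 5) (nat_lit 52) (nat_lit 5) (nat_lit 49) (nat_lit 5) (nat_lit 350) (nat_lit 284) (nat_lit 146)) (XT.lf (nat_lit 0) (nat_lit 12164941196) (nat_lit 304) (nat_lit 3693455532) (nat_lit 76) (nat_lit 12679860708) (nat_lit 48) (nat_lit 5) (nat_lit 52) (nat_lit 5) (nat_lit 49) (nat_lit 5) (nat_lit 351) (nat_lit 284) (nat_lit 145))))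 (XT.nd (nat_lit 78) (nat_lit 152) (nat_lit 0) (XT.lf (nat_lit 0) (nat_lit 8132853640) (nat_lit 228) (nat_lit 8692113441) (nat_lit 304) (nat_lit 12335210943) (nat_lit 45) (nat_lit 5) (nat_lit 48) (nat_lit 5) (nat_lit 49) (nat_lit 5) (nat_lit 352) (nat_lit 284) (nat_lit 144)) (XT.nd (nat_lit 78) (nat_lit 152) (nat_lit 0) (XT.lf (nat_lit 0) (nat_lit 20378816009) (nat_lit 228) (nat_lit 1276213465) (nat_lit 304) (nat_lit 8144826525) (nat_lit 45) (nat_lit 5) (nat_lit 48) (nat_lit 5) (nat_lit 49) (nat_lit 5) (nat_lit 353) (nat_lit 284) (nat_lit 143)) (XT.lf (nat_lit 0) (nat_lit 2510556653) (nat_lit 152) (nat_lit 24197836480) (nat_lit 228) (nat_lit 3747985835) (nat_lit 43) (nat_lit 5) (nat_lit 45) (nat_lit 5) (nat_lit 46) (nat_lit 5) (nat_lit 354) (nat_lit 284) (nat_lit 142))))) (XT.nd (nat_lit 234) (nat_lit 152) (nat_lit 0) (XT.nd (nat_lit 78) (nat_lit 228) (nat_lit 0) (XT.lf (nat_lit 0) (nat_lit 867370942)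 (nat_lit 228) (nat_lit 16168350347) (nat_lit 76) (nat_lit 14093602053) (nat_lit 42) (nat_lit 5) (nat_lit 45) (nat_lit 5) (nat_lit 43) (nat_lit 5) (nat_lit 355) (nat_lit 284) (nat_lit 141)) (XT.nd (nat_lit 78) (nat_lit 228) (nat_lit 0) (XT.lf (nat_lit 0) (nat_lit 5539192162) (nat_lit 228) (nat_lit 4085097144) (nat_lit 76) (nat_lit 22197259518) (nat_lit 42) (nat_lit 5) (nat_lit 45) (nat_lit 5) (nat_lit 43) (nat_lit 5) (nat_lit 356) (nat_lit 284) (nat_lit 140)) (XT.lf (nat_lit 0) (nat_lit 8516715196) (nat_lit 228) (nat_lit 1909849380) (nat_lit 304) (nat_lit 22105720496) (nat_lit 39) (nat_lit 5) (nat_lit 42) (nat_lit 5) (nat_lit 43) (nat_lit 5) (nat_lit 357) (nat_lit 284) (nat_lit 139)))) (XT.nd (nat_lit 78) (nat_lit 152) (nat_lit 0) (XT.lf (nat_lit 0) (nat_lit 15553825661) (nat_lit 304) (nat_lit 11751406787) (nat_lit 76) (nat_lit 5956318663) (nat_lit 39) (nat_lit 5) (nat_lit 43) (nat_lit 5) (nat_lit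 40) (nat_lit 5) (nat_lit 358) (nat_lit 284) (nat_lit 138)) (XT.nd (nat_lit 78) (nat_lit 0) (nat_lit 0) (XT.lf (nat_lit 0) (nat_lit 868829740) (nat_lit 152) (nat_lit 19987108427) (nat_lit 228) (nat_lit 13156131517) (nat_lit 37) (nat_lit 5) (nat_lit 39) (nat_lit 5) (nat_lit 40) (nat_lit 5) (nat_lit 359) (nat_lit 284) (nat_lit 137)) (XT.lf (nat_lit 0) (nat_lit 14098766651) (nat_lit 152) (nat_lit 12330873223) (nat_lit 228) (nat_lit 8352093563) (nat_lit 37) (nat_lit 5) (nat_lit 39) (nat_lit 5) (nat_lit 40) (nat_lit 5) (nat_lit 360) (nat_lit 284) (nat_lit 136)))))) (XT.nd (nat_lit 468) (nat_lit 380) (nat_lit 0) (XT.nd (nat_lit 234) (nat_lit 152) (nat_lit 0) (XT.nd (nat_lit 78) (nat_lit 228) (nat_lit 0) (XT.lf (nat_lit 0) (nat_lit 27716088046) (nat_lit 152) (nat_lit 4448503088) (nat_lit 228) (nat_lit 3410080055) (nat_lit 37) (nat_lit 5) (nat_lit 39) (nat_lit 5) (nat_lit 40) (nat_lit 5) (nat_lit 361)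 (nat_lit 284) (nat_lit 135)) (XT.nd (nat_lit 78) (nat_lit 0) (nat_lit 0) (XT.lf (nat_lit 0) (nat_lit 1729687797) (nat_lit 228) (nat_lit 30994449966) (nat_lit 76) (nat_lit 3664311303) (nat_lit 34) (nat_lit 5) (nat_lit 37) (nat_lit 5) (nat_lit 35) (nat_lit 5) (nat_lit 362) (nat_lit 284) (nat_lit 134)) (XT.lf (nat_lit 0) (nat_lit 7073493571) (nat_lit 228) (nat_lit 18107011384) (nat_lit 76) (nat_lit 12041575702) (nat_lit 34) (nat_lit 5) (nat_lit 37) (nat_lit 5) (nat_lit 35) (nat_lit 5) (nat_lit 363) (nat_lit 284) (nat_lit 133)))) (XT.nd (nat_lit 78) (nat_lit 152) (nat_lit 0) (XT.lf (nat_lit 0) (nat_lit 12571980067) (nat_lit 228) (nat_lit 4842085951) (nat_lit 76) (nat_lit 20666828837) (nat_lit 34) (nat_lit 5) (nat_lit 37) (nat_lit 5) (nat_lit 35) (nat_lit 5) (nat_lit 364) (nat_lit 284) (nat_lit 132)) (XT.nd (nat_lit 78) (nat_lit 0) (nat_lit 0) (XT.lf (nat_lit 0) (nat_lit 8987291471) (nat_lit 152) (nat_lit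 9329051662) (nat_lit 228) (nat_lit 20646707208) (nat_lit 32) (nat_lit 5) (nat_lit 34) (nat_lit 5) (nat_lit 35) (nat_lit 5) (nat_lit 365) (nat_lit 284) (nat_lit 131)) (XT.lf (nat_lit 0) (nat_lit 23322024992) (nat_lit 152) (nat_lit 954513176) (nat_lit 228) (nat_lit 15593831681) (nat_lit 32) (nat_lit 5) (nat_lit 34) (nat_lit 5) (nat_lit 35) (nat_lit 5) (nat_lit 366) (nat_lit 284) (nat_lit 130))))) (XT.nd (nat_lit 234) (nat_lit 152) (nat_lit 0) (XT.nd (nat_lit 78) (nat_lit 228) (nat_lit 0) (XT.lf (nat_lit 0) (nat_lit 30484010911) (nat_lit 228) (nat_lit 2800506454) (nat_lit 76) (nat_lit 7518341683) (nat_lit 32) (nat_lit 5) (nat_lit 35) (nat_lit 5) (nat_lit 33) (nat_lit 5) (nat_lit 367) (nat_lit 284) (nat_lit 129)) (XT.nd (nat_lit 78) (nat_lit 76) (nat_lit 0) (XT.lf (nat_lit 0) (nat_lit 11567637730) (nat_lit 152) (nat_lit 25425600406) (nat_lit 228) (nat_lit 4766623015) (nat_lit 30) (nat_lit 5) (nat_lit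 32) (nat_lit 5) (nat_lit 33) (nat_lit 5) (nat_lit 368) (nat_lit 284) (nat_lit 128)) (XT.lf (nat_lit 0) (nat_lit 957047790) (nat_lit 228) (nat_lit 16338351908) (nat_lit 76) (nat_lit 25449199161) (nat_lit 29) (nat_lit 5) (nat_lit 32) (nat_lit 5) (nat_lit 30) (nat_lit 5) (nat_lit 369) (nat_lit 284) (nat_lit 127)))) (XT.nd (nat_lit 78) (nat_lit 152) (nat_lit 0) (XT.lf (nat_lit 0) (nat_lit 6751672428) (nat_lit 228) (nat_lit 2124241087) (nat_lit 76) (nat_lit 34881701695) (nat_lit 29) (nat_lit 5) (nat_lit 32) (nat_lit 5) (nat_lit 30) (nat_lit 5) (nat_lit 370) (nat_lit 284) (nat_lit 126)) (XT.nd (nat_lit 78) (nat_lit 0) (nat_lit 0) (XT.lf (nat_lit 0) (nat_lit 12757289499) (nat_lit 152) (nat_lit 80669517) (nat_lit 228) (nat_lit 31959532016) (nat_lit 27) (nat_lit 5) (nat_lit 29) (nat_lit 5) (nat_lit 30) (nat_lit 5) (nat_lit 371) (nat_lit 284) (nat_lit 125)) (XT.lf (nat_lit 0) (nat_lit 19210030168) (nat_lit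 228) (nat_lit 17833609494) (nat_lit 76) (nat_lit 8821831158) (nat_lit 27) (nat_lit 5) (nat_lit 30) (nat_lit 5) (nat_lit 28) (nat_lit 5) (nat_lit 372) (nat_lit 284) (nat_lit 124))))))))
noncomputable def xc173 : XT := (XT.nd (nat_lit 34164) (nat_lit 0) (nat_lit 8436) (XT.nd (nat_lit 936) (nat_lit 228) (nat_lit 0) (XT.nd (nat_lit 468) (nat_lit 228) (nat_lit 0) (XT.nd (nat_lit 234) (nat_lit 152) (nat_lit 0) (XT.nd (nat_lit 78) (nat_lit 152) (nat_lit 0) (XT.lf (nat_lit 0) (nat_lit 25769427921) (nat_lit 228) (nat_lit 3209368096) (nat_lit 76) (nat_lit 17986812515) (nat_lit 27) (nat_lit 5) (nat_lit 30) (nat_lit 5) (nat_lit 28) (nat_lit 5) (nat_lit 373) (nat_lit 284) (nat_lit 123)) (XT.nd (nat_lit 78) (nat_lit 0) (nat_lit 0) (XT.lf (nat_lit 0) (nat_lit 12081836718) (nat_lit 152) (nat_lit 20555409631) (nat_lit 228) (nat_lit 15458158228) (nat_lit 25) (nat_lit 5) (nat_lit 27) (nat_lit 5) (nat_lit 28) (nat_lit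 5) (nat_lit 374) (nat_lit 284) (nat_lit 122)) (XT.lf (nat_lit 0) (nat_lit 27890116365) (nat_lit 152) (nat_lit 11848951459) (nat_lit 228) (nat_lit 9519190891) (nat_lit 25) (nat_lit 5) (nat_lit 27) (nat_lit 5) (nat_lit 28) (nat_lit 5) (nat_lit 375) (nat_lit 284) (nat_lit 121)))) (XT.nd (nat_lit 78) (nat_lit 152) (nat_lit 0) (XT.lf (nat_lit 0) (nat_lit 44165411187) (nat_lit 152) (nat_lit 2884222240) (nat_lit 228) (nat_lit 3406497537) (nat_lit 25) (nat_lit 5) (nat_lit 27) (nat_lit 5) (nat_lit 28) (nat_lit 5) (nat_lit 376) (nat_lit 284) (nat_lit 120)) (XT.nd (nat_lit 78) (nat_lit 0) (nat_lit 0) (XT.lf (nat_lit 0) (nat_lit 2981373354) (nat_lit 152) (nat_lit 42361384592) (nat_lit 76) (nat_lit 6341905647) (nat_lit 23) (nat_lit 5) (nat_lit 25) (nat_lit 5) (nat_lit 24) (nat_lit 5) (nat_lit 377) (nat_lit 284) (nat_lit 119)) (XT.lf (nat_lit 0) (nat_lit 9580921228) (nat_lit 152) (nat_lit 27483549023) (nat_lit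 76) (nat_lit 15881917780) (nat_lit 23) (nat_lit 5) (nat_lit 25) (nat_lit 5) (nat_lit 24) (nat_lit 5) (nat_lit 378) (nat_lit 284) (nat_lit 118))))) (XT.nd (nat_lit 234) (nat_lit 76) (nat_lit 0) (XT.nd (nat_lit 78) (nat_lit 152) (nat_lit 0) (XT.lf (nat_lit 0) (nat_lit 16374376453) (nat_lit 152) (nat_lit 12166310976) (nat_lit 76) (nat_lit 25705401962) (nat_lit 23) (nat_lit 5) (nat_lit 25) (nat_lit 5) (nat_lit 24) (nat_lit 5) (nat_lit 379) (nat_lit 284) (nat_lit 117)) (XT.nd (nat_lit 78) (nat_lit 0) (nat_lit 0) (XT.lf (nat_lit 0) (nat_lit 3675434507) (nat_lit 152) (nat_lit 19727571076) (nat_lit 228) (nat_lit 32180837838) (nat_lit 21) (nat_lit 5) (nat_lit 23) (nat_lit 5) (nat_lit 24) (nat_lit 5) (nat_lit 380) (nat_lit 284) (nat_lit 116)) (XT.lf (nat_lit 0) (nat_lit 20235165120) (nat_lit 152) (nat_lit 10526275358) (nat_lit 228) (nat_lit 26196723842) (nat_lit 21) (nat_lit 5) (nat_lit 23) (nat_lit 5)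 (nat_lit 24) (nat_lit 5) (nat_lit 381) (nat_lit 284) (nat_lit 115)))) (XT.nd (nat_lit 78) (nat_lit 76) (nat_lit 0) (XT.lf (nat_lit 0) (nat_lit 37285217086) (nat_lit 152) (nat_lit 1051616194) (nat_lit 228) (nat_lit 20036997998) (nat_lit 21) (nat_lit 5) (nat_lit 23) (nat_lit 5) (nat_lit 24) (nat_lit 5) (nat_lit 382) (nat_lit 284) (nat_lit 114)) (XT.nd (nat_lit 78) (nat_lit 76) (nat_lit 0) (XT.lf (nat_lit 0) (nat_lit 46219478025) (nat_lit 228) (nat_lit 5075267539) (nat_lit 76) (nat_lit 8534825480) (nat_lit 21) (nat_lit 5) (nat_lit 24) (nat_lit 5) (nat_lit 22) (nat_lit 4) (nat_lit 383) (nat_lit 284) (nat_lit 113)) (XT.lf (nat_lit 0) (nat_lit 11628802662) (nat_lit 76) (nat_lit 42828393131) (nat_lit 152) (nat_lit 6868231830) (nat_lit 20) (nat_lit 5) (nat_lit 21) (nat_lit 5) (nat_lit 22) (nat_lit 4) (nat_lit 384) (nat_lit 284) (nat_lit 112)))))) (XT.nd (nat_lit 468) (nat_lit 0) (nat_lit 0) (XT.nd (nat_lit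 234) (nat_lit 152) (nat_lit 0) (XT.nd (nat_lit 78) (nat_lit 0) (nat_lit 0) (XT.lf (nat_lit 0) (nat_lit 122569070) (nat_lit 152) (nat_lit 33934024098) (nat_lit 76) (nat_lit 28808102198) (nat_lit 19) (nat_lit 5) (nat_lit 21) (nat_lit 5) (nat_lit 20) (nat_lit 5) (nat_lit 385) (nat_lit 284) (nat_lit 111)) (XT.nd (nat_lit 78) (nat_lit 0) (nat_lit 0) (XT.lf (nat_lit 0) (nat_lit 7181560979) (nat_lit 152) (nat_lit 17772564787) (nat_lit 76) (nat_lit 39494082182) (nat_lit 19) (nat_lit 5) (nat_lit 21) (nat_lit 5) (nat_lit 20) (nat_lit 5) (nat_lit 386) (nat_lit 284) (nat_lit 110)) (XT.lf (nat_lit 0) (nat_lit 14448935888) (nat_lit 152) (nat_lit 1132103718) (nat_lit 76) (nat_lit 50498290063) (nat_lit 19) (nat_lit 5) (nat_lit 21) (nat_lit 5) (nat_lit 20) (nat_lit 5) (nat_lit 387) (nat_lit 284) (nat_lit 109)))) (XT.nd (nat_lit 78) (nat_lit 0) (nat_lit 0) (XT.lf (nat_lit 0) (nat_lit 16320368489) (nat_lit 152)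 (nat_lit 5767556808) (nat_lit 228) (nat_lit 45666854043) (nat_lit 17) (nat_lit 5) (nat_lit 19) (nat_lit 5) (nat_lit 20) (nat_lit 5) (nat_lit 388) (nat_lit 284) (nat_lit 108)) (XT.nd (nat_lit 78) (nat_lit 0) (nat_lit 0) (XT.lf (nat_lit 0) (nat_lit 30006082407) (nat_lit 228) (nat_lit 35208055666) (nat_lit 76) (nat_lit 4264856524) (nat_lit 17) (nat_lit 5) (nat_lit 20) (nat_lit 5) (nat_lit 18) (nat_lit 4) (nat_lit 389) (nat_lit 284) (nat_lit 107)) (XT.lf (nat_lit 0) (nat_lit 38215714857) (nat_lit 228) (nat_lit 18557541438) (nat_lit 76) (nat_lit 14480064073) (nat_lit 17) (nat_lit 5) (nat_lit 20) (nat_lit 5) (nat_lit 18) (nat_lit 4) (nat_lit 390) (nat_lit 284) (nat_lit 106))))) (XT.nd (nat_lit 32526) (nat_lit 0) (nat_lit 13528) (XT.nd (nat_lit 32370) (nat_lit 0) (nat_lit 13528) (XT.lf (nat_lit 0) (nat_lit 46668554831) (nat_lit 228) (nat_lit 1412877890) (nat_lit 76) (nat_lit 24999537554) (nat_lit 17)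 (nat_lit 5) (nat_lit 20) (nat_lit 5) (nat_lit 18) (nat_lit 4) (nat_lit 391) (nat_lit 284) (nat_lit 105)) (XT.nd (nat_lit 78) (nat_lit 0) (nat_lit 0) (XT.lf (nat_lit 0) (nat_lit 56419570) (nat_lit 0) (nat_lit 56419570) (nat_lit 988) (nat_lit 4473750047) (nat_lit 195) (nat_lit 5) (nat_lit 195) (nat_lit 3) (nat_lit 208) (nat_lit 3) (nat_lit 285) (nat_lit 285) (nat_lit 210)) (XT.lf (nat_lit 0) (nat_lit 1065760355) (nat_lit 988) (nat_lit 5065852123) (nat_lit 1064) (nat_lit 3152546597) (nat_lit 195) (nat_lit 5) (nat_lit 208) (nat_lit 3) (nat_lit 209) (nat_lit 5) (nat_lit 286) (nat_lit 285) (nat_lit 209)))) (XT.nd (nat_lit 78) (nat_lit 0) (nat_lit 76) (XT.lf (nat_lit 0) (nat_lit 1900865545) (nat_lit 988) (nat_lit 969525221) (nat_lit 1064) (nat_lit 6529042980) (nat_lit 195) (nat_lit 5) (nat_lit 208) (nat_lit 3) (nat_lit 209) (nat_lit 5) (nat_lit 287) (nat_lit 285) (nat_lit 208)) (XT.nd (nat_lit 78) (nat_lit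 0) (nat_lit 0) (XT.lf (nat_lit 0) (nat_lit 2767483739) (nat_lit 988) (nat_lit 6225675888) (nat_lit 1064) (nat_lit 524870679) (nat_lit 196) (nat_lit 5) (nat_lit 209) (nat_lit 5) (nat_lit 210) (nat_lit 5) (nat_lit 288) (nat_lit 285) (nat_lit 207)) (XT.lf (nat_lit 0) (nat_lit 3668880545) (nat_lit 988) (nat_lit 1983742863) (nat_lit 1064) (nat_lit 3987353723) (nat_lit 196) (nat_lit 5) (nat_lit 209) (nat_lit 5) (nat_lit 210) (nat_lit 5) (nat_lit 289) (nat_lit 285) (nat_lit 206))))))) (XT.nd (nat_lit 936) (nat_lit 4256) (nat_lit 0) (XT.nd (nat_lit 468) (nat_lit 912) (nat_lit 0) (XT.nd (nat_lit 234) (nat_lit 0) (nat_lit 76) (XT.nd (nat_lit 78) (nat_lit 0) (nat_lit 76) (XT.lf (nat_lit 76) (nat_lit 2415792925) (nat_lit 0) (nat_lit 2176081536) (nat_lit 1064) (nat_lit 5173925392) (nat_lit 197) (nat_lit 5) (nat_lit 196) (nat_lit 5) (nat_lit 210) (nat_lit 5) (nat_lit 290) (nat_lit 285) (nat_lit 205)) (XT.nd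 (nat_lit 78) (nat_lit 0) (nat_lit 0) (XT.lf (nat_lit 0) (nat_lit 5548409238) (nat_lit 988) (nat_lit 2938151351) (nat_lit 1064) (nat_lit 1408713705) (nat_lit 197) (nat_lit 5) (nat_lit 210) (nat_lit 5) (nat_lit 211) (nat_lit 5) (nat_lit 291) (nat_lit 285) (nat_lit 204)) (XT.lf (nat_lit 76) (nat_lit 1598589440) (nat_lit 0) (nat_lit 4944892128) (nat_lit 1064) (nat_lit 3484907194) (nat_lit 198) (nat_lit 5) (nat_lit 197) (nat_lit 5) (nat_lit 211) (nat_lit 5) (nat_lit 292) (nat_lit 285) (nat_lit 203)))) (XT.nd (nat_lit 78) (nat_lit 0) (nat_lit 76) (XT.lf (nat_lit 76) (nat_lit 6314710187) (nat_lit 0) (nat_lit 1256920491) (nat_lit 1064) (nat_lit 2593818801) (nat_lit 198) (nat_lit 5) (nat_lit 197) (nat_lit 5) (nat_lit 211) (nat_lit 5) (nat_lit 293) (nat_lit 285) (nat_lit 202)) (XT.nd (nat_lit 78) (nat_lit 0) (nat_lit 0) (XT.lf (nat_lit 76) (nat_lit 840292685) (nat_lit 0) (nat_lit 7797255146) (nat_lit 1064)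 (nat_lit 1668914586) (nat_lit 199) (nat_lit 5) (nat_lit 198) (nat_lit 5) (nat_lit 212) (nat_lit 5) (nat_lit 294) (nat_lit 285) (nat_lit 201)) (XT.lf (nat_lit 76) (nat_lit 5721105104) (nat_lit 0) (nat_lit 4040538887) (nat_lit 1064) (nat_lit 689322417) (nat_lit 199) (nat_lit 5) (nat_lit 198) (nat_lit 5) (nat_lit 212) (nat_lit 5) (nat_lit 295) (nat_lit 285) (nat_lit 200))))) (XT.nd (nat_lit 234) (nat_lit 0) (nat_lit 152) (XT.nd (nat_lit 78) (nat_lit 0) (nat_lit 76) (XT.lf (nat_lit 76) (nat_lit 130789274) (nat_lit 0) (nat_lit 159325122) (nat_lit 1140) (nat_lit 10310342129) (nat_lit 185) (nat_lit 5) (nat_lit 184) (nat_lit 5) (nat_lit 199) (nat_lit 5) (nat_lit 296) (nat_lit 285) (nat_lit 199)) (XT.nd (nat_lit 78) (nat_lit 0) (nat_lit 0) (XT.lf (nat_lit 0) (nat_lit 1346266781) (nat_lit 1064) (nat_lit 5580863348) (nat_lit 1140) (nat_lit 3825303598) (nat_lit 185) (nat_lit 5) (nat_lit 199) (nat_lit 5) (nat_lit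 200) (nat_lit 5) (nat_lit 297) (nat_lit 285) (nat_lit 198)) (XT.lf (nat_lit 0) (nat_lit 2412434236) (nat_lit 1064) (nat_lit 564339371) (nat_lit 1140) (nat_lit 7932888222) (nat_lit 185) (nat_lit 5) (nat_lit 199) (nat_lit 5) (nat_lit 200) (nat_lit 5) (nat_lit 298) (nat_lit 285) (nat_lit 197)))) (XT.nd (nat_lit 78) (nat_lit 0) (nat_lit 0) (XT.lf (nat_lit 0) (nat_lit 3543973741) (nat_lit 1064) (nat_lit 6404886898) (nat_lit 1140) (nat_lit 1121784814) (nat_lit 186) (nat_lit 5) (nat_lit 200) (nat_lit 5) (nat_lit 201) (nat_lit 5) (nat_lit 299) (nat_lit 285) (nat_lit 196)) (XT.nd (nat_lit 78) (nat_lit 0) (nat_lit 0) (XT.lf (nat_lit 0) (nat_lit 4722666282) (nat_lit 1064) (nat_lit 1218937672) (nat_lit 1140) (nat_lit 5294497543) (nat_lit 186) (nat_lit 5) (nat_lit 200) (nat_lit 5) (nat_lit 201) (nat_lit 5) (nat_lit 300) (nat_lit 285) (nat_lit 195)) (XT.lf (nat_lit 76) (nat_lit 4187360276) (nat_lit 0) (nat_lit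 1768230889) (nat_lit 1140) (nat_lit 5450401888) (nat_lit 187) (nat_lit 5) (nat_lit 186) (nat_lit 5) (nat_lit 201) (nat_lit 5) (nat_lit 301) (nat_lit 285) (nat_lit 194)))))) (XT.nd (nat_lit 468) (nat_lit 1672) (nat_lit 0) (XT.nd (nat_lit 234) (nat_lit 1748) (nat_lit 0) (XT.nd (nat_lit 78) (nat_lit 1064) (nat_lit 0) (XT.lf (nat_lit 0) (nat_lit 7241379163) (nat_lit 1064) (nat_lit 1841701395) (nat_lit 76) (nat_lit 2497461410) (nat_lit 187) (nat_lit 5) (nat_lit 201) (nat_lit 5) (nat_lit 188) (nat_lit 5) (nat_lit 302) (nat_lit 285) (nat_lit 193)) (XT.nd (nat_lit 78) (nat_lit 0) (nat_lit 0) (XT.lf (nat_lit 0) (nat_lit 3734943559) (nat_lit 1064) (nat_lit 4863936560) (nat_lit 1140) (nat_lit 3160488847) (nat_lit 173) (nat_lit 5) (nat_lit 187) (nat_lit 5) (nat_lit 188) (nat_lit 5) (nat_lit 303) (nat_lit 285) (nat_lit 192)) (XT.lf (nat_lit 0) (nat_lit 9499837965) (nat_lit 1064) (nat_lit 496024117) (nat_lit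 1140) (nat_lit 1947770769) (nat_lit 173) (nat_lit 5) (nat_lit 187) (nat_lit 5) (nat_lit 188) (nat_lit 5) (nat_lit 304) (nat_lit 285) (nat_lit 191)))) (XT.nd (nat_lit 78) (nat_lit 608) (nat_lit 0) (XT.lf (nat_lit 0) (nat_lit 3313480341) (nat_lit 1140) (nat_lit 8172367605) (nat_lit 1216) (nat_lit 646077615) (nat_lit 158) (nat_lit 5) (nat_lit 173) (nat_lit 5) (nat_lit 174) (nat_lit 5) (nat_lit 305) (nat_lit 285) (nat_lit 190)) (XT.nd (nat_lit 78) (nat_lit 532) (nat_lit 0) (XT.lf (nat_lit 0) (nat_lit 691888823) (nat_lit 1216) (nat_lit 3060588923) (nat_lit 76) (nat_lit 8572897447) (nat_lit 157) (nat_lit 5) (nat_lit 173) (nat_lit 5) (nat_lit 158) (nat_lit 5) (nat_lit 306) (nat_lit 285) (nat_lit 189)) (XT.lf (nat_lit 0) (nat_lit 2074466724) (nat_lit 608) (nat_lit 9628664304) (nat_lit 76) (nat_lit 820812522) (nat_lit 150) (nat_lit 5) (nat_lit 158) (nat_lit 5) (nat_lit 151) (nat_lit 5) (nat_lit 307) (nat_lit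 285) (nat_lit 188))))) (XT.nd (nat_lit 234) (nat_lit 1064) (nat_lit 0) (XT.nd (nat_lit 78) (nat_lit 608) (nat_lit 0) (XT.lf (nat_lit 0) (nat_lit 3548782243) (nat_lit 608) (nat_lit 3689561101) (nat_lit 76) (nat_lit 5488647786) (nat_lit 150) (nat_lit 5) (nat_lit 158) (nat_lit 5) (nat_lit 151) (nat_lit 5) (nat_lit 308) (nat_lit 285) (nat_lit 187)) (XT.nd (nat_lit 78) (nat_lit 0) (nat_lit 0) (XT.lf (nat_lit 0) (nat_lit 2459076749) (nat_lit 608) (nat_lit 2614311045) (nat_lit 684) (nat_lit 7862589632) (nat_lit 142) (nat_lit 5) (nat_lit 150) (nat_lit 5) (nat_lit 151) (nat_lit 5) (nat_lit 309) (nat_lit 285) (nat_lit 186)) (XT.lf (nat_lit 0) (nat_lit 6684793357) (nat_lit 684) (nat_lit 4320343719) (nat_lit 76) (nat_lit 2144892638) (nat_lit 142) (nat_lit 5) (nat_lit 151) (nat_lit 5) (nat_lit 143) (nat_lit 5) (nat_lit 310) (nat_lit 285) (nat_lit 185)))) (XT.nd (nat_lit 78) (nat_lit 532) (nat_lit 0) (XT.lf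 (nat_lit 0) (nat_lit 2017884176) (nat_lit 532) (nat_lit 6355223254) (nat_lit 608) (nat_lit 4996566587) (nat_lit 135) (nat_lit 5) (nat_lit 142) (nat_lit 5) (nat_lit 143) (nat_lit 5) (nat_lit 311) (nat_lit 285) (nat_lit 184)) (XT.nd (nat_lit 78) (nat_lit 532) (nat_lit 0) (XT.lf (nat_lit 0) (nat_lit 8618465966) (nat_lit 532) (nat_lit 1520846524) (nat_lit 608) (nat_lit 3455804549) (nat_lit 135) (nat_lit 5) (nat_lit 142) (nat_lit 5) (nat_lit 143) (nat_lit 5) (nat_lit 312) (nat_lit 285) (nat_lit 183)) (XT.lf (nat_lit 0) (nat_lit 1570764566) (nat_lit 532) (nat_lit 10420176181) (nat_lit 608) (nat_lit 1835435354) (nat_lit 128) (nat_lit 5) (nat_lit 135) (nat_lit 5) (nat_lit 136) (nat_lit 5) (nat_lit 313) (nat_lit 285) (nat_lit 182))))))))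
noncomputable def xc174 : XT := (XT.nd (nat_lit 1794) (nat_lit 2812) (nat_lit 0) (XT.nd (nat_lit 858) (nat_lit 1824) (nat_lit 0) (XT.nd (nat_lit 390) (nat_lit 1292) (nat_lit 0) (XT.nd (nat_lit 156) (nat_lit 456) (nat_lit 0) (XT.nd (nat_lit 78) (nat_lit 532) (nat_lit 0) (XT.lf (nat_lit 0) (nat_lit 8385039434) (nat_lit 532) (nat_lit 5562642581) (nat_lit 608) (nat_lit 115429102) (nat_lit 128) (nat_lit 5) (nat_lit 135) (nat_lit 5) (nat_lit 136) (nat_lit 5) (nat_lit 314) (nat_lit 285) (nat_lit 181)) (XT.lf (nat_lit 0) (nat_lit 1085987486) (nat_lit 456) (nat_lit 532991050) (nat_lit 532) (nat_lit 12687662133) (nat_lit 121) (nat_lit 5) (nat_lit 127) (nat_lit 5) (nat_lit 128) (nat_lit 5) (nat_lit 315) (nat_lit 285) (nat_lit 180))) (XT.nd (nat_lit 78) (nat_lit 456) (nat_lit 0) (XT.lf (nat_lit 0) (nat_lit 3490643167) (nat_lit 532) (nat_lit 6449164082) (nat_lit 76) (nat_lit 4615031207) (nat_lit 121) (nat_lit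 5) (nat_lit 128) (nat_lit 5) (nat_lit 122) (nat_lit 5) (nat_lit 316) (nat_lit 285) (nat_lit 179)) (XT.nd (nat_lit 78) (nat_lit 0) (nat_lit 0) (XT.lf (nat_lit 0) (nat_lit 514320272) (nat_lit 456) (nat_lit 4899761080) (nat_lit 532) (nat_lit 9396554424) (nat_lit 115) (nat_lit 5) (nat_lit 121) (nat_lit 5) (nat_lit 122) (nat_lit 5) (nat_lit 317) (nat_lit 285) (nat_lit 178)) (XT.lf (nat_lit 0) (nat_lit 7449455861) (nat_lit 532) (nat_lit 7272879526) (nat_lit 76) (nat_lit 350166291) (nat_lit 115) (nat_lit 5) (nat_lit 122) (nat_lit 5) (nat_lit 116) (nat_lit 5) (nat_lit 318) (nat_lit 285) (nat_lit 177))))) (XT.nd (nat_lit 234) (nat_lit 912) (nat_lit 0) (XT.nd (nat_lit 78) (nat_lit 380) (nat_lit 0) (XT.lf (nat_lit 0) (nat_lit 9580484214) (nat_lit 532) (nat_lit 102971586) (nat_lit 76) (nat_lit 5657751005) (nat_lit 115) (nat_lit 5) (nat_lit 122) (nat_lit 5) (nat_lit 116) (nat_lit 5) (nat_lit 319) (nat_lit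 285) (nat_lit 176)) (XT.nd (nat_lit 78) (nat_lit 0) (nat_lit 0) (XT.lf (nat_lit 0) (nat_lit 7411395811) (nat_lit 380) (nat_lit 4421776035) (nat_lit 456) (nat_lit 3783089804) (nat_lit 110) (nat_lit 5) (nat_lit 115) (nat_lit 5) (nat_lit 116) (nat_lit 5) (nat_lit 320) (nat_lit 285) (nat_lit 175)) (XT.lf (nat_lit 0) (nat_lit 14150797423) (nat_lit 456) (nat_lit 771344474) (nat_lit 76) (nat_lit 977525343) (nat_lit 110) (nat_lit 5) (nat_lit 116) (nat_lit 5) (nat_lit 111) (nat_lit 5) (nat_lit 321) (nat_lit 285) (nat_lit 174)))) (XT.nd (nat_lit 78) (nat_lit 380) (nat_lit 0) (XT.lf (nat_lit 0) (nat_lit 438375227) (nat_lit 532) (nat_lit 9230757087) (nat_lit 76) (nat_lit 6519398753) (nat_lit 103) (nat_lit 5) (nat_lit 110) (nat_lit 5) (nat_lit 104) (nat_lit 5) (nat_lit 322) (nat_lit 285) (nat_lit 173)) (XT.nd (nat_lit 78) (nat_lit 380) (nat_lit 0) (XT.lf (nat_lit 0) (nat_lit 2651144938) (nat_lit 532) (nat_lit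 1583826885) (nat_lit 76) (nat_lit 12250735922) (nat_lit 103) (nat_lit 5) (nat_lit 110) (nat_lit 5) (nat_lit 104) (nat_lit 5) (nat_lit 323) (nat_lit 285) (nat_lit 172)) (XT.lf (nat_lit 0) (nat_lit 4993090854) (nat_lit 456) (nat_lit 10401317088) (nat_lit 76) (nat_lit 1395525598) (nat_lit 98) (nat_lit 5) (nat_lit 104) (nat_lit 5) (nat_lit 99) (nat_lit 5) (nat_lit 324) (nat_lit 285) (nat_lit 171)))))) (XT.nd (nat_lit 468) (nat_lit 684) (nat_lit 0) (XT.nd (nat_lit 234) (nat_lit 760) (nat_lit 0) (XT.nd (nat_lit 78) (nat_lit 380) (nat_lit 0) (XT.lf (nat_lit 0) (nat_lit 7451141142) (nat_lit 456) (nat_lit 2527153722) (nat_lit 76) (nat_lit 7123632961) (nat_lit 98) (nat_lit 5) (nat_lit 104) (nat_lit 5) (nat_lit 99) (nat_lit 5) (nat_lit 325) (nat_lit 285) (nat_lit 170)) (XT.nd (nat_lit 78) (nat_lit 0) (nat_lit 0) (XT.lf (nat_lit 0) (nat_lit 5679539868) (nat_lit 380) (nat_lit 4346108361) (nat_lit 456) (nat_lit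 7396368851) (nat_lit 93) (nat_lit 5) (nat_lit 98) (nat_lit 5) (nat_lit 99) (nat_lit 5) (nat_lit 326) (nat_lit 285) (nat_lit 169)) (XT.lf (nat_lit 0) (nat_lit 12705451092) (nat_lit 456) (nat_lit 3595665248) (nat_lit 76) (nat_lit 1449766973) (nat_lit 93) (nat_lit 5) (nat_lit 99) (nat_lit 5) (nat_lit 94) (nat_lit 5) (nat_lit 327) (nat_lit 285) (nat_lit 168)))) (XT.nd (nat_lit 78) (nat_lit 456) (nat_lit 0) (XT.lf (nat_lit 0) (nat_lit 4832528277) (nat_lit 304) (nat_lit 10711246306) (nat_lit 380) (nat_lit 2543512797) (nat_lit 89) (nat_lit 5) (nat_lit 93) (nat_lit 5) (nat_lit 94) (nat_lit 5) (nat_lit 328) (nat_lit 285) (nat_lit 167)) (XT.nd (nat_lit 78) (nat_lit 380) (nat_lit 0) (XT.lf (nat_lit 0) (nat_lit 58191764) (nat_lit 380) (nat_lit 4860491591) (nat_lit 76) (nat_lit 13514343896) (nat_lit 88) (nat_lit 5) (nat_lit 93) (nat_lit 5) (nat_lit 89) (nat_lit 5) (nat_lit 329) (nat_lit 285) (nat_lit 166))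 (XT.lf (nat_lit 0) (nat_lit 2723250693) (nat_lit 456) (nat_lit 14977269632) (nat_lit 76) (nat_lit 1086785054) (nat_lit 83) (nat_lit 5) (nat_lit 89) (nat_lit 5) (nat_lit 84) (nat_lit 5) (nat_lit 330) (nat_lit 285) (nat_lit 165))))) (XT.nd (nat_lit 234) (nat_lit 380) (nat_lit 0) (XT.nd (nat_lit 78) (nat_lit 304) (nat_lit 0) (XT.lf (nat_lit 0) (nat_lit 5555726068) (nat_lit 456) (nat_lit 6373753831) (nat_lit 76) (nat_lit 7220121912) (nat_lit 83) (nat_lit 5) (nat_lit 89) (nat_lit 5) (nat_lit 84) (nat_lit 5) (nat_lit 331) (nat_lit 285) (nat_lit 164)) (XT.nd (nat_lit 78) (nat_lit 0) (nat_lit 0) (XT.lf (nat_lit 0) (nat_lit 2523376684) (nat_lit 304) (nat_lit 5963567350) (nat_lit 380) (nat_lit 11035423549) (nat_lit 79) (nat_lit 5) (nat_lit 83) (nat_lit 5) (nat_lit 84) (nat_lit 5) (nat_lit 332) (nat_lit 285) (nat_lit 163)) (XT.lf (nat_lit 0) (nat_lit 11562496501) (nat_lit 380) (nat_lit 8102576118) (nat_lit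 76) (nat_lit 239564875) (nat_lit 79) (nat_lit 5) (nat_lit 84) (nat_lit 5) (nat_lit 80) (nat_lit 5) (nat_lit 333) (nat_lit 285) (nat_lit 162)))) (XT.nd (nat_lit 78) (nat_lit 76) (nat_lit 0) (XT.lf (nat_lit 0) (nat_lit 1007870302) (nat_lit 304) (nat_lit 13781135335) (nat_lit 380) (nat_lit 5507621884) (nat_lit 75) (nat_lit 5) (nat_lit 79) (nat_lit 5) (nat_lit 80) (nat_lit 5) (nat_lit 334) (nat_lit 285) (nat_lit 161)) (XT.nd (nat_lit 78) (nat_lit 76) (nat_lit 0) (XT.lf (nat_lit 0) (nat_lit 10544374402) (nat_lit 304) (nat_lit 7639876578) (nat_lit 380) (nat_lit 2513980391) (nat_lit 75) (nat_lit 5) (nat_lit 79) (nat_lit 5) (nat_lit 80) (nat_lit 5) (nat_lit 335) (nat_lit 285) (nat_lit 160)) (XT.lf (nat_lit 0) (nat_lit 548659751) (nat_lit 380) (nat_lit 763550192) (nat_lit 76) (nat_lit 19799811758) (nat_lit 74) (nat_lit 5) (nat_lit 79) (nat_lit 5) (nat_lit 75) (nat_lit 5) (nat_lit 336) (nat_lit 285) (nat_lit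 159))))))) (XT.nd (nat_lit 936) (nat_lit 1140) (nat_lit 0) (XT.nd (nat_lit 468) (nat_lit 836) (nat_lit 0) (XT.nd (nat_lit 234) (nat_lit 228) (nat_lit 0) (XT.nd (nat_lit 78) (nat_lit 304) (nat_lit 0) (XT.lf (nat_lit 0) (nat_lit 3781314976) (nat_lit 380) (nat_lit 12538937134) (nat_lit 76) (nat_lit 5213378276) (nat_lit 70) (nat_lit 5) (nat_lit 75) (nat_lit 5) (nat_lit 71) (nat_lit 5) (nat_lit 337) (nat_lit 285) (nat_lit 158)) (XT.nd (nat_lit 78) (nat_lit 304) (nat_lit 0) (XT.lf (nat_lit 0) (nat_lit 7122432971) (nat_lit 380) (nat_lit 2932302320) (nat_lit 76) (nat_lit 11912818521) (nat_lit 70) (nat_lit 5) (nat_lit 75) (nat_lit 5) (nat_lit 71) (nat_lit 5) (nat_lit 338) (nat_lit 285) (nat_lit 157)) (XT.lf (nat_lit 0) (nat_lit 7088312361) (nat_lit 304) (nat_lit 3534584326) (nat_lit 380) (nat_lit 11789835543) (nat_lit 66) (nat_lit 5) (nat_lit 70) (nat_lit 5) (nat_lit 71) (nat_lit 5) (nat_lit 339) (nat_lit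 285) (nat_lit 156)))) (XT.nd (nat_lit 78) (nat_lit 228) (nat_lit 0) (XT.lf (nat_lit 0) (nat_lit 14279941905) (nat_lit 380) (nat_lit 5444253004) (nat_lit 76) (nat_lit 3145534409) (nat_lit 66) (nat_lit 5) (nat_lit 71) (nat_lit 5) (nat_lit 67) (nat_lit 5) (nat_lit 340) (nat_lit 285) (nat_lit 155)) (XT.nd (nat_lit 78) (nat_lit 0) (nat_lit 0) (XT.lf (nat_lit 0) (nat_lit 4778275426) (nat_lit 228) (nat_lit 13340694864) (nat_lit 304) (nat_lit 5219307915) (nat_lit 63) (nat_lit 5) (nat_lit 66) (nat_lit 5) (nat_lit 67) (nat_lit 5) (nat_lit 341) (nat_lit 285) (nat_lit 154)) (XT.lf (nat_lit 0) (nat_lit 15406913119) (nat_lit 228) (nat_lit 6712712051) (nat_lit 304) (nat_lit 1699874470) (nat_lit 63) (nat_lit 5) (nat_lit 66) (nat_lit 5) (nat_lit 67) (nat_lit 5) (nat_lit 342) (nat_lit 285) (nat_lit 153))))) (XT.nd (nat_lit 234) (nat_lit 456) (nat_lit 0) (XT.nd (nat_lit 78) (nat_lit 0) (nat_lit 0) (XT.lf (nat_lit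 0) (nat_lit 1900345819) (nat_lit 380) (nat_lit 22266976975) (nat_lit 76) (nat_lit 146905837) (nat_lit 58) (nat_lit 5) (nat_lit 63) (nat_lit 5) (nat_lit 59) (nat_lit 5) (nat_lit 343) (nat_lit 285) (nat_lit 152)) (XT.nd (nat_lit 78) (nat_lit 0) (nat_lit 0) (XT.lf (nat_lit 0) (nat_lit 5718392002) (nat_lit 380) (nat_lit 11924143343) (nat_lit 76) (nat_lit 7176448604) (nat_lit 58) (nat_lit 5) (nat_lit 63) (nat_lit 5) (nat_lit 59) (nat_lit 5) (nat_lit 344) (nat_lit 285) (nat_lit 151)) (XT.lf (nat_lit 0) (nat_lit 9642951276) (nat_lit 380) (nat_lit 1282765571) (nat_lit 76) (nat_lit 14413414590) (nat_lit 58) (nat_lit 5) (nat_lit 63) (nat_lit 5) (nat_lit 59) (nat_lit 5) (nat_lit 345) (nat_lit 285) (nat_lit 150)))) (XT.nd (nat_lit 78) (nat_lit 228) (nat_lit 0) (XT.lf (nat_lit 0) (nat_lit 9858836031) (nat_lit 228) (nat_lit 3913386001) (nat_lit 304) (nat_lit 12100060490) (nat_lit 55) (nat_lit 5) (nat_lit 58)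 (nat_lit 5) (nat_lit 59) (nat_lit 5) (nat_lit 346) (nat_lit 285) (nat_lit 149)) (XT.nd (nat_lit 78) (nat_lit 228) (nat_lit 0) (XT.lf (nat_lit 0) (nat_lit 18062553089) (nat_lit 304) (nat_lit 5103488706) (nat_lit 76) (nat_lit 3254279043) (nat_lit 55) (nat_lit 5) (nat_lit 59) (nat_lit 5) (nat_lit 56) (nat_lit 5) (nat_lit 347) (nat_lit 285) (nat_lit 148)) (XT.lf (nat_lit 0) (nat_lit 6204946070) (nat_lit 228) (nat_lit 16367554073) (nat_lit 304) (nat_lit 4409580906) (nat_lit 52) (nat_lit 5) (nat_lit 55) (nat_lit 5) (nat_lit 56) (nat_lit 5) (nat_lit 348) (nat_lit 285) (nat_lit 147)))))) (XT.nd (nat_lit 468) (nat_lit 608) (nat_lit 0) (XT.nd (nat_lit 234) (nat_lit 228) (nat_lit 0) (XT.nd (nat_lit 78) (nat_lit 304) (nat_lit 0) (XT.lf (nat_lit 0) (nat_lit 17946203586) (nat_lit 228) (nat_lit 9315703038) (nat_lit 304) (nat_lit 297470310) (nat_lit 52) (nat_lit 5) (nat_lit 55) (nat_lit 5) (nat_lit 56) (nat_lit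 5) (nat_lit 349) (nat_lit 285) (nat_lit 146)) (XT.nd (nat_lit 78) (nat_lit 0) (nat_lit 0) (XT.lf (nat_lit 0) (nat_lit 1873535695) (nat_lit 228) (nat_lit 1998395200) (nat_lit 304) (nat_lit 24280609262) (nat_lit 48) (nat_lit 5) (nat_lit 51) (nat_lit 5) (nat_lit 52) (nat_lit 5) (nat_lit 350) (nat_lit 285) (nat_lit 145)) (XT.lf (nat_lit 0) (nat_lit 8304544059) (nat_lit 304) (nat_lit 14926780292) (nat_lit 76) (nat_lit 5527769349) (nat_lit 48) (nat_lit 5) (nat_lit 52) (nat_lit 5) (nat_lit 49) (nat_lit 5) (nat_lit 351) (nat_lit 285) (nat_lit 144)))) (XT.nd (nat_lit 78) (nat_lit 228) (nat_lit 0) (XT.lf (nat_lit 0) (nat_lit 12882965060) (nat_lit 304) (nat_lit 3264412096) (nat_lit 76) (nat_lit 13236088649) (nat_lit 48) (nat_lit 5) (nat_lit 52) (nat_lit 5) (nat_lit 49) (nat_lit 5) (nat_lit 352) (nat_lit 285) (nat_lit 143)) (XT.nd (nat_lit 78) (nat_lit 0) (nat_lit 0) (XT.lf (nat_lit 0) (nat_lit 8911393732)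 (nat_lit 228) (nat_lit 8766252697) (nat_lit 304) (nat_lit 12346562049) (nat_lit 45) (nat_lit 5) (nat_lit 48) (nat_lit 5) (nat_lit 49) (nat_lit 5) (nat_lit 353) (nat_lit 285) (nat_lit 142)) (XT.lf (nat_lit 0) (nat_lit 21509165424) (nat_lit 228) (nat_lit 1133311376) (nat_lit 304) (nat_lit 8040913823) (nat_lit 45) (nat_lit 5) (nat_lit 48) (nat_lit 5) (nat_lit 49) (nat_lit 5) (nat_lit 354) (nat_lit 285) (nat_lit 141))))) (XT.nd (nat_lit 234) (nat_lit 380) (nat_lit 0) (XT.nd (nat_lit 78) (nat_lit 76) (nat_lit 0) (XT.lf (nat_lit 0) (nat_lit 3108404077) (nat_lit 152) (nat_lit 24735912413) (nat_lit 228) (nat_lit 3515396069) (nat_lit 43) (nat_lit 5) (nat_lit 45) (nat_lit 5) (nat_lit 46) (nat_lit 5) (nat_lit 355) (nat_lit 285) (nat_lit 140)) (XT.nd (nat_lit 78) (nat_lit 0) (nat_lit 0) (XT.lf (nat_lit 0) (nat_lit 1221835348) (nat_lit 228) (nat_lit 16139253411) (nat_lit 76) (nat_lit 14691961586) (nat_lit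 42) (nat_lit 5) (nat_lit 45) (nat_lit 5) (nat_lit 43) (nat_lit 5) (nat_lit 356) (nat_lit 285) (nat_lit 139)) (XT.lf (nat_lit 0) (nat_lit 6024244895) (nat_lit 228) (nat_lit 3708477780) (nat_lit 76) (nat_lit 23033615626) (nat_lit 42) (nat_lit 5) (nat_lit 45) (nat_lit 5) (nat_lit 43) (nat_lit 5) (nat_lit 357) (nat_lit 285) (nat_lit 138)))) (XT.nd (nat_lit 78) (nat_lit 152) (nat_lit 0) (XT.lf (nat_lit 0) (nat_lit 9266495085) (nat_lit 228) (nat_lit 1787207026) (nat_lit 304) (nat_lit 22444839085) (nat_lit 39) (nat_lit 5) (nat_lit 42) (nat_lit 5) (nat_lit 43) (nat_lit 5) (nat_lit 358) (nat_lit 285) (nat_lit 137)) (XT.nd (nat_lit 78) (nat_lit 152) (nat_lit 0) (XT.lf (nat_lit 0) (nat_lit 16327304770) (nat_lit 304) (nat_lit 11616316768) (nat_lit 76) (nat_lit 6306296185) (nat_lit 39) (nat_lit 5) (nat_lit 43) (nat_lit 5) (nat_lit 40) (nat_lit 5) (nat_lit 359) (nat_lit 285) (nat_lit 136)) (XT.lf (nat_lit 0)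 (nat_lit 1377746147) (nat_lit 152) (nat_lit 20406438172) (nat_lit 228) (nat_lit 13238904403) (nat_lit 37) (nat_lit 5) (nat_lit 39) (nat_lit 5) (nat_lit 40) (nat_lit 5) (nat_lit 360) (nat_lit 285) (nat_lit 135))))))))
noncomputable def xc175 : XT := (XT.nd (nat_lit 1872) (nat_lit 304) (nat_lit 0) (XT.nd (nat_lit 936) (nat_lit 456) (nat_lit 0) (XT.nd (nat_lit 468) (nat_lit 380) (nat_lit 0) (XT.nd (nat_lit 234) (nat_lit 152) (nat_lit 0) (XT.nd (nat_lit 78) (nat_lit 228) (nat_lit 0) (XT.lf (nat_lit 0) (nat_lit 14990517529) (nat_lit 152) (nat_lit 12525766888) (nat_lit 228) (nat_lit 8299830099) (nat_lit 37) (nat_lit 5) (nat_lit 39) (nat_lit 5) (nat_lit 40) (nat_lit 5) (nat_lit 361) (nat_lit 285) (nat_lit 134)) (XT.nd (nat_lit 78) (nat_lit 228) (nat_lit 0) (XT.lf (nat_lit 0) (nat_lit 29002704550) (nat_lit 152) (nat_lit 4412023684) (nat_lit 228) (nat_lit 3218376368) (nat_lit 37) (nat_lit 5) (nat_lit 39)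 (nat_lit 5) (nat_lit 40) (nat_lit 5) (nat_lit 362) (nat_lit 285) (nat_lit 133)) (XT.lf (nat_lit 0) (nat_lit 2067496835) (nat_lit 228) (nat_lit 31460582131) (nat_lit 76) (nat_lit 3943209672) (nat_lit 34) (nat_lit 5) (nat_lit 37) (nat_lit 5) (nat_lit 35) (nat_lit 5) (nat_lit 363) (nat_lit 285) (nat_lit 132)))) (XT.nd (nat_lit 78) (nat_lit 152) (nat_lit 0) (XT.lf (nat_lit 0) (nat_lit 7563289061) (nat_lit 228) (nat_lit 18200026255) (nat_lit 76) (nat_lit 12566870575) (nat_lit 34) (nat_lit 5) (nat_lit 37) (nat_lit 5) (nat_lit 35) (nat_lit 5) (nat_lit 364) (nat_lit 285) (nat_lit 131)) (XT.nd (nat_lit 78) (nat_lit 152) (nat_lit 0) (XT.lf (nat_lit 0) (nat_lit 13218644987) (nat_lit 228) (nat_lit 4550265549) (nat_lit 76) (nat_lit 21446103218) (nat_lit 34) (nat_lit 5) (nat_lit 37) (nat_lit 5) (nat_lit 35) (nat_lit 5) (nat_lit 365) (nat_lit 285) (nat_lit 130)) (XT.lf (nat_lit 0) (nat_lit 9689708068) (nat_lit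 152) (nat_lit 9441941519) (nat_lit 228) (nat_lit 20992101487) (nat_lit 32) (nat_lit 5) (nat_lit 34) (nat_lit 5) (nat_lit 35) (nat_lit 5) (nat_lit 366) (nat_lit 285) (nat_lit 129))))) (XT.nd (nat_lit 234) (nat_lit 228) (nat_lit 0) (XT.nd (nat_lit 78) (nat_lit 152) (nat_lit 0) (XT.lf (nat_lit 0) (nat_lit 24441877832) (nat_lit 152) (nat_lit 821030423) (nat_lit 228) (nat_lit 15795620479) (nat_lit 32) (nat_lit 5) (nat_lit 34) (nat_lit 5) (nat_lit 35) (nat_lit 5) (nat_lit 367) (nat_lit 285) (nat_lit 128)) (XT.nd (nat_lit 78) (nat_lit 152) (nat_lit 0) (XT.lf (nat_lit 0) (nat_lit 31650601453) (nat_lit 228) (nat_lit 2470360558) (nat_lit 76) (nat_lit 7898216826) (nat_lit 32) (nat_lit 5) (nat_lit 35) (nat_lit 5) (nat_lit 33) (nat_lit 5) (nat_lit 368) (nat_lit 285) (nat_lit 127)) (XT.lf (nat_lit 0) (nat_lit 12324767549) (nat_lit 152) (nat_lit 26026938234) (nat_lit 228) (nat_lit 4653293151) (nat_lit 30) (nat_lit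 5) (nat_lit 32) (nat_lit 5) (nat_lit 33) (nat_lit 5) (nat_lit 369) (nat_lit 285) (nat_lit 126)))) (XT.nd (nat_lit 78) (nat_lit 152) (nat_lit 0) (XT.lf (nat_lit 0) (nat_lit 1229765691) (nat_lit 228) (nat_lit 16425303676) (nat_lit 76) (nat_lit 26364360687) (nat_lit 29) (nat_lit 5) (nat_lit 32) (nat_lit 5) (nat_lit 30) (nat_lit 5) (nat_lit 370) (nat_lit 285) (nat_lit 125)) (XT.nd (nat_lit 78) (nat_lit 152) (nat_lit 0) (XT.lf (nat_lit 0) (nat_lit 7191122084) (nat_lit 228) (nat_lit 1796513185) (nat_lit 76) (nat_lit 36075420272) (nat_lit 29) (nat_lit 5) (nat_lit 32) (nat_lit 5) (nat_lit 30) (nat_lit 5) (nat_lit 371) (nat_lit 285) (nat_lit 124)) (XT.lf (nat_lit 0) (nat_lit 13457503895) (nat_lit 228) (nat_lit 32607283204) (nat_lit 76) (nat_lit 69420617) (nat_lit 27) (nat_lit 5) (nat_lit 30) (nat_lit 5) (nat_lit 28) (nat_lit 5) (nat_lit 372) (nat_lit 285) (nat_lit 123)))))) (XT.nd (nat_lit 468) (nat_lit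 152) (nat_lit 0) (XT.nd (nat_lit 234) (nat_lit 152) (nat_lit 0) (XT.nd (nat_lit 78) (nat_lit 152) (nat_lit 0) (XT.lf (nat_lit 0) (nat_lit 20014685263) (nat_lit 228) (nat_lit 17986748198) (nat_lit 76) (nat_lit 9232980115) (nat_lit 27) (nat_lit 5) (nat_lit 30) (nat_lit 5) (nat_lit 28) (nat_lit 5) (nat_lit 373) (nat_lit 285) (nat_lit 122)) (XT.nd (nat_lit 78) (nat_lit 152) (nat_lit 0) (XT.lf (nat_lit 0) (nat_lit 26764213856) (nat_lit 228) (nat_lit 2934901973) (nat_lit 76) (nat_lit 18668644096) (nat_lit 27) (nat_lit 5) (nat_lit 30) (nat_lit 5) (nat_lit 28) (nat_lit 5) (nat_lit 374) (nat_lit 285) (nat_lit 121)) (XT.lf (nat_lit 0) (nat_lit 12811404209) (nat_lit 152) (nat_lit 21023734165) (nat_lit 228) (nat_lit 15696404160) (nat_lit 25) (nat_lit 5) (nat_lit 27) (nat_lit 5) (nat_lit 28) (nat_lit 5) (nat_lit 375) (nat_lit 285) (nat_lit 120)))) (XT.nd (nat_lit 78) (nat_lit 152) (nat_lit 0) (XT.lf (nat_lit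 0) (nat_lit 29083239652) (nat_lit 152) (nat_lit 12060402764) (nat_lit 228) (nat_lit 9585835729) (nat_lit 25) (nat_lit 5) (nat_lit 27) (nat_lit 5) (nat_lit 28) (nat_lit 5) (nat_lit 376) (nat_lit 285) (nat_lit 119)) (XT.nd (nat_lit 78) (nat_lit 152) (nat_lit 0) (XT.lf (nat_lit 0) (nat_lit 45836412159) (nat_lit 152) (nat_lit 2830926346) (nat_lit 228) (nat_lit 3296138202) (nat_lit 25) (nat_lit 5) (nat_lit 27) (nat_lit 5) (nat_lit 28) (nat_lit 5) (nat_lit 377) (nat_lit 285) (nat_lit 118)) (XT.lf (nat_lit 0) (nat_lit 3277843196) (nat_lit 152) (nat_lit 43280371595) (nat_lit 76) (nat_lit 6670634856) (nat_lit 23) (nat_lit 5) (nat_lit 25) (nat_lit 5) (nat_lit 24) (nat_lit 5) (nat_lit 378) (nat_lit 285) (nat_lit 117))))) (XT.nd (nat_lit 234) (nat_lit 0) (nat_lit 0) (XT.nd (nat_lit 78) (nat_lit 152) (nat_lit 0) (XT.lf (nat_lit 0) (nat_lit 10069347546) (nat_lit 152) (nat_lit 27966449149) (nat_lit 76) (nat_lit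 16492814186) (nat_lit 23) (nat_lit 5) (nat_lit 25) (nat_lit 5) (nat_lit 24) (nat_lit 5) (nat_lit 379) (nat_lit 285) (nat_lit 116)) (XT.nd (nat_lit 78) (nat_lit 152) (nat_lit 0) (XT.lf (nat_lit 0) (nat_lit 17060752097) (nat_lit 152) (nat_lit 12199643661) (nat_lit 76) (nat_lit 26607087198) (nat_lit 23) (nat_lit 5) (nat_lit 25) (nat_lit 5) (nat_lit 24) (nat_lit 5) (nat_lit 380) (nat_lit 285) (nat_lit 115)) (XT.lf (nat_lit 0) (nat_lit 4114102651) (nat_lit 152) (nat_lit 20183610465) (nat_lit 228) (nat_lit 32947736226) (nat_lit 21) (nat_lit 5) (nat_lit 23) (nat_lit 5) (nat_lit 24) (nat_lit 5) (nat_lit 381) (nat_lit 285) (nat_lit 114)))) (XT.nd (nat_lit 78) (nat_lit 0) (nat_lit 0) (XT.lf (nat_lit 0) (nat_lit 21161059985) (nat_lit 152) (nat_lit 10710230858) (nat_lit 228) (nat_lit 26789881143) (nat_lit 21) (nat_lit 5) (nat_lit 23) (nat_lit 5) (nat_lit 24) (nat_lit 5) (nat_lit 382) (nat_lit 285) (nat_lit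 113)) (XT.nd (nat_lit 78) (nat_lit 0) (nat_lit 0) (XT.lf (nat_lit 0) (nat_lit 38713326911) (nat_lit 152) (nat_lit 955171708) (nat_lit 228) (nat_lit 20450977439) (nat_lit 21) (nat_lit 5) (nat_lit 23) (nat_lit 5) (nat_lit 24) (nat_lit 5) (nat_lit 383) (nat_lit 285) (nat_lit 112)) (XT.lf (nat_lit 0) (nat_lit 47783529053) (nat_lit 228) (nat_lit 4922774959) (nat_lit 76) (nat_lit 8912710408) (nat_lit 21) (nat_lit 5) (nat_lit 24) (nat_lit 5) (nat_lit 22) (nat_lit 4) (nat_lit 384) (nat_lit 285) (nat_lit 111))))))) (XT.nd (nat_lit 33306) (nat_lit 0) (nat_lit 12692) (XT.nd (nat_lit 468) (nat_lit 0) (nat_lit 0) (XT.nd (nat_lit 234) (nat_lit 152) (nat_lit 0) (XT.nd (nat_lit 78) (nat_lit 76) (nat_lit 0) (XT.lf (nat_lit 0) (nat_lit 12279429597) (nat_lit 76) (nat_lit 43986680553) (nat_lit 152) (nat_lit 6893708079) (nat_lit 20) (nat_lit 5) (nat_lit 21) (nat_lit 5) (nat_lit 22) (nat_lit 4) (nat_lit 385) (nat_lit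 285) (nat_lit 110)) (XT.nd (nat_lit 78) (nat_lit 0) (nat_lit 0) (XT.lf (nat_lit 0) (nat_lit 298136550) (nat_lit 152) (nat_lit 34655540626) (nat_lit 76) (nat_lit 29791692745) (nat_lit 19) (nat_lit 5) (nat_lit 21) (nat_lit 5) (nat_lit 20) (nat_lit 5) (nat_lit 386) (nat_lit 285) (nat_lit 109)) (XT.lf (nat_lit 0) (nat_lit 7563891700) (nat_lit 152) (nat_lit 18017873580) (nat_lit 76) (nat_lit 40794775989) (nat_lit 19) (nat_lit 5) (nat_lit 21) (nat_lit 5) (nat_lit 20) (nat_lit 5) (nat_lit 387) (nat_lit 285) (nat_lit 108)))) (XT.nd (nat_lit 78) (nat_lit 152) (nat_lit 0) (XT.lf (nat_lit 0) (nat_lit 15044427161) (nat_lit 152) (nat_lit 886583188) (nat_lit 76) (nat_lit 52125735212) (nat_lit 19) (nat_lit 5) (nat_lit 21) (nat_lit 5) (nat_lit 20) (nat_lit 5) (nat_lit 388) (nat_lit 285) (nat_lit 107)) (XT.nd (nat_lit 78) (nat_lit 0) (nat_lit 0) (XT.lf (nat_lit 0) (nat_lit 17086723150) (nat_lit 152) (nat_lit 5823804209)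 (nat_lit 228) (nat_lit 46871996139) (nat_lit 17) (nat_lit 5) (nat_lit 19) (nat_lit 5) (nat_lit 20) (nat_lit 5) (nat_lit 389) (nat_lit 285) (nat_lit 106)) (XT.lf (nat_lit 0) (nat_lit 31062659885) (nat_lit 228) (nat_lit 35991947555) (nat_lit 76) (nat_lit 4503967772) (nat_lit 17) (nat_lit 5) (nat_lit 20) (nat_lit 5) (nat_lit 18) (nat_lit 4) (nat_lit 390) (nat_lit 285) (nat_lit 105))))) (XT.nd (nat_lit 32604) (nat_lit 0) (nat_lit 13528) (XT.nd (nat_lit 32448) (nat_lit 0) (nat_lit 13528) (XT.lf (nat_lit 0) (nat_lit 39514026115) (nat_lit 228) (nat_lit 18849850418) (nat_lit 76) (nat_lit 15022393716) (nat_lit 17) (nat_lit 5) (nat_lit 20) (nat_lit 5) (nat_lit 18) (nat_lit 4) (nat_lit 391) (nat_lit 285) (nat_lit 104)) (XT.nd (nat_lit 78) (nat_lit 0) (nat_lit 0) (XT.lf (nat_lit 0) (nat_lit 457134076) (nat_lit 0) (nat_lit 457134076) (nat_lit 988) (nat_lit 3784475900) (nat_lit 195) (nat_lit 5) (nat_lit 195)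 (nat_lit 3) (nat_lit 208) (nat_lit 3) (nat_lit 286) (nat_lit 286) (nat_lit 208)) (XT.lf (nat_lit 0) (nat_lit 2639885004) (nat_lit 988) (nat_lit 4386176480) (nat_lit 1064) (nat_lit 2487442287) (nat_lit 195) (nat_lit 5) (nat_lit 208) (nat_lit 3) (nat_lit 209) (nat_lit 5) (nat_lit 287) (nat_lit 286) (nat_lit 207)))) (XT.nd (nat_lit 78) (nat_lit 0) (nat_lit 0) (XT.lf (nat_lit 0) (nat_lit 3455126305) (nat_lit 988) (nat_lit 191182621) (nat_lit 1064) (nat_lit 5987360183) (nat_lit 195) (nat_lit 5) (nat_lit 208) (nat_lit 3) (nat_lit 209) (nat_lit 5) (nat_lit 288) (nat_lit 286) (nat_lit 206)) (XT.nd (nat_lit 78) (nat_lit 0) (nat_lit 76) (XT.lf (nat_lit 76) (nat_lit 4196096613) (nat_lit 0) (nat_lit 110422888) (nat_lit 1064) (nat_lit 5450623216) (nat_lit 196) (nat_lit 5) (nat_lit 195) (nat_lit 5) (nat_lit 209) (nat_lit 5) (nat_lit 289) (nat_lit 286) (nat_lit 205)) (XT.lf (nat_lit 0) (nat_lit 5191519582) (nat_lit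 988) (nat_lit 1215622613) (nat_lit 1064) (nat_lit 3476988956) (nat_lit 196) (nat_lit 5) (nat_lit 209) (nat_lit 5) (nat_lit 210) (nat_lit 5) (nat_lit 290) (nat_lit 286) (nat_lit 204)))))) (XT.nd (nat_lit 468) (nat_lit 0) (nat_lit 0) (XT.nd (nat_lit 234) (nat_lit 912) (nat_lit 0) (XT.nd (nat_lit 78) (nat_lit 0) (nat_lit 76) (XT.lf (nat_lit 76) (nat_lit 3307785204) (nat_lit 0) (nat_lit 2801152931) (nat_lit 1064) (nat_lit 3905866085) (nat_lit 197) (nat_lit 5) (nat_lit 196) (nat_lit 5) (nat_lit 210) (nat_lit 5) (nat_lit 291) (nat_lit 286) (nat_lit 203)) (XT.nd (nat_lit 78) (nat_lit 0) (nat_lit 0) (XT.lf (nat_lit 0) (nat_lit 7048770648) (nat_lit 988) (nat_lit 2182733607) (nat_lit 1064) (nat_lit 918096038) (nat_lit 197) (nat_lit 5) (nat_lit 210) (nat_lit 5) (nat_lit 211) (nat_lit 5) (nat_lit 292) (nat_lit 286) (nat_lit 202)) (XT.lf (nat_lit 76) (nat_lit 2481839189) (nat_lit 0) (nat_lit 5561033575) (nat_lit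 1064) (nat_lit 2244833354) (nat_lit 198) (nat_lit 5) (nat_lit 197) (nat_lit 5) (nat_lit 211) (nat_lit 5) (nat_lit 293) (nat_lit 286) (nat_lit 201)))) (XT.nd (nat_lit 78) (nat_lit 988) (nat_lit 0) (XT.lf (nat_lit 76) (nat_lit 7315114663) (nat_lit 0) (nat_lit 1748797701) (nat_lit 1064) (nat_lit 1366176029) (nat_lit 198) (nat_lit 5) (nat_lit 197) (nat_lit 5) (nat_lit 211) (nat_lit 5) (nat_lit 294) (nat_lit 286) (nat_lit 200)) (XT.nd (nat_lit 78) (nat_lit 1064) (nat_lit 0) (XT.lf (nat_lit 76) (nat_lit 1712766203) (nat_lit 0) (nat_lit 8416098132) (nat_lit 1064) (nat_lit 447524713) (nat_lit 199) (nat_lit 5) (nat_lit 198) (nat_lit 5) (nat_lit 212) (nat_lit 5) (nat_lit 295) (nat_lit 286) (nat_lit 199)) (XT.lf (nat_lit 0) (nat_lit 514189112) (nat_lit 1064) (nat_lit 4016087553) (nat_lit 1140) (nat_lit 6195943966) (nat_lit 184) (nat_lit 5) (nat_lit 198) (nat_lit 5) (nat_lit 199) (nat_lit 5) (nat_lit 296)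 (nat_lit 286) (nat_lit 198))))) (XT.nd (nat_lit 234) (nat_lit 0) (nat_lit 152) (XT.nd (nat_lit 78) (nat_lit 0) (nat_lit 76) (XT.lf (nat_lit 76) (nat_lit 975235562) (nat_lit 0) (nat_lit 506745868) (nat_lit 1140) (nat_lit 9398887647) (nat_lit 185) (nat_lit 5) (nat_lit 184) (nat_lit 5) (nat_lit 199) (nat_lit 5) (nat_lit 297) (nat_lit 286) (nat_lit 197)) (XT.nd (nat_lit 78) (nat_lit 0) (nat_lit 0) (XT.lf (nat_lit 0) (nat_lit 2532159568) (nat_lit 1064) (nat_lit 4892544172) (nat_lit 1140) (nat_lit 3613892966) (nat_lit 185) (nat_lit 5) (nat_lit 199) (nat_lit 5) (nat_lit 200) (nat_lit 5) (nat_lit 298) (nat_lit 286) (nat_lit 196)) (XT.lf (nat_lit 76) (nat_lit 254517462) (nat_lit 0) (nat_lit 3344876944) (nat_lit 1140) (nat_lit 7602134333) (nat_lit 186) (nat_lit 5) (nat_lit 185) (nat_lit 5) (nat_lit 200) (nat_lit 5) (nat_lit 299) (nat_lit 286) (nat_lit 195)))) (XT.nd (nat_lit 78) (nat_lit 0) (nat_lit 0)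 (XT.lf (nat_lit 0) (nat_lit 4735401973) (nat_lit 1064) (nat_lit 5737253992) (nat_lit 1140) (nat_lit 895628076) (nat_lit 186) (nat_lit 5) (nat_lit 200) (nat_lit 5) (nat_lit 201) (nat_lit 5) (nat_lit 300) (nat_lit 286) (nat_lit 194)) (XT.nd (nat_lit 78) (nat_lit 0) (nat_lit 0) (XT.lf (nat_lit 0) (nat_lit 5917850174) (nat_lit 1064) (nat_lit 420768411) (nat_lit 1140) (nat_lit 5201089477) (nat_lit 186) (nat_lit 5) (nat_lit 200) (nat_lit 5) (nat_lit 201) (nat_lit 5) (nat_lit 301) (nat_lit 286) (nat_lit 193)) (XT.lf (nat_lit 76) (nat_lit 5139534776) (nat_lit 0) (nat_lit 2025488788) (nat_lit 1140) (nat_lit 4550409485) (nat_lit 187) (nat_lit 5) (nat_lit 186) (nat_lit 5) (nat_lit 201) (nat_lit 5) (nat_lit 302) (nat_lit 286) (nat_lit 192))))))))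
noncomputable def xc176 : XT := (XT.nd (nat_lit 1794) (nat_lit 3496) (nat_lit 0) (XT.nd (nat_lit 858) (nat_lit 2812) (nat_lit 0) (XT.nd (nat_lit 390) (nat_lit 1672) (nat_lit 0) (XT.nd (nat_lit 156) (nat_lit 1216) (nat_lit 0) (XT.nd (nat_lit 78) (nat_lit 1064) (nat_lit 0) (XT.lf (nat_lit 0) (nat_lit 8457457103) (nat_lit 1064) (nat_lit 1060781087) (nat_lit 76) (nat_lit 2377991000) (nat_lit 187) (nat_lit 5) (nat_lit 201) (nat_lit 5) (nat_lit 188) (nat_lit 5) (nat_lit 303) (nat_lit 286) (nat_lit 191)) (XT.lf (nat_lit 0) (nat_lit 4674965456) (nat_lit 1064) (nat_lit 5159584293) (nat_lit 1140) (nat_lit 2246556626) (nat_lit 173) (nat_lit 5) (nat_lit 187) (nat_lit 5) (nat_lit 188) (nat_lit 5) (nat_lit 304) (nat_lit 286) (nat_lit 190))) (XT.nd (nat_lit 78) (nat_lit 1216) (nat_lit 0) (XT.lf (nat_lit 0) (nat_lit 10588690959) (nat_lit 1064) (nat_lit 656273419) (nat_lit 1140) (nat_lit 1026837983) (nat_lit 173)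 (nat_lit 5) (nat_lit 187) (nat_lit 5) (nat_lit 188) (nat_lit 5) (nat_lit 305) (nat_lit 286) (nat_lit 189)) (XT.nd (nat_lit 78) (nat_lit 0) (nat_lit 0) (XT.lf (nat_lit 0) (nat_lit 286472159) (nat_lit 1216) (nat_lit 8229143096) (nat_lit 76) (nat_lit 3950724343) (nat_lit 157) (nat_lit 5) (nat_lit 173) (nat_lit 5) (nat_lit 158) (nat_lit 5) (nat_lit 306) (nat_lit 286) (nat_lit 188)) (XT.lf (nat_lit 0) (nat_lit 1624244112) (nat_lit 1216) (nat_lit 2329631180) (nat_lit 76) (nat_lit 8712391609) (nat_lit 157) (nat_lit 5) (nat_lit 173) (nat_lit 5) (nat_lit 158) (nat_lit 5) (nat_lit 307) (nat_lit 286) (nat_lit 187))))) (XT.nd (nat_lit 234) (nat_lit 532) (nat_lit 0) (XT.nd (nat_lit 78) (nat_lit 608) (nat_lit 0) (XT.lf (nat_lit 0) (nat_lit 3028828000) (nat_lit 608) (nat_lit 9073800201) (nat_lit 76) (nat_lit 768792567) (nat_lit 150) (nat_lit 5) (nat_lit 158) (nat_lit 5) (nat_lit 151) (nat_lit 5) (nat_lit 308)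 (nat_lit 286) (nat_lit 186)) (XT.nd (nat_lit 78) (nat_lit 608) (nat_lit 0) (XT.lf (nat_lit 0) (nat_lit 4521388694) (nat_lit 608) (nat_lit 2981098388) (nat_lit 76) (nat_lit 5578895248) (nat_lit 150) (nat_lit 5) (nat_lit 158) (nat_lit 5) (nat_lit 151) (nat_lit 5) (nat_lit 309) (nat_lit 286) (nat_lit 185)) (XT.lf (nat_lit 0) (nat_lit 3343967719) (nat_lit 608) (nat_lit 2730334196) (nat_lit 684) (nat_lit 7222900989) (nat_lit 142) (nat_lit 5) (nat_lit 150) (nat_lit 5) (nat_lit 151) (nat_lit 5) (nat_lit 310) (nat_lit 286) (nat_lit 184)))) (XT.nd (nat_lit 78) (nat_lit 532) (nat_lit 0) (XT.lf (nat_lit 0) (nat_lit 7708979015) (nat_lit 684) (nat_lit 3636037635) (nat_lit 76) (nat_lit 2173452788) (nat_lit 142) (nat_lit 5) (nat_lit 151) (nat_lit 5) (nat_lit 143) (nat_lit 5) (nat_lit 311) (nat_lit 286) (nat_lit 183)) (XT.nd (nat_lit 78) (nat_lit 0) (nat_lit 0) (XT.lf (nat_lit 0) (nat_lit 2884357524) (nat_lit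 532) (nat_lit 6547342575) (nat_lit 608) (nat_lit 4313529619) (nat_lit 135) (nat_lit 5) (nat_lit 142) (nat_lit 5) (nat_lit 143) (nat_lit 5) (nat_lit 312) (nat_lit 286) (nat_lit 182)) (XT.lf (nat_lit 0) (nat_lit 9659482880) (nat_lit 532) (nat_lit 1567891942) (nat_lit 608) (nat_lit 2750804932) (nat_lit 135) (nat_lit 5) (nat_lit 142) (nat_lit 5) (nat_lit 143) (nat_lit 5) (nat_lit 313) (nat_lit 286) (nat_lit 181)))))) (XT.nd (nat_lit 468) (nat_lit 1292) (nat_lit 0) (XT.nd (nat_lit 234) (nat_lit 456) (nat_lit 0) (XT.nd (nat_lit 78) (nat_lit 532) (nat_lit 0) (XT.lf (nat_lit 0) (nat_lit 2417240498) (nat_lit 532) (nat_lit 10702150504) (nat_lit 608) (nat_lit 1097477530) (nat_lit 128) (nat_lit 5) (nat_lit 135) (nat_lit 5) (nat_lit 136) (nat_lit 5) (nat_lit 314) (nat_lit 286) (nat_lit 180)) (XT.nd (nat_lit 78) (nat_lit 456) (nat_lit 0) (XT.lf (nat_lit 0) (nat_lit 638327250) (nat_lit 608) (nat_lit 5055009956)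 (nat_lit 76) (nat_lit 8767888383) (nat_lit 127) (nat_lit 5) (nat_lit 135) (nat_lit 5) (nat_lit 128) (nat_lit 5) (nat_lit 315) (nat_lit 286) (nat_lit 179)) (XT.lf (nat_lit 0) (nat_lit 1903060861) (nat_lit 456) (nat_lit 504939924) (nat_lit 532) (nat_lit 12304493312) (nat_lit 121) (nat_lit 5) (nat_lit 127) (nat_lit 5) (nat_lit 128) (nat_lit 5) (nat_lit 316) (nat_lit 286) (nat_lit 178)))) (XT.nd (nat_lit 78) (nat_lit 456) (nat_lit 0) (XT.lf (nat_lit 0) (nat_lit 4314659783) (nat_lit 532) (nat_lit 5858739786) (nat_lit 76) (nat_lit 4795405892) (nat_lit 121) (nat_lit 5) (nat_lit 128) (nat_lit 5) (nat_lit 122) (nat_lit 5) (nat_lit 317) (nat_lit 286) (nat_lit 177)) (XT.nd (nat_lit 78) (nat_lit 0) (nat_lit 0) (XT.lf (nat_lit 0) (nat_lit 1305963812) (nat_lit 456) (nat_lit 4976348337) (nat_lit 532) (nat_lit 8950401237) (nat_lit 115) (nat_lit 5) (nat_lit 121) (nat_lit 5) (nat_lit 122) (nat_lit 5) (nat_lit 318)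 (nat_lit 286) (nat_lit 176)) (XT.lf (nat_lit 0) (nat_lit 8358847438) (nat_lit 532) (nat_lit 6716523569) (nat_lit 76) (nat_lit 427692356) (nat_lit 115) (nat_lit 5) (nat_lit 122) (nat_lit 5) (nat_lit 116) (nat_lit 5) (nat_lit 319) (nat_lit 286) (nat_lit 175))))) (XT.nd (nat_lit 234) (nat_lit 912) (nat_lit 0) (XT.nd (nat_lit 78) (nat_lit 0) (nat_lit 0) (XT.lf (nat_lit 0) (nat_lit 658777239) (nat_lit 380) (nat_lit 9881384071) (nat_lit 456) (nat_lit 5240107872) (nat_lit 110) (nat_lit 5) (nat_lit 115) (nat_lit 5) (nat_lit 116) (nat_lit 5) (nat_lit 320) (nat_lit 286) (nat_lit 174)) (XT.nd (nat_lit 78) (nat_lit 0) (nat_lit 0) (XT.lf (nat_lit 0) (nat_lit 8378348161) (nat_lit 380) (nat_lit 4463510472) (nat_lit 456) (nat_lit 3222303466) (nat_lit 110) (nat_lit 5) (nat_lit 115) (nat_lit 5) (nat_lit 116) (nat_lit 5) (nat_lit 321) (nat_lit 286) (nat_lit 173)) (XT.lf (nat_lit 0) (nat_lit 15210821929) (nat_lit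 456) (nat_lit 52422761) (nat_lit 76) (nat_lit 1093399345) (nat_lit 110) (nat_lit 5) (nat_lit 116) (nat_lit 5) (nat_lit 111) (nat_lit 5) (nat_lit 322) (nat_lit 286) (nat_lit 172)))) (XT.nd (nat_lit 78) (nat_lit 380) (nat_lit 0) (XT.lf (nat_lit 0) (nat_lit 1082661938) (nat_lit 532) (nat_lit 8759438264) (nat_lit 76) (nat_lit 6812258959) (nat_lit 103) (nat_lit 5) (nat_lit 110) (nat_lit 5) (nat_lit 104) (nat_lit 5) (nat_lit 323) (nat_lit 286) (nat_lit 171)) (XT.nd (nat_lit 78) (nat_lit 380) (nat_lit 0) (XT.lf (nat_lit 0) (nat_lit 3343432155) (nat_lit 532) (nat_lit 904893599) (nat_lit 76) (nat_lit 12712702896) (nat_lit 103) (nat_lit 5) (nat_lit 110) (nat_lit 5) (nat_lit 104) (nat_lit 5) (nat_lit 324) (nat_lit 286) (nat_lit 170)) (XT.lf (nat_lit 0) (nat_lit 5745833417) (nat_lit 456) (nat_lit 9976263009) (nat_lit 76) (nat_lit 1552604158) (nat_lit 98) (nat_lit 5) (nat_lit 104) (nat_lit 5) (nat_lit 99)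 (nat_lit 5) (nat_lit 325) (nat_lit 286) (nat_lit 169))))))) (XT.nd (nat_lit 936) (nat_lit 1672) (nat_lit 0) (XT.nd (nat_lit 468) (nat_lit 684) (nat_lit 0) (XT.nd (nat_lit 234) (nat_lit 760) (nat_lit 0) (XT.nd (nat_lit 78) (nat_lit 380) (nat_lit 0) (XT.lf (nat_lit 0) (nat_lit 8260063567) (nat_lit 456) (nat_lit 1887343488) (nat_lit 76) (nat_lit 7449199030) (nat_lit 98) (nat_lit 5) (nat_lit 104) (nat_lit 5) (nat_lit 99) (nat_lit 5) (nat_lit 326) (nat_lit 286) (nat_lit 168)) (XT.nd (nat_lit 78) (nat_lit 0) (nat_lit 0) (XT.lf (nat_lit 0) (nat_lit 6558534981) (nat_lit 380) (nat_lit 4343032328) (nat_lit 456) (nat_lit 7025061689) (nat_lit 93) (nat_lit 5) (nat_lit 98) (nat_lit 5) (nat_lit 99) (nat_lit 5) (nat_lit 327) (nat_lit 286) (nat_lit 167)) (XT.lf (nat_lit 0) (nat_lit 13646257852) (nat_lit 456) (nat_lit 2999288002) (nat_lit 76) (nat_lit 1620303684) (nat_lit 93) (nat_lit 5) (nat_lit 99) (nat_lit 5)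 (nat_lit 94) (nat_lit 5) (nat_lit 328) (nat_lit 286) (nat_lit 166)))) (XT.nd (nat_lit 78) (nat_lit 456) (nat_lit 0) (XT.lf (nat_lit 0) (nat_lit 5674846944) (nat_lit 304) (nat_lit 10885287102) (nat_lit 380) (nat_lit 2052522048) (nat_lit 89) (nat_lit 5) (nat_lit 93) (nat_lit 5) (nat_lit 94) (nat_lit 5) (nat_lit 329) (nat_lit 286) (nat_lit 165)) (XT.nd (nat_lit 78) (nat_lit 380) (nat_lit 0) (XT.lf (nat_lit 0) (nat_lit 599962898) (nat_lit 380) (nat_lit 4317821359) (nat_lit 76) (nat_lit 14051327498) (nat_lit 88) (nat_lit 5) (nat_lit 93) (nat_lit 5) (nat_lit 89) (nat_lit 5) (nat_lit 330) (nat_lit 286) (nat_lit 164)) (XT.lf (nat_lit 0) (nat_lit 3337248358) (nat_lit 456) (nat_lit 14729692501) (nat_lit 76) (nat_lit 1267329675) (nat_lit 83) (nat_lit 5) (nat_lit 89) (nat_lit 5) (nat_lit 84) (nat_lit 5) (nat_lit 331) (nat_lit 286) (nat_lit 163))))) (XT.nd (nat_lit 234) (nat_lit 380) (nat_lit 0) (XT.nd (nat_lit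 78) (nat_lit 304) (nat_lit 0) (XT.lf (nat_lit 0) (nat_lit 6239194106) (nat_lit 456) (nat_lit 5888369145) (nat_lit 76) (nat_lit 7580357675) (nat_lit 83) (nat_lit 5) (nat_lit 89) (nat_lit 5) (nat_lit 84) (nat_lit 5) (nat_lit 332) (nat_lit 286) (nat_lit 162)) (XT.nd (nat_lit 78) (nat_lit 0) (nat_lit 0) (XT.lf (nat_lit 0) (nat_lit 3269041979) (nat_lit 304) (nat_lit 5980694419) (nat_lit 380) (nat_lit 10842411011) (nat_lit 79) (nat_lit 5) (nat_lit 83) (nat_lit 5) (nat_lit 84) (nat_lit 5) (nat_lit 333) (nat_lit 286) (nat_lit 161)) (XT.lf (nat_lit 0) (nat_lit 12404263793) (nat_lit 380) (nat_lit 7681284403) (nat_lit 76) (nat_lit 400754775) (nat_lit 79) (nat_lit 5) (nat_lit 84) (nat_lit 5) (nat_lit 80) (nat_lit 5) (nat_lit 334) (nat_lit 286) (nat_lit 160)))) (XT.nd (nat_lit 78) (nat_lit 76) (nat_lit 0) (XT.lf (nat_lit 0) (nat_lit 1695961988) (nat_lit 304) (nat_lit 14023515584) (nat_lit 380) (nat_lit 5170836104)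 (nat_lit 75) (nat_lit 5) (nat_lit 79) (nat_lit 5) (nat_lit 80) (nat_lit 5) (nat_lit 335) (nat_lit 286) (nat_lit 159)) (XT.nd (nat_lit 78) (nat_lit 76) (nat_lit 0) (XT.lf (nat_lit 0) (nat_lit 11499400369) (nat_lit 304) (nat_lit 7703001215) (nat_lit 380) (nat_lit 2102007147) (nat_lit 75) (nat_lit 5) (nat_lit 79) (nat_lit 5) (nat_lit 80) (nat_lit 5) (nat_lit 336) (nat_lit 286) (nat_lit 158)) (XT.lf (nat_lit 0) (nat_lit 1029082524) (nat_lit 380) (nat_lit 156573979) (nat_lit 76) (nat_lit 20545249989) (nat_lit 74) (nat_lit 5) (nat_lit 79) (nat_lit 5) (nat_lit 75) (nat_lit 5) (nat_lit 337) (nat_lit 286) (nat_lit 157)))))) (XT.nd (nat_lit 468) (nat_lit 836) (nat_lit 0) (XT.nd (nat_lit 234) (nat_lit 228) (nat_lit 0) (XT.nd (nat_lit 78) (nat_lit 304) (nat_lit 0) (XT.lf (nat_lit 0) (nat_lit 4352807207) (nat_lit 380) (nat_lit 12278771583) (nat_lit 76) (nat_lit 5533778177) (nat_lit 70) (nat_lit 5) (nat_lit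 75) (nat_lit 5) (nat_lit 71) (nat_lit 5) (nat_lit 338) (nat_lit 286) (nat_lit 156)) (XT.nd (nat_lit 78) (nat_lit 304) (nat_lit 0) (XT.lf (nat_lit 0) (nat_lit 7780817399) (nat_lit 380) (nat_lit 2402471715) (nat_lit 76) (nat_lit 12429424972) (nat_lit 70) (nat_lit 5) (nat_lit 75) (nat_lit 5) (nat_lit 71) (nat_lit 5) (nat_lit 339) (nat_lit 286) (nat_lit 155)) (XT.lf (nat_lit 0) (nat_lit 7912704547) (nat_lit 304) (nat_lit 3466518165) (nat_lit 380) (nat_lit 11692252605) (nat_lit 66) (nat_lit 5) (nat_lit 70) (nat_lit 5) (nat_lit 71) (nat_lit 5) (nat_lit 340) (nat_lit 286) (nat_lit 154)))) (XT.nd (nat_lit 78) (nat_lit 228) (nat_lit 0) (XT.lf (nat_lit 0) (nat_lit 15134857361) (nat_lit 380) (nat_lit 5002038745) (nat_lit 76) (nat_lit 3405634714) (nat_lit 66) (nat_lit 5) (nat_lit 71) (nat_lit 5) (nat_lit 67) (nat_lit 5) (nat_lit 341) (nat_lit 286) (nat_lit 153)) (XT.nd (nat_lit 78) (nat_lit 0) (nat_lit 0)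 (XT.lf (nat_lit 0) (nat_lit 5521228853) (nat_lit 228) (nat_lit 13561168686) (nat_lit 304) (nat_lit 4942952820) (nat_lit 63) (nat_lit 5) (nat_lit 66) (nat_lit 5) (nat_lit 67) (nat_lit 5) (nat_lit 342) (nat_lit 286) (nat_lit 152)) (XT.lf (nat_lit 0) (nat_lit 16451261449) (nat_lit 228) (nat_lit 6739581739) (nat_lit 304) (nat_lit 1330546111) (nat_lit 63) (nat_lit 5) (nat_lit 66) (nat_lit 5) (nat_lit 67) (nat_lit 5) (nat_lit 343) (nat_lit 286) (nat_lit 151))))) (XT.nd (nat_lit 234) (nat_lit 456) (nat_lit 0) (XT.nd (nat_lit 78) (nat_lit 0) (nat_lit 0) (XT.lf (nat_lit 0) (nat_lit 2364821755) (nat_lit 380) (nat_lit 22339093771) (nat_lit 76) (nat_lit 327076320) (nat_lit 58) (nat_lit 5) (nat_lit 63) (nat_lit 5) (nat_lit 59) (nat_lit 5) (nat_lit 344) (nat_lit 286) (nat_lit 150)) (XT.nd (nat_lit 78) (nat_lit 0) (nat_lit 0) (XT.lf (nat_lit 0) (nat_lit 6285541394) (nat_lit 380) (nat_lit 11703331222) (nat_lit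 76) (nat_lit 7562386051) (nat_lit 58) (nat_lit 5) (nat_lit 63) (nat_lit 5) (nat_lit 59) (nat_lit 5) (nat_lit 345) (nat_lit 286) (nat_lit 149)) (XT.lf (nat_lit 0) (nat_lit 10316315186) (nat_lit 380) (nat_lit 759562693) (nat_lit 76) (nat_lit 15011490804) (nat_lit 58) (nat_lit 5) (nat_lit 63) (nat_lit 5) (nat_lit 59) (nat_lit 5) (nat_lit 346) (nat_lit 286) (nat_lit 148)))) (XT.nd (nat_lit 78) (nat_lit 228) (nat_lit 0) (XT.lf (nat_lit 0) (nat_lit 10710780233) (nat_lit 228) (nat_lit 3852843503) (nat_lit 304) (nat_lit 12073077843) (nat_lit 55) (nat_lit 5) (nat_lit 58) (nat_lit 5) (nat_lit 59) (nat_lit 5) (nat_lit 347) (nat_lit 286) (nat_lit 147)) (XT.nd (nat_lit 78) (nat_lit 228) (nat_lit 0) (XT.lf (nat_lit 0) (nat_lit 18973308857) (nat_lit 304) (nat_lit 4706867122) (nat_lit 76) (nat_lit 3521297461) (nat_lit 55) (nat_lit 5) (nat_lit 59) (nat_lit 5) (nat_lit 56) (nat_lit 5) (nat_lit 348) (nat_lit 286)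 (nat_lit 146)) (XT.lf (nat_lit 0) (nat_lit 6935431224) (nat_lit 228) (nat_lit 16677611543) (nat_lit 304) (nat_lit 4167220415) (nat_lit 52) (nat_lit 5) (nat_lit 55) (nat_lit 5) (nat_lit 56) (nat_lit 5) (nat_lit 349) (nat_lit 286) (nat_lit 145))))))))
noncomputable def xc177 : XT := (XT.nd (nat_lit 1794) (nat_lit 912) (nat_lit 0) (XT.nd (nat_lit 858) (nat_lit 760) (nat_lit 0) (XT.nd (nat_lit 390) (nat_lit 456) (nat_lit 0) (XT.nd (nat_lit 156) (nat_lit 228) (nat_lit 0) (XT.nd (nat_lit 78) (nat_lit 228) (nat_lit 0) (XT.lf (nat_lit 0) (nat_lit 56222485) (nat_lit 304) (nat_lit 9362685701) (nat_lit 76) (nat_lit 18956281774) (nat_lit 51) (nat_lit 5) (nat_lit 55) (nat_lit 5) (nat_lit 52) (nat_lit 5) (nat_lit 350) (nat_lit 286) (nat_lit 144)) (XT.lf (nat_lit 0) (nat_lit 2460425074) (nat_lit 228) (nat_lit 1879015531) (nat_lit 304) (nat_lit 24646788118) (nat_lit 48) (nat_lit 5) (nat_lit 51) (nat_lit 5) (nat_lit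 52) (nat_lit 5) (nat_lit 351) (nat_lit 286) (nat_lit 143))) (XT.nd (nat_lit 78) (nat_lit 228) (nat_lit 0) (XT.lf (nat_lit 0) (nat_lit 8896472252) (nat_lit 304) (nat_lit 14850460301) (nat_lit 76) (nat_lit 5864313225) (nat_lit 48) (nat_lit 5) (nat_lit 52) (nat_lit 5) (nat_lit 49) (nat_lit 5) (nat_lit 352) (nat_lit 286) (nat_lit 142)) (XT.nd (nat_lit 78) (nat_lit 228) (nat_lit 0) (XT.lf (nat_lit 0) (nat_lit 13602261654) (nat_lit 304) (nat_lit 2853486788) (nat_lit 76) (nat_lit 13798909946) (nat_lit 48) (nat_lit 5) (nat_lit 52) (nat_lit 5) (nat_lit 49) (nat_lit 5) (nat_lit 353) (nat_lit 286) (nat_lit 141)) (XT.lf (nat_lit 0) (nat_lit 9682604414) (nat_lit 228) (nat_lit 8853329121) (nat_lit 304) (nat_lit 12378844836) (nat_lit 45) (nat_lit 5) (nat_lit 48) (nat_lit 5) (nat_lit 49) (nat_lit 5) (nat_lit 354) (nat_lit 286) (nat_lit 140))))) (XT.nd (nat_lit 234) (nat_lit 228) (nat_lit 0) (XT.nd (nat_lit 78)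 (nat_lit 228) (nat_lit 0) (XT.lf (nat_lit 0) (nat_lit 22643633464) (nat_lit 228) (nat_lit 996523185) (nat_lit 304) (nat_lit 7953875146) (nat_lit 45) (nat_lit 5) (nat_lit 48) (nat_lit 5) (nat_lit 49) (nat_lit 5) (nat_lit 355) (nat_lit 286) (nat_lit 139)) (XT.nd (nat_lit 78) (nat_lit 76) (nat_lit 0) (XT.lf (nat_lit 0) (nat_lit 3694191522) (nat_lit 152) (nat_lit 25300914508) (nat_lit 228) (nat_lit 3295634705) (nat_lit 43) (nat_lit 5) (nat_lit 45) (nat_lit 5) (nat_lit 46) (nat_lit 5) (nat_lit 356) (nat_lit 286) (nat_lit 138)) (XT.lf (nat_lit 0) (nat_lit 1568079699) (nat_lit 228) (nat_lit 16138797734) (nat_lit 76) (nat_lit 15298194533) (nat_lit 42) (nat_lit 5) (nat_lit 45) (nat_lit 5) (nat_lit 43) (nat_lit 5) (nat_lit 357) (nat_lit 286) (nat_lit 137)))) (XT.nd (nat_lit 78) (nat_lit 228) (nat_lit 0) (XT.lf (nat_lit 0) (nat_lit 6505544369) (nat_lit 228) (nat_lit 3349214367) (nat_lit 76) (nat_lit 23885278559)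 (nat_lit 42) (nat_lit 5) (nat_lit 45) (nat_lit 5) (nat_lit 43) (nat_lit 5) (nat_lit 358) (nat_lit 286) (nat_lit 136)) (XT.nd (nat_lit 78) (nat_lit 0) (nat_lit 0) (XT.lf (nat_lit 0) (nat_lit 10010394765) (nat_lit 228) (nat_lit 1671214569) (nat_lit 304) (nat_lit 22812733200) (nat_lit 39) (nat_lit 5) (nat_lit 42) (nat_lit 5) (nat_lit 43) (nat_lit 5) (nat_lit 359) (nat_lit 286) (nat_lit 135)) (XT.lf (nat_lit 0) (nat_lit 17106372984) (nat_lit 304) (nat_lit 11505166132) (nat_lit 76) (nat_lit 6656940402) (nat_lit 39) (nat_lit 5) (nat_lit 43) (nat_lit 5) (nat_lit 40) (nat_lit 5) (nat_lit 360) (nat_lit 286) (nat_lit 134)))))) (XT.nd (nat_lit 468) (nat_lit 380) (nat_lit 0) (XT.nd (nat_lit 234) (nat_lit 228) (nat_lit 0) (XT.nd (nat_lit 78) (nat_lit 0) (nat_lit 0) (XT.lf (nat_lit 0) (nat_lit 1874212394) (nat_lit 152) (nat_lit 20848696820) (nat_lit 228) (nat_lit 13342065447) (nat_lit 37) (nat_lit 5) (nat_lit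 39) (nat_lit 5) (nat_lit 40) (nat_lit 5) (nat_lit 361) (nat_lit 286) (nat_lit 133)) (XT.nd (nat_lit 78) (nat_lit 0) (nat_lit 0) (XT.lf (nat_lit 0) (nat_lit 15882110592) (nat_lit 152) (nat_lit 12736554946) (nat_lit 228) (nat_lit 8263382198) (nat_lit 37) (nat_lit 5) (nat_lit 39) (nat_lit 5) (nat_lit 40) (nat_lit 5) (nat_lit 362) (nat_lit 286) (nat_lit 132)) (XT.lf (nat_lit 0) (nat_lit 30301793004) (nat_lit 152) (nat_lit 4384204833) (nat_lit 228) (nat_lit 3037798723) (nat_lit 37) (nat_lit 5) (nat_lit 39) (nat_lit 5) (nat_lit 40) (nat_lit 5) (nat_lit 363) (nat_lit 286) (nat_lit 131)))) (XT.nd (nat_lit 78) (nat_lit 0) (nat_lit 0) (XT.lf (nat_lit 0) (nat_lit 2399027258) (nat_lit 228) (nat_lit 31967316614) (nat_lit 76) (nat_lit 4220775478) (nat_lit 34) (nat_lit 5) (nat_lit 37) (nat_lit 5) (nat_lit 35) (nat_lit 5) (nat_lit 364) (nat_lit 286) (nat_lit 130)) (XT.nd (nat_lit 78) (nat_lit 0) (nat_lit 0) (XT.lf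 (nat_lit 0) (nat_lit 8051843576) (nat_lit 228) (nat_lit 18321674635) (nat_lit 76) (nat_lit 13098507290) (nat_lit 34) (nat_lit 5) (nat_lit 37) (nat_lit 5) (nat_lit 35) (nat_lit 5) (nat_lit 365) (nat_lit 286) (nat_lit 129)) (XT.lf (nat_lit 0) (nat_lit 13869239135) (nat_lit 228) (nat_lit 4274780886) (nat_lit 76) (nat_lit 22239613109) (nat_lit 34) (nat_lit 5) (nat_lit 37) (nat_lit 5) (nat_lit 35) (nat_lit 5) (nat_lit 366) (nat_lit 286) (nat_lit 128))))) (XT.nd (nat_lit 234) (nat_lit 228) (nat_lit 0) (XT.nd (nat_lit 78) (nat_lit 0) (nat_lit 0) (XT.lf (nat_lit 0) (nat_lit 10388352796) (nat_lit 152) (nat_lit 9567803504) (nat_lit 228) (nat_lit 21363586713) (nat_lit 32) (nat_lit 5) (nat_lit 34) (nat_lit 5) (nat_lit 35) (nat_lit 5) (nat_lit 367) (nat_lit 286) (nat_lit 127)) (XT.nd (nat_lit 78) (nat_lit 0) (nat_lit 0) (XT.lf (nat_lit 0) (nat_lit 25571205513) (nat_lit 152) (nat_lit 692849432) (nat_lit 228)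 (nat_lit 16018733930) (nat_lit 32) (nat_lit 5) (nat_lit 34) (nat_lit 5) (nat_lit 35) (nat_lit 5) (nat_lit 368) (nat_lit 286) (nat_lit 126)) (XT.lf (nat_lit 0) (nat_lit 32837719849) (nat_lit 228) (nat_lit 2154084826) (nat_lit 76) (nat_lit 8280629343) (nat_lit 32) (nat_lit 5) (nat_lit 35) (nat_lit 5) (nat_lit 33) (nat_lit 5) (nat_lit 369) (nat_lit 286) (nat_lit 125)))) (XT.nd (nat_lit 78) (nat_lit 76) (nat_lit 0) (XT.lf (nat_lit 0) (nat_lit 13081069805) (nat_lit 152) (nat_lit 26655582949) (nat_lit 228) (nat_lit 4551277698) (nat_lit 30) (nat_lit 5) (nat_lit 32) (nat_lit 5) (nat_lit 33) (nat_lit 5) (nat_lit 370) (nat_lit 286) (nat_lit 124)) (XT.nd (nat_lit 78) (nat_lit 0) (nat_lit 0) (XT.lf (nat_lit 0) (nat_lit 1496658160) (nat_lit 228) (nat_lit 16538009257) (nat_lit 76) (nat_lit 27298269689) (nat_lit 29) (nat_lit 5) (nat_lit 32) (nat_lit 5) (nat_lit 30) (nat_lit 5) (nat_lit 371) (nat_lit 286) (nat_lit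 123)) (XT.lf (nat_lit 0) (nat_lit 7630156230) (nat_lit 228) (nat_lit 1481424571) (nat_lit 76) (nat_lit 37296496648) (nat_lit 29) (nat_lit 5) (nat_lit 32) (nat_lit 5) (nat_lit 30) (nat_lit 5) (nat_lit 372) (nat_lit 286) (nat_lit 122))))))) (XT.nd (nat_lit 936) (nat_lit 304) (nat_lit 0) (XT.nd (nat_lit 468) (nat_lit 304) (nat_lit 0) (XT.nd (nat_lit 234) (nat_lit 152) (nat_lit 0) (XT.nd (nat_lit 78) (nat_lit 0) (nat_lit 0) (XT.lf (nat_lit 0) (nat_lit 14082932109) (nat_lit 228) (nat_lit 33214754534) (nat_lit 76) (nat_lit 213730441) (nat_lit 27) (nat_lit 5) (nat_lit 30) (nat_lit 5) (nat_lit 28) (nat_lit 5) (nat_lit 373) (nat_lit 286) (nat_lit 121)) (XT.nd (nat_lit 78) (nat_lit 0) (nat_lit 0) (XT.lf (nat_lit 0) (nat_lit 20830371546) (nat_lit 228) (nat_lit 18166401940) (nat_lit 76) (nat_lit 9648054184) (nat_lit 27) (nat_lit 5) (nat_lit 30) (nat_lit 5) (nat_lit 28) (nat_lit 5) (nat_lit 374) (nat_lit 286)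 (nat_lit 120)) (XT.lf (nat_lit 0) (nat_lit 27776116704) (nat_lit 228) (nat_lit 2673484271) (nat_lit 76) (nat_lit 19362766201) (nat_lit 27) (nat_lit 5) (nat_lit 30) (nat_lit 5) (nat_lit 28) (nat_lit 5) (nat_lit 375) (nat_lit 286) (nat_lit 119)))) (XT.nd (nat_lit 78) (nat_lit 0) (nat_lit 0) (XT.lf (nat_lit 0) (nat_lit 13541784972) (nat_lit 152) (nat_lit 21514623629) (nat_lit 228) (nat_lit 15954742024) (nat_lit 25) (nat_lit 5) (nat_lit 27) (nat_lit 5) (nat_lit 28) (nat_lit 5) (nat_lit 376) (nat_lit 286) (nat_lit 118)) (XT.nd (nat_lit 78) (nat_lit 0) (nat_lit 0) (XT.lf (nat_lit 0) (nat_lit 30291696683) (nat_lit 152) (nat_lit 12286464788) (nat_lit 228) (nat_lit 9667047442) (nat_lit 25) (nat_lit 5) (nat_lit 27) (nat_lit 5) (nat_lit 28) (nat_lit 5) (nat_lit 377) (nat_lit 286) (nat_lit 117)) (XT.lf (nat_lit 0) (nat_lit 47537679127) (nat_lit 152) (nat_lit 2784057962) (nat_lit 228) (nat_lit 3194669572)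 (nat_lit 25) (nat_lit 5) (nat_lit 27) (nat_lit 5) (nat_lit 28) (nat_lit 5) (nat_lit 378) (nat_lit 286) (nat_lit 116))))) (XT.nd (nat_lit 234) (nat_lit 152) (nat_lit 0) (XT.nd (nat_lit 78) (nat_lit 0) (nat_lit 0) (XT.lf (nat_lit 0) (nat_lit 3571322843) (nat_lit 152) (nat_lit 44247126098) (nat_lit 76) (nat_lit 7001277079) (nat_lit 23) (nat_lit 5) (nat_lit 25) (nat_lit 5) (nat_lit 24) (nat_lit 5) (nat_lit 379) (nat_lit 286) (nat_lit 115)) (XT.nd (nat_lit 78) (nat_lit 0) (nat_lit 0) (XT.lf (nat_lit 0) (nat_lit 10560888507) (nat_lit 152) (nat_lit 28483445881) (nat_lit 76) (nat_lit 17114320144) (nat_lit 23) (nat_lit 5) (nat_lit 25) (nat_lit 5) (nat_lit 24) (nat_lit 5) (nat_lit 380) (nat_lit 286) (nat_lit 114)) (XT.lf (nat_lit 0) (nat_lit 17756516927) (nat_lit 152) (nat_lit 12253014774) (nat_lit 76) (nat_lit 27528330428) (nat_lit 23) (nat_lit 5) (nat_lit 25) (nat_lit 5) (nat_lit 24) (nat_lit 5) (nat_lit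 381) (nat_lit 286) (nat_lit 113)))) (XT.nd (nat_lit 78) (nat_lit 0) (nat_lit 0) (XT.lf (nat_lit 0) (nat_lit 4547079043) (nat_lit 152) (nat_lit 20661125807) (nat_lit 228) (nat_lit 33749037814) (nat_lit 21) (nat_lit 5) (nat_lit 23) (nat_lit 5) (nat_lit 24) (nat_lit 5) (nat_lit 382) (nat_lit 286) (nat_lit 112)) (XT.nd (nat_lit 78) (nat_lit 0) (nat_lit 0) (XT.lf (nat_lit 0) (nat_lit 22096428981) (nat_lit 152) (nat_lit 10907272762) (nat_lit 228) (nat_lit 27411897481) (nat_lit 21) (nat_lit 5) (nat_lit 23) (nat_lit 5) (nat_lit 24) (nat_lit 5) (nat_lit 383) (nat_lit 286) (nat_lit 111)) (XT.lf (nat_lit 0) (nat_lit 40166510404) (nat_lit 152) (nat_lit 863181208) (nat_lit 228) (nat_lit 20888118319) (nat_lit 21) (nat_lit 5) (nat_lit 23) (nat_lit 5) (nat_lit 24) (nat_lit 5) (nat_lit 384) (nat_lit 286) (nat_lit 110)))))) (XT.nd (nat_lit 468) (nat_lit 0) (nat_lit 0) (XT.nd (nat_lit 234) (nat_lit 152) (nat_lit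 0) (XT.nd (nat_lit 78) (nat_lit 152) (nat_lit 0) (XT.lf (nat_lit 0) (nat_lit 49384314297) (nat_lit 228) (nat_lit 4783201533) (nat_lit 76) (nat_lit 9294937760) (nat_lit 21) (nat_lit 5) (nat_lit 24) (nat_lit 5) (nat_lit 22) (nat_lit 4) (nat_lit 385) (nat_lit 286) (nat_lit 109)) (XT.nd (nat_lit 78) (nat_lit 76) (nat_lit 0) (XT.lf (nat_lit 0) (nat_lit 12932252917) (nat_lit 76) (nat_lit 45186981911) (nat_lit 152) (nat_lit 6930314114) (nat_lit 20) (nat_lit 5) (nat_lit 21) (nat_lit 5) (nat_lit 22) (nat_lit 4) (nat_lit 386) (nat_lit 286) (nat_lit 108)) (XT.lf (nat_lit 0) (nat_lit 469103842) (nat_lit 152) (nat_lit 35415723203) (nat_lit 76) (nat_lit 30797939975) (nat_lit 19) (nat_lit 5) (nat_lit 21) (nat_lit 5) (nat_lit 20) (nat_lit 5) (nat_lit 387) (nat_lit 286) (nat_lit 107)))) (XT.nd (nat_lit 78) (nat_lit 152) (nat_lit 0) (XT.lf (nat_lit 0) (nat_lit 7948112524) (nat_lit 152) (nat_lit 18287066446) (nat_lit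 76) (nat_lit 42127839121) (nat_lit 19) (nat_lit 5) (nat_lit 21) (nat_lit 5) (nat_lit 20) (nat_lit 5) (nat_lit 388) (nat_lit 286) (nat_lit 106)) (XT.nd (nat_lit 78) (nat_lit 152) (nat_lit 0) (XT.lf (nat_lit 0) (nat_lit 15648482377) (nat_lit 152) (nat_lit 649740546) (nat_lit 76) (nat_lit 53795545960) (nat_lit 19) (nat_lit 5) (nat_lit 21) (nat_lit 5) (nat_lit 20) (nat_lit 5) (nat_lit 389) (nat_lit 286) (nat_lit 105)) (XT.lf (nat_lit 0) (nat_lit 17860182235) (nat_lit 152) (nat_lit 5888442642) (nat_lit 228) (nat_lit 48122756339) (nat_lit 17) (nat_lit 5) (nat_lit 19) (nat_lit 5) (nat_lit 20) (nat_lit 5) (nat_lit 390) (nat_lit 286) (nat_lit 104))))) (XT.nd (nat_lit 32682) (nat_lit 0) (nat_lit 13528) (XT.nd (nat_lit 32526) (nat_lit 0) (nat_lit 13528) (XT.lf (nat_lit 0) (nat_lit 32141956975) (nat_lit 228) (nat_lit 36814990192) (nat_lit 76) (nat_lit 4743871000) (nat_lit 17) (nat_lit 5) (nat_lit 20) (nat_lit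 5) (nat_lit 18) (nat_lit 4) (nat_lit 391) (nat_lit 286) (nat_lit 103)) (XT.nd (nat_lit 78) (nat_lit 0) (nat_lit 0) (XT.lf (nat_lit 0) (nat_lit 846964528) (nat_lit 0) (nat_lit 846964528) (nat_lit 988) (nat_lit 3121795031) (nat_lit 195) (nat_lit 5) (nat_lit 195) (nat_lit 3) (nat_lit 208) (nat_lit 3) (nat_lit 287) (nat_lit 287) (nat_lit 206)) (XT.lf (nat_lit 0) (nat_lit 4172707567) (nat_lit 988) (nat_lit 3733850748) (nat_lit 1064) (nat_lit 1845993628) (nat_lit 195) (nat_lit 5) (nat_lit 208) (nat_lit 3) (nat_lit 209) (nat_lit 5) (nat_lit 288) (nat_lit 287) (nat_lit 205)))) (XT.nd (nat_lit 78) (nat_lit 0) (nat_lit 0) (XT.lf (nat_lit 76) (nat_lit 575388467) (nat_lit 0) (nat_lit 4400210005) (nat_lit 1064) (nat_lit 4901908044) (nat_lit 196) (nat_lit 5) (nat_lit 195) (nat_lit 5) (nat_lit 209) (nat_lit 5) (nat_lit 289) (nat_lit 287) (nat_lit 204)) (XT.nd (nat_lit 78) (nat_lit 0) (nat_lit 76) (XT.lf (nat_lit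 76) (nat_lit 5075596622) (nat_lit 0) (nat_lit 737544627) (nat_lit 1064) (nat_lit 4192802561) (nat_lit 196) (nat_lit 5) (nat_lit 195) (nat_lit 5) (nat_lit 209) (nat_lit 5) (nat_lit 290) (nat_lit 287) (nat_lit 203)) (XT.lf (nat_lit 0) (nat_lit 6678750342) (nat_lit 988) (nat_lit 471968248) (nat_lit 1064) (nat_lit 2987476983) (nat_lit 196) (nat_lit 5) (nat_lit 209) (nat_lit 5) (nat_lit 210) (nat_lit 5) (nat_lit 291) (nat_lit 287) (nat_lit 202))))))))
noncomputable def xc178 : XT := (XT.nd (nat_lit 1794) (nat_lit 4940) (nat_lit 0) (XT.nd (nat_lit 858) (nat_lit 3724) (nat_lit 0) (XT.nd (nat_lit 390) (nat_lit 0) (nat_lit 0) (XT.nd (nat_lit 156) (nat_lit 912) (nat_lit 0) (XT.nd (nat_lit 78) (nat_lit 0) (nat_lit 76) (XT.lf (nat_lit 76) (nat_lit 4179493538) (nat_lit 0) (nat_lit 3412842293) (nat_lit 1064) (nat_lit 2681466925) (nat_lit 197) (nat_lit 5) (nat_lit 196) (nat_lit 5) (nat_lit 210) (nat_lit 5) (nat_lit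 292) (nat_lit 287) (nat_lit 201)) (XT.lf (nat_lit 0) (nat_lit 8517571060) (nat_lit 988) (nat_lit 1453077257) (nat_lit 1064) (nat_lit 443349279) (nat_lit 197) (nat_lit 5) (nat_lit 210) (nat_lit 5) (nat_lit 211) (nat_lit 5) (nat_lit 293) (nat_lit 287) (nat_lit 200))) (XT.nd (nat_lit 78) (nat_lit 988) (nat_lit 0) (XT.lf (nat_lit 76) (nat_lit 3343637249) (nat_lit 0) (nat_lit 6168805937) (nat_lit 1064) (nat_lit 1044744047) (nat_lit 198) (nat_lit 5) (nat_lit 197) (nat_lit 5) (nat_lit 211) (nat_lit 5) (nat_lit 294) (nat_lit 287) (nat_lit 199)) (XT.nd (nat_lit 78) (nat_lit 988) (nat_lit 0) (XT.lf (nat_lit 76) (nat_lit 8298978670) (nat_lit 0) (nat_lit 2229360034) (nat_lit 1064) (nat_lit 176642565) (nat_lit 198) (nat_lit 5) (nat_lit 197) (nat_lit 5) (nat_lit 211) (nat_lit 5) (nat_lit 295) (nat_lit 287) (nat_lit 198)) (XT.lf (nat_lit 0) (nat_lit 723128333) (nat_lit 1064) (nat_lit 8300979606) (nat_lit 1140)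 (nat_lit 1832346952) (nat_lit 184) (nat_lit 5) (nat_lit 198) (nat_lit 5) (nat_lit 199) (nat_lit 5) (nat_lit 296) (nat_lit 287) (nat_lit 197))))) (XT.nd (nat_lit 234) (nat_lit 0) (nat_lit 76) (XT.nd (nat_lit 78) (nat_lit 0) (nat_lit 0) (XT.lf (nat_lit 0) (nat_lit 1670473023) (nat_lit 1064) (nat_lit 3336452717) (nat_lit 1140) (nat_lit 6004810874) (nat_lit 184) (nat_lit 5) (nat_lit 198) (nat_lit 5) (nat_lit 199) (nat_lit 5) (nat_lit 297) (nat_lit 287) (nat_lit 196)) (XT.nd (nat_lit 78) (nat_lit 0) (nat_lit 76) (XT.lf (nat_lit 76) (nat_lit 1796765803) (nat_lit 0) (nat_lit 844920242) (nat_lit 1140) (nat_lit 8530166421) (nat_lit 185) (nat_lit 5) (nat_lit 184) (nat_lit 5) (nat_lit 199) (nat_lit 5) (nat_lit 298) (nat_lit 287) (nat_lit 195)) (XT.lf (nat_lit 0) (nat_lit 3687872478) (nat_lit 1064) (nat_lit 4232698689) (nat_lit 1140) (nat_lit 3414863493) (nat_lit 185) (nat_lit 5) (nat_lit 199) (nat_lit 5)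 (nat_lit 200) (nat_lit 5) (nat_lit 299) (nat_lit 287) (nat_lit 194)))) (XT.nd (nat_lit 78) (nat_lit 0) (nat_lit 76) (XT.lf (nat_lit 76) (nat_lit 1060866737) (nat_lit 0) (nat_lit 3702486375) (nat_lit 1140) (nat_lit 6740670820) (nat_lit 186) (nat_lit 5) (nat_lit 185) (nat_lit 5) (nat_lit 200) (nat_lit 5) (nat_lit 300) (nat_lit 287) (nat_lit 193)) (XT.nd (nat_lit 78) (nat_lit 0) (nat_lit 0) (XT.lf (nat_lit 0) (nat_lit 5900283356) (nat_lit 1064) (nat_lit 5098946960) (nat_lit 1140) (nat_lit 677600810) (nat_lit 186) (nat_lit 5) (nat_lit 200) (nat_lit 5) (nat_lit 201) (nat_lit 5) (nat_lit 301) (nat_lit 287) (nat_lit 192)) (XT.lf (nat_lit 76) (nat_lit 360462508) (nat_lit 0) (nat_lit 6731416626) (nat_lit 1140) (nat_lit 4762361427) (nat_lit 187) (nat_lit 5) (nat_lit 186) (nat_lit 5) (nat_lit 201) (nat_lit 5) (nat_lit 302) (nat_lit 287) (nat_lit 191)))))) (XT.nd (nat_lit 468) (nat_lit 1672) (nat_lit 0) (XT.nd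 (nat_lit 234) (nat_lit 1216) (nat_lit 0) (XT.nd (nat_lit 78) (nat_lit 988) (nat_lit 0) (XT.lf (nat_lit 76) (nat_lit 6072826947) (nat_lit 0) (nat_lit 2278741878) (nat_lit 1140) (nat_lit 3684466815) (nat_lit 187) (nat_lit 5) (nat_lit 186) (nat_lit 5) (nat_lit 201) (nat_lit 5) (nat_lit 303) (nat_lit 287) (nat_lit 190)) (XT.nd (nat_lit 78) (nat_lit 1064) (nat_lit 0) (XT.lf (nat_lit 0) (nat_lit 9652680076) (nat_lit 1064) (nat_lit 304432827) (nat_lit 76) (nat_lit 2266095503) (nat_lit 187) (nat_lit 5) (nat_lit 201) (nat_lit 5) (nat_lit 188) (nat_lit 5) (nat_lit 304) (nat_lit 287) (nat_lit 189)) (XT.lf (nat_lit 0) (nat_lit 5595658939) (nat_lit 1064) (nat_lit 5455506365) (nat_lit 1140) (nat_lit 1363112637) (nat_lit 173) (nat_lit 5) (nat_lit 187) (nat_lit 5) (nat_lit 188) (nat_lit 5) (nat_lit 305) (nat_lit 287) (nat_lit 188)))) (XT.nd (nat_lit 78) (nat_lit 1216) (nat_lit 0) (XT.lf (nat_lit 0) (nat_lit 11664064814)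 (nat_lit 1064) (nat_lit 812985449) (nat_lit 1140) (nat_lit 134496824) (nat_lit 173) (nat_lit 5) (nat_lit 187) (nat_lit 5) (nat_lit 188) (nat_lit 5) (nat_lit 306) (nat_lit 287) (nat_lit 187)) (XT.nd (nat_lit 78) (nat_lit 0) (nat_lit 0) (XT.lf (nat_lit 0) (nat_lit 1180113531) (nat_lit 1216) (nat_lit 7677206311) (nat_lit 76) (nat_lit 3954981256) (nat_lit 157) (nat_lit 5) (nat_lit 173) (nat_lit 5) (nat_lit 158) (nat_lit 5) (nat_lit 307) (nat_lit 287) (nat_lit 186)) (XT.lf (nat_lit 0) (nat_lit 2532240569) (nat_lit 1216) (nat_lit 1623975379) (nat_lit 76) (nat_lit 8862826642) (nat_lit 157) (nat_lit 5) (nat_lit 173) (nat_lit 5) (nat_lit 158) (nat_lit 5) (nat_lit 308) (nat_lit 287) (nat_lit 185))))) (XT.nd (nat_lit 234) (nat_lit 532) (nat_lit 0) (XT.nd (nat_lit 78) (nat_lit 608) (nat_lit 0) (XT.lf (nat_lit 0) (nat_lit 3960608358) (nat_lit 608) (nat_lit 8550723386) (nat_lit 76) (nat_lit 719611710) (nat_lit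 150) (nat_lit 5) (nat_lit 158) (nat_lit 5) (nat_lit 151) (nat_lit 5) (nat_lit 309) (nat_lit 287) (nat_lit 184)) (XT.nd (nat_lit 78) (nat_lit 608) (nat_lit 0) (XT.lf (nat_lit 0) (nat_lit 5473453189) (nat_lit 608) (nat_lit 2298404329) (nat_lit 76) (nat_lit 5676121685) (nat_lit 150) (nat_lit 5) (nat_lit 158) (nat_lit 5) (nat_lit 151) (nat_lit 5) (nat_lit 310) (nat_lit 287) (nat_lit 183)) (XT.lf (nat_lit 0) (nat_lit 4208843889) (nat_lit 608) (nat_lit 2847680002) (nat_lit 684) (nat_lit 6614282776) (nat_lit 142) (nat_lit 5) (nat_lit 150) (nat_lit 5) (nat_lit 151) (nat_lit 5) (nat_lit 311) (nat_lit 287) (nat_lit 182)))) (XT.nd (nat_lit 78) (nat_lit 532) (nat_lit 0) (XT.lf (nat_lit 0) (nat_lit 8716609830) (nat_lit 684) (nat_lit 2977924499) (nat_lit 76) (nat_lit 2204924040) (nat_lit 142) (nat_lit 5) (nat_lit 151) (nat_lit 5) (nat_lit 143) (nat_lit 5) (nat_lit 312) (nat_lit 287) (nat_lit 181)) (XT.nd (nat_lit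 78) (nat_lit 0) (nat_lit 0) (XT.lf (nat_lit 0) (nat_lit 3730561002) (nat_lit 532) (nat_lit 6745141515) (nat_lit 608) (nat_lit 3657815358) (nat_lit 135) (nat_lit 5) (nat_lit 142) (nat_lit 5) (nat_lit 143) (nat_lit 5) (nat_lit 313) (nat_lit 287) (nat_lit 180)) (XT.lf (nat_lit 0) (nat_lit 10686813727) (nat_lit 532) (nat_lit 1616267208) (nat_lit 608) (nat_lit 2071076508) (nat_lit 135) (nat_lit 5) (nat_lit 142) (nat_lit 5) (nat_lit 143) (nat_lit 5) (nat_lit 314) (nat_lit 287) (nat_lit 179))))))) (XT.nd (nat_lit 936) (nat_lit 2128) (nat_lit 0) (XT.nd (nat_lit 468) (nat_lit 1292) (nat_lit 0) (XT.nd (nat_lit 234) (nat_lit 456) (nat_lit 0) (XT.nd (nat_lit 78) (nat_lit 532) (nat_lit 0) (XT.lf (nat_lit 0) (nat_lit 3243224576) (nat_lit 532) (nat_lit 10994342399) (nat_lit 608) (nat_lit 382903614) (nat_lit 128) (nat_lit 5) (nat_lit 135) (nat_lit 5) (nat_lit 136) (nat_lit 5) (nat_lit 315) (nat_lit 287) (nat_lit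 178)) (XT.nd (nat_lit 78) (nat_lit 456) (nat_lit 0) (XT.lf (nat_lit 0) (nat_lit 1369041979) (nat_lit 608) (nat_lit 4459878263) (nat_lit 76) (nat_lit 9043695938) (nat_lit 127) (nat_lit 5) (nat_lit 135) (nat_lit 5) (nat_lit 128) (nat_lit 5) (nat_lit 316) (nat_lit 287) (nat_lit 177)) (XT.lf (nat_lit 0) (nat_lit 2699613286) (nat_lit 456) (nat_lit 478575389) (nat_lit 532) (nat_lit 11953674596) (nat_lit 121) (nat_lit 5) (nat_lit 127) (nat_lit 5) (nat_lit 128) (nat_lit 5) (nat_lit 317) (nat_lit 287) (nat_lit 176)))) (XT.nd (nat_lit 78) (nat_lit 456) (nat_lit 0) (XT.lf (nat_lit 0) (nat_lit 5122106288) (nat_lit 532) (nat_lit 5295601784) (nat_lit 76) (nat_lit 4978785223) (nat_lit 121) (nat_lit 5) (nat_lit 128) (nat_lit 5) (nat_lit 122) (nat_lit 5) (nat_lit 318) (nat_lit 287) (nat_lit 175)) (XT.nd (nat_lit 78) (nat_lit 0) (nat_lit 0) (XT.lf (nat_lit 0) (nat_lit 2076798804) (nat_lit 456) (nat_lit 5059274779)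 (nat_lit 532) (nat_lit 8532656492) (nat_lit 115) (nat_lit 5) (nat_lit 121) (nat_lit 5) (nat_lit 122) (nat_lit 5) (nat_lit 319) (nat_lit 287) (nat_lit 174)) (XT.lf (nat_lit 0) (nat_lit 9256146842) (nat_lit 532) (nat_lit 6187938831) (nat_lit 76) (nat_lit 503696920) (nat_lit 115) (nat_lit 5) (nat_lit 122) (nat_lit 5) (nat_lit 116) (nat_lit 5) (nat_lit 320) (nat_lit 287) (nat_lit 173))))) (XT.nd (nat_lit 234) (nat_lit 456) (nat_lit 0) (XT.nd (nat_lit 78) (nat_lit 456) (nat_lit 0) (XT.lf (nat_lit 0) (nat_lit 1401463349) (nat_lit 380) (nat_lit 10089554872) (nat_lit 456) (nat_lit 4742671271) (nat_lit 110) (nat_lit 5) (nat_lit 115) (nat_lit 5) (nat_lit 116) (nat_lit 5) (nat_lit 321) (nat_lit 287) (nat_lit 172)) (XT.nd (nat_lit 78) (nat_lit 456) (nat_lit 0) (XT.lf (nat_lit 0) (nat_lit 9331565395) (nat_lit 380) (nat_lit 4511716056) (nat_lit 456) (nat_lit 2683399912) (nat_lit 110) (nat_lit 5) (nat_lit 115)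 (nat_lit 5) (nat_lit 116) (nat_lit 5) (nat_lit 322) (nat_lit 287) (nat_lit 171)) (XT.lf (nat_lit 0) (nat_lit 658315308) (nat_lit 456) (nat_lit 15614179657) (nat_lit 532) (nat_lit 555794166) (nat_lit 104) (nat_lit 5) (nat_lit 110) (nat_lit 5) (nat_lit 111) (nat_lit 5) (nat_lit 323) (nat_lit 287) (nat_lit 170)))) (XT.nd (nat_lit 78) (nat_lit 380) (nat_lit 0) (XT.lf (nat_lit 0) (nat_lit 1710047494) (nat_lit 532) (nat_lit 8316932001) (nat_lit 76) (nat_lit 7108320803) (nat_lit 103) (nat_lit 5) (nat_lit 110) (nat_lit 5) (nat_lit 104) (nat_lit 5) (nat_lit 324) (nat_lit 287) (nat_lit 169)) (XT.nd (nat_lit 78) (nat_lit 380) (nat_lit 0) (XT.lf (nat_lit 0) (nat_lit 4021313467) (nat_lit 532) (nat_lit 247293406) (nat_lit 76) (nat_lit 13183107356) (nat_lit 103) (nat_lit 5) (nat_lit 110) (nat_lit 5) (nat_lit 104) (nat_lit 5) (nat_lit 325) (nat_lit 287) (nat_lit 168)) (XT.lf (nat_lit 0) (nat_lit 6486546469) (nat_lit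 456) (nat_lit 9580769495) (nat_lit 76) (nat_lit 1707781389) (nat_lit 98) (nat_lit 5) (nat_lit 104) (nat_lit 5) (nat_lit 99) (nat_lit 5) (nat_lit 326) (nat_lit 287) (nat_lit 167)))))) (XT.nd (nat_lit 468) (nat_lit 988) (nat_lit 0) (XT.nd (nat_lit 234) (nat_lit 760) (nat_lit 0) (XT.nd (nat_lit 78) (nat_lit 380) (nat_lit 0) (XT.lf (nat_lit 0) (nat_lit 9059649989) (nat_lit 456) (nat_lit 1269418740) (nat_lit 76) (nat_lit 7778111027) (nat_lit 98) (nat_lit 5) (nat_lit 104) (nat_lit 5) (nat_lit 99) (nat_lit 5) (nat_lit 327) (nat_lit 287) (nat_lit 166)) (XT.nd (nat_lit 78) (nat_lit 0) (nat_lit 0) (XT.lf (nat_lit 0) (nat_lit 7423222896) (nat_lit 380) (nat_lit 4347525122) (nat_lit 456) (nat_lit 6676667318) (nat_lit 93) (nat_lit 5) (nat_lit 98) (nat_lit 5) (nat_lit 99) (nat_lit 5) (nat_lit 328) (nat_lit 287) (nat_lit 165)) (XT.lf (nat_lit 0) (nat_lit 14583163005) (nat_lit 456) (nat_lit 2425446109) (nat_lit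 76) (nat_lit 1788663668) (nat_lit 93) (nat_lit 5) (nat_lit 99) (nat_lit 5) (nat_lit 94) (nat_lit 5) (nat_lit 329) (nat_lit 287) (nat_lit 164)))) (XT.nd (nat_lit 78) (nat_lit 456) (nat_lit 0) (XT.lf (nat_lit 0) (nat_lit 6502404841) (nat_lit 304) (nat_lit 11073004548) (nat_lit 380) (nat_lit 1579366695) (nat_lit 89) (nat_lit 5) (nat_lit 93) (nat_lit 5) (nat_lit 94) (nat_lit 5) (nat_lit 330) (nat_lit 287) (nat_lit 163)) (XT.nd (nat_lit 78) (nat_lit 380) (nat_lit 0) (XT.lf (nat_lit 0) (nat_lit 1126987500) (nat_lit 380) (nat_lit 3798392874) (nat_lit 76) (nat_lit 14596868911) (nat_lit 88) (nat_lit 5) (nat_lit 93) (nat_lit 5) (nat_lit 89) (nat_lit 5) (nat_lit 331) (nat_lit 287) (nat_lit 162)) (XT.lf (nat_lit 0) (nat_lit 3939109747) (nat_lit 456) (nat_lit 14514692692) (nat_lit 76) (nat_lit 1444798211) (nat_lit 83) (nat_lit 5) (nat_lit 89) (nat_lit 5) (nat_lit 84) (nat_lit 5) (nat_lit 332) (nat_lit 287)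 (nat_lit 161))))) (XT.nd (nat_lit 234) (nat_lit 684) (nat_lit 0) (XT.nd (nat_lit 78) (nat_lit 304) (nat_lit 0) (XT.lf (nat_lit 0) (nat_lit 6913499967) (nat_lit 456) (nat_lit 5427262372) (nat_lit 76) (nat_lit 7943155440) (nat_lit 83) (nat_lit 5) (nat_lit 89) (nat_lit 5) (nat_lit 84) (nat_lit 5) (nat_lit 333) (nat_lit 287) (nat_lit 160)) (XT.nd (nat_lit 78) (nat_lit 0) (nat_lit 0) (XT.lf (nat_lit 0) (nat_lit 3998618558) (nat_lit 304) (nat_lit 6007622131) (nat_lit 380) (nat_lit 10673692160) (nat_lit 79) (nat_lit 5) (nat_lit 83) (nat_lit 5) (nat_lit 84) (nat_lit 5) (nat_lit 334) (nat_lit 287) (nat_lit 159)) (XT.lf (nat_lit 0) (nat_lit 13242875257) (nat_lit 380) (nat_lit 7285491435) (nat_lit 76) (nat_lit 557939973) (nat_lit 79) (nat_lit 5) (nat_lit 84) (nat_lit 5) (nat_lit 80) (nat_lit 5) (nat_lit 335) (nat_lit 287) (nat_lit 158)))) (XT.nd (nat_lit 78) (nat_lit 380) (nat_lit 0) (XT.lf (nat_lit 0) (nat_lit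 2366932823) (nat_lit 304) (nat_lit 14282986430) (nat_lit 380) (nat_lit 4852764434) (nat_lit 75) (nat_lit 5) (nat_lit 79) (nat_lit 5) (nat_lit 80) (nat_lit 5) (nat_lit 336) (nat_lit 287) (nat_lit 157)) (XT.nd (nat_lit 78) (nat_lit 380) (nat_lit 0) (XT.lf (nat_lit 0) (nat_lit 12446413424) (nat_lit 304) (nat_lit 7777552783) (nat_lit 380) (nat_lit 1705653037) (nat_lit 75) (nat_lit 5) (nat_lit 79) (nat_lit 5) (nat_lit 80) (nat_lit 5) (nat_lit 337) (nat_lit 287) (nat_lit 156)) (XT.lf (nat_lit 0) (nat_lit 441060350) (nat_lit 304) (nat_lit 1060463998) (nat_lit 380) (nat_lit 20867537261) (nat_lit 70) (nat_lit 5) (nat_lit 74) (nat_lit 5) (nat_lit 75) (nat_lit 5) (nat_lit 338) (nat_lit 287) (nat_lit 155))))))))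
noncomputable def xc179 : XT := (XT.nd (nat_lit 1872) (nat_lit 1216) (nat_lit 0) (XT.nd (nat_lit 936) (nat_lit 1140) (nat_lit 0) (XT.nd (nat_lit 468) (nat_lit 836) (nat_lit 0) (XT.nd (nat_lit 234) (nat_lit 228) (nat_lit 0) (XT.nd (nat_lit 78) (nat_lit 304) (nat_lit 0) (XT.lf (nat_lit 0) (nat_lit 4915150101) (nat_lit 380) (nat_lit 12047329221) (nat_lit 76) (nat_lit 5854375887) (nat_lit 70) (nat_lit 5) (nat_lit 75) (nat_lit 5) (nat_lit 71) (nat_lit 5) (nat_lit 339) (nat_lit 287) (nat_lit 154)) (XT.nd (nat_lit 78) (nat_lit 304) (nat_lit 0) (XT.lf (nat_lit 0) (nat_lit 8433425103) (nat_lit 380) (nat_lit 1892210420) (nat_lit 76) (nat_lit 12952389629) (nat_lit 70) (nat_lit 5) (nat_lit 75) (nat_lit 5) (nat_lit 71) (nat_lit 5) (nat_lit 340) (nat_lit 287) (nat_lit 153)) (XT.lf (nat_lit 0) (nat_lit 8726711959) (nat_lit 304) (nat_lit 3406404282) (nat_lit 380) (nat_lit 11617647382) (nat_lit 66) (nat_lit 5)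 (nat_lit 70) (nat_lit 5) (nat_lit 71) (nat_lit 5) (nat_lit 341) (nat_lit 287) (nat_lit 152)))) (XT.nd (nat_lit 78) (nat_lit 228) (nat_lit 0) (XT.lf (nat_lit 0) (nat_lit 15990936449) (nat_lit 380) (nat_lit 4581318638) (nat_lit 76) (nat_lit 3664024203) (nat_lit 66) (nat_lit 5) (nat_lit 71) (nat_lit 5) (nat_lit 67) (nat_lit 5) (nat_lit 342) (nat_lit 287) (nat_lit 151)) (XT.nd (nat_lit 78) (nat_lit 0) (nat_lit 0) (XT.lf (nat_lit 0) (nat_lit 6252051094) (nat_lit 228) (nat_lit 13798574937) (nat_lit 304) (nat_lit 4683159275) (nat_lit 63) (nat_lit 5) (nat_lit 66) (nat_lit 5) (nat_lit 67) (nat_lit 5) (nat_lit 343) (nat_lit 287) (nat_lit 150)) (XT.lf (nat_lit 0) (nat_lit 17493522957) (nat_lit 228) (nat_lit 6777275201) (nat_lit 304) (nat_lit 974266251) (nat_lit 63) (nat_lit 5) (nat_lit 66) (nat_lit 5) (nat_lit 67) (nat_lit 5) (nat_lit 344) (nat_lit 287) (nat_lit 149))))) (XT.nd (nat_lit 234) (nat_lit 456)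 (nat_lit 0) (XT.nd (nat_lit 78) (nat_lit 0) (nat_lit 0) (XT.lf (nat_lit 0) (nat_lit 2819841779) (nat_lit 380) (nat_lit 22447580738) (nat_lit 76) (nat_lit 502562385) (nat_lit 58) (nat_lit 5) (nat_lit 63) (nat_lit 5) (nat_lit 59) (nat_lit 5) (nat_lit 345) (nat_lit 287) (nat_lit 148)) (XT.nd (nat_lit 78) (nat_lit 0) (nat_lit 0) (XT.lf (nat_lit 0) (nat_lit 6846996346) (nat_lit 380) (nat_lit 11509105095) (nat_lit 76) (nat_lit 7950105959) (nat_lit 58) (nat_lit 5) (nat_lit 63) (nat_lit 5) (nat_lit 59) (nat_lit 5) (nat_lit 346) (nat_lit 287) (nat_lit 147)) (XT.lf (nat_lit 0) (nat_lit 10987832515) (nat_lit 380) (nat_lit 252906793) (nat_lit 76) (nat_lit 15617998951) (nat_lit 58) (nat_lit 5) (nat_lit 63) (nat_lit 5) (nat_lit 59) (nat_lit 5) (nat_lit 347) (nat_lit 287) (nat_lit 146)))) (XT.nd (nat_lit 78) (nat_lit 228) (nat_lit 0) (XT.lf (nat_lit 0) (nat_lit 11556355805) (nat_lit 228) (nat_lit 3800699448)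 (nat_lit 304) (nat_lit 12067672419) (nat_lit 55) (nat_lit 5) (nat_lit 58) (nat_lit 5) (nat_lit 59) (nat_lit 5) (nat_lit 348) (nat_lit 287) (nat_lit 145)) (XT.nd (nat_lit 78) (nat_lit 228) (nat_lit 0) (XT.lf (nat_lit 0) (nat_lit 19890212125) (nat_lit 304) (nat_lit 4329903425) (nat_lit 76) (nat_lit 3786602750) (nat_lit 55) (nat_lit 5) (nat_lit 59) (nat_lit 5) (nat_lit 56) (nat_lit 5) (nat_lit 349) (nat_lit 287) (nat_lit 144)) (XT.lf (nat_lit 0) (nat_lit 7656583776) (nat_lit 228) (nat_lit 17007359107) (nat_lit 304) (nat_lit 3939095433) (nat_lit 52) (nat_lit 5) (nat_lit 55) (nat_lit 5) (nat_lit 56) (nat_lit 5) (nat_lit 350) (nat_lit 287) (nat_lit 143)))))) (XT.nd (nat_lit 468) (nat_lit 608) (nat_lit 0) (XT.nd (nat_lit 234) (nat_lit 228) (nat_lit 0) (XT.nd (nat_lit 78) (nat_lit 228) (nat_lit 0) (XT.lf (nat_lit 0) (nat_lit 394074723) (nat_lit 304) (nat_lit 9138393685) (nat_lit 76) (nat_lit 19683555308)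 (nat_lit 51) (nat_lit 5) (nat_lit 55) (nat_lit 5) (nat_lit 52) (nat_lit 5) (nat_lit 351) (nat_lit 287) (nat_lit 142)) (XT.nd (nat_lit 78) (nat_lit 0) (nat_lit 0) (XT.lf (nat_lit 0) (nat_lit 3034457741) (nat_lit 228) (nat_lit 1766348836) (nat_lit 304) (nat_lit 25044746364) (nat_lit 48) (nat_lit 5) (nat_lit 51) (nat_lit 5) (nat_lit 52) (nat_lit 5) (nat_lit 352) (nat_lit 287) (nat_lit 141)) (XT.lf (nat_lit 0) (nat_lit 9486480635) (nat_lit 304) (nat_lit 14801937537) (nat_lit 76) (nat_lit 6201153921) (nat_lit 48) (nat_lit 5) (nat_lit 52) (nat_lit 5) (nat_lit 49) (nat_lit 5) (nat_lit 353) (nat_lit 287) (nat_lit 140)))) (XT.nd (nat_lit 78) (nat_lit 228) (nat_lit 0) (XT.lf (nat_lit 0) (nat_lit 14324032625) (nat_lit 304) (nat_lit 2459444234) (nat_lit 76) (nat_lit 14369101806) (nat_lit 48) (nat_lit 5) (nat_lit 52) (nat_lit 5) (nat_lit 49) (nat_lit 5) (nat_lit 354) (nat_lit 287) (nat_lit 139)) (XT.nd (nat_lit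 78) (nat_lit 0) (nat_lit 0) (XT.lf (nat_lit 0) (nat_lit 10448027281) (nat_lit 228) (nat_lit 8953115856) (nat_lit 304) (nat_lit 12431505237) (nat_lit 45) (nat_lit 5) (nat_lit 48) (nat_lit 5) (nat_lit 49) (nat_lit 5) (nat_lit 355) (nat_lit 287) (nat_lit 138)) (XT.lf (nat_lit 0) (nat_lit 23784053861) (nat_lit 228) (nat_lit 865435252) (nat_lit 304) (nat_lit 7883069124) (nat_lit 45) (nat_lit 5) (nat_lit 48) (nat_lit 5) (nat_lit 49) (nat_lit 5) (nat_lit 356) (nat_lit 287) (nat_lit 137))))) (XT.nd (nat_lit 234) (nat_lit 380) (nat_lit 0) (XT.nd (nat_lit 78) (nat_lit 76) (nat_lit 0) (XT.lf (nat_lit 0) (nat_lit 4269279047) (nat_lit 152) (nat_lit 25893031511) (nat_lit 228) (nat_lit 3087949645) (nat_lit 43) (nat_lit 5) (nat_lit 45) (nat_lit 5) (nat_lit 46) (nat_lit 5) (nat_lit 357) (nat_lit 287) (nat_lit 136)) (XT.nd (nat_lit 78) (nat_lit 0) (nat_lit 0) (XT.lf (nat_lit 0) (nat_lit 1906939688) (nat_lit 228)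 (nat_lit 16166148319) (nat_lit 76) (nat_lit 15913115577) (nat_lit 42) (nat_lit 5) (nat_lit 45) (nat_lit 5) (nat_lit 43) (nat_lit 5) (nat_lit 358) (nat_lit 287) (nat_lit 135)) (XT.lf (nat_lit 0) (nat_lit 6984028756) (nat_lit 228) (nat_lit 3006182694) (nat_lit 76) (nat_lit 24753269157) (nat_lit 42) (nat_lit 5) (nat_lit 45) (nat_lit 5) (nat_lit 43) (nat_lit 5) (nat_lit 359) (nat_lit 287) (nat_lit 134)))) (XT.nd (nat_lit 78) (nat_lit 152) (nat_lit 0) (XT.lf (nat_lit 0) (nat_lit 10749866593) (nat_lit 228) (nat_lit 1561478570) (nat_lit 304) (nat_lit 23209198279) (nat_lit 39) (nat_lit 5) (nat_lit 42) (nat_lit 5) (nat_lit 43) (nat_lit 5) (nat_lit 360) (nat_lit 287) (nat_lit 133)) (XT.nd (nat_lit 78) (nat_lit 152) (nat_lit 0) (XT.lf (nat_lit 0) (nat_lit 17892209164) (nat_lit 304) (nat_lit 11417066202) (nat_lit 76) (nat_lit 7008835749) (nat_lit 39) (nat_lit 5) (nat_lit 43) (nat_lit 5) (nat_lit 40) (nat_lit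 5) (nat_lit 361) (nat_lit 287) (nat_lit 132)) (XT.lf (nat_lit 0) (nat_lit 2359446083) (nat_lit 152) (nat_lit 21313978163) (nat_lit 228) (nat_lit 13465198474) (nat_lit 37) (nat_lit 5) (nat_lit 39) (nat_lit 5) (nat_lit 40) (nat_lit 5) (nat_lit 362) (nat_lit 287) (nat_lit 131))))))) (XT.nd (nat_lit 936) (nat_lit 456) (nat_lit 0) (XT.nd (nat_lit 468) (nat_lit 380) (nat_lit 0) (XT.nd (nat_lit 234) (nat_lit 152) (nat_lit 0) (XT.nd (nat_lit 78) (nat_lit 228) (nat_lit 0) (XT.lf (nat_lit 0) (nat_lit 16775085868) (nat_lit 152) (nat_lit 12963137456) (nat_lit 228) (nat_lit 8242226444) (nat_lit 37) (nat_lit 5) (nat_lit 39) (nat_lit 5) (nat_lit 40) (nat_lit 5) (nat_lit 363) (nat_lit 287) (nat_lit 130)) (XT.nd (nat_lit 78) (nat_lit 228) (nat_lit 0) (XT.lf (nat_lit 0) (nat_lit 31615227336) (nat_lit 152) (nat_lit 4364746378) (nat_lit 228) (nat_lit 2867712083) (nat_lit 37) (nat_lit 5) (nat_lit 39) (nat_lit 5) (nat_lit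 40) (nat_lit 5) (nat_lit 364) (nat_lit 287) (nat_lit 129)) (XT.lf (nat_lit 0) (nat_lit 2725032874) (nat_lit 228) (nat_lit 32514343483) (nat_lit 76) (nat_lit 4497525537) (nat_lit 34) (nat_lit 5) (nat_lit 37) (nat_lit 5) (nat_lit 35) (nat_lit 5) (nat_lit 365) (nat_lit 287) (nat_lit 128)))) (XT.nd (nat_lit 78) (nat_lit 152) (nat_lit 0) (XT.lf (nat_lit 0) (nat_lit 8540034610) (nat_lit 228) (nat_lit 18471332030) (nat_lit 76) (nat_lit 13637216678) (nat_lit 34) (nat_lit 5) (nat_lit 37) (nat_lit 5) (nat_lit 35) (nat_lit 5) (nat_lit 366) (nat_lit 287) (nat_lit 127)) (XT.nd (nat_lit 78) (nat_lit 152) (nat_lit 0) (XT.lf (nat_lit 0) (nat_lit 14524768471) (nat_lit 228) (nat_lit 4014681745) (nat_lit 76) (nat_lit 23048310404) (nat_lit 34) (nat_lit 5) (nat_lit 37) (nat_lit 5) (nat_lit 35) (nat_lit 5) (nat_lit 367) (nat_lit 287) (nat_lit 126)) (XT.lf (nat_lit 0) (nat_lit 11084538667) (nat_lit 152) (nat_lit 9706476538)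 (nat_lit 228) (nat_lit 21761042700) (nat_lit 32) (nat_lit 5) (nat_lit 34) (nat_lit 5) (nat_lit 35) (nat_lit 5) (nat_lit 368) (nat_lit 287) (nat_lit 125))))) (XT.nd (nat_lit 234) (nat_lit 228) (nat_lit 0) (XT.nd (nat_lit 78) (nat_lit 152) (nat_lit 0) (XT.lf (nat_lit 0) (nat_lit 26711676908) (nat_lit 152) (nat_lit 569595040) (nat_lit 228) (nat_lit 16262935157) (nat_lit 32) (nat_lit 5) (nat_lit 34) (nat_lit 5) (nat_lit 35) (nat_lit 5) (nat_lit 369) (nat_lit 287) (nat_lit 124)) (XT.nd (nat_lit 78) (nat_lit 152) (nat_lit 0) (XT.lf (nat_lit 0) (nat_lit 34046812566) (nat_lit 228) (nat_lit 1850730607) (nat_lit 76) (nat_lit 8666163892) (nat_lit 32) (nat_lit 5) (nat_lit 35) (nat_lit 5) (nat_lit 33) (nat_lit 5) (nat_lit 370) (nat_lit 287) (nat_lit 123)) (XT.lf (nat_lit 0) (nat_lit 13837871047) (nat_lit 152) (nat_lit 27311821810) (nat_lit 228) (nat_lit 4460071427) (nat_lit 30) (nat_lit 5) (nat_lit 32) (nat_lit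 5) (nat_lit 33) (nat_lit 5) (nat_lit 371) (nat_lit 287) (nat_lit 122)))) (XT.nd (nat_lit 78) (nat_lit 152) (nat_lit 0) (XT.lf (nat_lit 0) (nat_lit 1758354492) (nat_lit 228) (nat_lit 16675912632) (nat_lit 76) (nat_lit 28251988427) (nat_lit 29) (nat_lit 5) (nat_lit 32) (nat_lit 5) (nat_lit 30) (nat_lit 5) (nat_lit 372) (nat_lit 287) (nat_lit 121)) (XT.nd (nat_lit 78) (nat_lit 152) (nat_lit 0) (XT.lf (nat_lit 0) (nat_lit 8069543040) (nat_lit 228) (nat_lit 1178064491) (nat_lit 76) (nat_lit 38546236837) (nat_lit 29) (nat_lit 5) (nat_lit 32) (nat_lit 5) (nat_lit 30) (nat_lit 5) (nat_lit 373) (nat_lit 287) (nat_lit 120)) (XT.lf (nat_lit 0) (nat_lit 14714396505) (nat_lit 228) (nat_lit 33861732409) (nat_lit 76) (nat_lit 354205136) (nat_lit 27) (nat_lit 5) (nat_lit 30) (nat_lit 5) (nat_lit 28) (nat_lit 5) (nat_lit 374) (nat_lit 287) (nat_lit 119)))))) (XT.nd (nat_lit 468) (nat_lit 152) (nat_lit 0) (XT.nd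 (nat_lit 234) (nat_lit 152) (nat_lit 0) (XT.nd (nat_lit 78) (nat_lit 152) (nat_lit 0) (XT.lf (nat_lit 0) (nat_lit 21658172433) (nat_lit 228) (nat_lit 18372107821) (nat_lit 76) (nat_lit 10067653851) (nat_lit 27) (nat_lit 5) (nat_lit 30) (nat_lit 5) (nat_lit 28) (nat_lit 5) (nat_lit 375) (nat_lit 287) (nat_lit 118)) (XT.nd (nat_lit 78) (nat_lit 152) (nat_lit 0) (XT.lf (nat_lit 0) (nat_lit 28806380535) (nat_lit 228) (nat_lit 2424284744) (nat_lit 76) (nat_lit 20070016217) (nat_lit 27) (nat_lit 5) (nat_lit 30) (nat_lit 5) (nat_lit 28) (nat_lit 5) (nat_lit 376) (nat_lit 287) (nat_lit 117)) (XT.lf (nat_lit 0) (nat_lit 14274213124) (nat_lit 152) (nat_lit 22028266163) (nat_lit 228) (nat_lit 16233031508) (nat_lit 25) (nat_lit 5) (nat_lit 27) (nat_lit 5) (nat_lit 28) (nat_lit 5) (nat_lit 377) (nat_lit 287) (nat_lit 116)))) (XT.nd (nat_lit 78) (nat_lit 152) (nat_lit 0) (XT.lf (nat_lit 0) (nat_lit 31517121955)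 (nat_lit 152) (nat_lit 12527101281) (nat_lit 228) (nat_lit 9762541606) (nat_lit 25) (nat_lit 5) (nat_lit 27) (nat_lit 5) (nat_lit 28) (nat_lit 5) (nat_lit 378) (nat_lit 287) (nat_lit 115)) (XT.nd (nat_lit 78) (nat_lit 152) (nat_lit 0) (XT.lf (nat_lit 0) (nat_lit 49271260347) (nat_lit 152) (nat_lit 2743349166) (nat_lit 228) (nat_lit 3101657952) (nat_lit 25) (nat_lit 5) (nat_lit 27) (nat_lit 5) (nat_lit 28) (nat_lit 5) (nat_lit 379) (nat_lit 287) (nat_lit 114)) (XT.lf (nat_lit 0) (nat_lit 3862404794) (nat_lit 152) (nat_lit 45261921684) (nat_lit 76) (nat_lit 7334346005) (nat_lit 23) (nat_lit 5) (nat_lit 25) (nat_lit 5) (nat_lit 24) (nat_lit 5) (nat_lit 380) (nat_lit 287) (nat_lit 113))))) (XT.nd (nat_lit 234) (nat_lit 0) (nat_lit 0) (XT.nd (nat_lit 78) (nat_lit 152) (nat_lit 0) (XT.lf (nat_lit 0) (nat_lit 11056299887) (nat_lit 152) (nat_lit 29034436445) (nat_lit 76) (nat_lit 17747196945) (nat_lit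 23) (nat_lit 5) (nat_lit 25) (nat_lit 5) (nat_lit 24) (nat_lit 5) (nat_lit 381) (nat_lit 287) (nat_lit 112)) (XT.nd (nat_lit 78) (nat_lit 152) (nat_lit 0) (XT.lf (nat_lit 0) (nat_lit 18462595663) (nat_lit 152) (nat_lit 12325932584) (nat_lit 76) (nat_lit 28470148493) (nat_lit 23) (nat_lit 5) (nat_lit 25) (nat_lit 5) (nat_lit 24) (nat_lit 5) (nat_lit 382) (nat_lit 287) (nat_lit 111)) (XT.lf (nat_lit 0) (nat_lit 4975275100) (nat_lit 152) (nat_lit 21160313929) (nat_lit 228) (nat_lit 34585120506) (nat_lit 21) (nat_lit 5) (nat_lit 23) (nat_lit 5) (nat_lit 24) (nat_lit 5) (nat_lit 383) (nat_lit 287) (nat_lit 110)))) (XT.nd (nat_lit 78) (nat_lit 0) (nat_lit 0) (XT.lf (nat_lit 0) (nat_lit 23042606983) (nat_lit 152) (nat_lit 11117359245) (nat_lit 228) (nat_lit 28063003490) (nat_lit 21) (nat_lit 5) (nat_lit 23) (nat_lit 5) (nat_lit 24) (nat_lit 5) (nat_lit 384) (nat_lit 287) (nat_lit 109)) (XT.nd (nat_lit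 78) (nat_lit 0) (nat_lit 0) (XT.lf (nat_lit 0) (nat_lit 41646539825) (nat_lit 152) (nat_lit 775356546) (nat_lit 228) (nat_lit 21348498844) (nat_lit 21) (nat_lit 5) (nat_lit 23) (nat_lit 5) (nat_lit 24) (nat_lit 5) (nat_lit 385) (nat_lit 287) (nat_lit 108)) (XT.lf (nat_lit 0) (nat_lit 51023520579) (nat_lit 228) (nat_lit 4655930613) (nat_lit 76) (nat_lit 9682039299) (nat_lit 21) (nat_lit 5) (nat_lit 24) (nat_lit 5) (nat_lit 22) (nat_lit 4) (nat_lit 386) (nat_lit 287) (nat_lit 107))))))))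
noncomputable def xc180 : XT := (XT.nd (nat_lit 34398) (nat_lit 0) (nat_lit 5624) (XT.nd (nat_lit 33462) (nat_lit 0) (nat_lit 11704) (XT.nd (nat_lit 32994) (nat_lit 0) (nat_lit 13376) (XT.nd (nat_lit 156) (nat_lit 0) (nat_lit 0) (XT.nd (nat_lit 78) (nat_lit 76) (nat_lit 0) (XT.lf (nat_lit 0) (nat_lit 13588332893) (nat_lit 76) (nat_lit 46430140563) (nat_lit 152) (nat_lit 6977788804) (nat_lit 20) (nat_lit 5) (nat_lit 21) (nat_lit 5) (nat_lit 22) (nat_lit 4) (nat_lit 387) (nat_lit 287) (nat_lit 106)) (XT.lf (nat_lit 0) (nat_lit 635899359) (nat_lit 152) (nat_lit 36214754762) (nat_lit 76) (nat_lit 31827916866) (nat_lit 19) (nat_lit 5) (nat_lit 21) (nat_lit 5) (nat_lit 20) (nat_lit 5) (nat_lit 388) (nat_lit 287) (nat_lit 105))) (XT.nd (nat_lit 78) (nat_lit 0) (nat_lit 0) (XT.lf (nat_lit 0) (nat_lit 8334830076) (nat_lit 152) (nat_lit 18579911316) (nat_lit 76) (nat_lit 43494624480) (nat_lit 19) (nat_lit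 5) (nat_lit 21) (nat_lit 5) (nat_lit 20) (nat_lit 5) (nat_lit 389) (nat_lit 287) (nat_lit 104)) (XT.nd (nat_lit 32682) (nat_lit 0) (nat_lit 13376) (XT.lf (nat_lit 0) (nat_lit 16261892359) (nat_lit 152) (nat_lit 420915167) (nat_lit 76) (nat_lit 55509363975) (nat_lit 19) (nat_lit 5) (nat_lit 21) (nat_lit 5) (nat_lit 20) (nat_lit 5) (nat_lit 390) (nat_lit 287) (nat_lit 103)) (XT.lf (nat_lit 0) (nat_lit 1226899271) (nat_lit 0) (nat_lit 1226899271) (nat_lit 988) (nat_lit 2483791661) (nat_lit 195) (nat_lit 5) (nat_lit 195) (nat_lit 3) (nat_lit 208) (nat_lit 3) (nat_lit 288) (nat_lit 288) (nat_lit 204))))) (XT.nd (nat_lit 234) (nat_lit 0) (nat_lit 76) (XT.nd (nat_lit 78) (nat_lit 0) (nat_lit 0) (XT.lf (nat_lit 0) (nat_lit 5668070728) (nat_lit 988) (nat_lit 3106954944) (nat_lit 1064) (nat_lit 1226406967) (nat_lit 195) (nat_lit 5) (nat_lit 208) (nat_lit 3) (nat_lit 209) (nat_lit 5) (nat_lit 289) (nat_lit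 288) (nat_lit 203)) (XT.nd (nat_lit 78) (nat_lit 0) (nat_lit 0) (XT.lf (nat_lit 76) (nat_lit 1324317218) (nat_lit 0) (nat_lit 5137856161) (nat_lit 1064) (nat_lit 3669024167) (nat_lit 196) (nat_lit 5) (nat_lit 195) (nat_lit 5) (nat_lit 209) (nat_lit 5) (nat_lit 290) (nat_lit 288) (nat_lit 202)) (XT.lf (nat_lit 76) (nat_lit 5938220926) (nat_lit 0) (nat_lit 1347670826) (nat_lit 1064) (nat_lit 2978837979) (nat_lit 196) (nat_lit 5) (nat_lit 195) (nat_lit 5) (nat_lit 209) (nat_lit 5) (nat_lit 291) (nat_lit 288) (nat_lit 201)))) (XT.nd (nat_lit 78) (nat_lit 0) (nat_lit 0) (XT.lf (nat_lit 76) (nat_lit 254173329) (nat_lit 0) (nat_lit 7882435269) (nat_lit 1064) (nat_lit 2265637383) (nat_lit 197) (nat_lit 5) (nat_lit 196) (nat_lit 5) (nat_lit 210) (nat_lit 5) (nat_lit 292) (nat_lit 288) (nat_lit 200)) (XT.nd (nat_lit 78) (nat_lit 0) (nat_lit 0) (XT.lf (nat_lit 76) (nat_lit 5033009909) (nat_lit 0) (nat_lit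 4012592793) (nat_lit 1064) (nat_lit 1497347692) (nat_lit 197) (nat_lit 5) (nat_lit 196) (nat_lit 5) (nat_lit 210) (nat_lit 5) (nat_lit 293) (nat_lit 288) (nat_lit 199)) (XT.lf (nat_lit 76) (nat_lit 9941283067) (nat_lit 0) (nat_lit 17140881) (nat_lit 1064) (nat_lit 730199298) (nat_lit 197) (nat_lit 5) (nat_lit 196) (nat_lit 5) (nat_lit 210) (nat_lit 5) (nat_lit 294) (nat_lit 288) (nat_lit 198)))))) (XT.nd (nat_lit 468) (nat_lit 760) (nat_lit 0) (XT.nd (nat_lit 234) (nat_lit 0) (nat_lit 76) (XT.nd (nat_lit 78) (nat_lit 0) (nat_lit 0) (XT.lf (nat_lit 0) (nat_lit 116277865) (nat_lit 1064) (nat_lit 6652047588) (nat_lit 1140) (nat_lit 4068640504) (nat_lit 183) (nat_lit 5) (nat_lit 197) (nat_lit 5) (nat_lit 198) (nat_lit 5) (nat_lit 295) (nat_lit 288) (nat_lit 197)) (XT.nd (nat_lit 78) (nat_lit 0) (nat_lit 76) (XT.lf (nat_lit 0) (nat_lit 958856958) (nat_lit 1064) (nat_lit 1731225105) (nat_lit 1140) (nat_lit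 8299938770) (nat_lit 183) (nat_lit 5) (nat_lit 197) (nat_lit 5) (nat_lit 198) (nat_lit 5) (nat_lit 296) (nat_lit 288) (nat_lit 196)) (XT.lf (nat_lit 0) (nat_lit 1852451539) (nat_lit 1064) (nat_lit 7773195924) (nat_lit 1140) (nat_lit 1521286865) (nat_lit 184) (nat_lit 5) (nat_lit 198) (nat_lit 5) (nat_lit 199) (nat_lit 5) (nat_lit 297) (nat_lit 288) (nat_lit 195)))) (XT.nd (nat_lit 78) (nat_lit 0) (nat_lit 0) (XT.lf (nat_lit 0) (nat_lit 2795955521) (nat_lit 1064) (nat_lit 2682358852) (nat_lit 1140) (nat_lit 5829585787) (nat_lit 184) (nat_lit 5) (nat_lit 198) (nat_lit 5) (nat_lit 199) (nat_lit 5) (nat_lit 298) (nat_lit 288) (nat_lit 194)) (XT.nd (nat_lit 78) (nat_lit 0) (nat_lit 76) (XT.lf (nat_lit 76) (nat_lit 2597462229) (nat_lit 0) (nat_lit 1174699933) (nat_lit 1140) (nat_lit 7701437749) (nat_lit 185) (nat_lit 5) (nat_lit 184) (nat_lit 5) (nat_lit 199) (nat_lit 5) (nat_lit 299) (nat_lit 288)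 (nat_lit 193)) (XT.lf (nat_lit 0) (nat_lit 4816274815) (nat_lit 1064) (nat_lit 3599361234) (nat_lit 1140) (nat_lit 3227511808) (nat_lit 185) (nat_lit 5) (nat_lit 199) (nat_lit 5) (nat_lit 200) (nat_lit 5) (nat_lit 300) (nat_lit 288) (nat_lit 192))))) (XT.nd (nat_lit 234) (nat_lit 912) (nat_lit 0) (XT.nd (nat_lit 78) (nat_lit 0) (nat_lit 76) (XT.lf (nat_lit 76) (nat_lit 1845557054) (nat_lit 0) (nat_lit 4056056133) (nat_lit 1140) (nat_lit 5915906740) (nat_lit 186) (nat_lit 5) (nat_lit 185) (nat_lit 5) (nat_lit 200) (nat_lit 5) (nat_lit 301) (nat_lit 288) (nat_lit 191)) (XT.nd (nat_lit 78) (nat_lit 0) (nat_lit 0) (XT.lf (nat_lit 0) (nat_lit 7041397167) (nat_lit 1064) (nat_lit 4488012408) (nat_lit 1140) (nat_lit 467090763) (nat_lit 186) (nat_lit 5) (nat_lit 200) (nat_lit 5) (nat_lit 201) (nat_lit 5) (nat_lit 302) (nat_lit 288) (nat_lit 190)) (XT.lf (nat_lit 76) (nat_lit 1127690099) (nat_lit 0) (nat_lit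 7120241093) (nat_lit 1140) (nat_lit 3931975033) (nat_lit 187) (nat_lit 5) (nat_lit 186) (nat_lit 5) (nat_lit 201) (nat_lit 5) (nat_lit 303) (nat_lit 288) (nat_lit 189)))) (XT.nd (nat_lit 78) (nat_lit 988) (nat_lit 0) (XT.lf (nat_lit 76) (nat_lit 6989394005) (nat_lit 0) (nat_lit 2528542938) (nat_lit 1140) (nat_lit 2850090881) (nat_lit 187) (nat_lit 5) (nat_lit 186) (nat_lit 5) (nat_lit 201) (nat_lit 5) (nat_lit 304) (nat_lit 288) (nat_lit 188)) (XT.nd (nat_lit 78) (nat_lit 0) (nat_lit 0) (XT.lf (nat_lit 0) (nat_lit 437906738) (nat_lit 1064) (nat_lit 10396016519) (nat_lit 1140) (nat_lit 1727664281) (nat_lit 173) (nat_lit 5) (nat_lit 187) (nat_lit 5) (nat_lit 188) (nat_lit 5) (nat_lit 305) (nat_lit 288) (nat_lit 187)) (XT.lf (nat_lit 0) (nat_lit 6499172519) (nat_lit 1064) (nat_lit 5752204398) (nat_lit 1140) (nat_lit 507747473) (nat_lit 173) (nat_lit 5) (nat_lit 187) (nat_lit 5) (nat_lit 188) (nat_lit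 5) (nat_lit 306) (nat_lit 288) (nat_lit 186))))))) (XT.nd (nat_lit 936) (nat_lit 2128) (nat_lit 0) (XT.nd (nat_lit 468) (nat_lit 1596) (nat_lit 0) (XT.nd (nat_lit 234) (nat_lit 1140) (nat_lit 0) (XT.nd (nat_lit 78) (nat_lit 1140) (nat_lit 0) (XT.lf (nat_lit 0) (nat_lit 717345612) (nat_lit 1140) (nat_lit 241943716) (nat_lit 76) (nat_lit 12003614654) (nat_lit 172) (nat_lit 5) (nat_lit 187) (nat_lit 5) (nat_lit 173) (nat_lit 5) (nat_lit 307) (nat_lit 288) (nat_lit 185)) (XT.nd (nat_lit 78) (nat_lit 0) (nat_lit 0) (XT.lf (nat_lit 0) (nat_lit 2049758814) (nat_lit 1216) (nat_lit 7154566445) (nat_lit 76) (nat_lit 3965925145) (nat_lit 157) (nat_lit 5) (nat_lit 173) (nat_lit 5) (nat_lit 158) (nat_lit 5) (nat_lit 308) (nat_lit 288) (nat_lit 184)) (XT.lf (nat_lit 0) (nat_lit 3418151357) (nat_lit 1216) (nat_lit 941669345) (nat_lit 76) (nat_lit 9024142947) (nat_lit 157) (nat_lit 5) (nat_lit 173) (nat_lit 5)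 (nat_lit 158) (nat_lit 5) (nat_lit 309) (nat_lit 288) (nat_lit 183)))) (XT.nd (nat_lit 78) (nat_lit 608) (nat_lit 0) (XT.lf (nat_lit 0) (nat_lit 4872070137) (nat_lit 608) (nat_lit 8057607213) (nat_lit 76) (nat_lit 673102566) (nat_lit 150) (nat_lit 5) (nat_lit 158) (nat_lit 5) (nat_lit 151) (nat_lit 5) (nat_lit 310) (nat_lit 288) (nat_lit 182)) (XT.nd (nat_lit 78) (nat_lit 608) (nat_lit 0) (XT.lf (nat_lit 0) (nat_lit 6407213608) (nat_lit 608) (nat_lit 1639552697) (nat_lit 76) (nat_lit 5780291262) (nat_lit 150) (nat_lit 5) (nat_lit 158) (nat_lit 5) (nat_lit 151) (nat_lit 5) (nat_lit 311) (nat_lit 288) (nat_lit 181)) (XT.lf (nat_lit 0) (nat_lit 5055777637) (nat_lit 608) (nat_lit 2966512024) (nat_lit 684) (nat_lit 6034781913) (nat_lit 142) (nat_lit 5) (nat_lit 150) (nat_lit 5) (nat_lit 151) (nat_lit 5) (nat_lit 312) (nat_lit 288) (nat_lit 180))))) (XT.nd (nat_lit 234) (nat_lit 1064) (nat_lit 0) (XT.nd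 (nat_lit 78) (nat_lit 532) (nat_lit 0) (XT.lf (nat_lit 0) (nat_lit 9709903247) (nat_lit 684) (nat_lit 2344108059) (nat_lit 76) (nat_lit 2239275804) (nat_lit 142) (nat_lit 5) (nat_lit 151) (nat_lit 5) (nat_lit 143) (nat_lit 5) (nat_lit 313) (nat_lit 288) (nat_lit 179)) (XT.nd (nat_lit 78) (nat_lit 0) (nat_lit 0) (XT.lf (nat_lit 0) (nat_lit 4558542261) (nat_lit 532) (nat_lit 6948795282) (nat_lit 608) (nat_lit 3027498778) (nat_lit 135) (nat_lit 5) (nat_lit 142) (nat_lit 5) (nat_lit 143) (nat_lit 5) (nat_lit 314) (nat_lit 288) (nat_lit 178)) (XT.lf (nat_lit 0) (nat_lit 11702626322) (nat_lit 532) (nat_lit 1666016896) (nat_lit 608) (nat_lit 1414712648) (nat_lit 135) (nat_lit 5) (nat_lit 142) (nat_lit 5) (nat_lit 143) (nat_lit 5) (nat_lit 315) (nat_lit 288) (nat_lit 177)))) (XT.nd (nat_lit 78) (nat_lit 456) (nat_lit 0) (XT.lf (nat_lit 0) (nat_lit 304144980) (nat_lit 608) (nat_lit 10989741208) (nat_lit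 76) (nat_lit 3743519847) (nat_lit 127) (nat_lit 5) (nat_lit 135) (nat_lit 5) (nat_lit 128) (nat_lit 5) (nat_lit 316) (nat_lit 288) (nat_lit 176)) (XT.nd (nat_lit 78) (nat_lit 456) (nat_lit 0) (XT.lf (nat_lit 0) (nat_lit 2080831413) (nat_lit 608) (nat_lit 3889760960) (nat_lit 76) (nat_lit 9327044619) (nat_lit 127) (nat_lit 5) (nat_lit 135) (nat_lit 5) (nat_lit 128) (nat_lit 5) (nat_lit 317) (nat_lit 288) (nat_lit 175)) (XT.lf (nat_lit 0) (nat_lit 3477614221) (nat_lit 456) (nat_lit 453802920) (nat_lit 532) (nat_lit 11633659594) (nat_lit 121) (nat_lit 5) (nat_lit 127) (nat_lit 5) (nat_lit 128) (nat_lit 5) (nat_lit 318) (nat_lit 288) (nat_lit 174)))))) (XT.nd (nat_lit 468) (nat_lit 760) (nat_lit 0) (XT.nd (nat_lit 234) (nat_lit 912) (nat_lit 0) (XT.nd (nat_lit 78) (nat_lit 456) (nat_lit 0) (XT.lf (nat_lit 0) (nat_lit 5914855830) (nat_lit 532) (nat_lit 4757985535) (nat_lit 76) (nat_lit 5165397488)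 (nat_lit 121) (nat_lit 5) (nat_lit 128) (nat_lit 5) (nat_lit 122) (nat_lit 5) (nat_lit 319) (nat_lit 288) (nat_lit 173)) (XT.nd (nat_lit 78) (nat_lit 0) (nat_lit 0) (XT.lf (nat_lit 0) (nat_lit 2828758793) (nat_lit 456) (nat_lit 5148498581) (nat_lit 532) (nat_lit 8141773352) (nat_lit 115) (nat_lit 5) (nat_lit 121) (nat_lit 5) (nat_lit 122) (nat_lit 5) (nat_lit 320) (nat_lit 288) (nat_lit 172)) (XT.lf (nat_lit 0) (nat_lit 10143251534) (nat_lit 532) (nat_lit 5685406156) (nat_lit 76) (nat_lit 578355186) (nat_lit 115) (nat_lit 5) (nat_lit 122) (nat_lit 5) (nat_lit 116) (nat_lit 5) (nat_lit 321) (nat_lit 288) (nat_lit 171)))) (XT.nd (nat_lit 78) (nat_lit 532) (nat_lit 0) (XT.lf (nat_lit 0) (nat_lit 2124931317) (nat_lit 380) (nat_lit 10309037896) (nat_lit 456) (nat_lit 4267890576) (nat_lit 110) (nat_lit 5) (nat_lit 115) (nat_lit 5) (nat_lit 116) (nat_lit 5) (nat_lit 322) (nat_lit 288) (nat_lit 170))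 (XT.nd (nat_lit 78) (nat_lit 532) (nat_lit 0) (XT.lf (nat_lit 0) (nat_lit 10273089121) (nat_lit 380) (nat_lit 4566287323) (nat_lit 456) (nat_lit 2164813723) (nat_lit 110) (nat_lit 5) (nat_lit 115) (nat_lit 5) (nat_lit 116) (nat_lit 5) (nat_lit 323) (nat_lit 288) (nat_lit 169)) (XT.lf (nat_lit 0) (nat_lit 16281268) (nat_lit 532) (nat_lit 15964823125) (nat_lit 76) (nat_lit 1334053219) (nat_lit 103) (nat_lit 5) (nat_lit 110) (nat_lit 5) (nat_lit 104) (nat_lit 5) (nat_lit 324) (nat_lit 288) (nat_lit 168))))) (XT.nd (nat_lit 234) (nat_lit 380) (nat_lit 0) (XT.nd (nat_lit 78) (nat_lit 380) (nat_lit 0) (XT.lf (nat_lit 0) (nat_lit 2322104596) (nat_lit 532) (nat_lit 7901637048) (nat_lit 76) (nat_lit 7408000886) (nat_lit 103) (nat_lit 5) (nat_lit 110) (nat_lit 5) (nat_lit 104) (nat_lit 5) (nat_lit 325) (nat_lit 288) (nat_lit 167)) (XT.nd (nat_lit 78) (nat_lit 0) (nat_lit 0) (XT.lf (nat_lit 0) (nat_lit 398503756)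 (nat_lit 380) (nat_lit 4291702764) (nat_lit 456) (nat_lit 13267840550) (nat_lit 98) (nat_lit 5) (nat_lit 103) (nat_lit 5) (nat_lit 104) (nat_lit 5) (nat_lit 326) (nat_lit 288) (nat_lit 166)) (XT.lf (nat_lit 0) (nat_lit 7216855984) (nat_lit 456) (nat_lit 9213294470) (nat_lit 76) (nat_lit 1861379905) (nat_lit 98) (nat_lit 5) (nat_lit 104) (nat_lit 5) (nat_lit 99) (nat_lit 5) (nat_lit 327) (nat_lit 288) (nat_lit 165)))) (XT.nd (nat_lit 78) (nat_lit 380) (nat_lit 0) (XT.lf (nat_lit 0) (nat_lit 9851549314) (nat_lit 456) (nat_lit 671677895) (nat_lit 76) (nat_lit 8110837924) (nat_lit 98) (nat_lit 5) (nat_lit 104) (nat_lit 5) (nat_lit 99) (nat_lit 5) (nat_lit 328) (nat_lit 288) (nat_lit 164)) (XT.nd (nat_lit 78) (nat_lit 0) (nat_lit 0) (XT.lf (nat_lit 0) (nat_lit 8275509427) (nat_lit 380) (nat_lit 4359374030) (nat_lit 456) (nat_lit 6349918395) (nat_lit 93) (nat_lit 5) (nat_lit 98) (nat_lit 5) (nat_lit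 99) (nat_lit 5) (nat_lit 329) (nat_lit 288) (nat_lit 163)) (XT.lf (nat_lit 0) (nat_lit 15517893654) (nat_lit 456) (nat_lit 1872494974) (nat_lit 76) (nat_lit 1955200262) (nat_lit 93) (nat_lit 5) (nat_lit 99) (nat_lit 5) (nat_lit 94) (nat_lit 5) (nat_lit 330) (nat_lit 288) (nat_lit 162))))))))
noncomputable def xc181 : XT := (XT.nd (nat_lit 1872) (nat_lit 1748) (nat_lit 0) (XT.nd (nat_lit 936) (nat_lit 1368) (nat_lit 0) (XT.nd (nat_lit 468) (nat_lit 988) (nat_lit 0) (XT.nd (nat_lit 234) (nat_lit 304) (nat_lit 0) (XT.nd (nat_lit 78) (nat_lit 456) (nat_lit 0) (XT.lf (nat_lit 0) (nat_lit 7317057049) (nat_lit 304) (nat_lit 11274323569) (nat_lit 380) (nat_lit 1122712429) (nat_lit 89) (nat_lit 5) (nat_lit 93) (nat_lit 5) (nat_lit 94) (nat_lit 5) (nat_lit 331) (nat_lit 288) (nat_lit 161)) (XT.nd (nat_lit 78) (nat_lit 380) (nat_lit 0) (XT.lf (nat_lit 0) (nat_lit 1640602681) (nat_lit 380) (nat_lit 3300634673)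 (nat_lit 76) (nat_lit 15151658368) (nat_lit 88) (nat_lit 5) (nat_lit 93) (nat_lit 5) (nat_lit 89) (nat_lit 5) (nat_lit 332) (nat_lit 288) (nat_lit 160)) (XT.lf (nat_lit 0) (nat_lit 4530224823) (nat_lit 456) (nat_lit 14330951097) (nat_lit 76) (nat_lit 1619585880) (nat_lit 83) (nat_lit 5) (nat_lit 89) (nat_lit 5) (nat_lit 84) (nat_lit 5) (nat_lit 333) (nat_lit 288) (nat_lit 159)))) (XT.nd (nat_lit 78) (nat_lit 304) (nat_lit 0) (XT.lf (nat_lit 0) (nat_lit 7580071746) (nat_lit 456) (nat_lit 4988932305) (nat_lit 76) (nat_lit 8309065369) (nat_lit 83) (nat_lit 5) (nat_lit 89) (nat_lit 5) (nat_lit 84) (nat_lit 5) (nat_lit 334) (nat_lit 288) (nat_lit 158)) (XT.nd (nat_lit 78) (nat_lit 0) (nat_lit 0) (XT.lf (nat_lit 0) (nat_lit 4713831446) (nat_lit 304) (nat_lit 6044111403) (nat_lit 380) (nat_lit 10528268858) (nat_lit 79) (nat_lit 5) (nat_lit 83) (nat_lit 5) (nat_lit 84) (nat_lit 5) (nat_lit 335) (nat_lit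 288) (nat_lit 157)) (XT.lf (nat_lit 0) (nat_lit 14079867000) (nat_lit 380) (nat_lit 6913772928) (nat_lit 76) (nat_lit 711507802) (nat_lit 79) (nat_lit 5) (nat_lit 84) (nat_lit 5) (nat_lit 80) (nat_lit 5) (nat_lit 336) (nat_lit 288) (nat_lit 156))))) (XT.nd (nat_lit 234) (nat_lit 304) (nat_lit 0) (XT.nd (nat_lit 78) (nat_lit 380) (nat_lit 0) (XT.lf (nat_lit 0) (nat_lit 3022436967) (nat_lit 304) (nat_lit 14559496928) (nat_lit 380) (nat_lit 4552314043) (nat_lit 75) (nat_lit 5) (nat_lit 79) (nat_lit 5) (nat_lit 80) (nat_lit 5) (nat_lit 337) (nat_lit 288) (nat_lit 155)) (XT.nd (nat_lit 78) (nat_lit 380) (nat_lit 0) (XT.lf (nat_lit 0) (nat_lit 13387277826) (nat_lit 304) (nat_lit 7863326847) (nat_lit 380) (nat_lit 1323780566) (nat_lit 75) (nat_lit 5) (nat_lit 79) (nat_lit 5) (nat_lit 80) (nat_lit 5) (nat_lit 338) (nat_lit 288) (nat_lit 154)) (XT.lf (nat_lit 0) (nat_lit 1025072784) (nat_lit 304) (nat_lit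 939209086) (nat_lit 380) (nat_lit 21062825373) (nat_lit 70) (nat_lit 5) (nat_lit 74) (nat_lit 5) (nat_lit 75) (nat_lit 5) (nat_lit 339) (nat_lit 288) (nat_lit 153)))) (XT.nd (nat_lit 78) (nat_lit 304) (nat_lit 0) (XT.lf (nat_lit 0) (nat_lit 5469578568) (nat_lit 380) (nat_lit 11843374878) (nat_lit 76) (nat_lit 6175717753) (nat_lit 70) (nat_lit 5) (nat_lit 75) (nat_lit 5) (nat_lit 71) (nat_lit 5) (nat_lit 340) (nat_lit 288) (nat_lit 152)) (XT.nd (nat_lit 78) (nat_lit 304) (nat_lit 0) (XT.lf (nat_lit 0) (nat_lit 9081548210) (nat_lit 380) (nat_lit 1400069723) (nat_lit 76) (nat_lit 13482427910) (nat_lit 70) (nat_lit 5) (nat_lit 75) (nat_lit 5) (nat_lit 71) (nat_lit 5) (nat_lit 341) (nat_lit 288) (nat_lit 151)) (XT.lf (nat_lit 0) (nat_lit 9532038886) (nat_lit 304) (nat_lit 3353907536) (nat_lit 380) (nat_lit 11565222142) (nat_lit 66) (nat_lit 5) (nat_lit 70) (nat_lit 5) (nat_lit 71) (nat_lit 5) (nat_lit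 342) (nat_lit 288) (nat_lit 150)))))) (XT.nd (nat_lit 468) (nat_lit 532) (nat_lit 0) (XT.nd (nat_lit 234) (nat_lit 608) (nat_lit 0) (XT.nd (nat_lit 78) (nat_lit 228) (nat_lit 0) (XT.lf (nat_lit 0) (nat_lit 16849619550) (nat_lit 380) (nat_lit 4180742107) (nat_lit 76) (nat_lit 3921197684) (nat_lit 66) (nat_lit 5) (nat_lit 71) (nat_lit 5) (nat_lit 67) (nat_lit 5) (nat_lit 343) (nat_lit 288) (nat_lit 149)) (XT.nd (nat_lit 78) (nat_lit 0) (nat_lit 0) (XT.lf (nat_lit 0) (nat_lit 6972354049) (nat_lit 228) (nat_lit 14052829282) (nat_lit 304) (nat_lit 4438997507) (nat_lit 63) (nat_lit 5) (nat_lit 66) (nat_lit 5) (nat_lit 67) (nat_lit 5) (nat_lit 344) (nat_lit 288) (nat_lit 148)) (XT.lf (nat_lit 0) (nat_lit 18535553328) (nat_lit 228) (nat_lit 6825542095) (nat_lit 304) (nat_lit 630041281) (nat_lit 63) (nat_lit 5) (nat_lit 66) (nat_lit 5) (nat_lit 67) (nat_lit 5) (nat_lit 345) (nat_lit 288) (nat_lit 147))))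 (XT.nd (nat_lit 78) (nat_lit 228) (nat_lit 0) (XT.lf (nat_lit 0) (nat_lit 3266464906) (nat_lit 380) (nat_lit 22591565380) (nat_lit 76) (nat_lit 673802680) (nat_lit 58) (nat_lit 5) (nat_lit 63) (nat_lit 5) (nat_lit 59) (nat_lit 5) (nat_lit 346) (nat_lit 288) (nat_lit 146)) (XT.nd (nat_lit 78) (nat_lit 228) (nat_lit 0) (XT.lf (nat_lit 0) (nat_lit 7403889608) (nat_lit 380) (nat_lit 11340356131) (nat_lit 76) (nat_lit 8340224111) (nat_lit 58) (nat_lit 5) (nat_lit 63) (nat_lit 5) (nat_lit 59) (nat_lit 5) (nat_lit 347) (nat_lit 288) (nat_lit 145)) (XT.lf (nat_lit 0) (nat_lit 243304345) (nat_lit 228) (nat_lit 11417747927) (nat_lit 304) (nat_lit 15992772368) (nat_lit 55) (nat_lit 5) (nat_lit 58) (nat_lit 5) (nat_lit 59) (nat_lit 5) (nat_lit 348) (nat_lit 288) (nat_lit 144))))) (XT.nd (nat_lit 234) (nat_lit 304) (nat_lit 0) (XT.nd (nat_lit 78) (nat_lit 228) (nat_lit 0) (XT.lf (nat_lit 0) (nat_lit 12397204425)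 (nat_lit 228) (nat_lit 3756619423) (nat_lit 304) (nat_lit 12083206448) (nat_lit 55) (nat_lit 5) (nat_lit 58) (nat_lit 5) (nat_lit 59) (nat_lit 5) (nat_lit 349) (nat_lit 288) (nat_lit 143)) (XT.nd (nat_lit 78) (nat_lit 228) (nat_lit 0) (XT.lf (nat_lit 0) (nat_lit 20814662858) (nat_lit 304) (nat_lit 3971375879) (nat_lit 76) (nat_lit 4050701696) (nat_lit 55) (nat_lit 5) (nat_lit 59) (nat_lit 5) (nat_lit 56) (nat_lit 5) (nat_lit 350) (nat_lit 288) (nat_lit 142)) (XT.lf (nat_lit 0) (nat_lit 8369917461) (nat_lit 228) (nat_lit 17356791132) (nat_lit 304) (nat_lit 3724398473) (nat_lit 52) (nat_lit 5) (nat_lit 55) (nat_lit 5) (nat_lit 56) (nat_lit 5) (nat_lit 351) (nat_lit 288) (nat_lit 141)))) (XT.nd (nat_lit 78) (nat_lit 228) (nat_lit 0) (XT.lf (nat_lit 0) (nat_lit 722765250) (nat_lit 304) (nat_lit 8936371881) (nat_lit 76) (nat_lit 20423543615) (nat_lit 51) (nat_lit 5) (nat_lit 55) (nat_lit 5) (nat_lit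 52) (nat_lit 5) (nat_lit 352) (nat_lit 288) (nat_lit 140)) (XT.nd (nat_lit 78) (nat_lit 0) (nat_lit 0) (XT.lf (nat_lit 0) (nat_lit 3596996718) (nat_lit 228) (nat_lit 1660005565) (nat_lit 304) (nat_lit 25474243720) (nat_lit 48) (nat_lit 5) (nat_lit 51) (nat_lit 5) (nat_lit 52) (nat_lit 5) (nat_lit 353) (nat_lit 288) (nat_lit 139)) (XT.lf (nat_lit 0) (nat_lit 10075641192) (nat_lit 304) (nat_lit 14780318811) (nat_lit 76) (nat_lit 6538862870) (nat_lit 48) (nat_lit 5) (nat_lit 52) (nat_lit 5) (nat_lit 49) (nat_lit 5) (nat_lit 354) (nat_lit 288) (nat_lit 138))))))) (XT.nd (nat_lit 936) (nat_lit 684) (nat_lit 0) (XT.nd (nat_lit 468) (nat_lit 608) (nat_lit 0) (XT.nd (nat_lit 234) (nat_lit 228) (nat_lit 0) (XT.nd (nat_lit 78) (nat_lit 228) (nat_lit 0) (XT.lf (nat_lit 0) (nat_lit 15049448883) (nat_lit 304) (nat_lit 2081114112) (nat_lit 76) (nat_lit 14947431493) (nat_lit 48) (nat_lit 5) (nat_lit 52) (nat_lit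 5) (nat_lit 49) (nat_lit 5) (nat_lit 355) (nat_lit 288) (nat_lit 137)) (XT.nd (nat_lit 78) (nat_lit 0) (nat_lit 0) (XT.lf (nat_lit 0) (nat_lit 11209149064) (nat_lit 228) (nat_lit 9065414547) (nat_lit 304) (nat_lit 12504040417) (nat_lit 45) (nat_lit 5) (nat_lit 48) (nat_lit 5) (nat_lit 49) (nat_lit 5) (nat_lit 356) (nat_lit 288) (nat_lit 136)) (XT.lf (nat_lit 0) (nat_lit 24932217190) (nat_lit 228) (nat_lit 739655800) (nat_lit 304) (nat_lit 7827901027) (nat_lit 45) (nat_lit 5) (nat_lit 48) (nat_lit 5) (nat_lit 49) (nat_lit 5) (nat_lit 357) (nat_lit 288) (nat_lit 135)))) (XT.nd (nat_lit 78) (nat_lit 76) (nat_lit 0) (XT.lf (nat_lit 0) (nat_lit 4834968674) (nat_lit 152) (nat_lit 26512493366) (nat_lit 228) (nat_lit 2891631493) (nat_lit 43) (nat_lit 5) (nat_lit 45) (nat_lit 5) (nat_lit 46) (nat_lit 5) (nat_lit 358) (nat_lit 288) (nat_lit 134)) (XT.nd (nat_lit 78) (nat_lit 0) (nat_lit 0) (XT.lf (nat_lit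 0) (nat_lit 2239213953) (nat_lit 228) (nat_lit 16220542376) (nat_lit 76) (nat_lit 16537530638) (nat_lit 42) (nat_lit 5) (nat_lit 45) (nat_lit 5) (nat_lit 43) (nat_lit 5) (nat_lit 359) (nat_lit 288) (nat_lit 133)) (XT.lf (nat_lit 0) (nat_lit 7460604060) (nat_lit 228) (nat_lit 2678319250) (nat_lit 76) (nat_lit 25638606643) (nat_lit 42) (nat_lit 5) (nat_lit 45) (nat_lit 5) (nat_lit 43) (nat_lit 5) (nat_lit 360) (nat_lit 288) (nat_lit 132))))) (XT.nd (nat_lit 234) (nat_lit 228) (nat_lit 0) (XT.nd (nat_lit 78) (nat_lit 152) (nat_lit 0) (XT.lf (nat_lit 0) (nat_lit 11486312996) (nat_lit 228) (nat_lit 1457627823) (nat_lit 304) (nat_lit 23634084919) (nat_lit 39) (nat_lit 5) (nat_lit 42) (nat_lit 5) (nat_lit 43) (nat_lit 5) (nat_lit 361) (nat_lit 288) (nat_lit 131)) (XT.nd (nat_lit 78) (nat_lit 152) (nat_lit 0) (XT.lf (nat_lit 0) (nat_lit 18685969492) (nat_lit 304) (nat_lit 11351193878) (nat_lit 76) (nat_lit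 7362551793) (nat_lit 39) (nat_lit 5) (nat_lit 43) (nat_lit 5) (nat_lit 40) (nat_lit 5) (nat_lit 362) (nat_lit 288) (nat_lit 130)) (XT.lf (nat_lit 0) (nat_lit 2834610008) (nat_lit 152) (nat_lit 21802412908) (nat_lit 228) (nat_lit 13607933827) (nat_lit 37) (nat_lit 5) (nat_lit 39) (nat_lit 5) (nat_lit 40) (nat_lit 5) (nat_lit 363) (nat_lit 288) (nat_lit 129)))) (XT.nd (nat_lit 78) (nat_lit 228) (nat_lit 0) (XT.lf (nat_lit 0) (nat_lit 17670940912) (nat_lit 152) (nat_lit 13205444590) (nat_lit 228) (nat_lit 8235881003) (nat_lit 37) (nat_lit 5) (nat_lit 39) (nat_lit 5) (nat_lit 40) (nat_lit 5) (nat_lit 364) (nat_lit 288) (nat_lit 128)) (XT.nd (nat_lit 78) (nat_lit 228) (nat_lit 0) (XT.lf (nat_lit 0) (nat_lit 32944851601) (nat_lit 152) (nat_lit 4353371303) (nat_lit 228) (nat_lit 2707517975) (nat_lit 37) (nat_lit 5) (nat_lit 39) (nat_lit 5) (nat_lit 40) (nat_lit 5) (nat_lit 365) (nat_lit 288) (nat_lit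 127)) (XT.lf (nat_lit 0) (nat_lit 3046236023) (nat_lit 228) (nat_lit 33101431221) (nat_lit 76) (nat_lit 4773960205) (nat_lit 34) (nat_lit 5) (nat_lit 37) (nat_lit 5) (nat_lit 35) (nat_lit 5) (nat_lit 366) (nat_lit 288) (nat_lit 126)))))) (XT.nd (nat_lit 468) (nat_lit 380) (nat_lit 0) (XT.nd (nat_lit 234) (nat_lit 152) (nat_lit 0) (XT.nd (nat_lit 78) (nat_lit 152) (nat_lit 0) (XT.lf (nat_lit 0) (nat_lit 9028713475) (nat_lit 228) (nat_lit 18648440372) (nat_lit 76) (nat_lit 14183720462) (nat_lit 34) (nat_lit 5) (nat_lit 37) (nat_lit 5) (nat_lit 35) (nat_lit 5) (nat_lit 367) (nat_lit 288) (nat_lit 125)) (XT.nd (nat_lit 78) (nat_lit 152) (nat_lit 0) (XT.lf (nat_lit 0) (nat_lit 15186218154) (nat_lit 228) (nat_lit 3769072083) (nat_lit 76) (nat_lit 23873145429) (nat_lit 34) (nat_lit 5) (nat_lit 37) (nat_lit 5) (nat_lit 35) (nat_lit 5) (nat_lit 368) (nat_lit 288) (nat_lit 124)) (XT.lf (nat_lit 0) (nat_lit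 11779536215) (nat_lit 152) (nat_lit 9857826295) (nat_lit 228) (nat_lit 22184397485) (nat_lit 32) (nat_lit 5) (nat_lit 34) (nat_lit 5) (nat_lit 35) (nat_lit 5) (nat_lit 369) (nat_lit 288) (nat_lit 123)))) (XT.nd (nat_lit 78) (nat_lit 152) (nat_lit 0) (XT.lf (nat_lit 0) (nat_lit 27864931476) (nat_lit 152) (nat_lit 450911494) (nat_lit 228) (nat_lit 16528030497) (nat_lit 32) (nat_lit 5) (nat_lit 34) (nat_lit 5) (nat_lit 35) (nat_lit 5) (nat_lit 370) (nat_lit 288) (nat_lit 122)) (XT.nd (nat_lit 78) (nat_lit 152) (nat_lit 0) (XT.lf (nat_lit 0) (nat_lit 35279321779) (nat_lit 228) (nat_lit 1559399133) (nat_lit 76) (nat_lit 9055393477) (nat_lit 32) (nat_lit 5) (nat_lit 35) (nat_lit 5) (nat_lit 33) (nat_lit 5) (nat_lit 371) (nat_lit 288) (nat_lit 121)) (XT.lf (nat_lit 0) (nat_lit 14596460048) (nat_lit 152) (nat_lit 27995981226) (nat_lit 228) (nat_lit 4379202440) (nat_lit 30) (nat_lit 5) (nat_lit 32) (nat_lit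 5) (nat_lit 33) (nat_lit 5) (nat_lit 372) (nat_lit 288) (nat_lit 120))))) (XT.nd (nat_lit 234) (nat_lit 152) (nat_lit 0) (XT.nd (nat_lit 78) (nat_lit 152) (nat_lit 0) (XT.lf (nat_lit 0) (nat_lit 2015456702) (nat_lit 228) (nat_lit 16838517373) (nat_lit 76) (nat_lit 29226582342) (nat_lit 29) (nat_lit 5) (nat_lit 32) (nat_lit 5) (nat_lit 30) (nat_lit 5) (nat_lit 373) (nat_lit 288) (nat_lit 119)) (XT.nd (nat_lit 78) (nat_lit 152) (nat_lit 0) (XT.lf (nat_lit 0) (nat_lit 8510028919) (nat_lit 228) (nat_lit 885568913) (nat_lit 76) (nat_lit 39825958176) (nat_lit 29) (nat_lit 5) (nat_lit 32) (nat_lit 5) (nat_lit 30) (nat_lit 5) (nat_lit 374) (nat_lit 288) (nat_lit 118)) (XT.lf (nat_lit 0) (nat_lit 15352808730) (nat_lit 228) (nat_lit 34548180326) (nat_lit 76) (nat_lit 491198320) (nat_lit 27) (nat_lit 5) (nat_lit 30) (nat_lit 5) (nat_lit 28) (nat_lit 5) (nat_lit 375) (nat_lit 288) (nat_lit 117)))) (XT.nd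 (nat_lit 78) (nat_lit 152) (nat_lit 0) (XT.lf (nat_lit 0) (nat_lit 22499160645) (nat_lit 228) (nat_lit 18603461294) (nat_lit 76) (nat_lit 10492369903) (nat_lit 27) (nat_lit 5) (nat_lit 30) (nat_lit 5) (nat_lit 28) (nat_lit 5) (nat_lit 376) (nat_lit 288) (nat_lit 116)) (XT.nd (nat_lit 78) (nat_lit 152) (nat_lit 0) (XT.lf (nat_lit 0) (nat_lit 29856244805) (nat_lit 228) (nat_lit 2186518372) (nat_lit 76) (nat_lit 20791229749) (nat_lit 27) (nat_lit 5) (nat_lit 30) (nat_lit 5) (nat_lit 28) (nat_lit 5) (nat_lit 377) (nat_lit 288) (nat_lit 115)) (XT.lf (nat_lit 0) (nat_lit 15009890364) (nat_lit 152) (nat_lit 22564883614) (nat_lit 228) (nat_lit 16531170746) (nat_lit 25) (nat_lit 5) (nat_lit 27) (nat_lit 5) (nat_lit 28) (nat_lit 5) (nat_lit 378) (nat_lit 288) (nat_lit 114))))))))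
noncomputable def xc182 : XT := (XT.nd (nat_lit 34476) (nat_lit 0) (nat_lit 6916) (XT.nd (nat_lit 858) (nat_lit 0) (nat_lit 0) (XT.nd (nat_lit 390) (nat_lit 304) (nat_lit 0) (XT.nd (nat_lit 156) (nat_lit 152) (nat_lit 0) (XT.nd (nat_lit 78) (nat_lit 0) (nat_lit 0) (XT.lf (nat_lit 0) (nat_lit 32761131581) (nat_lit 152) (nat_lit 12782302150) (nat_lit 228) (nat_lit 9872066682) (nat_lit 25) (nat_lit 5) (nat_lit 27) (nat_lit 5) (nat_lit 28) (nat_lit 5) (nat_lit 379) (nat_lit 288) (nat_lit 113)) (XT.lf (nat_lit 0) (nat_lit 51039200068) (nat_lit 152) (nat_lit 2708550447) (nat_lit 228) (nat_lit 3016696844) (nat_lit 25) (nat_lit 5) (nat_lit 27) (nat_lit 5) (nat_lit 28) (nat_lit 5) (nat_lit 380) (nat_lit 288) (nat_lit 112))) (XT.nd (nat_lit 78) (nat_lit 0) (nat_lit 0) (XT.lf (nat_lit 0) (nat_lit 4151660166) (nat_lit 152) (nat_lit 46325106702) (nat_lit 76) (nat_lit 7670344538) (nat_lit 23) (nat_lit 5) (nat_lit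 25) (nat_lit 5) (nat_lit 24) (nat_lit 5) (nat_lit 381) (nat_lit 288) (nat_lit 111)) (XT.nd (nat_lit 78) (nat_lit 0) (nat_lit 0) (XT.lf (nat_lit 0) (nat_lit 11556322114) (nat_lit 152) (nat_lit 29619379603) (nat_lit 76) (nat_lit 18392203293) (nat_lit 23) (nat_lit 5) (nat_lit 25) (nat_lit 5) (nat_lit 24) (nat_lit 5) (nat_lit 382) (nat_lit 288) (nat_lit 110)) (XT.lf (nat_lit 0) (nat_lit 19179903854) (nat_lit 152) (nat_lit 12417953343) (nat_lit 76) (nat_lit 29433564055) (nat_lit 23) (nat_lit 5) (nat_lit 25) (nat_lit 5) (nat_lit 24) (nat_lit 5) (nat_lit 383) (nat_lit 288) (nat_lit 109))))) (XT.nd (nat_lit 234) (nat_lit 152) (nat_lit 0) (XT.nd (nat_lit 78) (nat_lit 0) (nat_lit 0) (XT.lf (nat_lit 0) (nat_lit 5399567462) (nat_lit 152) (nat_lit 21681403249) (nat_lit 228) (nat_lit 35456411096) (nat_lit 21) (nat_lit 5) (nat_lit 23) (nat_lit 5) (nat_lit 24) (nat_lit 5) (nat_lit 384) (nat_lit 288) (nat_lit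 108)) (XT.nd (nat_lit 78) (nat_lit 0) (nat_lit 0) (XT.lf (nat_lit 0) (nat_lit 24000908599) (nat_lit 152) (nat_lit 11340472160) (nat_lit 228) (nat_lit 28743473182) (nat_lit 21) (nat_lit 5) (nat_lit 23) (nat_lit 5) (nat_lit 24) (nat_lit 5) (nat_lit 385) (nat_lit 288) (nat_lit 107)) (XT.lf (nat_lit 0) (nat_lit 43155182046) (nat_lit 152) (nat_lit 691425144) (nat_lit 228) (nat_lit 21832234962) (nat_lit 21) (nat_lit 5) (nat_lit 23) (nat_lit 5) (nat_lit 24) (nat_lit 5) (nat_lit 386) (nat_lit 288) (nat_lit 106)))) (XT.nd (nat_lit 78) (nat_lit 152) (nat_lit 0) (XT.lf (nat_lit 0) (nat_lit 52702851752) (nat_lit 228) (nat_lit 4540384696) (nat_lit 76) (nat_lit 10074539697) (nat_lit 21) (nat_lit 5) (nat_lit 24) (nat_lit 5) (nat_lit 22) (nat_lit 4) (nat_lit 387) (nat_lit 288) (nat_lit 105)) (XT.nd (nat_lit 78) (nat_lit 76) (nat_lit 0) (XT.lf (nat_lit 0) (nat_lit 14248704520) (nat_lit 76) (nat_lit 47717049111)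 (nat_lit 152) (nat_lit 7035897345) (nat_lit 20) (nat_lit 5) (nat_lit 21) (nat_lit 5) (nat_lit 22) (nat_lit 4) (nat_lit 388) (nat_lit 288) (nat_lit 104)) (XT.lf (nat_lit 0) (nat_lit 798931851) (nat_lit 152) (nat_lit 37052879809) (nat_lit 76) (nat_lit 32882706009) (nat_lit 19) (nat_lit 5) (nat_lit 21) (nat_lit 5) (nat_lit 20) (nat_lit 5) (nat_lit 389) (nat_lit 288) (nat_lit 103)))))) (XT.nd (nat_lit 33150) (nat_lit 0) (nat_lit 12388) (XT.nd (nat_lit 32916) (nat_lit 0) (nat_lit 13376) (XT.nd (nat_lit 32760) (nat_lit 0) (nat_lit 13376) (XT.lf (nat_lit 0) (nat_lit 8724637610) (nat_lit 152) (nat_lit 18896223611) (nat_lit 76) (nat_lit 44896503638) (nat_lit 19) (nat_lit 5) (nat_lit 21) (nat_lit 5) (nat_lit 20) (nat_lit 5) (nat_lit 390) (nat_lit 288) (nat_lit 102)) (XT.nd (nat_lit 78) (nat_lit 0) (nat_lit 0) (XT.lf (nat_lit 0) (nat_lit 1597880825) (nat_lit 0) (nat_lit 1597880825) (nat_lit 988) (nat_lit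 1868648307) (nat_lit 195) (nat_lit 5) (nat_lit 195) (nat_lit 3) (nat_lit 208) (nat_lit 3) (nat_lit 289) (nat_lit 289) (nat_lit 202)) (XT.lf (nat_lit 0) (nat_lit 7129640735) (nat_lit 988) (nat_lit 2503668799) (nat_lit 1064) (nat_lit 626978543) (nat_lit 195) (nat_lit 5) (nat_lit 208) (nat_lit 3) (nat_lit 209) (nat_lit 5) (nat_lit 290) (nat_lit 289) (nat_lit 201)))) (XT.nd (nat_lit 78) (nat_lit 0) (nat_lit 0) (XT.lf (nat_lit 76) (nat_lit 2053713148) (nat_lit 0) (nat_lit 5862865496) (nat_lit 1064) (nat_lit 2478368040) (nat_lit 196) (nat_lit 5) (nat_lit 195) (nat_lit 5) (nat_lit 209) (nat_lit 5) (nat_lit 291) (nat_lit 289) (nat_lit 200)) (XT.nd (nat_lit 78) (nat_lit 0) (nat_lit 76) (XT.lf (nat_lit 76) (nat_lit 6785946596) (nat_lit 0) (nat_lit 1942347213) (nat_lit 1064) (nat_lit 1805361514) (nat_lit 196) (nat_lit 5) (nat_lit 195) (nat_lit 5) (nat_lit 209) (nat_lit 5) (nat_lit 292) (nat_lit 289) (nat_lit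 199)) (XT.lf (nat_lit 76) (nat_lit 968722379) (nat_lit 0) (nat_lit 8601787192) (nat_lit 1064) (nat_lit 1105875203) (nat_lit 197) (nat_lit 5) (nat_lit 196) (nat_lit 5) (nat_lit 210) (nat_lit 5) (nat_lit 293) (nat_lit 289) (nat_lit 198))))) (XT.nd (nat_lit 234) (nat_lit 0) (nat_lit 76) (XT.nd (nat_lit 78) (nat_lit 1064) (nat_lit 0) (XT.lf (nat_lit 76) (nat_lit 5870334041) (nat_lit 0) (nat_lit 4601785009) (nat_lit 1064) (nat_lit 350295985) (nat_lit 197) (nat_lit 5) (nat_lit 196) (nat_lit 5) (nat_lit 210) (nat_lit 5) (nat_lit 294) (nat_lit 289) (nat_lit 197)) (XT.nd (nat_lit 78) (nat_lit 0) (nat_lit 76) (XT.lf (nat_lit 0) (nat_lit 397243304) (nat_lit 1064) (nat_lit 71560067) (nat_lit 1140) (nat_lit 10504610404) (nat_lit 182) (nat_lit 5) (nat_lit 196) (nat_lit 5) (nat_lit 197) (nat_lit 5) (nat_lit 295) (nat_lit 289) (nat_lit 196)) (XT.lf (nat_lit 0) (nat_lit 1223890920) (nat_lit 1064) (nat_lit 6128105484)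 (nat_lit 1140) (nat_lit 3774969461) (nat_lit 183) (nat_lit 5) (nat_lit 197) (nat_lit 5) (nat_lit 198) (nat_lit 5) (nat_lit 296) (nat_lit 289) (nat_lit 195)))) (XT.nd (nat_lit 78) (nat_lit 0) (nat_lit 76) (XT.lf (nat_lit 0) (nat_lit 2059588414) (nat_lit 1064) (nat_lit 1080731245) (nat_lit 1140) (nat_lit 8145315323) (nat_lit 183) (nat_lit 5) (nat_lit 197) (nat_lit 5) (nat_lit 198) (nat_lit 5) (nat_lit 297) (nat_lit 289) (nat_lit 194)) (XT.nd (nat_lit 78) (nat_lit 0) (nat_lit 0) (XT.lf (nat_lit 0) (nat_lit 2952071986) (nat_lit 1064) (nat_lit 7274170980) (nat_lit 1140) (nat_lit 1221906622) (nat_lit 184) (nat_lit 5) (nat_lit 198) (nat_lit 5) (nat_lit 199) (nat_lit 5) (nat_lit 298) (nat_lit 289) (nat_lit 193)) (XT.lf (nat_lit 0) (nat_lit 3893471954) (nat_lit 1064) (nat_lit 2051935615) (nat_lit 1140) (nat_lit 5669503604) (nat_lit 184) (nat_lit 5) (nat_lit 198) (nat_lit 5) (nat_lit 199) (nat_lit 5) (nat_lit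 299) (nat_lit 289) (nat_lit 192))))))) (XT.nd (nat_lit 936) (nat_lit 3040) (nat_lit 0) (XT.nd (nat_lit 468) (nat_lit 2584) (nat_lit 0) (XT.nd (nat_lit 234) (nat_lit 0) (nat_lit 152) (XT.nd (nat_lit 78) (nat_lit 0) (nat_lit 76) (XT.lf (nat_lit 76) (nat_lit 3379310549) (nat_lit 0) (nat_lit 1496897367) (nat_lit 1140) (nat_lit 6910109625) (nat_lit 185) (nat_lit 5) (nat_lit 184) (nat_lit 5) (nat_lit 199) (nat_lit 5) (nat_lit 300) (nat_lit 289) (nat_lit 191)) (XT.nd (nat_lit 78) (nat_lit 0) (nat_lit 0) (XT.lf (nat_lit 0) (nat_lit 5920105282) (nat_lit 1064) (nat_lit 2990669041) (nat_lit 1140) (nat_lit 3051175140) (nat_lit 185) (nat_lit 5) (nat_lit 199) (nat_lit 5) (nat_lit 200) (nat_lit 5) (nat_lit 301) (nat_lit 289) (nat_lit 190)) (XT.lf (nat_lit 76) (nat_lit 2610570588) (nat_lit 0) (nat_lit 4406312769) (nat_lit 1140) (nat_lit 5125352832) (nat_lit 186) (nat_lit 5) (nat_lit 185) (nat_lit 5) (nat_lit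 200) (nat_lit 5) (nat_lit 302) (nat_lit 289) (nat_lit 189)))) (XT.nd (nat_lit 78) (nat_lit 0) (nat_lit 0) (XT.lf (nat_lit 0) (nat_lit 8161400803) (nat_lit 1064) (nat_lit 3902600974) (nat_lit 1140) (nat_lit 263516465) (nat_lit 186) (nat_lit 5) (nat_lit 200) (nat_lit 5) (nat_lit 201) (nat_lit 5) (nat_lit 303) (nat_lit 289) (nat_lit 188)) (XT.nd (nat_lit 78) (nat_lit 0) (nat_lit 0) (XT.lf (nat_lit 76) (nat_lit 1874513277) (nat_lit 0) (nat_lit 7510002504) (nat_lit 1140) (nat_lit 3132545994) (nat_lit 187) (nat_lit 5) (nat_lit 186) (nat_lit 5) (nat_lit 201) (nat_lit 5) (nat_lit 304) (nat_lit 289) (nat_lit 187)) (XT.lf (nat_lit 76) (nat_lit 7891301528) (nat_lit 0) (nat_lit 2775422700) (nat_lit 1140) (nat_lit 2044925365) (nat_lit 187) (nat_lit 5) (nat_lit 186) (nat_lit 5) (nat_lit 201) (nat_lit 5) (nat_lit 305) (nat_lit 289) (nat_lit 186))))) (XT.nd (nat_lit 234) (nat_lit 532) (nat_lit 0) (XT.nd (nat_lit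 78) (nat_lit 1216) (nat_lit 0) (XT.lf (nat_lit 0) (nat_lit 1165261233) (nat_lit 1064) (nat_lit 10837055114) (nat_lit 1140) (nat_lit 909340284) (nat_lit 173) (nat_lit 5) (nat_lit 187) (nat_lit 5) (nat_lit 188) (nat_lit 5) (nat_lit 306) (nat_lit 289) (nat_lit 185)) (XT.nd (nat_lit 78) (nat_lit 1140) (nat_lit 0) (XT.lf (nat_lit 0) (nat_lit 315549681) (nat_lit 1140) (nat_lit 5731430629) (nat_lit 76) (nat_lit 7068826428) (nat_lit 172) (nat_lit 5) (nat_lit 187) (nat_lit 5) (nat_lit 173) (nat_lit 5) (nat_lit 307) (nat_lit 289) (nat_lit 184)) (XT.lf (nat_lit 0) (nat_lit 450157502) (nat_lit 1140) (nat_lit 1097234072) (nat_lit 1216) (nat_lit 11778791847) (nat_lit 157) (nat_lit 5) (nat_lit 172) (nat_lit 5) (nat_lit 173) (nat_lit 5) (nat_lit 308) (nat_lit 289) (nat_lit 183)))) (XT.nd (nat_lit 78) (nat_lit 532) (nat_lit 0) (XT.lf (nat_lit 0) (nat_lit 2897604560) (nat_lit 1216) (nat_lit 6659470142) (nat_lit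 76) (nat_lit 3983380089) (nat_lit 157) (nat_lit 5) (nat_lit 173) (nat_lit 5) (nat_lit 158) (nat_lit 5) (nat_lit 309) (nat_lit 289) (nat_lit 182)) (XT.nd (nat_lit 78) (nat_lit 532) (nat_lit 0) (XT.lf (nat_lit 0) (nat_lit 4284145393) (nat_lit 1216) (nat_lit 280857972) (nat_lit 76) (nat_lit 9196301400) (nat_lit 157) (nat_lit 5) (nat_lit 173) (nat_lit 5) (nat_lit 158) (nat_lit 5) (nat_lit 310) (nat_lit 289) (nat_lit 181)) (XT.lf (nat_lit 0) (nat_lit 5765374788) (nat_lit 608) (nat_lit 7592729836) (nat_lit 76) (nat_lit 629107222) (nat_lit 150) (nat_lit 5) (nat_lit 158) (nat_lit 5) (nat_lit 151) (nat_lit 5) (nat_lit 311) (nat_lit 289) (nat_lit 180)))))) (XT.nd (nat_lit 468) (nat_lit 1292) (nat_lit 0) (XT.nd (nat_lit 234) (nat_lit 1140) (nat_lit 0) (XT.nd (nat_lit 78) (nat_lit 608) (nat_lit 0) (XT.lf (nat_lit 0) (nat_lit 7324811129) (nat_lit 608) (nat_lit 1002714429) (nat_lit 76) (nat_lit 5891381145)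 (nat_lit 150) (nat_lit 5) (nat_lit 158) (nat_lit 5) (nat_lit 151) (nat_lit 5) (nat_lit 312) (nat_lit 289) (nat_lit 179)) (XT.nd (nat_lit 78) (nat_lit 0) (nat_lit 0) (XT.lf (nat_lit 0) (nat_lit 5886750080) (nat_lit 608) (nat_lit 3086991617) (nat_lit 684) (nat_lit 5482552352) (nat_lit 142) (nat_lit 5) (nat_lit 150) (nat_lit 5) (nat_lit 151) (nat_lit 5) (nat_lit 313) (nat_lit 289) (nat_lit 178)) (XT.lf (nat_lit 0) (nat_lit 10690987433) (nat_lit 684) (nat_lit 1732789133) (nat_lit 76) (nat_lit 2276483339) (nat_lit 142) (nat_lit 5) (nat_lit 151) (nat_lit 5) (nat_lit 143) (nat_lit 5) (nat_lit 314) (nat_lit 289) (nat_lit 177)))) (XT.nd (nat_lit 78) (nat_lit 608) (nat_lit 0) (XT.lf (nat_lit 0) (nat_lit 5370257930) (nat_lit 532) (nat_lit 7158484064) (nat_lit 608) (nat_lit 2420754658) (nat_lit 135) (nat_lit 5) (nat_lit 142) (nat_lit 5) (nat_lit 143) (nat_lit 5) (nat_lit 315) (nat_lit 289) (nat_lit 176))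 (XT.nd (nat_lit 78) (nat_lit 608) (nat_lit 0) (XT.lf (nat_lit 0) (nat_lit 12709005502) (nat_lit 532) (nat_lit 1717186649) (nat_lit 608) (nat_lit 779902490) (nat_lit 135) (nat_lit 5) (nat_lit 142) (nat_lit 5) (nat_lit 143) (nat_lit 5) (nat_lit 316) (nat_lit 289) (nat_lit 175)) (XT.lf (nat_lit 0) (nat_lit 964452024) (nat_lit 608) (nat_lit 10636022133) (nat_lit 76) (nat_lit 3867512629) (nat_lit 127) (nat_lit 5) (nat_lit 135) (nat_lit 5) (nat_lit 128) (nat_lit 5) (nat_lit 317) (nat_lit 289) (nat_lit 174))))) (XT.nd (nat_lit 234) (nat_lit 836) (nat_lit 0) (XT.nd (nat_lit 78) (nat_lit 456) (nat_lit 0) (XT.lf (nat_lit 0) (nat_lit 2775472563) (nat_lit 608) (nat_lit 3342947661) (nat_lit 76) (nat_lit 9618202740) (nat_lit 127) (nat_lit 5) (nat_lit 135) (nat_lit 5) (nat_lit 128) (nat_lit 5) (nat_lit 318) (nat_lit 289) (nat_lit 173)) (XT.nd (nat_lit 78) (nat_lit 0) (nat_lit 0) (XT.lf (nat_lit 0) (nat_lit 4238943813)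 (nat_lit 456) (nat_lit 430533482) (nat_lit 532) (nat_lit 11343000008) (nat_lit 121) (nat_lit 5) (nat_lit 127) (nat_lit 5) (nat_lit 128) (nat_lit 5) (nat_lit 319) (nat_lit 289) (nat_lit 172)) (XT.lf (nat_lit 0) (nat_lit 6694701687) (nat_lit 532) (nat_lit 4244221846) (nat_lit 76) (nat_lit 5355469893) (nat_lit 121) (nat_lit 5) (nat_lit 128) (nat_lit 5) (nat_lit 122) (nat_lit 5) (nat_lit 320) (nat_lit 289) (nat_lit 171)))) (XT.nd (nat_lit 78) (nat_lit 380) (nat_lit 0) (XT.lf (nat_lit 0) (nat_lit 3563688505) (nat_lit 456) (nat_lit 5243989977) (nat_lit 532) (nat_lit 7776296290) (nat_lit 115) (nat_lit 5) (nat_lit 121) (nat_lit 5) (nat_lit 122) (nat_lit 5) (nat_lit 321) (nat_lit 289) (nat_lit 170)) (XT.nd (nat_lit 78) (nat_lit 380) (nat_lit 0) (XT.lf (nat_lit 0) (nat_lit 11021986148) (nat_lit 532) (nat_lit 5207301322) (nat_lit 76) (nat_lit 651834938) (nat_lit 115) (nat_lit 5) (nat_lit 122) (nat_lit 5)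 (nat_lit 116) (nat_lit 5) (nat_lit 322) (nat_lit 289) (nat_lit 169)) (XT.lf (nat_lit 0) (nat_lit 2830986795) (nat_lit 380) (nat_lit 10539881640) (nat_lit 456) (nat_lit 3814288277) (nat_lit 110) (nat_lit 5) (nat_lit 115) (nat_lit 5) (nat_lit 116) (nat_lit 5) (nat_lit 323) (nat_lit 289) (nat_lit 168))))))))
noncomputable def xc183 : XT := (XT.nd (nat_lit 1872) (nat_lit 1976) (nat_lit 0) (XT.nd (nat_lit 936) (nat_lit 1900) (nat_lit 0) (XT.nd (nat_lit 468) (nat_lit 1140) (nat_lit 0) (XT.nd (nat_lit 234) (nat_lit 380) (nat_lit 0) (XT.nd (nat_lit 78) (nat_lit 532) (nat_lit 0) (XT.lf (nat_lit 0) (nat_lit 11204881347) (nat_lit 380) (nat_lit 4627132843) (nat_lit 456) (nat_lit 1665060060) (nat_lit 110) (nat_lit 5) (nat_lit 115) (nat_lit 5) (nat_lit 116) (nat_lit 5) (nat_lit 324) (nat_lit 289) (nat_lit 167)) (XT.nd (nat_lit 78) (nat_lit 0) (nat_lit 0) (XT.lf (nat_lit 0) (nat_lit 561192694) (nat_lit 532)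 (nat_lit 15798328098) (nat_lit 76) (nat_lit 1457987883) (nat_lit 103) (nat_lit 5) (nat_lit 110) (nat_lit 5) (nat_lit 104) (nat_lit 5) (nat_lit 325) (nat_lit 289) (nat_lit 166)) (XT.lf (nat_lit 0) (nat_lit 2920333741) (nat_lit 532) (nat_lit 7512045653) (nat_lit 76) (nat_lit 7711709910) (nat_lit 103) (nat_lit 5) (nat_lit 110) (nat_lit 5) (nat_lit 104) (nat_lit 5) (nat_lit 326) (nat_lit 289) (nat_lit 165)))) (XT.nd (nat_lit 78) (nat_lit 0) (nat_lit 0) (XT.lf (nat_lit 0) (nat_lit 1030955840) (nat_lit 380) (nat_lit 4319092353) (nat_lit 456) (nat_lit 13130439505) (nat_lit 98) (nat_lit 5) (nat_lit 103) (nat_lit 5) (nat_lit 104) (nat_lit 5) (nat_lit 327) (nat_lit 289) (nat_lit 164)) (XT.nd (nat_lit 78) (nat_lit 0) (nat_lit 0) (XT.lf (nat_lit 0) (nat_lit 7938322659) (nat_lit 456) (nat_lit 8872389025) (nat_lit 76) (nat_lit 2013710202) (nat_lit 98) (nat_lit 5) (nat_lit 104) (nat_lit 5) (nat_lit 99) (nat_lit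 5) (nat_lit 328) (nat_lit 289) (nat_lit 163)) (XT.lf (nat_lit 0) (nat_lit 10637349188) (nat_lit 456) (nat_lit 92503689) (nat_lit 76) (nat_lit 8447841605) (nat_lit 98) (nat_lit 5) (nat_lit 104) (nat_lit 5) (nat_lit 99) (nat_lit 5) (nat_lit 329) (nat_lit 289) (nat_lit 162))))) (XT.nd (nat_lit 234) (nat_lit 456) (nat_lit 0) (XT.nd (nat_lit 78) (nat_lit 304) (nat_lit 0) (XT.lf (nat_lit 0) (nat_lit 9117223522) (nat_lit 380) (nat_lit 4378385202) (nat_lit 456) (nat_lit 6043621771) (nat_lit 93) (nat_lit 5) (nat_lit 98) (nat_lit 5) (nat_lit 99) (nat_lit 5) (nat_lit 330) (nat_lit 289) (nat_lit 161)) (XT.nd (nat_lit 78) (nat_lit 304) (nat_lit 0) (XT.lf (nat_lit 0) (nat_lit 16452122856) (nat_lit 456) (nat_lit 1338873877) (nat_lit 76) (nat_lit 2120253370) (nat_lit 93) (nat_lit 5) (nat_lit 99) (nat_lit 5) (nat_lit 94) (nat_lit 5) (nat_lit 331) (nat_lit 289) (nat_lit 160)) (XT.lf (nat_lit 0) (nat_lit 8120582393)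 (nat_lit 304) (nat_lit 11489194698) (nat_lit 380) (nat_lit 681292221) (nat_lit 89) (nat_lit 5) (nat_lit 93) (nat_lit 5) (nat_lit 94) (nat_lit 5) (nat_lit 332) (nat_lit 289) (nat_lit 159)))) (XT.nd (nat_lit 78) (nat_lit 380) (nat_lit 0) (XT.lf (nat_lit 0) (nat_lit 2142083516) (nat_lit 380) (nat_lit 2823058381) (nat_lit 76) (nat_lit 15716381923) (nat_lit 88) (nat_lit 5) (nat_lit 93) (nat_lit 5) (nat_lit 89) (nat_lit 5) (nat_lit 333) (nat_lit 289) (nat_lit 158)) (XT.nd (nat_lit 78) (nat_lit 0) (nat_lit 0) (XT.lf (nat_lit 0) (nat_lit 5111924558) (nat_lit 456) (nat_lit 14177240854) (nat_lit 76) (nat_lit 1792071772) (nat_lit 83) (nat_lit 5) (nat_lit 89) (nat_lit 5) (nat_lit 84) (nat_lit 5) (nat_lit 334) (nat_lit 289) (nat_lit 157)) (XT.lf (nat_lit 0) (nat_lit 8240282627) (nat_lit 456) (nat_lit 4571960686) (nat_lit 76) (nat_lit 8678626957) (nat_lit 83) (nat_lit 5) (nat_lit 89) (nat_lit 5) (nat_lit 84)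 (nat_lit 5) (nat_lit 335) (nat_lit 289) (nat_lit 156)))))) (XT.nd (nat_lit 468) (nat_lit 912) (nat_lit 0) (XT.nd (nat_lit 234) (nat_lit 380) (nat_lit 0) (XT.nd (nat_lit 78) (nat_lit 304) (nat_lit 0) (XT.lf (nat_lit 0) (nat_lit 5416330687) (nat_lit 304) (nat_lit 6089946582) (nat_lit 380) (nat_lit 10405212158) (nat_lit 79) (nat_lit 5) (nat_lit 83) (nat_lit 5) (nat_lit 84) (nat_lit 5) (nat_lit 336) (nat_lit 289) (nat_lit 155)) (XT.nd (nat_lit 78) (nat_lit 304) (nat_lit 0) (XT.lf (nat_lit 0) (nat_lit 14916727603) (nat_lit 380) (nat_lit 6564787539) (nat_lit 76) (nat_lit 861828085) (nat_lit 79) (nat_lit 5) (nat_lit 84) (nat_lit 5) (nat_lit 80) (nat_lit 5) (nat_lit 337) (nat_lit 289) (nat_lit 154)) (XT.lf (nat_lit 0) (nat_lit 3664053765) (nat_lit 304) (nat_lit 14853026962) (nat_lit 380) (nat_lit 4268454278) (nat_lit 75) (nat_lit 5) (nat_lit 79) (nat_lit 5) (nat_lit 80) (nat_lit 5) (nat_lit 338) (nat_lit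 289) (nat_lit 153)))) (XT.nd (nat_lit 78) (nat_lit 380) (nat_lit 0) (XT.lf (nat_lit 0) (nat_lit 14323792946) (nat_lit 304) (nat_lit 7960144251) (nat_lit 380) (nat_lit 955310307) (nat_lit 75) (nat_lit 5) (nat_lit 79) (nat_lit 5) (nat_lit 80) (nat_lit 5) (nat_lit 339) (nat_lit 289) (nat_lit 152)) (XT.nd (nat_lit 78) (nat_lit 0) (nat_lit 0) (XT.lf (nat_lit 0) (nat_lit 1593840448) (nat_lit 304) (nat_lit 823103304) (nat_lit 380) (nat_lit 21288698252) (nat_lit 70) (nat_lit 5) (nat_lit 74) (nat_lit 5) (nat_lit 75) (nat_lit 5) (nat_lit 340) (nat_lit 289) (nat_lit 151)) (XT.lf (nat_lit 0) (nat_lit 6017277918) (nat_lit 380) (nat_lit 11665756698) (nat_lit 76) (nat_lit 6498335492) (nat_lit 70) (nat_lit 5) (nat_lit 75) (nat_lit 5) (nat_lit 71) (nat_lit 5) (nat_lit 341) (nat_lit 289) (nat_lit 150))))) (XT.nd (nat_lit 234) (nat_lit 608) (nat_lit 0) (XT.nd (nat_lit 78) (nat_lit 304) (nat_lit 0) (XT.lf (nat_lit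 0) (nat_lit 9726433484) (nat_lit 380) (nat_lit 924674313) (nat_lit 76) (nat_lit 14020246578) (nat_lit 70) (nat_lit 5) (nat_lit 75) (nat_lit 5) (nat_lit 71) (nat_lit 5) (nat_lit 342) (nat_lit 289) (nat_lit 149)) (XT.nd (nat_lit 78) (nat_lit 0) (nat_lit 0) (XT.lf (nat_lit 0) (nat_lit 10330325030) (nat_lit 304) (nat_lit 3308715662) (nat_lit 380) (nat_lit 11534240582) (nat_lit 66) (nat_lit 5) (nat_lit 70) (nat_lit 5) (nat_lit 71) (nat_lit 5) (nat_lit 343) (nat_lit 289) (nat_lit 148)) (XT.lf (nat_lit 0) (nat_lit 17712309577) (nat_lit 380) (nat_lit 3799032605) (nat_lit 76) (nat_lit 4177633459) (nat_lit 66) (nat_lit 5) (nat_lit 71) (nat_lit 5) (nat_lit 67) (nat_lit 5) (nat_lit 344) (nat_lit 289) (nat_lit 147)))) (XT.nd (nat_lit 78) (nat_lit 380) (nat_lit 0) (XT.lf (nat_lit 0) (nat_lit 7683684556) (nat_lit 228) (nat_lit 14323878857) (nat_lit 304) (nat_lit 4209591746) (nat_lit 63) (nat_lit 5) (nat_lit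 66) (nat_lit 5) (nat_lit 67) (nat_lit 5) (nat_lit 345) (nat_lit 289) (nat_lit 146)) (XT.nd (nat_lit 78) (nat_lit 380) (nat_lit 0) (XT.lf (nat_lit 0) (nat_lit 19579153797) (nat_lit 228) (nat_lit 6884157578) (nat_lit 304) (nat_lit 296927290) (nat_lit 63) (nat_lit 5) (nat_lit 66) (nat_lit 5) (nat_lit 67) (nat_lit 5) (nat_lit 346) (nat_lit 289) (nat_lit 145)) (XT.lf (nat_lit 0) (nat_lit 3705704845) (nat_lit 380) (nat_lit 22770261742) (nat_lit 76) (nat_lit 841215764) (nat_lit 58) (nat_lit 5) (nat_lit 63) (nat_lit 5) (nat_lit 59) (nat_lit 5) (nat_lit 347) (nat_lit 289) (nat_lit 144))))))) (XT.nd (nat_lit 936) (nat_lit 836) (nat_lit 0) (XT.nd (nat_lit 468) (nat_lit 608) (nat_lit 0) (XT.nd (nat_lit 234) (nat_lit 304) (nat_lit 0) (XT.nd (nat_lit 78) (nat_lit 228) (nat_lit 0) (XT.lf (nat_lit 0) (nat_lit 7957313086) (nat_lit 380) (nat_lit 11196051670) (nat_lit 76) (nat_lit 8733342489) (nat_lit 58) (nat_lit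 5) (nat_lit 63) (nat_lit 5) (nat_lit 59) (nat_lit 5) (nat_lit 348) (nat_lit 289) (nat_lit 143)) (XT.nd (nat_lit 78) (nat_lit 0) (nat_lit 0) (XT.lf (nat_lit 0) (nat_lit 730368472) (nat_lit 228) (nat_lit 11606784240) (nat_lit 304) (nat_lit 16136151516) (nat_lit 55) (nat_lit 5) (nat_lit 58) (nat_lit 5) (nat_lit 59) (nat_lit 5) (nat_lit 349) (nat_lit 289) (nat_lit 142)) (XT.lf (nat_lit 0) (nat_lit 13234911817) (nat_lit 228) (nat_lit 3720292641) (nat_lit 304) (nat_lit 12119096795) (nat_lit 55) (nat_lit 5) (nat_lit 58) (nat_lit 5) (nat_lit 59) (nat_lit 5) (nat_lit 350) (nat_lit 289) (nat_lit 141)))) (XT.nd (nat_lit 78) (nat_lit 304) (nat_lit 0) (XT.lf (nat_lit 0) (nat_lit 21748033246) (nat_lit 304) (nat_lit 3630130079) (nat_lit 76) (nat_lit 4314084244) (nat_lit 55) (nat_lit 5) (nat_lit 59) (nat_lit 5) (nat_lit 56) (nat_lit 5) (nat_lit 351) (nat_lit 289) (nat_lit 140)) (XT.nd (nat_lit 78) (nat_lit 76)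 (nat_lit 0) (XT.lf (nat_lit 0) (nat_lit 9076888462) (nat_lit 228) (nat_lit 17725936050) (nat_lit 304) (nat_lit 3522368694) (nat_lit 52) (nat_lit 5) (nat_lit 55) (nat_lit 5) (nat_lit 56) (nat_lit 5) (nat_lit 352) (nat_lit 289) (nat_lit 139)) (XT.lf (nat_lit 0) (nat_lit 1043126957) (nat_lit 304) (nat_lit 8755623737) (nat_lit 76) (nat_lit 21177150714) (nat_lit 51) (nat_lit 5) (nat_lit 55) (nat_lit 5) (nat_lit 52) (nat_lit 5) (nat_lit 353) (nat_lit 289) (nat_lit 138))))) (XT.nd (nat_lit 234) (nat_lit 380) (nat_lit 0) (XT.nd (nat_lit 78) (nat_lit 0) (nat_lit 0) (XT.lf (nat_lit 0) (nat_lit 4149345535) (nat_lit 228) (nat_lit 1559618403) (nat_lit 304) (nat_lit 25935101218) (nat_lit 48) (nat_lit 5) (nat_lit 51) (nat_lit 5) (nat_lit 52) (nat_lit 5) (nat_lit 354) (nat_lit 289) (nat_lit 137)) (XT.nd (nat_lit 78) (nat_lit 0) (nat_lit 0) (XT.lf (nat_lit 0) (nat_lit 10664993224) (nat_lit 304) (nat_lit 14784783279)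 (nat_lit 76) (nat_lit 6877996360) (nat_lit 48) (nat_lit 5) (nat_lit 52) (nat_lit 5) (nat_lit 49) (nat_lit 5) (nat_lit 355) (nat_lit 289) (nat_lit 136)) (XT.lf (nat_lit 0) (nat_lit 15779653511) (nat_lit 304) (nat_lit 1717387248) (nat_lit 76) (nat_lit 15534657937) (nat_lit 48) (nat_lit 5) (nat_lit 52) (nat_lit 5) (nat_lit 49) (nat_lit 5) (nat_lit 356) (nat_lit 289) (nat_lit 135)))) (XT.nd (nat_lit 78) (nat_lit 152) (nat_lit 0) (XT.lf (nat_lit 0) (nat_lit 11967405781) (nat_lit 228) (nat_lit 9190054158) (nat_lit 304) (nat_lit 12595996415) (nat_lit 45) (nat_lit 5) (nat_lit 48) (nat_lit 5) (nat_lit 49) (nat_lit 5) (nat_lit 357) (nat_lit 289) (nat_lit 134)) (XT.nd (nat_lit 78) (nat_lit 152) (nat_lit 0) (XT.lf (nat_lit 0) (nat_lit 26089875206) (nat_lit 228) (nat_lit 618813605) (nat_lit 304) (nat_lit 7787820373) (nat_lit 45) (nat_lit 5) (nat_lit 48) (nat_lit 5) (nat_lit 49) (nat_lit 5) (nat_lit 358) (nat_lit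 289) (nat_lit 133)) (XT.lf (nat_lit 0) (nat_lit 5392508312) (nat_lit 152) (nat_lit 27159570410) (nat_lit 228) (nat_lit 2706011090) (nat_lit 43) (nat_lit 5) (nat_lit 45) (nat_lit 5) (nat_lit 46) (nat_lit 5) (nat_lit 359) (nat_lit 289) (nat_lit 132)))))) (XT.nd (nat_lit 468) (nat_lit 380) (nat_lit 0) (XT.nd (nat_lit 234) (nat_lit 152) (nat_lit 0) (XT.nd (nat_lit 78) (nat_lit 228) (nat_lit 0) (XT.lf (nat_lit 0) (nat_lit 2565666528) (nat_lit 228) (nat_lit 16301285906) (nat_lit 76) (nat_lit 17172238510) (nat_lit 42) (nat_lit 5) (nat_lit 45) (nat_lit 5) (nat_lit 43) (nat_lit 5) (nat_lit 360) (nat_lit 289) (nat_lit 131)) (XT.nd (nat_lit 78) (nat_lit 228) (nat_lit 0) (XT.lf (nat_lit 0) (nat_lit 7936146605) (nat_lit 228) (nat_lit 2364617622) (nat_lit 76) (nat_lit 26542310428) (nat_lit 42) (nat_lit 5) (nat_lit 45) (nat_lit 5) (nat_lit 43) (nat_lit 5) (nat_lit 361) (nat_lit 289) (nat_lit 130)) (XT.lf (nat_lit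 0) (nat_lit 12221090345) (nat_lit 228) (nat_lit 1359312068) (nat_lit 304) (nat_lit 24087297015) (nat_lit 39) (nat_lit 5) (nat_lit 42) (nat_lit 5) (nat_lit 43) (nat_lit 5) (nat_lit 362) (nat_lit 289) (nat_lit 129)))) (XT.nd (nat_lit 78) (nat_lit 152) (nat_lit 0) (XT.lf (nat_lit 0) (nat_lit 19488790119) (nat_lit 304) (nat_lit 11306788315) (nat_lit 76) (nat_lit 7718644645) (nat_lit 39) (nat_lit 5) (nat_lit 43) (nat_lit 5) (nat_lit 40) (nat_lit 5) (nat_lit 363) (nat_lit 289) (nat_lit 128)) (XT.nd (nat_lit 78) (nat_lit 0) (nat_lit 0) (XT.lf (nat_lit 0) (nat_lit 3300815753) (nat_lit 152) (nat_lit 22314167829) (nat_lit 228) (nat_lit 13769946371) (nat_lit 37) (nat_lit 5) (nat_lit 39) (nat_lit 5) (nat_lit 40) (nat_lit 5) (nat_lit 364) (nat_lit 289) (nat_lit 127)) (XT.lf (nat_lit 0) (nat_lit 18571134619) (nat_lit 152) (nat_lit 13463435631) (nat_lit 228) (nat_lit 8243903579) (nat_lit 37) (nat_lit 5) (nat_lit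 39) (nat_lit 5) (nat_lit 40) (nat_lit 5) (nat_lit 365) (nat_lit 289) (nat_lit 126))))) (XT.nd (nat_lit 234) (nat_lit 152) (nat_lit 0) (XT.nd (nat_lit 78) (nat_lit 228) (nat_lit 0) (XT.lf (nat_lit 0) (nat_lit 34292484023) (nat_lit 152) (nat_lit 4349824581) (nat_lit 228) (nat_lit 2556652394) (nat_lit 37) (nat_lit 5) (nat_lit 39) (nat_lit 5) (nat_lit 40) (nat_lit 5) (nat_lit 366) (nat_lit 289) (nat_lit 125)) (XT.nd (nat_lit 78) (nat_lit 0) (nat_lit 0) (XT.lf (nat_lit 0) (nat_lit 3363329732) (nat_lit 228) (nat_lit 33728424043) (nat_lit 76) (nat_lit 5050564723) (nat_lit 34) (nat_lit 5) (nat_lit 37) (nat_lit 5) (nat_lit 35) (nat_lit 5) (nat_lit 367) (nat_lit 289) (nat_lit 124)) (XT.lf (nat_lit 0) (nat_lit 9518707528) (nat_lit 228) (nat_lit 18852505122) (nat_lit 76) (nat_lit 14738732768) (nat_lit 34) (nat_lit 5) (nat_lit 37) (nat_lit 5) (nat_lit 35) (nat_lit 5) (nat_lit 368) (nat_lit 289) (nat_lit 123))))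 (XT.nd (nat_lit 78) (nat_lit 152) (nat_lit 0) (XT.lf (nat_lit 0) (nat_lit 15854554843) (nat_lit 228) (nat_lit 3537106904) (nat_lit 76) (nat_lit 24715068618) (nat_lit 34) (nat_lit 5) (nat_lit 37) (nat_lit 5) (nat_lit 35) (nat_lit 5) (nat_lit 369) (nat_lit 289) (nat_lit 122)) (XT.nd (nat_lit 78) (nat_lit 0) (nat_lit 0) (XT.lf (nat_lit 0) (nat_lit 12474576924) (nat_lit 152) (nat_lit 10021744194) (nat_lit 228) (nat_lit 22633625803) (nat_lit 32) (nat_lit 5) (nat_lit 34) (nat_lit 5) (nat_lit 35) (nat_lit 5) (nat_lit 370) (nat_lit 289) (nat_lit 121)) (XT.lf (nat_lit 0) (nat_lit 29032582937) (nat_lit 152) (nat_lit 336461275) (nat_lit 228) (nat_lit 16813867910) (nat_lit 32) (nat_lit 5) (nat_lit 34) (nat_lit 5) (nat_lit 35) (nat_lit 5) (nat_lit 371) (nat_lit 289) (nat_lit 120))))))))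
noncomputable def xc184 : XT := (XT.nd (nat_lit 34632) (nat_lit 0) (nat_lit 8132) (XT.nd (nat_lit 858) (nat_lit 228) (nat_lit 0) (XT.nd (nat_lit 390) (nat_lit 304) (nat_lit 0) (XT.nd (nat_lit 156) (nat_lit 228) (nat_lit 0) (XT.nd (nat_lit 78) (nat_lit 152) (nat_lit 0) (XT.lf (nat_lit 0) (nat_lit 36536687987) (nat_lit 228) (nat_lit 1279238518) (nat_lit 76) (nat_lit 9448880776) (nat_lit 32) (nat_lit 5) (nat_lit 35) (nat_lit 5) (nat_lit 33) (nat_lit 5) (nat_lit 372) (nat_lit 289) (nat_lit 119)) (XT.lf (nat_lit 0) (nat_lit 15358091118) (nat_lit 152) (nat_lit 28708426184) (nat_lit 228) (nat_lit 4308230385) (nat_lit 30) (nat_lit 5) (nat_lit 32) (nat_lit 5) (nat_lit 33) (nat_lit 5) (nat_lit 373) (nat_lit 289) (nat_lit 118))) (XT.nd (nat_lit 78) (nat_lit 152) (nat_lit 0) (XT.lf (nat_lit 0) (nat_lit 2268541362) (nat_lit 228) (nat_lit 17025384047) (nat_lit 76) (nat_lit 30223121788) (nat_lit 29) (nat_lit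 5) (nat_lit 32) (nat_lit 5) (nat_lit 30) (nat_lit 5) (nat_lit 374) (nat_lit 289) (nat_lit 117)) (XT.nd (nat_lit 78) (nat_lit 152) (nat_lit 0) (XT.lf (nat_lit 0) (nat_lit 8952340426) (nat_lit 228) (nat_lit 603117682) (nat_lit 76) (nat_lit 41136991267) (nat_lit 29) (nat_lit 5) (nat_lit 32) (nat_lit 5) (nat_lit 30) (nat_lit 5) (nat_lit 375) (nat_lit 289) (nat_lit 116)) (XT.lf (nat_lit 0) (nat_lit 15999065846) (nat_lit 228) (nat_lit 35274130821) (nat_lit 76) (nat_lit 625047316) (nat_lit 27) (nat_lit 5) (nat_lit 30) (nat_lit 5) (nat_lit 28) (nat_lit 5) (nat_lit 376) (nat_lit 289) (nat_lit 115))))) (XT.nd (nat_lit 234) (nat_lit 152) (nat_lit 0) (XT.nd (nat_lit 78) (nat_lit 152) (nat_lit 0) (XT.lf (nat_lit 0) (nat_lit 23354400370) (nat_lit 228) (nat_lit 18860113760) (nat_lit 76) (nat_lit 10922784734) (nat_lit 27) (nat_lit 5) (nat_lit 30) (nat_lit 5) (nat_lit 28) (nat_lit 5) (nat_lit 377) (nat_lit 289)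 (nat_lit 114)) (XT.nd (nat_lit 78) (nat_lit 152) (nat_lit 0) (XT.lf (nat_lit 0) (nat_lit 30926946621) (nat_lit 228) (nat_lit 1959442687) (nat_lit 76) (nat_lit 21527242111) (nat_lit 27) (nat_lit 5) (nat_lit 30) (nat_lit 5) (nat_lit 28) (nat_lit 5) (nat_lit 378) (nat_lit 289) (nat_lit 113)) (XT.lf (nat_lit 0) (nat_lit 15749988986) (nat_lit 152) (nat_lit 23124730928) (nat_lit 228) (nat_lit 16849095022) (nat_lit 25) (nat_lit 5) (nat_lit 27) (nat_lit 5) (nat_lit 28) (nat_lit 5) (nat_lit 379) (nat_lit 289) (nat_lit 112)))) (XT.nd (nat_lit 78) (nat_lit 152) (nat_lit 0) (XT.lf (nat_lit 0) (nat_lit 34025326607) (nat_lit 152) (nat_lit 13052082677) (nat_lit 228) (nat_lit 9995402618) (nat_lit 25) (nat_lit 5) (nat_lit 27) (nat_lit 5) (nat_lit 28) (nat_lit 5) (nat_lit 380) (nat_lit 289) (nat_lit 111)) (XT.nd (nat_lit 78) (nat_lit 152) (nat_lit 0) (XT.lf (nat_lit 0) (nat_lit 52843542165) (nat_lit 152) (nat_lit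 2679429739) (nat_lit 228) (nat_lit 2939405453) (nat_lit 25) (nat_lit 5) (nat_lit 27) (nat_lit 5) (nat_lit 28) (nat_lit 5) (nat_lit 381) (nat_lit 289) (nat_lit 110)) (XT.lf (nat_lit 0) (nat_lit 4439640292) (nat_lit 152) (nat_lit 47437102684) (nat_lit 76) (nat_lit 8009765981) (nat_lit 23) (nat_lit 5) (nat_lit 25) (nat_lit 5) (nat_lit 24) (nat_lit 5) (nat_lit 382) (nat_lit 289) (nat_lit 109)))))) (XT.nd (nat_lit 468) (nat_lit 76) (nat_lit 0) (XT.nd (nat_lit 234) (nat_lit 0) (nat_lit 0) (XT.nd (nat_lit 78) (nat_lit 152) (nat_lit 0) (XT.lf (nat_lit 0) (nat_lit 12061681993) (nat_lit 152) (nat_lit 30238293789) (nat_lit 76) (nat_lit 19050096680) (nat_lit 23) (nat_lit 5) (nat_lit 25) (nat_lit 5) (nat_lit 24) (nat_lit 5) (nat_lit 383) (nat_lit 289) (nat_lit 108)) (XT.nd (nat_lit 78) (nat_lit 152) (nat_lit 0) (XT.lf (nat_lit 0) (nat_lit 19909349722) (nat_lit 152) (nat_lit 12528679125) (nat_lit 76) (nat_lit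 30419607178) (nat_lit 23) (nat_lit 5) (nat_lit 25) (nat_lit 5) (nat_lit 24) (nat_lit 5) (nat_lit 384) (nat_lit 289) (nat_lit 107)) (XT.lf (nat_lit 0) (nat_lit 5820800512) (nat_lit 152) (nat_lit 22224653248) (nat_lit 228) (nat_lit 36363384582) (nat_lit 21) (nat_lit 5) (nat_lit 23) (nat_lit 5) (nat_lit 24) (nat_lit 5) (nat_lit 385) (nat_lit 289) (nat_lit 106)))) (XT.nd (nat_lit 78) (nat_lit 0) (nat_lit 0) (XT.lf (nat_lit 0) (nat_lit 24972631028) (nat_lit 152) (nat_lit 11576616326) (nat_lit 228) (nat_lit 29453623157) (nat_lit 21) (nat_lit 5) (nat_lit 23) (nat_lit 5) (nat_lit 24) (nat_lit 5) (nat_lit 386) (nat_lit 289) (nat_lit 105)) (XT.nd (nat_lit 78) (nat_lit 0) (nat_lit 0) (XT.lf (nat_lit 0) (nat_lit 44694201750) (nat_lit 152) (nat_lit 611129064) (nat_lit 228) (nat_lit 22339479467) (nat_lit 21) (nat_lit 5) (nat_lit 23) (nat_lit 5) (nat_lit 24) (nat_lit 5) (nat_lit 387) (nat_lit 289) (nat_lit 104))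 (XT.lf (nat_lit 0) (nat_lit 54424031146) (nat_lit 228) (nat_lit 4436023294) (nat_lit 76) (nat_lit 10472957637) (nat_lit 21) (nat_lit 5) (nat_lit 24) (nat_lit 5) (nat_lit 22) (nat_lit 4) (nat_lit 388) (nat_lit 289) (nat_lit 103))))) (XT.nd (nat_lit 33072) (nat_lit 0) (nat_lit 12312) (XT.nd (nat_lit 32916) (nat_lit 0) (nat_lit 13300) (XT.lf (nat_lit 0) (nat_lit 14914380040) (nat_lit 76) (nat_lit 49048649501) (nat_lit 152) (nat_lit 7104430083) (nat_lit 20) (nat_lit 5) (nat_lit 21) (nat_lit 5) (nat_lit 22) (nat_lit 4) (nat_lit 389) (nat_lit 289) (nat_lit 102)) (XT.nd (nat_lit 78) (nat_lit 0) (nat_lit 0) (XT.lf (nat_lit 0) (nat_lit 1960808837) (nat_lit 0) (nat_lit 1960808837) (nat_lit 988) (nat_lit 1274639791) (nat_lit 195) (nat_lit 5) (nat_lit 195) (nat_lit 3) (nat_lit 208) (nat_lit 3) (nat_lit 290) (nat_lit 290) (nat_lit 200)) (XT.lf (nat_lit 0) (nat_lit 8560918858) (nat_lit 988) (nat_lit 1922265721)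 (nat_lit 1064) (nat_lit 46088933) (nat_lit 195) (nat_lit 5) (nat_lit 208) (nat_lit 3) (nat_lit 209) (nat_lit 5) (nat_lit 291) (nat_lit 290) (nat_lit 199)))) (XT.nd (nat_lit 78) (nat_lit 988) (nat_lit 0) (XT.lf (nat_lit 76) (nat_lit 2765401282) (nat_lit 0) (nat_lit 6576854629) (nat_lit 1064) (nat_lit 1326659271) (nat_lit 196) (nat_lit 5) (nat_lit 195) (nat_lit 5) (nat_lit 209) (nat_lit 5) (nat_lit 292) (nat_lit 290) (nat_lit 198)) (XT.nd (nat_lit 78) (nat_lit 988) (nat_lit 0) (XT.lf (nat_lit 76) (nat_lit 7620667459) (nat_lit 0) (nat_lit 2523047890) (nat_lit 1064) (nat_lit 669173030) (nat_lit 196) (nat_lit 5) (nat_lit 195) (nat_lit 5) (nat_lit 209) (nat_lit 5) (nat_lit 293) (nat_lit 290) (nat_lit 197)) (XT.lf (nat_lit 0) (nat_lit 17847836) (nat_lit 1064) (nat_lit 9296972387) (nat_lit 1140) (nat_lit 1646099514) (nat_lit 182) (nat_lit 5) (nat_lit 196) (nat_lit 5) (nat_lit 197) (nat_lit 5) (nat_lit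 294) (nat_lit 290) (nat_lit 196))))))) (XT.nd (nat_lit 936) (nat_lit 4180) (nat_lit 0) (XT.nd (nat_lit 468) (nat_lit 0) (nat_lit 152) (XT.nd (nat_lit 234) (nat_lit 0) (nat_lit 76) (XT.nd (nat_lit 78) (nat_lit 0) (nat_lit 0) (XT.lf (nat_lit 0) (nat_lit 747859329) (nat_lit 1064) (nat_lit 4426329883) (nat_lit 1140) (nat_lit 5937968285) (nat_lit 182) (nat_lit 5) (nat_lit 196) (nat_lit 5) (nat_lit 197) (nat_lit 5) (nat_lit 295) (nat_lit 290) (nat_lit 195)) (XT.nd (nat_lit 78) (nat_lit 0) (nat_lit 76) (XT.lf (nat_lit 76) (nat_lit 589094568) (nat_lit 0) (nat_lit 895266240) (nat_lit 1140) (nat_lit 9784071871) (nat_lit 183) (nat_lit 5) (nat_lit 182) (nat_lit 5) (nat_lit 197) (nat_lit 5) (nat_lit 296) (nat_lit 290) (nat_lit 194)) (XT.lf (nat_lit 0) (nat_lit 2301351091) (nat_lit 1064) (nat_lit 5629977180) (nat_lit 1140) (nat_lit 3496352903) (nat_lit 183) (nat_lit 5) (nat_lit 197) (nat_lit 5) (nat_lit 198)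 (nat_lit 5) (nat_lit 297) (nat_lit 290) (nat_lit 193)))) (XT.nd (nat_lit 78) (nat_lit 0) (nat_lit 76) (XT.lf (nat_lit 0) (nat_lit 3131806594) (nat_lit 1064) (nat_lit 451044960) (nat_lit 1140) (nat_lit 8009222704) (nat_lit 183) (nat_lit 5) (nat_lit 197) (nat_lit 5) (nat_lit 198) (nat_lit 5) (nat_lit 298) (nat_lit 290) (nat_lit 192)) (XT.nd (nat_lit 78) (nat_lit 0) (nat_lit 0) (XT.lf (nat_lit 0) (nat_lit 4024748483) (nat_lit 1064) (nat_lit 6802207758) (nat_lit 1140) (nat_lit 933350466) (nat_lit 184) (nat_lit 5) (nat_lit 198) (nat_lit 5) (nat_lit 199) (nat_lit 5) (nat_lit 299) (nat_lit 290) (nat_lit 191)) (XT.lf (nat_lit 0) (nat_lit 4965726925) (nat_lit 1064) (nat_lit 1443407906) (nat_lit 1140) (nat_lit 5523847591) (nat_lit 184) (nat_lit 5) (nat_lit 198) (nat_lit 5) (nat_lit 199) (nat_lit 5) (nat_lit 300) (nat_lit 290) (nat_lit 190))))) (XT.nd (nat_lit 234) (nat_lit 0) (nat_lit 152) (XT.nd (nat_lit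 78) (nat_lit 0) (nat_lit 76) (XT.lf (nat_lit 76) (nat_lit 4144206175) (nat_lit 0) (nat_lit 1812288251) (nat_lit 1140) (nat_lit 6153729951) (nat_lit 185) (nat_lit 5) (nat_lit 184) (nat_lit 5) (nat_lit 199) (nat_lit 5) (nat_lit 301) (nat_lit 290) (nat_lit 189)) (XT.nd (nat_lit 78) (nat_lit 0) (nat_lit 0) (XT.lf (nat_lit 0) (nat_lit 7001980495) (nat_lit 1064) (nat_lit 2404856047) (nat_lit 1140) (nat_lit 2885228990) (nat_lit 185) (nat_lit 5) (nat_lit 199) (nat_lit 5) (nat_lit 200) (nat_lit 5) (nat_lit 302) (nat_lit 290) (nat_lit 188)) (XT.lf (nat_lit 76) (nat_lit 3357797898) (nat_lit 0) (nat_lit 4753955967) (nat_lit 1140) (nat_lit 4366651252) (nat_lit 186) (nat_lit 5) (nat_lit 185) (nat_lit 5) (nat_lit 200) (nat_lit 5) (nat_lit 303) (nat_lit 290) (nat_lit 187)))) (XT.nd (nat_lit 78) (nat_lit 0) (nat_lit 0) (XT.lf (nat_lit 0) (nat_lit 9262837908) (nat_lit 1064) (nat_lit 3340961116) (nat_lit 1140) (nat_lit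 66325324) (nat_lit 186) (nat_lit 5) (nat_lit 200) (nat_lit 5) (nat_lit 201) (nat_lit 5) (nat_lit 304) (nat_lit 290) (nat_lit 186)) (XT.nd (nat_lit 78) (nat_lit 0) (nat_lit 0) (XT.lf (nat_lit 76) (nat_lit 2602812466) (nat_lit 0) (nat_lit 7901344787) (nat_lit 1140) (nat_lit 2361795925) (nat_lit 187) (nat_lit 5) (nat_lit 186) (nat_lit 5) (nat_lit 201) (nat_lit 5) (nat_lit 305) (nat_lit 290) (nat_lit 185)) (XT.lf (nat_lit 76) (nat_lit 8780529691) (nat_lit 0) (nat_lit 3019891408) (nat_lit 1140) (nat_lit 1266732884) (nat_lit 187) (nat_lit 5) (nat_lit 186) (nat_lit 5) (nat_lit 201) (nat_lit 5) (nat_lit 306) (nat_lit 290) (nat_lit 184)))))) (XT.nd (nat_lit 468) (nat_lit 1748) (nat_lit 0) (XT.nd (nat_lit 234) (nat_lit 532) (nat_lit 0) (XT.nd (nat_lit 78) (nat_lit 1216) (nat_lit 0) (XT.lf (nat_lit 0) (nat_lit 1873437368) (nat_lit 1064) (nat_lit 11283910663) (nat_lit 1140) (nat_lit 116416962) (nat_lit 173)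 (nat_lit 5) (nat_lit 187) (nat_lit 5) (nat_lit 188) (nat_lit 5) (nat_lit 307) (nat_lit 290) (nat_lit 183)) (XT.nd (nat_lit 78) (nat_lit 1140) (nat_lit 0) (XT.lf (nat_lit 0) (nat_lit 1105791322) (nat_lit 1140) (nat_lit 5232912057) (nat_lit 76) (nat_lit 7145841770) (nat_lit 172) (nat_lit 5) (nat_lit 187) (nat_lit 5) (nat_lit 173) (nat_lit 5) (nat_lit 308) (nat_lit 290) (nat_lit 182)) (XT.lf (nat_lit 0) (nat_lit 1127550566) (nat_lit 1140) (nat_lit 1230678583) (nat_lit 1216) (nat_lit 11343532992) (nat_lit 157) (nat_lit 5) (nat_lit 172) (nat_lit 5) (nat_lit 173) (nat_lit 5) (nat_lit 309) (nat_lit 290) (nat_lit 181)))) (XT.nd (nat_lit 78) (nat_lit 532) (nat_lit 0) (XT.lf (nat_lit 0) (nat_lit 3725745799) (nat_lit 1216) (nat_lit 6190262544) (nat_lit 76) (nat_lit 4007186506) (nat_lit 157) (nat_lit 5) (nat_lit 173) (nat_lit 5) (nat_lit 158) (nat_lit 5) (nat_lit 310) (nat_lit 290) (nat_lit 180)) (XT.nd (nat_lit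 78) (nat_lit 0) (nat_lit 0) (XT.lf (nat_lit 0) (nat_lit 367391935) (nat_lit 532) (nat_lit 4768433788) (nat_lit 608) (nat_lit 9015422350) (nat_lit 150) (nat_lit 5) (nat_lit 157) (nat_lit 5) (nat_lit 158) (nat_lit 5) (nat_lit 311) (nat_lit 290) (nat_lit 179)) (XT.lf (nat_lit 0) (nat_lit 6642589540) (nat_lit 608) (nat_lit 7154468189) (nat_lit 76) (nat_lit 587476696) (nat_lit 150) (nat_lit 5) (nat_lit 158) (nat_lit 5) (nat_lit 151) (nat_lit 5) (nat_lit 312) (nat_lit 290) (nat_lit 178))))) (XT.nd (nat_lit 234) (nat_lit 1140) (nat_lit 0) (XT.nd (nat_lit 78) (nat_lit 608) (nat_lit 0) (XT.lf (nat_lit 0) (nat_lit 8228296733) (nat_lit 608) (nat_lit 386151646) (nat_lit 76) (nat_lit 6009381081) (nat_lit 150) (nat_lit 5) (nat_lit 158) (nat_lit 5) (nat_lit 151) (nat_lit 5) (nat_lit 313) (nat_lit 290) (nat_lit 177)) (XT.nd (nat_lit 78) (nat_lit 0) (nat_lit 0) (XT.lf (nat_lit 0) (nat_lit 6703657149) (nat_lit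 608) (nat_lit 3209278274) (nat_lit 684) (nat_lit 4955848775) (nat_lit 142) (nat_lit 5) (nat_lit 150) (nat_lit 5) (nat_lit 151) (nat_lit 5) (nat_lit 314) (nat_lit 290) (nat_lit 176)) (XT.lf (nat_lit 0) (nat_lit 11661907544) (nat_lit 684) (nat_lit 1142259689) (nat_lit 76) (nat_lit 2316527543) (nat_lit 142) (nat_lit 5) (nat_lit 151) (nat_lit 5) (nat_lit 143) (nat_lit 5) (nat_lit 315) (nat_lit 290) (nat_lit 175)))) (XT.nd (nat_lit 78) (nat_lit 608) (nat_lit 0) (XT.lf (nat_lit 0) (nat_lit 6167579638) (nat_lit 532) (nat_lit 7374393195) (nat_lit 608) (nat_lit 1835851534) (nat_lit 135) (nat_lit 5) (nat_lit 142) (nat_lit 5) (nat_lit 143) (nat_lit 5) (nat_lit 316) (nat_lit 290) (nat_lit 174)) (XT.nd (nat_lit 78) (nat_lit 608) (nat_lit 0) (XT.lf (nat_lit 0) (nat_lit 13707959133) (nat_lit 532) (nat_lit 1769823228) (nat_lit 608) (nat_lit 164925036) (nat_lit 135) (nat_lit 5) (nat_lit 142) (nat_lit 5) (nat_lit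 143) (nat_lit 5) (nat_lit 317) (nat_lit 290) (nat_lit 173)) (XT.lf (nat_lit 0) (nat_lit 1607187728) (nat_lit 608) (nat_lit 10310922091) (nat_lit 76) (nat_lit 3994554302) (nat_lit 127) (nat_lit 5) (nat_lit 135) (nat_lit 5) (nat_lit 128) (nat_lit 5) (nat_lit 318) (nat_lit 290) (nat_lit 172))))))))
noncomputable def xc185 : XT := (XT.nd (nat_lit 1794) (nat_lit 2508) (nat_lit 0) (XT.nd (nat_lit 858) (nat_lit 2128) (nat_lit 0) (XT.nd (nat_lit 390) (nat_lit 1292) (nat_lit 0) (XT.nd (nat_lit 156) (nat_lit 456) (nat_lit 0) (XT.nd (nat_lit 78) (nat_lit 456) (nat_lit 0) (XT.lf (nat_lit 0) (nat_lit 3454661151) (nat_lit 608) (nat_lit 2817817930) (nat_lit 76) (nat_lit 9917444254) (nat_lit 127) (nat_lit 5) (nat_lit 135) (nat_lit 5) (nat_lit 128) (nat_lit 5) (nat_lit 319) (nat_lit 290) (nat_lit 171)) (XT.lf (nat_lit 0) (nat_lit 4985398739) (nat_lit 456) (nat_lit 408683227) (nat_lit 532) (nat_lit 11080340273)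 (nat_lit 121) (nat_lit 5) (nat_lit 127) (nat_lit 5) (nat_lit 128) (nat_lit 5) (nat_lit 320) (nat_lit 290) (nat_lit 170))) (XT.nd (nat_lit 78) (nat_lit 456) (nat_lit 0) (XT.lf (nat_lit 0) (nat_lit 7463362685) (nat_lit 532) (nat_lit 3752731220) (nat_lit 76) (nat_lit 5549228985) (nat_lit 121) (nat_lit 5) (nat_lit 128) (nat_lit 5) (nat_lit 122) (nat_lit 5) (nat_lit 321) (nat_lit 290) (nat_lit 169)) (XT.nd (nat_lit 78) (nat_lit 0) (nat_lit 0) (XT.lf (nat_lit 0) (nat_lit 4283349605) (nat_lit 456) (nat_lit 5345730865) (nat_lit 532) (nat_lit 7434855928) (nat_lit 115) (nat_lit 5) (nat_lit 121) (nat_lit 5) (nat_lit 122) (nat_lit 5) (nat_lit 322) (nat_lit 290) (nat_lit 168)) (XT.lf (nat_lit 0) (nat_lit 11894107764) (nat_lit 532) (nat_lit 4752089484) (nat_lit 76) (nat_lit 724297043) (nat_lit 115) (nat_lit 5) (nat_lit 122) (nat_lit 5) (nat_lit 116) (nat_lit 5) (nat_lit 323) (nat_lit 290) (nat_lit 167)))))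 (XT.nd (nat_lit 234) (nat_lit 380) (nat_lit 0) (XT.nd (nat_lit 78) (nat_lit 532) (nat_lit 0) (XT.lf (nat_lit 0) (nat_lit 3521352856) (nat_lit 380) (nat_lit 10782152749) (nat_lit 456) (nat_lit 3380466368) (nat_lit 110) (nat_lit 5) (nat_lit 115) (nat_lit 5) (nat_lit 116) (nat_lit 5) (nat_lit 324) (nat_lit 290) (nat_lit 166)) (XT.nd (nat_lit 78) (nat_lit 532) (nat_lit 0) (XT.lf (nat_lit 0) (nat_lit 12128830173) (nat_lit 380) (nat_lit 4694174653) (nat_lit 456) (nat_lit 1182729767) (nat_lit 110) (nat_lit 5) (nat_lit 115) (nat_lit 5) (nat_lit 116) (nat_lit 5) (nat_lit 325) (nat_lit 290) (nat_lit 165)) (XT.lf (nat_lit 0) (nat_lit 1091199355) (nat_lit 532) (nat_lit 15663889100) (nat_lit 76) (nat_lit 1580823634) (nat_lit 103) (nat_lit 5) (nat_lit 110) (nat_lit 5) (nat_lit 104) (nat_lit 5) (nat_lit 326) (nat_lit 290) (nat_lit 164)))) (XT.nd (nat_lit 78) (nat_lit 380) (nat_lit 0) (XT.lf (nat_lit 0) (nat_lit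 3506167910) (nat_lit 532) (nat_lit 7146738245) (nat_lit 76) (nat_lit 8019853551) (nat_lit 103) (nat_lit 5) (nat_lit 110) (nat_lit 5) (nat_lit 104) (nat_lit 5) (nat_lit 327) (nat_lit 290) (nat_lit 163)) (XT.nd (nat_lit 78) (nat_lit 0) (nat_lit 0) (XT.lf (nat_lit 0) (nat_lit 1646762423) (nat_lit 380) (nat_lit 4353122193) (nat_lit 456) (nat_lit 13019652661) (nat_lit 98) (nat_lit 5) (nat_lit 103) (nat_lit 5) (nat_lit 104) (nat_lit 5) (nat_lit 328) (nat_lit 290) (nat_lit 162)) (XT.lf (nat_lit 0) (nat_lit 8652446508) (nat_lit 456) (nat_lit 8556692208) (nat_lit 76) (nat_lit 2165071550) (nat_lit 98) (nat_lit 5) (nat_lit 104) (nat_lit 5) (nat_lit 99) (nat_lit 5) (nat_lit 329) (nat_lit 290) (nat_lit 161)))))) (XT.nd (nat_lit 468) (nat_lit 988) (nat_lit 0) (XT.nd (nat_lit 234) (nat_lit 760) (nat_lit 0) (XT.nd (nat_lit 78) (nat_lit 0) (nat_lit 0) (XT.lf (nat_lit 0) (nat_lit 478988859) (nat_lit 380) (nat_lit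 10944195982) (nat_lit 456) (nat_lit 8315193340) (nat_lit 93) (nat_lit 5) (nat_lit 98) (nat_lit 5) (nat_lit 99) (nat_lit 5) (nat_lit 330) (nat_lit 290) (nat_lit 160)) (XT.nd (nat_lit 78) (nat_lit 0) (nat_lit 0) (XT.lf (nat_lit 0) (nat_lit 9950122649) (nat_lit 380) (nat_lit 4404382767) (nat_lit 456) (nat_lit 5756654265) (nat_lit 93) (nat_lit 5) (nat_lit 98) (nat_lit 5) (nat_lit 99) (nat_lit 5) (nat_lit 331) (nat_lit 290) (nat_lit 159)) (XT.lf (nat_lit 0) (nat_lit 17387474074) (nat_lit 456) (nat_lit 823100848) (nat_lit 76) (nat_lit 2284150442) (nat_lit 93) (nat_lit 5) (nat_lit 99) (nat_lit 5) (nat_lit 94) (nat_lit 5) (nat_lit 332) (nat_lit 290) (nat_lit 158)))) (XT.nd (nat_lit 78) (nat_lit 456) (nat_lit 0) (XT.lf (nat_lit 0) (nat_lit 8914688725) (nat_lit 304) (nat_lit 11717593248) (nat_lit 380) (nat_lit 253902182) (nat_lit 89) (nat_lit 5) (nat_lit 93) (nat_lit 5) (nat_lit 94) (nat_lit 5) (nat_lit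 333) (nat_lit 290) (nat_lit 157)) (XT.nd (nat_lit 78) (nat_lit 380) (nat_lit 0) (XT.lf (nat_lit 0) (nat_lit 2632647044) (nat_lit 380) (nat_lit 2364253732) (nat_lit 76) (nat_lit 16291722759) (nat_lit 88) (nat_lit 5) (nat_lit 93) (nat_lit 5) (nat_lit 89) (nat_lit 5) (nat_lit 334) (nat_lit 290) (nat_lit 156)) (XT.lf (nat_lit 0) (nat_lit 5685484944) (nat_lit 456) (nat_lit 14052422558) (nat_lit 76) (nat_lit 1962619971) (nat_lit 83) (nat_lit 5) (nat_lit 89) (nat_lit 5) (nat_lit 84) (nat_lit 5) (nat_lit 335) (nat_lit 290) (nat_lit 155))))) (XT.nd (nat_lit 234) (nat_lit 684) (nat_lit 0) (XT.nd (nat_lit 78) (nat_lit 304) (nat_lit 0) (XT.lf (nat_lit 0) (nat_lit 8895454843) (nat_lit 456) (nat_lit 4175007350) (nat_lit 76) (nat_lit 9052370276) (nat_lit 83) (nat_lit 5) (nat_lit 89) (nat_lit 5) (nat_lit 84) (nat_lit 5) (nat_lit 336) (nat_lit 290) (nat_lit 154)) (XT.nd (nat_lit 78) (nat_lit 0) (nat_lit 0) (XT.lf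 (nat_lit 0) (nat_lit 6107696371) (nat_lit 304) (nat_lit 6144934391) (nat_lit 380) (nat_lit 10303658685) (nat_lit 79) (nat_lit 5) (nat_lit 83) (nat_lit 5) (nat_lit 84) (nat_lit 5) (nat_lit 337) (nat_lit 290) (nat_lit 153)) (XT.lf (nat_lit 0) (nat_lit 15754902060) (nat_lit 380) (nat_lit 6237272143) (nat_lit 76) (nat_lit 1009254282) (nat_lit 79) (nat_lit 5) (nat_lit 84) (nat_lit 5) (nat_lit 80) (nat_lit 5) (nat_lit 338) (nat_lit 290) (nat_lit 152)))) (XT.nd (nat_lit 78) (nat_lit 380) (nat_lit 0) (XT.lf (nat_lit 0) (nat_lit 4293292645) (nat_lit 304) (nat_lit 15163586314) (nat_lit 380) (nat_lit 4000213075) (nat_lit 75) (nat_lit 5) (nat_lit 79) (nat_lit 5) (nat_lit 80) (nat_lit 5) (nat_lit 339) (nat_lit 290) (nat_lit 151)) (XT.nd (nat_lit 78) (nat_lit 380) (nat_lit 0) (XT.lf (nat_lit 0) (nat_lit 15257698256) (nat_lit 304) (nat_lit 8067850077) (nat_lit 380) (nat_lit 599217353) (nat_lit 75) (nat_lit 5)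 (nat_lit 79) (nat_lit 5) (nat_lit 80) (nat_lit 5) (nat_lit 340) (nat_lit 290) (nat_lit 150)) (XT.lf (nat_lit 0) (nat_lit 2148786852) (nat_lit 304) (nat_lit 711796729) (nat_lit 380) (nat_lit 21544654060) (nat_lit 70) (nat_lit 5) (nat_lit 74) (nat_lit 5) (nat_lit 75) (nat_lit 5) (nat_lit 341) (nat_lit 290) (nat_lit 149))))))) (XT.nd (nat_lit 936) (nat_lit 1140) (nat_lit 0) (XT.nd (nat_lit 468) (nat_lit 760) (nat_lit 0) (XT.nd (nat_lit 234) (nat_lit 304) (nat_lit 0) (XT.nd (nat_lit 78) (nat_lit 304) (nat_lit 0) (XT.lf (nat_lit 0) (nat_lit 6559387351) (nat_lit 380) (nat_lit 11513401727) (nat_lit 76) (nat_lit 6822747528) (nat_lit 70) (nat_lit 5) (nat_lit 75) (nat_lit 5) (nat_lit 71) (nat_lit 5) (nat_lit 342) (nat_lit 290) (nat_lit 148)) (XT.nd (nat_lit 78) (nat_lit 304) (nat_lit 0) (XT.lf (nat_lit 0) (nat_lit 10369285805) (nat_lit 380) (nat_lit 464717774) (nat_lit 76) (nat_lit 14566545210) (nat_lit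 70) (nat_lit 5) (nat_lit 75) (nat_lit 5) (nat_lit 71) (nat_lit 5) (nat_lit 343) (nat_lit 290) (nat_lit 147)) (XT.lf (nat_lit 0) (nat_lit 11123150208) (nat_lit 304) (nat_lit 3270538070) (nat_lit 380) (nat_lit 11524024775) (nat_lit 66) (nat_lit 5) (nat_lit 70) (nat_lit 5) (nat_lit 71) (nat_lit 5) (nat_lit 344) (nat_lit 290) (nat_lit 146)))) (XT.nd (nat_lit 78) (nat_lit 304) (nat_lit 0) (XT.lf (nat_lit 0) (nat_lit 18580375480) (nat_lit 380) (nat_lit 3434983256) (nat_lit 76) (nat_lit 4433794628) (nat_lit 66) (nat_lit 5) (nat_lit 71) (nat_lit 5) (nat_lit 67) (nat_lit 5) (nat_lit 345) (nat_lit 290) (nat_lit 145)) (XT.nd (nat_lit 78) (nat_lit 76) (nat_lit 0) (XT.lf (nat_lit 0) (nat_lit 8387528946) (nat_lit 228) (nat_lit 14611701262) (nat_lit 304) (nat_lit 3994117139) (nat_lit 63) (nat_lit 5) (nat_lit 66) (nat_lit 5) (nat_lit 67) (nat_lit 5) (nat_lit 346) (nat_lit 290) (nat_lit 144)) (XT.lf (nat_lit 0)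 (nat_lit 25466179) (nat_lit 304) (nat_lit 6927197841) (nat_lit 76) (nat_lit 20600352503) (nat_lit 62) (nat_lit 5) (nat_lit 66) (nat_lit 5) (nat_lit 63) (nat_lit 5) (nat_lit 347) (nat_lit 290) (nat_lit 143))))) (XT.nd (nat_lit 234) (nat_lit 228) (nat_lit 0) (XT.nd (nat_lit 78) (nat_lit 228) (nat_lit 0) (XT.lf (nat_lit 0) (nat_lit 4138533067) (nat_lit 380) (nat_lit 22982966541) (nat_lit 76) (nat_lit 1005201416) (nat_lit 58) (nat_lit 5) (nat_lit 63) (nat_lit 5) (nat_lit 59) (nat_lit 5) (nat_lit 348) (nat_lit 290) (nat_lit 142)) (XT.nd (nat_lit 78) (nat_lit 228) (nat_lit 0) (XT.lf (nat_lit 0) (nat_lit 8508320902) (nat_lit 380) (nat_lit 11075231227) (nat_lit 76) (nat_lit 9130050704) (nat_lit 58) (nat_lit 5) (nat_lit 63) (nat_lit 5) (nat_lit 59) (nat_lit 5) (nat_lit 349) (nat_lit 290) (nat_lit 141)) (XT.lf (nat_lit 0) (nat_lit 1204504049) (nat_lit 228) (nat_lit 11810302948) (nat_lit 304) (nat_lit 16303143006)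 (nat_lit 55) (nat_lit 5) (nat_lit 58) (nat_lit 5) (nat_lit 59) (nat_lit 5) (nat_lit 350) (nat_lit 290) (nat_lit 140)))) (XT.nd (nat_lit 78) (nat_lit 228) (nat_lit 0) (XT.lf (nat_lit 0) (nat_lit 14071012106) (nat_lit 228) (nat_lit 3691430722) (nat_lit 304) (nat_lit 12174812363) (nat_lit 55) (nat_lit 5) (nat_lit 58) (nat_lit 5) (nat_lit 59) (nat_lit 5) (nat_lit 351) (nat_lit 290) (nat_lit 139)) (XT.nd (nat_lit 78) (nat_lit 228) (nat_lit 0) (XT.lf (nat_lit 0) (nat_lit 22691670871) (nat_lit 304) (nat_lit 3305075007) (nat_lit 76) (nat_lit 4577224838) (nat_lit 55) (nat_lit 5) (nat_lit 59) (nat_lit 5) (nat_lit 56) (nat_lit 5) (nat_lit 352) (nat_lit 290) (nat_lit 138)) (XT.lf (nat_lit 0) (nat_lit 9778899591) (nat_lit 228) (nat_lit 18114855412) (nat_lit 304) (nat_lit 3332289228) (nat_lit 52) (nat_lit 5) (nat_lit 55) (nat_lit 5) (nat_lit 56) (nat_lit 5) (nat_lit 353) (nat_lit 290) (nat_lit 137)))))) (XT.nd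 (nat_lit 468) (nat_lit 608) (nat_lit 0) (XT.nd (nat_lit 234) (nat_lit 228) (nat_lit 0) (XT.nd (nat_lit 78) (nat_lit 228) (nat_lit 0) (XT.lf (nat_lit 0) (nat_lit 1355954133) (nat_lit 304) (nat_lit 8595218360) (nat_lit 76) (nat_lit 21945277743) (nat_lit 51) (nat_lit 5) (nat_lit 55) (nat_lit 5) (nat_lit 52) (nat_lit 5) (nat_lit 354) (nat_lit 290) (nat_lit 136)) (XT.nd (nat_lit 78) (nat_lit 0) (nat_lit 0) (XT.lf (nat_lit 0) (nat_lit 4692752205) (nat_lit 228) (nat_lit 1464840994) (nat_lit 304) (nat_lit 26427199110) (nat_lit 48) (nat_lit 5) (nat_lit 51) (nat_lit 5) (nat_lit 52) (nat_lit 5) (nat_lit 355) (nat_lit 290) (nat_lit 135)) (XT.lf (nat_lit 0) (nat_lit 11255546089) (nat_lit 304) (nat_lit 14814578926) (nat_lit 76) (nat_lit 7219096930) (nat_lit 48) (nat_lit 5) (nat_lit 52) (nat_lit 5) (nat_lit 49) (nat_lit 5) (nat_lit 356) (nat_lit 290) (nat_lit 134)))) (XT.nd (nat_lit 78) (nat_lit 228) (nat_lit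 0) (XT.lf (nat_lit 0) (nat_lit 16515764542) (nat_lit 304) (nat_lit 1367211922) (nat_lit 76) (nat_lit 16131533286) (nat_lit 48) (nat_lit 5) (nat_lit 52) (nat_lit 5) (nat_lit 49) (nat_lit 5) (nat_lit 357) (nat_lit 290) (nat_lit 133)) (XT.nd (nat_lit 78) (nat_lit 0) (nat_lit 0) (XT.lf (nat_lit 0) (nat_lit 12724186693) (nat_lit 228) (nat_lit 9326889890) (nat_lit 304) (nat_lit 12706965934) (nat_lit 45) (nat_lit 5) (nat_lit 48) (nat_lit 5) (nat_lit 49) (nat_lit 5) (nat_lit 358) (nat_lit 290) (nat_lit 132)) (XT.lf (nat_lit 0) (nat_lit 27258744994) (nat_lit 228) (nat_lit 502556758) (nat_lit 304) (nat_lit 7762318700) (nat_lit 45) (nat_lit 5) (nat_lit 48) (nat_lit 5) (nat_lit 49) (nat_lit 5) (nat_lit 359) (nat_lit 290) (nat_lit 131))))) (XT.nd (nat_lit 234) (nat_lit 380) (nat_lit 0) (XT.nd (nat_lit 78) (nat_lit 76) (nat_lit 0) (XT.lf (nat_lit 0) (nat_lit 5943095494) (nat_lit 152) (nat_lit 27834572664) (nat_lit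 228) (nat_lit 2530457190) (nat_lit 43) (nat_lit 5) (nat_lit 45) (nat_lit 5) (nat_lit 46) (nat_lit 5) (nat_lit 360) (nat_lit 290) (nat_lit 130)) (XT.nd (nat_lit 78) (nat_lit 0) (nat_lit 0) (XT.lf (nat_lit 0) (nat_lit 2887029168) (nat_lit 228) (nat_lit 16407750497) (nat_lit 76) (nat_lit 17818032447) (nat_lit 42) (nat_lit 5) (nat_lit 45) (nat_lit 5) (nat_lit 43) (nat_lit 5) (nat_lit 361) (nat_lit 290) (nat_lit 129)) (XT.lf (nat_lit 0) (nat_lit 8411505416) (nat_lit 228) (nat_lit 2064125096) (nat_lit 76) (nat_lit 27465401859) (nat_lit 42) (nat_lit 5) (nat_lit 45) (nat_lit 5) (nat_lit 43) (nat_lit 5) (nat_lit 362) (nat_lit 290) (nat_lit 128)))) (XT.nd (nat_lit 78) (nat_lit 152) (nat_lit 0) (XT.lf (nat_lit 0) (nat_lit 12955512629) (nat_lit 228) (nat_lit 1266200782) (nat_lit 304) (nat_lit 24568790040) (nat_lit 39) (nat_lit 5) (nat_lit 42) (nat_lit 5) (nat_lit 43) (nat_lit 5) (nat_lit 363) (nat_lit 290)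 (nat_lit 127)) (XT.nd (nat_lit 78) (nat_lit 152) (nat_lit 0) (XT.lf (nat_lit 0) (nat_lit 20301789710) (nat_lit 304) (nat_lit 11283147795) (nat_lit 76) (nat_lit 8077658314) (nat_lit 39) (nat_lit 5) (nat_lit 43) (nat_lit 5) (nat_lit 40) (nat_lit 5) (nat_lit 364) (nat_lit 290) (nat_lit 126)) (XT.lf (nat_lit 0) (nat_lit 3759127100) (nat_lit 152) (nat_lit 22849445003) (nat_lit 228) (nat_lit 13950953641) (nat_lit 37) (nat_lit 5) (nat_lit 39) (nat_lit 5) (nat_lit 40) (nat_lit 5) (nat_lit 365) (nat_lit 290) (nat_lit 125))))))))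
noncomputable def xc186 : XT := (XT.nd (nat_lit 1794) (nat_lit 0) (nat_lit 0) (XT.nd (nat_lit 858) (nat_lit 608) (nat_lit 0) (XT.nd (nat_lit 390) (nat_lit 380) (nat_lit 0) (XT.nd (nat_lit 156) (nat_lit 228) (nat_lit 0) (XT.nd (nat_lit 78) (nat_lit 0) (nat_lit 0) (XT.lf (nat_lit 0) (nat_lit 19477090866) (nat_lit 152) (nat_lit 13737098057) (nat_lit 228) (nat_lit 8265889501) (nat_lit 37) (nat_lit 5) (nat_lit 39) (nat_lit 5) (nat_lit 40) (nat_lit 5) (nat_lit 366) (nat_lit 290) (nat_lit 124)) (XT.lf (nat_lit 0) (nat_lit 35659920881) (nat_lit 152) (nat_lit 4353872093) (nat_lit 228) (nat_lit 2414583824) (nat_lit 37) (nat_lit 5) (nat_lit 39) (nat_lit 5) (nat_lit 40) (nat_lit 5) (nat_lit 367) (nat_lit 290) (nat_lit 123))) (XT.nd (nat_lit 78) (nat_lit 0) (nat_lit 0) (XT.lf (nat_lit 0) (nat_lit 3676979768) (nat_lit 228) (nat_lit 34395239423) (nat_lit 76) (nat_lit 5327810492) (nat_lit 34) (nat_lit 5) (nat_lit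 37) (nat_lit 5) (nat_lit 35) (nat_lit 5) (nat_lit 368) (nat_lit 290) (nat_lit 122)) (XT.nd (nat_lit 78) (nat_lit 0) (nat_lit 0) (XT.lf (nat_lit 0) (nat_lit 10010822293) (nat_lit 228) (nat_lit 19083092566) (nat_lit 76) (nat_lit 15302961573) (nat_lit 34) (nat_lit 5) (nat_lit 37) (nat_lit 5) (nat_lit 35) (nat_lit 5) (nat_lit 369) (nat_lit 290) (nat_lit 121)) (XT.lf (nat_lit 0) (nat_lit 16530728904) (nat_lit 228) (nat_lit 3317989325) (nat_lit 76) (nat_lit 25575032155) (nat_lit 34) (nat_lit 5) (nat_lit 37) (nat_lit 5) (nat_lit 35) (nat_lit 5) (nat_lit 370) (nat_lit 290) (nat_lit 120))))) (XT.nd (nat_lit 234) (nat_lit 228) (nat_lit 0) (XT.nd (nat_lit 78) (nat_lit 0) (nat_lit 0) (XT.lf (nat_lit 0) (nat_lit 13170856480) (nat_lit 152) (nat_lit 10198146458) (nat_lit 228) (nat_lit 23108747682) (nat_lit 32) (nat_lit 5) (nat_lit 34) (nat_lit 5) (nat_lit 35) (nat_lit 5) (nat_lit 371) (nat_lit 290) (nat_lit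 119)) (XT.nd (nat_lit 78) (nat_lit 0) (nat_lit 0) (XT.lf (nat_lit 0) (nat_lit 30216222803) (nat_lit 152) (nat_lit 225923986) (nat_lit 228) (nat_lit 17120335506) (nat_lit 32) (nat_lit 5) (nat_lit 34) (nat_lit 5) (nat_lit 35) (nat_lit 5) (nat_lit 372) (nat_lit 290) (nat_lit 118)) (XT.lf (nat_lit 0) (nat_lit 37820352540) (nat_lit 228) (nat_lit 1009440927) (nat_lit 76) (nat_lit 9847179413) (nat_lit 32) (nat_lit 5) (nat_lit 35) (nat_lit 5) (nat_lit 33) (nat_lit 5) (nat_lit 373) (nat_lit 290) (nat_lit 117)))) (XT.nd (nat_lit 78) (nat_lit 76) (nat_lit 0) (XT.lf (nat_lit 0) (nat_lit 16123987277) (nat_lit 152) (nat_lit 29449559752) (nat_lit 228) (nat_lit 4246744779) (nat_lit 30) (nat_lit 5) (nat_lit 32) (nat_lit 5) (nat_lit 33) (nat_lit 5) (nat_lit 374) (nat_lit 290) (nat_lit 116)) (XT.nd (nat_lit 78) (nat_lit 0) (nat_lit 0) (XT.lf (nat_lit 0) (nat_lit 2518161330) (nat_lit 228) (nat_lit 17236127803) (nat_lit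 76) (nat_lit 31242683737) (nat_lit 29) (nat_lit 5) (nat_lit 32) (nat_lit 5) (nat_lit 30) (nat_lit 5) (nat_lit 375) (nat_lit 290) (nat_lit 115)) (XT.lf (nat_lit 0) (nat_lit 9397186103) (nat_lit 228) (nat_lit 329931828) (nat_lit 76) (nat_lit 42480681875) (nat_lit 29) (nat_lit 5) (nat_lit 32) (nat_lit 5) (nat_lit 30) (nat_lit 5) (nat_lit 376) (nat_lit 290) (nat_lit 114)))))) (XT.nd (nat_lit 468) (nat_lit 304) (nat_lit 0) (XT.nd (nat_lit 234) (nat_lit 152) (nat_lit 0) (XT.nd (nat_lit 78) (nat_lit 0) (nat_lit 0) (XT.lf (nat_lit 0) (nat_lit 16654052293) (nat_lit 228) (nat_lit 36039683510) (nat_lit 76) (nat_lit 756074205) (nat_lit 27) (nat_lit 5) (nat_lit 30) (nat_lit 5) (nat_lit 28) (nat_lit 5) (nat_lit 377) (nat_lit 290) (nat_lit 113)) (XT.nd (nat_lit 78) (nat_lit 0) (nat_lit 0) (XT.lf (nat_lit 0) (nat_lit 24224949345) (nat_lit 228) (nat_lit 19141770341) (nat_lit 76) (nat_lit 11359473586) (nat_lit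 27) (nat_lit 5) (nat_lit 30) (nat_lit 5) (nat_lit 28) (nat_lit 5) (nat_lit 378) (nat_lit 290) (nat_lit 112)) (XT.lf (nat_lit 0) (nat_lit 32019722945) (nat_lit 228) (nat_lit 1742355258) (nat_lit 76) (nat_lit 22278889773) (nat_lit 27) (nat_lit 5) (nat_lit 30) (nat_lit 5) (nat_lit 28) (nat_lit 5) (nat_lit 379) (nat_lit 290) (nat_lit 111)))) (XT.nd (nat_lit 78) (nat_lit 0) (nat_lit 0) (XT.lf (nat_lit 0) (nat_lit 16495654750) (nat_lit 152) (nat_lit 23708095635) (nat_lit 228) (nat_lit 17186775576) (nat_lit 25) (nat_lit 5) (nat_lit 27) (nat_lit 5) (nat_lit 28) (nat_lit 5) (nat_lit 380) (nat_lit 290) (nat_lit 110)) (XT.nd (nat_lit 78) (nat_lit 0) (nat_lit 0) (XT.lf (nat_lit 0) (nat_lit 35311296206) (nat_lit 152) (nat_lit 13336482806) (nat_lit 228) (nat_lit 10132359555) (nat_lit 25) (nat_lit 5) (nat_lit 27) (nat_lit 5) (nat_lit 28) (nat_lit 5) (nat_lit 381) (nat_lit 290) (nat_lit 109)) (XT.lf (nat_lit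 0) (nat_lit 54686333674) (nat_lit 152) (nat_lit 2655771515) (nat_lit 228) (nat_lit 2869427285) (nat_lit 25) (nat_lit 5) (nat_lit 27) (nat_lit 5) (nat_lit 28) (nat_lit 5) (nat_lit 382) (nat_lit 290) (nat_lit 108))))) (XT.nd (nat_lit 234) (nat_lit 152) (nat_lit 0) (XT.nd (nat_lit 78) (nat_lit 0) (nat_lit 0) (XT.lf (nat_lit 0) (nat_lit 4726878254) (nat_lit 152) (nat_lit 48598402946) (nat_lit 76) (nat_lit 8353095162) (nat_lit 23) (nat_lit 5) (nat_lit 25) (nat_lit 5) (nat_lit 24) (nat_lit 5) (nat_lit 383) (nat_lit 290) (nat_lit 107)) (XT.nd (nat_lit 78) (nat_lit 0) (nat_lit 0) (XT.lf (nat_lit 0) (nat_lit 12573094348) (nat_lit 152) (nat_lit 30891255401) (nat_lit 76) (nat_lit 19721634728) (nat_lit 23) (nat_lit 5) (nat_lit 25) (nat_lit 5) (nat_lit 24) (nat_lit 5) (nat_lit 384) (nat_lit 290) (nat_lit 106)) (XT.lf (nat_lit 0) (nat_lit 20651835937) (nat_lit 152) (nat_lit 12657755807) (nat_lit 76) (nat_lit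 31429316896) (nat_lit 23) (nat_lit 5) (nat_lit 25) (nat_lit 5) (nat_lit 24) (nat_lit 5) (nat_lit 385) (nat_lit 290) (nat_lit 105)))) (XT.nd (nat_lit 78) (nat_lit 0) (nat_lit 0) (XT.lf (nat_lit 0) (nat_lit 6239788770) (nat_lit 152) (nat_lit 22790354011) (nat_lit 228) (nat_lit 37306563575) (nat_lit 21) (nat_lit 5) (nat_lit 23) (nat_lit 5) (nat_lit 24) (nat_lit 5) (nat_lit 386) (nat_lit 290) (nat_lit 104)) (XT.nd (nat_lit 78) (nat_lit 0) (nat_lit 0) (XT.lf (nat_lit 0) (nat_lit 25959056797) (nat_lit 152) (nat_lit 11825818860) (nat_lit 228) (nat_lit 30193811906) (nat_lit 21) (nat_lit 5) (nat_lit 23) (nat_lit 5) (nat_lit 24) (nat_lit 5) (nat_lit 387) (nat_lit 290) (nat_lit 103)) (XT.lf (nat_lit 0) (nat_lit 46265364539) (nat_lit 152) (nat_lit 534224145) (nat_lit 228) (nat_lit 22870421185) (nat_lit 21) (nat_lit 5) (nat_lit 23) (nat_lit 5) (nat_lit 24) (nat_lit 5) (nat_lit 388) (nat_lit 290) (nat_lit 102)))))))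 (XT.nd (nat_lit 33852) (nat_lit 0) (nat_lit 9804) (XT.nd (nat_lit 33384) (nat_lit 0) (nat_lit 12236) (XT.nd (nat_lit 33150) (nat_lit 0) (nat_lit 12160) (XT.nd (nat_lit 32994) (nat_lit 0) (nat_lit 13224) (XT.lf (nat_lit 0) (nat_lit 56188803962) (nat_lit 228) (nat_lit 4342340922) (nat_lit 76) (nat_lit 10877806890) (nat_lit 21) (nat_lit 5) (nat_lit 24) (nat_lit 5) (nat_lit 22) (nat_lit 4) (nat_lit 389) (nat_lit 290) (nat_lit 101)) (XT.nd (nat_lit 78) (nat_lit 0) (nat_lit 0) (XT.lf (nat_lit 0) (nat_lit 2316542885) (nat_lit 0) (nat_lit 2316542885) (nat_lit 988) (nat_lit 700127581) (nat_lit 195) (nat_lit 5) (nat_lit 195) (nat_lit 3) (nat_lit 208) (nat_lit 3) (nat_lit 291) (nat_lit 291) (nat_lit 198)) (XT.lf (nat_lit 0) (nat_lit 9442221244) (nat_lit 0) (nat_lit 528107469) (nat_lit 988) (nat_lit 838076112) (nat_lit 195) (nat_lit 5) (nat_lit 195) (nat_lit 3) (nat_lit 208) (nat_lit 3) (nat_lit 292) (nat_lit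 291) (nat_lit 197)))) (XT.nd (nat_lit 78) (nat_lit 1064) (nat_lit 0) (XT.lf (nat_lit 76) (nat_lit 3461122996) (nat_lit 0) (nat_lit 7281374113) (nat_lit 1064) (nat_lit 210780087) (nat_lit 196) (nat_lit 5) (nat_lit 195) (nat_lit 5) (nat_lit 209) (nat_lit 5) (nat_lit 293) (nat_lit 291) (nat_lit 196)) (XT.nd (nat_lit 78) (nat_lit 0) (nat_lit 76) (XT.lf (nat_lit 0) (nat_lit 424325283) (nat_lit 1064) (nat_lit 2662569816) (nat_lit 1140) (nat_lit 8015589652) (nat_lit 181) (nat_lit 5) (nat_lit 195) (nat_lit 5) (nat_lit 196) (nat_lit 5) (nat_lit 294) (nat_lit 291) (nat_lit 195)) (XT.lf (nat_lit 0) (nat_lit 1087920739) (nat_lit 1064) (nat_lit 8924575477) (nat_lit 1140) (nat_lit 1243237485) (nat_lit 182) (nat_lit 5) (nat_lit 196) (nat_lit 5) (nat_lit 197) (nat_lit 5) (nat_lit 295) (nat_lit 291) (nat_lit 194))))) (XT.nd (nat_lit 234) (nat_lit 0) (nat_lit 76) (XT.nd (nat_lit 78) (nat_lit 0) (nat_lit 0) (XT.lf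 (nat_lit 0) (nat_lit 1808680999) (nat_lit 1064) (nat_lit 3926783779) (nat_lit 1140) (nat_lit 5677034504) (nat_lit 182) (nat_lit 5) (nat_lit 196) (nat_lit 5) (nat_lit 197) (nat_lit 5) (nat_lit 296) (nat_lit 291) (nat_lit 193)) (XT.nd (nat_lit 78) (nat_lit 0) (nat_lit 76) (XT.lf (nat_lit 76) (nat_lit 1232904033) (nat_lit 0) (nat_lit 1310148048) (nat_lit 1140) (nat_lit 9031191907) (nat_lit 183) (nat_lit 5) (nat_lit 182) (nat_lit 5) (nat_lit 197) (nat_lit 5) (nat_lit 297) (nat_lit 291) (nat_lit 192)) (XT.lf (nat_lit 0) (nat_lit 3351392136) (nat_lit 1064) (nat_lit 5156052979) (nat_lit 1140) (nat_lit 3231872540) (nat_lit 183) (nat_lit 5) (nat_lit 197) (nat_lit 5) (nat_lit 198) (nat_lit 5) (nat_lit 298) (nat_lit 291) (nat_lit 191)))) (XT.nd (nat_lit 78) (nat_lit 0) (nat_lit 76) (XT.lf (nat_lit 76) (nat_lit 162699036) (nat_lit 0) (nat_lit 4017053400) (nat_lit 1140) (nat_lit 7729751738) (nat_lit 184) (nat_lit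 5) (nat_lit 183) (nat_lit 5) (nat_lit 198) (nat_lit 5) (nat_lit 299) (nat_lit 291) (nat_lit 190)) (XT.nd (nat_lit 78) (nat_lit 0) (nat_lit 0) (XT.lf (nat_lit 0) (nat_lit 5073113086) (nat_lit 1064) (nat_lit 6355705274) (nat_lit 1140) (nat_lit 654806202) (nat_lit 184) (nat_lit 5) (nat_lit 198) (nat_lit 5) (nat_lit 199) (nat_lit 5) (nat_lit 300) (nat_lit 291) (nat_lit 189)) (XT.lf (nat_lit 0) (nat_lit 6015302760) (nat_lit 1064) (nat_lit 855090029) (nat_lit 1140) (nat_lit 5391946729) (nat_lit 184) (nat_lit 5) (nat_lit 198) (nat_lit 5) (nat_lit 199) (nat_lit 5) (nat_lit 301) (nat_lit 291) (nat_lit 188)))))) (XT.nd (nat_lit 468) (nat_lit 2584) (nat_lit 0) (XT.nd (nat_lit 234) (nat_lit 0) (nat_lit 76) (XT.nd (nat_lit 78) (nat_lit 0) (nat_lit 76) (XT.lf (nat_lit 76) (nat_lit 4893960120) (nat_lit 0) (nat_lit 2121613976) (nat_lit 1140) (nat_lit 5429978230) (nat_lit 185) (nat_lit 5) (nat_lit 184) (nat_lit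 5) (nat_lit 199) (nat_lit 5) (nat_lit 302) (nat_lit 291) (nat_lit 187)) (XT.nd (nat_lit 78) (nat_lit 0) (nat_lit 0) (XT.lf (nat_lit 0) (nat_lit 8064403049) (nat_lit 1064) (nat_lit 1840247025) (nat_lit 1140) (nat_lit 2729084941) (nat_lit 185) (nat_lit 5) (nat_lit 199) (nat_lit 5) (nat_lit 200) (nat_lit 5) (nat_lit 303) (nat_lit 291) (nat_lit 186)) (XT.lf (nat_lit 76) (nat_lit 4089043846) (nat_lit 0) (nat_lit 5099660531) (nat_lit 1140) (nat_lit 3637567686) (nat_lit 186) (nat_lit 5) (nat_lit 185) (nat_lit 5) (nat_lit 200) (nat_lit 5) (nat_lit 304) (nat_lit 291) (nat_lit 185)))) (XT.nd (nat_lit 78) (nat_lit 0) (nat_lit 76) (XT.lf (nat_lit 76) (nat_lit 10221875560) (nat_lit 0) (nat_lit 127496073) (nat_lit 1140) (nat_lit 2675162742) (nat_lit 186) (nat_lit 5) (nat_lit 185) (nat_lit 5) (nat_lit 200) (nat_lit 5) (nat_lit 305) (nat_lit 291) (nat_lit 184)) (XT.nd (nat_lit 78) (nat_lit 0) (nat_lit 0) (XT.lf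 (nat_lit 76) (nat_lit 3314381419) (nat_lit 0) (nat_lit 8294895836) (nat_lit 1140) (nat_lit 1617562189) (nat_lit 187) (nat_lit 5) (nat_lit 186) (nat_lit 5) (nat_lit 201) (nat_lit 5) (nat_lit 306) (nat_lit 291) (nat_lit 183)) (XT.lf (nat_lit 76) (nat_lit 9658979154) (nat_lit 0) (nat_lit 3262440292) (nat_lit 1140) (nat_lit 513387673) (nat_lit 187) (nat_lit 5) (nat_lit 186) (nat_lit 5) (nat_lit 201) (nat_lit 5) (nat_lit 307) (nat_lit 291) (nat_lit 182))))) (XT.nd (nat_lit 234) (nat_lit 532) (nat_lit 0) (XT.nd (nat_lit 78) (nat_lit 1140) (nat_lit 0) (XT.lf (nat_lit 0) (nat_lit 640464520) (nat_lit 1140) (nat_lit 11090251325) (nat_lit 76) (nat_lit 1917281346) (nat_lit 172) (nat_lit 5) (nat_lit 187) (nat_lit 5) (nat_lit 173) (nat_lit 5) (nat_lit 308) (nat_lit 291) (nat_lit 181)) (XT.nd (nat_lit 78) (nat_lit 1140) (nat_lit 0) (XT.lf (nat_lit 0) (nat_lit 1874920524) (nat_lit 1140) (nat_lit 4757925160) (nat_lit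 76) (nat_lit 7232919964) (nat_lit 172) (nat_lit 5) (nat_lit 187) (nat_lit 5) (nat_lit 173) (nat_lit 5) (nat_lit 309) (nat_lit 291) (nat_lit 180)) (XT.lf (nat_lit 0) (nat_lit 1787155516) (nat_lit 1140) (nat_lit 1362355739) (nat_lit 1216) (nat_lit 10940486536) (nat_lit 157) (nat_lit 5) (nat_lit 172) (nat_lit 5) (nat_lit 173) (nat_lit 5) (nat_lit 310) (nat_lit 291) (nat_lit 179)))) (XT.nd (nat_lit 78) (nat_lit 532) (nat_lit 0) (XT.lf (nat_lit 0) (nat_lit 4536182612) (nat_lit 1216) (nat_lit 5745381579) (nat_lit 76) (nat_lit 4037200400) (nat_lit 157) (nat_lit 5) (nat_lit 173) (nat_lit 5) (nat_lit 158) (nat_lit 5) (nat_lit 311) (nat_lit 291) (nat_lit 178)) (XT.nd (nat_lit 78) (nat_lit 0) (nat_lit 0) (XT.lf (nat_lit 0) (nat_lit 1002820291) (nat_lit 532) (nat_lit 4971397370) (nat_lit 608) (nat_lit 8579906133) (nat_lit 150) (nat_lit 5) (nat_lit 157) (nat_lit 5) (nat_lit 158) (nat_lit 5) (nat_lit 312) (nat_lit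 291) (nat_lit 177)) (XT.lf (nat_lit 0) (nat_lit 7505693702) (nat_lit 608) (nat_lit 6741292316) (nat_lit 76) (nat_lit 548070416) (nat_lit 150) (nat_lit 5) (nat_lit 158) (nat_lit 5) (nat_lit 151) (nat_lit 5) (nat_lit 313) (nat_lit 291) (nat_lit 176))))))))
noncomputable def xc187 : XT := (XT.nd (nat_lit 1872) (nat_lit 3040) (nat_lit 0) (XT.nd (nat_lit 936) (nat_lit 2052) (nat_lit 0) (XT.nd (nat_lit 468) (nat_lit 1292) (nat_lit 0) (XT.nd (nat_lit 234) (nat_lit 1140) (nat_lit 0) (XT.nd (nat_lit 78) (nat_lit 0) (nat_lit 0) (XT.lf (nat_lit 0) (nat_lit 216002992) (nat_lit 608) (nat_lit 8905710720) (nat_lit 684) (nat_lit 5920366378) (nat_lit 142) (nat_lit 5) (nat_lit 150) (nat_lit 5) (nat_lit 151) (nat_lit 5) (nat_lit 314) (nat_lit 291) (nat_lit 175)) (XT.nd (nat_lit 78) (nat_lit 0) (nat_lit 0) (XT.lf (nat_lit 0) (nat_lit 7508315329) (nat_lit 608) (nat_lit 3333529955) (nat_lit 684) (nat_lit 4453020658)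 (nat_lit 142) (nat_lit 5) (nat_lit 150) (nat_lit 5) (nat_lit 151) (nat_lit 5) (nat_lit 315) (nat_lit 291) (nat_lit 174)) (XT.lf (nat_lit 0) (nat_lit 12624631664) (nat_lit 684) (nat_lit 570897242) (nat_lit 76) (nat_lit 2359394756) (nat_lit 142) (nat_lit 5) (nat_lit 151) (nat_lit 5) (nat_lit 143) (nat_lit 5) (nat_lit 316) (nat_lit 291) (nat_lit 173)))) (XT.nd (nat_lit 78) (nat_lit 608) (nat_lit 0) (XT.lf (nat_lit 0) (nat_lit 6952299713) (nat_lit 532) (nat_lit 7596713320) (nat_lit 608) (nat_lit 1271145984) (nat_lit 135) (nat_lit 5) (nat_lit 142) (nat_lit 5) (nat_lit 143) (nat_lit 5) (nat_lit 317) (nat_lit 291) (nat_lit 172)) (XT.nd (nat_lit 78) (nat_lit 532) (nat_lit 0) (XT.lf (nat_lit 0) (nat_lit 423429357) (nat_lit 608) (nat_lit 1396269391) (nat_lit 76) (nat_lit 14273718652) (nat_lit 134) (nat_lit 5) (nat_lit 142) (nat_lit 5) (nat_lit 135) (nat_lit 5) (nat_lit 318) (nat_lit 291) (nat_lit 171))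 (XT.lf (nat_lit 0) (nat_lit 2233970749) (nat_lit 608) (nat_lit 10013047655) (nat_lit 76) (nat_lit 4124774845) (nat_lit 127) (nat_lit 5) (nat_lit 135) (nat_lit 5) (nat_lit 128) (nat_lit 5) (nat_lit 319) (nat_lit 291) (nat_lit 170))))) (XT.nd (nat_lit 234) (nat_lit 836) (nat_lit 0) (XT.nd (nat_lit 78) (nat_lit 456) (nat_lit 0) (XT.lf (nat_lit 0) (nat_lit 4120016898) (nat_lit 608) (nat_lit 2312835867) (nat_lit 76) (nat_lit 10225049051) (nat_lit 127) (nat_lit 5) (nat_lit 135) (nat_lit 5) (nat_lit 128) (nat_lit 5) (nat_lit 320) (nat_lit 291) (nat_lit 169)) (XT.nd (nat_lit 78) (nat_lit 0) (nat_lit 0) (XT.lf (nat_lit 0) (nat_lit 5718697727) (nat_lit 456) (nat_lit 388173190) (nat_lit 532) (nat_lit 10844412528) (nat_lit 121) (nat_lit 5) (nat_lit 127) (nat_lit 5) (nat_lit 128) (nat_lit 5) (nat_lit 321) (nat_lit 291) (nat_lit 168)) (XT.lf (nat_lit 0) (nat_lit 8222488325) (nat_lit 532) (nat_lit 3282018518)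 (nat_lit 76) (nat_lit 5746901061) (nat_lit 121) (nat_lit 5) (nat_lit 128) (nat_lit 5) (nat_lit 122) (nat_lit 5) (nat_lit 322) (nat_lit 291) (nat_lit 167)))) (XT.nd (nat_lit 78) (nat_lit 380) (nat_lit 0) (XT.lf (nat_lit 0) (nat_lit 4989426157) (nat_lit 456) (nat_lit 5453714431) (nat_lit 532) (nat_lit 7116164166) (nat_lit 115) (nat_lit 5) (nat_lit 121) (nat_lit 5) (nat_lit 122) (nat_lit 5) (nat_lit 323) (nat_lit 291) (nat_lit 166)) (XT.nd (nat_lit 78) (nat_lit 380) (nat_lit 0) (XT.lf (nat_lit 0) (nat_lit 12761310892) (nat_lit 532) (nat_lit 4318319924) (nat_lit 76) (nat_lit 795895930) (nat_lit 115) (nat_lit 5) (nat_lit 122) (nat_lit 5) (nat_lit 116) (nat_lit 5) (nat_lit 324) (nat_lit 291) (nat_lit 165)) (XT.lf (nat_lit 0) (nat_lit 4197675370) (nat_lit 380) (nat_lit 11035935609) (nat_lit 456) (nat_lit 2965101626) (nat_lit 110) (nat_lit 5) (nat_lit 115) (nat_lit 5) (nat_lit 116) (nat_lit 5) (nat_lit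 325) (nat_lit 291) (nat_lit 164)))))) (XT.nd (nat_lit 468) (nat_lit 760) (nat_lit 0) (XT.nd (nat_lit 234) (nat_lit 760) (nat_lit 0) (XT.nd (nat_lit 78) (nat_lit 532) (nat_lit 0) (XT.lf (nat_lit 0) (nat_lit 13046755203) (nat_lit 380) (nat_lit 4767347734) (nat_lit 456) (nat_lit 716484735) (nat_lit 110) (nat_lit 5) (nat_lit 115) (nat_lit 5) (nat_lit 116) (nat_lit 5) (nat_lit 326) (nat_lit 291) (nat_lit 163)) (XT.nd (nat_lit 78) (nat_lit 0) (nat_lit 0) (XT.lf (nat_lit 0) (nat_lit 1607648109) (nat_lit 532) (nat_lit 15560340940) (nat_lit 76) (nat_lit 1702804016) (nat_lit 103) (nat_lit 5) (nat_lit 110) (nat_lit 5) (nat_lit 104) (nat_lit 5) (nat_lit 327) (nat_lit 291) (nat_lit 162)) (XT.lf (nat_lit 0) (nat_lit 4080976998) (nat_lit 532) (nat_lit 6804378419) (nat_lit 76) (nat_lit 8332833307) (nat_lit 103) (nat_lit 5) (nat_lit 110) (nat_lit 5) (nat_lit 104) (nat_lit 5) (nat_lit 328) (nat_lit 291) (nat_lit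 161)))) (XT.nd (nat_lit 78) (nat_lit 380) (nat_lit 0) (XT.lf (nat_lit 0) (nat_lit 2247468818) (nat_lit 380) (nat_lit 4393657484) (nat_lit 456) (nat_lit 12934514058) (nat_lit 98) (nat_lit 5) (nat_lit 103) (nat_lit 5) (nat_lit 104) (nat_lit 5) (nat_lit 329) (nat_lit 291) (nat_lit 160)) (XT.nd (nat_lit 78) (nat_lit 380) (nat_lit 0) (XT.lf (nat_lit 0) (nat_lit 9360671208) (nat_lit 456) (nat_lit 8264926118) (nat_lit 76) (nat_lit 2315752834) (nat_lit 98) (nat_lit 5) (nat_lit 104) (nat_lit 5) (nat_lit 99) (nat_lit 5) (nat_lit 330) (nat_lit 291) (nat_lit 159)) (XT.lf (nat_lit 0) (nat_lit 1036448255) (nat_lit 380) (nat_lit 11170236433) (nat_lit 456) (nat_lit 8110012093) (nat_lit 93) (nat_lit 5) (nat_lit 98) (nat_lit 5) (nat_lit 99) (nat_lit 5) (nat_lit 331) (nat_lit 291) (nat_lit 158))))) (XT.nd (nat_lit 234) (nat_lit 380) (nat_lit 0) (XT.nd (nat_lit 78) (nat_lit 380) (nat_lit 0) (XT.lf (nat_lit 0) (nat_lit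 10775897912) (nat_lit 380) (nat_lit 4437208008) (nat_lit 456) (nat_lit 5487958702) (nat_lit 93) (nat_lit 5) (nat_lit 98) (nat_lit 5) (nat_lit 99) (nat_lit 5) (nat_lit 332) (nat_lit 291) (nat_lit 157)) (XT.nd (nat_lit 78) (nat_lit 380) (nat_lit 0) (XT.lf (nat_lit 0) (nat_lit 18325525416) (nat_lit 456) (nat_lit 323767815) (nat_lit 76) (nat_lit 2447207401) (nat_lit 93) (nat_lit 5) (nat_lit 99) (nat_lit 5) (nat_lit 94) (nat_lit 5) (nat_lit 333) (nat_lit 291) (nat_lit 156)) (XT.lf (nat_lit 0) (nat_lit 157468422) (nat_lit 380) (nat_lit 11800460001) (nat_lit 76) (nat_lit 9541959390) (nat_lit 88) (nat_lit 5) (nat_lit 93) (nat_lit 5) (nat_lit 89) (nat_lit 5) (nat_lit 334) (nat_lit 291) (nat_lit 155)))) (XT.nd (nat_lit 78) (nat_lit 380) (nat_lit 0) (XT.lf (nat_lit 0) (nat_lit 3113456055) (nat_lit 380) (nat_lit 1922883860) (nat_lit 76) (nat_lit 16878362440) (nat_lit 88) (nat_lit 5) (nat_lit 93) (nat_lit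 5) (nat_lit 89) (nat_lit 5) (nat_lit 335) (nat_lit 291) (nat_lit 154)) (XT.nd (nat_lit 78) (nat_lit 0) (nat_lit 0) (XT.lf (nat_lit 0) (nat_lit 6252130790) (nat_lit 456) (nat_lit 13955439742) (nat_lit 76) (nat_lit 2131580619) (nat_lit 83) (nat_lit 5) (nat_lit 89) (nat_lit 5) (nat_lit 84) (nat_lit 5) (nat_lit 336) (nat_lit 291) (nat_lit 153)) (XT.lf (nat_lit 0) (nat_lit 9546863438) (nat_lit 456) (nat_lit 3796805636) (nat_lit 76) (nat_lit 9430817160) (nat_lit 83) (nat_lit 5) (nat_lit 89) (nat_lit 5) (nat_lit 84) (nat_lit 5) (nat_lit 337) (nat_lit 291) (nat_lit 152))))))) (XT.nd (nat_lit 936) (nat_lit 1140) (nat_lit 0) (XT.nd (nat_lit 468) (nat_lit 912) (nat_lit 0) (XT.nd (nat_lit 234) (nat_lit 380) (nat_lit 0) (XT.nd (nat_lit 78) (nat_lit 304) (nat_lit 0) (XT.lf (nat_lit 0) (nat_lit 6789443393) (nat_lit 304) (nat_lit 6208902945) (nat_lit 380) (nat_lit 10222807246) (nat_lit 79) (nat_lit 5) (nat_lit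 83) (nat_lit 5) (nat_lit 84) (nat_lit 5) (nat_lit 338) (nat_lit 291) (nat_lit 151)) (XT.nd (nat_lit 78) (nat_lit 304) (nat_lit 0) (XT.lf (nat_lit 0) (nat_lit 16595795543) (nat_lit 380) (nat_lit 5930037378) (nat_lit 76) (nat_lit 1154124571) (nat_lit 79) (nat_lit 5) (nat_lit 84) (nat_lit 5) (nat_lit 80) (nat_lit 5) (nat_lit 339) (nat_lit 291) (nat_lit 150)) (XT.lf (nat_lit 0) (nat_lit 4911597756) (nat_lit 304) (nat_lit 15491213804) (nat_lit 380) (nat_lit 3746673580) (nat_lit 75) (nat_lit 5) (nat_lit 79) (nat_lit 5) (nat_lit 80) (nat_lit 5) (nat_lit 340) (nat_lit 291) (nat_lit 149)))) (XT.nd (nat_lit 78) (nat_lit 380) (nat_lit 0) (XT.lf (nat_lit 0) (nat_lit 16190678070) (nat_lit 304) (nat_lit 8186312667) (nat_lit 380) (nat_lit 254527964) (nat_lit 75) (nat_lit 5) (nat_lit 79) (nat_lit 5) (nat_lit 80) (nat_lit 5) (nat_lit 341) (nat_lit 291) (nat_lit 148)) (XT.nd (nat_lit 78) (nat_lit 0) (nat_lit 0)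 (XT.lf (nat_lit 0) (nat_lit 2691270243) (nat_lit 304) (nat_lit 604957894) (nat_lit 380) (nat_lit 21830257383) (nat_lit 70) (nat_lit 5) (nat_lit 74) (nat_lit 5) (nat_lit 75) (nat_lit 5) (nat_lit 342) (nat_lit 291) (nat_lit 147)) (XT.lf (nat_lit 0) (nat_lit 7097003259) (nat_lit 380) (nat_lit 11385311771) (nat_lit 76) (nat_lit 7149460279) (nat_lit 70) (nat_lit 5) (nat_lit 75) (nat_lit 5) (nat_lit 71) (nat_lit 5) (nat_lit 343) (nat_lit 291) (nat_lit 146))))) (XT.nd (nat_lit 234) (nat_lit 608) (nat_lit 0) (XT.nd (nat_lit 78) (nat_lit 304) (nat_lit 0) (XT.lf (nat_lit 0) (nat_lit 11011271454) (nat_lit 380) (nat_lit 18958329) (nat_lit 76) (nat_lit 15122017610) (nat_lit 70) (nat_lit 5) (nat_lit 75) (nat_lit 5) (nat_lit 71) (nat_lit 5) (nat_lit 344) (nat_lit 291) (nat_lit 145)) (XT.nd (nat_lit 78) (nat_lit 0) (nat_lit 0) (XT.lf (nat_lit 0) (nat_lit 11912038821) (nat_lit 304) (nat_lit 3239104715) (nat_lit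 380) (nat_lit 11533952301) (nat_lit 66) (nat_lit 5) (nat_lit 70) (nat_lit 5) (nat_lit 71) (nat_lit 5) (nat_lit 345) (nat_lit 291) (nat_lit 144)) (XT.lf (nat_lit 0) (nat_lit 19455155597) (nat_lit 380) (nat_lit 3087452748) (nat_lit 76) (nat_lit 4690130331) (nat_lit 66) (nat_lit 5) (nat_lit 71) (nat_lit 5) (nat_lit 67) (nat_lit 5) (nat_lit 346) (nat_lit 291) (nat_lit 143)))) (XT.nd (nat_lit 78) (nat_lit 380) (nat_lit 0) (XT.lf (nat_lit 0) (nat_lit 9085317368) (nat_lit 228) (nat_lit 14916303633) (nat_lit 304) (nat_lit 3791796851) (nat_lit 63) (nat_lit 5) (nat_lit 66) (nat_lit 5) (nat_lit 67) (nat_lit 5) (nat_lit 347) (nat_lit 291) (nat_lit 142)) (XT.nd (nat_lit 78) (nat_lit 304) (nat_lit 0) (XT.lf (nat_lit 0) (nat_lit 332888044) (nat_lit 304) (nat_lit 6695406178) (nat_lit 76) (nat_lit 21341776084) (nat_lit 62) (nat_lit 5) (nat_lit 66) (nat_lit 5) (nat_lit 63) (nat_lit 5) (nat_lit 348) (nat_lit 291)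 (nat_lit 141)) (XT.lf (nat_lit 0) (nat_lit 4565881704) (nat_lit 380) (nat_lit 23229055544) (nat_lit 76) (nat_lit 1166141867) (nat_lit 58) (nat_lit 5) (nat_lit 63) (nat_lit 5) (nat_lit 59) (nat_lit 5) (nat_lit 349) (nat_lit 291) (nat_lit 140)))))) (XT.nd (nat_lit 468) (nat_lit 608) (nat_lit 0) (XT.nd (nat_lit 234) (nat_lit 304) (nat_lit 0) (XT.nd (nat_lit 78) (nat_lit 228) (nat_lit 0) (XT.lf (nat_lit 0) (nat_lit 9057932320) (nat_lit 380) (nat_lit 10977002733) (nat_lit 76) (nat_lit 9530927379) (nat_lit 58) (nat_lit 5) (nat_lit 63) (nat_lit 5) (nat_lit 59) (nat_lit 5) (nat_lit 350) (nat_lit 291) (nat_lit 139)) (XT.nd (nat_lit 78) (nat_lit 0) (nat_lit 0) (XT.lf (nat_lit 0) (nat_lit 1666904155) (nat_lit 228) (nat_lit 12028232717) (nat_lit 304) (nat_lit 16493346679) (nat_lit 55) (nat_lit 5) (nat_lit 58) (nat_lit 5) (nat_lit 59) (nat_lit 5) (nat_lit 351) (nat_lit 291) (nat_lit 138)) (XT.lf (nat_lit 0)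 (nat_lit 14906991969) (nat_lit 228) (nat_lit 3669766538) (nat_lit 304) (nat_lit 12249871669) (nat_lit 55) (nat_lit 5) (nat_lit 58) (nat_lit 5) (nat_lit 59) (nat_lit 5) (nat_lit 352) (nat_lit 291) (nat_lit 137)))) (XT.nd (nat_lit 78) (nat_lit 304) (nat_lit 0) (XT.lf (nat_lit 0) (nat_lit 23646901748) (nat_lit 304) (nat_lit 2995179303) (nat_lit 76) (nat_lit 4840583687) (nat_lit 55) (nat_lit 5) (nat_lit 59) (nat_lit 5) (nat_lit 56) (nat_lit 5) (nat_lit 353) (nat_lit 291) (nat_lit 136)) (XT.nd (nat_lit 78) (nat_lit 76) (nat_lit 0) (XT.lf (nat_lit 0) (nat_lit 10477304259) (nat_lit 228) (nat_lit 18523643029) (nat_lit 304) (nat_lit 3153484669) (nat_lit 52) (nat_lit 5) (nat_lit 55) (nat_lit 5) (nat_lit 56) (nat_lit 5) (nat_lit 354) (nat_lit 291) (nat_lit 135)) (XT.lf (nat_lit 0) (nat_lit 1662004957) (nat_lit 304) (nat_lit 8454287006) (nat_lit 76) (nat_lit 22728824603) (nat_lit 51) (nat_lit 5) (nat_lit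 55) (nat_lit 5) (nat_lit 52) (nat_lit 5) (nat_lit 355) (nat_lit 291) (nat_lit 134))))) (XT.nd (nat_lit 234) (nat_lit 380) (nat_lit 0) (XT.nd (nat_lit 78) (nat_lit 0) (nat_lit 0) (XT.lf (nat_lit 0) (nat_lit 5228412991) (nat_lit 228) (nat_lit 1375346728) (nat_lit 304) (nat_lit 26950474934) (nat_lit 48) (nat_lit 5) (nat_lit 51) (nat_lit 5) (nat_lit 52) (nat_lit 5) (nat_lit 356) (nat_lit 291) (nat_lit 133)) (XT.nd (nat_lit 78) (nat_lit 0) (nat_lit 0) (XT.lf (nat_lit 0) (nat_lit 11848281818) (nat_lit 304) (nat_lit 14869019261) (nat_lit 76) (nat_lit 7562694703) (nat_lit 48) (nat_lit 5) (nat_lit 52) (nat_lit 5) (nat_lit 49) (nat_lit 5) (nat_lit 357) (nat_lit 291) (nat_lit 132)) (XT.lf (nat_lit 0) (nat_lit 17258877620) (nat_lit 304) (nat_lit 1029590384) (nat_lit 76) (nat_lit 16738804396) (nat_lit 48) (nat_lit 5) (nat_lit 52) (nat_lit 5) (nat_lit 49) (nat_lit 5) (nat_lit 358) (nat_lit 291) (nat_lit 131))))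 (XT.nd (nat_lit 78) (nat_lit 152) (nat_lit 0) (XT.lf (nat_lit 0) (nat_lit 13480838053) (nat_lit 228) (nat_lit 9475802165) (nat_lit 304) (nat_lit 12836586287) (nat_lit 45) (nat_lit 5) (nat_lit 48) (nat_lit 5) (nat_lit 49) (nat_lit 5) (nat_lit 359) (nat_lit 291) (nat_lit 130)) (XT.nd (nat_lit 78) (nat_lit 152) (nat_lit 0) (XT.lf (nat_lit 0) (nat_lit 28440512936) (nat_lit 228) (nat_lit 390551498) (nat_lit 304) (nat_lit 7750927459) (nat_lit 45) (nat_lit 5) (nat_lit 48) (nat_lit 5) (nat_lit 49) (nat_lit 5) (nat_lit 360) (nat_lit 291) (nat_lit 129)) (XT.lf (nat_lit 0) (nat_lit 6487880895) (nat_lit 152) (nat_lit 28537849207) (nat_lit 228) (nat_lit 2364374267) (nat_lit 43) (nat_lit 5) (nat_lit 45) (nat_lit 5) (nat_lit 46) (nat_lit 5) (nat_lit 361) (nat_lit 291) (nat_lit 128))))))))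
noncomputable def xc188 : XT := (XT.nd (nat_lit 1794) (nat_lit 152) (nat_lit 0) (XT.nd (nat_lit 858) (nat_lit 684) (nat_lit 0) (XT.nd (nat_lit 390) (nat_lit 380) (nat_lit 0) (XT.nd (nat_lit 156) (nat_lit 380) (nat_lit 0) (XT.nd (nat_lit 78) (nat_lit 0) (nat_lit 0) (XT.lf (nat_lit 0) (nat_lit 3204003550) (nat_lit 228) (nat_lit 16539370337) (nat_lit 76) (nat_lit 18475701690) (nat_lit 42) (nat_lit 5) (nat_lit 45) (nat_lit 5) (nat_lit 43) (nat_lit 5) (nat_lit 362) (nat_lit 291) (nat_lit 127)) (XT.lf (nat_lit 0) (nat_lit 8887504468) (nat_lit 228) (nat_lit 1775939457) (nat_lit 76) (nat_lit 28408905924) (nat_lit 42) (nat_lit 5) (nat_lit 45) (nat_lit 5) (nat_lit 43) (nat_lit 5) (nat_lit 363) (nat_lit 291) (nat_lit 126))) (XT.nd (nat_lit 78) (nat_lit 152) (nat_lit 0) (XT.lf (nat_lit 0) (nat_lit 13690854956) (nat_lit 228) (nat_lit 1177982028) (nat_lit 304) (nat_lit 25078569468) (nat_lit 39) (nat_lit 5)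 (nat_lit 42) (nat_lit 5) (nat_lit 43) (nat_lit 5) (nat_lit 364) (nat_lit 291) (nat_lit 125)) (XT.nd (nat_lit 78) (nat_lit 152) (nat_lit 0) (XT.lf (nat_lit 0) (nat_lit 21126071875) (nat_lit 304) (nat_lit 11279626798) (nat_lit 76) (nat_lit 8440125993) (nat_lit 39) (nat_lit 5) (nat_lit 43) (nat_lit 5) (nat_lit 40) (nat_lit 5) (nat_lit 365) (nat_lit 291) (nat_lit 124)) (XT.lf (nat_lit 0) (nat_lit 4210563250) (nat_lit 152) (nat_lit 23408481128) (nat_lit 228) (nat_lit 14150714109) (nat_lit 37) (nat_lit 5) (nat_lit 39) (nat_lit 5) (nat_lit 40) (nat_lit 5) (nat_lit 366) (nat_lit 291) (nat_lit 123))))) (XT.nd (nat_lit 234) (nat_lit 152) (nat_lit 0) (XT.nd (nat_lit 78) (nat_lit 228) (nat_lit 0) (XT.lf (nat_lit 0) (nat_lit 20390201978) (nat_lit 152) (nat_lit 14026446703) (nat_lit 228) (nat_lit 8301469932) (nat_lit 37) (nat_lit 5) (nat_lit 39) (nat_lit 5) (nat_lit 40) (nat_lit 5) (nat_lit 367) (nat_lit 291)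 (nat_lit 122)) (XT.nd (nat_lit 78) (nat_lit 228) (nat_lit 0) (XT.lf (nat_lit 0) (nat_lit 37048940242) (nat_lit 152) (nat_lit 4365299619) (nat_lit 228) (nat_lit 2280811384) (nat_lit 37) (nat_lit 5) (nat_lit 39) (nat_lit 5) (nat_lit 40) (nat_lit 5) (nat_lit 368) (nat_lit 291) (nat_lit 121)) (XT.lf (nat_lit 0) (nat_lit 3987826577) (nat_lit 228) (nat_lit 35101865819) (nat_lit 76) (nat_lit 5606156285) (nat_lit 34) (nat_lit 5) (nat_lit 37) (nat_lit 5) (nat_lit 35) (nat_lit 5) (nat_lit 369) (nat_lit 291) (nat_lit 120)))) (XT.nd (nat_lit 78) (nat_lit 152) (nat_lit 0) (XT.lf (nat_lit 0) (nat_lit 10505843482) (nat_lit 228) (nat_lit 19339827298) (nat_lit 76) (nat_lit 15877110107) (nat_lit 34) (nat_lit 5) (nat_lit 37) (nat_lit 5) (nat_lit 35) (nat_lit 5) (nat_lit 370) (nat_lit 291) (nat_lit 119)) (XT.nd (nat_lit 78) (nat_lit 152) (nat_lit 0) (XT.lf (nat_lit 0) (nat_lit 17215676519) (nat_lit 228) (nat_lit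 3110967797) (nat_lit 76) (nat_lit 26453991554) (nat_lit 34) (nat_lit 5) (nat_lit 37) (nat_lit 5) (nat_lit 35) (nat_lit 5) (nat_lit 371) (nat_lit 291) (nat_lit 118)) (XT.lf (nat_lit 0) (nat_lit 13869537881) (nat_lit 152) (nat_lit 10386973252) (nat_lit 228) (nat_lit 23609827160) (nat_lit 32) (nat_lit 5) (nat_lit 34) (nat_lit 5) (nat_lit 35) (nat_lit 5) (nat_lit 372) (nat_lit 291) (nat_lit 117)))))) (XT.nd (nat_lit 468) (nat_lit 304) (nat_lit 0) (XT.nd (nat_lit 234) (nat_lit 228) (nat_lit 0) (XT.nd (nat_lit 78) (nat_lit 152) (nat_lit 0) (XT.lf (nat_lit 0) (nat_lit 31417423765) (nat_lit 152) (nat_lit 118995298) (nat_lit 228) (nat_lit 17447360180) (nat_lit 32) (nat_lit 5) (nat_lit 34) (nat_lit 5) (nat_lit 35) (nat_lit 5) (nat_lit 373) (nat_lit 291) (nat_lit 116)) (XT.nd (nat_lit 78) (nat_lit 152) (nat_lit 0) (XT.lf (nat_lit 0) (nat_lit 39131760093) (nat_lit 228) (nat_lit 749239900) (nat_lit 76) (nat_lit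 10250835170) (nat_lit 32) (nat_lit 5) (nat_lit 35) (nat_lit 5) (nat_lit 33) (nat_lit 5) (nat_lit 374) (nat_lit 291) (nat_lit 115)) (XT.lf (nat_lit 0) (nat_lit 16895343266) (nat_lit 152) (nat_lit 30219822661) (nat_lit 228) (nat_lit 4194363431) (nat_lit 30) (nat_lit 5) (nat_lit 32) (nat_lit 5) (nat_lit 33) (nat_lit 5) (nat_lit 375) (nat_lit 291) (nat_lit 114)))) (XT.nd (nat_lit 78) (nat_lit 152) (nat_lit 0) (XT.lf (nat_lit 0) (nat_lit 2764847398) (nat_lit 228) (nat_lit 17470416118) (nat_lit 76) (nat_lit 32286353444) (nat_lit 29) (nat_lit 5) (nat_lit 32) (nat_lit 5) (nat_lit 30) (nat_lit 5) (nat_lit 376) (nat_lit 291) (nat_lit 113)) (XT.nd (nat_lit 78) (nat_lit 152) (nat_lit 0) (XT.lf (nat_lit 0) (nat_lit 9845258217) (nat_lit 228) (nat_lit 65271027) (nat_lit 76) (nat_lit 43858392811) (nat_lit 29) (nat_lit 5) (nat_lit 32) (nat_lit 5) (nat_lit 30) (nat_lit 5) (nat_lit 377) (nat_lit 291) (nat_lit 112))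 (XT.lf (nat_lit 0) (nat_lit 17318641787) (nat_lit 228) (nat_lit 36845003305) (nat_lit 76) (nat_lit 884586829) (nat_lit 27) (nat_lit 5) (nat_lit 30) (nat_lit 5) (nat_lit 28) (nat_lit 5) (nat_lit 378) (nat_lit 291) (nat_lit 111))))) (XT.nd (nat_lit 234) (nat_lit 152) (nat_lit 0) (XT.nd (nat_lit 78) (nat_lit 152) (nat_lit 0) (XT.lf (nat_lit 0) (nat_lit 25111860860) (nat_lit 228) (nat_lit 19448187811) (nat_lit 76) (nat_lit 11803005753) (nat_lit 27) (nat_lit 5) (nat_lit 30) (nat_lit 5) (nat_lit 28) (nat_lit 5) (nat_lit 379) (nat_lit 291) (nat_lit 110)) (XT.nd (nat_lit 78) (nat_lit 152) (nat_lit 0) (XT.lf (nat_lit 0) (nat_lit 33135812725) (nat_lit 228) (nat_lit 1534591313) (nat_lit 76) (nat_lit 23047011767) (nat_lit 27) (nat_lit 5) (nat_lit 30) (nat_lit 5) (nat_lit 28) (nat_lit 5) (nat_lit 380) (nat_lit 291) (nat_lit 109)) (XT.lf (nat_lit 0) (nat_lit 17248009637) (nat_lit 152) (nat_lit 24315297387)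 (nat_lit 228) (nat_lit 17544218512) (nat_lit 25) (nat_lit 5) (nat_lit 27) (nat_lit 5) (nat_lit 28) (nat_lit 5) (nat_lit 381) (nat_lit 291) (nat_lit 108)))) (XT.nd (nat_lit 78) (nat_lit 152) (nat_lit 0) (XT.lf (nat_lit 0) (nat_lit 36620620766) (nat_lit 152) (nat_lit 13635566497) (nat_lit 228) (nat_lit 10282776621) (nat_lit 25) (nat_lit 5) (nat_lit 27) (nat_lit 5) (nat_lit 28) (nat_lit 5) (nat_lit 382) (nat_lit 291) (nat_lit 107)) (XT.nd (nat_lit 78) (nat_lit 152) (nat_lit 0) (XT.lf (nat_lit 0) (nat_lit 56569628222) (nat_lit 152) (nat_lit 2637375929) (nat_lit 228) (nat_lit 2806428822) (nat_lit 25) (nat_lit 5) (nat_lit 27) (nat_lit 5) (nat_lit 28) (nat_lit 5) (nat_lit 383) (nat_lit 291) (nat_lit 106)) (XT.lf (nat_lit 0) (nat_lit 5013890325) (nat_lit 152) (nat_lit 49809571343) (nat_lit 76) (nat_lit 8700809519) (nat_lit 23) (nat_lit 5) (nat_lit 25) (nat_lit 5) (nat_lit 24) (nat_lit 5) (nat_lit 384)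 (nat_lit 291) (nat_lit 105))))))) (XT.nd (nat_lit 33930) (nat_lit 0) (nat_lit 11400) (XT.nd (nat_lit 33462) (nat_lit 0) (nat_lit 12084) (XT.nd (nat_lit 234) (nat_lit 0) (nat_lit 0) (XT.nd (nat_lit 78) (nat_lit 152) (nat_lit 0) (XT.lf (nat_lit 0) (nat_lit 13091263609) (nat_lit 152) (nat_lit 31578397246) (nat_lit 76) (nat_lit 20407576491) (nat_lit 23) (nat_lit 5) (nat_lit 25) (nat_lit 5) (nat_lit 24) (nat_lit 5) (nat_lit 385) (nat_lit 291) (nat_lit 104)) (XT.nd (nat_lit 78) (nat_lit 152) (nat_lit 0) (XT.lf (nat_lit 0) (nat_lit 21408261336) (nat_lit 152) (nat_lit 12804871184) (nat_lit 76) (nat_lit 32463742734) (nat_lit 23) (nat_lit 5) (nat_lit 25) (nat_lit 5) (nat_lit 24) (nat_lit 5) (nat_lit 386) (nat_lit 291) (nat_lit 103)) (XT.lf (nat_lit 0) (nat_lit 6657319170) (nat_lit 152) (nat_lit 23378825840) (nat_lit 228) (nat_lit 38286517817) (nat_lit 21) (nat_lit 5) (nat_lit 23) (nat_lit 5) (nat_lit 24)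 (nat_lit 5) (nat_lit 387) (nat_lit 291) (nat_lit 102)))) (XT.nd (nat_lit 78) (nat_lit 0) (nat_lit 0) (XT.lf (nat_lit 0) (nat_lit 26961456400) (nat_lit 152) (nat_lit 12088128580) (nat_lit 228) (nat_lit 30964439210) (nat_lit 21) (nat_lit 5) (nat_lit 23) (nat_lit 5) (nat_lit 24) (nat_lit 5) (nat_lit 388) (nat_lit 291) (nat_lit 101)) (XT.nd (nat_lit 33072) (nat_lit 0) (nat_lit 13224) (XT.lf (nat_lit 0) (nat_lit 47870439940) (nat_lit 152) (nat_lit 460479174) (nat_lit 228) (nat_lit 23425284254) (nat_lit 21) (nat_lit 5) (nat_lit 23) (nat_lit 5) (nat_lit 24) (nat_lit 5) (nat_lit 389) (nat_lit 291) (nat_lit 100)) (XT.lf (nat_lit 0) (nat_lit 2665905117) (nat_lit 0) (nat_lit 2665905117) (nat_lit 988) (nat_lit 143554441) (nat_lit 195) (nat_lit 5) (nat_lit 195) (nat_lit 3) (nat_lit 208) (nat_lit 3) (nat_lit 292) (nat_lit 292) (nat_lit 196))))) (XT.nd (nat_lit 234) (nat_lit 0) (nat_lit 152) (XT.nd (nat_lit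 78) (nat_lit 0) (nat_lit 76) (XT.lf (nat_lit 0) (nat_lit 253250104) (nat_lit 1140) (nat_lit 831572281) (nat_lit 1140) (nat_lit 10013109469) (nat_lit 180) (nat_lit 3) (nat_lit 195) (nat_lit 3) (nat_lit 195) (nat_lit 5) (nat_lit 293) (nat_lit 292) (nat_lit 195)) (XT.nd (nat_lit 78) (nat_lit 0) (nat_lit 0) (XT.lf (nat_lit 0) (nat_lit 855214328) (nat_lit 1064) (nat_lit 7114062714) (nat_lit 1140) (nat_lit 3278691132) (nat_lit 181) (nat_lit 5) (nat_lit 195) (nat_lit 5) (nat_lit 196) (nat_lit 5) (nat_lit 294) (nat_lit 292) (nat_lit 194)) (XT.lf (nat_lit 0) (nat_lit 1474027224) (nat_lit 1064) (nat_lit 2159175861) (nat_lit 1140) (nat_lit 7769375680) (nat_lit 181) (nat_lit 5) (nat_lit 195) (nat_lit 5) (nat_lit 196) (nat_lit 5) (nat_lit 295) (nat_lit 292) (nat_lit 193)))) (XT.nd (nat_lit 78) (nat_lit 0) (nat_lit 0) (XT.lf (nat_lit 0) (nat_lit 2128700002) (nat_lit 1064) (nat_lit 8578394294) (nat_lit 1140)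 (nat_lit 854250309) (nat_lit 182) (nat_lit 5) (nat_lit 196) (nat_lit 5) (nat_lit 197) (nat_lit 5) (nat_lit 296) (nat_lit 292) (nat_lit 192)) (XT.nd (nat_lit 78) (nat_lit 0) (nat_lit 0) (XT.lf (nat_lit 0) (nat_lit 2841719722) (nat_lit 1064) (nat_lit 3448549964) (nat_lit 1140) (nat_lit 5433477286) (nat_lit 182) (nat_lit 5) (nat_lit 196) (nat_lit 5) (nat_lit 197) (nat_lit 5) (nat_lit 297) (nat_lit 292) (nat_lit 191)) (XT.lf (nat_lit 76) (nat_lit 1860084979) (nat_lit 0) (nat_lit 1715202156) (nat_lit 1140) (nat_lit 8315793306) (nat_lit 183) (nat_lit 5) (nat_lit 182) (nat_lit 5) (nat_lit 197) (nat_lit 5) (nat_lit 298) (nat_lit 292) (nat_lit 190)))))) (XT.nd (nat_lit 468) (nat_lit 912) (nat_lit 0) (XT.nd (nat_lit 234) (nat_lit 0) (nat_lit 76) (XT.nd (nat_lit 78) (nat_lit 0) (nat_lit 0) (XT.lf (nat_lit 0) (nat_lit 4376620970) (nat_lit 1064) (nat_lit 4704811751) (nat_lit 1140) (nat_lit 2980661170) (nat_lit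 183) (nat_lit 5) (nat_lit 197) (nat_lit 5) (nat_lit 198) (nat_lit 5) (nat_lit 299) (nat_lit 292) (nat_lit 189)) (XT.nd (nat_lit 78) (nat_lit 0) (nat_lit 76) (XT.lf (nat_lit 76) (nat_lit 767562404) (nat_lit 0) (nat_lit 4441104439) (nat_lit 1140) (nat_lit 7029402547) (nat_lit 184) (nat_lit 5) (nat_lit 183) (nat_lit 5) (nat_lit 198) (nat_lit 5) (nat_lit 300) (nat_lit 292) (nat_lit 188)) (XT.lf (nat_lit 0) (nat_lit 6099679320) (nat_lit 1064) (nat_lit 5933153021) (nat_lit 1140) (nat_lit 385502534) (nat_lit 184) (nat_lit 5) (nat_lit 198) (nat_lit 5) (nat_lit 199) (nat_lit 5) (nat_lit 301) (nat_lit 292) (nat_lit 187)))) (XT.nd (nat_lit 78) (nat_lit 0) (nat_lit 0) (XT.lf (nat_lit 0) (nat_lit 7044667515) (nat_lit 1064) (nat_lit 285380195) (nat_lit 1140) (nat_lit 5273173234) (nat_lit 184) (nat_lit 5) (nat_lit 198) (nat_lit 5) (nat_lit 199) (nat_lit 5) (nat_lit 302) (nat_lit 292) (nat_lit 186)) (XT.nd (nat_lit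 78) (nat_lit 0) (nat_lit 76) (XT.lf (nat_lit 76) (nat_lit 5630304571) (nat_lit 0) (nat_lit 2425583893) (nat_lit 1140) (nat_lit 4736657746) (nat_lit 185) (nat_lit 5) (nat_lit 184) (nat_lit 5) (nat_lit 199) (nat_lit 5) (nat_lit 303) (nat_lit 292) (nat_lit 185)) (XT.lf (nat_lit 0) (nat_lit 9109769148) (nat_lit 1064) (nat_lit 1295252056) (nat_lit 1140) (nat_lit 2582188596) (nat_lit 185) (nat_lit 5) (nat_lit 199) (nat_lit 5) (nat_lit 200) (nat_lit 5) (nat_lit 304) (nat_lit 292) (nat_lit 184))))) (XT.nd (nat_lit 234) (nat_lit 1064) (nat_lit 0) (XT.nd (nat_lit 78) (nat_lit 0) (nat_lit 0) (XT.lf (nat_lit 76) (nat_lit 4806033203) (nat_lit 0) (nat_lit 5444078271) (nat_lit 1140) (nat_lit 2935983902) (nat_lit 186) (nat_lit 5) (nat_lit 185) (nat_lit 5) (nat_lit 200) (nat_lit 5) (nat_lit 305) (nat_lit 292) (nat_lit 183)) (XT.nd (nat_lit 78) (nat_lit 0) (nat_lit 76) (XT.lf (nat_lit 76) (nat_lit 11105539635)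 (nat_lit 0) (nat_lit 317173309) (nat_lit 1140) (nat_lit 1968319746) (nat_lit 186) (nat_lit 5) (nat_lit 185) (nat_lit 5) (nat_lit 200) (nat_lit 5) (nat_lit 306) (nat_lit 292) (nat_lit 182)) (XT.lf (nat_lit 76) (nat_lit 4010932834) (nat_lit 0) (nat_lit 8691269062) (nat_lit 1140) (nat_lit 897790805) (nat_lit 187) (nat_lit 5) (nat_lit 186) (nat_lit 5) (nat_lit 201) (nat_lit 5) (nat_lit 307) (nat_lit 292) (nat_lit 181)))) (XT.nd (nat_lit 78) (nat_lit 0) (nat_lit 76) (XT.lf (nat_lit 0) (nat_lit 212894313) (nat_lit 1140) (nat_lit 3288498839) (nat_lit 1216) (nat_lit 10313432529) (nat_lit 171) (nat_lit 5) (nat_lit 186) (nat_lit 5) (nat_lit 187) (nat_lit 5) (nat_lit 308) (nat_lit 292) (nat_lit 180)) (XT.nd (nat_lit 78) (nat_lit 0) (nat_lit 0) (XT.lf (nat_lit 0) (nat_lit 1374198323) (nat_lit 1140) (nat_lit 10809391623) (nat_lit 76) (nat_lit 1851210409) (nat_lit 172) (nat_lit 5) (nat_lit 187) (nat_lit 5)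 (nat_lit 173) (nat_lit 5) (nat_lit 309) (nat_lit 292) (nat_lit 179)) (XT.lf (nat_lit 0) (nat_lit 2624876749) (nat_lit 1140) (nat_lit 4304966563) (nat_lit 76) (nat_lit 7329917875) (nat_lit 172) (nat_lit 5) (nat_lit 187) (nat_lit 5) (nat_lit 173) (nat_lit 5) (nat_lit 310) (nat_lit 292) (nat_lit 178))))))))
noncomputable def xc189 : XT := (XT.nd (nat_lit 1872) (nat_lit 3116) (nat_lit 0) (XT.nd (nat_lit 936) (nat_lit 2432) (nat_lit 0) (XT.nd (nat_lit 468) (nat_lit 1596) (nat_lit 0) (XT.nd (nat_lit 234) (nat_lit 608) (nat_lit 0) (XT.nd (nat_lit 78) (nat_lit 532) (nat_lit 0) (XT.lf (nat_lit 0) (nat_lit 2430626372) (nat_lit 1140) (nat_lit 1492543783) (nat_lit 1216) (nat_lit 10568020158) (nat_lit 157) (nat_lit 5) (nat_lit 172) (nat_lit 5) (nat_lit 173) (nat_lit 5) (nat_lit 311) (nat_lit 292) (nat_lit 177)) (XT.nd (nat_lit 78) (nat_lit 532) (nat_lit 0) (XT.lf (nat_lit 0) (nat_lit 5330826332) (nat_lit 1216)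 (nat_lit 5323352564) (nat_lit 76) (nat_lit 4073292657) (nat_lit 157) (nat_lit 5) (nat_lit 173) (nat_lit 5) (nat_lit 158) (nat_lit 5) (nat_lit 312) (nat_lit 292) (nat_lit 176)) (XT.lf (nat_lit 0) (nat_lit 1621468005) (nat_lit 532) (nat_lit 5177010748) (nat_lit 608) (nat_lit 8171850506) (nat_lit 150) (nat_lit 5) (nat_lit 157) (nat_lit 5) (nat_lit 158) (nat_lit 5) (nat_lit 313) (nat_lit 292) (nat_lit 175)))) (XT.nd (nat_lit 78) (nat_lit 608) (nat_lit 0) (XT.lf (nat_lit 0) (nat_lit 8356584633) (nat_lit 608) (nat_lit 6351760025) (nat_lit 76) (nat_lit 510755737) (nat_lit 150) (nat_lit 5) (nat_lit 158) (nat_lit 5) (nat_lit 151) (nat_lit 5) (nat_lit 314) (nat_lit 292) (nat_lit 174)) (XT.nd (nat_lit 78) (nat_lit 0) (nat_lit 0) (XT.lf (nat_lit 0) (nat_lit 808452465) (nat_lit 608) (nat_lit 9200040617) (nat_lit 684) (nat_lit 5465449622) (nat_lit 142) (nat_lit 5) (nat_lit 150) (nat_lit 5) (nat_lit 151) (nat_lit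 5) (nat_lit 315) (nat_lit 292) (nat_lit 173)) (XT.lf (nat_lit 0) (nat_lit 8302467103) (nat_lit 608) (nat_lit 3459903402) (nat_lit 684) (nat_lit 3972506668) (nat_lit 142) (nat_lit 5) (nat_lit 150) (nat_lit 5) (nat_lit 151) (nat_lit 5) (nat_lit 316) (nat_lit 292) (nat_lit 172))))) (XT.nd (nat_lit 234) (nat_lit 988) (nat_lit 0) (XT.nd (nat_lit 78) (nat_lit 608) (nat_lit 0) (XT.lf (nat_lit 0) (nat_lit 13581056441) (nat_lit 684) (nat_lit 17159576) (nat_lit 76) (nat_lit 2405076577) (nat_lit 142) (nat_lit 5) (nat_lit 151) (nat_lit 5) (nat_lit 143) (nat_lit 5) (nat_lit 317) (nat_lit 292) (nat_lit 171)) (XT.nd (nat_lit 78) (nat_lit 76) (nat_lit 0) (XT.lf (nat_lit 0) (nat_lit 7726136577) (nat_lit 532) (nat_lit 7825640574) (nat_lit 608) (nat_lit 725077238) (nat_lit 135) (nat_lit 5) (nat_lit 142) (nat_lit 5) (nat_lit 143) (nat_lit 5) (nat_lit 318) (nat_lit 292) (nat_lit 170)) (XT.lf (nat_lit 0) (nat_lit 992251867)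 (nat_lit 608) (nat_lit 877418101) (nat_lit 76) (nat_lit 14688998624) (nat_lit 134) (nat_lit 5) (nat_lit 142) (nat_lit 5) (nat_lit 135) (nat_lit 5) (nat_lit 319) (nat_lit 292) (nat_lit 169)))) (XT.nd (nat_lit 78) (nat_lit 456) (nat_lit 0) (XT.lf (nat_lit 0) (nat_lit 2846345126) (nat_lit 608) (nat_lit 9741092871) (nat_lit 76) (nat_lit 4258305925) (nat_lit 127) (nat_lit 5) (nat_lit 135) (nat_lit 5) (nat_lit 128) (nat_lit 5) (nat_lit 320) (nat_lit 292) (nat_lit 168)) (XT.nd (nat_lit 78) (nat_lit 456) (nat_lit 0) (XT.lf (nat_lit 0) (nat_lit 4773088525) (nat_lit 608) (nat_lit 1826545008) (nat_lit 76) (nat_lit 10541303275) (nat_lit 127) (nat_lit 5) (nat_lit 135) (nat_lit 5) (nat_lit 128) (nat_lit 5) (nat_lit 321) (nat_lit 292) (nat_lit 167)) (XT.lf (nat_lit 0) (nat_lit 6440486791) (nat_lit 456) (nat_lit 368929014) (nat_lit 532) (nat_lit 10634031873) (nat_lit 121) (nat_lit 5) (nat_lit 127) (nat_lit 5)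 (nat_lit 128) (nat_lit 5) (nat_lit 322) (nat_lit 292) (nat_lit 166)))))) (XT.nd (nat_lit 468) (nat_lit 1064) (nat_lit 0) (XT.nd (nat_lit 234) (nat_lit 912) (nat_lit 0) (XT.nd (nat_lit 78) (nat_lit 456) (nat_lit 0) (XT.lf (nat_lit 0) (nat_lit 8973663643) (nat_lit 532) (nat_lit 2830667934) (nat_lit 76) (nat_lit 5948712567) (nat_lit 121) (nat_lit 5) (nat_lit 128) (nat_lit 5) (nat_lit 122) (nat_lit 5) (nat_lit 323) (nat_lit 292) (nat_lit 165)) (XT.nd (nat_lit 78) (nat_lit 0) (nat_lit 0) (XT.lf (nat_lit 0) (nat_lit 5683529776) (nat_lit 456) (nat_lit 5567944810) (nat_lit 532) (nat_lit 6819009596) (nat_lit 115) (nat_lit 5) (nat_lit 121) (nat_lit 5) (nat_lit 122) (nat_lit 5) (nat_lit 324) (nat_lit 292) (nat_lit 164)) (XT.lf (nat_lit 0) (nat_lit 13625232220) (nat_lit 532) (nat_lit 3904621106) (nat_lit 76) (nat_lit 866780042) (nat_lit 115) (nat_lit 5) (nat_lit 122) (nat_lit 5) (nat_lit 116) (nat_lit 5)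 (nat_lit 325) (nat_lit 292) (nat_lit 163)))) (XT.nd (nat_lit 78) (nat_lit 532) (nat_lit 0) (XT.lf (nat_lit 0) (nat_lit 4861528082) (nat_lit 380) (nat_lit 11301331970) (nat_lit 456) (nat_lit 2566941156) (nat_lit 110) (nat_lit 5) (nat_lit 115) (nat_lit 5) (nat_lit 116) (nat_lit 5) (nat_lit 326) (nat_lit 292) (nat_lit 162)) (XT.nd (nat_lit 78) (nat_lit 532) (nat_lit 0) (XT.lf (nat_lit 0) (nat_lit 13960412666) (nat_lit 380) (nat_lit 4846599519) (nat_lit 456) (nat_lit 265053530) (nat_lit 110) (nat_lit 5) (nat_lit 115) (nat_lit 5) (nat_lit 116) (nat_lit 5) (nat_lit 327) (nat_lit 292) (nat_lit 161)) (XT.lf (nat_lit 0) (nat_lit 2111823233) (nat_lit 532) (nat_lit 15486605563) (nat_lit 76) (nat_lit 1824164010) (nat_lit 103) (nat_lit 5) (nat_lit 110) (nat_lit 5) (nat_lit 104) (nat_lit 5) (nat_lit 328) (nat_lit 292) (nat_lit 160))))) (XT.nd (nat_lit 234) (nat_lit 684) (nat_lit 0) (XT.nd (nat_lit 78) (nat_lit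 380) (nat_lit 0) (XT.lf (nat_lit 0) (nat_lit 4646072018) (nat_lit 532) (nat_lit 6483708213) (nat_lit 76) (nat_lit 8651047309) (nat_lit 103) (nat_lit 5) (nat_lit 110) (nat_lit 5) (nat_lit 104) (nat_lit 5) (nat_lit 329) (nat_lit 292) (nat_lit 159)) (XT.nd (nat_lit 78) (nat_lit 0) (nat_lit 0) (XT.lf (nat_lit 0) (nat_lit 2834549328) (nat_lit 380) (nat_lit 4440578552) (nat_lit 456) (nat_lit 12874130040) (nat_lit 98) (nat_lit 5) (nat_lit 103) (nat_lit 5) (nat_lit 104) (nat_lit 5) (nat_lit 330) (nat_lit 292) (nat_lit 158)) (XT.lf (nat_lit 0) (nat_lit 10064388229) (nat_lit 456) (nat_lit 7995891287) (nat_lit 76) (nat_lit 2466033354) (nat_lit 98) (nat_lit 5) (nat_lit 104) (nat_lit 5) (nat_lit 99) (nat_lit 5) (nat_lit 331) (nat_lit 292) (nat_lit 157)))) (XT.nd (nat_lit 78) (nat_lit 304) (nat_lit 0) (XT.lf (nat_lit 0) (nat_lit 1579455861) (nat_lit 380) (nat_lit 11408929700) (nat_lit 456) (nat_lit 7924773435)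 (nat_lit 93) (nat_lit 5) (nat_lit 98) (nat_lit 5) (nat_lit 99) (nat_lit 5) (nat_lit 332) (nat_lit 292) (nat_lit 156)) (XT.nd (nat_lit 78) (nat_lit 304) (nat_lit 0) (XT.lf (nat_lit 0) (nat_lit 11596178886) (nat_lit 380) (nat_lit 4476718592) (nat_lit 456) (nat_lit 5236540161) (nat_lit 93) (nat_lit 5) (nat_lit 98) (nat_lit 5) (nat_lit 99) (nat_lit 5) (nat_lit 333) (nat_lit 292) (nat_lit 155)) (XT.lf (nat_lit 0) (nat_lit 163657516) (nat_lit 304) (nat_lit 19105729338) (nat_lit 380) (nat_lit 2447645179) (nat_lit 89) (nat_lit 5) (nat_lit 93) (nat_lit 5) (nat_lit 94) (nat_lit 5) (nat_lit 334) (nat_lit 292) (nat_lit 154))))))) (XT.nd (nat_lit 936) (nat_lit 1368) (nat_lit 0) (XT.nd (nat_lit 468) (nat_lit 988) (nat_lit 0) (XT.nd (nat_lit 234) (nat_lit 304) (nat_lit 0) (XT.nd (nat_lit 78) (nat_lit 380) (nat_lit 0) (XT.lf (nat_lit 0) (nat_lit 552318300) (nat_lit 380) (nat_lit 11657097603) (nat_lit 76) (nat_lit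 9923255063) (nat_lit 88) (nat_lit 5) (nat_lit 93) (nat_lit 5) (nat_lit 89) (nat_lit 5) (nat_lit 335) (nat_lit 292) (nat_lit 153)) (XT.nd (nat_lit 78) (nat_lit 380) (nat_lit 0) (XT.lf (nat_lit 0) (nat_lit 3585622674) (nat_lit 380) (nat_lit 1497680863) (nat_lit 76) (nat_lit 17476982140) (nat_lit 88) (nat_lit 5) (nat_lit 93) (nat_lit 5) (nat_lit 89) (nat_lit 5) (nat_lit 336) (nat_lit 292) (nat_lit 152)) (XT.lf (nat_lit 0) (nat_lit 6813039325) (nat_lit 456) (nat_lit 13885314649) (nat_lit 76) (nat_lit 2299290927) (nat_lit 83) (nat_lit 5) (nat_lit 89) (nat_lit 5) (nat_lit 84) (nat_lit 5) (nat_lit 337) (nat_lit 292) (nat_lit 151)))) (XT.nd (nat_lit 78) (nat_lit 304) (nat_lit 0) (XT.lf (nat_lit 0) (nat_lit 10195739837) (nat_lit 456) (nat_lit 3436158071) (nat_lit 76) (nat_lit 9814482343) (nat_lit 83) (nat_lit 5) (nat_lit 89) (nat_lit 5) (nat_lit 84) (nat_lit 5) (nat_lit 338) (nat_lit 292) (nat_lit 150))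 (XT.nd (nat_lit 78) (nat_lit 0) (nat_lit 0) (XT.lf (nat_lit 0) (nat_lit 7463025961) (nat_lit 304) (nat_lit 6281700830) (nat_lit 380) (nat_lit 10161915631) (nat_lit 79) (nat_lit 5) (nat_lit 83) (nat_lit 5) (nat_lit 84) (nat_lit 5) (nat_lit 339) (nat_lit 292) (nat_lit 149)) (XT.lf (nat_lit 0) (nat_lit 17440776980) (nat_lit 380) (nat_lit 5641963451) (nat_lit 76) (nat_lit 1296762881) (nat_lit 79) (nat_lit 5) (nat_lit 84) (nat_lit 5) (nat_lit 80) (nat_lit 5) (nat_lit 340) (nat_lit 292) (nat_lit 148))))) (XT.nd (nat_lit 234) (nat_lit 304) (nat_lit 0) (XT.nd (nat_lit 78) (nat_lit 380) (nat_lit 0) (XT.lf (nat_lit 0) (nat_lit 5520352354) (nat_lit 304) (nat_lit 15835976517) (nat_lit 380) (nat_lit 3506970963) (nat_lit 75) (nat_lit 5) (nat_lit 79) (nat_lit 5) (nat_lit 80) (nat_lit 5) (nat_lit 341) (nat_lit 292) (nat_lit 147)) (XT.nd (nat_lit 78) (nat_lit 304) (nat_lit 0) (XT.lf (nat_lit 0) (nat_lit 78128685)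 (nat_lit 380) (nat_lit 8236505093) (nat_lit 76) (nat_lit 17045448416) (nat_lit 74) (nat_lit 5) (nat_lit 79) (nat_lit 5) (nat_lit 75) (nat_lit 5) (nat_lit 342) (nat_lit 292) (nat_lit 146)) (XT.lf (nat_lit 0) (nat_lit 3222587845) (nat_lit 304) (nat_lit 502272682) (nat_lit 380) (nat_lit 22145136546) (nat_lit 70) (nat_lit 5) (nat_lit 74) (nat_lit 5) (nat_lit 75) (nat_lit 5) (nat_lit 343) (nat_lit 292) (nat_lit 145)))) (XT.nd (nat_lit 78) (nat_lit 304) (nat_lit 0) (XT.lf (nat_lit 0) (nat_lit 7631182362) (nat_lit 380) (nat_lit 11280559494) (nat_lit 76) (nat_lit 7478969373) (nat_lit 70) (nat_lit 5) (nat_lit 75) (nat_lit 5) (nat_lit 71) (nat_lit 5) (nat_lit 344) (nat_lit 292) (nat_lit 144)) (XT.nd (nat_lit 78) (nat_lit 0) (nat_lit 0) (XT.lf (nat_lit 0) (nat_lit 422020319) (nat_lit 304) (nat_lit 11235557651) (nat_lit 380) (nat_lit 15269389571) (nat_lit 66) (nat_lit 5) (nat_lit 70) (nat_lit 5) (nat_lit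 71) (nat_lit 5) (nat_lit 345) (nat_lit 292) (nat_lit 143)) (XT.lf (nat_lit 0) (nat_lit 12698464088) (nat_lit 304) (nat_lit 3214165031) (nat_lit 380) (nat_lit 11563453558) (nat_lit 66) (nat_lit 5) (nat_lit 70) (nat_lit 5) (nat_lit 71) (nat_lit 5) (nat_lit 346) (nat_lit 292) (nat_lit 142)))))) (XT.nd (nat_lit 468) (nat_lit 532) (nat_lit 0) (XT.nd (nat_lit 234) (nat_lit 532) (nat_lit 0) (XT.nd (nat_lit 78) (nat_lit 304) (nat_lit 0) (XT.lf (nat_lit 0) (nat_lit 20337960847) (nat_lit 380) (nat_lit 2755361461) (nat_lit 76) (nat_lit 4947076925) (nat_lit 66) (nat_lit 5) (nat_lit 71) (nat_lit 5) (nat_lit 67) (nat_lit 5) (nat_lit 347) (nat_lit 292) (nat_lit 141)) (XT.nd (nat_lit 78) (nat_lit 76) (nat_lit 0) (XT.lf (nat_lit 0) (nat_lit 9778427888) (nat_lit 228) (nat_lit 15237721796) (nat_lit 304) (nat_lit 3601899327) (nat_lit 63) (nat_lit 5) (nat_lit 66) (nat_lit 5) (nat_lit 67) (nat_lit 5) (nat_lit 348)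 (nat_lit 292) (nat_lit 140)) (XT.lf (nat_lit 0) (nat_lit 631929148) (nat_lit 304) (nat_lit 6481896041) (nat_lit 76) (nat_lit 22098357960) (nat_lit 62) (nat_lit 5) (nat_lit 66) (nat_lit 5) (nat_lit 63) (nat_lit 5) (nat_lit 349) (nat_lit 292) (nat_lit 139)))) (XT.nd (nat_lit 78) (nat_lit 228) (nat_lit 0) (XT.lf (nat_lit 0) (nat_lit 4988646301) (nat_lit 380) (nat_lit 23507980190) (nat_lit 76) (nat_lit 1324402971) (nat_lit 58) (nat_lit 5) (nat_lit 63) (nat_lit 5) (nat_lit 59) (nat_lit 5) (nat_lit 350) (nat_lit 292) (nat_lit 138)) (XT.nd (nat_lit 78) (nat_lit 228) (nat_lit 0) (XT.lf (nat_lit 0) (nat_lit 9607134509) (nat_lit 380) (nat_lit 10900539009) (nat_lit 76) (nat_lit 9936541461) (nat_lit 58) (nat_lit 5) (nat_lit 63) (nat_lit 5) (nat_lit 59) (nat_lit 5) (nat_lit 351) (nat_lit 292) (nat_lit 137)) (XT.lf (nat_lit 0) (nat_lit 2118706911) (nat_lit 228) (nat_lit 12260529111) (nat_lit 304) (nat_lit 16706414007)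 (nat_lit 55) (nat_lit 5) (nat_lit 58) (nat_lit 5) (nat_lit 59) (nat_lit 5) (nat_lit 352) (nat_lit 292) (nat_lit 136))))) (XT.nd (nat_lit 234) (nat_lit 304) (nat_lit 0) (XT.nd (nat_lit 78) (nat_lit 228) (nat_lit 0) (XT.lf (nat_lit 0) (nat_lit 15744294574) (nat_lit 228) (nat_lit 3655053138) (nat_lit 304) (nat_lit 12343840564) (nat_lit 55) (nat_lit 5) (nat_lit 58) (nat_lit 5) (nat_lit 59) (nat_lit 5) (nat_lit 353) (nat_lit 292) (nat_lit 135)) (XT.nd (nat_lit 78) (nat_lit 228) (nat_lit 0) (XT.lf (nat_lit 0) (nat_lit 24615033232) (nat_lit 304) (nat_lit 2699467754) (nat_lit 76) (nat_lit 5104607968) (nat_lit 55) (nat_lit 5) (nat_lit 59) (nat_lit 5) (nat_lit 56) (nat_lit 5) (nat_lit 354) (nat_lit 292) (nat_lit 134)) (XT.lf (nat_lit 0) (nat_lit 11173410247) (nat_lit 228) (nat_lit 18952424197) (nat_lit 304) (nat_lit 2985318697) (nat_lit 52) (nat_lit 5) (nat_lit 55) (nat_lit 5) (nat_lit 56) (nat_lit 5) (nat_lit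 355) (nat_lit 292) (nat_lit 133)))) (XT.nd (nat_lit 78) (nat_lit 228) (nat_lit 0) (XT.lf (nat_lit 0) (nat_lit 1962003856) (nat_lit 304) (nat_lit 8332019768) (nat_lit 76) (nat_lit 23528691534) (nat_lit 51) (nat_lit 5) (nat_lit 55) (nat_lit 5) (nat_lit 52) (nat_lit 5) (nat_lit 356) (nat_lit 292) (nat_lit 132)) (XT.nd (nat_lit 78) (nat_lit 0) (nat_lit 0) (XT.lf (nat_lit 0) (nat_lit 5757475975) (nat_lit 228) (nat_lit 1290827607) (nat_lit 304) (nat_lit 27504921739) (nat_lit 48) (nat_lit 5) (nat_lit 51) (nat_lit 5) (nat_lit 52) (nat_lit 5) (nat_lit 357) (nat_lit 292) (nat_lit 131)) (XT.lf (nat_lit 0) (nat_lit 12444157594) (nat_lit 304) (nat_lit 14947480231) (nat_lit 76) (nat_lit 7909308662) (nat_lit 48) (nat_lit 5) (nat_lit 52) (nat_lit 5) (nat_lit 49) (nat_lit 5) (nat_lit 358) (nat_lit 292) (nat_lit 130))))))))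
noncomputable def xc190 : XT := (XT.nd (nat_lit 1794) (nat_lit 456) (nat_lit 0) (XT.nd (nat_lit 858) (nat_lit 760) (nat_lit 0) (XT.nd (nat_lit 390) (nat_lit 380) (nat_lit 0) (XT.nd (nat_lit 156) (nat_lit 228) (nat_lit 0) (XT.nd (nat_lit 78) (nat_lit 228) (nat_lit 0) (XT.lf (nat_lit 0) (nat_lit 18010068532) (nat_lit 304) (nat_lit 703575564) (nat_lit 76) (nat_lit 17357214273) (nat_lit 48) (nat_lit 5) (nat_lit 52) (nat_lit 5) (nat_lit 49) (nat_lit 5) (nat_lit 359) (nat_lit 292) (nat_lit 129)) (XT.lf (nat_lit 0) (nat_lit 14238666682) (nat_lit 228) (nat_lit 9636695683) (nat_lit 304) (nat_lit 12984537466) (nat_lit 45) (nat_lit 5) (nat_lit 48) (nat_lit 5) (nat_lit 49) (nat_lit 5) (nat_lit 360) (nat_lit 292) (nat_lit 128))) (XT.nd (nat_lit 78) (nat_lit 228) (nat_lit 0) (XT.lf (nat_lit 0) (nat_lit 29636838506) (nat_lit 228) (nat_lit 282481104) (nat_lit 304) (nat_lit 7753216050) (nat_lit 45) (nat_lit 5)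 (nat_lit 48) (nat_lit 5) (nat_lit 49) (nat_lit 5) (nat_lit 361) (nat_lit 292) (nat_lit 127)) (XT.nd (nat_lit 78) (nat_lit 76) (nat_lit 0) (XT.lf (nat_lit 0) (nat_lit 7027971687) (nat_lit 152) (nat_lit 29269787647) (nat_lit 228) (nat_lit 2207200454) (nat_lit 43) (nat_lit 5) (nat_lit 45) (nat_lit 5) (nat_lit 46) (nat_lit 5) (nat_lit 362) (nat_lit 292) (nat_lit 126)) (XT.lf (nat_lit 0) (nat_lit 3517263355) (nat_lit 228) (nat_lit 16695639416) (nat_lit 76) (nat_lit 19146032945) (nat_lit 42) (nat_lit 5) (nat_lit 45) (nat_lit 5) (nat_lit 43) (nat_lit 5) (nat_lit 363) (nat_lit 292) (nat_lit 125))))) (XT.nd (nat_lit 234) (nat_lit 152) (nat_lit 0) (XT.nd (nat_lit 78) (nat_lit 228) (nat_lit 0) (XT.lf (nat_lit 0) (nat_lit 9364944844) (nat_lit 228) (nat_lit 1499205959) (nat_lit 76) (nat_lit 29373852911) (nat_lit 42) (nat_lit 5) (nat_lit 45) (nat_lit 5) (nat_lit 43) (nat_lit 5) (nat_lit 364) (nat_lit 292) (nat_lit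 124)) (XT.nd (nat_lit 78) (nat_lit 0) (nat_lit 0) (XT.lf (nat_lit 0) (nat_lit 14428356877) (nat_lit 228) (nat_lit 1094361382) (nat_lit 304) (nat_lit 25616689326) (nat_lit 39) (nat_lit 5) (nat_lit 42) (nat_lit 5) (nat_lit 43) (nat_lit 5) (nat_lit 365) (nat_lit 292) (nat_lit 123)) (XT.lf (nat_lit 0) (nat_lit 21962727510) (nat_lit 304) (nat_lit 11295633257) (nat_lit 76) (nat_lit 8806571294) (nat_lit 39) (nat_lit 5) (nat_lit 43) (nat_lit 5) (nat_lit 40) (nat_lit 5) (nat_lit 366) (nat_lit 292) (nat_lit 122)))) (XT.nd (nat_lit 78) (nat_lit 0) (nat_lit 0) (XT.lf (nat_lit 0) (nat_lit 4656101882) (nat_lit 152) (nat_lit 23991546924) (nat_lit 228) (nat_lit 14369025578) (nat_lit 37) (nat_lit 5) (nat_lit 39) (nat_lit 5) (nat_lit 40) (nat_lit 5) (nat_lit 367) (nat_lit 292) (nat_lit 121)) (XT.nd (nat_lit 78) (nat_lit 0) (nat_lit 0) (XT.lf (nat_lit 0) (nat_lit 21311832051) (nat_lit 152) (nat_lit 14331522980)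 (nat_lit 228) (nat_lit 8350310190) (nat_lit 37) (nat_lit 5) (nat_lit 39) (nat_lit 5) (nat_lit 40) (nat_lit 5) (nat_lit 368) (nat_lit 292) (nat_lit 120)) (XT.lf (nat_lit 0) (nat_lit 38461305550) (nat_lit 152) (nat_lit 4383911885) (nat_lit 228) (nat_lit 2154863065) (nat_lit 37) (nat_lit 5) (nat_lit 39) (nat_lit 5) (nat_lit 40) (nat_lit 5) (nat_lit 369) (nat_lit 292) (nat_lit 119)))))) (XT.nd (nat_lit 468) (nat_lit 380) (nat_lit 0) (XT.nd (nat_lit 234) (nat_lit 152) (nat_lit 0) (XT.nd (nat_lit 78) (nat_lit 0) (nat_lit 0) (XT.lf (nat_lit 0) (nat_lit 4296487122) (nat_lit 228) (nat_lit 35848360586) (nat_lit 76) (nat_lit 5886049407) (nat_lit 34) (nat_lit 5) (nat_lit 37) (nat_lit 5) (nat_lit 35) (nat_lit 5) (nat_lit 370) (nat_lit 292) (nat_lit 118)) (XT.nd (nat_lit 78) (nat_lit 0) (nat_lit 0) (XT.lf (nat_lit 0) (nat_lit 11004538930) (nat_lit 228) (nat_lit 19622389876) (nat_lit 76) (nat_lit 16461878201)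 (nat_lit 34) (nat_lit 5) (nat_lit 37) (nat_lit 5) (nat_lit 35) (nat_lit 5) (nat_lit 371) (nat_lit 292) (nat_lit 117)) (XT.lf (nat_lit 0) (nat_lit 17910321712) (nat_lit 228) (nat_lit 2915333490) (nat_lit 76) (nat_lit 27352907213) (nat_lit 34) (nat_lit 5) (nat_lit 37) (nat_lit 5) (nat_lit 35) (nat_lit 5) (nat_lit 372) (nat_lit 292) (nat_lit 116)))) (XT.nd (nat_lit 78) (nat_lit 0) (nat_lit 0) (XT.lf (nat_lit 0) (nat_lit 14571754385) (nat_lit 152) (nat_lit 10588187879) (nat_lit 228) (nat_lit 24136971110) (nat_lit 32) (nat_lit 5) (nat_lit 34) (nat_lit 5) (nat_lit 35) (nat_lit 5) (nat_lit 373) (nat_lit 292) (nat_lit 115)) (XT.nd (nat_lit 78) (nat_lit 0) (nat_lit 0) (XT.lf (nat_lit 0) (nat_lit 32637742951) (nat_lit 152) (nat_lit 15385962) (nat_lit 228) (nat_lit 17794906359) (nat_lit 32) (nat_lit 5) (nat_lit 34) (nat_lit 5) (nat_lit 35) (nat_lit 5) (nat_lit 374) (nat_lit 292) (nat_lit 114)) (XT.lf (nat_lit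 0) (nat_lit 40472361003) (nat_lit 228) (nat_lit 497907826) (nat_lit 76) (nat_lit 10660387160) (nat_lit 32) (nat_lit 5) (nat_lit 35) (nat_lit 5) (nat_lit 33) (nat_lit 5) (nat_lit 375) (nat_lit 292) (nat_lit 113))))) (XT.nd (nat_lit 234) (nat_lit 0) (nat_lit 0) (XT.nd (nat_lit 78) (nat_lit 228) (nat_lit 0) (XT.lf (nat_lit 0) (nat_lit 17673328430) (nat_lit 152) (nat_lit 31019692972) (nat_lit 228) (nat_lit 4150730961) (nat_lit 30) (nat_lit 5) (nat_lit 32) (nat_lit 5) (nat_lit 33) (nat_lit 5) (nat_lit 376) (nat_lit 292) (nat_lit 112)) (XT.nd (nat_lit 78) (nat_lit 152) (nat_lit 0) (XT.lf (nat_lit 0) (nat_lit 3009109840) (nat_lit 228) (nat_lit 17727966703) (nat_lit 76) (nat_lit 33355226066) (nat_lit 29) (nat_lit 5) (nat_lit 32) (nat_lit 5) (nat_lit 30) (nat_lit 5) (nat_lit 377) (nat_lit 292) (nat_lit 111)) (XT.lf (nat_lit 0) (nat_lit 195381396) (nat_lit 152) (nat_lit 10103731160) (nat_lit 228) (nat_lit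 45078002508) (nat_lit 27) (nat_lit 5) (nat_lit 29) (nat_lit 5) (nat_lit 30) (nat_lit 5) (nat_lit 378) (nat_lit 292) (nat_lit 110)))) (XT.nd (nat_lit 78) (nat_lit 0) (nat_lit 0) (XT.lf (nat_lit 0) (nat_lit 17993699133) (nat_lit 228) (nat_lit 37690318802) (nat_lit 76) (nat_lit 1010879734) (nat_lit 27) (nat_lit 5) (nat_lit 30) (nat_lit 5) (nat_lit 28) (nat_lit 5) (nat_lit 379) (nat_lit 292) (nat_lit 109)) (XT.nd (nat_lit 78) (nat_lit 0) (nat_lit 0) (XT.lf (nat_lit 0) (nat_lit 26016185706) (nat_lit 228) (nat_lit 19779172666) (nat_lit 76) (nat_lit 12253945732) (nat_lit 27) (nat_lit 5) (nat_lit 30) (nat_lit 5) (nat_lit 28) (nat_lit 5) (nat_lit 380) (nat_lit 292) (nat_lit 108)) (XT.lf (nat_lit 0) (nat_lit 34276458972) (nat_lit 228) (nat_lit 1335521500) (nat_lit 76) (nat_lit 23832451058) (nat_lit 27) (nat_lit 5) (nat_lit 30) (nat_lit 5) (nat_lit 28) (nat_lit 5) (nat_lit 381) (nat_lit 292) (nat_lit 107)))))))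 (XT.nd (nat_lit 34086) (nat_lit 0) (nat_lit 11400) (XT.nd (nat_lit 468) (nat_lit 152) (nat_lit 0) (XT.nd (nat_lit 234) (nat_lit 152) (nat_lit 0) (XT.nd (nat_lit 78) (nat_lit 0) (nat_lit 0) (XT.lf (nat_lit 0) (nat_lit 18008154463) (nat_lit 152) (nat_lit 24946687578) (nat_lit 228) (nat_lit 17921463786) (nat_lit 25) (nat_lit 5) (nat_lit 27) (nat_lit 5) (nat_lit 28) (nat_lit 5) (nat_lit 382) (nat_lit 292) (nat_lit 106)) (XT.nd (nat_lit 78) (nat_lit 0) (nat_lit 0) (XT.lf (nat_lit 0) (nat_lit 37954874862) (nat_lit 152) (nat_lit 13949421132) (nat_lit 228) (nat_lit 10446520811) (nat_lit 25) (nat_lit 5) (nat_lit 27) (nat_lit 5) (nat_lit 28) (nat_lit 5) (nat_lit 383) (nat_lit 292) (nat_lit 105)) (XT.lf (nat_lit 0) (nat_lit 58495489372) (nat_lit 152) (nat_lit 2624058022) (nat_lit 228) (nat_lit 2750098280) (nat_lit 25) (nat_lit 5) (nat_lit 27) (nat_lit 5) (nat_lit 28) (nat_lit 5) (nat_lit 384) (nat_lit 292)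 (nat_lit 104)))) (XT.nd (nat_lit 78) (nat_lit 0) (nat_lit 0) (XT.lf (nat_lit 0) (nat_lit 5301177356) (nat_lit 152) (nat_lit 51071241186) (nat_lit 76) (nat_lit 9053380136) (nat_lit 23) (nat_lit 5) (nat_lit 25) (nat_lit 5) (nat_lit 24) (nat_lit 5) (nat_lit 385) (nat_lit 292) (nat_lit 103)) (XT.nd (nat_lit 78) (nat_lit 0) (nat_lit 0) (XT.lf (nat_lit 0) (nat_lit 13616885325) (nat_lit 152) (nat_lit 32299907126) (nat_lit 76) (nat_lit 21108683718) (nat_lit 23) (nat_lit 5) (nat_lit 25) (nat_lit 5) (nat_lit 24) (nat_lit 5) (nat_lit 386) (nat_lit 292) (nat_lit 102)) (XT.lf (nat_lit 0) (nat_lit 22179522581) (nat_lit 152) (nat_lit 12969753206) (nat_lit 76) (nat_lit 33523946212) (nat_lit 23) (nat_lit 5) (nat_lit 25) (nat_lit 5) (nat_lit 24) (nat_lit 5) (nat_lit 387) (nat_lit 292) (nat_lit 101))))) (XT.nd (nat_lit 33384) (nat_lit 0) (nat_lit 12160) (XT.nd (nat_lit 33228) (nat_lit 0) (nat_lit 12084) (XT.lf (nat_lit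 0) (nat_lit 7074153210) (nat_lit 152) (nat_lit 23990418920) (nat_lit 228) (nat_lit 39303863785) (nat_lit 21) (nat_lit 5) (nat_lit 23) (nat_lit 5) (nat_lit 24) (nat_lit 5) (nat_lit 388) (nat_lit 292) (nat_lit 100)) (XT.nd (nat_lit 78) (nat_lit 0) (nat_lit 0) (XT.lf (nat_lit 0) (nat_lit 388822285) (nat_lit 1140) (nat_lit 2616934139) (nat_lit 1140) (nat_lit 2616934139) (nat_lit 180) (nat_lit 3) (nat_lit 195) (nat_lit 3) (nat_lit 195) (nat_lit 5) (nat_lit 293) (nat_lit 293) (nat_lit 194)) (XT.lf (nat_lit 0) (nat_lit 1297348691) (nat_lit 1140) (nat_lit 321785710) (nat_lit 1140) (nat_lit 9778769013) (nat_lit 180) (nat_lit 3) (nat_lit 195) (nat_lit 3) (nat_lit 195) (nat_lit 5) (nat_lit 294) (nat_lit 293) (nat_lit 193)))) (XT.nd (nat_lit 78) (nat_lit 0) (nat_lit 0) (XT.lf (nat_lit 0) (nat_lit 1887639868) (nat_lit 1064) (nat_lit 6761202024) (nat_lit 1140) (nat_lit 2904545398) (nat_lit 181) (nat_lit 5)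 (nat_lit 195) (nat_lit 5) (nat_lit 196) (nat_lit 5) (nat_lit 295) (nat_lit 293) (nat_lit 192)) (XT.nd (nat_lit 78) (nat_lit 0) (nat_lit 76) (XT.lf (nat_lit 0) (nat_lit 2495693778) (nat_lit 1064) (nat_lit 1674162233) (nat_lit 1140) (nat_lit 7543712806) (nat_lit 181) (nat_lit 5) (nat_lit 195) (nat_lit 5) (nat_lit 196) (nat_lit 5) (nat_lit 296) (nat_lit 293) (nat_lit 191)) (XT.lf (nat_lit 0) (nat_lit 3142831189) (nat_lit 1064) (nat_lit 8257069105) (nat_lit 1140) (nat_lit 478063981) (nat_lit 182) (nat_lit 5) (nat_lit 196) (nat_lit 5) (nat_lit 197) (nat_lit 5) (nat_lit 297) (nat_lit 293) (nat_lit 190)))))) (XT.nd (nat_lit 468) (nat_lit 836) (nat_lit 0) (XT.nd (nat_lit 234) (nat_lit 0) (nat_lit 76) (XT.nd (nat_lit 78) (nat_lit 0) (nat_lit 0) (XT.lf (nat_lit 0) (nat_lit 3849563728) (nat_lit 1064) (nat_lit 2990184116) (nat_lit 1140) (nat_lit 5206371083) (nat_lit 182) (nat_lit 5) (nat_lit 196) (nat_lit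 5) (nat_lit 197) (nat_lit 5) (nat_lit 298) (nat_lit 293) (nat_lit 189)) (XT.nd (nat_lit 78) (nat_lit 0) (nat_lit 76) (XT.lf (nat_lit 76) (nat_lit 2472201813) (nat_lit 0) (nat_lit 2111412360) (nat_lit 1140) (nat_lit 7635552373) (nat_lit 183) (nat_lit 5) (nat_lit 182) (nat_lit 5) (nat_lit 197) (nat_lit 5) (nat_lit 299) (nat_lit 293) (nat_lit 188)) (XT.lf (nat_lit 0) (nat_lit 5379525848) (nat_lit 1064) (nat_lit 4274815735) (nat_lit 1140) (nat_lit 2741899699) (nat_lit 183) (nat_lit 5) (nat_lit 197) (nat_lit 5) (nat_lit 198) (nat_lit 5) (nat_lit 300) (nat_lit 293) (nat_lit 187)))) (XT.nd (nat_lit 78) (nat_lit 0) (nat_lit 76) (XT.lf (nat_lit 76) (nat_lit 1356130229) (nat_lit 0) (nat_lit 4860452604) (nat_lit 1140) (nat_lit 6361557369) (nat_lit 184) (nat_lit 5) (nat_lit 183) (nat_lit 5) (nat_lit 198) (nat_lit 5) (nat_lit 301) (nat_lit 293) (nat_lit 186)) (XT.nd (nat_lit 78) (nat_lit 0) (nat_lit 0) (XT.lf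 (nat_lit 0) (nat_lit 7106849964) (nat_lit 1064) (nat_lit 5533125733) (nat_lit 1140) (nat_lit 124706545) (nat_lit 184) (nat_lit 5) (nat_lit 198) (nat_lit 5) (nat_lit 199) (nat_lit 5) (nat_lit 302) (nat_lit 293) (nat_lit 185)) (XT.lf (nat_lit 76) (nat_lit 272563381) (nat_lit 0) (nat_lit 7786239219) (nat_lit 1140) (nat_lit 4896996878) (nat_lit 185) (nat_lit 5) (nat_lit 184) (nat_lit 5) (nat_lit 199) (nat_lit 5) (nat_lit 303) (nat_lit 293) (nat_lit 184))))) (XT.nd (nat_lit 234) (nat_lit 988) (nat_lit 0) (XT.nd (nat_lit 78) (nat_lit 0) (nat_lit 76) (XT.lf (nat_lit 76) (nat_lit 6354898172) (nat_lit 0) (nat_lit 2724877471) (nat_lit 1140) (nat_lit 4071688168) (nat_lit 185) (nat_lit 5) (nat_lit 184) (nat_lit 5) (nat_lit 199) (nat_lit 5) (nat_lit 304) (nat_lit 293) (nat_lit 183)) (XT.nd (nat_lit 78) (nat_lit 0) (nat_lit 0) (XT.lf (nat_lit 0) (nat_lit 10140375831) (nat_lit 1064) (nat_lit 768361311) (nat_lit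 1140) (nat_lit 2444017631) (nat_lit 185) (nat_lit 5) (nat_lit 199) (nat_lit 5) (nat_lit 200) (nat_lit 5) (nat_lit 305) (nat_lit 293) (nat_lit 182)) (XT.lf (nat_lit 76) (nat_lit 5510415955) (nat_lit 0) (nat_lit 5787839797) (nat_lit 1140) (nat_lit 2259890721) (nat_lit 186) (nat_lit 5) (nat_lit 185) (nat_lit 5) (nat_lit 200) (nat_lit 5) (nat_lit 306) (nat_lit 293) (nat_lit 181)))) (XT.nd (nat_lit 78) (nat_lit 1064) (nat_lit 0) (XT.lf (nat_lit 76) (nat_lit 11982591023) (nat_lit 0) (nat_lit 501872176) (nat_lit 1140) (nat_lit 1285454098) (nat_lit 186) (nat_lit 5) (nat_lit 185) (nat_lit 5) (nat_lit 200) (nat_lit 5) (nat_lit 307) (nat_lit 293) (nat_lit 180)) (XT.nd (nat_lit 78) (nat_lit 1140) (nat_lit 0) (XT.lf (nat_lit 76) (nat_lit 4694103663) (nat_lit 0) (nat_lit 9091064869) (nat_lit 1140) (nat_lit 200529741) (nat_lit 187) (nat_lit 5) (nat_lit 186) (nat_lit 5) (nat_lit 201) (nat_lit 5) (nat_lit 308)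 (nat_lit 293) (nat_lit 179)) (XT.lf (nat_lit 0) (nat_lit 908662830) (nat_lit 1140) (nat_lit 2825818223) (nat_lit 1216) (nat_lit 10472941776) (nat_lit 171) (nat_lit 5) (nat_lit 186) (nat_lit 5) (nat_lit 187) (nat_lit 5) (nat_lit 309) (nat_lit 293) (nat_lit 178))))))))
noncomputable def xc191 : XT := (XT.nd (nat_lit 1872) (nat_lit 3192) (nat_lit 0) (XT.nd (nat_lit 936) (nat_lit 2584) (nat_lit 0) (XT.nd (nat_lit 468) (nat_lit 1748) (nat_lit 0) (XT.nd (nat_lit 234) (nat_lit 532) (nat_lit 0) (XT.nd (nat_lit 78) (nat_lit 1140) (nat_lit 0) (XT.lf (nat_lit 0) (nat_lit 2088927776) (nat_lit 1140) (nat_lit 10555327400) (nat_lit 76) (nat_lit 1790251878) (nat_lit 172) (nat_lit 5) (nat_lit 187) (nat_lit 5) (nat_lit 173) (nat_lit 5) (nat_lit 310) (nat_lit 293) (nat_lit 177)) (XT.nd (nat_lit 78) (nat_lit 1140) (nat_lit 0) (XT.lf (nat_lit 0) (nat_lit 3357509948) (nat_lit 1140) (nat_lit 3872614617) (nat_lit 76)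 (nat_lit 7436713623) (nat_lit 172) (nat_lit 5) (nat_lit 187) (nat_lit 5) (nat_lit 173) (nat_lit 5) (nat_lit 311) (nat_lit 293) (nat_lit 176)) (XT.lf (nat_lit 0) (nat_lit 3059541196) (nat_lit 1140) (nat_lit 1621510285) (nat_lit 1216) (nat_lit 10224601742) (nat_lit 157) (nat_lit 5) (nat_lit 172) (nat_lit 5) (nat_lit 173) (nat_lit 5) (nat_lit 312) (nat_lit 293) (nat_lit 175)))) (XT.nd (nat_lit 78) (nat_lit 532) (nat_lit 0) (XT.lf (nat_lit 0) (nat_lit 6111505426) (nat_lit 1216) (nat_lit 4922783122) (nat_lit 76) (nat_lit 4115348393) (nat_lit 157) (nat_lit 5) (nat_lit 173) (nat_lit 5) (nat_lit 158) (nat_lit 5) (nat_lit 313) (nat_lit 293) (nat_lit 174)) (XT.nd (nat_lit 78) (nat_lit 0) (nat_lit 0) (XT.lf (nat_lit 0) (nat_lit 2224889220) (nat_lit 532) (nat_lit 5385550835) (nat_lit 608) (nat_lit 7789752923) (nat_lit 150) (nat_lit 5) (nat_lit 157) (nat_lit 5) (nat_lit 158) (nat_lit 5) (nat_lit 314) (nat_lit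 293) (nat_lit 173)) (XT.lf (nat_lit 0) (nat_lit 9197083398) (nat_lit 608) (nat_lit 5984511845) (nat_lit 76) (nat_lit 475407477) (nat_lit 150) (nat_lit 5) (nat_lit 158) (nat_lit 5) (nat_lit 151) (nat_lit 5) (nat_lit 315) (nat_lit 293) (nat_lit 172))))) (XT.nd (nat_lit 234) (nat_lit 608) (nat_lit 0) (XT.nd (nat_lit 78) (nat_lit 532) (nat_lit 0) (XT.lf (nat_lit 0) (nat_lit 1385038383) (nat_lit 608) (nat_lit 9501641397) (nat_lit 684) (nat_lit 5033195044) (nat_lit 142) (nat_lit 5) (nat_lit 150) (nat_lit 5) (nat_lit 151) (nat_lit 5) (nat_lit 316) (nat_lit 293) (nat_lit 171)) (XT.nd (nat_lit 78) (nat_lit 532) (nat_lit 0) (XT.lf (nat_lit 0) (nat_lit 9087786110) (nat_lit 608) (nat_lit 3588554448) (nat_lit 684) (nat_lit 3512829376) (nat_lit 142) (nat_lit 5) (nat_lit 150) (nat_lit 5) (nat_lit 151) (nat_lit 5) (nat_lit 317) (nat_lit 293) (nat_lit 170)) (XT.lf (nat_lit 0) (nat_lit 530777641) (nat_lit 532)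 (nat_lit 14007336949) (nat_lit 608) (nat_lit 1927894213) (nat_lit 135) (nat_lit 5) (nat_lit 142) (nat_lit 5) (nat_lit 143) (nat_lit 5) (nat_lit 318) (nat_lit 293) (nat_lit 169)))) (XT.nd (nat_lit 78) (nat_lit 608) (nat_lit 0) (XT.lf (nat_lit 0) (nat_lit 8490739858) (nat_lit 532) (nat_lit 8061376757) (nat_lit 608) (nat_lit 196162079) (nat_lit 135) (nat_lit 5) (nat_lit 142) (nat_lit 5) (nat_lit 143) (nat_lit 5) (nat_lit 319) (nat_lit 293) (nat_lit 168)) (XT.nd (nat_lit 78) (nat_lit 532) (nat_lit 0) (XT.lf (nat_lit 0) (nat_lit 1546215510) (nat_lit 608) (nat_lit 375190006) (nat_lit 76) (nat_lit 15117479321) (nat_lit 134) (nat_lit 5) (nat_lit 142) (nat_lit 5) (nat_lit 135) (nat_lit 5) (nat_lit 320) (nat_lit 293) (nat_lit 167)) (XT.lf (nat_lit 0) (nat_lit 3445785112) (nat_lit 608) (nat_lit 9493834457) (nat_lit 76) (nat_lit 4395281075) (nat_lit 127) (nat_lit 5) (nat_lit 135) (nat_lit 5) (nat_lit 128)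 (nat_lit 5) (nat_lit 321) (nat_lit 293) (nat_lit 166)))))) (XT.nd (nat_lit 468) (nat_lit 1292) (nat_lit 0) (XT.nd (nat_lit 234) (nat_lit 836) (nat_lit 0) (XT.nd (nat_lit 78) (nat_lit 456) (nat_lit 0) (XT.lf (nat_lit 0) (nat_lit 5415358494) (nat_lit 608) (nat_lit 1357563494) (nat_lit 76) (nat_lit 10866499628) (nat_lit 127) (nat_lit 5) (nat_lit 135) (nat_lit 5) (nat_lit 128) (nat_lit 5) (nat_lit 322) (nat_lit 293) (nat_lit 165)) (XT.nd (nat_lit 78) (nat_lit 0) (nat_lit 0) (XT.lf (nat_lit 0) (nat_lit 7152344182) (nat_lit 456) (nat_lit 350880690) (nat_lit 532) (nat_lit 10448091919) (nat_lit 121) (nat_lit 5) (nat_lit 127) (nat_lit 5) (nat_lit 128) (nat_lit 5) (nat_lit 323) (nat_lit 293) (nat_lit 164)) (XT.lf (nat_lit 0) (nat_lit 9718413819) (nat_lit 532) (nat_lit 2397338241) (nat_lit 76) (nat_lit 6154890481) (nat_lit 121) (nat_lit 5) (nat_lit 128) (nat_lit 5) (nat_lit 122) (nat_lit 5) (nat_lit 324)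 (nat_lit 293) (nat_lit 163)))) (XT.nd (nat_lit 78) (nat_lit 380) (nat_lit 0) (XT.lf (nat_lit 0) (nat_lit 6367204521) (nat_lit 456) (nat_lit 5688436775) (nat_lit 532) (nat_lit 6542253184) (nat_lit 115) (nat_lit 5) (nat_lit 121) (nat_lit 5) (nat_lit 122) (nat_lit 5) (nat_lit 325) (nat_lit 293) (nat_lit 162)) (XT.nd (nat_lit 78) (nat_lit 380) (nat_lit 0) (XT.lf (nat_lit 0) (nat_lit 14487455114) (nat_lit 532) (nat_lit 3509696004) (nat_lit 76) (nat_lit 937092271) (nat_lit 115) (nat_lit 5) (nat_lit 122) (nat_lit 5) (nat_lit 116) (nat_lit 5) (nat_lit 326) (nat_lit 293) (nat_lit 161)) (XT.lf (nat_lit 0) (nat_lit 5514417427) (nat_lit 380) (nat_lit 11578460621) (nat_lit 456) (nat_lit 2184798180) (nat_lit 110) (nat_lit 5) (nat_lit 115) (nat_lit 5) (nat_lit 116) (nat_lit 5) (nat_lit 327) (nat_lit 293) (nat_lit 160))))) (XT.nd (nat_lit 234) (nat_lit 760) (nat_lit 0) (XT.nd (nat_lit 78) (nat_lit 456) (nat_lit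 0) (XT.lf (nat_lit 0) (nat_lit 169401319) (nat_lit 456) (nat_lit 4760777498) (nat_lit 76) (nat_lit 14700388350) (nat_lit 109) (nat_lit 5) (nat_lit 115) (nat_lit 5) (nat_lit 110) (nat_lit 5) (nat_lit 328) (nat_lit 293) (nat_lit 159)) (XT.nd (nat_lit 78) (nat_lit 0) (nat_lit 0) (XT.lf (nat_lit 0) (nat_lit 2604950464) (nat_lit 532) (nat_lit 15441687653) (nat_lit 76) (nat_lit 1945130680) (nat_lit 103) (nat_lit 5) (nat_lit 110) (nat_lit 5) (nat_lit 104) (nat_lit 5) (nat_lit 329) (nat_lit 293) (nat_lit 158)) (XT.lf (nat_lit 0) (nat_lit 5202709066) (nat_lit 532) (nat_lit 6183543657) (nat_lit 76) (nat_lit 8974891107) (nat_lit 103) (nat_lit 5) (nat_lit 110) (nat_lit 5) (nat_lit 104) (nat_lit 5) (nat_lit 330) (nat_lit 293) (nat_lit 157)))) (XT.nd (nat_lit 78) (nat_lit 380) (nat_lit 0) (XT.lf (nat_lit 0) (nat_lit 3409411847) (nat_lit 380) (nat_lit 4493780209) (nat_lit 456) (nat_lit 12837675612) (nat_lit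 98) (nat_lit 5) (nat_lit 103) (nat_lit 5) (nat_lit 104) (nat_lit 5) (nat_lit 331) (nat_lit 293) (nat_lit 156)) (XT.nd (nat_lit 78) (nat_lit 380) (nat_lit 0) (XT.lf (nat_lit 0) (nat_lit 10764940749) (nat_lit 456) (nat_lit 7748462327) (nat_lit 76) (nat_lit 2616183583) (nat_lit 98) (nat_lit 5) (nat_lit 104) (nat_lit 5) (nat_lit 99) (nat_lit 5) (nat_lit 332) (nat_lit 293) (nat_lit 155)) (XT.lf (nat_lit 0) (nat_lit 2109367728) (nat_lit 380) (nat_lit 11660318312) (nat_lit 456) (nat_lit 7758577510) (nat_lit 93) (nat_lit 5) (nat_lit 98) (nat_lit 5) (nat_lit 99) (nat_lit 5) (nat_lit 333) (nat_lit 293) (nat_lit 154))))))) (XT.nd (nat_lit 936) (nat_lit 1444) (nat_lit 0) (XT.nd (nat_lit 468) (nat_lit 988) (nat_lit 0) (XT.nd (nat_lit 234) (nat_lit 380) (nat_lit 0) (XT.nd (nat_lit 78) (nat_lit 380) (nat_lit 0) (XT.lf (nat_lit 0) (nat_lit 12412538225) (nat_lit 380) (nat_lit 4522787840) (nat_lit 456) (nat_lit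 5001462456) (nat_lit 93) (nat_lit 5) (nat_lit 98) (nat_lit 5) (nat_lit 99) (nat_lit 5) (nat_lit 334) (nat_lit 293) (nat_lit 153)) (XT.nd (nat_lit 78) (nat_lit 76) (nat_lit 0) (XT.lf (nat_lit 0) (nat_lit 643423768) (nat_lit 304) (nat_lit 19578599406) (nat_lit 380) (nat_lit 2134773472) (nat_lit 89) (nat_lit 5) (nat_lit 93) (nat_lit 5) (nat_lit 94) (nat_lit 5) (nat_lit 335) (nat_lit 293) (nat_lit 152)) (XT.lf (nat_lit 0) (nat_lit 936618856) (nat_lit 380) (nat_lit 11537985761) (nat_lit 76) (nat_lit 10310534101) (nat_lit 88) (nat_lit 5) (nat_lit 93) (nat_lit 5) (nat_lit 89) (nat_lit 5) (nat_lit 336) (nat_lit 293) (nat_lit 151)))) (XT.nd (nat_lit 78) (nat_lit 380) (nat_lit 0) (XT.lf (nat_lit 0) (nat_lit 4050211749) (nat_lit 380) (nat_lit 1087441609) (nat_lit 76) (nat_lit 18088263823) (nat_lit 88) (nat_lit 5) (nat_lit 93) (nat_lit 5) (nat_lit 89) (nat_lit 5) (nat_lit 337) (nat_lit 293) (nat_lit 150))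 (XT.nd (nat_lit 78) (nat_lit 0) (nat_lit 0) (XT.lf (nat_lit 0) (nat_lit 7369343608) (nat_lit 456) (nat_lit 13841144250) (nat_lit 76) (nat_lit 2466076129) (nat_lit 83) (nat_lit 5) (nat_lit 89) (nat_lit 5) (nat_lit 84) (nat_lit 5) (nat_lit 338) (nat_lit 293) (nat_lit 149)) (XT.lf (nat_lit 0) (nat_lit 10843275239) (nat_lit 456) (nat_lit 3091932290) (nat_lit 76) (nat_lit 10203874556) (nat_lit 83) (nat_lit 5) (nat_lit 89) (nat_lit 5) (nat_lit 84) (nat_lit 5) (nat_lit 339) (nat_lit 293) (nat_lit 148))))) (XT.nd (nat_lit 234) (nat_lit 380) (nat_lit 0) (XT.nd (nat_lit 78) (nat_lit 304) (nat_lit 0) (XT.lf (nat_lit 0) (nat_lit 8129841865) (nat_lit 304) (nat_lit 6363196248) (nat_lit 380) (nat_lit 10120297624) (nat_lit 79) (nat_lit 5) (nat_lit 83) (nat_lit 5) (nat_lit 84) (nat_lit 5) (nat_lit 340) (nat_lit 293) (nat_lit 147)) (XT.nd (nat_lit 78) (nat_lit 304) (nat_lit 0) (XT.lf (nat_lit 0) (nat_lit 18291182466)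 (nat_lit 380) (nat_lit 5371996180) (nat_lit 76) (nat_lit 1437479863) (nat_lit 79) (nat_lit 5) (nat_lit 84) (nat_lit 5) (nat_lit 80) (nat_lit 5) (nat_lit 341) (nat_lit 293) (nat_lit 146)) (XT.lf (nat_lit 0) (nat_lit 6120882961) (nat_lit 304) (nat_lit 16197969093) (nat_lit 380) (nat_lit 3280289410) (nat_lit 75) (nat_lit 5) (nat_lit 79) (nat_lit 5) (nat_lit 80) (nat_lit 5) (nat_lit 342) (nat_lit 293) (nat_lit 145)))) (XT.nd (nat_lit 78) (nat_lit 304) (nat_lit 0) (XT.lf (nat_lit 0) (nat_lit 396408759) (nat_lit 380) (nat_lit 8054680765) (nat_lit 76) (nat_lit 17659937781) (nat_lit 74) (nat_lit 5) (nat_lit 79) (nat_lit 5) (nat_lit 75) (nat_lit 5) (nat_lit 343) (nat_lit 293) (nat_lit 144)) (XT.nd (nat_lit 78) (nat_lit 0) (nat_lit 0) (XT.lf (nat_lit 0) (nat_lit 3743979869) (nat_lit 304) (nat_lit 403443276) (nat_lit 380) (nat_lit 22488981113) (nat_lit 70) (nat_lit 5) (nat_lit 74) (nat_lit 5) (nat_lit 75)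 (nat_lit 5) (nat_lit 344) (nat_lit 293) (nat_lit 143)) (XT.lf (nat_lit 0) (nat_lit 8162944683) (nat_lit 380) (nat_lit 11198284763) (nat_lit 76) (nat_lit 7811760817) (nat_lit 70) (nat_lit 5) (nat_lit 75) (nat_lit 5) (nat_lit 71) (nat_lit 5) (nat_lit 345) (nat_lit 293) (nat_lit 142)))))) (XT.nd (nat_lit 468) (nat_lit 532) (nat_lit 0) (XT.nd (nat_lit 234) (nat_lit 608) (nat_lit 0) (XT.nd (nat_lit 78) (nat_lit 0) (nat_lit 0) (XT.lf (nat_lit 0) (nat_lit 851248018) (nat_lit 304) (nat_lit 11454068239) (nat_lit 380) (nat_lit 15420172896) (nat_lit 66) (nat_lit 5) (nat_lit 70) (nat_lit 5) (nat_lit 71) (nat_lit 5) (nat_lit 346) (nat_lit 293) (nat_lit 141)) (XT.nd (nat_lit 78) (nat_lit 0) (nat_lit 0) (XT.lf (nat_lit 0) (nat_lit 13483852079) (nat_lit 304) (nat_lit 3195486931) (nat_lit 380) (nat_lit 11612009240) (nat_lit 66) (nat_lit 5) (nat_lit 70) (nat_lit 5) (nat_lit 71) (nat_lit 5) (nat_lit 347) (nat_lit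 293) (nat_lit 140)) (XT.lf (nat_lit 0) (nat_lit 21230077787) (nat_lit 380) (nat_lit 2437687806) (nat_lit 76) (nat_lit 5205059112) (nat_lit 66) (nat_lit 5) (nat_lit 71) (nat_lit 5) (nat_lit 67) (nat_lit 5) (nat_lit 348) (nat_lit 293) (nat_lit 139)))) (XT.nd (nat_lit 78) (nat_lit 380) (nat_lit 0) (XT.lf (nat_lit 0) (nat_lit 10468190375) (nat_lit 228) (nat_lit 15576019492) (nat_lit 304) (nat_lit 3423735712) (nat_lit 63) (nat_lit 5) (nat_lit 66) (nat_lit 5) (nat_lit 67) (nat_lit 5) (nat_lit 349) (nat_lit 293) (nat_lit 138)) (XT.nd (nat_lit 78) (nat_lit 304) (nat_lit 0) (XT.lf (nat_lit 0) (nat_lit 923348576) (nat_lit 304) (nat_lit 6285767266) (nat_lit 76) (nat_lit 22870959556) (nat_lit 62) (nat_lit 5) (nat_lit 66) (nat_lit 5) (nat_lit 63) (nat_lit 5) (nat_lit 350) (nat_lit 293) (nat_lit 137)) (XT.lf (nat_lit 0) (nat_lit 5407688428) (nat_lit 380) (nat_lit 23819264445) (nat_lit 76) (nat_lit 1480335313)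 (nat_lit 58) (nat_lit 5) (nat_lit 63) (nat_lit 5) (nat_lit 59) (nat_lit 5) (nat_lit 351) (nat_lit 293) (nat_lit 136))))) (XT.nd (nat_lit 234) (nat_lit 304) (nat_lit 0) (XT.nd (nat_lit 78) (nat_lit 228) (nat_lit 0) (XT.lf (nat_lit 0) (nat_lit 10156885183) (nat_lit 380) (nat_lit 10845074450) (nat_lit 76) (nat_lit 10347453484) (nat_lit 58) (nat_lit 5) (nat_lit 63) (nat_lit 5) (nat_lit 59) (nat_lit 5) (nat_lit 352) (nat_lit 293) (nat_lit 135)) (XT.nd (nat_lit 78) (nat_lit 0) (nat_lit 0) (XT.lf (nat_lit 0) (nat_lit 2560999037) (nat_lit 228) (nat_lit 12507173726) (nat_lit 304) (nat_lit 16942045985) (nat_lit 55) (nat_lit 5) (nat_lit 58) (nat_lit 5) (nat_lit 59) (nat_lit 5) (nat_lit 353) (nat_lit 293) (nat_lit 134)) (XT.lf (nat_lit 0) (nat_lit 16584323332) (nat_lit 228) (nat_lit 3647062734) (nat_lit 304) (nat_lit 12456330109) (nat_lit 55) (nat_lit 5) (nat_lit 58) (nat_lit 5) (nat_lit 59) (nat_lit 5) (nat_lit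 354) (nat_lit 293) (nat_lit 133)))) (XT.nd (nat_lit 78) (nat_lit 304) (nat_lit 0) (XT.lf (nat_lit 0) (nat_lit 25597356820) (nat_lit 304) (nat_lit 2417017978) (nat_lit 76) (nat_lit 5369732983) (nat_lit 55) (nat_lit 5) (nat_lit 59) (nat_lit 5) (nat_lit 56) (nat_lit 5) (nat_lit 355) (nat_lit 293) (nat_lit 132)) (XT.nd (nat_lit 78) (nat_lit 76) (nat_lit 0) (XT.lf (nat_lit 0) (nat_lit 11868483287) (nat_lit 228) (nat_lit 19401354994) (nat_lit 304) (nat_lit 2827191848) (nat_lit 52) (nat_lit 5) (nat_lit 55) (nat_lit 5) (nat_lit 56) (nat_lit 5) (nat_lit 356) (nat_lit 293) (nat_lit 131)) (XT.lf (nat_lit 0) (nat_lit 2256643735) (nat_lit 304) (nat_lit 8227662473) (nat_lit 76) (nat_lit 24345780665) (nat_lit 51) (nat_lit 5) (nat_lit 55) (nat_lit 5) (nat_lit 52) (nat_lit 5) (nat_lit 357) (nat_lit 293) (nat_lit 130))))))))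
noncomputable def xc192 : XT := (XT.nd (nat_lit 1794) (nat_lit 304) (nat_lit 0) (XT.nd (nat_lit 858) (nat_lit 760) (nat_lit 0) (XT.nd (nat_lit 390) (nat_lit 608) (nat_lit 0) (XT.nd (nat_lit 156) (nat_lit 228) (nat_lit 0) (XT.nd (nat_lit 78) (nat_lit 0) (nat_lit 0) (XT.lf (nat_lit 0) (nat_lit 6281044438) (nat_lit 228) (nat_lit 1210993171) (nat_lit 304) (nat_lit 28090586460) (nat_lit 48) (nat_lit 5) (nat_lit 51) (nat_lit 5) (nat_lit 52) (nat_lit 5) (nat_lit 358) (nat_lit 293) (nat_lit 129)) (XT.lf (nat_lit 0) (nat_lit 13044108131) (nat_lit 304) (nat_lit 15049397326) (nat_lit 76) (nat_lit 8259447869) (nat_lit 48) (nat_lit 5) (nat_lit 52) (nat_lit 5) (nat_lit 49) (nat_lit 5) (nat_lit 359) (nat_lit 293) (nat_lit 128))) (XT.nd (nat_lit 78) (nat_lit 228) (nat_lit 0) (XT.lf (nat_lit 0) (nat_lit 18770395647) (nat_lit 304) (nat_lit 388267964) (nat_lit 76) (nat_lit 17987503466) (nat_lit 48) (nat_lit 5) (nat_lit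 52) (nat_lit 5) (nat_lit 49) (nat_lit 5) (nat_lit 360) (nat_lit 293) (nat_lit 127)) (XT.nd (nat_lit 78) (nat_lit 0) (nat_lit 0) (XT.lf (nat_lit 0) (nat_lit 14998943364) (nat_lit 228) (nat_lit 9809498555) (nat_lit 304) (nat_lit 13150540354) (nat_lit 45) (nat_lit 5) (nat_lit 48) (nat_lit 5) (nat_lit 49) (nat_lit 5) (nat_lit 361) (nat_lit 293) (nat_lit 126)) (XT.lf (nat_lit 0) (nat_lit 30849357915) (nat_lit 228) (nat_lit 178044859) (nat_lit 304) (nat_lit 7768789973) (nat_lit 45) (nat_lit 5) (nat_lit 48) (nat_lit 5) (nat_lit 49) (nat_lit 5) (nat_lit 362) (nat_lit 293) (nat_lit 125))))) (XT.nd (nat_lit 234) (nat_lit 380) (nat_lit 0) (XT.nd (nat_lit 78) (nat_lit 76) (nat_lit 0) (XT.lf (nat_lit 0) (nat_lit 7564434710) (nat_lit 152) (nat_lit 30030813658) (nat_lit 228) (nat_lit 2058405589) (nat_lit 43) (nat_lit 5) (nat_lit 45) (nat_lit 5) (nat_lit 46) (nat_lit 5) (nat_lit 363) (nat_lit 293) (nat_lit 124))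 (XT.nd (nat_lit 78) (nat_lit 0) (nat_lit 0) (XT.lf (nat_lit 0) (nat_lit 3827456248) (nat_lit 228) (nat_lit 16876108908) (nat_lit 76) (nat_lit 19829811806) (nat_lit 42) (nat_lit 5) (nat_lit 45) (nat_lit 5) (nat_lit 43) (nat_lit 5) (nat_lit 364) (nat_lit 293) (nat_lit 123)) (XT.lf (nat_lit 0) (nat_lit 9844606774) (nat_lit 228) (nat_lit 1233114477) (nat_lit 76) (nat_lit 30361280026) (nat_lit 42) (nat_lit 5) (nat_lit 45) (nat_lit 5) (nat_lit 43) (nat_lit 5) (nat_lit 365) (nat_lit 293) (nat_lit 122)))) (XT.nd (nat_lit 78) (nat_lit 152) (nat_lit 0) (XT.lf (nat_lit 0) (nat_lit 15169225561) (nat_lit 228) (nat_lit 1015060913) (nat_lit 304) (nat_lit 26183250873) (nat_lit 39) (nat_lit 5) (nat_lit 42) (nat_lit 5) (nat_lit 43) (nat_lit 5) (nat_lit 366) (nat_lit 293) (nat_lit 121)) (XT.nd (nat_lit 78) (nat_lit 152) (nat_lit 0) (XT.lf (nat_lit 0) (nat_lit 22812837046) (nat_lit 304) (nat_lit 11330625975) (nat_lit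 76) (nat_lit 9177509428) (nat_lit 39) (nat_lit 5) (nat_lit 43) (nat_lit 5) (nat_lit 40) (nat_lit 5) (nat_lit 367) (nat_lit 293) (nat_lit 120)) (XT.lf (nat_lit 0) (nat_lit 5096682039) (nat_lit 152) (nat_lit 24598946610) (nat_lit 228) (nat_lit 14605723685) (nat_lit 37) (nat_lit 5) (nat_lit 39) (nat_lit 5) (nat_lit 40) (nat_lit 5) (nat_lit 368) (nat_lit 293) (nat_lit 119)))))) (XT.nd (nat_lit 468) (nat_lit 380) (nat_lit 0) (XT.nd (nat_lit 234) (nat_lit 152) (nat_lit 0) (XT.nd (nat_lit 78) (nat_lit 228) (nat_lit 0) (XT.lf (nat_lit 0) (nat_lit 22243320120) (nat_lit 152) (nat_lit 14652394182) (nat_lit 228) (nat_lit 8412108175) (nat_lit 37) (nat_lit 5) (nat_lit 39) (nat_lit 5) (nat_lit 40) (nat_lit 5) (nat_lit 369) (nat_lit 293) (nat_lit 118)) (XT.nd (nat_lit 78) (nat_lit 228) (nat_lit 0) (XT.lf (nat_lit 0) (nat_lit 39898769093) (nat_lit 152) (nat_lit 4409531682) (nat_lit 228) (nat_lit 2036294083) (nat_lit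 37) (nat_lit 5) (nat_lit 39) (nat_lit 5) (nat_lit 40) (nat_lit 5) (nat_lit 370) (nat_lit 293) (nat_lit 117)) (XT.lf (nat_lit 0) (nat_lit 4603556633) (nat_lit 228) (nat_lit 36634848062) (nat_lit 76) (nat_lit 6167926802) (nat_lit 34) (nat_lit 5) (nat_lit 37) (nat_lit 5) (nat_lit 35) (nat_lit 5) (nat_lit 371) (nat_lit 293) (nat_lit 116)))) (XT.nd (nat_lit 78) (nat_lit 152) (nat_lit 0) (XT.lf (nat_lit 0) (nat_lit 11507660434) (nat_lit 228) (nat_lit 19930514639) (nat_lit 76) (nat_lit 17057963589) (nat_lit 34) (nat_lit 5) (nat_lit 37) (nat_lit 5) (nat_lit 35) (nat_lit 5) (nat_lit 372) (nat_lit 293) (nat_lit 115)) (XT.nd (nat_lit 78) (nat_lit 152) (nat_lit 0) (XT.lf (nat_lit 0) (nat_lit 18615578292) (nat_lit 228) (nat_lit 2730417831) (nat_lit 76) (nat_lit 28272745927) (nat_lit 34) (nat_lit 5) (nat_lit 37) (nat_lit 5) (nat_lit 35) (nat_lit 5) (nat_lit 373) (nat_lit 293) (nat_lit 114)) (XT.lf (nat_lit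 0) (nat_lit 15278612330) (nat_lit 152) (nat_lit 10801776045) (nat_lit 228) (nat_lit 24690328178) (nat_lit 32) (nat_lit 5) (nat_lit 34) (nat_lit 5) (nat_lit 35) (nat_lit 5) (nat_lit 374) (nat_lit 293) (nat_lit 113))))) (XT.nd (nat_lit 234) (nat_lit 228) (nat_lit 0) (XT.nd (nat_lit 78) (nat_lit 152) (nat_lit 0) (XT.lf (nat_lit 0) (nat_lit 33794364724) (nat_lit 228) (nat_lit 18078614512) (nat_lit 76) (nat_lit 83516976) (nat_lit 32) (nat_lit 5) (nat_lit 35) (nat_lit 5) (nat_lit 33) (nat_lit 5) (nat_lit 375) (nat_lit 293) (nat_lit 112)) (XT.nd (nat_lit 78) (nat_lit 152) (nat_lit 0) (XT.lf (nat_lit 0) (nat_lit 41843613657) (nat_lit 228) (nat_lit 254753562) (nat_lit 76) (nat_lit 11076368946) (nat_lit 32) (nat_lit 5) (nat_lit 35) (nat_lit 5) (nat_lit 33) (nat_lit 5) (nat_lit 376) (nat_lit 293) (nat_lit 111)) (XT.lf (nat_lit 0) (nat_lit 18459089473) (nat_lit 152) (nat_lit 31849685807) (nat_lit 228) (nat_lit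 4115517409) (nat_lit 30) (nat_lit 5) (nat_lit 32) (nat_lit 5) (nat_lit 33) (nat_lit 5) (nat_lit 377) (nat_lit 293) (nat_lit 110)))) (XT.nd (nat_lit 78) (nat_lit 152) (nat_lit 0) (XT.lf (nat_lit 0) (nat_lit 3251439899) (nat_lit 228) (nat_lit 18008545549) (nat_lit 76) (nat_lit 34450408269) (nat_lit 29) (nat_lit 5) (nat_lit 32) (nat_lit 5) (nat_lit 30) (nat_lit 5) (nat_lit 378) (nat_lit 293) (nat_lit 109)) (XT.nd (nat_lit 78) (nat_lit 0) (nat_lit 0) (XT.lf (nat_lit 0) (nat_lit 450039658) (nat_lit 152) (nat_lit 10308065787) (nat_lit 228) (nat_lit 46275709604) (nat_lit 27) (nat_lit 5) (nat_lit 29) (nat_lit 5) (nat_lit 30) (nat_lit 5) (nat_lit 379) (nat_lit 293) (nat_lit 108)) (XT.lf (nat_lit 0) (nat_lit 18680081972) (nat_lit 228) (nat_lit 38575920813) (nat_lit 76) (nat_lit 1135235065) (nat_lit 27) (nat_lit 5) (nat_lit 30) (nat_lit 5) (nat_lit 28) (nat_lit 5) (nat_lit 380) (nat_lit 293) (nat_lit 107)))))))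 (XT.nd (nat_lit 34164) (nat_lit 0) (nat_lit 11248) (XT.nd (nat_lit 468) (nat_lit 0) (nat_lit 0) (XT.nd (nat_lit 234) (nat_lit 152) (nat_lit 0) (XT.nd (nat_lit 78) (nat_lit 152) (nat_lit 0) (XT.lf (nat_lit 0) (nat_lit 26938974059) (nat_lit 228) (nat_lit 20134579348) (nat_lit 76) (nat_lit 12712854335) (nat_lit 27) (nat_lit 5) (nat_lit 30) (nat_lit 5) (nat_lit 28) (nat_lit 5) (nat_lit 381) (nat_lit 293) (nat_lit 106)) (XT.nd (nat_lit 78) (nat_lit 152) (nat_lit 0) (XT.lf (nat_lit 0) (nat_lit 35442910782) (nat_lit 228) (nat_lit 1144549769) (nat_lit 76) (nat_lit 24636055882) (nat_lit 27) (nat_lit 5) (nat_lit 30) (nat_lit 5) (nat_lit 28) (nat_lit 5) (nat_lit 382) (nat_lit 293) (nat_lit 105)) (XT.lf (nat_lit 0) (nat_lit 18777171401) (nat_lit 152) (nat_lit 25602649020) (nat_lit 228) (nat_lit 18318584293) (nat_lit 25) (nat_lit 5) (nat_lit 27) (nat_lit 5) (nat_lit 28) (nat_lit 5) (nat_lit 383) (nat_lit 293)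 (nat_lit 104)))) (XT.nd (nat_lit 78) (nat_lit 152) (nat_lit 0) (XT.lf (nat_lit 0) (nat_lit 39315630141) (nat_lit 152) (nat_lit 14278156984) (nat_lit 228) (nat_lit 10623485944) (nat_lit 25) (nat_lit 5) (nat_lit 27) (nat_lit 5) (nat_lit 28) (nat_lit 5) (nat_lit 384) (nat_lit 293) (nat_lit 103)) (XT.nd (nat_lit 78) (nat_lit 152) (nat_lit 0) (XT.lf (nat_lit 0) (nat_lit 60465993892) (nat_lit 152) (nat_lit 2615646965) (nat_lit 228) (nat_lit 2700144440) (nat_lit 25) (nat_lit 5) (nat_lit 27) (nat_lit 5) (nat_lit 28) (nat_lit 5) (nat_lit 385) (nat_lit 293) (nat_lit 102)) (XT.lf (nat_lit 0) (nat_lit 5589226081) (nat_lit 152) (nat_lit 52384114308) (nat_lit 76) (nat_lit 9411272737) (nat_lit 23) (nat_lit 5) (nat_lit 25) (nat_lit 5) (nat_lit 24) (nat_lit 5) (nat_lit 386) (nat_lit 293) (nat_lit 101))))) (XT.nd (nat_lit 33462) (nat_lit 0) (nat_lit 11932) (XT.nd (nat_lit 78) (nat_lit 0) (nat_lit 0) (XT.lf (nat_lit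 0) (nat_lit 14150647617) (nat_lit 152) (nat_lit 33056026560) (nat_lit 76) (nat_lit 21825722091) (nat_lit 23) (nat_lit 5) (nat_lit 25) (nat_lit 5) (nat_lit 24) (nat_lit 5) (nat_lit 387) (nat_lit 293) (nat_lit 100)) (XT.nd (nat_lit 33306) (nat_lit 0) (nat_lit 11932) (XT.lf (nat_lit 0) (nat_lit 22966515766) (nat_lit 152) (nat_lit 13152168346) (nat_lit 76) (nat_lit 34611002328) (nat_lit 23) (nat_lit 5) (nat_lit 25) (nat_lit 5) (nat_lit 24) (nat_lit 5) (nat_lit 388) (nat_lit 293) (nat_lit 99)) (XT.lf (nat_lit 0) (nat_lit 903642820) (nat_lit 1140) (nat_lit 2435862678) (nat_lit 1140) (nat_lit 2435862678) (nat_lit 180) (nat_lit 3) (nat_lit 195) (nat_lit 3) (nat_lit 195) (nat_lit 5) (nat_lit 294) (nat_lit 294) (nat_lit 192)))) (XT.nd (nat_lit 78) (nat_lit 0) (nat_lit 76) (XT.lf (nat_lit 76) (nat_lit 176033603) (nat_lit 0) (nat_lit 2138929372) (nat_lit 1140) (nat_lit 9393752787) (nat_lit 181) (nat_lit 5)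 (nat_lit 180) (nat_lit 3) (nat_lit 195) (nat_lit 5) (nat_lit 295) (nat_lit 294) (nat_lit 191)) (XT.nd (nat_lit 78) (nat_lit 0) (nat_lit 0) (XT.lf (nat_lit 0) (nat_lit 2893245508) (nat_lit 1064) (nat_lit 6430262449) (nat_lit 1140) (nat_lit 2546299096) (nat_lit 181) (nat_lit 5) (nat_lit 195) (nat_lit 5) (nat_lit 196) (nat_lit 5) (nat_lit 296) (nat_lit 294) (nat_lit 190)) (XT.lf (nat_lit 0) (nat_lit 3491900945) (nat_lit 1064) (nat_lit 1206158327) (nat_lit 1140) (nat_lit 7337613837) (nat_lit 181) (nat_lit 5) (nat_lit 195) (nat_lit 5) (nat_lit 196) (nat_lit 5) (nat_lit 297) (nat_lit 294) (nat_lit 189)))))) (XT.nd (nat_lit 468) (nat_lit 836) (nat_lit 0) (XT.nd (nat_lit 234) (nat_lit 0) (nat_lit 76) (XT.nd (nat_lit 78) (nat_lit 0) (nat_lit 0) (XT.lf (nat_lit 0) (nat_lit 4132836916) (nat_lit 1064) (nat_lit 7959322589) (nat_lit 1140) (nat_lit 113657820) (nat_lit 182) (nat_lit 5) (nat_lit 196) (nat_lit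 5) (nat_lit 197) (nat_lit 5) (nat_lit 298) (nat_lit 294) (nat_lit 188)) (XT.nd (nat_lit 78) (nat_lit 0) (nat_lit 0) (XT.lf (nat_lit 0) (nat_lit 4834682476) (nat_lit 1064) (nat_lit 2550318194) (nat_lit 1140) (nat_lit 4994845633) (nat_lit 182) (nat_lit 5) (nat_lit 196) (nat_lit 5) (nat_lit 197) (nat_lit 5) (nat_lit 299) (nat_lit 294) (nat_lit 187)) (XT.lf (nat_lit 76) (nat_lit 3070747437) (nat_lit 0) (nat_lit 2499718573) (nat_lit 1140) (nat_lit 6988273642) (nat_lit 183) (nat_lit 5) (nat_lit 182) (nat_lit 5) (nat_lit 197) (nat_lit 5) (nat_lit 300) (nat_lit 294) (nat_lit 186)))) (XT.nd (nat_lit 78) (nat_lit 0) (nat_lit 0) (XT.lf (nat_lit 0) (nat_lit 6362484108) (nat_lit 1064) (nat_lit 3864705633) (nat_lit 1140) (nat_lit 2514814335) (nat_lit 183) (nat_lit 5) (nat_lit 197) (nat_lit 5) (nat_lit 198) (nat_lit 5) (nat_lit 301) (nat_lit 294) (nat_lit 185)) (XT.nd (nat_lit 78) (nat_lit 0) (nat_lit 0) (XT.lf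 (nat_lit 76) (nat_lit 1929890725) (nat_lit 0) (nat_lit 5275957040) (nat_lit 1140) (nat_lit 5724119375) (nat_lit 184) (nat_lit 5) (nat_lit 183) (nat_lit 5) (nat_lit 198) (nat_lit 5) (nat_lit 302) (nat_lit 294) (nat_lit 184)) (XT.lf (nat_lit 76) (nat_lit 7967350362) (nat_lit 0) (nat_lit 130831681) (nat_lit 1140) (nat_lit 5024704400) (nat_lit 184) (nat_lit 5) (nat_lit 183) (nat_lit 5) (nat_lit 198) (nat_lit 5) (nat_lit 303) (nat_lit 294) (nat_lit 183))))) (XT.nd (nat_lit 234) (nat_lit 988) (nat_lit 0) (XT.nd (nat_lit 78) (nat_lit 0) (nat_lit 0) (XT.lf (nat_lit 76) (nat_lit 820239762) (nat_lit 0) (nat_lit 8239754610) (nat_lit 1140) (nat_lit 4260344347) (nat_lit 185) (nat_lit 5) (nat_lit 184) (nat_lit 5) (nat_lit 199) (nat_lit 5) (nat_lit 304) (nat_lit 294) (nat_lit 182)) (XT.nd (nat_lit 78) (nat_lit 0) (nat_lit 76) (XT.lf (nat_lit 76) (nat_lit 7069331019) (nat_lit 0) (nat_lit 3020146334) (nat_lit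 1140) (nat_lit 3433098583) (nat_lit 185) (nat_lit 5) (nat_lit 184) (nat_lit 5) (nat_lit 199) (nat_lit 5) (nat_lit 305) (nat_lit 294) (nat_lit 181)) (XT.lf (nat_lit 0) (nat_lit 11158427816) (nat_lit 1064) (nat_lit 258140110) (nat_lit 1140) (nat_lit 2314079961) (nat_lit 185) (nat_lit 5) (nat_lit 199) (nat_lit 5) (nat_lit 200) (nat_lit 5) (nat_lit 306) (nat_lit 294) (nat_lit 180)))) (XT.nd (nat_lit 78) (nat_lit 1064) (nat_lit 0) (XT.lf (nat_lit 76) (nat_lit 6203772316) (nat_lit 0) (nat_lit 6131556222) (nat_lit 1140) (nat_lit 1607381384) (nat_lit 186) (nat_lit 5) (nat_lit 185) (nat_lit 5) (nat_lit 200) (nat_lit 5) (nat_lit 307) (nat_lit 294) (nat_lit 179)) (XT.nd (nat_lit 78) (nat_lit 1064) (nat_lit 0) (XT.lf (nat_lit 76) (nat_lit 12854732718) (nat_lit 0) (nat_lit 682055750) (nat_lit 1140) (nat_lit 624691450) (nat_lit 186) (nat_lit 5) (nat_lit 185) (nat_lit 5) (nat_lit 200) (nat_lit 5) (nat_lit 308)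 (nat_lit 294) (nat_lit 178)) (XT.lf (nat_lit 0) (nat_lit 466787424) (nat_lit 1140) (nat_lit 9023371004) (nat_lit 1216) (nat_lit 4893959072) (nat_lit 171) (nat_lit 5) (nat_lit 186) (nat_lit 5) (nat_lit 187) (nat_lit 5) (nat_lit 309) (nat_lit 294) (nat_lit 177))))))))
noncomputable def xc193 : XT := (XT.nd (nat_lit 1794) (nat_lit 3268) (nat_lit 0) (XT.nd (nat_lit 858) (nat_lit 2736) (nat_lit 0) (XT.nd (nat_lit 390) (nat_lit 1748) (nat_lit 0) (XT.nd (nat_lit 156) (nat_lit 1064) (nat_lit 0) (XT.nd (nat_lit 78) (nat_lit 0) (nat_lit 76) (XT.lf (nat_lit 0) (nat_lit 1585731074) (nat_lit 1140) (nat_lit 2381480146) (nat_lit 1216) (nat_lit 10645840814) (nat_lit 171) (nat_lit 5) (nat_lit 186) (nat_lit 5) (nat_lit 187) (nat_lit 5) (nat_lit 310) (nat_lit 294) (nat_lit 176)) (XT.lf (nat_lit 0) (nat_lit 2786437257) (nat_lit 1140) (nat_lit 10326840675) (nat_lit 76) (nat_lit 1734151873) (nat_lit 172) (nat_lit 5)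 (nat_lit 187) (nat_lit 5) (nat_lit 173) (nat_lit 5) (nat_lit 311) (nat_lit 294) (nat_lit 175))) (XT.nd (nat_lit 78) (nat_lit 1140) (nat_lit 0) (XT.lf (nat_lit 0) (nat_lit 4074586360) (nat_lit 1140) (nat_lit 3459524563) (nat_lit 76) (nat_lit 7553205748) (nat_lit 172) (nat_lit 5) (nat_lit 187) (nat_lit 5) (nat_lit 173) (nat_lit 5) (nat_lit 312) (nat_lit 294) (nat_lit 174)) (XT.nd (nat_lit 78) (nat_lit 0) (nat_lit 0) (XT.lf (nat_lit 0) (nat_lit 3675407017) (nat_lit 1140) (nat_lit 1749512921) (nat_lit 1216) (nat_lit 9908793824) (nat_lit 157) (nat_lit 5) (nat_lit 172) (nat_lit 5) (nat_lit 173) (nat_lit 5) (nat_lit 313) (nat_lit 294) (nat_lit 173)) (XT.lf (nat_lit 0) (nat_lit 6879971057) (nat_lit 1216) (nat_lit 4542358388) (nat_lit 76) (nat_lit 4163266340) (nat_lit 157) (nat_lit 5) (nat_lit 173) (nat_lit 5) (nat_lit 158) (nat_lit 5) (nat_lit 314) (nat_lit 294) (nat_lit 172))))) (XT.nd (nat_lit 234)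 (nat_lit 608) (nat_lit 0) (XT.nd (nat_lit 78) (nat_lit 608) (nat_lit 0) (XT.lf (nat_lit 0) (nat_lit 2814566592) (nat_lit 532) (nat_lit 5597291519) (nat_lit 608) (nat_lit 7432199307) (nat_lit 150) (nat_lit 5) (nat_lit 157) (nat_lit 5) (nat_lit 158) (nat_lit 5) (nat_lit 315) (nat_lit 294) (nat_lit 171)) (XT.nd (nat_lit 78) (nat_lit 608) (nat_lit 0) (XT.lf (nat_lit 0) (nat_lit 10028940123) (nat_lit 608) (nat_lit 5638266278) (nat_lit 76) (nat_lit 441907488) (nat_lit 150) (nat_lit 5) (nat_lit 158) (nat_lit 5) (nat_lit 151) (nat_lit 5) (nat_lit 316) (nat_lit 294) (nat_lit 170)) (XT.lf (nat_lit 0) (nat_lit 1947215742) (nat_lit 608) (nat_lit 9810820681) (nat_lit 684) (nat_lit 4622198184) (nat_lit 142) (nat_lit 5) (nat_lit 150) (nat_lit 5) (nat_lit 151) (nat_lit 5) (nat_lit 317) (nat_lit 294) (nat_lit 169)))) (XT.nd (nat_lit 78) (nat_lit 608) (nat_lit 0) (XT.lf (nat_lit 0) (nat_lit 9865882031) (nat_lit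 608) (nat_lit 3719638307) (nat_lit 684) (nat_lit 3072590266) (nat_lit 142) (nat_lit 5) (nat_lit 150) (nat_lit 5) (nat_lit 151) (nat_lit 5) (nat_lit 318) (nat_lit 294) (nat_lit 168)) (XT.nd (nat_lit 78) (nat_lit 76) (nat_lit 0) (XT.lf (nat_lit 0) (nat_lit 1064001149) (nat_lit 532) (nat_lit 14428495860) (nat_lit 608) (nat_lit 1451102422) (nat_lit 135) (nat_lit 5) (nat_lit 142) (nat_lit 5) (nat_lit 143) (nat_lit 5) (nat_lit 319) (nat_lit 294) (nat_lit 167)) (XT.lf (nat_lit 0) (nat_lit 310823961) (nat_lit 608) (nat_lit 7990166844) (nat_lit 76) (nat_lit 8933732563) (nat_lit 134) (nat_lit 5) (nat_lit 142) (nat_lit 5) (nat_lit 135) (nat_lit 5) (nat_lit 320) (nat_lit 294) (nat_lit 166)))))) (XT.nd (nat_lit 468) (nat_lit 1292) (nat_lit 0) (XT.nd (nat_lit 234) (nat_lit 912) (nat_lit 0) (XT.nd (nat_lit 78) (nat_lit 0) (nat_lit 0) (XT.lf (nat_lit 0) (nat_lit 113988284) (nat_lit 532) (nat_lit 1973814504) (nat_lit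 608) (nat_lit 15446621593) (nat_lit 127) (nat_lit 5) (nat_lit 134) (nat_lit 5) (nat_lit 135) (nat_lit 5) (nat_lit 321) (nat_lit 294) (nat_lit 165)) (XT.nd (nat_lit 78) (nat_lit 0) (nat_lit 0) (XT.lf (nat_lit 0) (nat_lit 4033699745) (nat_lit 608) (nat_lit 9270127293) (nat_lit 76) (nat_lit 4535835872) (nat_lit 127) (nat_lit 5) (nat_lit 135) (nat_lit 5) (nat_lit 128) (nat_lit 5) (nat_lit 322) (nat_lit 294) (nat_lit 164)) (XT.lf (nat_lit 0) (nat_lit 6048247482) (nat_lit 608) (nat_lit 904579527) (nat_lit 76) (nat_lit 11200937689) (nat_lit 127) (nat_lit 5) (nat_lit 135) (nat_lit 5) (nat_lit 128) (nat_lit 5) (nat_lit 323) (nat_lit 294) (nat_lit 163)))) (XT.nd (nat_lit 78) (nat_lit 456) (nat_lit 0) (XT.lf (nat_lit 0) (nat_lit 7855785077) (nat_lit 456) (nat_lit 333962304) (nat_lit 532) (nat_lit 10285560587) (nat_lit 121) (nat_lit 5) (nat_lit 127) (nat_lit 5) (nat_lit 128) (nat_lit 5) (nat_lit 324) (nat_lit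 294) (nat_lit 162)) (XT.nd (nat_lit 78) (nat_lit 456) (nat_lit 0) (XT.lf (nat_lit 0) (nat_lit 10458208544) (nat_lit 532) (nat_lit 1980758311) (nat_lit 76) (nat_lit 6365662690) (nat_lit 121) (nat_lit 5) (nat_lit 128) (nat_lit 5) (nat_lit 122) (nat_lit 5) (nat_lit 325) (nat_lit 294) (nat_lit 161)) (XT.lf (nat_lit 0) (nat_lit 7041931517) (nat_lit 456) (nat_lit 5815215451) (nat_lit 532) (nat_lit 6284824202) (nat_lit 115) (nat_lit 5) (nat_lit 121) (nat_lit 5) (nat_lit 122) (nat_lit 5) (nat_lit 326) (nat_lit 294) (nat_lit 160))))) (XT.nd (nat_lit 234) (nat_lit 836) (nat_lit 0) (XT.nd (nat_lit 78) (nat_lit 456) (nat_lit 0) (XT.lf (nat_lit 0) (nat_lit 15349513894) (nat_lit 532) (nat_lit 3132317703) (nat_lit 76) (nat_lit 1006970358) (nat_lit 115) (nat_lit 5) (nat_lit 122) (nat_lit 5) (nat_lit 116) (nat_lit 5) (nat_lit 327) (nat_lit 294) (nat_lit 159)) (XT.nd (nat_lit 78) (nat_lit 76) (nat_lit 0) (XT.lf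 (nat_lit 0) (nat_lit 6157787080) (nat_lit 380) (nat_lit 11867457093) (nat_lit 456) (nat_lit 1817548072) (nat_lit 110) (nat_lit 5) (nat_lit 115) (nat_lit 5) (nat_lit 116) (nat_lit 5) (nat_lit 328) (nat_lit 294) (nat_lit 158)) (XT.lf (nat_lit 0) (nat_lit 586472370) (nat_lit 456) (nat_lit 4430793912) (nat_lit 76) (nat_lit 15189267339) (nat_lit 109) (nat_lit 5) (nat_lit 115) (nat_lit 5) (nat_lit 110) (nat_lit 5) (nat_lit 329) (nat_lit 294) (nat_lit 157)))) (XT.nd (nat_lit 78) (nat_lit 380) (nat_lit 0) (XT.lf (nat_lit 0) (nat_lit 3088200810) (nat_lit 532) (nat_lit 15424670514) (nat_lit 76) (nat_lit 2065923804) (nat_lit 103) (nat_lit 5) (nat_lit 110) (nat_lit 5) (nat_lit 104) (nat_lit 5) (nat_lit 330) (nat_lit 294) (nat_lit 156)) (XT.nd (nat_lit 78) (nat_lit 380) (nat_lit 0) (XT.lf (nat_lit 0) (nat_lit 5752093087) (nat_lit 532) (nat_lit 5902770580) (nat_lit 76) (nat_lit 9304758426) (nat_lit 103) (nat_lit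 5) (nat_lit 110) (nat_lit 5) (nat_lit 104) (nat_lit 5) (nat_lit 331) (nat_lit 294) (nat_lit 155)) (XT.lf (nat_lit 0) (nat_lit 3973402224) (nat_lit 380) (nat_lit 4553171144) (nat_lit 456) (nat_lit 12824391017) (nat_lit 98) (nat_lit 5) (nat_lit 103) (nat_lit 5) (nat_lit 104) (nat_lit 5) (nat_lit 332) (nat_lit 294) (nat_lit 154))))))) (XT.nd (nat_lit 936) (nat_lit 1444) (nat_lit 0) (XT.nd (nat_lit 468) (nat_lit 1064) (nat_lit 0) (XT.nd (nat_lit 234) (nat_lit 380) (nat_lit 0) (XT.nd (nat_lit 78) (nat_lit 380) (nat_lit 0) (XT.lf (nat_lit 0) (nat_lit 11463627376) (nat_lit 456) (nat_lit 7521583840) (nat_lit 76) (nat_lit 2766465893) (nat_lit 98) (nat_lit 5) (nat_lit 104) (nat_lit 5) (nat_lit 99) (nat_lit 5) (nat_lit 333) (nat_lit 294) (nat_lit 153)) (XT.nd (nat_lit 78) (nat_lit 0) (nat_lit 0) (XT.lf (nat_lit 0) (nat_lit 2627477859) (nat_lit 380) (nat_lit 11924465425) (nat_lit 456) (nat_lit 7610583466)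 (nat_lit 93) (nat_lit 5) (nat_lit 98) (nat_lit 5) (nat_lit 99) (nat_lit 5) (nat_lit 334) (nat_lit 294) (nat_lit 152)) (XT.lf (nat_lit 0) (nat_lit 13226496021) (nat_lit 380) (nat_lit 4575304062) (nat_lit 456) (nat_lit 4781844806) (nat_lit 93) (nat_lit 5) (nat_lit 98) (nat_lit 5) (nat_lit 99) (nat_lit 5) (nat_lit 335) (nat_lit 294) (nat_lit 151)))) (XT.nd (nat_lit 78) (nat_lit 76) (nat_lit 0) (XT.lf (nat_lit 0) (nat_lit 1110324301) (nat_lit 304) (nat_lit 20071413309) (nat_lit 380) (nat_lit 1834690876) (nat_lit 89) (nat_lit 5) (nat_lit 93) (nat_lit 5) (nat_lit 94) (nat_lit 5) (nat_lit 336) (nat_lit 294) (nat_lit 150)) (XT.nd (nat_lit 78) (nat_lit 0) (nat_lit 0) (XT.lf (nat_lit 0) (nat_lit 1311339164) (nat_lit 380) (nat_lit 11442213024) (nat_lit 76) (nat_lit 10704289171) (nat_lit 88) (nat_lit 5) (nat_lit 93) (nat_lit 5) (nat_lit 89) (nat_lit 5) (nat_lit 337) (nat_lit 294) (nat_lit 149)) (XT.lf (nat_lit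 0) (nat_lit 4508244066) (nat_lit 380) (nat_lit 691023780) (nat_lit 76) (nat_lit 18712891396) (nat_lit 88) (nat_lit 5) (nat_lit 93) (nat_lit 5) (nat_lit 89) (nat_lit 5) (nat_lit 338) (nat_lit 294) (nat_lit 148))))) (XT.nd (nat_lit 234) (nat_lit 380) (nat_lit 0) (XT.nd (nat_lit 78) (nat_lit 304) (nat_lit 0) (XT.lf (nat_lit 0) (nat_lit 7922135768) (nat_lit 456) (nat_lit 13822096516) (nat_lit 76) (nat_lit 2632250396) (nat_lit 83) (nat_lit 5) (nat_lit 89) (nat_lit 5) (nat_lit 84) (nat_lit 5) (nat_lit 339) (nat_lit 294) (nat_lit 147)) (XT.nd (nat_lit 78) (nat_lit 304) (nat_lit 0) (XT.lf (nat_lit 0) (nat_lit 11490623838) (nat_lit 456) (nat_lit 2763057190) (nat_lit 76) (nat_lit 10599497572) (nat_lit 83) (nat_lit 5) (nat_lit 89) (nat_lit 5) (nat_lit 84) (nat_lit 5) (nat_lit 340) (nat_lit 294) (nat_lit 146)) (XT.lf (nat_lit 0) (nat_lit 8791236533) (nat_lit 304) (nat_lit 6453276218) (nat_lit 380) (nat_lit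 10097320187) (nat_lit 79) (nat_lit 5) (nat_lit 83) (nat_lit 5) (nat_lit 84) (nat_lit 5) (nat_lit 341) (nat_lit 294) (nat_lit 145)))) (XT.nd (nat_lit 78) (nat_lit 380) (nat_lit 0) (XT.lf (nat_lit 0) (nat_lit 19148318521) (nat_lit 380) (nat_lit 5119143270) (nat_lit 76) (nat_lit 1576573808) (nat_lit 79) (nat_lit 5) (nat_lit 84) (nat_lit 5) (nat_lit 80) (nat_lit 5) (nat_lit 342) (nat_lit 294) (nat_lit 144)) (XT.nd (nat_lit 78) (nat_lit 76) (nat_lit 0) (XT.lf (nat_lit 0) (nat_lit 6714463296) (nat_lit 304) (nat_lit 16577313086) (nat_lit 380) (nat_lit 3065859293) (nat_lit 75) (nat_lit 5) (nat_lit 79) (nat_lit 5) (nat_lit 80) (nat_lit 5) (nat_lit 343) (nat_lit 294) (nat_lit 143)) (XT.lf (nat_lit 0) (nat_lit 706101204) (nat_lit 380) (nat_lit 7892023439) (nat_lit 76) (nat_lit 18286941977) (nat_lit 74) (nat_lit 5) (nat_lit 79) (nat_lit 5) (nat_lit 75) (nat_lit 5) (nat_lit 344) (nat_lit 294) (nat_lit 142))))))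 (XT.nd (nat_lit 468) (nat_lit 608) (nat_lit 0) (XT.nd (nat_lit 234) (nat_lit 228) (nat_lit 0) (XT.nd (nat_lit 78) (nat_lit 304) (nat_lit 0) (XT.lf (nat_lit 0) (nat_lit 4256633310) (nat_lit 304) (nat_lit 308187175) (nat_lit 380) (nat_lit 22861539575) (nat_lit 70) (nat_lit 5) (nat_lit 74) (nat_lit 5) (nat_lit 75) (nat_lit 5) (nat_lit 345) (nat_lit 294) (nat_lit 141)) (XT.nd (nat_lit 78) (nat_lit 304) (nat_lit 0) (XT.lf (nat_lit 0) (nat_lit 8693276373) (nat_lit 380) (nat_lit 11137691203) (nat_lit 76) (nat_lit 8148312117) (nat_lit 70) (nat_lit 5) (nat_lit 75) (nat_lit 5) (nat_lit 71) (nat_lit 5) (nat_lit 346) (nat_lit 294) (nat_lit 140)) (XT.lf (nat_lit 0) (nat_lit 1269439894) (nat_lit 304) (nat_lit 11685939752) (nat_lit 380) (nat_lit 15593119904) (nat_lit 66) (nat_lit 5) (nat_lit 70) (nat_lit 5) (nat_lit 71) (nat_lit 5) (nat_lit 347) (nat_lit 294) (nat_lit 139)))) (XT.nd (nat_lit 78) (nat_lit 228)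 (nat_lit 0) (XT.lf (nat_lit 0) (nat_lit 14269585539) (nat_lit 304) (nat_lit 3182855875) (nat_lit 380) (nat_lit 11679147985) (nat_lit 66) (nat_lit 5) (nat_lit 70) (nat_lit 5) (nat_lit 71) (nat_lit 5) (nat_lit 348) (nat_lit 294) (nat_lit 138)) (XT.nd (nat_lit 78) (nat_lit 228) (nat_lit 0) (XT.lf (nat_lit 0) (nat_lit 22132771539) (nat_lit 380) (nat_lit 2133464780) (nat_lit 76) (nat_lit 5464491005) (nat_lit 66) (nat_lit 5) (nat_lit 71) (nat_lit 5) (nat_lit 67) (nat_lit 5) (nat_lit 349) (nat_lit 294) (nat_lit 137)) (XT.lf (nat_lit 0) (nat_lit 11155890201) (nat_lit 228) (nat_lit 15931287674) (nat_lit 304) (nat_lit 3256657421) (nat_lit 63) (nat_lit 5) (nat_lit 66) (nat_lit 5) (nat_lit 67) (nat_lit 5) (nat_lit 350) (nat_lit 294) (nat_lit 136))))) (XT.nd (nat_lit 234) (nat_lit 228) (nat_lit 0) (XT.nd (nat_lit 78) (nat_lit 304) (nat_lit 0) (XT.lf (nat_lit 0) (nat_lit 1207870180) (nat_lit 304) (nat_lit 6106175842)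 (nat_lit 76) (nat_lit 23660444792) (nat_lit 62) (nat_lit 5) (nat_lit 66) (nat_lit 5) (nat_lit 63) (nat_lit 5) (nat_lit 351) (nat_lit 294) (nat_lit 135)) (XT.nd (nat_lit 78) (nat_lit 0) (nat_lit 0) (XT.lf (nat_lit 0) (nat_lit 5823838148) (nat_lit 380) (nat_lit 24162501864) (nat_lit 76) (nat_lit 1634275256) (nat_lit 58) (nat_lit 5) (nat_lit 63) (nat_lit 5) (nat_lit 59) (nat_lit 5) (nat_lit 352) (nat_lit 294) (nat_lit 134)) (XT.lf (nat_lit 0) (nat_lit 10708115104) (nat_lit 380) (nat_lit 10809901913) (nat_lit 76) (nat_lit 10764216781) (nat_lit 58) (nat_lit 5) (nat_lit 63) (nat_lit 5) (nat_lit 59) (nat_lit 5) (nat_lit 353) (nat_lit 294) (nat_lit 133)))) (XT.nd (nat_lit 78) (nat_lit 0) (nat_lit 0) (XT.lf (nat_lit 0) (nat_lit 2994819222) (nat_lit 228) (nat_lit 12768173405) (nat_lit 304) (nat_lit 17199991178) (nat_lit 55) (nat_lit 5) (nat_lit 58) (nat_lit 5) (nat_lit 59) (nat_lit 5) (nat_lit 354) (nat_lit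 294) (nat_lit 132)) (XT.nd (nat_lit 78) (nat_lit 0) (nat_lit 0) (XT.lf (nat_lit 0) (nat_lit 17428445473) (nat_lit 228) (nat_lit 3645585749) (nat_lit 304) (nat_lit 12586994588) (nat_lit 55) (nat_lit 5) (nat_lit 58) (nat_lit 5) (nat_lit 59) (nat_lit 5) (nat_lit 355) (nat_lit 294) (nat_lit 131)) (XT.lf (nat_lit 0) (nat_lit 26595150832) (nat_lit 304) (nat_lit 2146957295) (nat_lit 76) (nat_lit 5636383250) (nat_lit 55) (nat_lit 5) (nat_lit 59) (nat_lit 5) (nat_lit 56) (nat_lit 5) (nat_lit 356) (nat_lit 294) (nat_lit 130))))))))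
noncomputable def xc194 : XT := (XT.nd (nat_lit 1794) (nat_lit 456) (nat_lit 0) (XT.nd (nat_lit 858) (nat_lit 760) (nat_lit 0) (XT.nd (nat_lit 390) (nat_lit 684) (nat_lit 0) (XT.nd (nat_lit 156) (nat_lit 228) (nat_lit 0) (XT.nd (nat_lit 78) (nat_lit 76) (nat_lit 0) (XT.lf (nat_lit 0) (nat_lit 12563750466) (nat_lit 228) (nat_lit 19870621651) (nat_lit 304) (nat_lit 2678539407) (nat_lit 52) (nat_lit 5) (nat_lit 55) (nat_lit 5) (nat_lit 56) (nat_lit 5) (nat_lit 357) (nat_lit 294) (nat_lit 129)) (XT.lf (nat_lit 0) (nat_lit 2546588087) (nat_lit 304) (nat_lit 8140513754) (nat_lit 76) (nat_lit 25180997505) (nat_lit 51) (nat_lit 5) (nat_lit 55) (nat_lit 5) (nat_lit 52) (nat_lit 5) (nat_lit 358) (nat_lit 294) (nat_lit 128))) (XT.nd (nat_lit 78) (nat_lit 0) (nat_lit 0) (XT.lf (nat_lit 0) (nat_lit 6800180064) (nat_lit 228) (nat_lit 1135569489) (nat_lit 304) (nat_lit 28707568421) (nat_lit 48) (nat_lit 5) (nat_lit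 51) (nat_lit 5) (nat_lit 52) (nat_lit 5) (nat_lit 359) (nat_lit 294) (nat_lit 127)) (XT.nd (nat_lit 78) (nat_lit 0) (nat_lit 0) (XT.lf (nat_lit 0) (nat_lit 13649047937) (nat_lit 304) (nat_lit 15174262870) (nat_lit 76) (nat_lit 8613612630) (nat_lit 48) (nat_lit 5) (nat_lit 52) (nat_lit 5) (nat_lit 49) (nat_lit 5) (nat_lit 360) (nat_lit 294) (nat_lit 126)) (XT.lf (nat_lit 0) (nat_lit 19540902236) (nat_lit 304) (nat_lit 82812726) (nat_lit 76) (nat_lit 18630411409) (nat_lit 48) (nat_lit 5) (nat_lit 52) (nat_lit 5) (nat_lit 49) (nat_lit 5) (nat_lit 361) (nat_lit 294) (nat_lit 125))))) (XT.nd (nat_lit 234) (nat_lit 304) (nat_lit 0) (XT.nd (nat_lit 78) (nat_lit 152) (nat_lit 0) (XT.lf (nat_lit 0) (nat_lit 15762906086) (nat_lit 228) (nat_lit 9994161494) (nat_lit 304) (nat_lit 13334355052) (nat_lit 45) (nat_lit 5) (nat_lit 48) (nat_lit 5) (nat_lit 49) (nat_lit 5) (nat_lit 362) (nat_lit 294) (nat_lit 124))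 (XT.nd (nat_lit 78) (nat_lit 152) (nat_lit 0) (XT.lf (nat_lit 0) (nat_lit 32079687605) (nat_lit 228) (nat_lit 76957061) (nat_lit 304) (nat_lit 7797289096) (nat_lit 45) (nat_lit 5) (nat_lit 48) (nat_lit 5) (nat_lit 49) (nat_lit 5) (nat_lit 363) (nat_lit 294) (nat_lit 123)) (XT.lf (nat_lit 0) (nat_lit 8098299480) (nat_lit 152) (nat_lit 30821390609) (nat_lit 228) (nat_lit 1917489382) (nat_lit 43) (nat_lit 5) (nat_lit 45) (nat_lit 5) (nat_lit 46) (nat_lit 5) (nat_lit 364) (nat_lit 294) (nat_lit 122)))) (XT.nd (nat_lit 78) (nat_lit 228) (nat_lit 0) (XT.lf (nat_lit 0) (nat_lit 4135205746) (nat_lit 228) (nat_lit 17080384738) (nat_lit 76) (nat_lit 20527824148) (nat_lit 42) (nat_lit 5) (nat_lit 45) (nat_lit 5) (nat_lit 43) (nat_lit 5) (nat_lit 365) (nat_lit 294) (nat_lit 121)) (XT.nd (nat_lit 78) (nat_lit 228) (nat_lit 0) (XT.lf (nat_lit 0) (nat_lit 10327251589) (nat_lit 228) (nat_lit 976896807) (nat_lit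 76) (nat_lit 31372232978) (nat_lit 42) (nat_lit 5) (nat_lit 45) (nat_lit 5) (nat_lit 43) (nat_lit 5) (nat_lit 366) (nat_lit 294) (nat_lit 120)) (XT.lf (nat_lit 0) (nat_lit 15914638813) (nat_lit 228) (nat_lit 939818226) (nat_lit 304) (nat_lit 26778401399) (nat_lit 39) (nat_lit 5) (nat_lit 42) (nat_lit 5) (nat_lit 43) (nat_lit 5) (nat_lit 367) (nat_lit 294) (nat_lit 119)))))) (XT.nd (nat_lit 468) (nat_lit 380) (nat_lit 0) (XT.nd (nat_lit 234) (nat_lit 228) (nat_lit 0) (XT.nd (nat_lit 78) (nat_lit 152) (nat_lit 0) (XT.lf (nat_lit 0) (nat_lit 23677472615) (nat_lit 304) (nat_lit 11384112216) (nat_lit 76) (nat_lit 9553448336) (nat_lit 39) (nat_lit 5) (nat_lit 43) (nat_lit 5) (nat_lit 40) (nat_lit 5) (nat_lit 368) (nat_lit 294) (nat_lit 118)) (XT.nd (nat_lit 78) (nat_lit 0) (nat_lit 0) (XT.lf (nat_lit 0) (nat_lit 5533206876) (nat_lit 152) (nat_lit 25231017448) (nat_lit 228) (nat_lit 14860680521) (nat_lit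 37) (nat_lit 5) (nat_lit 39) (nat_lit 5) (nat_lit 40) (nat_lit 5) (nat_lit 369) (nat_lit 294) (nat_lit 117)) (XT.lf (nat_lit 0) (nat_lit 23185983196) (nat_lit 152) (nat_lit 14989152842) (nat_lit 228) (nat_lit 8486592902) (nat_lit 37) (nat_lit 5) (nat_lit 39) (nat_lit 5) (nat_lit 40) (nat_lit 5) (nat_lit 370) (nat_lit 294) (nat_lit 116)))) (XT.nd (nat_lit 78) (nat_lit 228) (nat_lit 0) (XT.lf (nat_lit 0) (nat_lit 41363075342) (nat_lit 152) (nat_lit 4441999025) (nat_lit 228) (nat_lit 1924685315) (nat_lit 37) (nat_lit 5) (nat_lit 39) (nat_lit 5) (nat_lit 40) (nat_lit 5) (nat_lit 371) (nat_lit 294) (nat_lit 115)) (XT.nd (nat_lit 78) (nat_lit 0) (nat_lit 0) (XT.lf (nat_lit 0) (nat_lit 4909610260) (nat_lit 228) (nat_lit 37461517841) (nat_lit 76) (nat_lit 6452216103) (nat_lit 34) (nat_lit 5) (nat_lit 37) (nat_lit 5) (nat_lit 35) (nat_lit 5) (nat_lit 372) (nat_lit 294) (nat_lit 114)) (XT.lf (nat_lit 0)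 (nat_lit 12015945518) (nat_lit 228) (nat_lit 20263987687) (nat_lit 76) (nat_lit 17666063173) (nat_lit 34) (nat_lit 5) (nat_lit 37) (nat_lit 5) (nat_lit 35) (nat_lit 5) (nat_lit 373) (nat_lit 294) (nat_lit 113))))) (XT.nd (nat_lit 234) (nat_lit 228) (nat_lit 0) (XT.nd (nat_lit 78) (nat_lit 152) (nat_lit 0) (XT.lf (nat_lit 0) (nat_lit 19332351728) (nat_lit 228) (nat_lit 2555590180) (nat_lit 76) (nat_lit 29214482359) (nat_lit 34) (nat_lit 5) (nat_lit 37) (nat_lit 5) (nat_lit 35) (nat_lit 5) (nat_lit 374) (nat_lit 294) (nat_lit 112)) (XT.nd (nat_lit 78) (nat_lit 0) (nat_lit 0) (XT.lf (nat_lit 0) (nat_lit 15991193825) (nat_lit 152) (nat_lit 11027745181) (nat_lit 228) (nat_lit 25270087826) (nat_lit 32) (nat_lit 5) (nat_lit 34) (nat_lit 5) (nat_lit 35) (nat_lit 5) (nat_lit 375) (nat_lit 294) (nat_lit 111)) (XT.lf (nat_lit 0) (nat_lit 34960702291) (nat_lit 228) (nat_lit 18370398677) (nat_lit 76) (nat_lit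 179391584) (nat_lit 32) (nat_lit 5) (nat_lit 35) (nat_lit 5) (nat_lit 33) (nat_lit 5) (nat_lit 376) (nat_lit 294) (nat_lit 110)))) (XT.nd (nat_lit 78) (nat_lit 228) (nat_lit 0) (XT.lf (nat_lit 0) (nat_lit 43246986751) (nat_lit 228) (nat_lit 19120178) (nat_lit 76) (nat_lit 11499309624) (nat_lit 32) (nat_lit 5) (nat_lit 35) (nat_lit 5) (nat_lit 33) (nat_lit 5) (nat_lit 377) (nat_lit 294) (nat_lit 109)) (XT.nd (nat_lit 78) (nat_lit 76) (nat_lit 0) (XT.lf (nat_lit 0) (nat_lit 19253753089) (nat_lit 152) (nat_lit 32710353161) (nat_lit 228) (nat_lit 4088416920) (nat_lit 30) (nat_lit 5) (nat_lit 32) (nat_lit 5) (nat_lit 33) (nat_lit 5) (nat_lit 378) (nat_lit 294) (nat_lit 108)) (XT.lf (nat_lit 0) (nat_lit 3492311179) (nat_lit 228) (nat_lit 18311965121) (nat_lit 76) (nat_lit 35573019792) (nat_lit 29) (nat_lit 5) (nat_lit 32) (nat_lit 5) (nat_lit 30) (nat_lit 5) (nat_lit 379) (nat_lit 294) (nat_lit 107)))))))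 (XT.nd (nat_lit 34320) (nat_lit 0) (nat_lit 11172) (XT.nd (nat_lit 468) (nat_lit 152) (nat_lit 0) (XT.nd (nat_lit 234) (nat_lit 152) (nat_lit 0) (XT.nd (nat_lit 78) (nat_lit 0) (nat_lit 0) (XT.lf (nat_lit 0) (nat_lit 698055713) (nat_lit 152) (nat_lit 10524200675) (nat_lit 228) (nat_lit 47518224478) (nat_lit 27) (nat_lit 5) (nat_lit 29) (nat_lit 5) (nat_lit 30) (nat_lit 5) (nat_lit 380) (nat_lit 294) (nat_lit 106)) (XT.nd (nat_lit 78) (nat_lit 0) (nat_lit 0) (XT.lf (nat_lit 0) (nat_lit 19378642472) (nat_lit 228) (nat_lit 39502161061) (nat_lit 76) (nat_lit 1257923409) (nat_lit 27) (nat_lit 5) (nat_lit 30) (nat_lit 5) (nat_lit 28) (nat_lit 5) (nat_lit 381) (nat_lit 294) (nat_lit 105)) (XT.lf (nat_lit 0) (nat_lit 27881277301) (nat_lit 228) (nat_lit 20514308596) (nat_lit 76) (nat_lit 13180289764) (nat_lit 27) (nat_lit 5) (nat_lit 30) (nat_lit 5) (nat_lit 28) (nat_lit 5) (nat_lit 382) (nat_lit 294)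 (nat_lit 104)))) (XT.nd (nat_lit 78) (nat_lit 152) (nat_lit 0) (XT.lf (nat_lit 0) (nat_lit 36636425309) (nat_lit 228) (nat_lit 961111376) (nat_lit 76) (nat_lit 25458681052) (nat_lit 27) (nat_lit 5) (nat_lit 30) (nat_lit 5) (nat_lit 28) (nat_lit 5) (nat_lit 383) (nat_lit 294) (nat_lit 103)) (XT.nd (nat_lit 78) (nat_lit 0) (nat_lit 0) (XT.lf (nat_lit 0) (nat_lit 19556126381) (nat_lit 152) (nat_lit 26283595693) (nat_lit 228) (nat_lit 18735685034) (nat_lit 25) (nat_lit 5) (nat_lit 27) (nat_lit 5) (nat_lit 28) (nat_lit 5) (nat_lit 384) (nat_lit 294) (nat_lit 102)) (XT.lf (nat_lit 0) (nat_lit 40704458111) (nat_lit 152) (nat_lit 14621906745) (nat_lit 228) (nat_lit 10813591699) (nat_lit 25) (nat_lit 5) (nat_lit 27) (nat_lit 5) (nat_lit 28) (nat_lit 5) (nat_lit 385) (nat_lit 294) (nat_lit 101))))) (XT.nd (nat_lit 33618) (nat_lit 0) (nat_lit 11932) (XT.nd (nat_lit 78) (nat_lit 152) (nat_lit 0) (XT.lf (nat_lit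 0) (nat_lit 62483234937) (nat_lit 152) (nat_lit 2611985355) (nat_lit 228) (nat_lit 2656295547) (nat_lit 25) (nat_lit 5) (nat_lit 27) (nat_lit 5) (nat_lit 28) (nat_lit 5) (nat_lit 386) (nat_lit 294) (nat_lit 100)) (XT.nd (nat_lit 33462) (nat_lit 0) (nat_lit 11932) (XT.lf (nat_lit 0) (nat_lit 5878510371) (nat_lit 152) (nat_lit 53748960281) (nat_lit 76) (nat_lit 9774948648) (nat_lit 23) (nat_lit 5) (nat_lit 25) (nat_lit 5) (nat_lit 24) (nat_lit 5) (nat_lit 387) (nat_lit 294) (nat_lit 99)) (XT.lf (nat_lit 0) (nat_lit 1405024765) (nat_lit 1140) (nat_lit 2264259997) (nat_lit 1140) (nat_lit 2264259997) (nat_lit 180) (nat_lit 3) (nat_lit 195) (nat_lit 3) (nat_lit 195) (nat_lit 5) (nat_lit 295) (nat_lit 295) (nat_lit 190)))) (XT.nd (nat_lit 78) (nat_lit 0) (nat_lit 76) (XT.lf (nat_lit 76) (nat_lit 665874115) (nat_lit 0) (nat_lit 2644113421) (nat_lit 1140) (nat_lit 8720559748) (nat_lit 181) (nat_lit 5)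 (nat_lit 180) (nat_lit 3) (nat_lit 195) (nat_lit 5) (nat_lit 296) (nat_lit 295) (nat_lit 189)) (XT.nd (nat_lit 78) (nat_lit 0) (nat_lit 0) (XT.lf (nat_lit 0) (nat_lit 3874544187) (nat_lit 1064) (nat_lit 6120035592) (nat_lit 1140) (nat_lit 2202872191) (nat_lit 181) (nat_lit 5) (nat_lit 195) (nat_lit 5) (nat_lit 196) (nat_lit 5) (nat_lit 297) (nat_lit 295) (nat_lit 188)) (XT.lf (nat_lit 0) (nat_lit 4465105851) (nat_lit 1064) (nat_lit 753862756) (nat_lit 1140) (nat_lit 7150154021) (nat_lit 181) (nat_lit 5) (nat_lit 195) (nat_lit 5) (nat_lit 196) (nat_lit 5) (nat_lit 298) (nat_lit 295) (nat_lit 187)))))) (XT.nd (nat_lit 468) (nat_lit 836) (nat_lit 0) (XT.nd (nat_lit 234) (nat_lit 0) (nat_lit 152) (XT.nd (nat_lit 78) (nat_lit 0) (nat_lit 76) (XT.lf (nat_lit 76) (nat_lit 4858763030) (nat_lit 0) (nat_lit 244714088) (nat_lit 1140) (nat_lit 7441593485) (nat_lit 182) (nat_lit 5) (nat_lit 181) (nat_lit 5)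 (nat_lit 196) (nat_lit 5) (nat_lit 299) (nat_lit 295) (nat_lit 186)) (XT.nd (nat_lit 78) (nat_lit 0) (nat_lit 0) (XT.lf (nat_lit 0) (nat_lit 5799434361) (nat_lit 1064) (nat_lit 2127655861) (nat_lit 1140) (nat_lit 4798082856) (nat_lit 182) (nat_lit 5) (nat_lit 196) (nat_lit 5) (nat_lit 197) (nat_lit 5) (nat_lit 300) (nat_lit 295) (nat_lit 185)) (XT.lf (nat_lit 76) (nat_lit 3657147896) (nat_lit 0) (nat_lit 2881019717) (nat_lit 1140) (nat_lit 6371882355) (nat_lit 183) (nat_lit 5) (nat_lit 182) (nat_lit 5) (nat_lit 197) (nat_lit 5) (nat_lit 301) (nat_lit 295) (nat_lit 184)))) (XT.nd (nat_lit 78) (nat_lit 0) (nat_lit 0) (XT.lf (nat_lit 0) (nat_lit 7327769495) (nat_lit 1064) (nat_lit 3473195982) (nat_lit 1140) (nat_lit 2298673926) (nat_lit 183) (nat_lit 5) (nat_lit 197) (nat_lit 5) (nat_lit 198) (nat_lit 5) (nat_lit 302) (nat_lit 295) (nat_lit 183)) (XT.nd (nat_lit 78) (nat_lit 0) (nat_lit 0) (XT.lf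 (nat_lit 76) (nat_lit 2490263258) (nat_lit 0) (nat_lit 5688445251) (nat_lit 1140) (nat_lit 5115105173) (nat_lit 184) (nat_lit 5) (nat_lit 183) (nat_lit 5) (nat_lit 198) (nat_lit 5) (nat_lit 303) (nat_lit 295) (nat_lit 182)) (XT.lf (nat_lit 76) (nat_lit 8694211467) (nat_lit 0) (nat_lit 381561971) (nat_lit 1140) (nat_lit 4417447683) (nat_lit 184) (nat_lit 5) (nat_lit 183) (nat_lit 5) (nat_lit 198) (nat_lit 5) (nat_lit 304) (nat_lit 295) (nat_lit 181))))) (XT.nd (nat_lit 234) (nat_lit 1064) (nat_lit 0) (XT.nd (nat_lit 78) (nat_lit 0) (nat_lit 0) (XT.lf (nat_lit 76) (nat_lit 1353376957) (nat_lit 0) (nat_lit 8694250684) (nat_lit 1140) (nat_lit 3649571930) (nat_lit 185) (nat_lit 5) (nat_lit 184) (nat_lit 5) (nat_lit 199) (nat_lit 5) (nat_lit 305) (nat_lit 295) (nat_lit 180)) (XT.nd (nat_lit 78) (nat_lit 0) (nat_lit 76) (XT.lf (nat_lit 76) (nat_lit 7775129398) (nat_lit 0) (nat_lit 3312016195) (nat_lit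 1140) (nat_lit 2819020912) (nat_lit 185) (nat_lit 5) (nat_lit 184) (nat_lit 5) (nat_lit 199) (nat_lit 5) (nat_lit 306) (nat_lit 295) (nat_lit 179)) (XT.lf (nat_lit 76) (nat_lit 241488030) (nat_lit 0) (nat_lit 11926877284) (nat_lit 1140) (nat_lit 1952745314) (nat_lit 186) (nat_lit 5) (nat_lit 185) (nat_lit 5) (nat_lit 200) (nat_lit 5) (nat_lit 307) (nat_lit 295) (nat_lit 178)))) (XT.nd (nat_lit 78) (nat_lit 1140) (nat_lit 0) (XT.lf (nat_lit 76) (nat_lit 6887617489) (nat_lit 0) (nat_lit 6475820781) (nat_lit 1140) (nat_lit 976645281) (nat_lit 186) (nat_lit 5) (nat_lit 185) (nat_lit 5) (nat_lit 200) (nat_lit 5) (nat_lit 308) (nat_lit 295) (nat_lit 177)) (XT.nd (nat_lit 78) (nat_lit 0) (nat_lit 76) (XT.lf (nat_lit 0) (nat_lit 15442550) (nat_lit 1140) (nat_lit 842567353) (nat_lit 1216) (nat_lit 13708011164) (nat_lit 170) (nat_lit 5) (nat_lit 185) (nat_lit 5) (nat_lit 186) (nat_lit 5) (nat_lit 309) (nat_lit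 295) (nat_lit 176)) (XT.lf (nat_lit 0) (nat_lit 1111672949) (nat_lit 1140) (nat_lit 8780370559) (nat_lit 1216) (nat_lit 4903603849) (nat_lit 171) (nat_lit 5) (nat_lit 186) (nat_lit 5) (nat_lit 187) (nat_lit 5) (nat_lit 310) (nat_lit 295) (nat_lit 175))))))))
noncomputable def xc195 : XT := (XT.nd (nat_lit 1872) (nat_lit 3496) (nat_lit 0) (XT.nd (nat_lit 936) (nat_lit 2204) (nat_lit 0) (XT.nd (nat_lit 468) (nat_lit 1748) (nat_lit 0) (XT.nd (nat_lit 234) (nat_lit 1596) (nat_lit 0) (XT.nd (nat_lit 78) (nat_lit 0) (nat_lit 76) (XT.lf (nat_lit 0) (nat_lit 2245809707) (nat_lit 1140) (nat_lit 1954185157) (nat_lit 1216) (nat_lit 10832037402) (nat_lit 171) (nat_lit 5) (nat_lit 186) (nat_lit 5) (nat_lit 187) (nat_lit 5) (nat_lit 311) (nat_lit 295) (nat_lit 174)) (XT.nd (nat_lit 78) (nat_lit 0) (nat_lit 0) (XT.lf (nat_lit 0) (nat_lit 3468429514) (nat_lit 1140) (nat_lit 10122792990) (nat_lit 76) (nat_lit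 1682672271) (nat_lit 172) (nat_lit 5) (nat_lit 187) (nat_lit 5) (nat_lit 173) (nat_lit 5) (nat_lit 312) (nat_lit 295) (nat_lit 173)) (XT.lf (nat_lit 0) (nat_lit 4777793989) (nat_lit 1140) (nat_lit 3064423984) (nat_lit 76) (nat_lit 7679312446) (nat_lit 172) (nat_lit 5) (nat_lit 187) (nat_lit 5) (nat_lit 173) (nat_lit 5) (nat_lit 313) (nat_lit 295) (nat_lit 172)))) (XT.nd (nat_lit 78) (nat_lit 532) (nat_lit 0) (XT.lf (nat_lit 0) (nat_lit 4279664501) (nat_lit 1140) (nat_lit 1876800201) (nat_lit 1216) (nat_lit 9619248354) (nat_lit 157) (nat_lit 5) (nat_lit 172) (nat_lit 5) (nat_lit 173) (nat_lit 5) (nat_lit 314) (nat_lit 295) (nat_lit 171)) (XT.nd (nat_lit 78) (nat_lit 532) (nat_lit 0) (XT.lf (nat_lit 0) (nat_lit 7637902348) (nat_lit 1216) (nat_lit 4180836485) (nat_lit 76) (nat_lit 4216958273) (nat_lit 157) (nat_lit 5) (nat_lit 173) (nat_lit 5) (nat_lit 158) (nat_lit 5) (nat_lit 315) (nat_lit 295)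 (nat_lit 170)) (XT.lf (nat_lit 0) (nat_lit 3391915925) (nat_lit 532) (nat_lit 5812504221) (nat_lit 608) (nat_lit 7097859033) (nat_lit 150) (nat_lit 5) (nat_lit 157) (nat_lit 5) (nat_lit 158) (nat_lit 5) (nat_lit 316) (nat_lit 295) (nat_lit 169))))) (XT.nd (nat_lit 234) (nat_lit 1140) (nat_lit 0) (XT.nd (nat_lit 78) (nat_lit 608) (nat_lit 0) (XT.lf (nat_lit 0) (nat_lit 10853839076) (nat_lit 608) (nat_lit 5311815319) (nat_lit 76) (nat_lit 410144246) (nat_lit 150) (nat_lit 5) (nat_lit 158) (nat_lit 5) (nat_lit 151) (nat_lit 5) (nat_lit 317) (nat_lit 295) (nat_lit 168)) (XT.nd (nat_lit 78) (nat_lit 0) (nat_lit 0) (XT.lf (nat_lit 0) (nat_lit 2496372348) (nat_lit 608) (nat_lit 10127890181) (nat_lit 684) (nat_lit 4231132099) (nat_lit 142) (nat_lit 5) (nat_lit 150) (nat_lit 5) (nat_lit 151) (nat_lit 5) (nat_lit 318) (nat_lit 295) (nat_lit 167)) (XT.lf (nat_lit 0) (nat_lit 10638305223) (nat_lit 608) (nat_lit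 3853309863) (nat_lit 684) (nat_lit 2650465032) (nat_lit 142) (nat_lit 5) (nat_lit 150) (nat_lit 5) (nat_lit 151) (nat_lit 5) (nat_lit 319) (nat_lit 295) (nat_lit 166)))) (XT.nd (nat_lit 78) (nat_lit 608) (nat_lit 0) (XT.lf (nat_lit 0) (nat_lit 1583526216) (nat_lit 532) (nat_lit 14862235647) (nat_lit 608) (nat_lit 990696747) (nat_lit 135) (nat_lit 5) (nat_lit 142) (nat_lit 5) (nat_lit 143) (nat_lit 5) (nat_lit 320) (nat_lit 295) (nat_lit 165)) (XT.nd (nat_lit 78) (nat_lit 532) (nat_lit 0) (XT.lf (nat_lit 0) (nat_lit 799862358) (nat_lit 608) (nat_lit 7746173141) (nat_lit 76) (nat_lit 9190589639) (nat_lit 134) (nat_lit 5) (nat_lit 142) (nat_lit 5) (nat_lit 135) (nat_lit 5) (nat_lit 321) (nat_lit 295) (nat_lit 164)) (XT.lf (nat_lit 0) (nat_lit 596364496) (nat_lit 532) (nat_lit 2024417833) (nat_lit 608) (nat_lit 15424837700) (nat_lit 127) (nat_lit 5) (nat_lit 134) (nat_lit 5) (nat_lit 135) (nat_lit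 5) (nat_lit 322) (nat_lit 295) (nat_lit 163)))))) (XT.nd (nat_lit 468) (nat_lit 1292) (nat_lit 0) (XT.nd (nat_lit 234) (nat_lit 456) (nat_lit 0) (XT.nd (nat_lit 78) (nat_lit 456) (nat_lit 0) (XT.lf (nat_lit 0) (nat_lit 4611437178) (nat_lit 608) (nat_lit 9068900168) (nat_lit 76) (nat_lit 4680108106) (nat_lit 127) (nat_lit 5) (nat_lit 135) (nat_lit 5) (nat_lit 128) (nat_lit 5) (nat_lit 323) (nat_lit 295) (nat_lit 162)) (XT.nd (nat_lit 78) (nat_lit 456) (nat_lit 0) (XT.lf (nat_lit 0) (nat_lit 6673118634) (nat_lit 608) (nat_lit 466347064) (nat_lit 76) (nat_lit 11544924225) (nat_lit 127) (nat_lit 5) (nat_lit 135) (nat_lit 5) (nat_lit 128) (nat_lit 5) (nat_lit 324) (nat_lit 295) (nat_lit 161)) (XT.lf (nat_lit 0) (nat_lit 8552266028) (nat_lit 456) (nat_lit 318111811) (nat_lit 532) (nat_lit 10145476176) (nat_lit 121) (nat_lit 5) (nat_lit 127) (nat_lit 5) (nat_lit 128) (nat_lit 5) (nat_lit 325) (nat_lit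 295) (nat_lit 160)))) (XT.nd (nat_lit 78) (nat_lit 456) (nat_lit 0) (XT.lf (nat_lit 0) (nat_lit 11194466168) (nat_lit 532) (nat_lit 1579722887) (nat_lit 76) (nat_lit 6581258355) (nat_lit 121) (nat_lit 5) (nat_lit 128) (nat_lit 5) (nat_lit 122) (nat_lit 5) (nat_lit 326) (nat_lit 295) (nat_lit 159)) (XT.nd (nat_lit 78) (nat_lit 0) (nat_lit 0) (XT.lf (nat_lit 0) (nat_lit 7709133341) (nat_lit 456) (nat_lit 5948316060) (nat_lit 532) (nat_lit 6045716390) (nat_lit 115) (nat_lit 5) (nat_lit 121) (nat_lit 5) (nat_lit 122) (nat_lit 5) (nat_lit 327) (nat_lit 295) (nat_lit 158)) (XT.lf (nat_lit 0) (nat_lit 16212897913) (nat_lit 532) (nat_lit 2771325239) (nat_lit 76) (nat_lit 1076547288) (nat_lit 115) (nat_lit 5) (nat_lit 122) (nat_lit 5) (nat_lit 116) (nat_lit 5) (nat_lit 328) (nat_lit 295) (nat_lit 157))))) (XT.nd (nat_lit 234) (nat_lit 380) (nat_lit 0) (XT.nd (nat_lit 78) (nat_lit 532) (nat_lit 0) (XT.lf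 (nat_lit 0) (nat_lit 6793022277) (nat_lit 380) (nat_lit 12168473411) (nat_lit 456) (nat_lit 1464124611) (nat_lit 110) (nat_lit 5) (nat_lit 115) (nat_lit 5) (nat_lit 116) (nat_lit 5) (nat_lit 329) (nat_lit 295) (nat_lit 156)) (XT.nd (nat_lit 78) (nat_lit 456) (nat_lit 0) (XT.lf (nat_lit 0) (nat_lit 992405698) (nat_lit 456) (nat_lit 4118051870) (nat_lit 76) (nat_lit 15690064917) (nat_lit 109) (nat_lit 5) (nat_lit 115) (nat_lit 5) (nat_lit 110) (nat_lit 5) (nat_lit 330) (nat_lit 295) (nat_lit 155)) (XT.lf (nat_lit 0) (nat_lit 3562694164) (nat_lit 532) (nat_lit 15434712195) (nat_lit 76) (nat_lit 2186756455) (nat_lit 103) (nat_lit 5) (nat_lit 110) (nat_lit 5) (nat_lit 104) (nat_lit 5) (nat_lit 331) (nat_lit 295) (nat_lit 154)))) (XT.nd (nat_lit 78) (nat_lit 380) (nat_lit 0) (XT.lf (nat_lit 0) (nat_lit 6295381443) (nat_lit 532) (nat_lit 5640340654) (nat_lit 76) (nat_lit 9641041895) (nat_lit 103) (nat_lit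 5) (nat_lit 110) (nat_lit 5) (nat_lit 104) (nat_lit 5) (nat_lit 332) (nat_lit 295) (nat_lit 153)) (XT.nd (nat_lit 78) (nat_lit 0) (nat_lit 0) (XT.lf (nat_lit 0) (nat_lit 4527808382) (nat_lit 380) (nat_lit 4618673366) (nat_lit 456) (nat_lit 12833578527) (nat_lit 98) (nat_lit 5) (nat_lit 103) (nat_lit 5) (nat_lit 104) (nat_lit 5) (nat_lit 333) (nat_lit 295) (nat_lit 152)) (XT.lf (nat_lit 0) (nat_lit 12161705681) (nat_lit 456) (nat_lit 7314266554) (nat_lit 76) (nat_lit 2917135243) (nat_lit 98) (nat_lit 5) (nat_lit 104) (nat_lit 5) (nat_lit 99) (nat_lit 5) (nat_lit 334) (nat_lit 295) (nat_lit 151))))))) (XT.nd (nat_lit 936) (nat_lit 1368) (nat_lit 0) (XT.nd (nat_lit 468) (nat_lit 988) (nat_lit 0) (XT.nd (nat_lit 234) (nat_lit 456) (nat_lit 0) (XT.nd (nat_lit 78) (nat_lit 304) (nat_lit 0) (XT.lf (nat_lit 0) (nat_lit 3135022243) (nat_lit 380) (nat_lit 12201454326) (nat_lit 456) (nat_lit 7480006287)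 (nat_lit 93) (nat_lit 5) (nat_lit 98) (nat_lit 5) (nat_lit 99) (nat_lit 5) (nat_lit 335) (nat_lit 295) (nat_lit 150)) (XT.nd (nat_lit 78) (nat_lit 304) (nat_lit 0) (XT.lf (nat_lit 0) (nat_lit 14039523958) (nat_lit 380) (nat_lit 4634169920) (nat_lit 456) (nat_lit 4576858710) (nat_lit 93) (nat_lit 5) (nat_lit 98) (nat_lit 5) (nat_lit 99) (nat_lit 5) (nat_lit 336) (nat_lit 295) (nat_lit 149)) (XT.lf (nat_lit 0) (nat_lit 1565537904) (nat_lit 304) (nat_lit 20584438847) (nat_lit 380) (nat_lit 1546508112) (nat_lit 89) (nat_lit 5) (nat_lit 93) (nat_lit 5) (nat_lit 94) (nat_lit 5) (nat_lit 337) (nat_lit 295) (nat_lit 148)))) (XT.nd (nat_lit 78) (nat_lit 380) (nat_lit 0) (XT.lf (nat_lit 0) (nat_lit 1677403576) (nat_lit 380) (nat_lit 11368934679) (nat_lit 76) (nat_lit 11105009747) (nat_lit 88) (nat_lit 5) (nat_lit 93) (nat_lit 5) (nat_lit 89) (nat_lit 5) (nat_lit 338) (nat_lit 295) (nat_lit 147)) (XT.nd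 (nat_lit 78) (nat_lit 380) (nat_lit 0) (XT.lf (nat_lit 0) (nat_lit 4960699384) (nat_lit 380) (nat_lit 307342128) (nat_lit 76) (nat_lit 19351551827) (nat_lit 88) (nat_lit 5) (nat_lit 93) (nat_lit 5) (nat_lit 89) (nat_lit 5) (nat_lit 339) (nat_lit 295) (nat_lit 146)) (XT.lf (nat_lit 0) (nat_lit 8472470075) (nat_lit 456) (nat_lit 13827406917) (nat_lit 76) (nat_lit 2798117694) (nat_lit 83) (nat_lit 5) (nat_lit 89) (nat_lit 5) (nat_lit 84) (nat_lit 5) (nat_lit 340) (nat_lit 295) (nat_lit 145))))) (XT.nd (nat_lit 234) (nat_lit 684) (nat_lit 0) (XT.nd (nat_lit 78) (nat_lit 304) (nat_lit 0) (XT.lf (nat_lit 0) (nat_lit 12138905887) (nat_lit 456) (nat_lit 2448519299) (nat_lit 76) (nat_lit 11001851223) (nat_lit 83) (nat_lit 5) (nat_lit 89) (nat_lit 5) (nat_lit 84) (nat_lit 5) (nat_lit 341) (nat_lit 295) (nat_lit 144)) (XT.nd (nat_lit 78) (nat_lit 0) (nat_lit 0) (XT.lf (nat_lit 0) (nat_lit 9448506866) (nat_lit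 304) (nat_lit 6551845834) (nat_lit 380) (nat_lit 10092400820) (nat_lit 79) (nat_lit 5) (nat_lit 83) (nat_lit 5) (nat_lit 84) (nat_lit 5) (nat_lit 342) (nat_lit 295) (nat_lit 143)) (XT.lf (nat_lit 0) (nat_lit 20013465202) (nat_lit 380) (nat_lit 4882470801) (nat_lit 76) (nat_lit 1714331527) (nat_lit 79) (nat_lit 5) (nat_lit 84) (nat_lit 5) (nat_lit 80) (nat_lit 5) (nat_lit 343) (nat_lit 295) (nat_lit 142)))) (XT.nd (nat_lit 78) (nat_lit 380) (nat_lit 0) (XT.lf (nat_lit 0) (nat_lit 7302318013) (nat_lit 304) (nat_lit 16974156393) (nat_lit 380) (nat_lit 2862954499) (nat_lit 75) (nat_lit 5) (nat_lit 79) (nat_lit 5) (nat_lit 80) (nat_lit 5) (nat_lit 344) (nat_lit 295) (nat_lit 141)) (XT.nd (nat_lit 78) (nat_lit 304) (nat_lit 0) (XT.lf (nat_lit 0) (nat_lit 1007989473) (nat_lit 380) (nat_lit 7747694739) (nat_lit 76) (nat_lit 18927176274) (nat_lit 74) (nat_lit 5) (nat_lit 79) (nat_lit 5) (nat_lit 75) (nat_lit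 5) (nat_lit 345) (nat_lit 295) (nat_lit 140)) (XT.lf (nat_lit 0) (nat_lit 4761685543) (nat_lit 304) (nat_lit 216236260) (nat_lit 380) (nat_lit 23262617197) (nat_lit 70) (nat_lit 5) (nat_lit 74) (nat_lit 5) (nat_lit 75) (nat_lit 5) (nat_lit 346) (nat_lit 295) (nat_lit 139)))))) (XT.nd (nat_lit 468) (nat_lit 760) (nat_lit 0) (XT.nd (nat_lit 234) (nat_lit 304) (nat_lit 0) (XT.nd (nat_lit 78) (nat_lit 304) (nat_lit 0) (XT.lf (nat_lit 0) (nat_lit 9223132398) (nat_lit 380) (nat_lit 11098042975) (nat_lit 76) (nat_lit 8489093346) (nat_lit 70) (nat_lit 5) (nat_lit 75) (nat_lit 5) (nat_lit 71) (nat_lit 5) (nat_lit 347) (nat_lit 295) (nat_lit 138)) (XT.nd (nat_lit 78) (nat_lit 0) (nat_lit 0) (XT.lf (nat_lit 0) (nat_lit 1677637555) (nat_lit 304) (nat_lit 11931182348) (nat_lit 380) (nat_lit 15787882887) (nat_lit 66) (nat_lit 5) (nat_lit 70) (nat_lit 5) (nat_lit 71) (nat_lit 5) (nat_lit 348) (nat_lit 295) (nat_lit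 137)) (XT.lf (nat_lit 0) (nat_lit 15057007536) (nat_lit 304) (nat_lit 3176073982) (nat_lit 380) (nat_lit 11764444158) (nat_lit 66) (nat_lit 5) (nat_lit 70) (nat_lit 5) (nat_lit 71) (nat_lit 5) (nat_lit 349) (nat_lit 295) (nat_lit 136)))) (XT.nd (nat_lit 78) (nat_lit 304) (nat_lit 0) (XT.lf (nat_lit 0) (nat_lit 23047288588) (nat_lit 380) (nat_lit 1841776707) (nat_lit 76) (nat_lit 5725777153) (nat_lit 66) (nat_lit 5) (nat_lit 71) (nat_lit 5) (nat_lit 67) (nat_lit 5) (nat_lit 350) (nat_lit 295) (nat_lit 135)) (XT.nd (nat_lit 78) (nat_lit 76) (nat_lit 0) (XT.lf (nat_lit 0) (nat_lit 11842771747) (nat_lit 228) (nat_lit 16303643871) (nat_lit 304) (nat_lit 3100053852) (nat_lit 63) (nat_lit 5) (nat_lit 66) (nat_lit 5) (nat_lit 67) (nat_lit 5) (nat_lit 351) (nat_lit 295) (nat_lit 134)) (XT.lf (nat_lit 0) (nat_lit 1486184847) (nat_lit 304) (nat_lit 5942330820) (nat_lit 76) (nat_lit 24467681502) (nat_lit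 62) (nat_lit 5) (nat_lit 66) (nat_lit 5) (nat_lit 63) (nat_lit 5) (nat_lit 352) (nat_lit 295) (nat_lit 133))))) (XT.nd (nat_lit 234) (nat_lit 228) (nat_lit 0) (XT.nd (nat_lit 78) (nat_lit 228) (nat_lit 0) (XT.lf (nat_lit 0) (nat_lit 6237896365) (nat_lit 380) (nat_lit 24537352871) (nat_lit 76) (nat_lit 1786545933) (nat_lit 58) (nat_lit 5) (nat_lit 63) (nat_lit 5) (nat_lit 59) (nat_lit 5) (nat_lit 353) (nat_lit 295) (nat_lit 132)) (XT.nd (nat_lit 78) (nat_lit 228) (nat_lit 0) (XT.lf (nat_lit 0) (nat_lit 11261730473) (nat_lit 380) (nat_lit 10794369796) (nat_lit 76) (nat_lit 11187378643) (nat_lit 58) (nat_lit 5) (nat_lit 63) (nat_lit 5) (nat_lit 59) (nat_lit 5) (nat_lit 354) (nat_lit 295) (nat_lit 131)) (XT.lf (nat_lit 0) (nat_lit 3421161314) (nat_lit 228) (nat_lit 13043559514) (nat_lit 304) (nat_lit 17480043900) (nat_lit 55) (nat_lit 5) (nat_lit 58) (nat_lit 5) (nat_lit 59) (nat_lit 5) (nat_lit 355)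 (nat_lit 295) (nat_lit 130)))) (XT.nd (nat_lit 78) (nat_lit 228) (nat_lit 0) (XT.lf (nat_lit 0) (nat_lit 18277995454) (nat_lit 228) (nat_lit 3650429930) (nat_lit 304) (nat_lit 12735529656) (nat_lit 55) (nat_lit 5) (nat_lit 58) (nat_lit 5) (nat_lit 59) (nat_lit 5) (nat_lit 356) (nat_lit 295) (nat_lit 129)) (XT.nd (nat_lit 78) (nat_lit 228) (nat_lit 0) (XT.lf (nat_lit 0) (nat_lit 27609682996) (nat_lit 304) (nat_lit 1888459782) (nat_lit 76) (nat_lit 5904973547) (nat_lit 55) (nat_lit 5) (nat_lit 59) (nat_lit 5) (nat_lit 56) (nat_lit 5) (nat_lit 357) (nat_lit 295) (nat_lit 128)) (XT.lf (nat_lit 0) (nat_lit 13260403465) (nat_lit 228) (nat_lit 20360439997) (nat_lit 304) (nat_lit 2538829422) (nat_lit 52) (nat_lit 5) (nat_lit 55) (nat_lit 5) (nat_lit 56) (nat_lit 5) (nat_lit 358) (nat_lit 295) (nat_lit 127))))))))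
noncomputable def xc196 : XT := (XT.nd (nat_lit 1794) (nat_lit 152) (nat_lit 0) (XT.nd (nat_lit 858) (nat_lit 912) (nat_lit 0) (XT.nd (nat_lit 390) (nat_lit 456) (nat_lit 0) (XT.nd (nat_lit 156) (nat_lit 228) (nat_lit 0) (XT.nd (nat_lit 78) (nat_lit 228) (nat_lit 0) (XT.lf (nat_lit 0) (nat_lit 2832472995) (nat_lit 304) (nat_lit 8069922312) (nat_lit 76) (nat_lit 26035252410) (nat_lit 51) (nat_lit 5) (nat_lit 55) (nat_lit 5) (nat_lit 52) (nat_lit 5) (nat_lit 359) (nat_lit 295) (nat_lit 126)) (XT.lf (nat_lit 0) (nat_lit 7315905979) (nat_lit 228) (nat_lit 1064298203) (nat_lit 304) (nat_lit 29356017991) (nat_lit 48) (nat_lit 5) (nat_lit 51) (nat_lit 5) (nat_lit 52) (nat_lit 5) (nat_lit 360) (nat_lit 295) (nat_lit 125))) (XT.nd (nat_lit 78) (nat_lit 228) (nat_lit 0) (XT.lf (nat_lit 0) (nat_lit 14259873472) (nat_lit 304) (nat_lit 15321623498) (nat_lit 76) (nat_lit 8972295610) (nat_lit 48) (nat_lit 5)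 (nat_lit 52) (nat_lit 5) (nat_lit 49) (nat_lit 5) (nat_lit 361) (nat_lit 295) (nat_lit 124)) (XT.nd (nat_lit 78) (nat_lit 0) (nat_lit 0) (XT.lf (nat_lit 0) (nat_lit 217854263) (nat_lit 228) (nat_lit 20106858602) (nat_lit 304) (nat_lit 19070917618) (nat_lit 45) (nat_lit 5) (nat_lit 48) (nat_lit 5) (nat_lit 49) (nat_lit 5) (nat_lit 362) (nat_lit 295) (nat_lit 123)) (XT.lf (nat_lit 0) (nat_lit 16531763125) (nat_lit 228) (nat_lit 10190657073) (nat_lit 304) (nat_lit 13535779319) (nat_lit 45) (nat_lit 5) (nat_lit 48) (nat_lit 5) (nat_lit 49) (nat_lit 5) (nat_lit 363) (nat_lit 295) (nat_lit 122))))) (XT.nd (nat_lit 234) (nat_lit 228) (nat_lit 0) (XT.nd (nat_lit 78) (nat_lit 228) (nat_lit 0) (XT.lf (nat_lit 0) (nat_lit 33308576089) (nat_lit 304) (nat_lit 7817534518) (nat_lit 76) (nat_lit 20643064) (nat_lit 45) (nat_lit 5) (nat_lit 49) (nat_lit 5) (nat_lit 46) (nat_lit 5) (nat_lit 364) (nat_lit 295) (nat_lit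 121)) (XT.nd (nat_lit 78) (nat_lit 76) (nat_lit 0) (XT.lf (nat_lit 0) (nat_lit 8630561057) (nat_lit 152) (nat_lit 31642019264) (nat_lit 228) (nat_lit 1783979683) (nat_lit 43) (nat_lit 5) (nat_lit 45) (nat_lit 5) (nat_lit 46) (nat_lit 5) (nat_lit 365) (nat_lit 295) (nat_lit 120)) (XT.lf (nat_lit 0) (nat_lit 4441112998) (nat_lit 228) (nat_lit 17308125305) (nat_lit 76) (nat_lit 21240857466) (nat_lit 42) (nat_lit 5) (nat_lit 45) (nat_lit 5) (nat_lit 43) (nat_lit 5) (nat_lit 366) (nat_lit 295) (nat_lit 119)))) (XT.nd (nat_lit 78) (nat_lit 228) (nat_lit 0) (XT.lf (nat_lit 0) (nat_lit 10813623583) (nat_lit 228) (nat_lit 729824124) (nat_lit 76) (nat_lit 32407767534) (nat_lit 42) (nat_lit 5) (nat_lit 45) (nat_lit 5) (nat_lit 43) (nat_lit 5) (nat_lit 367) (nat_lit 295) (nat_lit 118)) (XT.nd (nat_lit 78) (nat_lit 0) (nat_lit 0) (XT.lf (nat_lit 0) (nat_lit 16665747961) (nat_lit 228) (nat_lit 868385556) (nat_lit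 304) (nat_lit 27402333137) (nat_lit 39) (nat_lit 5) (nat_lit 42) (nat_lit 5) (nat_lit 43) (nat_lit 5) (nat_lit 368) (nat_lit 295) (nat_lit 117)) (XT.lf (nat_lit 0) (nat_lit 24557700138) (nat_lit 304) (nat_lit 11455645444) (nat_lit 76) (nat_lit 9934889777) (nat_lit 39) (nat_lit 5) (nat_lit 43) (nat_lit 5) (nat_lit 40) (nat_lit 5) (nat_lit 369) (nat_lit 295) (nat_lit 116)))))) (XT.nd (nat_lit 468) (nat_lit 532) (nat_lit 0) (XT.nd (nat_lit 234) (nat_lit 228) (nat_lit 0) (XT.nd (nat_lit 78) (nat_lit 0) (nat_lit 0) (XT.lf (nat_lit 0) (nat_lit 5966546259) (nat_lit 152) (nat_lit 25888129364) (nat_lit 228) (nat_lit 15133803346) (nat_lit 37) (nat_lit 5) (nat_lit 39) (nat_lit 5) (nat_lit 40) (nat_lit 5) (nat_lit 370) (nat_lit 295) (nat_lit 115)) (XT.nd (nat_lit 78) (nat_lit 0) (nat_lit 0) (XT.lf (nat_lit 0) (nat_lit 24141119174) (nat_lit 152) (nat_lit 15341916159) (nat_lit 228) (nat_lit 8573523125) (nat_lit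 37) (nat_lit 5) (nat_lit 39) (nat_lit 5) (nat_lit 40) (nat_lit 5) (nat_lit 371) (nat_lit 295) (nat_lit 114)) (XT.lf (nat_lit 0) (nat_lit 42855964187) (nat_lit 152) (nat_lit 4481170385) (nat_lit 228) (nat_lit 1819641831) (nat_lit 37) (nat_lit 5) (nat_lit 39) (nat_lit 5) (nat_lit 40) (nat_lit 5) (nat_lit 372) (nat_lit 295) (nat_lit 113)))) (XT.nd (nat_lit 78) (nat_lit 0) (nat_lit 0) (XT.lf (nat_lit 0) (nat_lit 5215204656) (nat_lit 228) (nat_lit 38328623190) (nat_lit 76) (nat_lit 6739336642) (nat_lit 34) (nat_lit 5) (nat_lit 37) (nat_lit 5) (nat_lit 35) (nat_lit 5) (nat_lit 373) (nat_lit 295) (nat_lit 112)) (XT.nd (nat_lit 78) (nat_lit 0) (nat_lit 0) (XT.lf (nat_lit 0) (nat_lit 12530119114) (nat_lit 228) (nat_lit 20622645001) (nat_lit 76) (nat_lit 18286874248) (nat_lit 34) (nat_lit 5) (nat_lit 37) (nat_lit 5) (nat_lit 35) (nat_lit 5) (nat_lit 374) (nat_lit 295) (nat_lit 111)) (XT.lf (nat_lit 0) (nat_lit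 20061540951) (nat_lit 228) (nat_lit 2390255637) (nat_lit 76) (nat_lit 30179100500) (nat_lit 34) (nat_lit 5) (nat_lit 37) (nat_lit 5) (nat_lit 35) (nat_lit 5) (nat_lit 375) (nat_lit 295) (nat_lit 110))))) (XT.nd (nat_lit 234) (nat_lit 228) (nat_lit 0) (XT.nd (nat_lit 78) (nat_lit 152) (nat_lit 0) (XT.lf (nat_lit 0) (nat_lit 16710559317) (nat_lit 152) (nat_lit 11266123821) (nat_lit 228) (nat_lit 25876479463) (nat_lit 32) (nat_lit 5) (nat_lit 34) (nat_lit 5) (nat_lit 35) (nat_lit 5) (nat_lit 376) (nat_lit 295) (nat_lit 109)) (XT.nd (nat_lit 78) (nat_lit 152) (nat_lit 0) (XT.lf (nat_lit 0) (nat_lit 36153275480) (nat_lit 228) (nat_lit 18685320355) (nat_lit 76) (nat_lit 272782661) (nat_lit 32) (nat_lit 5) (nat_lit 35) (nat_lit 5) (nat_lit 33) (nat_lit 5) (nat_lit 377) (nat_lit 295) (nat_lit 108)) (XT.lf (nat_lit 0) (nat_lit 213788962) (nat_lit 152) (nat_lit 44472227628) (nat_lit 228) (nat_lit 11718000972)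 (nat_lit 30) (nat_lit 5) (nat_lit 32) (nat_lit 5) (nat_lit 33) (nat_lit 5) (nat_lit 378) (nat_lit 295) (nat_lit 107)))) (XT.nd (nat_lit 78) (nat_lit 228) (nat_lit 0) (XT.lf (nat_lit 0) (nat_lit 20058428489) (nat_lit 152) (nat_lit 33602283777) (nat_lit 228) (nat_lit 4069146522) (nat_lit 30) (nat_lit 5) (nat_lit 32) (nat_lit 5) (nat_lit 33) (nat_lit 5) (nat_lit 379) (nat_lit 295) (nat_lit 106)) (XT.nd (nat_lit 78) (nat_lit 152) (nat_lit 0) (XT.lf (nat_lit 0) (nat_lit 3732180980) (nat_lit 228) (nat_lit 18638082681) (nat_lit 76) (nat_lit 36724194999) (nat_lit 29) (nat_lit 5) (nat_lit 32) (nat_lit 5) (nat_lit 30) (nat_lit 5) (nat_lit 380) (nat_lit 295) (nat_lit 105)) (XT.lf (nat_lit 0) (nat_lit 940050137) (nat_lit 152) (nat_lit 10752164337) (nat_lit 228) (nat_lit 48806381812) (nat_lit 27) (nat_lit 5) (nat_lit 29) (nat_lit 5) (nat_lit 30) (nat_lit 5) (nat_lit 381) (nat_lit 295) (nat_lit 104))))))) (XT.nd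 (nat_lit 34398) (nat_lit 0) (nat_lit 11020) (XT.nd (nat_lit 33930) (nat_lit 0) (nat_lit 11780) (XT.nd (nat_lit 234) (nat_lit 152) (nat_lit 0) (XT.nd (nat_lit 78) (nat_lit 0) (nat_lit 0) (XT.lf (nat_lit 0) (nat_lit 20090228949) (nat_lit 228) (nat_lit 40469451007) (nat_lit 76) (nat_lit 1379204605) (nat_lit 27) (nat_lit 5) (nat_lit 30) (nat_lit 5) (nat_lit 28) (nat_lit 5) (nat_lit 382) (nat_lit 295) (nat_lit 103)) (XT.nd (nat_lit 78) (nat_lit 0) (nat_lit 0) (XT.lf (nat_lit 0) (nat_lit 28844149798) (nat_lit 228) (nat_lit 20918305926) (nat_lit 76) (nat_lit 13656808645) (nat_lit 27) (nat_lit 5) (nat_lit 30) (nat_lit 5) (nat_lit 28) (nat_lit 5) (nat_lit 383) (nat_lit 295) (nat_lit 102)) (XT.lf (nat_lit 0) (nat_lit 37858269698) (nat_lit 228) (nat_lit 784671001) (nat_lit 76) (nat_lit 26301189239) (nat_lit 27) (nat_lit 5) (nat_lit 30) (nat_lit 5) (nat_lit 28) (nat_lit 5) (nat_lit 384) (nat_lit 295) (nat_lit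 101)))) (XT.nd (nat_lit 78) (nat_lit 0) (nat_lit 0) (XT.lf (nat_lit 0) (nat_lit 20346071402) (nat_lit 152) (nat_lit 26989972545) (nat_lit 228) (nat_lit 19172902358) (nat_lit 25) (nat_lit 5) (nat_lit 27) (nat_lit 5) (nat_lit 28) (nat_lit 5) (nat_lit 385) (nat_lit 295) (nat_lit 100)) (XT.nd (nat_lit 78) (nat_lit 0) (nat_lit 0) (XT.lf (nat_lit 0) (nat_lit 42122932854) (nat_lit 152) (nat_lit 14980825094) (nat_lit 228) (nat_lit 11016782725) (nat_lit 25) (nat_lit 5) (nat_lit 27) (nat_lit 5) (nat_lit 28) (nat_lit 5) (nat_lit 386) (nat_lit 295) (nat_lit 99)) (XT.lf (nat_lit 0) (nat_lit 64549325189) (nat_lit 152) (nat_lit 2612928554) (nat_lit 228) (nat_lit 2618298273) (nat_lit 25) (nat_lit 5) (nat_lit 27) (nat_lit 5) (nat_lit 28) (nat_lit 5) (nat_lit 387) (nat_lit 295) (nat_lit 98))))) (XT.nd (nat_lit 234) (nat_lit 0) (nat_lit 76) (XT.nd (nat_lit 78) (nat_lit 0) (nat_lit 0) (XT.lf (nat_lit 0) (nat_lit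 1894222978) (nat_lit 1140) (nat_lit 2101554786) (nat_lit 1140) (nat_lit 2101554786) (nat_lit 180) (nat_lit 3) (nat_lit 195) (nat_lit 3) (nat_lit 195) (nat_lit 5) (nat_lit 296) (nat_lit 296) (nat_lit 188)) (XT.nd (nat_lit 78) (nat_lit 0) (nat_lit 76) (XT.lf (nat_lit 76) (nat_lit 1142594143) (nat_lit 0) (nat_lit 3139136859) (nat_lit 1140) (nat_lit 8081992147) (nat_lit 181) (nat_lit 5) (nat_lit 180) (nat_lit 3) (nat_lit 195) (nat_lit 5) (nat_lit 297) (nat_lit 296) (nat_lit 187)) (XT.lf (nat_lit 0) (nat_lit 4833933792) (nat_lit 1064) (nat_lit 5829383921) (nat_lit 1140) (nat_lit 1873241629) (nat_lit 181) (nat_lit 5) (nat_lit 195) (nat_lit 5) (nat_lit 196) (nat_lit 5) (nat_lit 298) (nat_lit 296) (nat_lit 186)))) (XT.nd (nat_lit 78) (nat_lit 0) (nat_lit 0) (XT.lf (nat_lit 0) (nat_lit 5417654443) (nat_lit 1064) (nat_lit 316039087) (nat_lit 1140) (nat_lit 6980467644) (nat_lit 181) (nat_lit 5) (nat_lit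 195) (nat_lit 5) (nat_lit 196) (nat_lit 5) (nat_lit 299) (nat_lit 296) (nat_lit 185)) (XT.nd (nat_lit 78) (nat_lit 0) (nat_lit 76) (XT.lf (nat_lit 76) (nat_lit 5460451360) (nat_lit 0) (nat_lit 595265538) (nat_lit 1140) (nat_lit 6840297515) (nat_lit 182) (nat_lit 5) (nat_lit 181) (nat_lit 5) (nat_lit 196) (nat_lit 5) (nat_lit 300) (nat_lit 296) (nat_lit 184)) (XT.lf (nat_lit 0) (nat_lit 6746074015) (nat_lit 1064) (nat_lit 1720968166) (nat_lit 1140) (nat_lit 4615313921) (nat_lit 182) (nat_lit 5) (nat_lit 196) (nat_lit 5) (nat_lit 197) (nat_lit 5) (nat_lit 301) (nat_lit 296) (nat_lit 183)))))) (XT.nd (nat_lit 468) (nat_lit 912) (nat_lit 0) (XT.nd (nat_lit 234) (nat_lit 0) (nat_lit 76) (XT.nd (nat_lit 78) (nat_lit 0) (nat_lit 76) (XT.lf (nat_lit 76) (nat_lit 4232766788) (nat_lit 0) (nat_lit 3256176473) (nat_lit 1140) (nat_lit 5784417375) (nat_lit 183) (nat_lit 5) (nat_lit 182) (nat_lit 5) (nat_lit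 197) (nat_lit 5) (nat_lit 302) (nat_lit 296) (nat_lit 182)) (XT.nd (nat_lit 78) (nat_lit 0) (nat_lit 0) (XT.lf (nat_lit 0) (nat_lit 8277559091) (nat_lit 1064) (nat_lit 3099070794) (nat_lit 1140) (nat_lit 2092787467) (nat_lit 183) (nat_lit 5) (nat_lit 197) (nat_lit 5) (nat_lit 198) (nat_lit 5) (nat_lit 303) (nat_lit 296) (nat_lit 181)) (XT.lf (nat_lit 76) (nat_lit 3038602801) (nat_lit 0) (nat_lit 6098715444) (nat_lit 1140) (nat_lit 4532638087) (nat_lit 184) (nat_lit 5) (nat_lit 183) (nat_lit 5) (nat_lit 198) (nat_lit 5) (nat_lit 304) (nat_lit 296) (nat_lit 180)))) (XT.nd (nat_lit 78) (nat_lit 0) (nat_lit 76) (XT.lf (nat_lit 76) (nat_lit 9414874359) (nat_lit 0) (nat_lit 625646533) (nat_lit 1140) (nat_lit 3835485443) (nat_lit 184) (nat_lit 5) (nat_lit 183) (nat_lit 5) (nat_lit 198) (nat_lit 5) (nat_lit 305) (nat_lit 296) (nat_lit 179)) (XT.nd (nat_lit 78) (nat_lit 0) (nat_lit 0) (XT.lf (nat_lit 76)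 (nat_lit 1873316565) (nat_lit 0) (nat_lit 9150481574) (nat_lit 1140) (nat_lit 3062874011) (nat_lit 185) (nat_lit 5) (nat_lit 184) (nat_lit 5) (nat_lit 199) (nat_lit 5) (nat_lit 306) (nat_lit 296) (nat_lit 178)) (XT.lf (nat_lit 76) (nat_lit 8473760270) (nat_lit 0) (nat_lit 3601088690) (nat_lit 1140) (nat_lit 2227683698) (nat_lit 185) (nat_lit 5) (nat_lit 184) (nat_lit 5) (nat_lit 199) (nat_lit 5) (nat_lit 307) (nat_lit 296) (nat_lit 177))))) (XT.nd (nat_lit 234) (nat_lit 0) (nat_lit 76) (XT.nd (nat_lit 78) (nat_lit 1140) (nat_lit 0) (XT.lf (nat_lit 76) (nat_lit 731967626) (nat_lit 0) (nat_lit 12440332023) (nat_lit 1140) (nat_lit 1352145592) (nat_lit 186) (nat_lit 5) (nat_lit 185) (nat_lit 5) (nat_lit 200) (nat_lit 5) (nat_lit 308) (nat_lit 296) (nat_lit 176)) (XT.nd (nat_lit 78) (nat_lit 1140) (nat_lit 0) (XT.lf (nat_lit 76) (nat_lit 7563406164) (nat_lit 0) (nat_lit 6821210376) (nat_lit 1140) (nat_lit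 365962036) (nat_lit 186) (nat_lit 5) (nat_lit 185) (nat_lit 5) (nat_lit 200) (nat_lit 5) (nat_lit 309) (nat_lit 296) (nat_lit 175)) (XT.lf (nat_lit 0) (nat_lit 625123533) (nat_lit 1140) (nat_lit 399188326) (nat_lit 1216) (nat_lit 13959377180) (nat_lit 170) (nat_lit 5) (nat_lit 185) (nat_lit 5) (nat_lit 186) (nat_lit 5) (nat_lit 310) (nat_lit 296) (nat_lit 174)))) (XT.nd (nat_lit 78) (nat_lit 0) (nat_lit 0) (XT.lf (nat_lit 0) (nat_lit 1739689838) (nat_lit 1140) (nat_lit 8559568672) (nat_lit 1216) (nat_lit 4921412317) (nat_lit 171) (nat_lit 5) (nat_lit 186) (nat_lit 5) (nat_lit 187) (nat_lit 5) (nat_lit 311) (nat_lit 296) (nat_lit 173)) (XT.nd (nat_lit 78) (nat_lit 0) (nat_lit 76) (XT.lf (nat_lit 0) (nat_lit 2890530309) (nat_lit 1140) (nat_lit 1542700999) (nat_lit 1216) (nat_lit 11031464886) (nat_lit 171) (nat_lit 5) (nat_lit 186) (nat_lit 5) (nat_lit 187) (nat_lit 5) (nat_lit 312) (nat_lit 296)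 (nat_lit 172)) (XT.lf (nat_lit 0) (nat_lit 4136530981) (nat_lit 1140) (nat_lit 9942121133) (nat_lit 76) (nat_lit 1635589843) (nat_lit 172) (nat_lit 5) (nat_lit 187) (nat_lit 5) (nat_lit 173) (nat_lit 5) (nat_lit 313) (nat_lit 296) (nat_lit 171))))))))
noncomputable def xc197 : XT := (XT.nd (nat_lit 1794) (nat_lit 3192) (nat_lit 0) (XT.nd (nat_lit 858) (nat_lit 2584) (nat_lit 0) (XT.nd (nat_lit 390) (nat_lit 1748) (nat_lit 0) (XT.nd (nat_lit 156) (nat_lit 532) (nat_lit 0) (XT.nd (nat_lit 78) (nat_lit 1140) (nat_lit 0) (XT.lf (nat_lit 0) (nat_lit 5468747791) (nat_lit 1140) (nat_lit 2686108503) (nat_lit 76) (nat_lit 7814970852) (nat_lit 172) (nat_lit 5) (nat_lit 187) (nat_lit 5) (nat_lit 173) (nat_lit 5) (nat_lit 314) (nat_lit 296) (nat_lit 170)) (XT.lf (nat_lit 0) (nat_lit 4873692360) (nat_lit 1140) (nat_lit 2003612165) (nat_lit 1216) (nat_lit 9354701773) (nat_lit 157) (nat_lit 5) (nat_lit 172)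 (nat_lit 5) (nat_lit 173) (nat_lit 5) (nat_lit 315) (nat_lit 296) (nat_lit 169))) (XT.nd (nat_lit 78) (nat_lit 532) (nat_lit 0) (XT.lf (nat_lit 0) (nat_lit 8386911376) (nat_lit 1216) (nat_lit 3837044260) (nat_lit 76) (nat_lit 4276348484) (nat_lit 157) (nat_lit 5) (nat_lit 173) (nat_lit 5) (nat_lit 158) (nat_lit 5) (nat_lit 316) (nat_lit 296) (nat_lit 168)) (XT.nd (nat_lit 78) (nat_lit 0) (nat_lit 0) (XT.lf (nat_lit 0) (nat_lit 3958290552) (nat_lit 532) (nat_lit 6031458437) (nat_lit 608) (nat_lit 6785480210) (nat_lit 150) (nat_lit 5) (nat_lit 157) (nat_lit 5) (nat_lit 158) (nat_lit 5) (nat_lit 317) (nat_lit 296) (nat_lit 167)) (XT.lf (nat_lit 0) (nat_lit 11673403490) (nat_lit 608) (nat_lit 5004020239) (nat_lit 76) (nat_lit 380012465) (nat_lit 150) (nat_lit 5) (nat_lit 158) (nat_lit 5) (nat_lit 151) (nat_lit 5) (nat_lit 318) (nat_lit 296) (nat_lit 166))))) (XT.nd (nat_lit 234) (nat_lit 608) (nat_lit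 0) (XT.nd (nat_lit 78) (nat_lit 532) (nat_lit 0) (XT.lf (nat_lit 0) (nat_lit 3033833161) (nat_lit 608) (nat_lit 10453166116) (nat_lit 684) (nat_lit 3858742817) (nat_lit 142) (nat_lit 5) (nat_lit 150) (nat_lit 5) (nat_lit 151) (nat_lit 5) (nat_lit 319) (nat_lit 296) (nat_lit 165)) (XT.nd (nat_lit 78) (nat_lit 532) (nat_lit 0) (XT.lf (nat_lit 0) (nat_lit 11406551120) (nat_lit 608) (nat_lit 3989723945) (nat_lit 684) (nat_lit 2245199134) (nat_lit 142) (nat_lit 5) (nat_lit 150) (nat_lit 5) (nat_lit 151) (nat_lit 5) (nat_lit 320) (nat_lit 296) (nat_lit 164)) (XT.lf (nat_lit 0) (nat_lit 2090646511) (nat_lit 532) (nat_lit 15308936830) (nat_lit 608) (nat_lit 545407047) (nat_lit 135) (nat_lit 5) (nat_lit 142) (nat_lit 5) (nat_lit 143) (nat_lit 5) (nat_lit 321) (nat_lit 296) (nat_lit 163)))) (XT.nd (nat_lit 78) (nat_lit 532) (nat_lit 0) (XT.lf (nat_lit 0) (nat_lit 1276034378) (nat_lit 608) (nat_lit 7522625912)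 (nat_lit 76) (nat_lit 9455792764) (nat_lit 134) (nat_lit 5) (nat_lit 142) (nat_lit 5) (nat_lit 135) (nat_lit 5) (nat_lit 322) (nat_lit 296) (nat_lit 162)) (XT.nd (nat_lit 78) (nat_lit 0) (nat_lit 0) (XT.lf (nat_lit 0) (nat_lit 1065717929) (nat_lit 532) (nat_lit 2077033575) (nat_lit 608) (nat_lit 15430251752) (nat_lit 127) (nat_lit 5) (nat_lit 134) (nat_lit 5) (nat_lit 135) (nat_lit 5) (nat_lit 323) (nat_lit 296) (nat_lit 161)) (XT.lf (nat_lit 0) (nat_lit 5180288767) (nat_lit 608) (nat_lit 8889151787) (nat_lit 76) (nat_lit 4828237956) (nat_lit 127) (nat_lit 5) (nat_lit 135) (nat_lit 5) (nat_lit 128) (nat_lit 5) (nat_lit 324) (nat_lit 296) (nat_lit 160)))))) (XT.nd (nat_lit 468) (nat_lit 1292) (nat_lit 0) (XT.nd (nat_lit 234) (nat_lit 836) (nat_lit 0) (XT.nd (nat_lit 78) (nat_lit 456) (nat_lit 0) (XT.lf (nat_lit 0) (nat_lit 7291281585) (nat_lit 608) (nat_lit 41681761) (nat_lit 76) (nat_lit 11898773512)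 (nat_lit 127) (nat_lit 5) (nat_lit 135) (nat_lit 5) (nat_lit 128) (nat_lit 5) (nat_lit 325) (nat_lit 296) (nat_lit 159)) (XT.nd (nat_lit 78) (nat_lit 0) (nat_lit 0) (XT.lf (nat_lit 0) (nat_lit 9243189177) (nat_lit 456) (nat_lit 303270810) (nat_lit 532) (nat_lit 10026943648) (nat_lit 121) (nat_lit 5) (nat_lit 127) (nat_lit 5) (nat_lit 128) (nat_lit 5) (nat_lit 326) (nat_lit 296) (nat_lit 158)) (XT.lf (nat_lit 0) (nat_lit 11928557639) (nat_lit 532) (nat_lit 1193088582) (nat_lit 76) (nat_lit 6801908269) (nat_lit 121) (nat_lit 5) (nat_lit 128) (nat_lit 5) (nat_lit 122) (nat_lit 5) (nat_lit 327) (nat_lit 296) (nat_lit 157)))) (XT.nd (nat_lit 78) (nat_lit 380) (nat_lit 0) (XT.lf (nat_lit 0) (nat_lit 8370178175) (nat_lit 456) (nat_lit 6087783681) (nat_lit 532) (nat_lit 5823984349) (nat_lit 115) (nat_lit 5) (nat_lit 121) (nat_lit 5) (nat_lit 122) (nat_lit 5) (nat_lit 328) (nat_lit 296) (nat_lit 156))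 (XT.nd (nat_lit 78) (nat_lit 380) (nat_lit 0) (XT.lf (nat_lit 0) (nat_lit 17079055425) (nat_lit 532) (nat_lit 2425619680) (nat_lit 76) (nat_lit 1145951652) (nat_lit 115) (nat_lit 5) (nat_lit 122) (nat_lit 5) (nat_lit 116) (nat_lit 5) (nat_lit 329) (nat_lit 296) (nat_lit 155)) (XT.lf (nat_lit 0) (nat_lit 7421453895) (nat_lit 380) (nat_lit 12481677867) (nat_lit 456) (nat_lit 1123516439) (nat_lit 110) (nat_lit 5) (nat_lit 115) (nat_lit 5) (nat_lit 116) (nat_lit 5) (nat_lit 330) (nat_lit 296) (nat_lit 154))))) (XT.nd (nat_lit 234) (nat_lit 760) (nat_lit 0) (XT.nd (nat_lit 78) (nat_lit 456) (nat_lit 0) (XT.lf (nat_lit 0) (nat_lit 1388224770) (nat_lit 456) (nat_lit 3821510610) (nat_lit 76) (nat_lit 16203296375) (nat_lit 109) (nat_lit 5) (nat_lit 115) (nat_lit 5) (nat_lit 110) (nat_lit 5) (nat_lit 331) (nat_lit 296) (nat_lit 153)) (XT.nd (nat_lit 78) (nat_lit 0) (nat_lit 0) (XT.lf (nat_lit 0) (nat_lit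 4029502720) (nat_lit 532) (nat_lit 15471041868) (nat_lit 76) (nat_lit 2307835572) (nat_lit 103) (nat_lit 5) (nat_lit 110) (nat_lit 5) (nat_lit 104) (nat_lit 5) (nat_lit 332) (nat_lit 296) (nat_lit 152)) (XT.lf (nat_lit 0) (nat_lit 6833687285) (nat_lit 532) (nat_lit 5395267677) (nat_lit 76) (nat_lit 9984133756) (nat_lit 103) (nat_lit 5) (nat_lit 110) (nat_lit 5) (nat_lit 104) (nat_lit 5) (nat_lit 333) (nat_lit 296) (nat_lit 151)))) (XT.nd (nat_lit 78) (nat_lit 380) (nat_lit 0) (XT.lf (nat_lit 0) (nat_lit 5073864230) (nat_lit 380) (nat_lit 4690221678) (nat_lit 456) (nat_lit 12864599436) (nat_lit 98) (nat_lit 5) (nat_lit 103) (nat_lit 5) (nat_lit 104) (nat_lit 5) (nat_lit 334) (nat_lit 296) (nat_lit 150)) (XT.nd (nat_lit 78) (nat_lit 380) (nat_lit 0) (XT.lf (nat_lit 0) (nat_lit 12860395557) (nat_lit 456) (nat_lit 7125583700) (nat_lit 76) (nat_lit 3068439830) (nat_lit 98) (nat_lit 5) (nat_lit 104)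 (nat_lit 5) (nat_lit 99) (nat_lit 5) (nat_lit 335) (nat_lit 296) (nat_lit 149)) (XT.lf (nat_lit 0) (nat_lit 3633182673) (nat_lit 380) (nat_lit 12491387991) (nat_lit 456) (nat_lit 7366113816) (nat_lit 93) (nat_lit 5) (nat_lit 98) (nat_lit 5) (nat_lit 99) (nat_lit 5) (nat_lit 336) (nat_lit 296) (nat_lit 148))))))) (XT.nd (nat_lit 936) (nat_lit 1444) (nat_lit 0) (XT.nd (nat_lit 468) (nat_lit 988) (nat_lit 0) (XT.nd (nat_lit 234) (nat_lit 380) (nat_lit 0) (XT.nd (nat_lit 78) (nat_lit 380) (nat_lit 0) (XT.lf (nat_lit 0) (nat_lit 14853049253) (nat_lit 380) (nat_lit 4699301848) (nat_lit 456) (nat_lit 4385724995) (nat_lit 93) (nat_lit 5) (nat_lit 98) (nat_lit 5) (nat_lit 99) (nat_lit 5) (nat_lit 337) (nat_lit 296) (nat_lit 147)) (XT.nd (nat_lit 78) (nat_lit 76) (nat_lit 0) (XT.lf (nat_lit 0) (nat_lit 2010188907) (nat_lit 304) (nat_lit 21117970823) (nat_lit 380) (nat_lit 1269382297) (nat_lit 89) (nat_lit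 5) (nat_lit 93) (nat_lit 5) (nat_lit 94) (nat_lit 5) (nat_lit 338) (nat_lit 296) (nat_lit 146)) (XT.lf (nat_lit 0) (nat_lit 2035694612) (nat_lit 380) (nat_lit 11317369356) (nat_lit 76) (nat_lit 11513183039) (nat_lit 88) (nat_lit 5) (nat_lit 93) (nat_lit 5) (nat_lit 89) (nat_lit 5) (nat_lit 339) (nat_lit 296) (nat_lit 145)))) (XT.nd (nat_lit 78) (nat_lit 0) (nat_lit 0) (XT.lf (nat_lit 0) (nat_lit 65921411) (nat_lit 380) (nat_lit 5343231591) (nat_lit 456) (nat_lit 19939648511) (nat_lit 83) (nat_lit 5) (nat_lit 88) (nat_lit 5) (nat_lit 89) (nat_lit 5) (nat_lit 340) (nat_lit 296) (nat_lit 144)) (XT.nd (nat_lit 78) (nat_lit 0) (nat_lit 0) (XT.lf (nat_lit 0) (nat_lit 9021365861) (nat_lit 456) (nat_lit 13856375139) (nat_lit 76) (nat_lit 2963972607) (nat_lit 83) (nat_lit 5) (nat_lit 89) (nat_lit 5) (nat_lit 84) (nat_lit 5) (nat_lit 341) (nat_lit 296) (nat_lit 143)) (XT.lf (nat_lit 0) (nat_lit 12789210621)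 (nat_lit 456) (nat_lit 2147359358) (nat_lit 76) (nat_lit 11411432374) (nat_lit 83) (nat_lit 5) (nat_lit 89) (nat_lit 5) (nat_lit 84) (nat_lit 5) (nat_lit 342) (nat_lit 296) (nat_lit 142))))) (XT.nd (nat_lit 234) (nat_lit 380) (nat_lit 0) (XT.nd (nat_lit 78) (nat_lit 304) (nat_lit 0) (XT.lf (nat_lit 0) (nat_lit 10102904892) (nat_lit 304) (nat_lit 6658827572) (nat_lit 380) (nat_lit 10105005089) (nat_lit 79) (nat_lit 5) (nat_lit 83) (nat_lit 5) (nat_lit 84) (nat_lit 5) (nat_lit 343) (nat_lit 296) (nat_lit 141)) (XT.nd (nat_lit 78) (nat_lit 304) (nat_lit 0) (XT.lf (nat_lit 0) (nat_lit 20887879080) (nat_lit 380) (nat_lit 4661099919) (nat_lit 76) (nat_lit 1851029174) (nat_lit 79) (nat_lit 5) (nat_lit 84) (nat_lit 5) (nat_lit 80) (nat_lit 5) (nat_lit 344) (nat_lit 296) (nat_lit 140)) (XT.lf (nat_lit 0) (nat_lit 7885626236) (nat_lit 304) (nat_lit 17388672737) (nat_lit 380) (nat_lit 2670889912) (nat_lit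 75) (nat_lit 5) (nat_lit 79) (nat_lit 5) (nat_lit 80) (nat_lit 5) (nat_lit 345) (nat_lit 296) (nat_lit 139)))) (XT.nd (nat_lit 78) (nat_lit 304) (nat_lit 0) (XT.lf (nat_lit 0) (nat_lit 1302820762) (nat_lit 380) (nat_lit 7620912268) (nat_lit 76) (nat_lit 19581357890) (nat_lit 74) (nat_lit 5) (nat_lit 79) (nat_lit 5) (nat_lit 75) (nat_lit 5) (nat_lit 346) (nat_lit 296) (nat_lit 138)) (XT.nd (nat_lit 78) (nat_lit 0) (nat_lit 0) (XT.lf (nat_lit 0) (nat_lit 5260227723) (nat_lit 304) (nat_lit 127335913) (nat_lit 380) (nat_lit 23692074029) (nat_lit 70) (nat_lit 5) (nat_lit 74) (nat_lit 5) (nat_lit 75) (nat_lit 5) (nat_lit 347) (nat_lit 296) (nat_lit 137)) (XT.lf (nat_lit 0) (nat_lit 9753439090) (nat_lit 380) (nat_lit 11078661743) (nat_lit 76) (nat_lit 8834568169) (nat_lit 70) (nat_lit 5) (nat_lit 75) (nat_lit 5) (nat_lit 71) (nat_lit 5) (nat_lit 348) (nat_lit 296) (nat_lit 136)))))) (XT.nd (nat_lit 468)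 (nat_lit 532) (nat_lit 0) (XT.nd (nat_lit 234) (nat_lit 608) (nat_lit 0) (XT.nd (nat_lit 78) (nat_lit 0) (nat_lit 0) (XT.lf (nat_lit 0) (nat_lit 2076835061) (nat_lit 304) (nat_lit 12189828916) (nat_lit 380) (nat_lit 16004161833) (nat_lit 66) (nat_lit 5) (nat_lit 70) (nat_lit 5) (nat_lit 71) (nat_lit 5) (nat_lit 349) (nat_lit 296) (nat_lit 135)) (XT.nd (nat_lit 78) (nat_lit 0) (nat_lit 0) (XT.lf (nat_lit 0) (nat_lit 15847424927) (nat_lit 304) (nat_lit 3174959209) (nat_lit 380) (nat_lit 11867515793) (nat_lit 66) (nat_lit 5) (nat_lit 70) (nat_lit 5) (nat_lit 71) (nat_lit 5) (nat_lit 350) (nat_lit 296) (nat_lit 134)) (XT.lf (nat_lit 0) (nat_lit 23974859478) (nat_lit 380) (nat_lit 1561756168) (nat_lit 76) (nat_lit 5989313516) (nat_lit 66) (nat_lit 5) (nat_lit 71) (nat_lit 5) (nat_lit 67) (nat_lit 5) (nat_lit 351) (nat_lit 296) (nat_lit 133)))) (XT.nd (nat_lit 78) (nat_lit 380) (nat_lit 0) (XT.lf (nat_lit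 0) (nat_lit 12530041741) (nat_lit 228) (nat_lit 16693231618) (nat_lit 304) (nat_lit 2953350225) (nat_lit 63) (nat_lit 5) (nat_lit 66) (nat_lit 5) (nat_lit 67) (nat_lit 5) (nat_lit 352) (nat_lit 296) (nat_lit 132)) (XT.nd (nat_lit 78) (nat_lit 304) (nat_lit 0) (XT.lf (nat_lit 0) (nat_lit 1758952654) (nat_lit 304) (nat_lit 5793491407) (nat_lit 76) (nat_lit 25293542814) (nat_lit 62) (nat_lit 5) (nat_lit 66) (nat_lit 5) (nat_lit 63) (nat_lit 5) (nat_lit 353) (nat_lit 296) (nat_lit 131)) (XT.lf (nat_lit 0) (nat_lit 6650637058) (nat_lit 380) (nat_lit 24943542220) (nat_lit 76) (nat_lit 1937458193) (nat_lit 58) (nat_lit 5) (nat_lit 63) (nat_lit 5) (nat_lit 59) (nat_lit 5) (nat_lit 354) (nat_lit 296) (nat_lit 130))))) (XT.nd (nat_lit 234) (nat_lit 304) (nat_lit 0) (XT.nd (nat_lit 78) (nat_lit 228) (nat_lit 0) (XT.lf (nat_lit 0) (nat_lit 11818615205) (nat_lit 380) (nat_lit 10797879301) (nat_lit 76) (nat_lit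 11617481442) (nat_lit 58) (nat_lit 5) (nat_lit 63) (nat_lit 5) (nat_lit 59) (nat_lit 5) (nat_lit 355) (nat_lit 296) (nat_lit 129)) (XT.nd (nat_lit 78) (nat_lit 0) (nat_lit 0) (XT.lf (nat_lit 0) (nat_lit 3840977335) (nat_lit 228) (nat_lit 13333387278) (nat_lit 304) (nat_lit 17782042528) (nat_lit 55) (nat_lit 5) (nat_lit 58) (nat_lit 5) (nat_lit 59) (nat_lit 5) (nat_lit 356) (nat_lit 296) (nat_lit 128)) (XT.lf (nat_lit 0) (nat_lit 19134278213) (nat_lit 228) (nat_lit 3661419506) (nat_lit 304) (nat_lit 12901670604) (nat_lit 55) (nat_lit 5) (nat_lit 58) (nat_lit 5) (nat_lit 59) (nat_lit 5) (nat_lit 357) (nat_lit 296) (nat_lit 127)))) (XT.nd (nat_lit 78) (nat_lit 304) (nat_lit 0) (XT.lf (nat_lit 0) (nat_lit 28642212941) (nat_lit 304) (nat_lit 1640743482) (nat_lit 76) (nat_lit 6175909916) (nat_lit 55) (nat_lit 5) (nat_lit 59) (nat_lit 5) (nat_lit 56) (nat_lit 5) (nat_lit 358) (nat_lit 296) (nat_lit 126))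 (XT.nd (nat_lit 78) (nat_lit 76) (nat_lit 0) (XT.lf (nat_lit 0) (nat_lit 13959601642) (nat_lit 228) (nat_lit 20871054965) (nat_lit 304) (nat_lit 2407560836) (nat_lit 52) (nat_lit 5) (nat_lit 55) (nat_lit 5) (nat_lit 56) (nat_lit 5) (nat_lit 359) (nat_lit 296) (nat_lit 125)) (XT.lf (nat_lit 0) (nat_lit 3114909024) (nat_lit 304) (nat_lit 8015284328) (nat_lit 76) (nat_lit 26909462003) (nat_lit 51) (nat_lit 5) (nat_lit 55) (nat_lit 5) (nat_lit 52) (nat_lit 5) (nat_lit 360) (nat_lit 296) (nat_lit 124))))))))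
noncomputable def xc198 : XT := (XT.nd (nat_lit 1794) (nat_lit 152) (nat_lit 0) (XT.nd (nat_lit 858) (nat_lit 760) (nat_lit 0) (XT.nd (nat_lit 390) (nat_lit 608) (nat_lit 0) (XT.nd (nat_lit 156) (nat_lit 228) (nat_lit 0) (XT.nd (nat_lit 78) (nat_lit 0) (nat_lit 0) (XT.lf (nat_lit 0) (nat_lit 7829209639) (nat_lit 228) (nat_lit 996935633) (nat_lit 304) (nat_lit 30036135345) (nat_lit 48) (nat_lit 5) (nat_lit 51) (nat_lit 5) (nat_lit 52) (nat_lit 5) (nat_lit 361) (nat_lit 296) (nat_lit 123)) (XT.lf (nat_lit 0) (nat_lit 14877465224) (nat_lit 304) (nat_lit 15491077784) (nat_lit 76) (nat_lit 9335982907) (nat_lit 48) (nat_lit 5) (nat_lit 52) (nat_lit 5) (nat_lit 49) (nat_lit 5) (nat_lit 362) (nat_lit 296) (nat_lit 122))) (XT.nd (nat_lit 78) (nat_lit 0) (nat_lit 0) (XT.lf (nat_lit 0) (nat_lit 511739267) (nat_lit 228) (nat_lit 20609744684) (nat_lit 304) (nat_lit 19450223414) (nat_lit 45) (nat_lit 5) (nat_lit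 48) (nat_lit 5) (nat_lit 49) (nat_lit 5) (nat_lit 363) (nat_lit 296) (nat_lit 121)) (XT.nd (nat_lit 78) (nat_lit 0) (nat_lit 0) (XT.lf (nat_lit 0) (nat_lit 17306695995) (nat_lit 228) (nat_lit 10398979043) (nat_lit 304) (nat_lit 13754647133) (nat_lit 45) (nat_lit 5) (nat_lit 48) (nat_lit 5) (nat_lit 49) (nat_lit 5) (nat_lit 364) (nat_lit 296) (nat_lit 120)) (XT.lf (nat_lit 0) (nat_lit 34485035780) (nat_lit 304) (nat_lit 7776655639) (nat_lit 76) (nat_lit 113978047) (nat_lit 45) (nat_lit 5) (nat_lit 49) (nat_lit 5) (nat_lit 46) (nat_lit 5) (nat_lit 365) (nat_lit 296) (nat_lit 119))))) (XT.nd (nat_lit 234) (nat_lit 380) (nat_lit 0) (XT.nd (nat_lit 78) (nat_lit 76) (nat_lit 0) (XT.lf (nat_lit 0) (nat_lit 9162182755) (nat_lit 152) (nat_lit 32493237554) (nat_lit 228) (nat_lit 1657430848) (nat_lit 43) (nat_lit 5) (nat_lit 45) (nat_lit 5) (nat_lit 46) (nat_lit 5) (nat_lit 366) (nat_lit 296) (nat_lit 118))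 (XT.nd (nat_lit 78) (nat_lit 0) (nat_lit 0) (XT.lf (nat_lit 0) (nat_lit 4745758471) (nat_lit 228) (nat_lit 17559039367) (nat_lit 76) (nat_lit 21969702186) (nat_lit 42) (nat_lit 5) (nat_lit 45) (nat_lit 5) (nat_lit 43) (nat_lit 5) (nat_lit 367) (nat_lit 296) (nat_lit 117)) (XT.lf (nat_lit 0) (nat_lit 11304451789) (nat_lit 228) (nat_lit 491204579) (nat_lit 76) (nat_lit 33468951042) (nat_lit 42) (nat_lit 5) (nat_lit 45) (nat_lit 5) (nat_lit 43) (nat_lit 5) (nat_lit 368) (nat_lit 296) (nat_lit 116)))) (XT.nd (nat_lit 78) (nat_lit 152) (nat_lit 0) (XT.lf (nat_lit 0) (nat_lit 17423680607) (nat_lit 228) (nat_lit 800528916) (nat_lit 304) (nat_lit 28055282287) (nat_lit 39) (nat_lit 5) (nat_lit 42) (nat_lit 5) (nat_lit 43) (nat_lit 5) (nat_lit 369) (nat_lit 296) (nat_lit 115)) (XT.nd (nat_lit 78) (nat_lit 152) (nat_lit 0) (XT.lf (nat_lit 0) (nat_lit 25454581340) (nat_lit 304) (nat_lit 11544823206) (nat_lit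 76) (nat_lit 10322330373) (nat_lit 39) (nat_lit 5) (nat_lit 43) (nat_lit 5) (nat_lit 40) (nat_lit 5) (nat_lit 370) (nat_lit 296) (nat_lit 114)) (XT.lf (nat_lit 0) (nat_lit 6397539232) (nat_lit 152) (nat_lit 26570684634) (nat_lit 228) (nat_lit 15425033404) (nat_lit 37) (nat_lit 5) (nat_lit 39) (nat_lit 5) (nat_lit 40) (nat_lit 5) (nat_lit 371) (nat_lit 296) (nat_lit 113)))))) (XT.nd (nat_lit 468) (nat_lit 380) (nat_lit 0) (XT.nd (nat_lit 234) (nat_lit 152) (nat_lit 0) (XT.nd (nat_lit 78) (nat_lit 228) (nat_lit 0) (XT.lf (nat_lit 0) (nat_lit 25110009627) (nat_lit 152) (nat_lit 15710825477) (nat_lit 228) (nat_lit 8672686059) (nat_lit 37) (nat_lit 5) (nat_lit 39) (nat_lit 5) (nat_lit 40) (nat_lit 5) (nat_lit 372) (nat_lit 296) (nat_lit 112)) (XT.nd (nat_lit 78) (nat_lit 228) (nat_lit 0) (XT.lf (nat_lit 0) (nat_lit 44379174062) (nat_lit 152) (nat_lit 4526917956) (nat_lit 228) (nat_lit 1720791514) (nat_lit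 37) (nat_lit 5) (nat_lit 39) (nat_lit 5) (nat_lit 40) (nat_lit 5) (nat_lit 373) (nat_lit 296) (nat_lit 111)) (XT.lf (nat_lit 0) (nat_lit 5520879467) (nat_lit 228) (nat_lit 39236479637) (nat_lit 76) (nat_lit 7029700410) (nat_lit 34) (nat_lit 5) (nat_lit 37) (nat_lit 5) (nat_lit 35) (nat_lit 5) (nat_lit 374) (nat_lit 296) (nat_lit 110)))) (XT.nd (nat_lit 78) (nat_lit 152) (nat_lit 0) (XT.lf (nat_lit 0) (nat_lit 13050895184) (nat_lit 228) (nat_lit 21006370712) (nat_lit 76) (nat_lit 18921095688) (nat_lit 34) (nat_lit 5) (nat_lit 37) (nat_lit 5) (nat_lit 35) (nat_lit 5) (nat_lit 375) (nat_lit 296) (nat_lit 109)) (XT.nd (nat_lit 78) (nat_lit 152) (nat_lit 0) (XT.lf (nat_lit 0) (nat_lit 20804040089) (nat_lit 228) (nat_lit 2233852976) (nat_lit 76) (nat_lit 31167595081) (nat_lit 34) (nat_lit 5) (nat_lit 37) (nat_lit 5) (nat_lit 35) (nat_lit 5) (nat_lit 376) (nat_lit 296) (nat_lit 108)) (XT.lf (nat_lit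 0) (nat_lit 17437750051) (nat_lit 152) (nat_lit 11516961043) (nat_lit 228) (nat_lit 26509771682) (nat_lit 32) (nat_lit 5) (nat_lit 34) (nat_lit 5) (nat_lit 35) (nat_lit 5) (nat_lit 377) (nat_lit 296) (nat_lit 107))))) (XT.nd (nat_lit 234) (nat_lit 228) (nat_lit 0) (XT.nd (nat_lit 78) (nat_lit 152) (nat_lit 0) (XT.lf (nat_lit 0) (nat_lit 37373373906) (nat_lit 228) (nat_lit 19023247971) (nat_lit 76) (nat_lit 363923375) (nat_lit 32) (nat_lit 5) (nat_lit 35) (nat_lit 5) (nat_lit 33) (nat_lit 5) (nat_lit 378) (nat_lit 296) (nat_lit 106)) (XT.nd (nat_lit 78) (nat_lit 0) (nat_lit 0) (XT.lf (nat_lit 0) (nat_lit 440651958) (nat_lit 152) (nat_lit 45719617778) (nat_lit 228) (nat_lit 11931751771) (nat_lit 30) (nat_lit 5) (nat_lit 32) (nat_lit 5) (nat_lit 33) (nat_lit 5) (nat_lit 379) (nat_lit 296) (nat_lit 105)) (XT.lf (nat_lit 0) (nat_lit 20874209817) (nat_lit 152) (nat_lit 34526103087) (nat_lit 228) (nat_lit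 4057444967) (nat_lit 30) (nat_lit 5) (nat_lit 32) (nat_lit 5) (nat_lit 33) (nat_lit 5) (nat_lit 380) (nat_lit 296) (nat_lit 104)))) (XT.nd (nat_lit 78) (nat_lit 152) (nat_lit 0) (XT.lf (nat_lit 0) (nat_lit 3971491555) (nat_lit 228) (nat_lit 18986798737) (nat_lit 76) (nat_lit 37905084401) (nat_lit 29) (nat_lit 5) (nat_lit 32) (nat_lit 5) (nat_lit 30) (nat_lit 5) (nat_lit 381) (nat_lit 296) (nat_lit 103)) (XT.nd (nat_lit 78) (nat_lit 0) (nat_lit 0) (XT.lf (nat_lit 0) (nat_lit 1176615062) (nat_lit 152) (nat_lit 10992004828) (nat_lit 228) (nat_lit 50141070580) (nat_lit 27) (nat_lit 5) (nat_lit 29) (nat_lit 5) (nat_lit 30) (nat_lit 5) (nat_lit 382) (nat_lit 296) (nat_lit 102)) (XT.lf (nat_lit 0) (nat_lit 20815687447) (nat_lit 228) (nat_lit 41478260821) (nat_lit 76) (nat_lit 1499328498) (nat_lit 27) (nat_lit 5) (nat_lit 30) (nat_lit 5) (nat_lit 28) (nat_lit 5) (nat_lit 383) (nat_lit 296) (nat_lit 101)))))))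 (XT.nd (nat_lit 34476) (nat_lit 0) (nat_lit 10032) (XT.nd (nat_lit 34008) (nat_lit 0) (nat_lit 11856) (XT.nd (nat_lit 234) (nat_lit 0) (nat_lit 0) (XT.nd (nat_lit 78) (nat_lit 152) (nat_lit 0) (XT.lf (nat_lit 0) (nat_lit 29828650632) (nat_lit 228) (nat_lit 21346560234) (nat_lit 76) (nat_lit 14142967036) (nat_lit 27) (nat_lit 5) (nat_lit 30) (nat_lit 5) (nat_lit 28) (nat_lit 5) (nat_lit 384) (nat_lit 296) (nat_lit 100)) (XT.nd (nat_lit 78) (nat_lit 152) (nat_lit 0) (XT.lf (nat_lit 0) (nat_lit 39109722972) (nat_lit 228) (nat_lit 614720965) (nat_lit 76) (nat_lit 27164452228) (nat_lit 27) (nat_lit 5) (nat_lit 30) (nat_lit 5) (nat_lit 28) (nat_lit 5) (nat_lit 385) (nat_lit 296) (nat_lit 99)) (XT.lf (nat_lit 0) (nat_lit 21148046747) (nat_lit 152) (nat_lit 27722255360) (nat_lit 228) (nat_lit 19630403289) (nat_lit 25) (nat_lit 5) (nat_lit 27) (nat_lit 5) (nat_lit 28) (nat_lit 5) (nat_lit 386) (nat_lit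 296) (nat_lit 98)))) (XT.nd (nat_lit 33618) (nat_lit 0) (nat_lit 11780) (XT.lf (nat_lit 0) (nat_lit 43572633658) (nat_lit 152) (nat_lit 15355088330) (nat_lit 228) (nat_lit 11233027818) (nat_lit 25) (nat_lit 5) (nat_lit 27) (nat_lit 5) (nat_lit 28) (nat_lit 5) (nat_lit 387) (nat_lit 296) (nat_lit 97)) (XT.nd (nat_lit 78) (nat_lit 0) (nat_lit 0) (XT.lf (nat_lit 0) (nat_lit 2372434784) (nat_lit 1140) (nat_lit 1947207697) (nat_lit 1140) (nat_lit 1947207697) (nat_lit 180) (nat_lit 3) (nat_lit 195) (nat_lit 3) (nat_lit 195) (nat_lit 5) (nat_lit 297) (nat_lit 297) (nat_lit 186)) (XT.lf (nat_lit 76) (nat_lit 1607396810) (nat_lit 0) (nat_lit 3625148117) (nat_lit 1140) (nat_lit 7475941785) (nat_lit 181) (nat_lit 5) (nat_lit 180) (nat_lit 3) (nat_lit 195) (nat_lit 5) (nat_lit 298) (nat_lit 297) (nat_lit 185))))) (XT.nd (nat_lit 234) (nat_lit 0) (nat_lit 76) (XT.nd (nat_lit 78) (nat_lit 0) (nat_lit 0) (XT.lf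 (nat_lit 0) (nat_lit 5773704637) (nat_lit 1064) (nat_lit 5557236747) (nat_lit 1140) (nat_lit 1556437908) (nat_lit 181) (nat_lit 5) (nat_lit 195) (nat_lit 5) (nat_lit 196) (nat_lit 5) (nat_lit 299) (nat_lit 297) (nat_lit 184)) (XT.nd (nat_lit 78) (nat_lit 0) (nat_lit 0) (XT.lf (nat_lit 76) (nat_lit 110647306) (nat_lit 0) (nat_lit 6242205071) (nat_lit 1140) (nat_lit 6718161113) (nat_lit 182) (nat_lit 5) (nat_lit 181) (nat_lit 5) (nat_lit 196) (nat_lit 5) (nat_lit 300) (nat_lit 297) (nat_lit 183)) (XT.lf (nat_lit 76) (nat_lit 6054018354) (nat_lit 0) (nat_lit 936631871) (nat_lit 1140) (nat_lit 6268294852) (nat_lit 182) (nat_lit 5) (nat_lit 181) (nat_lit 5) (nat_lit 196) (nat_lit 5) (nat_lit 301) (nat_lit 297) (nat_lit 182)))) (XT.nd (nat_lit 78) (nat_lit 0) (nat_lit 0) (XT.lf (nat_lit 0) (nat_lit 7676759207) (nat_lit 1064) (nat_lit 1329089462) (nat_lit 1140) (nat_lit 4445816490) (nat_lit 182) (nat_lit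 5) (nat_lit 196) (nat_lit 5) (nat_lit 197) (nat_lit 5) (nat_lit 302) (nat_lit 297) (nat_lit 181)) (XT.nd (nat_lit 78) (nat_lit 0) (nat_lit 76) (XT.lf (nat_lit 76) (nat_lit 4798909426) (nat_lit 0) (nat_lit 3626013868) (nat_lit 1140) (nat_lit 5224024502) (nat_lit 183) (nat_lit 5) (nat_lit 182) (nat_lit 5) (nat_lit 197) (nat_lit 5) (nat_lit 303) (nat_lit 297) (nat_lit 180)) (XT.lf (nat_lit 0) (nat_lit 9213939885) (nat_lit 1064) (nat_lit 2741179437) (nat_lit 1140) (nat_lit 1896501738) (nat_lit 183) (nat_lit 5) (nat_lit 197) (nat_lit 5) (nat_lit 198) (nat_lit 5) (nat_lit 304) (nat_lit 297) (nat_lit 179)))))) (XT.nd (nat_lit 468) (nat_lit 988) (nat_lit 0) (XT.nd (nat_lit 234) (nat_lit 988) (nat_lit 0) (XT.nd (nat_lit 78) (nat_lit 0) (nat_lit 0) (XT.lf (nat_lit 76) (nat_lit 3576204136) (nat_lit 0) (nat_lit 6507538755) (nat_lit 1140) (nat_lit 3974941821) (nat_lit 184) (nat_lit 5) (nat_lit 183) (nat_lit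 5) (nat_lit 198) (nat_lit 5) (nat_lit 305) (nat_lit 297) (nat_lit 178)) (XT.nd (nat_lit 78) (nat_lit 0) (nat_lit 76) (XT.lf (nat_lit 76) (nat_lit 10130760639) (nat_lit 0) (nat_lit 863699277) (nat_lit 1140) (nat_lit 3277078736) (nat_lit 184) (nat_lit 5) (nat_lit 183) (nat_lit 5) (nat_lit 198) (nat_lit 5) (nat_lit 306) (nat_lit 297) (nat_lit 177)) (XT.lf (nat_lit 76) (nat_lit 2381338382) (nat_lit 0) (nat_lit 9609182439) (nat_lit 1140) (nat_lit 2498539026) (nat_lit 185) (nat_lit 5) (nat_lit 184) (nat_lit 5) (nat_lit 199) (nat_lit 5) (nat_lit 307) (nat_lit 297) (nat_lit 176)))) (XT.nd (nat_lit 78) (nat_lit 1064) (nat_lit 0) (XT.lf (nat_lit 76) (nat_lit 9166635525) (nat_lit 0) (nat_lit 3887943115) (nat_lit 1140) (nat_lit 1657406243) (nat_lit 185) (nat_lit 5) (nat_lit 184) (nat_lit 5) (nat_lit 199) (nat_lit 5) (nat_lit 308) (nat_lit 297) (nat_lit 175)) (XT.nd (nat_lit 78) (nat_lit 1140) (nat_lit 0)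 (XT.lf (nat_lit 76) (nat_lit 1209421946) (nat_lit 0) (nat_lit 12960255547) (nat_lit 1140) (nat_lit 771367626) (nat_lit 186) (nat_lit 5) (nat_lit 185) (nat_lit 5) (nat_lit 200) (nat_lit 5) (nat_lit 309) (nat_lit 297) (nat_lit 174)) (XT.lf (nat_lit 0) (nat_lit 221888078) (nat_lit 1140) (nat_lit 6944158327) (nat_lit 1216) (nat_lit 8008408075) (nat_lit 170) (nat_lit 5) (nat_lit 185) (nat_lit 5) (nat_lit 186) (nat_lit 5) (nat_lit 310) (nat_lit 297) (nat_lit 173))))) (XT.nd (nat_lit 234) (nat_lit 988) (nat_lit 0) (XT.nd (nat_lit 78) (nat_lit 0) (nat_lit 76) (XT.lf (nat_lit 76) (nat_lit 31198083) (nat_lit 0) (nat_lit 1187225169) (nat_lit 1216) (nat_lit 14196563428) (nat_lit 171) (nat_lit 5) (nat_lit 170) (nat_lit 5) (nat_lit 186) (nat_lit 5) (nat_lit 311) (nat_lit 297) (nat_lit 172)) (XT.nd (nat_lit 78) (nat_lit 0) (nat_lit 0) (XT.lf (nat_lit 0) (nat_lit 2352410931) (nat_lit 1140) (nat_lit 8359938535)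 (nat_lit 1216) (nat_lit 4947177368) (nat_lit 171) (nat_lit 5) (nat_lit 186) (nat_lit 5) (nat_lit 187) (nat_lit 5) (nat_lit 312) (nat_lit 297) (nat_lit 171)) (XT.lf (nat_lit 0) (nat_lit 3521450489) (nat_lit 1140) (nat_lit 1145858537) (nat_lit 1216) (nat_lit 11244081339) (nat_lit 171) (nat_lit 5) (nat_lit 186) (nat_lit 5) (nat_lit 187) (nat_lit 5) (nat_lit 313) (nat_lit 297) (nat_lit 170)))) (XT.nd (nat_lit 78) (nat_lit 1140) (nat_lit 0) (XT.lf (nat_lit 0) (nat_lit 4792296795) (nat_lit 1140) (nat_lit 9783833116) (nat_lit 76) (nat_lit 1592695434) (nat_lit 172) (nat_lit 5) (nat_lit 187) (nat_lit 5) (nat_lit 173) (nat_lit 5) (nat_lit 314) (nat_lit 297) (nat_lit 169)) (XT.nd (nat_lit 78) (nat_lit 1140) (nat_lit 0) (XT.lf (nat_lit 0) (nat_lit 6148994579) (nat_lit 1140) (nat_lit 2323437728) (nat_lit 76) (nat_lit 7960136381) (nat_lit 172) (nat_lit 5) (nat_lit 187) (nat_lit 5) (nat_lit 173) (nat_lit 5)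 (nat_lit 315) (nat_lit 297) (nat_lit 168)) (XT.lf (nat_lit 0) (nat_lit 5458811533) (nat_lit 1140) (nat_lit 2130181043) (nat_lit 1216) (nat_lit 9113970377) (nat_lit 157) (nat_lit 5) (nat_lit 172) (nat_lit 5) (nat_lit 173) (nat_lit 5) (nat_lit 316) (nat_lit 297) (nat_lit 167))))))))
noncomputable def xc199 : XT := (XT.nd (nat_lit 1872) (nat_lit 3268) (nat_lit 0) (XT.nd (nat_lit 936) (nat_lit 2508) (nat_lit 0) (XT.nd (nat_lit 468) (nat_lit 1064) (nat_lit 0) (XT.nd (nat_lit 234) (nat_lit 1140) (nat_lit 0) (XT.nd (nat_lit 78) (nat_lit 532) (nat_lit 0) (XT.lf (nat_lit 0) (nat_lit 9128547898) (nat_lit 1216) (nat_lit 3509873262) (nat_lit 76) (nat_lit 4341373280) (nat_lit 157) (nat_lit 5) (nat_lit 173) (nat_lit 5) (nat_lit 158) (nat_lit 5) (nat_lit 317) (nat_lit 297) (nat_lit 166)) (XT.nd (nat_lit 78) (nat_lit 0) (nat_lit 0) (XT.lf (nat_lit 0) (nat_lit 4514985494) (nat_lit 532) (nat_lit 6254422258) (nat_lit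 608) (nat_lit 6493885228) (nat_lit 150) (nat_lit 5) (nat_lit 157) (nat_lit 5) (nat_lit 158) (nat_lit 5) (nat_lit 318) (nat_lit 297) (nat_lit 165)) (XT.lf (nat_lit 0) (nat_lit 12489200128) (nat_lit 608) (nat_lit 4713807601) (nat_lit 76) (nat_lit 351412737) (nat_lit 150) (nat_lit 5) (nat_lit 158) (nat_lit 5) (nat_lit 151) (nat_lit 5) (nat_lit 319) (nat_lit 297) (nat_lit 164)))) (XT.nd (nat_lit 78) (nat_lit 532) (nat_lit 0) (XT.lf (nat_lit 0) (nat_lit 3560864409) (nat_lit 608) (nat_lit 10786969630) (nat_lit 684) (nat_lit 3503845054) (nat_lit 142) (nat_lit 5) (nat_lit 150) (nat_lit 5) (nat_lit 151) (nat_lit 5) (nat_lit 320) (nat_lit 297) (nat_lit 163)) (XT.nd (nat_lit 78) (nat_lit 532) (nat_lit 0) (XT.lf (nat_lit 0) (nat_lit 12172064404) (nat_lit 608) (nat_lit 4129035596) (nat_lit 684) (nat_lit 1855603605) (nat_lit 142) (nat_lit 5) (nat_lit 150) (nat_lit 5) (nat_lit 151) (nat_lit 5) (nat_lit 321)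 (nat_lit 297) (nat_lit 162)) (XT.lf (nat_lit 0) (nat_lit 2586596662) (nat_lit 532) (nat_lit 15768991167) (nat_lit 608) (nat_lit 114026209) (nat_lit 135) (nat_lit 5) (nat_lit 142) (nat_lit 5) (nat_lit 143) (nat_lit 5) (nat_lit 322) (nat_lit 297) (nat_lit 161))))) (XT.nd (nat_lit 234) (nat_lit 456) (nat_lit 0) (XT.nd (nat_lit 78) (nat_lit 532) (nat_lit 0) (XT.lf (nat_lit 0) (nat_lit 1740534799) (nat_lit 608) (nat_lit 7318544652) (nat_lit 76) (nat_lit 9729555561) (nat_lit 134) (nat_lit 5) (nat_lit 142) (nat_lit 5) (nat_lit 135) (nat_lit 5) (nat_lit 323) (nat_lit 297) (nat_lit 160)) (XT.nd (nat_lit 78) (nat_lit 0) (nat_lit 0) (XT.lf (nat_lit 0) (nat_lit 1523236170) (nat_lit 532) (nat_lit 2131693726) (nat_lit 608) (nat_lit 15462080901) (nat_lit 127) (nat_lit 5) (nat_lit 134) (nat_lit 5) (nat_lit 135) (nat_lit 5) (nat_lit 324) (nat_lit 297) (nat_lit 159)) (XT.lf (nat_lit 0) (nat_lit 5741492956) (nat_lit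 608) (nat_lit 8729947005) (nat_lit 76) (nat_lit 4980368163) (nat_lit 127) (nat_lit 5) (nat_lit 135) (nat_lit 5) (nat_lit 128) (nat_lit 5) (nat_lit 325) (nat_lit 297) (nat_lit 158)))) (XT.nd (nat_lit 78) (nat_lit 0) (nat_lit 0) (XT.lf (nat_lit 0) (nat_lit 377917397) (nat_lit 456) (nat_lit 7529711647) (nat_lit 532) (nat_lit 11888523033) (nat_lit 121) (nat_lit 5) (nat_lit 127) (nat_lit 5) (nat_lit 128) (nat_lit 5) (nat_lit 326) (nat_lit 297) (nat_lit 157)) (XT.nd (nat_lit 78) (nat_lit 0) (nat_lit 0) (XT.lf (nat_lit 0) (nat_lit 9929906258) (nat_lit 456) (nat_lit 289384341) (nat_lit 532) (nat_lit 9929131152) (nat_lit 121) (nat_lit 5) (nat_lit 127) (nat_lit 5) (nat_lit 128) (nat_lit 5) (nat_lit 327) (nat_lit 297) (nat_lit 156)) (XT.lf (nat_lit 0) (nat_lit 12661810246) (nat_lit 532) (nat_lit 819770116) (nat_lit 76) (nat_lit 7027845208) (nat_lit 121) (nat_lit 5) (nat_lit 128) (nat_lit 5) (nat_lit 122)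 (nat_lit 5) (nat_lit 328) (nat_lit 297) (nat_lit 155)))))) (XT.nd (nat_lit 468) (nat_lit 1140) (nat_lit 0) (XT.nd (nat_lit 234) (nat_lit 532) (nat_lit 0) (XT.nd (nat_lit 78) (nat_lit 380) (nat_lit 0) (XT.lf (nat_lit 0) (nat_lit 9026383751) (nat_lit 456) (nat_lit 6233673050) (nat_lit 532) (nat_lit 5618740138) (nat_lit 115) (nat_lit 5) (nat_lit 121) (nat_lit 5) (nat_lit 122) (nat_lit 5) (nat_lit 329) (nat_lit 297) (nat_lit 154)) (XT.nd (nat_lit 78) (nat_lit 380) (nat_lit 0) (XT.lf (nat_lit 0) (nat_lit 17949397278) (nat_lit 532) (nat_lit 2094160430) (nat_lit 76) (nat_lit 1215307999) (nat_lit 115) (nat_lit 5) (nat_lit 122) (nat_lit 5) (nat_lit 116) (nat_lit 5) (nat_lit 330) (nat_lit 297) (nat_lit 153)) (XT.lf (nat_lit 0) (nat_lit 8044362335) (nat_lit 380) (nat_lit 12807254844) (nat_lit 456) (nat_lit 794763726) (nat_lit 110) (nat_lit 5) (nat_lit 115) (nat_lit 5) (nat_lit 116) (nat_lit 5) (nat_lit 331)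 (nat_lit 297) (nat_lit 152)))) (XT.nd (nat_lit 78) (nat_lit 456) (nat_lit 0) (XT.lf (nat_lit 0) (nat_lit 1774905824) (nat_lit 456) (nat_lit 3540187585) (nat_lit 76) (nat_lit 16729483409) (nat_lit 109) (nat_lit 5) (nat_lit 115) (nat_lit 5) (nat_lit 110) (nat_lit 5) (nat_lit 332) (nat_lit 297) (nat_lit 151)) (XT.nd (nat_lit 78) (nat_lit 0) (nat_lit 0) (XT.lf (nat_lit 0) (nat_lit 4489654208) (nat_lit 532) (nat_lit 15532956429) (nat_lit 76) (nat_lit 2429362488) (nat_lit 103) (nat_lit 5) (nat_lit 110) (nat_lit 5) (nat_lit 104) (nat_lit 5) (nat_lit 333) (nat_lit 297) (nat_lit 150)) (XT.lf (nat_lit 0) (nat_lit 7368082764) (nat_lit 532) (nat_lit 5166624061) (nat_lit 76) (nat_lit 10334426555) (nat_lit 103) (nat_lit 5) (nat_lit 110) (nat_lit 5) (nat_lit 104) (nat_lit 5) (nat_lit 334) (nat_lit 297) (nat_lit 149))))) (XT.nd (nat_lit 234) (nat_lit 380) (nat_lit 0) (XT.nd (nat_lit 78) (nat_lit 380) (nat_lit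 0) (XT.lf (nat_lit 0) (nat_lit 5612753356) (nat_lit 380) (nat_lit 4767763196) (nat_lit 456) (nat_lit 12916871243) (nat_lit 98) (nat_lit 5) (nat_lit 103) (nat_lit 5) (nat_lit 104) (nat_lit 5) (nat_lit 335) (nat_lit 297) (nat_lit 148)) (XT.nd (nat_lit 78) (nat_lit 380) (nat_lit 0) (XT.lf (nat_lit 0) (nat_lit 13560882422) (nat_lit 456) (nat_lit 6954667593) (nat_lit 76) (nat_lit 3220621717) (nat_lit 98) (nat_lit 5) (nat_lit 104) (nat_lit 5) (nat_lit 99) (nat_lit 5) (nat_lit 336) (nat_lit 297) (nat_lit 147)) (XT.lf (nat_lit 0) (nat_lit 4123090364) (nat_lit 380) (nat_lit 12794388689) (nat_lit 456) (nat_lit 7268223953) (nat_lit 93) (nat_lit 5) (nat_lit 98) (nat_lit 5) (nat_lit 99) (nat_lit 5) (nat_lit 337) (nat_lit 297) (nat_lit 146)))) (XT.nd (nat_lit 78) (nat_lit 380) (nat_lit 0) (XT.lf (nat_lit 0) (nat_lit 15668458410) (nat_lit 380) (nat_lit 4770629503) (nat_lit 456) (nat_lit 4207711039) (nat_lit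 93) (nat_lit 5) (nat_lit 98) (nat_lit 5) (nat_lit 99) (nat_lit 5) (nat_lit 338) (nat_lit 297) (nat_lit 145)) (XT.nd (nat_lit 78) (nat_lit 76) (nat_lit 0) (XT.lf (nat_lit 0) (nat_lit 2445350701) (nat_lit 304) (nat_lit 21672330771) (nat_lit 380) (nat_lit 1002514140) (nat_lit 89) (nat_lit 5) (nat_lit 93) (nat_lit 5) (nat_lit 94) (nat_lit 5) (nat_lit 339) (nat_lit 297) (nat_lit 144)) (XT.lf (nat_lit 0) (nat_lit 2387055703) (nat_lit 380) (nat_lit 11286795834) (nat_lit 76) (nat_lit 11929294903) (nat_lit 88) (nat_lit 5) (nat_lit 93) (nat_lit 5) (nat_lit 89) (nat_lit 5) (nat_lit 340) (nat_lit 297) (nat_lit 143))))))) (XT.nd (nat_lit 936) (nat_lit 1596) (nat_lit 0) (XT.nd (nat_lit 468) (nat_lit 684) (nat_lit 0) (XT.nd (nat_lit 234) (nat_lit 608) (nat_lit 0) (XT.nd (nat_lit 78) (nat_lit 0) (nat_lit 0) (XT.lf (nat_lit 0) (nat_lit 434365278) (nat_lit 380) (nat_lit 5422420209) (nat_lit 456) (nat_lit 20243551113)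 (nat_lit 83) (nat_lit 5) (nat_lit 88) (nat_lit 5) (nat_lit 89) (nat_lit 5) (nat_lit 341) (nat_lit 297) (nat_lit 142)) (XT.nd (nat_lit 78) (nat_lit 0) (nat_lit 0) (XT.lf (nat_lit 0) (nat_lit 9569810291) (nat_lit 456) (nat_lit 13908362004) (nat_lit 76) (nat_lit 3130101120) (nat_lit 83) (nat_lit 5) (nat_lit 89) (nat_lit 5) (nat_lit 84) (nat_lit 5) (nat_lit 342) (nat_lit 297) (nat_lit 141)) (XT.lf (nat_lit 0) (nat_lit 13442599030) (nat_lit 456) (nat_lit 1858669081) (nat_lit 76) (nat_lit 11828735864) (nat_lit 83) (nat_lit 5) (nat_lit 89) (nat_lit 5) (nat_lit 84) (nat_lit 5) (nat_lit 343) (nat_lit 297) (nat_lit 140)))) (XT.nd (nat_lit 78) (nat_lit 304) (nat_lit 0) (XT.lf (nat_lit 0) (nat_lit 10755641223) (nat_lit 304) (nat_lit 6774160655) (nat_lit 380) (nat_lit 10134644302) (nat_lit 79) (nat_lit 5) (nat_lit 83) (nat_lit 5) (nat_lit 84) (nat_lit 5) (nat_lit 344) (nat_lit 297) (nat_lit 139)) (XT.nd (nat_lit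 78) (nat_lit 304) (nat_lit 0) (XT.lf (nat_lit 0) (nat_lit 21772796084) (nat_lit 380) (nat_lit 4454203718) (nat_lit 76) (nat_lit 1986933036) (nat_lit 79) (nat_lit 5) (nat_lit 84) (nat_lit 5) (nat_lit 80) (nat_lit 5) (nat_lit 345) (nat_lit 297) (nat_lit 138)) (XT.lf (nat_lit 0) (nat_lit 8465524915) (nat_lit 304) (nat_lit 17821061218) (nat_lit 380) (nat_lit 2489019040) (nat_lit 75) (nat_lit 5) (nat_lit 79) (nat_lit 5) (nat_lit 80) (nat_lit 5) (nat_lit 346) (nat_lit 297) (nat_lit 137))))) (XT.nd (nat_lit 234) (nat_lit 304) (nat_lit 0) (XT.nd (nat_lit 78) (nat_lit 304) (nat_lit 0) (XT.lf (nat_lit 0) (nat_lit 1591308349) (nat_lit 380) (nat_lit 7510946637) (nat_lit 76) (nat_lit 20250207174) (nat_lit 74) (nat_lit 5) (nat_lit 79) (nat_lit 5) (nat_lit 75) (nat_lit 5) (nat_lit 347) (nat_lit 297) (nat_lit 136)) (XT.nd (nat_lit 78) (nat_lit 0) (nat_lit 0) (XT.lf (nat_lit 0) (nat_lit 5753308015) (nat_lit 304)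 (nat_lit 41244184) (nat_lit 380) (nat_lit 24149823068) (nat_lit 70) (nat_lit 5) (nat_lit 74) (nat_lit 5) (nat_lit 75) (nat_lit 5) (nat_lit 348) (nat_lit 297) (nat_lit 135)) (XT.lf (nat_lit 0) (nat_lit 10285096574) (nat_lit 380) (nat_lit 11078923827) (nat_lit 76) (nat_lit 9185194829) (nat_lit 70) (nat_lit 5) (nat_lit 75) (nat_lit 5) (nat_lit 71) (nat_lit 5) (nat_lit 349) (nat_lit 297) (nat_lit 134)))) (XT.nd (nat_lit 78) (nat_lit 0) (nat_lit 0) (XT.lf (nat_lit 0) (nat_lit 2467982020) (nat_lit 304) (nat_lit 12461934471) (nat_lit 380) (nat_lit 16241702524) (nat_lit 66) (nat_lit 5) (nat_lit 70) (nat_lit 5) (nat_lit 71) (nat_lit 5) (nat_lit 350) (nat_lit 297) (nat_lit 133)) (XT.nd (nat_lit 78) (nat_lit 0) (nat_lit 0) (XT.lf (nat_lit 0) (nat_lit 16642111662) (nat_lit 304) (nat_lit 3179344574) (nat_lit 380) (nat_lit 11988022661) (nat_lit 66) (nat_lit 5) (nat_lit 70) (nat_lit 5) (nat_lit 71) (nat_lit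 5) (nat_lit 351) (nat_lit 297) (nat_lit 132)) (XT.lf (nat_lit 0) (nat_lit 24916701390) (nat_lit 380) (nat_lit 1292581103) (nat_lit 76) (nat_lit 6255488396) (nat_lit 66) (nat_lit 5) (nat_lit 71) (nat_lit 5) (nat_lit 67) (nat_lit 5) (nat_lit 352) (nat_lit 297) (nat_lit 131)))))) (XT.nd (nat_lit 468) (nat_lit 760) (nat_lit 0) (XT.nd (nat_lit 234) (nat_lit 228) (nat_lit 0) (XT.nd (nat_lit 78) (nat_lit 380) (nat_lit 0) (XT.lf (nat_lit 0) (nat_lit 13218872432) (nat_lit 228) (nat_lit 17100219943) (nat_lit 304) (nat_lit 2816005551) (nat_lit 63) (nat_lit 5) (nat_lit 66) (nat_lit 5) (nat_lit 67) (nat_lit 5) (nat_lit 353) (nat_lit 297) (nat_lit 130)) (XT.nd (nat_lit 78) (nat_lit 304) (nat_lit 0) (XT.lf (nat_lit 0) (nat_lit 2026804901) (nat_lit 304) (nat_lit 5658964225) (nat_lit 76) (nat_lit 26138908497) (nat_lit 62) (nat_lit 5) (nat_lit 66) (nat_lit 5) (nat_lit 63) (nat_lit 5) (nat_lit 354) (nat_lit 297)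 (nat_lit 129)) (XT.lf (nat_lit 0) (nat_lit 7062809391) (nat_lit 380) (nat_lit 25380856652) (nat_lit 76) (nat_lit 2087311492) (nat_lit 58) (nat_lit 5) (nat_lit 63) (nat_lit 5) (nat_lit 59) (nat_lit 5) (nat_lit 355) (nat_lit 297) (nat_lit 128)))) (XT.nd (nat_lit 78) (nat_lit 228) (nat_lit 0) (XT.lf (nat_lit 0) (nat_lit 12379633099) (nat_lit 380) (nat_lit 10819881860) (nat_lit 76) (nat_lit 12055063703) (nat_lit 58) (nat_lit 5) (nat_lit 63) (nat_lit 5) (nat_lit 59) (nat_lit 5) (nat_lit 356) (nat_lit 297) (nat_lit 127)) (XT.nd (nat_lit 78) (nat_lit 0) (nat_lit 0) (XT.lf (nat_lit 0) (nat_lit 4255180340) (nat_lit 228) (nat_lit 13637735186) (nat_lit 304) (nat_lit 18105867939) (nat_lit 55) (nat_lit 5) (nat_lit 58) (nat_lit 5) (nat_lit 59) (nat_lit 5) (nat_lit 357) (nat_lit 297) (nat_lit 126)) (XT.lf (nat_lit 0) (nat_lit 19998572272) (nat_lit 228) (nat_lit 3678394411) (nat_lit 304) (nat_lit 13085190756)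 (nat_lit 55) (nat_lit 5) (nat_lit 58) (nat_lit 5) (nat_lit 59) (nat_lit 5) (nat_lit 358) (nat_lit 297) (nat_lit 125))))) (XT.nd (nat_lit 234) (nat_lit 456) (nat_lit 0) (XT.nd (nat_lit 78) (nat_lit 304) (nat_lit 0) (XT.lf (nat_lit 0) (nat_lit 29693994605) (nat_lit 304) (nat_lit 1403067781) (nat_lit 76) (nat_lit 6449590608) (nat_lit 55) (nat_lit 5) (nat_lit 59) (nat_lit 5) (nat_lit 56) (nat_lit 5) (nat_lit 359) (nat_lit 297) (nat_lit 124)) (XT.nd (nat_lit 78) (nat_lit 76) (nat_lit 0) (XT.lf (nat_lit 0) (nat_lit 14662474971) (nat_lit 228) (nat_lit 21402740170) (nat_lit 304) (nat_lit 2284261722) (nat_lit 52) (nat_lit 5) (nat_lit 55) (nat_lit 5) (nat_lit 56) (nat_lit 5) (nat_lit 360) (nat_lit 297) (nat_lit 123)) (XT.lf (nat_lit 0) (nat_lit 3394483017) (nat_lit 304) (nat_lit 7976041045) (nat_lit 76) (nat_lit 27804550577) (nat_lit 51) (nat_lit 5) (nat_lit 55) (nat_lit 5) (nat_lit 52) (nat_lit 5) (nat_lit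 361) (nat_lit 297) (nat_lit 122)))) (XT.nd (nat_lit 78) (nat_lit 228) (nat_lit 0) (XT.lf (nat_lit 0) (nat_lit 8341045567) (nat_lit 228) (nat_lit 933251924) (nat_lit 304) (nat_lit 30748169368) (nat_lit 48) (nat_lit 5) (nat_lit 51) (nat_lit 5) (nat_lit 52) (nat_lit 5) (nat_lit 362) (nat_lit 297) (nat_lit 121)) (XT.nd (nat_lit 78) (nat_lit 228) (nat_lit 0) (XT.lf (nat_lit 0) (nat_lit 15502689688) (nat_lit 304) (nat_lit 15682274045) (nat_lit 76) (nat_lit 9705155079) (nat_lit 48) (nat_lit 5) (nat_lit 52) (nat_lit 5) (nat_lit 49) (nat_lit 5) (nat_lit 363) (nat_lit 297) (nat_lit 120)) (XT.lf (nat_lit 0) (nat_lit 797945791) (nat_lit 228) (nat_lit 21133476110) (nat_lit 304) (nat_lit 19851977140) (nat_lit 45) (nat_lit 5) (nat_lit 48) (nat_lit 5) (nat_lit 49) (nat_lit 5) (nat_lit 364) (nat_lit 297) (nat_lit 119))))))))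
noncomputable def xc200 : XT := (XT.nd (nat_lit 35490) (nat_lit 0) (nat_lit 8740) (XT.nd (nat_lit 858) (nat_lit 532) (nat_lit 0) (XT.nd (nat_lit 390) (nat_lit 608) (nat_lit 0) (XT.nd (nat_lit 156) (nat_lit 228) (nat_lit 0) (XT.nd (nat_lit 78) (nat_lit 0) (nat_lit 0) (XT.lf (nat_lit 0) (nat_lit 18088862259) (nat_lit 228) (nat_lit 10619141700) (nat_lit 304) (nat_lit 13990827346) (nat_lit 45) (nat_lit 5) (nat_lit 48) (nat_lit 5) (nat_lit 49) (nat_lit 5) (nat_lit 365) (nat_lit 297) (nat_lit 118)) (XT.lf (nat_lit 0) (nat_lit 35686617118) (nat_lit 304) (nat_lit 7750359763) (nat_lit 76) (nat_lit 204790820) (nat_lit 45) (nat_lit 5) (nat_lit 49) (nat_lit 5) (nat_lit 46) (nat_lit 5) (nat_lit 366) (nat_lit 297) (nat_lit 117))) (XT.nd (nat_lit 78) (nat_lit 76) (nat_lit 0) (XT.lf (nat_lit 0) (nat_lit 9694098729) (nat_lit 152) (nat_lit 33375620422) (nat_lit 228) (nat_lit 1537422200) (nat_lit 43) (nat_lit 5)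 (nat_lit 45) (nat_lit 5) (nat_lit 46) (nat_lit 5) (nat_lit 367) (nat_lit 297) (nat_lit 116)) (XT.nd (nat_lit 78) (nat_lit 0) (nat_lit 0) (XT.lf (nat_lit 0) (nat_lit 5049703554) (nat_lit 228) (nat_lit 17832884074) (nat_lit 76) (nat_lit 22715152943) (nat_lit 42) (nat_lit 5) (nat_lit 45) (nat_lit 5) (nat_lit 43) (nat_lit 5) (nat_lit 368) (nat_lit 297) (nat_lit 115)) (XT.lf (nat_lit 0) (nat_lit 11800451681) (nat_lit 228) (nat_lit 260381033) (nat_lit 76) (nat_lit 34556863933) (nat_lit 42) (nat_lit 5) (nat_lit 45) (nat_lit 5) (nat_lit 43) (nat_lit 5) (nat_lit 369) (nat_lit 297) (nat_lit 114))))) (XT.nd (nat_lit 234) (nat_lit 228) (nat_lit 0) (XT.nd (nat_lit 78) (nat_lit 152) (nat_lit 0) (XT.lf (nat_lit 0) (nat_lit 18189543262) (nat_lit 228) (nat_lit 736027292) (nat_lit 304) (nat_lit 28737528139) (nat_lit 39) (nat_lit 5) (nat_lit 42) (nat_lit 5) (nat_lit 43) (nat_lit 5) (nat_lit 370) (nat_lit 297) (nat_lit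 113)) (XT.nd (nat_lit 78) (nat_lit 152) (nat_lit 0) (XT.lf (nat_lit 0) (nat_lit 26369175701) (nat_lit 304) (nat_lit 11651285161) (nat_lit 76) (nat_lit 10716262611) (nat_lit 39) (nat_lit 5) (nat_lit 43) (nat_lit 5) (nat_lit 40) (nat_lit 5) (nat_lit 371) (nat_lit 297) (nat_lit 112)) (XT.lf (nat_lit 0) (nat_lit 6826996359) (nat_lit 152) (nat_lit 27279117634) (nat_lit 228) (nat_lit 15734344833) (nat_lit 37) (nat_lit 5) (nat_lit 39) (nat_lit 5) (nat_lit 40) (nat_lit 5) (nat_lit 372) (nat_lit 297) (nat_lit 111)))) (XT.nd (nat_lit 78) (nat_lit 228) (nat_lit 0) (XT.lf (nat_lit 0) (nat_lit 26093922489) (nat_lit 152) (nat_lit 16096045834) (nat_lit 228) (nat_lit 8783896182) (nat_lit 37) (nat_lit 5) (nat_lit 39) (nat_lit 5) (nat_lit 40) (nat_lit 5) (nat_lit 373) (nat_lit 297) (nat_lit 110)) (XT.nd (nat_lit 78) (nat_lit 228) (nat_lit 0) (XT.lf (nat_lit 0) (nat_lit 45934444986) (nat_lit 152) (nat_lit 4579128983)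 (nat_lit 228) (nat_lit 1627783746) (nat_lit 37) (nat_lit 5) (nat_lit 39) (nat_lit 5) (nat_lit 40) (nat_lit 5) (nat_lit 374) (nat_lit 297) (nat_lit 109)) (XT.lf (nat_lit 0) (nat_lit 5827158759) (nat_lit 228) (nat_lit 40185463697) (nat_lit 76) (nat_lit 7323712989) (nat_lit 34) (nat_lit 5) (nat_lit 37) (nat_lit 5) (nat_lit 35) (nat_lit 5) (nat_lit 375) (nat_lit 297) (nat_lit 108)))))) (XT.nd (nat_lit 468) (nat_lit 228) (nat_lit 0) (XT.nd (nat_lit 234) (nat_lit 152) (nat_lit 0) (XT.nd (nat_lit 78) (nat_lit 152) (nat_lit 0) (XT.lf (nat_lit 0) (nat_lit 13578978262) (nat_lit 228) (nat_lit 21415095494) (nat_lit 76) (nat_lit 19569429109) (nat_lit 34) (nat_lit 5) (nat_lit 37) (nat_lit 5) (nat_lit 35) (nat_lit 5) (nat_lit 376) (nat_lit 297) (nat_lit 107)) (XT.nd (nat_lit 78) (nat_lit 152) (nat_lit 0) (XT.lf (nat_lit 0) (nat_lit 21560740148) (nat_lit 228) (nat_lit 2085852702) (nat_lit 76) (nat_lit 32180972981)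 (nat_lit 34) (nat_lit 5) (nat_lit 37) (nat_lit 5) (nat_lit 35) (nat_lit 5) (nat_lit 377) (nat_lit 297) (nat_lit 106)) (XT.lf (nat_lit 0) (nat_lit 18173790417) (nat_lit 152) (nat_lit 11780325946) (nat_lit 228) (nat_lit 27170271576) (nat_lit 32) (nat_lit 5) (nat_lit 34) (nat_lit 5) (nat_lit 35) (nat_lit 5) (nat_lit 378) (nat_lit 297) (nat_lit 105)))) (XT.nd (nat_lit 78) (nat_lit 152) (nat_lit 0) (XT.lf (nat_lit 0) (nat_lit 38622297021) (nat_lit 228) (nat_lit 19384093404) (nat_lit 76) (nat_lit 453036226) (nat_lit 32) (nat_lit 5) (nat_lit 35) (nat_lit 5) (nat_lit 33) (nat_lit 5) (nat_lit 379) (nat_lit 297) (nat_lit 104)) (XT.nd (nat_lit 78) (nat_lit 0) (nat_lit 0) (XT.lf (nat_lit 0) (nat_lit 661666151) (nat_lit 152) (nat_lit 47009410969) (nat_lit 228) (nat_lit 12159824761) (nat_lit 30) (nat_lit 5) (nat_lit 32) (nat_lit 5) (nat_lit 33) (nat_lit 5) (nat_lit 380) (nat_lit 297) (nat_lit 103)) (XT.lf (nat_lit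 0) (nat_lit 21702178474) (nat_lit 152) (nat_lit 35482473226) (nat_lit 228) (nat_lit 4053071652) (nat_lit 30) (nat_lit 5) (nat_lit 32) (nat_lit 5) (nat_lit 33) (nat_lit 5) (nat_lit 381) (nat_lit 297) (nat_lit 102))))) (XT.nd (nat_lit 234) (nat_lit 0) (nat_lit 0) (XT.nd (nat_lit 78) (nat_lit 152) (nat_lit 0) (XT.lf (nat_lit 0) (nat_lit 4210671315) (nat_lit 228) (nat_lit 19358055612) (nat_lit 76) (nat_lit 39116856173) (nat_lit 29) (nat_lit 5) (nat_lit 32) (nat_lit 5) (nat_lit 30) (nat_lit 5) (nat_lit 382) (nat_lit 297) (nat_lit 101)) (XT.nd (nat_lit 78) (nat_lit 0) (nat_lit 0) (XT.lf (nat_lit 0) (nat_lit 1408316021) (nat_lit 152) (nat_lit 11243789254) (nat_lit 228) (nat_lit 51523233996) (nat_lit 27) (nat_lit 5) (nat_lit 29) (nat_lit 5) (nat_lit 30) (nat_lit 5) (nat_lit 383) (nat_lit 297) (nat_lit 100)) (XT.lf (nat_lit 0) (nat_lit 21555863255) (nat_lit 228) (nat_lit 42529118480) (nat_lit 76) (nat_lit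 1618535666) (nat_lit 27) (nat_lit 5) (nat_lit 30) (nat_lit 5) (nat_lit 28) (nat_lit 5) (nat_lit 384) (nat_lit 297) (nat_lit 99)))) (XT.nd (nat_lit 78) (nat_lit 0) (nat_lit 0) (XT.lf (nat_lit 0) (nat_lit 30835845281) (nat_lit 228) (nat_lit 21799102511) (nat_lit 76) (nat_lit 14639321398) (nat_lit 27) (nat_lit 5) (nat_lit 30) (nat_lit 5) (nat_lit 28) (nat_lit 5) (nat_lit 385) (nat_lit 297) (nat_lit 98)) (XT.nd (nat_lit 33774) (nat_lit 0) (nat_lit 11628) (XT.lf (nat_lit 0) (nat_lit 40392077895) (nat_lit 228) (nat_lit 450779556) (nat_lit 76) (nat_lit 28049352156) (nat_lit 27) (nat_lit 5) (nat_lit 30) (nat_lit 5) (nat_lit 28) (nat_lit 5) (nat_lit 386) (nat_lit 297) (nat_lit 97)) (XT.lf (nat_lit 0) (nat_lit 2840803714) (nat_lit 1140) (nat_lit 1800709486) (nat_lit 1140) (nat_lit 1800709486) (nat_lit 180) (nat_lit 3) (nat_lit 195) (nat_lit 3) (nat_lit 195) (nat_lit 5) (nat_lit 298) (nat_lit 298) (nat_lit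 184))))))) (XT.nd (nat_lit 936) (nat_lit 2888) (nat_lit 0) (XT.nd (nat_lit 468) (nat_lit 0) (nat_lit 228) (XT.nd (nat_lit 234) (nat_lit 0) (nat_lit 76) (XT.nd (nat_lit 78) (nat_lit 0) (nat_lit 76) (XT.lf (nat_lit 76) (nat_lit 2061429670) (nat_lit 0) (nat_lit 4103246658) (nat_lit 1140) (nat_lit 6900417864) (nat_lit 181) (nat_lit 5) (nat_lit 180) (nat_lit 3) (nat_lit 195) (nat_lit 5) (nat_lit 299) (nat_lit 298) (nat_lit 183)) (XT.nd (nat_lit 78) (nat_lit 0) (nat_lit 0) (XT.lf (nat_lit 0) (nat_lit 6696046545) (nat_lit 1064) (nat_lit 5302586434) (nat_lit 1140) (nat_lit 1251541857) (nat_lit 181) (nat_lit 5) (nat_lit 195) (nat_lit 5) (nat_lit 196) (nat_lit 5) (nat_lit 300) (nat_lit 298) (nat_lit 182)) (XT.lf (nat_lit 76) (nat_lit 531203088) (nat_lit 0) (nat_lit 6743557016) (nat_lit 1140) (nat_lit 6165131589) (nat_lit 182) (nat_lit 5) (nat_lit 181) (nat_lit 5) (nat_lit 196) (nat_lit 5) (nat_lit 301)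 (nat_lit 298) (nat_lit 181)))) (XT.nd (nat_lit 78) (nat_lit 0) (nat_lit 76) (XT.lf (nat_lit 76) (nat_lit 6640722752) (nat_lit 0) (nat_lit 1269668491) (nat_lit 1140) (nat_lit 5723747234) (nat_lit 182) (nat_lit 5) (nat_lit 181) (nat_lit 5) (nat_lit 196) (nat_lit 5) (nat_lit 302) (nat_lit 298) (nat_lit 180)) (XT.nd (nat_lit 78) (nat_lit 0) (nat_lit 0) (XT.lf (nat_lit 0) (nat_lit 8593557385) (nat_lit 1064) (nat_lit 950913557) (nat_lit 1140) (nat_lit 4288912119) (nat_lit 182) (nat_lit 5) (nat_lit 196) (nat_lit 5) (nat_lit 197) (nat_lit 5) (nat_lit 303) (nat_lit 298) (nat_lit 179)) (XT.lf (nat_lit 76) (nat_lit 5356826783) (nat_lit 0) (nat_lit 3991323742) (nat_lit 1140) (nat_lit 4688950163) (nat_lit 183) (nat_lit 5) (nat_lit 182) (nat_lit 5) (nat_lit 197) (nat_lit 5) (nat_lit 304) (nat_lit 298) (nat_lit 178))))) (XT.nd (nat_lit 234) (nat_lit 0) (nat_lit 76) (XT.nd (nat_lit 78) (nat_lit 0) (nat_lit 0)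 (XT.lf (nat_lit 0) (nat_lit 10138914988) (nat_lit 1064) (nat_lit 2398432747) (nat_lit 1140) (nat_lit 1709199078) (nat_lit 183) (nat_lit 5) (nat_lit 197) (nat_lit 5) (nat_lit 198) (nat_lit 5) (nat_lit 305) (nat_lit 298) (nat_lit 177)) (XT.nd (nat_lit 78) (nat_lit 0) (nat_lit 0) (XT.lf (nat_lit 76) (nat_lit 4104305842) (nat_lit 0) (nat_lit 6915661372) (nat_lit 1140) (nat_lit 3440334473) (nat_lit 184) (nat_lit 5) (nat_lit 183) (nat_lit 5) (nat_lit 198) (nat_lit 5) (nat_lit 306) (nat_lit 298) (nat_lit 176)) (XT.lf (nat_lit 76) (nat_lit 10843242276) (nat_lit 0) (nat_lit 1096305842) (nat_lit 1140) (nat_lit 2740579833) (nat_lit 184) (nat_lit 5) (nat_lit 183) (nat_lit 5) (nat_lit 198) (nat_lit 5) (nat_lit 307) (nat_lit 298) (nat_lit 175)))) (XT.nd (nat_lit 78) (nat_lit 0) (nat_lit 0) (XT.lf (nat_lit 76) (nat_lit 2878664404) (nat_lit 0) (nat_lit 10071071275) (nat_lit 1140) (nat_lit 1954943773) (nat_lit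 185) (nat_lit 5) (nat_lit 184) (nat_lit 5) (nat_lit 199) (nat_lit 5) (nat_lit 308) (nat_lit 298) (nat_lit 174)) (XT.nd (nat_lit 78) (nat_lit 0) (nat_lit 76) (XT.lf (nat_lit 76) (nat_lit 9855116019) (nat_lit 0) (nat_lit 4173138072) (nat_lit 1140) (nat_lit 1106593068) (nat_lit 185) (nat_lit 5) (nat_lit 184) (nat_lit 5) (nat_lit 199) (nat_lit 5) (nat_lit 309) (nat_lit 298) (nat_lit 173)) (XT.lf (nat_lit 76) (nat_lit 1675052603) (nat_lit 0) (nat_lit 13487354819) (nat_lit 1140) (nat_lit 208833913) (nat_lit 186) (nat_lit 5) (nat_lit 185) (nat_lit 5) (nat_lit 200) (nat_lit 5) (nat_lit 310) (nat_lit 298) (nat_lit 172)))))) (XT.nd (nat_lit 468) (nat_lit 2128) (nat_lit 0) (XT.nd (nat_lit 234) (nat_lit 0) (nat_lit 76) (XT.nd (nat_lit 78) (nat_lit 0) (nat_lit 0) (XT.lf (nat_lit 0) (nat_lit 786065223) (nat_lit 1140) (nat_lit 6723596404) (nat_lit 1216) (nat_lit 8102352667) (nat_lit 170) (nat_lit 5) (nat_lit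 185) (nat_lit 5) (nat_lit 186) (nat_lit 5) (nat_lit 311) (nat_lit 298) (nat_lit 171)) (XT.nd (nat_lit 78) (nat_lit 0) (nat_lit 76) (XT.lf (nat_lit 76) (nat_lit 456815926) (nat_lit 0) (nat_lit 1343524367) (nat_lit 1216) (nat_lit 14059814470) (nat_lit 171) (nat_lit 5) (nat_lit 170) (nat_lit 5) (nat_lit 186) (nat_lit 5) (nat_lit 312) (nat_lit 298) (nat_lit 170)) (XT.lf (nat_lit 0) (nat_lit 2951336920) (nat_lit 1140) (nat_lit 8180519709) (nat_lit 1216) (nat_lit 4980711628) (nat_lit 171) (nat_lit 5) (nat_lit 186) (nat_lit 5) (nat_lit 187) (nat_lit 5) (nat_lit 313) (nat_lit 298) (nat_lit 169)))) (XT.nd (nat_lit 78) (nat_lit 0) (nat_lit 76) (XT.lf (nat_lit 0) (nat_lit 4140058723) (nat_lit 1140) (nat_lit 762547903) (nat_lit 1216) (nat_lit 11469868768) (nat_lit 171) (nat_lit 5) (nat_lit 186) (nat_lit 5) (nat_lit 187) (nat_lit 5) (nat_lit 314) (nat_lit 298) (nat_lit 168)) (XT.nd (nat_lit 78) (nat_lit 0)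 (nat_lit 0) (XT.lf (nat_lit 0) (nat_lit 5437215558) (nat_lit 1140) (nat_lit 9647004391) (nat_lit 76) (nat_lit 1553793193) (nat_lit 172) (nat_lit 5) (nat_lit 187) (nat_lit 5) (nat_lit 173) (nat_lit 5) (nat_lit 315) (nat_lit 298) (nat_lit 167)) (XT.lf (nat_lit 0) (nat_lit 6820017677) (nat_lit 1140) (nat_lit 1975331425) (nat_lit 76) (nat_lit 8114782120) (nat_lit 172) (nat_lit 5) (nat_lit 187) (nat_lit 5) (nat_lit 173) (nat_lit 5) (nat_lit 316) (nat_lit 298) (nat_lit 166))))) (XT.nd (nat_lit 234) (nat_lit 608) (nat_lit 0) (XT.nd (nat_lit 78) (nat_lit 532) (nat_lit 0) (XT.lf (nat_lit 0) (nat_lit 6036289144) (nat_lit 1140) (nat_lit 2256731881) (nat_lit 1216) (nat_lit 8895945950) (nat_lit 157) (nat_lit 5) (nat_lit 172) (nat_lit 5) (nat_lit 173) (nat_lit 5) (nat_lit 317) (nat_lit 298) (nat_lit 165)) (XT.nd (nat_lit 78) (nat_lit 532) (nat_lit 0) (XT.lf (nat_lit 0) (nat_lit 9864303835) (nat_lit 1216) (nat_lit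 3198275948) (nat_lit 76) (nat_lit 4411980527) (nat_lit 157) (nat_lit 5) (nat_lit 173) (nat_lit 5) (nat_lit 158) (nat_lit 5) (nat_lit 318) (nat_lit 298) (nat_lit 164)) (XT.lf (nat_lit 0) (nat_lit 5063241379) (nat_lit 532) (nat_lit 6481662870) (nat_lit 608) (nat_lit 6221966572) (nat_lit 150) (nat_lit 5) (nat_lit 157) (nat_lit 5) (nat_lit 158) (nat_lit 5) (nat_lit 319) (nat_lit 298) (nat_lit 163)))) (XT.nd (nat_lit 78) (nat_lit 608) (nat_lit 0) (XT.lf (nat_lit 0) (nat_lit 13302743635) (nat_lit 608) (nat_lit 4440165513) (nat_lit 76) (nat_lit 324251187) (nat_lit 150) (nat_lit 5) (nat_lit 158) (nat_lit 5) (nat_lit 151) (nat_lit 5) (nat_lit 320) (nat_lit 298) (nat_lit 162)) (XT.nd (nat_lit 78) (nat_lit 0) (nat_lit 0) (XT.lf (nat_lit 0) (nat_lit 4078677477) (nat_lit 608) (nat_lit 11129627197) (nat_lit 684) (nat_lit 3165318170) (nat_lit 142) (nat_lit 5) (nat_lit 150) (nat_lit 5) (nat_lit 151) (nat_lit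 5) (nat_lit 321) (nat_lit 298) (nat_lit 161)) (XT.lf (nat_lit 0) (nat_lit 12936242973) (nat_lit 608) (nat_lit 4271400332) (nat_lit 684) (nat_lit 1480551096) (nat_lit 142) (nat_lit 5) (nat_lit 150) (nat_lit 5) (nat_lit 151) (nat_lit 5) (nat_lit 322) (nat_lit 298) (nat_lit 160))))))))
noncomputable def xc201 : XT := (XT.nd (nat_lit 1794) (nat_lit 2812) (nat_lit 0) (XT.nd (nat_lit 858) (nat_lit 2280) (nat_lit 0) (XT.nd (nat_lit 390) (nat_lit 912) (nat_lit 0) (XT.nd (nat_lit 156) (nat_lit 988) (nat_lit 0) (XT.nd (nat_lit 78) (nat_lit 0) (nat_lit 0) (XT.lf (nat_lit 0) (nat_lit 298650050) (nat_lit 608) (nat_lit 15941136171) (nat_lit 76) (nat_lit 2770890269) (nat_lit 134) (nat_lit 5) (nat_lit 142) (nat_lit 5) (nat_lit 135) (nat_lit 5) (nat_lit 323) (nat_lit 298) (nat_lit 159)) (XT.lf (nat_lit 0) (nat_lit 2194503495) (nat_lit 608) (nat_lit 7133010939) (nat_lit 76) (nat_lit 10012100174) (nat_lit 134) (nat_lit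 5) (nat_lit 142) (nat_lit 5) (nat_lit 135) (nat_lit 5) (nat_lit 324) (nat_lit 298) (nat_lit 158))) (XT.nd (nat_lit 78) (nat_lit 456) (nat_lit 0) (XT.lf (nat_lit 0) (nat_lit 1970051837) (nat_lit 532) (nat_lit 2188432873) (nat_lit 608) (nat_lit 15519610588) (nat_lit 127) (nat_lit 5) (nat_lit 134) (nat_lit 5) (nat_lit 135) (nat_lit 5) (nat_lit 325) (nat_lit 298) (nat_lit 157)) (XT.nd (nat_lit 78) (nat_lit 456) (nat_lit 0) (XT.lf (nat_lit 0) (nat_lit 6296238948) (nat_lit 608) (nat_lit 8590413296) (nat_lit 76) (nat_lit 5136644198) (nat_lit 127) (nat_lit 5) (nat_lit 135) (nat_lit 5) (nat_lit 128) (nat_lit 5) (nat_lit 326) (nat_lit 298) (nat_lit 156)) (XT.lf (nat_lit 0) (nat_lit 786751429) (nat_lit 456) (nat_lit 7733287858) (nat_lit 532) (nat_lit 11858168233) (nat_lit 121) (nat_lit 5) (nat_lit 127) (nat_lit 5) (nat_lit 128) (nat_lit 5) (nat_lit 327) (nat_lit 298) (nat_lit 155))))) (XT.nd (nat_lit 234)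 (nat_lit 456) (nat_lit 0) (XT.nd (nat_lit 78) (nat_lit 456) (nat_lit 0) (XT.lf (nat_lit 0) (nat_lit 10613722387) (nat_lit 456) (nat_lit 276400688) (nat_lit 532) (nat_lit 9851266745) (nat_lit 121) (nat_lit 5) (nat_lit 127) (nat_lit 5) (nat_lit 128) (nat_lit 5) (nat_lit 328) (nat_lit 298) (nat_lit 154)) (XT.nd (nat_lit 78) (nat_lit 456) (nat_lit 0) (XT.lf (nat_lit 0) (nat_lit 13395511172) (nat_lit 532) (nat_lit 458736748) (nat_lit 76) (nat_lit 7259304271) (nat_lit 121) (nat_lit 5) (nat_lit 128) (nat_lit 5) (nat_lit 122) (nat_lit 5) (nat_lit 329) (nat_lit 298) (nat_lit 153)) (XT.lf (nat_lit 0) (nat_lit 9679021083) (nat_lit 456) (nat_lit 6386048364) (nat_lit 532) (nat_lit 5429150074) (nat_lit 115) (nat_lit 5) (nat_lit 121) (nat_lit 5) (nat_lit 122) (nat_lit 5) (nat_lit 330) (nat_lit 298) (nat_lit 152)))) (XT.nd (nat_lit 78) (nat_lit 456) (nat_lit 0) (XT.lf (nat_lit 0) (nat_lit 18825300433) (nat_lit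 532) (nat_lit 1775961734) (nat_lit 76) (nat_lit 1284737168) (nat_lit 115) (nat_lit 5) (nat_lit 122) (nat_lit 5) (nat_lit 116) (nat_lit 5) (nat_lit 331) (nat_lit 298) (nat_lit 151)) (XT.nd (nat_lit 78) (nat_lit 76) (nat_lit 0) (XT.lf (nat_lit 0) (nat_lit 8662981189) (nat_lit 380) (nat_lit 13145404662) (nat_lit 456) (nat_lit 476955016) (nat_lit 110) (nat_lit 5) (nat_lit 115) (nat_lit 5) (nat_lit 116) (nat_lit 5) (nat_lit 332) (nat_lit 298) (nat_lit 150)) (XT.lf (nat_lit 0) (nat_lit 2153380929) (nat_lit 456) (nat_lit 3273155071) (nat_lit 76) (nat_lit 17269154831) (nat_lit 109) (nat_lit 5) (nat_lit 115) (nat_lit 5) (nat_lit 110) (nat_lit 5) (nat_lit 333) (nat_lit 298) (nat_lit 149)))))) (XT.nd (nat_lit 468) (nat_lit 1064) (nat_lit 0) (XT.nd (nat_lit 234) (nat_lit 380) (nat_lit 0) (XT.nd (nat_lit 78) (nat_lit 380) (nat_lit 0) (XT.lf (nat_lit 0) (nat_lit 4944134961) (nat_lit 532) (nat_lit 15619817310)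 (nat_lit 76) (nat_lit 2551533446) (nat_lit 103) (nat_lit 5) (nat_lit 110) (nat_lit 5) (nat_lit 104) (nat_lit 5) (nat_lit 334) (nat_lit 298) (nat_lit 148)) (XT.nd (nat_lit 78) (nat_lit 380) (nat_lit 0) (XT.lf (nat_lit 0) (nat_lit 7899602070) (nat_lit 532) (nat_lit 4953537529) (nat_lit 76) (nat_lit 10692313801) (nat_lit 103) (nat_lit 5) (nat_lit 110) (nat_lit 5) (nat_lit 104) (nat_lit 5) (nat_lit 335) (nat_lit 298) (nat_lit 147)) (XT.lf (nat_lit 0) (nat_lit 6145612532) (nat_lit 380) (nat_lit 4851256896) (nat_lit 456) (nat_lit 12989865008) (nat_lit 98) (nat_lit 5) (nat_lit 103) (nat_lit 5) (nat_lit 104) (nat_lit 5) (nat_lit 336) (nat_lit 298) (nat_lit 146)))) (XT.nd (nat_lit 78) (nat_lit 380) (nat_lit 0) (XT.lf (nat_lit 0) (nat_lit 14264320261) (nat_lit 456) (nat_lit 6800706417) (nat_lit 76) (nat_lit 3373917428) (nat_lit 98) (nat_lit 5) (nat_lit 104) (nat_lit 5) (nat_lit 99) (nat_lit 5) (nat_lit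 337) (nat_lit 298) (nat_lit 145)) (XT.nd (nat_lit 78) (nat_lit 0) (nat_lit 0) (XT.lf (nat_lit 0) (nat_lit 4605829365) (nat_lit 380) (nat_lit 13110597632) (nat_lit 456) (nat_lit 7185702024) (nat_lit 93) (nat_lit 5) (nat_lit 98) (nat_lit 5) (nat_lit 99) (nat_lit 5) (nat_lit 338) (nat_lit 298) (nat_lit 144)) (XT.lf (nat_lit 0) (nat_lit 16487100794) (nat_lit 380) (nat_lit 4848095264) (nat_lit 456) (nat_lit 4042128150) (nat_lit 93) (nat_lit 5) (nat_lit 98) (nat_lit 5) (nat_lit 99) (nat_lit 5) (nat_lit 339) (nat_lit 298) (nat_lit 143))))) (XT.nd (nat_lit 234) (nat_lit 304) (nat_lit 0) (XT.nd (nat_lit 78) (nat_lit 456) (nat_lit 0) (XT.lf (nat_lit 0) (nat_lit 2872049075) (nat_lit 304) (nat_lit 22247866725) (nat_lit 380) (nat_lit 745145295) (nat_lit 89) (nat_lit 5) (nat_lit 93) (nat_lit 5) (nat_lit 94) (nat_lit 5) (nat_lit 340) (nat_lit 298) (nat_lit 142)) (XT.nd (nat_lit 78) (nat_lit 380) (nat_lit 0)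 (XT.lf (nat_lit 0) (nat_lit 2732293778) (nat_lit 380) (nat_lit 11276550051) (nat_lit 76) (nat_lit 12353830714) (nat_lit 88) (nat_lit 5) (nat_lit 93) (nat_lit 5) (nat_lit 89) (nat_lit 5) (nat_lit 341) (nat_lit 298) (nat_lit 141)) (XT.lf (nat_lit 0) (nat_lit 792825800) (nat_lit 380) (nat_lit 5508640435) (nat_lit 456) (nat_lit 20573464062) (nat_lit 83) (nat_lit 5) (nat_lit 88) (nat_lit 5) (nat_lit 89) (nat_lit 5) (nat_lit 342) (nat_lit 298) (nat_lit 140)))) (XT.nd (nat_lit 78) (nat_lit 304) (nat_lit 0) (XT.lf (nat_lit 0) (nat_lit 10118760998) (nat_lit 456) (nat_lit 13982786594) (nat_lit 76) (nat_lit 3296781356) (nat_lit 83) (nat_lit 5) (nat_lit 89) (nat_lit 5) (nat_lit 84) (nat_lit 5) (nat_lit 343) (nat_lit 298) (nat_lit 139)) (XT.nd (nat_lit 78) (nat_lit 304) (nat_lit 0) (XT.lf (nat_lit 0) (nat_lit 14100106514) (nat_lit 456) (nat_lit 1581588115) (nat_lit 76) (nat_lit 12254255418) (nat_lit 83) (nat_lit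 5) (nat_lit 89) (nat_lit 5) (nat_lit 84) (nat_lit 5) (nat_lit 344) (nat_lit 298) (nat_lit 138)) (XT.lf (nat_lit 0) (nat_lit 11407888350) (nat_lit 304) (nat_lit 6897800458) (nat_lit 380) (nat_lit 10180873338) (nat_lit 79) (nat_lit 5) (nat_lit 83) (nat_lit 5) (nat_lit 84) (nat_lit 5) (nat_lit 345) (nat_lit 298) (nat_lit 137))))))) (XT.nd (nat_lit 936) (nat_lit 1216) (nat_lit 0) (XT.nd (nat_lit 468) (nat_lit 608) (nat_lit 0) (XT.nd (nat_lit 234) (nat_lit 608) (nat_lit 0) (XT.nd (nat_lit 78) (nat_lit 380) (nat_lit 0) (XT.lf (nat_lit 0) (nat_lit 22669434233) (nat_lit 380) (nat_lit 4261004306) (nat_lit 76) (nat_lit 2122300276) (nat_lit 79) (nat_lit 5) (nat_lit 84) (nat_lit 5) (nat_lit 80) (nat_lit 5) (nat_lit 346) (nat_lit 298) (nat_lit 136)) (XT.nd (nat_lit 78) (nat_lit 76) (nat_lit 0) (XT.lf (nat_lit 0) (nat_lit 9043112015) (nat_lit 304) (nat_lit 18271545915) (nat_lit 380) (nat_lit 2316731775) (nat_lit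 75) (nat_lit 5) (nat_lit 79) (nat_lit 5) (nat_lit 80) (nat_lit 5) (nat_lit 347) (nat_lit 298) (nat_lit 135)) (XT.lf (nat_lit 0) (nat_lit 1874133814) (nat_lit 380) (nat_lit 7417118660) (nat_lit 76) (nat_lit 20934448753) (nat_lit 74) (nat_lit 5) (nat_lit 79) (nat_lit 5) (nat_lit 75) (nat_lit 5) (nat_lit 348) (nat_lit 298) (nat_lit 134)))) (XT.nd (nat_lit 78) (nat_lit 304) (nat_lit 0) (XT.lf (nat_lit 0) (nat_lit 6200071972) (nat_lit 380) (nat_lit 24593965894) (nat_lit 76) (nat_lit 41444170) (nat_lit 70) (nat_lit 5) (nat_lit 75) (nat_lit 5) (nat_lit 71) (nat_lit 5) (nat_lit 349) (nat_lit 298) (nat_lit 133)) (XT.nd (nat_lit 78) (nat_lit 304) (nat_lit 0) (XT.lf (nat_lit 0) (nat_lit 10818981088) (nat_lit 380) (nat_lit 11098257544) (nat_lit 76) (nat_lit 9541427095) (nat_lit 70) (nat_lit 5) (nat_lit 75) (nat_lit 5) (nat_lit 71) (nat_lit 5) (nat_lit 350) (nat_lit 298) (nat_lit 132)) (XT.lf (nat_lit 0) (nat_lit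 2851986517) (nat_lit 304) (nat_lit 12747575601) (nat_lit 380) (nat_lit 16500294758) (nat_lit 66) (nat_lit 5) (nat_lit 70) (nat_lit 5) (nat_lit 71) (nat_lit 5) (nat_lit 351) (nat_lit 298) (nat_lit 131))))) (XT.nd (nat_lit 234) (nat_lit 380) (nat_lit 0) (XT.nd (nat_lit 78) (nat_lit 228) (nat_lit 0) (XT.lf (nat_lit 0) (nat_lit 17442311941) (nat_lit 304) (nat_lit 3189077432) (nat_lit 380) (nat_lit 12125664465) (nat_lit 66) (nat_lit 5) (nat_lit 70) (nat_lit 5) (nat_lit 71) (nat_lit 5) (nat_lit 352) (nat_lit 298) (nat_lit 130)) (XT.nd (nat_lit 78) (nat_lit 228) (nat_lit 0) (XT.lf (nat_lit 0) (nat_lit 25874020631) (nat_lit 380) (nat_lit 1033472072) (nat_lit 76) (nat_lit 6524683328) (nat_lit 66) (nat_lit 5) (nat_lit 71) (nat_lit 5) (nat_lit 67) (nat_lit 5) (nat_lit 353) (nat_lit 298) (nat_lit 129)) (XT.lf (nat_lit 0) (nat_lit 13910404614) (nat_lit 228) (nat_lit 17524802916) (nat_lit 304) (nat_lit 2687510714)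 (nat_lit 63) (nat_lit 5) (nat_lit 66) (nat_lit 5) (nat_lit 67) (nat_lit 5) (nat_lit 354) (nat_lit 298) (nat_lit 128)))) (XT.nd (nat_lit 78) (nat_lit 304) (nat_lit 0) (XT.lf (nat_lit 0) (nat_lit 2290346032) (nat_lit 304) (nat_lit 5538100742) (nat_lit 76) (nat_lit 27004666287) (nat_lit 62) (nat_lit 5) (nat_lit 66) (nat_lit 5) (nat_lit 63) (nat_lit 5) (nat_lit 355) (nat_lit 298) (nat_lit 127)) (XT.nd (nat_lit 78) (nat_lit 0) (nat_lit 0) (XT.lf (nat_lit 0) (nat_lit 7475139728) (nat_lit 380) (nat_lit 25849142721) (nat_lit 76) (nat_lit 2236394738) (nat_lit 58) (nat_lit 5) (nat_lit 63) (nat_lit 5) (nat_lit 59) (nat_lit 5) (nat_lit 356) (nat_lit 298) (nat_lit 126)) (XT.lf (nat_lit 0) (nat_lit 12945629913) (nat_lit 380) (nat_lit 10859876733) (nat_lit 76) (nat_lit 12500661149) (nat_lit 58) (nat_lit 5) (nat_lit 63) (nat_lit 5) (nat_lit 59) (nat_lit 5) (nat_lit 357) (nat_lit 298) (nat_lit 125)))))) (XT.nd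 (nat_lit 468) (nat_lit 456) (nat_lit 0) (XT.nd (nat_lit 234) (nat_lit 532) (nat_lit 0) (XT.nd (nat_lit 78) (nat_lit 0) (nat_lit 0) (XT.lf (nat_lit 0) (nat_lit 4664647121) (nat_lit 228) (nat_lit 13956704445) (nat_lit 304) (nat_lit 18451442068) (nat_lit 55) (nat_lit 5) (nat_lit 58) (nat_lit 5) (nat_lit 59) (nat_lit 5) (nat_lit 358) (nat_lit 298) (nat_lit 124)) (XT.nd (nat_lit 78) (nat_lit 0) (nat_lit 0) (XT.lf (nat_lit 0) (nat_lit 20872132713) (nat_lit 228) (nat_lit 3701209548) (nat_lit 304) (nat_lit 13285899966) (nat_lit 55) (nat_lit 5) (nat_lit 58) (nat_lit 5) (nat_lit 59) (nat_lit 5) (nat_lit 359) (nat_lit 298) (nat_lit 123)) (XT.lf (nat_lit 0) (nat_lit 30766278554) (nat_lit 304) (nat_lit 1174730929) (nat_lit 76) (nat_lit 6726407005) (nat_lit 55) (nat_lit 5) (nat_lit 59) (nat_lit 5) (nat_lit 56) (nat_lit 5) (nat_lit 360) (nat_lit 298) (nat_lit 122)))) (XT.nd (nat_lit 78) (nat_lit 304) (nat_lit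 0) (XT.lf (nat_lit 0) (nat_lit 15370126842) (nat_lit 228) (nat_lit 21955797544) (nat_lit 304) (nat_lit 2168487624) (nat_lit 52) (nat_lit 5) (nat_lit 55) (nat_lit 5) (nat_lit 56) (nat_lit 5) (nat_lit 361) (nat_lit 298) (nat_lit 121)) (XT.nd (nat_lit 78) (nat_lit 228) (nat_lit 0) (XT.lf (nat_lit 0) (nat_lit 3671759794) (nat_lit 304) (nat_lit 7951676491) (nat_lit 76) (nat_lit 28721451459) (nat_lit 51) (nat_lit 5) (nat_lit 55) (nat_lit 5) (nat_lit 52) (nat_lit 5) (nat_lit 362) (nat_lit 298) (nat_lit 120)) (XT.lf (nat_lit 0) (nat_lit 8852337956) (nat_lit 228) (nat_lit 873030255) (nat_lit 304) (nat_lit 31492416657) (nat_lit 48) (nat_lit 5) (nat_lit 51) (nat_lit 5) (nat_lit 52) (nat_lit 5) (nat_lit 363) (nat_lit 298) (nat_lit 119))))) (XT.nd (nat_lit 234) (nat_lit 228) (nat_lit 0) (XT.nd (nat_lit 78) (nat_lit 228) (nat_lit 0) (XT.lf (nat_lit 0) (nat_lit 16136401264) (nat_lit 304) (nat_lit 15894908284)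 (nat_lit 76) (nat_lit 10080288131) (nat_lit 48) (nat_lit 5) (nat_lit 52) (nat_lit 5) (nat_lit 49) (nat_lit 5) (nat_lit 364) (nat_lit 298) (nat_lit 118)) (XT.nd (nat_lit 78) (nat_lit 0) (nat_lit 0) (XT.lf (nat_lit 0) (nat_lit 1077190363) (nat_lit 228) (nat_lit 21678347661) (nat_lit 304) (nat_lit 20276216842) (nat_lit 45) (nat_lit 5) (nat_lit 48) (nat_lit 5) (nat_lit 49) (nat_lit 5) (nat_lit 365) (nat_lit 298) (nat_lit 117)) (XT.lf (nat_lit 0) (nat_lit 18879398223) (nat_lit 228) (nat_lit 10851179318) (nat_lit 304) (nat_lit 14244222447) (nat_lit 45) (nat_lit 5) (nat_lit 48) (nat_lit 5) (nat_lit 49) (nat_lit 5) (nat_lit 366) (nat_lit 298) (nat_lit 116)))) (XT.nd (nat_lit 78) (nat_lit 228) (nat_lit 0) (XT.lf (nat_lit 0) (nat_lit 36914657675) (nat_lit 304) (nat_lit 7738176856) (nat_lit 76) (nat_lit 293311236) (nat_lit 45) (nat_lit 5) (nat_lit 49) (nat_lit 5) (nat_lit 46) (nat_lit 5) (nat_lit 367) (nat_lit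 298) (nat_lit 115)) (XT.nd (nat_lit 78) (nat_lit 76) (nat_lit 0) (XT.lf (nat_lit 0) (nat_lit 10227216433) (nat_lit 152) (nat_lit 34289779732) (nat_lit 228) (nat_lit 1423556580) (nat_lit 43) (nat_lit 5) (nat_lit 45) (nat_lit 5) (nat_lit 46) (nat_lit 5) (nat_lit 368) (nat_lit 298) (nat_lit 114)) (XT.lf (nat_lit 0) (nat_lit 5353492077) (nat_lit 228) (nat_lit 18129463136) (nat_lit 76) (nat_lit 23478009823) (nat_lit 42) (nat_lit 5) (nat_lit 45) (nat_lit 5) (nat_lit 43) (nat_lit 5) (nat_lit 369) (nat_lit 298) (nat_lit 113))))))))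
noncomputable def xc202 : XT := (XT.nd (nat_lit 35568) (nat_lit 0) (nat_lit 7144) (XT.nd (nat_lit 858) (nat_lit 380) (nat_lit 0) (XT.nd (nat_lit 390) (nat_lit 380) (nat_lit 0) (XT.nd (nat_lit 156) (nat_lit 152) (nat_lit 0) (XT.nd (nat_lit 78) (nat_lit 228) (nat_lit 0) (XT.lf (nat_lit 0) (nat_lit 12302326801) (nat_lit 228) (nat_lit 36728910) (nat_lit 76) (nat_lit 35672601203) (nat_lit 42) (nat_lit 5) (nat_lit 45) (nat_lit 5) (nat_lit 43) (nat_lit 5) (nat_lit 370) (nat_lit 298) (nat_lit 112)) (XT.lf (nat_lit 0) (nat_lit 18964423862) (nat_lit 228) (nat_lit 674671885) (nat_lit 304) (nat_lit 29449392303) (nat_lit 39) (nat_lit 5) (nat_lit 42) (nat_lit 5) (nat_lit 43) (nat_lit 5) (nat_lit 371) (nat_lit 298) (nat_lit 111))) (XT.nd (nat_lit 78) (nat_lit 152) (nat_lit 0) (XT.lf (nat_lit 0) (nat_lit 27302542348) (nat_lit 304) (nat_lit 11774711225) (nat_lit 76) (nat_lit 11117175814) (nat_lit 39) (nat_lit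 5) (nat_lit 43) (nat_lit 5) (nat_lit 40) (nat_lit 5) (nat_lit 372) (nat_lit 298) (nat_lit 110)) (XT.nd (nat_lit 78) (nat_lit 0) (nat_lit 0) (XT.lf (nat_lit 0) (nat_lit 7255701951) (nat_lit 152) (nat_lit 28013894650) (nat_lit 228) (nat_lit 16061743665) (nat_lit 37) (nat_lit 5) (nat_lit 39) (nat_lit 5) (nat_lit 40) (nat_lit 5) (nat_lit 373) (nat_lit 298) (nat_lit 109)) (XT.lf (nat_lit 0) (nat_lit 27094114631) (nat_lit 152) (nat_lit 16497765547) (nat_lit 228) (nat_lit 8906994122) (nat_lit 37) (nat_lit 5) (nat_lit 39) (nat_lit 5) (nat_lit 40) (nat_lit 5) (nat_lit 374) (nat_lit 298) (nat_lit 108))))) (XT.nd (nat_lit 234) (nat_lit 152) (nat_lit 0) (XT.nd (nat_lit 78) (nat_lit 228) (nat_lit 0) (XT.lf (nat_lit 0) (nat_lit 47523521508) (nat_lit 152) (nat_lit 4637705122) (nat_lit 228) (nat_lit 1540288185) (nat_lit 37) (nat_lit 5) (nat_lit 39) (nat_lit 5) (nat_lit 40) (nat_lit 5) (nat_lit 375) (nat_lit 298)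 (nat_lit 107)) (XT.nd (nat_lit 78) (nat_lit 0) (nat_lit 0) (XT.lf (nat_lit 0) (nat_lit 6134552379) (nat_lit 228) (nat_lit 41176011744) (nat_lit 76) (nat_lit 7621774427) (nat_lit 34) (nat_lit 5) (nat_lit 37) (nat_lit 5) (nat_lit 35) (nat_lit 5) (nat_lit 376) (nat_lit 298) (nat_lit 106)) (XT.lf (nat_lit 0) (nat_lit 14115064946) (nat_lit 228) (nat_lit 21848795093) (nat_lit 76) (nat_lit 20232579990) (nat_lit 34) (nat_lit 5) (nat_lit 37) (nat_lit 5) (nat_lit 35) (nat_lit 5) (nat_lit 377) (nat_lit 298) (nat_lit 105)))) (XT.nd (nat_lit 78) (nat_lit 152) (nat_lit 0) (XT.lf (nat_lit 0) (nat_lit 22332530640) (nat_lit 228) (nat_lit 1945755210) (nat_lit 76) (nat_lit 33220254606) (nat_lit 34) (nat_lit 5) (nat_lit 37) (nat_lit 5) (nat_lit 35) (nat_lit 5) (nat_lit 378) (nat_lit 298) (nat_lit 104)) (XT.nd (nat_lit 78) (nat_lit 0) (nat_lit 0) (XT.lf (nat_lit 0) (nat_lit 18919690212) (nat_lit 152) (nat_lit 12056307194)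 (nat_lit 228) (nat_lit 27858324151) (nat_lit 32) (nat_lit 5) (nat_lit 34) (nat_lit 5) (nat_lit 35) (nat_lit 5) (nat_lit 379) (nat_lit 298) (nat_lit 103)) (XT.lf (nat_lit 0) (nat_lit 39901356070) (nat_lit 228) (nat_lit 19767810563) (nat_lit 76) (nat_lit 540333741) (nat_lit 32) (nat_lit 5) (nat_lit 35) (nat_lit 5) (nat_lit 33) (nat_lit 5) (nat_lit 380) (nat_lit 298) (nat_lit 102)))))) (XT.nd (nat_lit 34242) (nat_lit 0) (nat_lit 11628) (XT.nd (nat_lit 234) (nat_lit 152) (nat_lit 0) (XT.nd (nat_lit 78) (nat_lit 76) (nat_lit 0) (XT.lf (nat_lit 0) (nat_lit 877382507) (nat_lit 152) (nat_lit 48342593343) (nat_lit 228) (nat_lit 12402195558) (nat_lit 30) (nat_lit 5) (nat_lit 32) (nat_lit 5) (nat_lit 33) (nat_lit 5) (nat_lit 381) (nat_lit 298) (nat_lit 101)) (XT.nd (nat_lit 78) (nat_lit 76) (nat_lit 0) (XT.lf (nat_lit 0) (nat_lit 22543405355) (nat_lit 152) (nat_lit 36472093098) (nat_lit 228) (nat_lit 4055805602)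 (nat_lit 30) (nat_lit 5) (nat_lit 32) (nat_lit 5) (nat_lit 33) (nat_lit 5) (nat_lit 382) (nat_lit 298) (nat_lit 100)) (XT.lf (nat_lit 0) (nat_lit 4450135967) (nat_lit 228) (nat_lit 19751836128) (nat_lit 76) (nat_lit 40360697649) (nat_lit 29) (nat_lit 5) (nat_lit 32) (nat_lit 5) (nat_lit 30) (nat_lit 5) (nat_lit 383) (nat_lit 298) (nat_lit 99)))) (XT.nd (nat_lit 78) (nat_lit 0) (nat_lit 0) (XT.lf (nat_lit 0) (nat_lit 1635693702) (nat_lit 152) (nat_lit 11507603338) (nat_lit 228) (nat_lit 52953869556) (nat_lit 27) (nat_lit 5) (nat_lit 29) (nat_lit 5) (nat_lit 30) (nat_lit 5) (nat_lit 384) (nat_lit 298) (nat_lit 98)) (XT.nd (nat_lit 78) (nat_lit 0) (nat_lit 0) (XT.lf (nat_lit 0) (nat_lit 22311602385) (nat_lit 228) (nat_lit 43622608996) (nat_lit 76) (nat_lit 1737058096) (nat_lit 27) (nat_lit 5) (nat_lit 30) (nat_lit 5) (nat_lit 28) (nat_lit 5) (nat_lit 385) (nat_lit 298) (nat_lit 97)) (XT.lf (nat_lit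 0) (nat_lit 31866807273) (nat_lit 228) (nat_lit 22276004675) (nat_lit 76) (nat_lit 15146429546) (nat_lit 27) (nat_lit 5) (nat_lit 30) (nat_lit 5) (nat_lit 28) (nat_lit 5) (nat_lit 386) (nat_lit 298) (nat_lit 96))))) (XT.nd (nat_lit 234) (nat_lit 0) (nat_lit 76) (XT.nd (nat_lit 78) (nat_lit 0) (nat_lit 0) (XT.lf (nat_lit 0) (nat_lit 3300423044) (nat_lit 1140) (nat_lit 1661579255) (nat_lit 1140) (nat_lit 1661579255) (nat_lit 180) (nat_lit 3) (nat_lit 195) (nat_lit 3) (nat_lit 195) (nat_lit 5) (nat_lit 299) (nat_lit 299) (nat_lit 182)) (XT.nd (nat_lit 78) (nat_lit 0) (nat_lit 76) (XT.lf (nat_lit 76) (nat_lit 2505788306) (nat_lit 0) (nat_lit 4574486293) (nat_lit 1140) (nat_lit 6353540143) (nat_lit 181) (nat_lit 5) (nat_lit 180) (nat_lit 3) (nat_lit 195) (nat_lit 5) (nat_lit 300) (nat_lit 299) (nat_lit 181)) (XT.lf (nat_lit 0) (nat_lit 7603055538) (nat_lit 1064) (nat_lit 5064484824) (nat_lit 1140)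 (nat_lit 957681583) (nat_lit 181) (nat_lit 5) (nat_lit 195) (nat_lit 5) (nat_lit 196) (nat_lit 5) (nat_lit 301) (nat_lit 299) (nat_lit 180)))) (XT.nd (nat_lit 78) (nat_lit 0) (nat_lit 0) (XT.lf (nat_lit 76) (nat_lit 940424469) (nat_lit 0) (nat_lit 7241919711) (nat_lit 1140) (nat_lit 5638826834) (nat_lit 182) (nat_lit 5) (nat_lit 181) (nat_lit 5) (nat_lit 196) (nat_lit 5) (nat_lit 302) (nat_lit 299) (nat_lit 179)) (XT.nd (nat_lit 78) (nat_lit 0) (nat_lit 76) (XT.lf (nat_lit 76) (nat_lit 7221774812) (nat_lit 0) (nat_lit 1595191540) (nat_lit 1140) (nat_lit 5204917222) (nat_lit 182) (nat_lit 5) (nat_lit 181) (nat_lit 5) (nat_lit 196) (nat_lit 5) (nat_lit 303) (nat_lit 299) (nat_lit 178)) (XT.lf (nat_lit 0) (nat_lit 9498451864) (nat_lit 1064) (nat_lit 585390073) (nat_lit 1140) (nat_lit 4143963811) (nat_lit 182) (nat_lit 5) (nat_lit 196) (nat_lit 5) (nat_lit 197) (nat_lit 5) (nat_lit 304) (nat_lit 299)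 (nat_lit 177))))))) (XT.nd (nat_lit 936) (nat_lit 3724) (nat_lit 0) (XT.nd (nat_lit 468) (nat_lit 912) (nat_lit 0) (XT.nd (nat_lit 234) (nat_lit 0) (nat_lit 76) (XT.nd (nat_lit 78) (nat_lit 0) (nat_lit 76) (XT.lf (nat_lit 76) (nat_lit 5907719232) (nat_lit 0) (nat_lit 4352867071) (nat_lit 1140) (nat_lit 4177535461) (nat_lit 183) (nat_lit 5) (nat_lit 182) (nat_lit 5) (nat_lit 197) (nat_lit 5) (nat_lit 305) (nat_lit 299) (nat_lit 176)) (XT.nd (nat_lit 78) (nat_lit 0) (nat_lit 0) (XT.lf (nat_lit 0) (nat_lit 11054409524) (nat_lit 1064) (nat_lit 2069799367) (nat_lit 1140) (nat_lit 1530295286) (nat_lit 183) (nat_lit 5) (nat_lit 197) (nat_lit 5) (nat_lit 198) (nat_lit 5) (nat_lit 306) (nat_lit 299) (nat_lit 175)) (XT.lf (nat_lit 76) (nat_lit 4624094063) (nat_lit 0) (nat_lit 7323806540) (nat_lit 1140) (nat_lit 2927222891) (nat_lit 184) (nat_lit 5) (nat_lit 183) (nat_lit 5) (nat_lit 198) (nat_lit 5) (nat_lit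 307) (nat_lit 299) (nat_lit 174)))) (XT.nd (nat_lit 78) (nat_lit 0) (nat_lit 76) (XT.lf (nat_lit 76) (nat_lit 11553645414) (nat_lit 0) (nat_lit 1324025431) (nat_lit 1140) (nat_lit 2224426727) (nat_lit 184) (nat_lit 5) (nat_lit 183) (nat_lit 5) (nat_lit 198) (nat_lit 5) (nat_lit 308) (nat_lit 299) (nat_lit 173)) (XT.nd (nat_lit 78) (nat_lit 0) (nat_lit 0) (XT.lf (nat_lit 76) (nat_lit 3366462616) (nat_lit 0) (nat_lit 10536850660) (nat_lit 1140) (nat_lit 1430548045) (nat_lit 185) (nat_lit 5) (nat_lit 184) (nat_lit 5) (nat_lit 199) (nat_lit 5) (nat_lit 309) (nat_lit 299) (nat_lit 172)) (XT.lf (nat_lit 76) (nat_lit 10540515402) (nat_lit 0) (nat_lit 4457213036) (nat_lit 1140) (nat_lit 573728684) (nat_lit 185) (nat_lit 5) (nat_lit 184) (nat_lit 5) (nat_lit 199) (nat_lit 5) (nat_lit 310) (nat_lit 299) (nat_lit 171))))) (XT.nd (nat_lit 234) (nat_lit 0) (nat_lit 76) (XT.nd (nat_lit 78) (nat_lit 0) (nat_lit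 0) (XT.lf (nat_lit 0) (nat_lit 330380466) (nat_lit 1140) (nat_lit 13688611903) (nat_lit 1216) (nat_lit 1796289187) (nat_lit 170) (nat_lit 5) (nat_lit 185) (nat_lit 5) (nat_lit 186) (nat_lit 5) (nat_lit 311) (nat_lit 299) (nat_lit 170)) (XT.nd (nat_lit 78) (nat_lit 0) (nat_lit 0) (XT.lf (nat_lit 0) (nat_lit 1335163726) (nat_lit 1140) (nat_lit 6521037473) (nat_lit 1216) (nat_lit 8207514255) (nat_lit 170) (nat_lit 5) (nat_lit 185) (nat_lit 5) (nat_lit 186) (nat_lit 5) (nat_lit 312) (nat_lit 299) (nat_lit 169)) (XT.lf (nat_lit 76) (nat_lit 870823827) (nat_lit 0) (nat_lit 1497584875) (nat_lit 1216) (nat_lit 13951261217) (nat_lit 171) (nat_lit 5) (nat_lit 170) (nat_lit 5) (nat_lit 186) (nat_lit 5) (nat_lit 313) (nat_lit 299) (nat_lit 168)))) (XT.nd (nat_lit 78) (nat_lit 0) (nat_lit 0) (XT.lf (nat_lit 0) (nat_lit 3537901027) (nat_lit 1140) (nat_lit 8020414533) (nat_lit 1216) (nat_lit 5021846558) (nat_lit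 171) (nat_lit 5) (nat_lit 186) (nat_lit 5) (nat_lit 187) (nat_lit 5) (nat_lit 314) (nat_lit 299) (nat_lit 167)) (XT.nd (nat_lit 78) (nat_lit 0) (nat_lit 76) (XT.lf (nat_lit 0) (nat_lit 4747778931) (nat_lit 1140) (nat_lit 391714857) (nat_lit 1216) (nat_lit 11708832385) (nat_lit 171) (nat_lit 5) (nat_lit 186) (nat_lit 5) (nat_lit 187) (nat_lit 5) (nat_lit 315) (nat_lit 299) (nat_lit 166)) (XT.lf (nat_lit 0) (nat_lit 6072713831) (nat_lit 1140) (nat_lit 9530774295) (nat_lit 76) (nat_lit 1518699851) (nat_lit 172) (nat_lit 5) (nat_lit 187) (nat_lit 5) (nat_lit 173) (nat_lit 5) (nat_lit 316) (nat_lit 299) (nat_lit 165)))))) (XT.nd (nat_lit 468) (nat_lit 1596) (nat_lit 0) (XT.nd (nat_lit 234) (nat_lit 1140) (nat_lit 0) (XT.nd (nat_lit 78) (nat_lit 1140) (nat_lit 0) (XT.lf (nat_lit 0) (nat_lit 7483241321) (nat_lit 1140) (nat_lit 1640765903) (nat_lit 76) (nat_lit 8278898265) (nat_lit 172) (nat_lit 5) (nat_lit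 187) (nat_lit 5) (nat_lit 173) (nat_lit 5) (nat_lit 317) (nat_lit 299) (nat_lit 164)) (XT.nd (nat_lit 78) (nat_lit 0) (nat_lit 0) (XT.lf (nat_lit 0) (nat_lit 6607342249) (nat_lit 1140) (nat_lit 2383483142) (nat_lit 1216) (nat_lit 8699591660) (nat_lit 157) (nat_lit 5) (nat_lit 172) (nat_lit 5) (nat_lit 173) (nat_lit 5) (nat_lit 318) (nat_lit 299) (nat_lit 163)) (XT.lf (nat_lit 0) (nat_lit 10595617530) (nat_lit 1216) (nat_lit 2901262108) (nat_lit 76) (nat_lit 4488129225) (nat_lit 157) (nat_lit 5) (nat_lit 173) (nat_lit 5) (nat_lit 158) (nat_lit 5) (nat_lit 319) (nat_lit 299) (nat_lit 162)))) (XT.nd (nat_lit 78) (nat_lit 608) (nat_lit 0) (XT.lf (nat_lit 0) (nat_lit 5604248169) (nat_lit 532) (nat_lit 6713447042) (nat_lit 608) (nat_lit 5968682867) (nat_lit 150) (nat_lit 5) (nat_lit 157) (nat_lit 5) (nat_lit 158) (nat_lit 5) (nat_lit 320) (nat_lit 299) (nat_lit 161)) (XT.nd (nat_lit 78) (nat_lit 608)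 (nat_lit 0) (XT.lf (nat_lit 0) (nat_lit 14115500658) (nat_lit 608) (nat_lit 4182140093) (nat_lit 76) (nat_lit 298439151) (nat_lit 150) (nat_lit 5) (nat_lit 158) (nat_lit 5) (nat_lit 151) (nat_lit 5) (nat_lit 321) (nat_lit 299) (nat_lit 160)) (XT.lf (nat_lit 0) (nat_lit 4588432594) (nat_lit 608) (nat_lit 11481471031) (nat_lit 684) (nat_lit 2842102358) (nat_lit 142) (nat_lit 5) (nat_lit 150) (nat_lit 5) (nat_lit 151) (nat_lit 5) (nat_lit 322) (nat_lit 299) (nat_lit 159))))) (XT.nd (nat_lit 234) (nat_lit 988) (nat_lit 0) (XT.nd (nat_lit 78) (nat_lit 608) (nat_lit 0) (XT.lf (nat_lit 0) (nat_lit 13700441712) (nat_lit 608) (nat_lit 4416974398) (nat_lit 684) (nat_lit 1118972137) (nat_lit 142) (nat_lit 5) (nat_lit 150) (nat_lit 5) (nat_lit 151) (nat_lit 5) (nat_lit 323) (nat_lit 299) (nat_lit 158)) (XT.nd (nat_lit 78) (nat_lit 0) (nat_lit 0) (XT.lf (nat_lit 0) (nat_lit 697660671) (nat_lit 608) (nat_lit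 16026078942) (nat_lit 76) (nat_lit 2844947022) (nat_lit 134) (nat_lit 5) (nat_lit 142) (nat_lit 5) (nat_lit 135) (nat_lit 5) (nat_lit 324) (nat_lit 299) (nat_lit 157)) (XT.lf (nat_lit 0) (nat_lit 2639029007) (nat_lit 608) (nat_lit 6965165041) (nat_lit 76) (nat_lit 10303657398) (nat_lit 134) (nat_lit 5) (nat_lit 142) (nat_lit 5) (nat_lit 135) (nat_lit 5) (nat_lit 325) (nat_lit 299) (nat_lit 156)))) (XT.nd (nat_lit 78) (nat_lit 456) (nat_lit 0) (XT.lf (nat_lit 0) (nat_lit 2407246126) (nat_lit 532) (nat_lit 2247288172) (nat_lit 608) (nat_lit 15602191327) (nat_lit 127) (nat_lit 5) (nat_lit 134) (nat_lit 5) (nat_lit 135) (nat_lit 5) (nat_lit 326) (nat_lit 299) (nat_lit 155)) (XT.nd (nat_lit 78) (nat_lit 456) (nat_lit 0) (XT.lf (nat_lit 0) (nat_lit 6845670185) (nat_lit 608) (nat_lit 8469737422) (nat_lit 76) (nat_lit 5297214436) (nat_lit 127) (nat_lit 5) (nat_lit 135) (nat_lit 5) (nat_lit 128) (nat_lit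 5) (nat_lit 327) (nat_lit 299) (nat_lit 154)) (XT.lf (nat_lit 0) (nat_lit 1185032556) (nat_lit 456) (nat_lit 7944252335) (nat_lit 532) (nat_lit 11849118774) (nat_lit 121) (nat_lit 5) (nat_lit 127) (nat_lit 5) (nat_lit 128) (nat_lit 5) (nat_lit 328) (nat_lit 299) (nat_lit 153))))))))
noncomputable def xc203 : XT := (XT.nd (nat_lit 1872) (nat_lit 2204) (nat_lit 0) (XT.nd (nat_lit 936) (nat_lit 2052) (nat_lit 0) (XT.nd (nat_lit 468) (nat_lit 1216) (nat_lit 0) (XT.nd (nat_lit 234) (nat_lit 456) (nat_lit 0) (XT.nd (nat_lit 78) (nat_lit 456) (nat_lit 0) (XT.lf (nat_lit 0) (nat_lit 11295899675) (nat_lit 456) (nat_lit 264271195) (nat_lit 532) (nat_lit 9792635325) (nat_lit 121) (nat_lit 5) (nat_lit 127) (nat_lit 5) (nat_lit 128) (nat_lit 5) (nat_lit 329) (nat_lit 299) (nat_lit 152)) (XT.nd (nat_lit 78) (nat_lit 456) (nat_lit 0) (XT.lf (nat_lit 0) (nat_lit 14130910882) (nat_lit 532) (nat_lit 109008916)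 (nat_lit 76) (nat_lit 7496523220) (nat_lit 121) (nat_lit 5) (nat_lit 128) (nat_lit 5) (nat_lit 122) (nat_lit 5) (nat_lit 330) (nat_lit 299) (nat_lit 151)) (XT.lf (nat_lit 0) (nat_lit 10329318023) (nat_lit 456) (nat_lit 6544983120) (nat_lit 532) (nat_lit 5254431714) (nat_lit 115) (nat_lit 5) (nat_lit 121) (nat_lit 5) (nat_lit 122) (nat_lit 5) (nat_lit 331) (nat_lit 299) (nat_lit 150)))) (XT.nd (nat_lit 78) (nat_lit 456) (nat_lit 0) (XT.lf (nat_lit 0) (nat_lit 19708111323) (nat_lit 532) (nat_lit 1470089385) (nat_lit 76) (nat_lit 1354356603) (nat_lit 115) (nat_lit 5) (nat_lit 122) (nat_lit 5) (nat_lit 116) (nat_lit 5) (nat_lit 332) (nat_lit 299) (nat_lit 149)) (XT.nd (nat_lit 78) (nat_lit 76) (nat_lit 0) (XT.lf (nat_lit 0) (nat_lit 9278500735) (nat_lit 380) (nat_lit 13496343456) (nat_lit 456) (nat_lit 169224245) (nat_lit 110) (nat_lit 5) (nat_lit 115) (nat_lit 5) (nat_lit 116) (nat_lit 5) (nat_lit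 333) (nat_lit 299) (nat_lit 148)) (XT.lf (nat_lit 0) (nat_lit 2524540873) (nat_lit 456) (nat_lit 3019536979) (nat_lit 76) (nat_lit 17822847271) (nat_lit 109) (nat_lit 5) (nat_lit 115) (nat_lit 5) (nat_lit 110) (nat_lit 5) (nat_lit 334) (nat_lit 299) (nat_lit 147))))) (XT.nd (nat_lit 234) (nat_lit 380) (nat_lit 0) (XT.nd (nat_lit 78) (nat_lit 380) (nat_lit 0) (XT.lf (nat_lit 0) (nat_lit 5393892818) (nat_lit 532) (nat_lit 15731047504) (nat_lit 76) (nat_lit 2674540081) (nat_lit 103) (nat_lit 5) (nat_lit 110) (nat_lit 5) (nat_lit 104) (nat_lit 5) (nat_lit 335) (nat_lit 299) (nat_lit 146)) (XT.nd (nat_lit 78) (nat_lit 380) (nat_lit 0) (XT.lf (nat_lit 0) (nat_lit 8429244315) (nat_lit 532) (nat_lit 4755188000) (nat_lit 76) (nat_lit 11058190624) (nat_lit 103) (nat_lit 5) (nat_lit 110) (nat_lit 5) (nat_lit 104) (nat_lit 5) (nat_lit 336) (nat_lit 299) (nat_lit 145)) (XT.lf (nat_lit 0) (nat_lit 6673535037)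 (nat_lit 380) (nat_lit 4940673201) (nat_lit 456) (nat_lit 13083102883) (nat_lit 98) (nat_lit 5) (nat_lit 103) (nat_lit 5) (nat_lit 104) (nat_lit 5) (nat_lit 337) (nat_lit 299) (nat_lit 144)))) (XT.nd (nat_lit 78) (nat_lit 380) (nat_lit 0) (XT.lf (nat_lit 0) (nat_lit 14971834529) (nat_lit 456) (nat_lit 6662941197) (nat_lit 76) (nat_lit 3528558515) (nat_lit 98) (nat_lit 5) (nat_lit 104) (nat_lit 5) (nat_lit 99) (nat_lit 5) (nat_lit 338) (nat_lit 299) (nat_lit 143)) (XT.nd (nat_lit 78) (nat_lit 0) (nat_lit 0) (XT.lf (nat_lit 0) (nat_lit 5082439811) (nat_lit 380) (nat_lit 13440174664) (nat_lit 456) (nat_lit 7117958308) (nat_lit 93) (nat_lit 5) (nat_lit 98) (nat_lit 5) (nat_lit 99) (nat_lit 5) (nat_lit 339) (nat_lit 299) (nat_lit 142)) (XT.lf (nat_lit 0) (nat_lit 17310292037) (nat_lit 380) (nat_lit 4931653756) (nat_lit 456) (nat_lit 3888329104) (nat_lit 93) (nat_lit 5) (nat_lit 98) (nat_lit 5) (nat_lit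 99) (nat_lit 5) (nat_lit 340) (nat_lit 299) (nat_lit 141)))))) (XT.nd (nat_lit 468) (nat_lit 988) (nat_lit 0) (XT.nd (nat_lit 234) (nat_lit 304) (nat_lit 0) (XT.nd (nat_lit 78) (nat_lit 456) (nat_lit 0) (XT.lf (nat_lit 0) (nat_lit 3291265361) (nat_lit 304) (nat_lit 22844953054) (nat_lit 380) (nat_lit 496555861) (nat_lit 89) (nat_lit 5) (nat_lit 93) (nat_lit 5) (nat_lit 94) (nat_lit 5) (nat_lit 341) (nat_lit 299) (nat_lit 140)) (XT.nd (nat_lit 78) (nat_lit 380) (nat_lit 0) (XT.lf (nat_lit 0) (nat_lit 3072181721) (nat_lit 380) (nat_lit 11286022291) (nat_lit 76) (nat_lit 12787276217) (nat_lit 88) (nat_lit 5) (nat_lit 93) (nat_lit 5) (nat_lit 89) (nat_lit 5) (nat_lit 342) (nat_lit 299) (nat_lit 139)) (XT.lf (nat_lit 0) (nat_lit 1142211067) (nat_lit 380) (nat_lit 5601835948) (nat_lit 456) (nat_lit 20929197926) (nat_lit 83) (nat_lit 5) (nat_lit 88) (nat_lit 5) (nat_lit 89) (nat_lit 5) (nat_lit 343)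 (nat_lit 299) (nat_lit 138)))) (XT.nd (nat_lit 78) (nat_lit 304) (nat_lit 0) (XT.lf (nat_lit 0) (nat_lit 10669148598) (nat_lit 456) (nat_lit 14079123553) (nat_lit 76) (nat_lit 3464284290) (nat_lit 83) (nat_lit 5) (nat_lit 89) (nat_lit 5) (nat_lit 84) (nat_lit 5) (nat_lit 344) (nat_lit 299) (nat_lit 137)) (XT.nd (nat_lit 78) (nat_lit 304) (nat_lit 0) (XT.lf (nat_lit 0) (nat_lit 14762745409) (nat_lit 456) (nat_lit 1315301158) (nat_lit 76) (nat_lit 12688484531) (nat_lit 83) (nat_lit 5) (nat_lit 89) (nat_lit 5) (nat_lit 84) (nat_lit 5) (nat_lit 345) (nat_lit 299) (nat_lit 136)) (XT.lf (nat_lit 0) (nat_lit 12060783773) (nat_lit 304) (nat_lit 7029717962) (nat_lit 380) (nat_lit 10243288610) (nat_lit 79) (nat_lit 5) (nat_lit 83) (nat_lit 5) (nat_lit 84) (nat_lit 5) (nat_lit 346) (nat_lit 299) (nat_lit 135))))) (XT.nd (nat_lit 234) (nat_lit 608) (nat_lit 0) (XT.nd (nat_lit 78) (nat_lit 380) (nat_lit 0)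 (XT.lf (nat_lit 0) (nat_lit 23578996255) (nat_lit 380) (nat_lit 4080770034) (nat_lit 76) (nat_lit 2257379642) (nat_lit 79) (nat_lit 5) (nat_lit 84) (nat_lit 5) (nat_lit 80) (nat_lit 5) (nat_lit 347) (nat_lit 299) (nat_lit 134)) (XT.nd (nat_lit 78) (nat_lit 76) (nat_lit 0) (XT.lf (nat_lit 0) (nat_lit 9619449538) (nat_lit 304) (nat_lit 18740375542) (nat_lit 380) (nat_lit 2153452281) (nat_lit 75) (nat_lit 5) (nat_lit 79) (nat_lit 5) (nat_lit 80) (nat_lit 5) (nat_lit 348) (nat_lit 299) (nat_lit 133)) (XT.lf (nat_lit 0) (nat_lit 2151949131) (nat_lit 380) (nat_lit 7338796725) (nat_lit 76) (nat_lit 21634812655) (nat_lit 74) (nat_lit 5) (nat_lit 79) (nat_lit 5) (nat_lit 75) (nat_lit 5) (nat_lit 349) (nat_lit 299) (nat_lit 132)))) (XT.nd (nat_lit 78) (nat_lit 304) (nat_lit 0) (XT.lf (nat_lit 0) (nat_lit 6604842690) (nat_lit 380) (nat_lit 25027868368) (nat_lit 76) (nat_lit 121014117) (nat_lit 70) (nat_lit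 5) (nat_lit 75) (nat_lit 5) (nat_lit 71) (nat_lit 5) (nat_lit 350) (nat_lit 299) (nat_lit 131)) (XT.nd (nat_lit 78) (nat_lit 304) (nat_lit 0) (XT.lf (nat_lit 0) (nat_lit 11355947180) (nat_lit 380) (nat_lit 11136140705) (nat_lit 76) (nat_lit 9903715171) (nat_lit 70) (nat_lit 5) (nat_lit 75) (nat_lit 5) (nat_lit 71) (nat_lit 5) (nat_lit 351) (nat_lit 299) (nat_lit 130)) (XT.lf (nat_lit 0) (nat_lit 3229717889) (nat_lit 304) (nat_lit 13046849977) (nat_lit 380) (nat_lit 16779770713) (nat_lit 66) (nat_lit 5) (nat_lit 70) (nat_lit 5) (nat_lit 71) (nat_lit 5) (nat_lit 352) (nat_lit 299) (nat_lit 129))))))) (XT.nd (nat_lit 936) (nat_lit 836) (nat_lit 0) (XT.nd (nat_lit 468) (nat_lit 760) (nat_lit 0) (XT.nd (nat_lit 234) (nat_lit 380) (nat_lit 0) (XT.nd (nat_lit 78) (nat_lit 228) (nat_lit 0) (XT.lf (nat_lit 0) (nat_lit 18249243218) (nat_lit 304) (nat_lit 3204018792) (nat_lit 380) (nat_lit 12280179168) (nat_lit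 66) (nat_lit 5) (nat_lit 70) (nat_lit 5) (nat_lit 71) (nat_lit 5) (nat_lit 353) (nat_lit 299) (nat_lit 128)) (XT.nd (nat_lit 78) (nat_lit 228) (nat_lit 0) (XT.lf (nat_lit 0) (nat_lit 26848015027) (nat_lit 380) (nat_lit 783689671) (nat_lit 76) (nat_lit 6797273936) (nat_lit 66) (nat_lit 5) (nat_lit 71) (nat_lit 5) (nat_lit 67) (nat_lit 5) (nat_lit 354) (nat_lit 299) (nat_lit 127)) (XT.lf (nat_lit 0) (nat_lit 14605750506) (nat_lit 228) (nat_lit 17967199256) (nat_lit 304) (nat_lit 2567386668) (nat_lit 63) (nat_lit 5) (nat_lit 66) (nat_lit 5) (nat_lit 67) (nat_lit 5) (nat_lit 355) (nat_lit 299) (nat_lit 126)))) (XT.nd (nat_lit 78) (nat_lit 304) (nat_lit 0) (XT.lf (nat_lit 0) (nat_lit 2550155465) (nat_lit 304) (nat_lit 5430294843) (nat_lit 76) (nat_lit 27891713181) (nat_lit 62) (nat_lit 5) (nat_lit 66) (nat_lit 5) (nat_lit 63) (nat_lit 5) (nat_lit 356) (nat_lit 299) (nat_lit 125)) (XT.nd (nat_lit 78)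 (nat_lit 0) (nat_lit 0) (XT.lf (nat_lit 0) (nat_lit 7888333553) (nat_lit 380) (nat_lit 26348304786) (nat_lit 76) (nat_lit 2384987099) (nat_lit 58) (nat_lit 5) (nat_lit 63) (nat_lit 5) (nat_lit 59) (nat_lit 5) (nat_lit 357) (nat_lit 299) (nat_lit 124)) (XT.lf (nat_lit 0) (nat_lit 13517435346) (nat_lit 380) (nat_lit 10917408747) (nat_lit 76) (nat_lit 12954807702) (nat_lit 58) (nat_lit 5) (nat_lit 63) (nat_lit 5) (nat_lit 59) (nat_lit 5) (nat_lit 358) (nat_lit 299) (nat_lit 123))))) (XT.nd (nat_lit 234) (nat_lit 532) (nat_lit 0) (XT.nd (nat_lit 78) (nat_lit 0) (nat_lit 0) (XT.lf (nat_lit 0) (nat_lit 5070220781) (nat_lit 228) (nat_lit 14290418496) (nat_lit 304) (nat_lit 18818726579) (nat_lit 55) (nat_lit 5) (nat_lit 58) (nat_lit 5) (nat_lit 59) (nat_lit 5) (nat_lit 359) (nat_lit 299) (nat_lit 122)) (XT.nd (nat_lit 78) (nat_lit 0) (nat_lit 0) (XT.lf (nat_lit 0) (nat_lit 21756194021) (nat_lit 228) (nat_lit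 3729734104) (nat_lit 304) (nat_lit 13503643226) (nat_lit 55) (nat_lit 5) (nat_lit 58) (nat_lit 5) (nat_lit 59) (nat_lit 5) (nat_lit 360) (nat_lit 299) (nat_lit 121)) (XT.lf (nat_lit 0) (nat_lit 31860314240) (nat_lit 304) (nat_lit 955067695) (nat_lit 76) (nat_lit 7006744487) (nat_lit 55) (nat_lit 5) (nat_lit 59) (nat_lit 5) (nat_lit 56) (nat_lit 5) (nat_lit 361) (nat_lit 299) (nat_lit 120)))) (XT.nd (nat_lit 78) (nat_lit 304) (nat_lit 0) (XT.lf (nat_lit 0) (nat_lit 16083636739) (nat_lit 228) (nat_lit 22530557029) (nat_lit 304) (nat_lit 2059819988) (nat_lit 52) (nat_lit 5) (nat_lit 55) (nat_lit 5) (nat_lit 56) (nat_lit 5) (nat_lit 362) (nat_lit 299) (nat_lit 119)) (XT.nd (nat_lit 78) (nat_lit 228) (nat_lit 0) (XT.lf (nat_lit 0) (nat_lit 3947283770) (nat_lit 304) (nat_lit 7941715348) (nat_lit 76) (nat_lit 29661108354) (nat_lit 51) (nat_lit 5) (nat_lit 55) (nat_lit 5) (nat_lit 52) (nat_lit 5) (nat_lit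 363) (nat_lit 299) (nat_lit 118)) (XT.lf (nat_lit 0) (nat_lit 9363983146) (nat_lit 228) (nat_lit 816066080) (nat_lit 304) (nat_lit 32269220646) (nat_lit 48) (nat_lit 5) (nat_lit 51) (nat_lit 5) (nat_lit 52) (nat_lit 5) (nat_lit 364) (nat_lit 299) (nat_lit 117)))))) (XT.nd (nat_lit 468) (nat_lit 380) (nat_lit 0) (XT.nd (nat_lit 234) (nat_lit 228) (nat_lit 0) (XT.nd (nat_lit 78) (nat_lit 228) (nat_lit 0) (XT.lf (nat_lit 0) (nat_lit 16779444086) (nat_lit 304) (nat_lit 16128722276) (nat_lit 76) (nat_lit 10461854472) (nat_lit 48) (nat_lit 5) (nat_lit 52) (nat_lit 5) (nat_lit 49) (nat_lit 5) (nat_lit 365) (nat_lit 299) (nat_lit 116)) (XT.nd (nat_lit 78) (nat_lit 0) (nat_lit 0) (XT.lf (nat_lit 0) (nat_lit 1350156652) (nat_lit 228) (nat_lit 22244681942) (nat_lit 304) (nat_lit 20723018182) (nat_lit 45) (nat_lit 5) (nat_lit 48) (nat_lit 5) (nat_lit 49) (nat_lit 5) (nat_lit 366) (nat_lit 299) (nat_lit 115))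 (XT.lf (nat_lit 0) (nat_lit 19679421507) (nat_lit 228) (nat_lit 11095145621) (nat_lit 304) (nat_lit 14514767406) (nat_lit 45) (nat_lit 5) (nat_lit 48) (nat_lit 5) (nat_lit 49) (nat_lit 5) (nat_lit 367) (nat_lit 299) (nat_lit 114)))) (XT.nd (nat_lit 78) (nat_lit 228) (nat_lit 0) (XT.lf (nat_lit 0) (nat_lit 38170501632) (nat_lit 304) (nat_lit 7739674882) (nat_lit 76) (nat_lit 379758505) (nat_lit 45) (nat_lit 5) (nat_lit 49) (nat_lit 5) (nat_lit 46) (nat_lit 5) (nat_lit 368) (nat_lit 299) (nat_lit 113)) (XT.nd (nat_lit 78) (nat_lit 76) (nat_lit 0) (XT.lf (nat_lit 0) (nat_lit 10762418958) (nat_lit 152) (nat_lit 35236364251) (nat_lit 228) (nat_lit 1315458973) (nat_lit 43) (nat_lit 5) (nat_lit 45) (nat_lit 5) (nat_lit 46) (nat_lit 5) (nat_lit 369) (nat_lit 299) (nat_lit 112)) (XT.lf (nat_lit 0) (nat_lit 5657651761) (nat_lit 228) (nat_lit 18448625134) (nat_lit 76) (nat_lit 24259079585) (nat_lit 42) (nat_lit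 5) (nat_lit 45) (nat_lit 5) (nat_lit 43) (nat_lit 5) (nat_lit 370) (nat_lit 299) (nat_lit 111))))) (XT.nd (nat_lit 234) (nat_lit 152) (nat_lit 0) (XT.nd (nat_lit 78) (nat_lit 0) (nat_lit 0) (XT.lf (nat_lit 0) (nat_lit 183935055) (nat_lit 228) (nat_lit 12628603356) (nat_lit 304) (nat_lit 36635106907) (nat_lit 39) (nat_lit 5) (nat_lit 42) (nat_lit 5) (nat_lit 43) (nat_lit 5) (nat_lit 371) (nat_lit 299) (nat_lit 110)) (XT.nd (nat_lit 78) (nat_lit 0) (nat_lit 0) (XT.lf (nat_lit 0) (nat_lit 19749394191) (nat_lit 228) (nat_lit 616265396) (nat_lit 304) (nat_lit 30191238028) (nat_lit 39) (nat_lit 5) (nat_lit 42) (nat_lit 5) (nat_lit 43) (nat_lit 5) (nat_lit 372) (nat_lit 299) (nat_lit 109)) (XT.lf (nat_lit 0) (nat_lit 28255741887) (nat_lit 304) (nat_lit 11914819853) (nat_lit 76) (nat_lit 11525557074) (nat_lit 39) (nat_lit 5) (nat_lit 43) (nat_lit 5) (nat_lit 40) (nat_lit 5) (nat_lit 373) (nat_lit 299)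 (nat_lit 108)))) (XT.nd (nat_lit 78) (nat_lit 0) (nat_lit 0) (XT.lf (nat_lit 0) (nat_lit 7684416182) (nat_lit 152) (nat_lit 28775513760) (nat_lit 228) (nat_lit 16407266902) (nat_lit 37) (nat_lit 5) (nat_lit 39) (nat_lit 5) (nat_lit 40) (nat_lit 5) (nat_lit 374) (nat_lit 299) (nat_lit 107)) (XT.nd (nat_lit 78) (nat_lit 0) (nat_lit 0) (XT.lf (nat_lit 0) (nat_lit 28111834354) (nat_lit 152) (nat_lit 16916195863) (nat_lit 228) (nat_lit 9041845622) (nat_lit 37) (nat_lit 5) (nat_lit 39) (nat_lit 5) (nat_lit 40) (nat_lit 5) (nat_lit 375) (nat_lit 299) (nat_lit 106)) (XT.lf (nat_lit 0) (nat_lit 49148155584) (nat_lit 152) (nat_lit 4702561858) (nat_lit 228) (nat_lit 1457993604) (nat_lit 37) (nat_lit 5) (nat_lit 39) (nat_lit 5) (nat_lit 40) (nat_lit 5) (nat_lit 376) (nat_lit 299) (nat_lit 105))))))))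
noncomputable def xc204 : XT := (XT.nd (nat_lit 35724) (nat_lit 0) (nat_lit 5776) (XT.nd (nat_lit 34788) (nat_lit 0) (nat_lit 10868) (XT.nd (nat_lit 390) (nat_lit 380) (nat_lit 0) (XT.nd (nat_lit 156) (nat_lit 152) (nat_lit 0) (XT.nd (nat_lit 78) (nat_lit 0) (nat_lit 0) (XT.lf (nat_lit 0) (nat_lit 6443557238) (nat_lit 228) (nat_lit 42208619023) (nat_lit 76) (nat_lit 7924280094) (nat_lit 34) (nat_lit 5) (nat_lit 37) (nat_lit 5) (nat_lit 35) (nat_lit 5) (nat_lit 377) (nat_lit 299) (nat_lit 104)) (XT.lf (nat_lit 0) (nat_lit 14659845329) (nat_lit 228) (nat_lit 22307488971) (nat_lit 76) (nat_lit 20911258783) (nat_lit 34) (nat_lit 5) (nat_lit 37) (nat_lit 5) (nat_lit 35) (nat_lit 5) (nat_lit 378) (nat_lit 299) (nat_lit 103))) (XT.nd (nat_lit 78) (nat_lit 152) (nat_lit 0) (XT.lf (nat_lit 0) (nat_lit 23120301156) (nat_lit 228) (nat_lit 1813089056) (nat_lit 76) (nat_lit 34286475247) (nat_lit 34) (nat_lit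 5) (nat_lit 37) (nat_lit 5) (nat_lit 35) (nat_lit 5) (nat_lit 379) (nat_lit 299) (nat_lit 102)) (XT.nd (nat_lit 78) (nat_lit 0) (nat_lit 0) (XT.lf (nat_lit 0) (nat_lit 19676446799) (nat_lit 152) (nat_lit 12345012594) (nat_lit 228) (nat_lit 28574311813) (nat_lit 32) (nat_lit 5) (nat_lit 34) (nat_lit 5) (nat_lit 35) (nat_lit 5) (nat_lit 380) (nat_lit 299) (nat_lit 101)) (XT.lf (nat_lit 0) (nat_lit 41211876004) (nat_lit 228) (nat_lit 20174394090) (nat_lit 76) (nat_lit 626019131) (nat_lit 32) (nat_lit 5) (nat_lit 35) (nat_lit 5) (nat_lit 33) (nat_lit 5) (nat_lit 381) (nat_lit 299) (nat_lit 100))))) (XT.nd (nat_lit 234) (nat_lit 152) (nat_lit 0) (XT.nd (nat_lit 78) (nat_lit 76) (nat_lit 0) (XT.lf (nat_lit 0) (nat_lit 1088326823) (nat_lit 152) (nat_lit 49720197041) (nat_lit 228) (nat_lit 12658865115) (nat_lit 30) (nat_lit 5) (nat_lit 32) (nat_lit 5) (nat_lit 33) (nat_lit 5) (nat_lit 382) (nat_lit 299)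 (nat_lit 99)) (XT.nd (nat_lit 78) (nat_lit 76) (nat_lit 0) (XT.lf (nat_lit 0) (nat_lit 23398952992) (nat_lit 152) (nat_lit 37495698510) (nat_lit 228) (nat_lit 4065444517) (nat_lit 30) (nat_lit 5) (nat_lit 32) (nat_lit 5) (nat_lit 33) (nat_lit 5) (nat_lit 383) (nat_lit 299) (nat_lit 98)) (XT.lf (nat_lit 0) (nat_lit 4690289601) (nat_lit 228) (nat_lit 20168162394) (nat_lit 76) (nat_lit 41637816807) (nat_lit 29) (nat_lit 5) (nat_lit 32) (nat_lit 5) (nat_lit 30) (nat_lit 5) (nat_lit 384) (nat_lit 299) (nat_lit 97)))) (XT.nd (nat_lit 34008) (nat_lit 0) (nat_lit 11628) (XT.lf (nat_lit 0) (nat_lit 1859265597) (nat_lit 152) (nat_lit 11783551022) (nat_lit 228) (nat_lit 54434029182) (nat_lit 27) (nat_lit 5) (nat_lit 29) (nat_lit 5) (nat_lit 30) (nat_lit 5) (nat_lit 385) (nat_lit 299) (nat_lit 96)) (XT.nd (nat_lit 78) (nat_lit 0) (nat_lit 0) (XT.lf (nat_lit 0) (nat_lit 3752339136) (nat_lit 1140) (nat_lit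 1529362804) (nat_lit 1140) (nat_lit 1529362804) (nat_lit 180) (nat_lit 3) (nat_lit 195) (nat_lit 3) (nat_lit 195) (nat_lit 5) (nat_lit 300) (nat_lit 300) (nat_lit 180)) (XT.lf (nat_lit 76) (nat_lit 2941519733) (nat_lit 0) (nat_lit 5039878328) (nat_lit 1140) (nat_lit 5833532475) (nat_lit 181) (nat_lit 5) (nat_lit 180) (nat_lit 3) (nat_lit 195) (nat_lit 5) (nat_lit 301) (nat_lit 300) (nat_lit 179)))))) (XT.nd (nat_lit 468) (nat_lit 836) (nat_lit 0) (XT.nd (nat_lit 234) (nat_lit 0) (nat_lit 76) (XT.nd (nat_lit 78) (nat_lit 0) (nat_lit 0) (XT.lf (nat_lit 0) (nat_lit 8496740189) (nat_lit 1064) (nat_lit 4842039878) (nat_lit 1140) (nat_lit 674029591) (nat_lit 181) (nat_lit 5) (nat_lit 195) (nat_lit 5) (nat_lit 196) (nat_lit 5) (nat_lit 302) (nat_lit 300) (nat_lit 178)) (XT.nd (nat_lit 78) (nat_lit 0) (nat_lit 0) (XT.lf (nat_lit 76) (nat_lit 1339346307) (nat_lit 0) (nat_lit 7738238462) (nat_lit 1140)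 (nat_lit 5137562095) (nat_lit 182) (nat_lit 5) (nat_lit 181) (nat_lit 5) (nat_lit 196) (nat_lit 5) (nat_lit 303) (nat_lit 300) (nat_lit 177)) (XT.lf (nat_lit 76) (nat_lit 7798339808) (nat_lit 0) (nat_lit 1913980451) (nat_lit 1140) (nat_lit 4710162269) (nat_lit 182) (nat_lit 5) (nat_lit 181) (nat_lit 5) (nat_lit 196) (nat_lit 5) (nat_lit 304) (nat_lit 300) (nat_lit 176)))) (XT.nd (nat_lit 78) (nat_lit 0) (nat_lit 0) (XT.lf (nat_lit 0) (nat_lit 10393347693) (nat_lit 1064) (nat_lit 231521018) (nat_lit 1140) (nat_lit 4010373713) (nat_lit 182) (nat_lit 5) (nat_lit 196) (nat_lit 5) (nat_lit 197) (nat_lit 5) (nat_lit 305) (nat_lit 300) (nat_lit 175)) (XT.nd (nat_lit 78) (nat_lit 0) (nat_lit 76) (XT.lf (nat_lit 76) (nat_lit 6452740089) (nat_lit 0) (nat_lit 4711376183) (nat_lit 1140) (nat_lit 3688210561) (nat_lit 183) (nat_lit 5) (nat_lit 182) (nat_lit 5) (nat_lit 197) (nat_lit 5) (nat_lit 306) (nat_lit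 300) (nat_lit 174)) (XT.lf (nat_lit 0) (nat_lit 11962276221) (nat_lit 1064) (nat_lit 1754302280) (nat_lit 1140) (nat_lit 1359237640) (nat_lit 183) (nat_lit 5) (nat_lit 197) (nat_lit 5) (nat_lit 198) (nat_lit 5) (nat_lit 307) (nat_lit 300) (nat_lit 173))))) (XT.nd (nat_lit 234) (nat_lit 988) (nat_lit 0) (XT.nd (nat_lit 78) (nat_lit 0) (nat_lit 0) (XT.lf (nat_lit 76) (nat_lit 5136706079) (nat_lit 0) (nat_lit 7732676478) (nat_lit 1140) (nat_lit 2434097344) (nat_lit 184) (nat_lit 5) (nat_lit 183) (nat_lit 5) (nat_lit 198) (nat_lit 5) (nat_lit 308) (nat_lit 300) (nat_lit 172)) (XT.nd (nat_lit 78) (nat_lit 0) (nat_lit 76) (XT.lf (nat_lit 76) (nat_lit 12263253994) (nat_lit 0) (nat_lit 1547392546) (nat_lit 1140) (nat_lit 1727137942) (nat_lit 184) (nat_lit 5) (nat_lit 183) (nat_lit 5) (nat_lit 198) (nat_lit 5) (nat_lit 309) (nat_lit 300) (nat_lit 171)) (XT.lf (nat_lit 76) (nat_lit 3845850575) (nat_lit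 0) (nat_lit 11007209404) (nat_lit 1140) (nat_lit 923889558) (nat_lit 185) (nat_lit 5) (nat_lit 184) (nat_lit 5) (nat_lit 199) (nat_lit 5) (nat_lit 310) (nat_lit 300) (nat_lit 170)))) (XT.nd (nat_lit 78) (nat_lit 1064) (nat_lit 0) (XT.lf (nat_lit 76) (nat_lit 11224103757) (nat_lit 0) (nat_lit 4740689839) (nat_lit 1140) (nat_lit 57372653) (nat_lit 185) (nat_lit 5) (nat_lit 184) (nat_lit 5) (nat_lit 199) (nat_lit 5) (nat_lit 311) (nat_lit 300) (nat_lit 169)) (XT.nd (nat_lit 78) (nat_lit 0) (nat_lit 0) (XT.lf (nat_lit 0) (nat_lit 850502118) (nat_lit 1140) (nat_lit 13706778199) (nat_lit 1216) (nat_lit 1716285637) (nat_lit 170) (nat_lit 5) (nat_lit 185) (nat_lit 5) (nat_lit 186) (nat_lit 5) (nat_lit 312) (nat_lit 300) (nat_lit 168)) (XT.lf (nat_lit 0) (nat_lit 1870568383) (nat_lit 1140) (nat_lit 6335608344) (nat_lit 1216) (nat_lit 8323747231) (nat_lit 170) (nat_lit 5) (nat_lit 185) (nat_lit 5) (nat_lit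 186) (nat_lit 5) (nat_lit 313) (nat_lit 300) (nat_lit 167))))))) (XT.nd (nat_lit 936) (nat_lit 2356) (nat_lit 0) (XT.nd (nat_lit 468) (nat_lit 1748) (nat_lit 0) (XT.nd (nat_lit 234) (nat_lit 988) (nat_lit 0) (XT.nd (nat_lit 78) (nat_lit 0) (nat_lit 76) (XT.lf (nat_lit 76) (nat_lit 1274272911) (nat_lit 0) (nat_lit 1649737208) (nat_lit 1216) (nat_lit 13869895493) (nat_lit 171) (nat_lit 5) (nat_lit 170) (nat_lit 5) (nat_lit 186) (nat_lit 5) (nat_lit 314) (nat_lit 300) (nat_lit 166)) (XT.nd (nat_lit 78) (nat_lit 0) (nat_lit 0) (XT.lf (nat_lit 0) (nat_lit 4113473442) (nat_lit 1140) (nat_lit 7878784752) (nat_lit 1216) (nat_lit 5070431619) (nat_lit 171) (nat_lit 5) (nat_lit 186) (nat_lit 5) (nat_lit 187) (nat_lit 5) (nat_lit 315) (nat_lit 300) (nat_lit 165)) (XT.lf (nat_lit 0) (nat_lit 5345974808) (nat_lit 1140) (nat_lit 32357354) (nat_lit 1216) (nat_lit 11960999944) (nat_lit 171) (nat_lit 5) (nat_lit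 186) (nat_lit 5) (nat_lit 187) (nat_lit 5) (nat_lit 316) (nat_lit 300) (nat_lit 164)))) (XT.nd (nat_lit 78) (nat_lit 1140) (nat_lit 0) (XT.lf (nat_lit 0) (nat_lit 6700160404) (nat_lit 1140) (nat_lit 9434342704) (nat_lit 76) (nat_lit 1487244032) (nat_lit 172) (nat_lit 5) (nat_lit 187) (nat_lit 5) (nat_lit 173) (nat_lit 5) (nat_lit 317) (nat_lit 300) (nat_lit 163)) (XT.nd (nat_lit 78) (nat_lit 1140) (nat_lit 0) (XT.lf (nat_lit 0) (nat_lit 8140034831) (nat_lit 1140) (nat_lit 1318770608) (nat_lit 76) (nat_lit 8452491606) (nat_lit 172) (nat_lit 5) (nat_lit 187) (nat_lit 5) (nat_lit 173) (nat_lit 5) (nat_lit 318) (nat_lit 300) (nat_lit 162)) (XT.lf (nat_lit 0) (nat_lit 7173141393) (nat_lit 1140) (nat_lit 2510647269) (nat_lit 1216) (nat_lit 8523938192) (nat_lit 157) (nat_lit 5) (nat_lit 172) (nat_lit 5) (nat_lit 173) (nat_lit 5) (nat_lit 319) (nat_lit 300) (nat_lit 161))))) (XT.nd (nat_lit 234) (nat_lit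 1216) (nat_lit 0) (XT.nd (nat_lit 78) (nat_lit 532) (nat_lit 0) (XT.lf (nat_lit 0) (nat_lit 11323877780) (nat_lit 1216) (nat_lit 2617895486) (nat_lit 76) (nat_lit 4569789108) (nat_lit 157) (nat_lit 5) (nat_lit 173) (nat_lit 5) (nat_lit 158) (nat_lit 5) (nat_lit 320) (nat_lit 300) (nat_lit 160)) (XT.nd (nat_lit 78) (nat_lit 0) (nat_lit 0) (XT.lf (nat_lit 0) (nat_lit 6139148683) (nat_lit 532) (nat_lit 6950041598) (nat_lit 608) (nat_lit 5733055161) (nat_lit 150) (nat_lit 5) (nat_lit 157) (nat_lit 5) (nat_lit 158) (nat_lit 5) (nat_lit 321) (nat_lit 300) (nat_lit 159)) (XT.lf (nat_lit 0) (nat_lit 14928893770) (nat_lit 608) (nat_lit 3938832136) (nat_lit 76) (nat_lit 273892870) (nat_lit 150) (nat_lit 5) (nat_lit 158) (nat_lit 5) (nat_lit 151) (nat_lit 5) (nat_lit 322) (nat_lit 300) (nat_lit 158)))) (XT.nd (nat_lit 78) (nat_lit 608) (nat_lit 0) (XT.lf (nat_lit 0) (nat_lit 5091242319) (nat_lit 608) (nat_lit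 11842839488) (nat_lit 684) (nat_lit 2533195048) (nat_lit 142) (nat_lit 5) (nat_lit 150) (nat_lit 5) (nat_lit 151) (nat_lit 5) (nat_lit 323) (nat_lit 300) (nat_lit 157)) (XT.nd (nat_lit 78) (nat_lit 608) (nat_lit 0) (XT.lf (nat_lit 0) (nat_lit 14465976077) (nat_lit 608) (nat_lit 4565915015) (nat_lit 684) (nat_lit 769851611) (nat_lit 142) (nat_lit 5) (nat_lit 150) (nat_lit 5) (nat_lit 151) (nat_lit 5) (nat_lit 324) (nat_lit 300) (nat_lit 156)) (XT.lf (nat_lit 0) (nat_lit 1086251080) (nat_lit 608) (nat_lit 16136146527) (nat_lit 76) (nat_lit 2921746130) (nat_lit 134) (nat_lit 5) (nat_lit 142) (nat_lit 5) (nat_lit 135) (nat_lit 5) (nat_lit 325) (nat_lit 300) (nat_lit 155)))))) (XT.nd (nat_lit 468) (nat_lit 912) (nat_lit 0) (XT.nd (nat_lit 234) (nat_lit 912) (nat_lit 0) (XT.nd (nat_lit 78) (nat_lit 532) (nat_lit 0) (XT.lf (nat_lit 0) (nat_lit 3075151905) (nat_lit 608) (nat_lit 6814202727) (nat_lit 76)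 (nat_lit 10604466826) (nat_lit 134) (nat_lit 5) (nat_lit 142) (nat_lit 5) (nat_lit 135) (nat_lit 5) (nat_lit 326) (nat_lit 300) (nat_lit 154)) (XT.nd (nat_lit 78) (nat_lit 0) (nat_lit 0) (XT.lf (nat_lit 0) (nat_lit 2835852175) (nat_lit 532) (nat_lit 2308299346) (nat_lit 608) (nat_lit 15709235691) (nat_lit 127) (nat_lit 5) (nat_lit 134) (nat_lit 5) (nat_lit 135) (nat_lit 5) (nat_lit 327) (nat_lit 300) (nat_lit 153)) (XT.lf (nat_lit 0) (nat_lit 7390887656) (nat_lit 608) (nat_lit 8367162306) (nat_lit 76) (nat_lit 5462230324) (nat_lit 127) (nat_lit 5) (nat_lit 135) (nat_lit 5) (nat_lit 128) (nat_lit 5) (nat_lit 328) (nat_lit 300) (nat_lit 152)))) (XT.nd (nat_lit 78) (nat_lit 456) (nat_lit 0) (XT.lf (nat_lit 0) (nat_lit 1573754034) (nat_lit 456) (nat_lit 8162753193) (nat_lit 532) (nat_lit 11860738529) (nat_lit 121) (nat_lit 5) (nat_lit 127) (nat_lit 5) (nat_lit 128) (nat_lit 5) (nat_lit 329) (nat_lit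 300) (nat_lit 151)) (XT.nd (nat_lit 78) (nat_lit 456) (nat_lit 0) (XT.lf (nat_lit 0) (nat_lit 11977660646) (nat_lit 456) (nat_lit 252950096) (nat_lit 532) (nat_lit 9752575735) (nat_lit 121) (nat_lit 5) (nat_lit 127) (nat_lit 5) (nat_lit 128) (nat_lit 5) (nat_lit 330) (nat_lit 300) (nat_lit 150)) (XT.lf (nat_lit 0) (nat_lit 234929256) (nat_lit 456) (nat_lit 14636555373) (nat_lit 532) (nat_lit 7507071840) (nat_lit 115) (nat_lit 5) (nat_lit 121) (nat_lit 5) (nat_lit 122) (nat_lit 5) (nat_lit 331) (nat_lit 300) (nat_lit 149))))) (XT.nd (nat_lit 234) (nat_lit 456) (nat_lit 0) (XT.nd (nat_lit 78) (nat_lit 456) (nat_lit 0) (XT.lf (nat_lit 0) (nat_lit 10978462629) (nat_lit 456) (nat_lit 6710559974) (nat_lit 532) (nat_lit 5093851014) (nat_lit 115) (nat_lit 5) (nat_lit 121) (nat_lit 5) (nat_lit 122) (nat_lit 5) (nat_lit 332) (nat_lit 300) (nat_lit 148)) (XT.nd (nat_lit 78) (nat_lit 456) (nat_lit 0) (XT.lf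 (nat_lit 0) (nat_lit 20599149061) (nat_lit 532) (nat_lit 1175657614) (nat_lit 76) (nat_lit 1424280655) (nat_lit 115) (nat_lit 5) (nat_lit 122) (nat_lit 5) (nat_lit 116) (nat_lit 5) (nat_lit 333) (nat_lit 300) (nat_lit 147)) (XT.lf (nat_lit 0) (nat_lit 126729894) (nat_lit 456) (nat_lit 13732293473) (nat_lit 76) (nat_lit 9764061627) (nat_lit 109) (nat_lit 5) (nat_lit 115) (nat_lit 5) (nat_lit 110) (nat_lit 5) (nat_lit 334) (nat_lit 300) (nat_lit 146)))) (XT.nd (nat_lit 78) (nat_lit 456) (nat_lit 0) (XT.lf (nat_lit 0) (nat_lit 2889237903) (nat_lit 456) (nat_lit 2778505834) (nat_lit 76) (nat_lit 18391105878) (nat_lit 109) (nat_lit 5) (nat_lit 115) (nat_lit 5) (nat_lit 110) (nat_lit 5) (nat_lit 335) (nat_lit 300) (nat_lit 145)) (XT.nd (nat_lit 78) (nat_lit 0) (nat_lit 0) (XT.lf (nat_lit 0) (nat_lit 5839839877) (nat_lit 532) (nat_lit 15866128779) (nat_lit 76) (nat_lit 2798569884) (nat_lit 103) (nat_lit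 5) (nat_lit 110) (nat_lit 5) (nat_lit 104) (nat_lit 5) (nat_lit 336) (nat_lit 300) (nat_lit 144)) (XT.lf (nat_lit 0) (nat_lit 8957976279) (nat_lit 532) (nat_lit 4570804659) (nat_lit 76) (nat_lit 11432454402) (nat_lit 103) (nat_lit 5) (nat_lit 110) (nat_lit 5) (nat_lit 104) (nat_lit 5) (nat_lit 337) (nat_lit 300) (nat_lit 143))))))))
noncomputable def xc205 : XT := (XT.nd (nat_lit 1872) (nat_lit 1976) (nat_lit 0) (XT.nd (nat_lit 936) (nat_lit 1520) (nat_lit 0) (XT.nd (nat_lit 468) (nat_lit 988) (nat_lit 0) (XT.nd (nat_lit 234) (nat_lit 380) (nat_lit 0) (XT.nd (nat_lit 78) (nat_lit 380) (nat_lit 0) (XT.lf (nat_lit 0) (nat_lit 7197573804) (nat_lit 380) (nat_lit 5035993593) (nat_lit 456) (nat_lit 13196155800) (nat_lit 98) (nat_lit 5) (nat_lit 103) (nat_lit 5) (nat_lit 104) (nat_lit 5) (nat_lit 338) (nat_lit 300) (nat_lit 142)) (XT.nd (nat_lit 78) (nat_lit 380) (nat_lit 0) (XT.lf (nat_lit 0) (nat_lit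 15684524922) (nat_lit 456) (nat_lit 6540662959) (nat_lit 76) (nat_lit 3684772104) (nat_lit 98) (nat_lit 5) (nat_lit 104) (nat_lit 5) (nat_lit 99) (nat_lit 5) (nat_lit 339) (nat_lit 300) (nat_lit 141)) (XT.lf (nat_lit 0) (nat_lit 5553920985) (nat_lit 380) (nat_lit 13783297994) (nat_lit 456) (nat_lit 7064445707) (nat_lit 93) (nat_lit 5) (nat_lit 98) (nat_lit 5) (nat_lit 99) (nat_lit 5) (nat_lit 340) (nat_lit 300) (nat_lit 140)))) (XT.nd (nat_lit 78) (nat_lit 380) (nat_lit 0) (XT.lf (nat_lit 0) (nat_lit 18139317282) (nat_lit 380) (nat_lit 5021271418) (nat_lit 456) (nat_lit 3745705822) (nat_lit 93) (nat_lit 5) (nat_lit 98) (nat_lit 5) (nat_lit 99) (nat_lit 5) (nat_lit 341) (nat_lit 300) (nat_lit 139)) (XT.nd (nat_lit 78) (nat_lit 76) (nat_lit 0) (XT.lf (nat_lit 0) (nat_lit 3703939427) (nat_lit 304) (nat_lit 23463990331) (nat_lit 380) (nat_lit 256062027) (nat_lit 89) (nat_lit 5) (nat_lit 93) (nat_lit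 5) (nat_lit 94) (nat_lit 5) (nat_lit 342) (nat_lit 300) (nat_lit 138)) (XT.lf (nat_lit 0) (nat_lit 3407460689) (nat_lit 380) (nat_lit 11314654557) (nat_lit 76) (nat_lit 13230118353) (nat_lit 88) (nat_lit 5) (nat_lit 93) (nat_lit 5) (nat_lit 89) (nat_lit 5) (nat_lit 343) (nat_lit 300) (nat_lit 137))))) (XT.nd (nat_lit 234) (nat_lit 608) (nat_lit 0) (XT.nd (nat_lit 78) (nat_lit 0) (nat_lit 0) (XT.lf (nat_lit 0) (nat_lit 1483387093) (nat_lit 380) (nat_lit 5701964077) (nat_lit 456) (nat_lit 21310613257) (nat_lit 83) (nat_lit 5) (nat_lit 88) (nat_lit 5) (nat_lit 89) (nat_lit 5) (nat_lit 344) (nat_lit 300) (nat_lit 136)) (XT.nd (nat_lit 78) (nat_lit 0) (nat_lit 0) (XT.lf (nat_lit 0) (nat_lit 11221879075) (nat_lit 456) (nat_lit 14196900560) (nat_lit 76) (nat_lit 3632874420) (nat_lit 83) (nat_lit 5) (nat_lit 89) (nat_lit 5) (nat_lit 84) (nat_lit 5) (nat_lit 345) (nat_lit 300) (nat_lit 135)) (XT.lf (nat_lit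 0) (nat_lit 15431507401) (nat_lit 456) (nat_lit 1059035241) (nat_lit 76) (nat_lit 13131917321) (nat_lit 83) (nat_lit 5) (nat_lit 89) (nat_lit 5) (nat_lit 84) (nat_lit 5) (nat_lit 346) (nat_lit 300) (nat_lit 134)))) (XT.nd (nat_lit 78) (nat_lit 304) (nat_lit 0) (XT.lf (nat_lit 0) (nat_lit 12715432973) (nat_lit 304) (nat_lit 7169899244) (nat_lit 380) (nat_lit 10321526162) (nat_lit 79) (nat_lit 5) (nat_lit 83) (nat_lit 5) (nat_lit 84) (nat_lit 5) (nat_lit 347) (nat_lit 300) (nat_lit 133)) (XT.nd (nat_lit 78) (nat_lit 304) (nat_lit 0) (XT.lf (nat_lit 0) (nat_lit 24502672105) (nat_lit 380) (nat_lit 3912812890) (nat_lit 76) (nat_lit 2392412142) (nat_lit 79) (nat_lit 5) (nat_lit 84) (nat_lit 5) (nat_lit 80) (nat_lit 5) (nat_lit 348) (nat_lit 300) (nat_lit 132)) (XT.lf (nat_lit 0) (nat_lit 10195566403) (nat_lit 304) (nat_lit 19227823165) (nat_lit 380) (nat_lit 1998637010) (nat_lit 75) (nat_lit 5) (nat_lit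 79) (nat_lit 5) (nat_lit 80) (nat_lit 5) (nat_lit 349) (nat_lit 300) (nat_lit 131)))))) (XT.nd (nat_lit 468) (nat_lit 836) (nat_lit 0) (XT.nd (nat_lit 234) (nat_lit 304) (nat_lit 0) (XT.nd (nat_lit 78) (nat_lit 304) (nat_lit 0) (XT.lf (nat_lit 0) (nat_lit 2425378661) (nat_lit 380) (nat_lit 7275394321) (nat_lit 76) (nat_lit 22352035412) (nat_lit 74) (nat_lit 5) (nat_lit 79) (nat_lit 5) (nat_lit 75) (nat_lit 5) (nat_lit 350) (nat_lit 300) (nat_lit 130)) (XT.nd (nat_lit 78) (nat_lit 0) (nat_lit 0) (XT.lf (nat_lit 0) (nat_lit 7009198320) (nat_lit 380) (nat_lit 25492233968) (nat_lit 76) (nat_lit 198474894) (nat_lit 70) (nat_lit 5) (nat_lit 75) (nat_lit 5) (nat_lit 71) (nat_lit 5) (nat_lit 351) (nat_lit 300) (nat_lit 129)) (XT.lf (nat_lit 0) (nat_lit 11896829818) (nat_lit 380) (nat_lit 11192098274) (nat_lit 76) (nat_lit 10272506582) (nat_lit 70) (nat_lit 5) (nat_lit 75) (nat_lit 5) (nat_lit 71) (nat_lit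 5) (nat_lit 352) (nat_lit 300) (nat_lit 128)))) (XT.nd (nat_lit 78) (nat_lit 0) (nat_lit 0) (XT.lf (nat_lit 0) (nat_lit 3602009346) (nat_lit 304) (nat_lit 13359875900) (nat_lit 380) (nat_lit 17080003416) (nat_lit 66) (nat_lit 5) (nat_lit 70) (nat_lit 5) (nat_lit 71) (nat_lit 5) (nat_lit 353) (nat_lit 300) (nat_lit 127)) (XT.nd (nat_lit 78) (nat_lit 0) (nat_lit 0) (XT.lf (nat_lit 0) (nat_lit 19064099078) (nat_lit 304) (nat_lit 3224042679) (nat_lit 380) (nat_lit 12451341418) (nat_lit 66) (nat_lit 5) (nat_lit 70) (nat_lit 5) (nat_lit 71) (nat_lit 5) (nat_lit 354) (nat_lit 300) (nat_lit 126)) (XT.lf (nat_lit 0) (nat_lit 27839876230) (nat_lit 380) (nat_lit 542532096) (nat_lit 76) (nat_lit 7073630752) (nat_lit 66) (nat_lit 5) (nat_lit 71) (nat_lit 5) (nat_lit 67) (nat_lit 5) (nat_lit 355) (nat_lit 300) (nat_lit 125))))) (XT.nd (nat_lit 234) (nat_lit 228) (nat_lit 0) (XT.nd (nat_lit 78) (nat_lit 380)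 (nat_lit 0) (XT.lf (nat_lit 0) (nat_lit 15305996499) (nat_lit 228) (nat_lit 18427651988) (nat_lit 304) (nat_lit 2455182736) (nat_lit 63) (nat_lit 5) (nat_lit 66) (nat_lit 5) (nat_lit 67) (nat_lit 5) (nat_lit 356) (nat_lit 300) (nat_lit 124)) (XT.nd (nat_lit 78) (nat_lit 304) (nat_lit 0) (XT.lf (nat_lit 0) (nat_lit 2806789314) (nat_lit 304) (nat_lit 5334980556) (nat_lit 76) (nat_lit 28800956710) (nat_lit 62) (nat_lit 5) (nat_lit 66) (nat_lit 5) (nat_lit 63) (nat_lit 5) (nat_lit 357) (nat_lit 300) (nat_lit 123)) (XT.lf (nat_lit 0) (nat_lit 8303077284) (nat_lit 380) (nat_lit 26878303165) (nat_lit 76) (nat_lit 2533358769) (nat_lit 58) (nat_lit 5) (nat_lit 63) (nat_lit 5) (nat_lit 59) (nat_lit 5) (nat_lit 358) (nat_lit 300) (nat_lit 122)))) (XT.nd (nat_lit 78) (nat_lit 228) (nat_lit 0) (XT.lf (nat_lit 0) (nat_lit 14095864935) (nat_lit 380) (nat_lit 10992066189) (nat_lit 76) (nat_lit 13418036453) (nat_lit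 58) (nat_lit 5) (nat_lit 63) (nat_lit 5) (nat_lit 59) (nat_lit 5) (nat_lit 359) (nat_lit 300) (nat_lit 121)) (XT.nd (nat_lit 78) (nat_lit 0) (nat_lit 0) (XT.lf (nat_lit 0) (nat_lit 5472713158) (nat_lit 228) (nat_lit 14639022574) (nat_lit 304) (nat_lit 19207721640) (nat_lit 55) (nat_lit 5) (nat_lit 58) (nat_lit 5) (nat_lit 59) (nat_lit 5) (nat_lit 360) (nat_lit 300) (nat_lit 120)) (XT.lf (nat_lit 0) (nat_lit 22651972807) (nat_lit 228) (nat_lit 3763850907) (nat_lit 304) (nat_lit 13738299380) (nat_lit 55) (nat_lit 5) (nat_lit 58) (nat_lit 5) (nat_lit 59) (nat_lit 5) (nat_lit 361) (nat_lit 300) (nat_lit 119))))))) (XT.nd (nat_lit 936) (nat_lit 760) (nat_lit 0) (XT.nd (nat_lit 468) (nat_lit 456) (nat_lit 0) (XT.nd (nat_lit 234) (nat_lit 456) (nat_lit 0) (XT.nd (nat_lit 78) (nat_lit 304) (nat_lit 0) (XT.lf (nat_lit 0) (nat_lit 32977352180) (nat_lit 304) (nat_lit 743447163) (nat_lit 76) (nat_lit 7290983273)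 (nat_lit 55) (nat_lit 5) (nat_lit 59) (nat_lit 5) (nat_lit 56) (nat_lit 5) (nat_lit 362) (nat_lit 300) (nat_lit 118)) (XT.nd (nat_lit 78) (nat_lit 76) (nat_lit 0) (XT.lf (nat_lit 0) (nat_lit 16804062790) (nat_lit 228) (nat_lit 23127376330) (nat_lit 304) (nat_lit 1957864692) (nat_lit 52) (nat_lit 5) (nat_lit 55) (nat_lit 5) (nat_lit 56) (nat_lit 5) (nat_lit 363) (nat_lit 300) (nat_lit 117)) (XT.lf (nat_lit 0) (nat_lit 4221580482) (nat_lit 304) (nat_lit 7945720943) (nat_lit 76) (nat_lit 30624476670) (nat_lit 51) (nat_lit 5) (nat_lit 55) (nat_lit 5) (nat_lit 52) (nat_lit 5) (nat_lit 364) (nat_lit 300) (nat_lit 116)))) (XT.nd (nat_lit 78) (nat_lit 228) (nat_lit 0) (XT.lf (nat_lit 0) (nat_lit 9876851978) (nat_lit 228) (nat_lit 762166422) (nat_lit 304) (nat_lit 33078970835) (nat_lit 48) (nat_lit 5) (nat_lit 51) (nat_lit 5) (nat_lit 52) (nat_lit 5) (nat_lit 365) (nat_lit 300) (nat_lit 115)) (XT.nd (nat_lit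 78) (nat_lit 228) (nat_lit 0) (XT.lf (nat_lit 0) (nat_lit 17432653766) (nat_lit 304) (nat_lit 16383501790) (nat_lit 76) (nat_lit 10850323826) (nat_lit 48) (nat_lit 5) (nat_lit 52) (nat_lit 5) (nat_lit 49) (nat_lit 5) (nat_lit 366) (nat_lit 300) (nat_lit 114)) (XT.lf (nat_lit 0) (nat_lit 1617497602) (nat_lit 228) (nat_lit 22832829122) (nat_lit 304) (nat_lit 21192493472) (nat_lit 45) (nat_lit 5) (nat_lit 48) (nat_lit 5) (nat_lit 49) (nat_lit 5) (nat_lit 367) (nat_lit 300) (nat_lit 113))))) (XT.nd (nat_lit 234) (nat_lit 304) (nat_lit 0) (XT.nd (nat_lit 78) (nat_lit 152) (nat_lit 0) (XT.lf (nat_lit 0) (nat_lit 20490033522) (nat_lit 228) (nat_lit 11351113312) (nat_lit 304) (nat_lit 14802428626) (nat_lit 45) (nat_lit 5) (nat_lit 48) (nat_lit 5) (nat_lit 49) (nat_lit 5) (nat_lit 368) (nat_lit 300) (nat_lit 112)) (XT.nd (nat_lit 78) (nat_lit 152) (nat_lit 0) (XT.lf (nat_lit 0) (nat_lit 39455501898) (nat_lit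 304) (nat_lit 7754457946) (nat_lit 76) (nat_lit 464341883) (nat_lit 45) (nat_lit 5) (nat_lit 49) (nat_lit 5) (nat_lit 46) (nat_lit 5) (nat_lit 369) (nat_lit 300) (nat_lit 111)) (XT.lf (nat_lit 0) (nat_lit 11300567266) (nat_lit 152) (nat_lit 36216059692) (nat_lit 228) (nat_lit 1212775222) (nat_lit 43) (nat_lit 5) (nat_lit 45) (nat_lit 5) (nat_lit 46) (nat_lit 5) (nat_lit 370) (nat_lit 300) (nat_lit 110)))) (XT.nd (nat_lit 78) (nat_lit 228) (nat_lit 0) (XT.lf (nat_lit 0) (nat_lit 5962695595) (nat_lit 228) (nat_lit 18790261947) (nat_lit 76) (nat_lit 25059176855) (nat_lit 42) (nat_lit 5) (nat_lit 45) (nat_lit 5) (nat_lit 43) (nat_lit 5) (nat_lit 371) (nat_lit 300) (nat_lit 109)) (XT.nd (nat_lit 78) (nat_lit 0) (nat_lit 0) (XT.lf (nat_lit 0) (nat_lit 399198362) (nat_lit 228) (nat_lit 12931105490) (nat_lit 304) (nat_lit 37596649392) (nat_lit 39) (nat_lit 5) (nat_lit 42) (nat_lit 5) (nat_lit 43) (nat_lit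 5) (nat_lit 372) (nat_lit 300) (nat_lit 108)) (XT.lf (nat_lit 0) (nat_lit 20545512186) (nat_lit 228) (nat_lit 560621353) (nat_lit 304) (nat_lit 30963469612) (nat_lit 39) (nat_lit 5) (nat_lit 42) (nat_lit 5) (nat_lit 43) (nat_lit 5) (nat_lit 373) (nat_lit 300) (nat_lit 107)))))) (XT.nd (nat_lit 468) (nat_lit 380) (nat_lit 0) (XT.nd (nat_lit 234) (nat_lit 228) (nat_lit 0) (XT.nd (nat_lit 78) (nat_lit 152) (nat_lit 0) (XT.lf (nat_lit 0) (nat_lit 29229838188) (nat_lit 304) (nat_lit 12071366430) (nat_lit 76) (nat_lit 11941892159) (nat_lit 39) (nat_lit 5) (nat_lit 43) (nat_lit 5) (nat_lit 40) (nat_lit 5) (nat_lit 374) (nat_lit 300) (nat_lit 106)) (XT.nd (nat_lit 78) (nat_lit 0) (nat_lit 0) (XT.lf (nat_lit 0) (nat_lit 8113877098) (nat_lit 152) (nat_lit 29564504754) (nat_lit 228) (nat_lit 16770981682) (nat_lit 37) (nat_lit 5) (nat_lit 39) (nat_lit 5) (nat_lit 40) (nat_lit 5) (nat_lit 375) (nat_lit 300)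 (nat_lit 105)) (XT.lf (nat_lit 0) (nat_lit 29148323783) (nat_lit 152) (nat_lit 17351570653) (nat_lit 228) (nat_lit 9188340577) (nat_lit 37) (nat_lit 5) (nat_lit 39) (nat_lit 5) (nat_lit 40) (nat_lit 5) (nat_lit 376) (nat_lit 300) (nat_lit 104)))) (XT.nd (nat_lit 78) (nat_lit 228) (nat_lit 0) (XT.lf (nat_lit 0) (nat_lit 50810109377) (nat_lit 152) (nat_lit 4773627951) (nat_lit 228) (nat_lit 1380606797) (nat_lit 37) (nat_lit 5) (nat_lit 39) (nat_lit 5) (nat_lit 40) (nat_lit 5) (nat_lit 377) (nat_lit 300) (nat_lit 103)) (XT.nd (nat_lit 78) (nat_lit 0) (nat_lit 0) (XT.lf (nat_lit 0) (nat_lit 6754658552) (nat_lit 228) (nat_lit 43283838783) (nat_lit 76) (nat_lit 8231621500) (nat_lit 34) (nat_lit 5) (nat_lit 37) (nat_lit 5) (nat_lit 35) (nat_lit 5) (nat_lit 378) (nat_lit 300) (nat_lit 102)) (XT.lf (nat_lit 0) (nat_lit 15214004375) (nat_lit 228) (nat_lit 22791239068) (nat_lit 76) (nat_lit 21606181986)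 (nat_lit 34) (nat_lit 5) (nat_lit 37) (nat_lit 5) (nat_lit 35) (nat_lit 5) (nat_lit 379) (nat_lit 300) (nat_lit 101))))) (XT.nd (nat_lit 234) (nat_lit 228) (nat_lit 0) (XT.nd (nat_lit 78) (nat_lit 152) (nat_lit 0) (XT.lf (nat_lit 0) (nat_lit 23924942895) (nat_lit 228) (nat_lit 1687409327) (nat_lit 76) (nat_lit 35380686436) (nat_lit 34) (nat_lit 5) (nat_lit 37) (nat_lit 5) (nat_lit 35) (nat_lit 5) (nat_lit 380) (nat_lit 300) (nat_lit 100)) (XT.nd (nat_lit 78) (nat_lit 0) (nat_lit 0) (XT.lf (nat_lit 0) (nat_lit 20445047188) (nat_lit 152) (nat_lit 12646568725) (nat_lit 228) (nat_lit 29318653937) (nat_lit 32) (nat_lit 5) (nat_lit 34) (nat_lit 5) (nat_lit 35) (nat_lit 5) (nat_lit 381) (nat_lit 300) (nat_lit 99)) (XT.lf (nat_lit 0) (nat_lit 42555197363) (nat_lit 228) (nat_lit 20603878161) (nat_lit 76) (nat_lit 710286912) (nat_lit 32) (nat_lit 5) (nat_lit 35) (nat_lit 5) (nat_lit 33) (nat_lit 5) (nat_lit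 382) (nat_lit 300) (nat_lit 98)))) (XT.nd (nat_lit 78) (nat_lit 76) (nat_lit 0) (XT.lf (nat_lit 0) (nat_lit 1295001363) (nat_lit 152) (nat_lit 51143300640) (nat_lit 228) (nat_lit 12929858978) (nat_lit 30) (nat_lit 5) (nat_lit 32) (nat_lit 5) (nat_lit 33) (nat_lit 5) (nat_lit 383) (nat_lit 300) (nat_lit 97)) (XT.nd (nat_lit 78) (nat_lit 76) (nat_lit 0) (XT.lf (nat_lit 0) (nat_lit 24269877635) (nat_lit 152) (nat_lit 38554062366) (nat_lit 228) (nat_lit 4081803882) (nat_lit 30) (nat_lit 5) (nat_lit 32) (nat_lit 5) (nat_lit 33) (nat_lit 5) (nat_lit 384) (nat_lit 300) (nat_lit 96)) (XT.lf (nat_lit 0) (nat_lit 4931525723) (nat_lit 228) (nat_lit 20607094703) (nat_lit 76) (nat_lit 42949443750) (nat_lit 29) (nat_lit 5) (nat_lit 32) (nat_lit 5) (nat_lit 30) (nat_lit 5) (nat_lit 385) (nat_lit 300) (nat_lit 95))))))))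
noncomputable def xc206 : XT := (XT.nd (nat_lit 1794) (nat_lit 5092) (nat_lit 0) (XT.nd (nat_lit 858) (nat_lit 2280) (nat_lit 0) (XT.nd (nat_lit 390) (nat_lit 0) (nat_lit 152) (XT.nd (nat_lit 156) (nat_lit 0) (nat_lit 76) (XT.nd (nat_lit 78) (nat_lit 0) (nat_lit 0) (XT.lf (nat_lit 0) (nat_lit 4197554612) (nat_lit 1140) (nat_lit 1403631068) (nat_lit 1140) (nat_lit 1403631068) (nat_lit 180) (nat_lit 3) (nat_lit 195) (nat_lit 3) (nat_lit 195) (nat_lit 5) (nat_lit 301) (nat_lit 301) (nat_lit 178)) (XT.lf (nat_lit 76) (nat_lit 3369625612) (nat_lit 0) (nat_lit 5500394545) (nat_lit 1140) (nat_lit 5338716720) (nat_lit 181) (nat_lit 5) (nat_lit 180) (nat_lit 3) (nat_lit 195) (nat_lit 5) (nat_lit 302) (nat_lit 301) (nat_lit 177))) (XT.nd (nat_lit 78) (nat_lit 0) (nat_lit 0) (XT.lf (nat_lit 0) (nat_lit 9379027619) (nat_lit 1064) (nat_lit 4634412497) (nat_lit 1140) (nat_lit 399800069) (nat_lit 181) (nat_lit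 5) (nat_lit 195) (nat_lit 5) (nat_lit 196) (nat_lit 5) (nat_lit 303) (nat_lit 301) (nat_lit 176)) (XT.nd (nat_lit 78) (nat_lit 0) (nat_lit 0) (XT.lf (nat_lit 76) (nat_lit 1728955582) (nat_lit 0) (nat_lit 8233427524) (nat_lit 1140) (nat_lit 4659744813) (nat_lit 182) (nat_lit 5) (nat_lit 181) (nat_lit 5) (nat_lit 196) (nat_lit 5) (nat_lit 304) (nat_lit 301) (nat_lit 175)) (XT.lf (nat_lit 76) (nat_lit 8371541347) (nat_lit 0) (nat_lit 2226780357) (nat_lit 1140) (nat_lit 4237929132) (nat_lit 182) (nat_lit 5) (nat_lit 181) (nat_lit 5) (nat_lit 196) (nat_lit 5) (nat_lit 305) (nat_lit 301) (nat_lit 174))))) (XT.nd (nat_lit 234) (nat_lit 0) (nat_lit 76) (XT.nd (nat_lit 78) (nat_lit 0) (nat_lit 0) (XT.lf (nat_lit 76) (nat_lit 113864367) (nat_lit 0) (nat_lit 11167307381) (nat_lit 1140) (nat_lit 3774811111) (nat_lit 183) (nat_lit 5) (nat_lit 182) (nat_lit 5) (nat_lit 197) (nat_lit 5) (nat_lit 306) (nat_lit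 301) (nat_lit 173)) (XT.nd (nat_lit 78) (nat_lit 0) (nat_lit 76) (XT.lf (nat_lit 76) (nat_lit 6992998961) (nat_lit 0) (nat_lit 5067556851) (nat_lit 1140) (nat_lit 3219489395) (nat_lit 183) (nat_lit 5) (nat_lit 182) (nat_lit 5) (nat_lit 197) (nat_lit 5) (nat_lit 307) (nat_lit 301) (nat_lit 172)) (XT.lf (nat_lit 0) (nat_lit 12864300706) (nat_lit 1064) (nat_lit 1451015553) (nat_lit 1140) (nat_lit 1195503030) (nat_lit 183) (nat_lit 5) (nat_lit 197) (nat_lit 5) (nat_lit 198) (nat_lit 5) (nat_lit 308) (nat_lit 301) (nat_lit 171)))) (XT.nd (nat_lit 78) (nat_lit 0) (nat_lit 0) (XT.lf (nat_lit 76) (nat_lit 5643233686) (nat_lit 0) (nat_lit 8142954201) (nat_lit 1140) (nat_lit 1959526491) (nat_lit 184) (nat_lit 5) (nat_lit 183) (nat_lit 5) (nat_lit 198) (nat_lit 5) (nat_lit 309) (nat_lit 301) (nat_lit 170)) (XT.nd (nat_lit 78) (nat_lit 0) (nat_lit 76) (XT.lf (nat_lit 76) (nat_lit 12973313191) (nat_lit 0)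 (nat_lit 1766918622) (nat_lit 1140) (nat_lit 1247307641) (nat_lit 184) (nat_lit 5) (nat_lit 183) (nat_lit 5) (nat_lit 198) (nat_lit 5) (nat_lit 310) (nat_lit 301) (nat_lit 169)) (XT.lf (nat_lit 76) (nat_lit 4317898804) (nat_lit 0) (nat_lit 11482824145) (nat_lit 1140) (nat_lit 433579166) (nat_lit 185) (nat_lit 5) (nat_lit 184) (nat_lit 5) (nat_lit 199) (nat_lit 5) (nat_lit 311) (nat_lit 301) (nat_lit 168)))))) (XT.nd (nat_lit 468) (nat_lit 1444) (nat_lit 0) (XT.nd (nat_lit 234) (nat_lit 0) (nat_lit 76) (XT.nd (nat_lit 78) (nat_lit 0) (nat_lit 76) (XT.lf (nat_lit 0) (nat_lit 435184062) (nat_lit 1140) (nat_lit 4584495518) (nat_lit 1216) (nat_lit 11467532488) (nat_lit 169) (nat_lit 5) (nat_lit 184) (nat_lit 5) (nat_lit 185) (nat_lit 5) (nat_lit 312) (nat_lit 301) (nat_lit 167)) (XT.nd (nat_lit 78) (nat_lit 0) (nat_lit 0) (XT.lf (nat_lit 0) (nat_lit 1356939265) (nat_lit 1140) (nat_lit 13748020134)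 (nat_lit 1216) (nat_lit 1641567943) (nat_lit 170) (nat_lit 5) (nat_lit 185) (nat_lit 5) (nat_lit 186) (nat_lit 5) (nat_lit 313) (nat_lit 301) (nat_lit 166)) (XT.lf (nat_lit 0) (nat_lit 2393600079) (nat_lit 1140) (nat_lit 6166490758) (nat_lit 1216) (nat_lit 8450929294) (nat_lit 170) (nat_lit 5) (nat_lit 185) (nat_lit 5) (nat_lit 186) (nat_lit 5) (nat_lit 314) (nat_lit 301) (nat_lit 165)))) (XT.nd (nat_lit 78) (nat_lit 0) (nat_lit 76) (XT.lf (nat_lit 76) (nat_lit 1668165505) (nat_lit 0) (nat_lit 1800298971) (nat_lit 1216) (nat_lit 13814785308) (nat_lit 171) (nat_lit 5) (nat_lit 170) (nat_lit 5) (nat_lit 186) (nat_lit 5) (nat_lit 315) (nat_lit 301) (nat_lit 164)) (XT.nd (nat_lit 78) (nat_lit 0) (nat_lit 0) (XT.lf (nat_lit 0) (nat_lit 4679365518) (nat_lit 1140) (nat_lit 7754848345) (nat_lit 1216) (nat_lit 5126333487) (nat_lit 171) (nat_lit 5) (nat_lit 186) (nat_lit 5) (nat_lit 187) (nat_lit 5) (nat_lit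 316) (nat_lit 301) (nat_lit 163)) (XT.lf (nat_lit 76) (nat_lit 322776227) (nat_lit 0) (nat_lit 5616280423) (nat_lit 1216) (nat_lit 11906747621) (nat_lit 172) (nat_lit 5) (nat_lit 171) (nat_lit 5) (nat_lit 187) (nat_lit 5) (nat_lit 317) (nat_lit 301) (nat_lit 162))))) (XT.nd (nat_lit 234) (nat_lit 532) (nat_lit 0) (XT.nd (nat_lit 78) (nat_lit 1140) (nat_lit 0) (XT.lf (nat_lit 0) (nat_lit 7320870333) (nat_lit 1140) (nat_lit 9356966896) (nat_lit 76) (nat_lit 1459265618) (nat_lit 172) (nat_lit 5) (nat_lit 187) (nat_lit 5) (nat_lit 173) (nat_lit 5) (nat_lit 318) (nat_lit 301) (nat_lit 161)) (XT.nd (nat_lit 78) (nat_lit 1140) (nat_lit 0) (XT.lf (nat_lit 0) (nat_lit 8791716571) (nat_lit 1140) (nat_lit 1008424902) (nat_lit 76) (nat_lit 8635585059) (nat_lit 172) (nat_lit 5) (nat_lit 187) (nat_lit 5) (nat_lit 173) (nat_lit 5) (nat_lit 319) (nat_lit 301) (nat_lit 160)) (XT.lf (nat_lit 0) (nat_lit 7734813981)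 (nat_lit 1140) (nat_lit 2638431230) (nat_lit 1216) (nat_lit 8368080111) (nat_lit 157) (nat_lit 5) (nat_lit 172) (nat_lit 5) (nat_lit 173) (nat_lit 5) (nat_lit 320) (nat_lit 301) (nat_lit 159)))) (XT.nd (nat_lit 78) (nat_lit 532) (nat_lit 0) (XT.lf (nat_lit 0) (nat_lit 12050427673) (nat_lit 1216) (nat_lit 2347290598) (nat_lit 76) (nat_lit 4656940286) (nat_lit 157) (nat_lit 5) (nat_lit 173) (nat_lit 5) (nat_lit 158) (nat_lit 5) (nat_lit 321) (nat_lit 301) (nat_lit 158)) (XT.nd (nat_lit 78) (nat_lit 0) (nat_lit 0) (XT.lf (nat_lit 0) (nat_lit 6669041937) (nat_lit 532) (nat_lit 7191713875) (nat_lit 608) (nat_lit 5514163423) (nat_lit 150) (nat_lit 5) (nat_lit 157) (nat_lit 5) (nat_lit 158) (nat_lit 5) (nat_lit 322) (nat_lit 301) (nat_lit 157)) (XT.lf (nat_lit 0) (nat_lit 15744305207) (nat_lit 608) (nat_lit 3709393970) (nat_lit 76) (nat_lit 250533206) (nat_lit 150) (nat_lit 5) (nat_lit 158) (nat_lit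 5) (nat_lit 151) (nat_lit 5) (nat_lit 323) (nat_lit 301) (nat_lit 156))))))) (XT.nd (nat_lit 936) (nat_lit 1976) (nat_lit 0) (XT.nd (nat_lit 468) (nat_lit 1368) (nat_lit 0) (XT.nd (nat_lit 234) (nat_lit 532) (nat_lit 0) (XT.nd (nat_lit 78) (nat_lit 608) (nat_lit 0) (XT.lf (nat_lit 0) (nat_lit 5588174845) (nat_lit 608) (nat_lit 12214077474) (nat_lit 684) (nat_lit 2237647512) (nat_lit 142) (nat_lit 5) (nat_lit 150) (nat_lit 5) (nat_lit 151) (nat_lit 5) (nat_lit 324) (nat_lit 301) (nat_lit 155)) (XT.nd (nat_lit 78) (nat_lit 608) (nat_lit 0) (XT.lf (nat_lit 0) (nat_lit 15234125511) (nat_lit 608) (nat_lit 4718380621) (nat_lit 684) (nat_lit 432225424) (nat_lit 142) (nat_lit 5) (nat_lit 150) (nat_lit 5) (nat_lit 151) (nat_lit 5) (nat_lit 325) (nat_lit 301) (nat_lit 154)) (XT.lf (nat_lit 0) (nat_lit 1465393980) (nat_lit 608) (nat_lit 16270796685) (nat_lit 76) (nat_lit 3001339976) (nat_lit 134) (nat_lit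 5) (nat_lit 142) (nat_lit 5) (nat_lit 135) (nat_lit 5) (nat_lit 326) (nat_lit 301) (nat_lit 153)))) (XT.nd (nat_lit 78) (nat_lit 532) (nat_lit 0) (XT.lf (nat_lit 0) (nat_lit 3503867984) (nat_lit 608) (nat_lit 6679372267) (nat_lit 76) (nat_lit 10914777007) (nat_lit 134) (nat_lit 5) (nat_lit 142) (nat_lit 5) (nat_lit 135) (nat_lit 5) (nat_lit 327) (nat_lit 301) (nat_lit 152)) (XT.nd (nat_lit 78) (nat_lit 0) (nat_lit 0) (XT.lf (nat_lit 0) (nat_lit 3256858237) (nat_lit 532) (nat_lit 2371508670) (nat_lit 608) (nat_lit 15840215489) (nat_lit 127) (nat_lit 5) (nat_lit 134) (nat_lit 5) (nat_lit 135) (nat_lit 5) (nat_lit 328) (nat_lit 301) (nat_lit 151)) (XT.lf (nat_lit 0) (nat_lit 7932953021) (nat_lit 608) (nat_lit 8281984096) (nat_lit 76) (nat_lit 5631846555) (nat_lit 127) (nat_lit 5) (nat_lit 135) (nat_lit 5) (nat_lit 128) (nat_lit 5) (nat_lit 329) (nat_lit 301) (nat_lit 150))))) (XT.nd (nat_lit 234)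 (nat_lit 456) (nat_lit 0) (XT.nd (nat_lit 78) (nat_lit 456) (nat_lit 0) (XT.lf (nat_lit 0) (nat_lit 1953863724) (nat_lit 456) (nat_lit 8388947211) (nat_lit 532) (nat_lit 11892445491) (nat_lit 121) (nat_lit 5) (nat_lit 127) (nat_lit 5) (nat_lit 128) (nat_lit 5) (nat_lit 330) (nat_lit 301) (nat_lit 149)) (XT.nd (nat_lit 78) (nat_lit 456) (nat_lit 0) (XT.lf (nat_lit 0) (nat_lit 12660191504) (nat_lit 456) (nat_lit 242394349) (nat_lit 532) (nat_lit 9730478062) (nat_lit 121) (nat_lit 5) (nat_lit 127) (nat_lit 5) (nat_lit 128) (nat_lit 5) (nat_lit 331) (nat_lit 301) (nat_lit 148)) (XT.lf (nat_lit 0) (nat_lit 571360693) (nat_lit 456) (nat_lit 15045775685) (nat_lit 532) (nat_lit 7423338703) (nat_lit 115) (nat_lit 5) (nat_lit 121) (nat_lit 5) (nat_lit 122) (nat_lit 5) (nat_lit 332) (nat_lit 301) (nat_lit 147)))) (XT.nd (nat_lit 78) (nat_lit 456) (nat_lit 0) (XT.lf (nat_lit 0) (nat_lit 11627606370) (nat_lit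 456) (nat_lit 6882870608) (nat_lit 532) (nat_lit 4946719658) (nat_lit 115) (nat_lit 5) (nat_lit 121) (nat_lit 5) (nat_lit 122) (nat_lit 5) (nat_lit 333) (nat_lit 301) (nat_lit 146)) (XT.nd (nat_lit 78) (nat_lit 456) (nat_lit 0) (XT.lf (nat_lit 0) (nat_lit 21499708506) (nat_lit 532) (nat_lit 891826152) (nat_lit 76) (nat_lit 1494620871) (nat_lit 115) (nat_lit 5) (nat_lit 122) (nat_lit 5) (nat_lit 116) (nat_lit 5) (nat_lit 334) (nat_lit 301) (nat_lit 145)) (XT.lf (nat_lit 0) (nat_lit 411076260) (nat_lit 456) (nat_lit 13822303778) (nat_lit 76) (nat_lit 10089578804) (nat_lit 109) (nat_lit 5) (nat_lit 115) (nat_lit 5) (nat_lit 110) (nat_lit 5) (nat_lit 335) (nat_lit 301) (nat_lit 144)))))) (XT.nd (nat_lit 468) (nat_lit 760) (nat_lit 0) (XT.nd (nat_lit 234) (nat_lit 760) (nat_lit 0) (XT.nd (nat_lit 78) (nat_lit 456) (nat_lit 0) (XT.lf (nat_lit 0) (nat_lit 3248288312) (nat_lit 456) (nat_lit 2549279942)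 (nat_lit 76) (nat_lit 18974485004) (nat_lit 109) (nat_lit 5) (nat_lit 115) (nat_lit 5) (nat_lit 110) (nat_lit 5) (nat_lit 336) (nat_lit 301) (nat_lit 143)) (XT.nd (nat_lit 78) (nat_lit 0) (nat_lit 0) (XT.lf (nat_lit 0) (nat_lit 6282855108) (nat_lit 532) (nat_lit 16024599069) (nat_lit 76) (nat_lit 2923806649) (nat_lit 103) (nat_lit 5) (nat_lit 110) (nat_lit 5) (nat_lit 104) (nat_lit 5) (nat_lit 337) (nat_lit 301) (nat_lit 142)) (XT.lf (nat_lit 0) (nat_lit 9486735019) (nat_lit 532) (nat_lit 4399663193) (nat_lit 76) (nat_lit 11815505382) (nat_lit 103) (nat_lit 5) (nat_lit 110) (nat_lit 5) (nat_lit 104) (nat_lit 5) (nat_lit 338) (nat_lit 301) (nat_lit 141)))) (XT.nd (nat_lit 78) (nat_lit 380) (nat_lit 0) (XT.lf (nat_lit 0) (nat_lit 7718744412) (nat_lit 380) (nat_lit 5137210262) (nat_lit 456) (nat_lit 13328641313) (nat_lit 98) (nat_lit 5) (nat_lit 103) (nat_lit 5) (nat_lit 104) (nat_lit 5) (nat_lit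 339) (nat_lit 301) (nat_lit 140)) (XT.nd (nat_lit 78) (nat_lit 380) (nat_lit 0) (XT.lf (nat_lit 0) (nat_lit 16403468019) (nat_lit 456) (nat_lit 6433210048) (nat_lit 76) (nat_lit 3842781412) (nat_lit 98) (nat_lit 5) (nat_lit 104) (nat_lit 5) (nat_lit 99) (nat_lit 5) (nat_lit 340) (nat_lit 301) (nat_lit 139)) (XT.lf (nat_lit 0) (nat_lit 6021234230) (nat_lit 380) (nat_lit 14140163972) (nat_lit 456) (nat_lit 7024657568) (nat_lit 93) (nat_lit 5) (nat_lit 98) (nat_lit 5) (nat_lit 99) (nat_lit 5) (nat_lit 341) (nat_lit 301) (nat_lit 138))))) (XT.nd (nat_lit 234) (nat_lit 380) (nat_lit 0) (XT.nd (nat_lit 78) (nat_lit 380) (nat_lit 0) (XT.lf (nat_lit 0) (nat_lit 18975434292) (nat_lit 380) (nat_lit 5116926102) (nat_lit 456) (nat_lit 3613687181) (nat_lit 93) (nat_lit 5) (nat_lit 98) (nat_lit 5) (nat_lit 99) (nat_lit 5) (nat_lit 342) (nat_lit 301) (nat_lit 137)) (XT.nd (nat_lit 78) (nat_lit 76) (nat_lit 0)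 (XT.lf (nat_lit 0) (nat_lit 4110972498) (nat_lit 304) (nat_lit 24105405267) (nat_lit 380) (nat_lit 23013837) (nat_lit 89) (nat_lit 5) (nat_lit 93) (nat_lit 5) (nat_lit 94) (nat_lit 5) (nat_lit 343) (nat_lit 301) (nat_lit 136)) (XT.lf (nat_lit 0) (nat_lit 3738842316) (nat_lit 380) (nat_lit 11361938097) (nat_lit 76) (nat_lit 13682846061) (nat_lit 88) (nat_lit 5) (nat_lit 93) (nat_lit 5) (nat_lit 89) (nat_lit 5) (nat_lit 344) (nat_lit 301) (nat_lit 135)))) (XT.nd (nat_lit 78) (nat_lit 0) (nat_lit 0) (XT.lf (nat_lit 0) (nat_lit 1817180527) (nat_lit 380) (nat_lit 5808995334) (nat_lit 456) (nat_lit 21717618894) (nat_lit 83) (nat_lit 5) (nat_lit 88) (nat_lit 5) (nat_lit 89) (nat_lit 5) (nat_lit 345) (nat_lit 301) (nat_lit 134)) (XT.nd (nat_lit 78) (nat_lit 0) (nat_lit 0) (XT.lf (nat_lit 0) (nat_lit 11777836059) (nat_lit 456) (nat_lit 14335695973) (nat_lit 76) (nat_lit 3802810414) (nat_lit 83) (nat_lit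 5) (nat_lit 89) (nat_lit 5) (nat_lit 84) (nat_lit 5) (nat_lit 346) (nat_lit 301) (nat_lit 133)) (XT.lf (nat_lit 0) (nat_lit 16107365838) (nat_lit 456) (nat_lit 812057169) (nat_lit 76) (nat_lit 13585049366) (nat_lit 83) (nat_lit 5) (nat_lit 89) (nat_lit 5) (nat_lit 84) (nat_lit 5) (nat_lit 347) (nat_lit 301) (nat_lit 132))))))))
noncomputable def xc207 : XT := (XT.nd (nat_lit 1872) (nat_lit 988) (nat_lit 0) (XT.nd (nat_lit 936) (nat_lit 1140) (nat_lit 0) (XT.nd (nat_lit 468) (nat_lit 912) (nat_lit 0) (XT.nd (nat_lit 234) (nat_lit 380) (nat_lit 0) (XT.nd (nat_lit 78) (nat_lit 304) (nat_lit 0) (XT.lf (nat_lit 0) (nat_lit 13372912257) (nat_lit 304) (nat_lit 7318345023) (nat_lit 380) (nat_lit 10415259886) (nat_lit 79) (nat_lit 5) (nat_lit 83) (nat_lit 5) (nat_lit 84) (nat_lit 5) (nat_lit 348) (nat_lit 301) (nat_lit 131)) (XT.nd (nat_lit 78) (nat_lit 304) (nat_lit 0) (XT.lf (nat_lit 0) (nat_lit 25441641384)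 (nat_lit 380) (nat_lit 3756486046) (nat_lit 76) (nat_lit 2527631684) (nat_lit 79) (nat_lit 5) (nat_lit 84) (nat_lit 5) (nat_lit 80) (nat_lit 5) (nat_lit 349) (nat_lit 301) (nat_lit 130)) (XT.lf (nat_lit 0) (nat_lit 10772461183) (nat_lit 304) (nat_lit 19734185955) (nat_lit 380) (nat_lit 1851772819) (nat_lit 75) (nat_lit 5) (nat_lit 79) (nat_lit 5) (nat_lit 80) (nat_lit 5) (nat_lit 350) (nat_lit 301) (nat_lit 129)))) (XT.nd (nat_lit 78) (nat_lit 304) (nat_lit 0) (XT.lf (nat_lit 0) (nat_lit 2695021024) (nat_lit 380) (nat_lit 7226367710) (nat_lit 76) (nat_lit 23086861133) (nat_lit 74) (nat_lit 5) (nat_lit 79) (nat_lit 5) (nat_lit 75) (nat_lit 5) (nat_lit 351) (nat_lit 301) (nat_lit 128)) (XT.nd (nat_lit 78) (nat_lit 0) (nat_lit 0) (XT.lf (nat_lit 0) (nat_lit 7413847301) (nat_lit 380) (nat_lit 25986975111) (nat_lit 76) (nat_lit 274021330) (nat_lit 70) (nat_lit 5) (nat_lit 75) (nat_lit 5) (nat_lit 71)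 (nat_lit 5) (nat_lit 352) (nat_lit 301) (nat_lit 127)) (XT.lf (nat_lit 0) (nat_lit 12442446394) (nat_lit 380) (nat_lit 11265700178) (nat_lit 76) (nat_lit 10648247011) (nat_lit 70) (nat_lit 5) (nat_lit 75) (nat_lit 5) (nat_lit 71) (nat_lit 5) (nat_lit 353) (nat_lit 301) (nat_lit 126))))) (XT.nd (nat_lit 234) (nat_lit 608) (nat_lit 0) (XT.nd (nat_lit 78) (nat_lit 0) (nat_lit 0) (XT.lf (nat_lit 0) (nat_lit 3969660465) (nat_lit 304) (nat_lit 13686791909) (nat_lit 380) (nat_lit 17400905338) (nat_lit 66) (nat_lit 5) (nat_lit 70) (nat_lit 5) (nat_lit 71) (nat_lit 5) (nat_lit 354) (nat_lit 301) (nat_lit 125)) (XT.nd (nat_lit 78) (nat_lit 0) (nat_lit 0) (XT.lf (nat_lit 0) (nat_lit 19888051990) (nat_lit 304) (nat_lit 3249035544) (nat_lit 380) (nat_lit 12638961098) (nat_lit 66) (nat_lit 5) (nat_lit 70) (nat_lit 5) (nat_lit 71) (nat_lit 5) (nat_lit 355) (nat_lit 301) (nat_lit 124)) (XT.lf (nat_lit 0) (nat_lit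 28850791956) (nat_lit 380) (nat_lit 309332835) (nat_lit 76) (nat_lit 7354120001) (nat_lit 66) (nat_lit 5) (nat_lit 71) (nat_lit 5) (nat_lit 67) (nat_lit 5) (nat_lit 356) (nat_lit 301) (nat_lit 123)))) (XT.nd (nat_lit 78) (nat_lit 380) (nat_lit 0) (XT.lf (nat_lit 0) (nat_lit 16012205783) (nat_lit 228) (nat_lit 18906428153) (nat_lit 304) (nat_lit 2350475006) (nat_lit 63) (nat_lit 5) (nat_lit 66) (nat_lit 5) (nat_lit 67) (nat_lit 5) (nat_lit 357) (nat_lit 301) (nat_lit 122)) (XT.nd (nat_lit 78) (nat_lit 304) (nat_lit 0) (XT.lf (nat_lit 0) (nat_lit 3060782026) (nat_lit 304) (nat_lit 5251629905) (nat_lit 76) (nat_lit 29733316200) (nat_lit 62) (nat_lit 5) (nat_lit 66) (nat_lit 5) (nat_lit 63) (nat_lit 5) (nat_lit 358) (nat_lit 301) (nat_lit 121)) (XT.lf (nat_lit 0) (nat_lit 8720040018) (nat_lit 380) (nat_lit 27439152434) (nat_lit 76) (nat_lit 2681771688) (nat_lit 58) (nat_lit 5) (nat_lit 63) (nat_lit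 5) (nat_lit 59) (nat_lit 5) (nat_lit 359) (nat_lit 301) (nat_lit 120)))))) (XT.nd (nat_lit 468) (nat_lit 608) (nat_lit 0) (XT.nd (nat_lit 234) (nat_lit 304) (nat_lit 0) (XT.nd (nat_lit 78) (nat_lit 228) (nat_lit 0) (XT.lf (nat_lit 0) (nat_lit 14681721870) (nat_lit 380) (nat_lit 11083478829) (nat_lit 76) (nat_lit 13890880611) (nat_lit 58) (nat_lit 5) (nat_lit 63) (nat_lit 5) (nat_lit 59) (nat_lit 5) (nat_lit 360) (nat_lit 301) (nat_lit 119)) (XT.nd (nat_lit 78) (nat_lit 0) (nat_lit 0) (XT.lf (nat_lit 0) (nat_lit 5872907140) (nat_lit 228) (nat_lit 15002683329) (nat_lit 304) (nat_lit 19618464801) (nat_lit 55) (nat_lit 5) (nat_lit 58) (nat_lit 5) (nat_lit 59) (nat_lit 5) (nat_lit 361) (nat_lit 301) (nat_lit 118)) (XT.lf (nat_lit 0) (nat_lit 23560670425) (nat_lit 228) (nat_lit 3803455830) (nat_lit 304) (nat_lit 13989779927) (nat_lit 55) (nat_lit 5) (nat_lit 58) (nat_lit 5) (nat_lit 59) (nat_lit 5)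 (nat_lit 362) (nat_lit 301) (nat_lit 117)))) (XT.nd (nat_lit 78) (nat_lit 304) (nat_lit 0) (XT.lf (nat_lit 0) (nat_lit 34118646081) (nat_lit 304) (nat_lit 539270644) (nat_lit 76) (nat_lit 7579499228) (nat_lit 55) (nat_lit 5) (nat_lit 59) (nat_lit 5) (nat_lit 56) (nat_lit 5) (nat_lit 363) (nat_lit 301) (nat_lit 116)) (XT.nd (nat_lit 78) (nat_lit 76) (nat_lit 0) (XT.lf (nat_lit 0) (nat_lit 17532444217) (nat_lit 228) (nat_lit 23746640725) (nat_lit 304) (nat_lit 1862250651) (nat_lit 52) (nat_lit 5) (nat_lit 55) (nat_lit 5) (nat_lit 56) (nat_lit 5) (nat_lit 364) (nat_lit 301) (nat_lit 115)) (XT.lf (nat_lit 0) (nat_lit 4495158050) (nat_lit 304) (nat_lit 7963293377) (nat_lit 76) (nat_lit 31612524822) (nat_lit 51) (nat_lit 5) (nat_lit 55) (nat_lit 5) (nat_lit 52) (nat_lit 5) (nat_lit 365) (nat_lit 301) (nat_lit 114))))) (XT.nd (nat_lit 234) (nat_lit 152) (nat_lit 0) (XT.nd (nat_lit 78) (nat_lit 228) (nat_lit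 0) (XT.lf (nat_lit 0) (nat_lit 10391792033) (nat_lit 228) (nat_lit 711149201) (nat_lit 304) (nat_lit 33922102115) (nat_lit 48) (nat_lit 5) (nat_lit 51) (nat_lit 5) (nat_lit 52) (nat_lit 5) (nat_lit 366) (nat_lit 301) (nat_lit 113)) (XT.nd (nat_lit 78) (nat_lit 228) (nat_lit 0) (XT.lf (nat_lit 0) (nat_lit 18096859092) (nat_lit 304) (nat_lit 16659074942) (nat_lit 76) (nat_lit 11246164129) (nat_lit 48) (nat_lit 5) (nat_lit 52) (nat_lit 5) (nat_lit 49) (nat_lit 5) (nat_lit 367) (nat_lit 301) (nat_lit 112)) (XT.lf (nat_lit 0) (nat_lit 1879837452) (nat_lit 228) (nat_lit 23443166736) (nat_lit 304) (nat_lit 21684790798) (nat_lit 45) (nat_lit 5) (nat_lit 48) (nat_lit 5) (nat_lit 49) (nat_lit 5) (nat_lit 368) (nat_lit 301) (nat_lit 111)))) (XT.nd (nat_lit 78) (nat_lit 152) (nat_lit 0) (XT.lf (nat_lit 0) (nat_lit 21312321830) (nat_lit 228) (nat_lit 11619173643) (nat_lit 304) (nat_lit 15107202963) (nat_lit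 45) (nat_lit 5) (nat_lit 48) (nat_lit 5) (nat_lit 49) (nat_lit 5) (nat_lit 369) (nat_lit 301) (nat_lit 110)) (XT.nd (nat_lit 78) (nat_lit 152) (nat_lit 0) (XT.lf (nat_lit 0) (nat_lit 40771022188) (nat_lit 304) (nat_lit 7782164563) (nat_lit 76) (nat_lit 547261321) (nat_lit 45) (nat_lit 5) (nat_lit 49) (nat_lit 5) (nat_lit 46) (nat_lit 5) (nat_lit 370) (nat_lit 301) (nat_lit 109)) (XT.lf (nat_lit 0) (nat_lit 11842502316) (nat_lit 152) (nat_lit 37229588813) (nat_lit 228) (nat_lit 1115170808) (nat_lit 43) (nat_lit 5) (nat_lit 45) (nat_lit 5) (nat_lit 46) (nat_lit 5) (nat_lit 371) (nat_lit 301) (nat_lit 108))))))) (XT.nd (nat_lit 936) (nat_lit 152) (nat_lit 0) (XT.nd (nat_lit 468) (nat_lit 380) (nat_lit 0) (XT.nd (nat_lit 234) (nat_lit 152) (nat_lit 0) (XT.nd (nat_lit 78) (nat_lit 228) (nat_lit 0) (XT.lf (nat_lit 0) (nat_lit 6269123152) (nat_lit 228) (nat_lit 19154307311) (nat_lit 76) (nat_lit 25879125298)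 (nat_lit 42) (nat_lit 5) (nat_lit 45) (nat_lit 5) (nat_lit 43) (nat_lit 5) (nat_lit 372) (nat_lit 301) (nat_lit 107)) (XT.nd (nat_lit 78) (nat_lit 0) (nat_lit 0) (XT.lf (nat_lit 0) (nat_lit 608879332) (nat_lit 228) (nat_lit 13247065834) (nat_lit 304) (nat_lit 38594931828) (nat_lit 39) (nat_lit 5) (nat_lit 42) (nat_lit 5) (nat_lit 43) (nat_lit 5) (nat_lit 373) (nat_lit 301) (nat_lit 106)) (XT.lf (nat_lit 0) (nat_lit 21353824172) (nat_lit 228) (nat_lit 507563468) (nat_lit 304) (nat_lit 31766531909) (nat_lit 39) (nat_lit 5) (nat_lit 42) (nat_lit 5) (nat_lit 43) (nat_lit 5) (nat_lit 374) (nat_lit 301) (nat_lit 105)))) (XT.nd (nat_lit 78) (nat_lit 152) (nat_lit 0) (XT.lf (nat_lit 0) (nat_lit 30225900121) (nat_lit 304) (nat_lit 12244141771) (nat_lit 76) (nat_lit 12366666382) (nat_lit 39) (nat_lit 5) (nat_lit 43) (nat_lit 5) (nat_lit 40) (nat_lit 5) (nat_lit 375) (nat_lit 301) (nat_lit 104)) (XT.nd (nat_lit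 78) (nat_lit 0) (nat_lit 0) (XT.lf (nat_lit 0) (nat_lit 8544802537) (nat_lit 152) (nat_lit 30381429134) (nat_lit 228) (nat_lit 17152984517) (nat_lit 37) (nat_lit 5) (nat_lit 39) (nat_lit 5) (nat_lit 40) (nat_lit 5) (nat_lit 376) (nat_lit 301) (nat_lit 103)) (XT.lf (nat_lit 0) (nat_lit 30204821191) (nat_lit 152) (nat_lit 17804146158) (nat_lit 228) (nat_lit 9346392138) (nat_lit 37) (nat_lit 5) (nat_lit 39) (nat_lit 5) (nat_lit 40) (nat_lit 5) (nat_lit 377) (nat_lit 301) (nat_lit 102))))) (XT.nd (nat_lit 234) (nat_lit 152) (nat_lit 0) (XT.nd (nat_lit 78) (nat_lit 228) (nat_lit 0) (XT.lf (nat_lit 0) (nat_lit 52511157993) (nat_lit 152) (nat_lit 4850844930) (nat_lit 228) (nat_lit 1307851548) (nat_lit 37) (nat_lit 5) (nat_lit 39) (nat_lit 5) (nat_lit 40) (nat_lit 5) (nat_lit 378) (nat_lit 301) (nat_lit 101)) (XT.nd (nat_lit 78) (nat_lit 0) (nat_lit 0) (XT.lf (nat_lit 0) (nat_lit 7068331013) (nat_lit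 228) (nat_lit 44402281546) (nat_lit 76) (nat_lit 8544187077) (nat_lit 34) (nat_lit 5) (nat_lit 37) (nat_lit 5) (nat_lit 35) (nat_lit 5) (nat_lit 379) (nat_lit 301) (nat_lit 100)) (XT.lf (nat_lit 0) (nat_lit 15778223249) (nat_lit 228) (nat_lit 23300148666) (nat_lit 76) (nat_lit 22318073205) (nat_lit 34) (nat_lit 5) (nat_lit 37) (nat_lit 5) (nat_lit 35) (nat_lit 5) (nat_lit 380) (nat_lit 301) (nat_lit 99)))) (XT.nd (nat_lit 78) (nat_lit 152) (nat_lit 0) (XT.lf (nat_lit 0) (nat_lit 24747350156) (nat_lit 228) (nat_lit 1568296098) (nat_lit 76) (nat_lit 36503957281) (nat_lit 34) (nat_lit 5) (nat_lit 37) (nat_lit 5) (nat_lit 35) (nat_lit 5) (nat_lit 381) (nat_lit 301) (nat_lit 98)) (XT.nd (nat_lit 78) (nat_lit 0) (nat_lit 0) (XT.lf (nat_lit 0) (nat_lit 21226470039) (nat_lit 152) (nat_lit 12961120611) (nat_lit 228) (nat_lit 30091806514) (nat_lit 32) (nat_lit 5) (nat_lit 34) (nat_lit 5) (nat_lit 35) (nat_lit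 5) (nat_lit 382) (nat_lit 301) (nat_lit 97)) (XT.lf (nat_lit 0) (nat_lit 43932678129) (nat_lit 228) (nat_lit 21056335394) (nat_lit 76) (nat_lit 793323493) (nat_lit 32) (nat_lit 5) (nat_lit 35) (nat_lit 5) (nat_lit 33) (nat_lit 5) (nat_lit 383) (nat_lit 301) (nat_lit 96)))))) (XT.nd (nat_lit 34632) (nat_lit 0) (nat_lit 10564) (XT.nd (nat_lit 34398) (nat_lit 0) (nat_lit 11476) (XT.nd (nat_lit 34242) (nat_lit 0) (nat_lit 11400) (XT.lf (nat_lit 0) (nat_lit 1497886407) (nat_lit 152) (nat_lit 52613029661) (nat_lit 228) (nat_lit 13215226620) (nat_lit 30) (nat_lit 5) (nat_lit 32) (nat_lit 5) (nat_lit 33) (nat_lit 5) (nat_lit 384) (nat_lit 301) (nat_lit 95)) (XT.nd (nat_lit 78) (nat_lit 0) (nat_lit 0) (XT.lf (nat_lit 0) (nat_lit 4637031352) (nat_lit 1140) (nat_lit 1283978647) (nat_lit 1140) (nat_lit 1283978647) (nat_lit 180) (nat_lit 3) (nat_lit 195) (nat_lit 3) (nat_lit 195) (nat_lit 5) (nat_lit 302)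 (nat_lit 302) (nat_lit 176)) (XT.lf (nat_lit 76) (nat_lit 3791065295) (nat_lit 0) (nat_lit 5956970022) (nat_lit 1140) (nat_lit 4867506999) (nat_lit 181) (nat_lit 5) (nat_lit 180) (nat_lit 3) (nat_lit 195) (nat_lit 5) (nat_lit 303) (nat_lit 302) (nat_lit 175)))) (XT.nd (nat_lit 78) (nat_lit 0) (nat_lit 0) (XT.lf (nat_lit 0) (nat_lit 10251769194) (nat_lit 1064) (nat_lit 4440813543) (nat_lit 1140) (nat_lit 134246319) (nat_lit 181) (nat_lit 5) (nat_lit 195) (nat_lit 5) (nat_lit 196) (nat_lit 5) (nat_lit 304) (nat_lit 302) (nat_lit 174)) (XT.nd (nat_lit 78) (nat_lit 0) (nat_lit 0) (XT.lf (nat_lit 76) (nat_lit 2110194487) (nat_lit 0) (nat_lit 8728372575) (nat_lit 1140) (nat_lit 4203869191) (nat_lit 182) (nat_lit 5) (nat_lit 181) (nat_lit 5) (nat_lit 196) (nat_lit 5) (nat_lit 305) (nat_lit 302) (nat_lit 173)) (XT.lf (nat_lit 76) (nat_lit 8942464517) (nat_lit 0) (nat_lit 2534304376) (nat_lit 1140) (nat_lit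 3786748592) (nat_lit 182) (nat_lit 5) (nat_lit 181) (nat_lit 5) (nat_lit 196) (nat_lit 5) (nat_lit 306) (nat_lit 302) (nat_lit 172))))) (XT.nd (nat_lit 234) (nat_lit 988) (nat_lit 0) (XT.nd (nat_lit 78) (nat_lit 0) (nat_lit 0) (XT.lf (nat_lit 76) (nat_lit 453859589) (nat_lit 0) (nat_lit 11710908527) (nat_lit 1140) (nat_lit 3325562742) (nat_lit 183) (nat_lit 5) (nat_lit 182) (nat_lit 5) (nat_lit 197) (nat_lit 5) (nat_lit 307) (nat_lit 302) (nat_lit 171)) (XT.nd (nat_lit 78) (nat_lit 0) (nat_lit 76) (XT.lf (nat_lit 76) (nat_lit 7529564941) (nat_lit 0) (nat_lit 5422090279) (nat_lit 1140) (nat_lit 2769964657) (nat_lit 183) (nat_lit 5) (nat_lit 182) (nat_lit 5) (nat_lit 197) (nat_lit 5) (nat_lit 308) (nat_lit 302) (nat_lit 170)) (XT.lf (nat_lit 0) (nat_lit 13762206538) (nat_lit 1064) (nat_lit 1159061247) (nat_lit 1140) (nat_lit 1038596192) (nat_lit 183) (nat_lit 5) (nat_lit 197) (nat_lit 5) (nat_lit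 198) (nat_lit 5) (nat_lit 309) (nat_lit 302) (nat_lit 169)))) (XT.nd (nat_lit 78) (nat_lit 1064) (nat_lit 0) (XT.lf (nat_lit 76) (nat_lit 6144726403) (nat_lit 0) (nat_lit 8555305254) (nat_lit 1140) (nat_lit 1502152635) (nat_lit 184) (nat_lit 5) (nat_lit 183) (nat_lit 5) (nat_lit 198) (nat_lit 5) (nat_lit 310) (nat_lit 302) (nat_lit 168)) (XT.nd (nat_lit 78) (nat_lit 1064) (nat_lit 0) (XT.lf (nat_lit 76) (nat_lit 13685032690) (nat_lit 0) (nat_lit 1983093585) (nat_lit 1140) (nat_lit 783600995) (nat_lit 184) (nat_lit 5) (nat_lit 183) (nat_lit 5) (nat_lit 198) (nat_lit 5) (nat_lit 311) (nat_lit 302) (nat_lit 167)) (XT.lf (nat_lit 0) (nat_lit 40889875) (nat_lit 1140) (nat_lit 11923058078) (nat_lit 1216) (nat_lit 4742331224) (nat_lit 169) (nat_lit 5) (nat_lit 184) (nat_lit 5) (nat_lit 185) (nat_lit 5) (nat_lit 312) (nat_lit 302) (nat_lit 166))))))))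
noncomputable def xc208 : XT := (XT.nd (nat_lit 1794) (nat_lit 4028) (nat_lit 0) (XT.nd (nat_lit 858) (nat_lit 2660) (nat_lit 0) (XT.nd (nat_lit 390) (nat_lit 1444) (nat_lit 0) (XT.nd (nat_lit 156) (nat_lit 0) (nat_lit 76) (XT.nd (nat_lit 78) (nat_lit 0) (nat_lit 76) (XT.lf (nat_lit 0) (nat_lit 913056968) (nat_lit 1140) (nat_lit 4385579442) (nat_lit 1216) (nat_lit 11668453392) (nat_lit 169) (nat_lit 5) (nat_lit 184) (nat_lit 5) (nat_lit 185) (nat_lit 5) (nat_lit 313) (nat_lit 302) (nat_lit 165)) (XT.lf (nat_lit 0) (nat_lit 1850962631) (nat_lit 1140) (nat_lit 13811736625) (nat_lit 1216) (nat_lit 1571853473) (nat_lit 170) (nat_lit 5) (nat_lit 185) (nat_lit 5) (nat_lit 186) (nat_lit 5) (nat_lit 314) (nat_lit 302) (nat_lit 164))) (XT.nd (nat_lit 78) (nat_lit 0) (nat_lit 0) (XT.lf (nat_lit 0) (nat_lit 2905519915) (nat_lit 1140) (nat_lit 6012918381) (nat_lit 1216) (nat_lit 8588960563) (nat_lit 170)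 (nat_lit 5) (nat_lit 185) (nat_lit 5) (nat_lit 186) (nat_lit 5) (nat_lit 315) (nat_lit 302) (nat_lit 163)) (XT.nd (nat_lit 78) (nat_lit 0) (nat_lit 76) (XT.lf (nat_lit 76) (nat_lit 2053458284) (nat_lit 0) (nat_lit 1949575774) (nat_lit 1216) (nat_lit 13785071028) (nat_lit 171) (nat_lit 5) (nat_lit 170) (nat_lit 5) (nat_lit 186) (nat_lit 5) (nat_lit 316) (nat_lit 302) (nat_lit 162)) (XT.lf (nat_lit 0) (nat_lit 5236833743) (nat_lit 1140) (nat_lit 7647876537) (nat_lit 1216) (nat_lit 5189435320) (nat_lit 171) (nat_lit 5) (nat_lit 186) (nat_lit 5) (nat_lit 187) (nat_lit 5) (nat_lit 317) (nat_lit 302) (nat_lit 161))))) (XT.nd (nat_lit 234) (nat_lit 1596) (nat_lit 0) (XT.nd (nat_lit 78) (nat_lit 0) (nat_lit 76) (XT.lf (nat_lit 76) (nat_lit 668747192) (nat_lit 0) (nat_lit 5856652847) (nat_lit 1216) (nat_lit 11842848207) (nat_lit 172) (nat_lit 5) (nat_lit 171) (nat_lit 5) (nat_lit 187) (nat_lit 5) (nat_lit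 318) (nat_lit 302) (nat_lit 160)) (XT.nd (nat_lit 78) (nat_lit 0) (nat_lit 0) (XT.lf (nat_lit 0) (nat_lit 7936108770) (nat_lit 1140) (nat_lit 9297958597) (nat_lit 76) (nat_lit 1434615145) (nat_lit 172) (nat_lit 5) (nat_lit 187) (nat_lit 5) (nat_lit 173) (nat_lit 5) (nat_lit 319) (nat_lit 302) (nat_lit 159)) (XT.lf (nat_lit 0) (nat_lit 9439557706) (nat_lit 1140) (nat_lit 708855023) (nat_lit 76) (nat_lit 8828217230) (nat_lit 172) (nat_lit 5) (nat_lit 187) (nat_lit 5) (nat_lit 173) (nat_lit 5) (nat_lit 320) (nat_lit 302) (nat_lit 158)))) (XT.nd (nat_lit 78) (nat_lit 532) (nat_lit 0) (XT.lf (nat_lit 0) (nat_lit 8293447472) (nat_lit 1140) (nat_lit 2767037030) (nat_lit 1216) (nat_lit 8231172448) (nat_lit 157) (nat_lit 5) (nat_lit 172) (nat_lit 5) (nat_lit 173) (nat_lit 5) (nat_lit 321) (nat_lit 302) (nat_lit 157)) (XT.nd (nat_lit 78) (nat_lit 532) (nat_lit 0) (XT.lf (nat_lit 0) (nat_lit 12776568234)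 (nat_lit 1216) (nat_lit 2088609729) (nat_lit 76) (nat_lit 4749572903) (nat_lit 157) (nat_lit 5) (nat_lit 173) (nat_lit 5) (nat_lit 158) (nat_lit 5) (nat_lit 322) (nat_lit 302) (nat_lit 156)) (XT.lf (nat_lit 0) (nat_lit 7194986317) (nat_lit 532) (nat_lit 7438732168) (nat_lit 608) (nat_lit 5311143238) (nat_lit 150) (nat_lit 5) (nat_lit 157) (nat_lit 5) (nat_lit 158) (nat_lit 5) (nat_lit 323) (nat_lit 302) (nat_lit 155)))))) (XT.nd (nat_lit 468) (nat_lit 912) (nat_lit 0) (XT.nd (nat_lit 234) (nat_lit 1140) (nat_lit 0) (XT.nd (nat_lit 78) (nat_lit 608) (nat_lit 0) (XT.lf (nat_lit 0) (nat_lit 16563080423) (nat_lit 608) (nat_lit 3493026501) (nat_lit 76) (nat_lit 228285370) (nat_lit 150) (nat_lit 5) (nat_lit 158) (nat_lit 5) (nat_lit 151) (nat_lit 5) (nat_lit 324) (nat_lit 302) (nat_lit 154)) (XT.nd (nat_lit 78) (nat_lit 0) (nat_lit 0) (XT.lf (nat_lit 0) (nat_lit 6080257131) (nat_lit 608) (nat_lit 12595536842)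 (nat_lit 684) (nat_lit 1954561660) (nat_lit 142) (nat_lit 5) (nat_lit 150) (nat_lit 5) (nat_lit 151) (nat_lit 5) (nat_lit 325) (nat_lit 302) (nat_lit 153)) (XT.lf (nat_lit 0) (nat_lit 16006136694) (nat_lit 608) (nat_lit 4874531112) (nat_lit 684) (nat_lit 105177354) (nat_lit 142) (nat_lit 5) (nat_lit 150) (nat_lit 5) (nat_lit 151) (nat_lit 5) (nat_lit 326) (nat_lit 302) (nat_lit 152)))) (XT.nd (nat_lit 78) (nat_lit 532) (nat_lit 0) (XT.lf (nat_lit 0) (nat_lit 1836017470) (nat_lit 608) (nat_lit 16429545302) (nat_lit 76) (nat_lit 3083784230) (nat_lit 134) (nat_lit 5) (nat_lit 142) (nat_lit 5) (nat_lit 135) (nat_lit 5) (nat_lit 327) (nat_lit 302) (nat_lit 151)) (XT.nd (nat_lit 78) (nat_lit 532) (nat_lit 0) (XT.lf (nat_lit 0) (nat_lit 3926131277) (nat_lit 608) (nat_lit 6559971606) (nat_lit 76) (nat_lit 11234845614) (nat_lit 134) (nat_lit 5) (nat_lit 142) (nat_lit 5) (nat_lit 135) (nat_lit 5) (nat_lit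 328) (nat_lit 302) (nat_lit 150)) (XT.lf (nat_lit 0) (nat_lit 3671210697) (nat_lit 532) (nat_lit 2436960975) (nat_lit 608) (nat_lit 15994659136) (nat_lit 127) (nat_lit 5) (nat_lit 134) (nat_lit 5) (nat_lit 135) (nat_lit 5) (nat_lit 329) (nat_lit 302) (nat_lit 149))))) (XT.nd (nat_lit 234) (nat_lit 456) (nat_lit 0) (XT.nd (nat_lit 78) (nat_lit 456) (nat_lit 0) (XT.lf (nat_lit 0) (nat_lit 8472891594) (nat_lit 608) (nat_lit 8213549397) (nat_lit 76) (nat_lit 5806221238) (nat_lit 127) (nat_lit 5) (nat_lit 135) (nat_lit 5) (nat_lit 128) (nat_lit 5) (nat_lit 330) (nat_lit 302) (nat_lit 148)) (XT.nd (nat_lit 78) (nat_lit 0) (nat_lit 0) (XT.lf (nat_lit 0) (nat_lit 2326267051) (nat_lit 456) (nat_lit 8622999850) (nat_lit 532) (nat_lit 11943709200) (nat_lit 121) (nat_lit 5) (nat_lit 127) (nat_lit 5) (nat_lit 128) (nat_lit 5) (nat_lit 331) (nat_lit 302) (nat_lit 147)) (XT.lf (nat_lit 0) (nat_lit 13344645225)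 (nat_lit 456) (nat_lit 232563483) (nat_lit 532) (nat_lit 9725781088) (nat_lit 121) (nat_lit 5) (nat_lit 127) (nat_lit 5) (nat_lit 128) (nat_lit 5) (nat_lit 332) (nat_lit 302) (nat_lit 146)))) (XT.nd (nat_lit 78) (nat_lit 0) (nat_lit 0) (XT.lf (nat_lit 0) (nat_lit 898977108) (nat_lit 456) (nat_lit 15468987630) (nat_lit 532) (nat_lit 7354828295) (nat_lit 115) (nat_lit 5) (nat_lit 121) (nat_lit 5) (nat_lit 122) (nat_lit 5) (nat_lit 333) (nat_lit 302) (nat_lit 145)) (XT.nd (nat_lit 78) (nat_lit 0) (nat_lit 0) (XT.lf (nat_lit 0) (nat_lit 12277867178) (nat_lit 456) (nat_lit 7062015634) (nat_lit 532) (nat_lit 4812392540) (nat_lit 115) (nat_lit 5) (nat_lit 121) (nat_lit 5) (nat_lit 122) (nat_lit 5) (nat_lit 334) (nat_lit 302) (nat_lit 144)) (XT.lf (nat_lit 0) (nat_lit 22411063202) (nat_lit 532) (nat_lit 617797460) (nat_lit 76) (nat_lit 1565486263) (nat_lit 115) (nat_lit 5) (nat_lit 122) (nat_lit 5) (nat_lit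 116) (nat_lit 5) (nat_lit 335) (nat_lit 302) (nat_lit 143))))))) (XT.nd (nat_lit 936) (nat_lit 1596) (nat_lit 0) (XT.nd (nat_lit 468) (nat_lit 1140) (nat_lit 0) (XT.nd (nat_lit 234) (nat_lit 380) (nat_lit 0) (XT.nd (nat_lit 78) (nat_lit 456) (nat_lit 0) (XT.lf (nat_lit 0) (nat_lit 687848617) (nat_lit 456) (nat_lit 13933496128) (nat_lit 76) (nat_lit 10422990391) (nat_lit 109) (nat_lit 5) (nat_lit 115) (nat_lit 5) (nat_lit 110) (nat_lit 5) (nat_lit 336) (nat_lit 302) (nat_lit 142)) (XT.nd (nat_lit 78) (nat_lit 456) (nat_lit 0) (XT.lf (nat_lit 0) (nat_lit 3602474893) (nat_lit 456) (nat_lit 2331120705) (nat_lit 76) (nat_lit 19573548897) (nat_lit 109) (nat_lit 5) (nat_lit 115) (nat_lit 5) (nat_lit 110) (nat_lit 5) (nat_lit 337) (nat_lit 302) (nat_lit 141)) (XT.lf (nat_lit 0) (nat_lit 6723786830) (nat_lit 532) (nat_lit 16206050045) (nat_lit 76) (nat_lit 3050430896) (nat_lit 103) (nat_lit 5) (nat_lit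 110) (nat_lit 5) (nat_lit 104) (nat_lit 5) (nat_lit 338) (nat_lit 302) (nat_lit 140)))) (XT.nd (nat_lit 78) (nat_lit 380) (nat_lit 0) (XT.lf (nat_lit 0) (nat_lit 10016430340) (nat_lit 532) (nat_lit 4241083190) (nat_lit 76) (nat_lit 12207747288) (nat_lit 103) (nat_lit 5) (nat_lit 110) (nat_lit 5) (nat_lit 104) (nat_lit 5) (nat_lit 339) (nat_lit 302) (nat_lit 139)) (XT.nd (nat_lit 78) (nat_lit 0) (nat_lit 0) (XT.lf (nat_lit 0) (nat_lit 8238027919) (nat_lit 380) (nat_lit 5244325780) (nat_lit 456) (nat_lit 13480221581) (nat_lit 98) (nat_lit 5) (nat_lit 103) (nat_lit 5) (nat_lit 104) (nat_lit 5) (nat_lit 340) (nat_lit 302) (nat_lit 138)) (XT.lf (nat_lit 0) (nat_lit 17129719811) (nat_lit 456) (nat_lit 6339965610) (nat_lit 76) (nat_lit 4002806249) (nat_lit 98) (nat_lit 5) (nat_lit 104) (nat_lit 5) (nat_lit 99) (nat_lit 5) (nat_lit 341) (nat_lit 302) (nat_lit 137))))) (XT.nd (nat_lit 234) (nat_lit 380)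 (nat_lit 0) (XT.nd (nat_lit 78) (nat_lit 380) (nat_lit 0) (XT.lf (nat_lit 0) (nat_lit 6485305715) (nat_lit 380) (nat_lit 14510986893) (nat_lit 456) (nat_lit 6998125630) (nat_lit 93) (nat_lit 5) (nat_lit 98) (nat_lit 5) (nat_lit 99) (nat_lit 5) (nat_lit 342) (nat_lit 302) (nat_lit 136)) (XT.nd (nat_lit 78) (nat_lit 380) (nat_lit 0) (XT.lf (nat_lit 0) (nat_lit 19819876406) (nat_lit 380) (nat_lit 5218606703) (nat_lit 456) (nat_lit 3491736956) (nat_lit 93) (nat_lit 5) (nat_lit 98) (nat_lit 5) (nat_lit 99) (nat_lit 5) (nat_lit 343) (nat_lit 302) (nat_lit 135)) (XT.lf (nat_lit 0) (nat_lit 199241609) (nat_lit 380) (nat_lit 24568397122) (nat_lit 76) (nat_lit 4311976277) (nat_lit 88) (nat_lit 5) (nat_lit 93) (nat_lit 5) (nat_lit 89) (nat_lit 5) (nat_lit 344) (nat_lit 302) (nat_lit 134)))) (XT.nd (nat_lit 78) (nat_lit 380) (nat_lit 0) (XT.lf (nat_lit 0) (nat_lit 4067010796) (nat_lit 380) (nat_lit 11427411098)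 (nat_lit 76) (nat_lit 14145951065) (nat_lit 88) (nat_lit 5) (nat_lit 93) (nat_lit 5) (nat_lit 89) (nat_lit 5) (nat_lit 345) (nat_lit 302) (nat_lit 133)) (XT.nd (nat_lit 78) (nat_lit 0) (nat_lit 0) (XT.lf (nat_lit 0) (nat_lit 2144381230) (nat_lit 380) (nat_lit 5922912980) (nat_lit 456) (nat_lit 22150170404) (nat_lit 83) (nat_lit 5) (nat_lit 88) (nat_lit 5) (nat_lit 89) (nat_lit 5) (nat_lit 346) (nat_lit 302) (nat_lit 132)) (XT.lf (nat_lit 0) (nat_lit 12337883000) (nat_lit 456) (nat_lit 14495136630) (nat_lit 76) (nat_lit 3974345723) (nat_lit 83) (nat_lit 5) (nat_lit 89) (nat_lit 5) (nat_lit 84) (nat_lit 5) (nat_lit 347) (nat_lit 302) (nat_lit 131)))))) (XT.nd (nat_lit 468) (nat_lit 608) (nat_lit 0) (XT.nd (nat_lit 234) (nat_lit 684) (nat_lit 0) (XT.nd (nat_lit 78) (nat_lit 304) (nat_lit 0) (XT.lf (nat_lit 0) (nat_lit 16791277939) (nat_lit 456) (nat_lit 573671095) (nat_lit 76) (nat_lit 14048378513)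 (nat_lit 83) (nat_lit 5) (nat_lit 89) (nat_lit 5) (nat_lit 84) (nat_lit 5) (nat_lit 348) (nat_lit 302) (nat_lit 130)) (XT.nd (nat_lit 78) (nat_lit 0) (nat_lit 0) (XT.lf (nat_lit 0) (nat_lit 14034271455) (nat_lit 304) (nat_lit 7475070227) (nat_lit 380) (nat_lit 10524199856) (nat_lit 79) (nat_lit 5) (nat_lit 83) (nat_lit 5) (nat_lit 84) (nat_lit 5) (nat_lit 349) (nat_lit 302) (nat_lit 129)) (XT.lf (nat_lit 0) (nat_lit 26397075671) (nat_lit 380) (nat_lit 3611181541) (nat_lit 76) (nat_lit 2663265685) (nat_lit 79) (nat_lit 5) (nat_lit 84) (nat_lit 5) (nat_lit 80) (nat_lit 5) (nat_lit 350) (nat_lit 302) (nat_lit 128)))) (XT.nd (nat_lit 78) (nat_lit 380) (nat_lit 0) (XT.lf (nat_lit 0) (nat_lit 11351104702) (nat_lit 304) (nat_lit 20259785004) (nat_lit 380) (nat_lit 1712375207) (nat_lit 75) (nat_lit 5) (nat_lit 79) (nat_lit 5) (nat_lit 80) (nat_lit 5) (nat_lit 351) (nat_lit 302) (nat_lit 127)) (XT.nd (nat_lit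 78) (nat_lit 304) (nat_lit 0) (XT.lf (nat_lit 0) (nat_lit 2961450883) (nat_lit 380) (nat_lit 7191213751) (nat_lit 76) (nat_lit 23840042572) (nat_lit 74) (nat_lit 5) (nat_lit 79) (nat_lit 5) (nat_lit 75) (nat_lit 5) (nat_lit 352) (nat_lit 302) (nat_lit 126)) (XT.lf (nat_lit 0) (nat_lit 7819477945) (nat_lit 380) (nat_lit 26512059078) (nat_lit 76) (nat_lit 347839283) (nat_lit 70) (nat_lit 5) (nat_lit 75) (nat_lit 5) (nat_lit 71) (nat_lit 5) (nat_lit 353) (nat_lit 302) (nat_lit 125))))) (XT.nd (nat_lit 234) (nat_lit 304) (nat_lit 0) (XT.nd (nat_lit 78) (nat_lit 304) (nat_lit 0) (XT.lf (nat_lit 0) (nat_lit 12993598644) (nat_lit 380) (nat_lit 11356559255) (nat_lit 76) (nat_lit 11031381133) (nat_lit 70) (nat_lit 5) (nat_lit 75) (nat_lit 5) (nat_lit 71) (nat_lit 5) (nat_lit 354) (nat_lit 302) (nat_lit 124)) (XT.nd (nat_lit 78) (nat_lit 0) (nat_lit 0) (XT.lf (nat_lit 0) (nat_lit 4333439541) (nat_lit 304)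 (nat_lit 14027756428) (nat_lit 380) (nat_lit 17742427098) (nat_lit 66) (nat_lit 5) (nat_lit 70) (nat_lit 5) (nat_lit 71) (nat_lit 5) (nat_lit 355) (nat_lit 302) (nat_lit 123)) (XT.lf (nat_lit 0) (nat_lit 20722255940) (nat_lit 304) (nat_lit 3278895700) (nat_lit 380) (nat_lit 12842881969) (nat_lit 66) (nat_lit 5) (nat_lit 70) (nat_lit 5) (nat_lit 71) (nat_lit 5) (nat_lit 356) (nat_lit 302) (nat_lit 122)))) (XT.nd (nat_lit 78) (nat_lit 304) (nat_lit 0) (XT.lf (nat_lit 0) (nat_lit 29881948139) (nat_lit 380) (nat_lit 83458494) (nat_lit 76) (nat_lit 7639104357) (nat_lit 66) (nat_lit 5) (nat_lit 71) (nat_lit 5) (nat_lit 67) (nat_lit 5) (nat_lit 357) (nat_lit 302) (nat_lit 121)) (XT.nd (nat_lit 78) (nat_lit 76) (nat_lit 0) (XT.lf (nat_lit 0) (nat_lit 16725420848) (nat_lit 228) (nat_lit 19403818572) (nat_lit 304) (nat_lit 2252864822) (nat_lit 63) (nat_lit 5) (nat_lit 66) (nat_lit 5) (nat_lit 67) (nat_lit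 5) (nat_lit 358) (nat_lit 302) (nat_lit 120)) (XT.lf (nat_lit 0) (nat_lit 3312647934) (nat_lit 304) (nat_lit 5179750893) (nat_lit 76) (nat_lit 30689724009) (nat_lit 62) (nat_lit 5) (nat_lit 66) (nat_lit 5) (nat_lit 63) (nat_lit 5) (nat_lit 359) (nat_lit 302) (nat_lit 119))))))))
noncomputable def xc209 : XT := (XT.nd (nat_lit 1794) (nat_lit 152) (nat_lit 0) (XT.nd (nat_lit 858) (nat_lit 836) (nat_lit 0) (XT.nd (nat_lit 390) (nat_lit 760) (nat_lit 0) (XT.nd (nat_lit 156) (nat_lit 228) (nat_lit 0) (XT.nd (nat_lit 78) (nat_lit 0) (nat_lit 0) (XT.lf (nat_lit 0) (nat_lit 9139875186) (nat_lit 380) (nat_lit 28030919875) (nat_lit 76) (nat_lit 2830480240) (nat_lit 58) (nat_lit 5) (nat_lit 63) (nat_lit 5) (nat_lit 59) (nat_lit 5) (nat_lit 360) (nat_lit 302) (nat_lit 118)) (XT.lf (nat_lit 0) (nat_lit 15275798737) (nat_lit 380) (nat_lit 11191316076) (nat_lit 76) (nat_lit 14373874410) (nat_lit 58) (nat_lit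 5) (nat_lit 63) (nat_lit 5) (nat_lit 59) (nat_lit 5) (nat_lit 361) (nat_lit 302) (nat_lit 117))) (XT.nd (nat_lit 78) (nat_lit 0) (nat_lit 0) (XT.lf (nat_lit 0) (nat_lit 6271558854) (nat_lit 228) (nat_lit 15381588485) (nat_lit 304) (nat_lit 20051029973) (nat_lit 55) (nat_lit 5) (nat_lit 58) (nat_lit 5) (nat_lit 59) (nat_lit 5) (nat_lit 362) (nat_lit 302) (nat_lit 116)) (XT.nd (nat_lit 78) (nat_lit 0) (nat_lit 0) (XT.lf (nat_lit 0) (nat_lit 24483475488) (nat_lit 228) (nat_lit 3848457230) (nat_lit 304) (nat_lit 14258027915) (nat_lit 55) (nat_lit 5) (nat_lit 58) (nat_lit 5) (nat_lit 59) (nat_lit 5) (nat_lit 363) (nat_lit 302) (nat_lit 115)) (XT.lf (nat_lit 0) (nat_lit 35285454909) (nat_lit 304) (nat_lit 341969703) (nat_lit 76) (nat_lit 7872664633) (nat_lit 55) (nat_lit 5) (nat_lit 59) (nat_lit 5) (nat_lit 56) (nat_lit 5) (nat_lit 364) (nat_lit 302) (nat_lit 114))))) (XT.nd (nat_lit 234) (nat_lit 228)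 (nat_lit 0) (XT.nd (nat_lit 78) (nat_lit 304) (nat_lit 0) (XT.lf (nat_lit 0) (nat_lit 18269803671) (nat_lit 228) (nat_lit 24388762923) (nat_lit 304) (nat_lit 1772628509) (nat_lit 52) (nat_lit 5) (nat_lit 55) (nat_lit 5) (nat_lit 56) (nat_lit 5) (nat_lit 365) (nat_lit 302) (nat_lit 113)) (XT.nd (nat_lit 78) (nat_lit 228) (nat_lit 0) (XT.lf (nat_lit 0) (nat_lit 4768508553) (nat_lit 304) (nat_lit 7994067761) (nat_lit 76) (nat_lit 32626235520) (nat_lit 51) (nat_lit 5) (nat_lit 55) (nat_lit 5) (nat_lit 52) (nat_lit 5) (nat_lit 366) (nat_lit 302) (nat_lit 112)) (XT.lf (nat_lit 0) (nat_lit 10909629776) (nat_lit 228) (nat_lit 662842605) (nat_lit 304) (nat_lit 34799094195) (nat_lit 48) (nat_lit 5) (nat_lit 51) (nat_lit 5) (nat_lit 52) (nat_lit 5) (nat_lit 367) (nat_lit 302) (nat_lit 111)))) (XT.nd (nat_lit 78) (nat_lit 228) (nat_lit 0) (XT.lf (nat_lit 0) (nat_lit 18772883643) (nat_lit 304) (nat_lit 16955310664)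 (nat_lit 76) (nat_lit 11649842377) (nat_lit 48) (nat_lit 5) (nat_lit 52) (nat_lit 5) (nat_lit 49) (nat_lit 5) (nat_lit 368) (nat_lit 302) (nat_lit 110)) (XT.nd (nat_lit 78) (nat_lit 0) (nat_lit 0) (XT.lf (nat_lit 0) (nat_lit 2137773646) (nat_lit 228) (nat_lit 24076099536) (nat_lit 304) (nat_lit 22200093238) (nat_lit 45) (nat_lit 5) (nat_lit 48) (nat_lit 5) (nat_lit 49) (nat_lit 5) (nat_lit 369) (nat_lit 302) (nat_lit 109)) (XT.lf (nat_lit 0) (nat_lit 22147362428) (nat_lit 228) (nat_lit 11899436035) (nat_lit 304) (nat_lit 15429116835) (nat_lit 45) (nat_lit 5) (nat_lit 48) (nat_lit 5) (nat_lit 49) (nat_lit 5) (nat_lit 370) (nat_lit 302) (nat_lit 108)))))) (XT.nd (nat_lit 468) (nat_lit 380) (nat_lit 0) (XT.nd (nat_lit 234) (nat_lit 228) (nat_lit 0) (XT.nd (nat_lit 78) (nat_lit 228) (nat_lit 0) (XT.lf (nat_lit 0) (nat_lit 42118439058) (nat_lit 304) (nat_lit 7822466034) (nat_lit 76) (nat_lit 628708082)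 (nat_lit 45) (nat_lit 5) (nat_lit 49) (nat_lit 5) (nat_lit 46) (nat_lit 5) (nat_lit 371) (nat_lit 302) (nat_lit 107)) (XT.nd (nat_lit 78) (nat_lit 76) (nat_lit 0) (XT.lf (nat_lit 0) (nat_lit 12389047092) (nat_lit 152) (nat_lit 38277711589) (nat_lit 228) (nat_lit 1022329701) (nat_lit 43) (nat_lit 5) (nat_lit 45) (nat_lit 5) (nat_lit 46) (nat_lit 5) (nat_lit 372) (nat_lit 302) (nat_lit 106)) (XT.lf (nat_lit 0) (nat_lit 6577421833) (nat_lit 228) (nat_lit 19540735480) (nat_lit 76) (nat_lit 26719758778) (nat_lit 42) (nat_lit 5) (nat_lit 45) (nat_lit 5) (nat_lit 43) (nat_lit 5) (nat_lit 373) (nat_lit 302) (nat_lit 105)))) (XT.nd (nat_lit 78) (nat_lit 0) (nat_lit 0) (XT.lf (nat_lit 0) (nat_lit 813501654) (nat_lit 228) (nat_lit 13576636522) (nat_lit 304) (nat_lit 39630603287) (nat_lit 39) (nat_lit 5) (nat_lit 42) (nat_lit 5) (nat_lit 43) (nat_lit 5) (nat_lit 374) (nat_lit 302) (nat_lit 104)) (XT.nd (nat_lit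 78) (nat_lit 0) (nat_lit 0) (XT.lf (nat_lit 0) (nat_lit 22175366996) (nat_lit 228) (nat_lit 456925045) (nat_lit 304) (nat_lit 32600909909) (nat_lit 39) (nat_lit 5) (nat_lit 42) (nat_lit 5) (nat_lit 43) (nat_lit 5) (nat_lit 375) (nat_lit 302) (nat_lit 103)) (XT.lf (nat_lit 0) (nat_lit 31245003251) (nat_lit 304) (nat_lit 12432970736) (nat_lit 76) (nat_lit 12800365458) (nat_lit 39) (nat_lit 5) (nat_lit 43) (nat_lit 5) (nat_lit 40) (nat_lit 5) (nat_lit 376) (nat_lit 302) (nat_lit 102))))) (XT.nd (nat_lit 234) (nat_lit 228) (nat_lit 0) (XT.nd (nat_lit 78) (nat_lit 0) (nat_lit 0) (XT.lf (nat_lit 0) (nat_lit 8977891947) (nat_lit 152) (nat_lit 31226880149) (nat_lit 228) (nat_lit 17553400600) (nat_lit 37) (nat_lit 5) (nat_lit 39) (nat_lit 5) (nat_lit 40) (nat_lit 5) (nat_lit 377) (nat_lit 302) (nat_lit 101)) (XT.nd (nat_lit 78) (nat_lit 0) (nat_lit 0) (XT.lf (nat_lit 0) (nat_lit 31282563239) (nat_lit 152)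 (nat_lit 18274200777) (nat_lit 228) (nat_lit 9515935891) (nat_lit 37) (nat_lit 5) (nat_lit 39) (nat_lit 5) (nat_lit 40) (nat_lit 5) (nat_lit 378) (nat_lit 302) (nat_lit 100)) (XT.lf (nat_lit 0) (nat_lit 54253092162) (nat_lit 152) (nat_lit 4934166622) (nat_lit 228) (nat_lit 1239467665) (nat_lit 37) (nat_lit 5) (nat_lit 39) (nat_lit 5) (nat_lit 40) (nat_lit 5) (nat_lit 379) (nat_lit 302) (nat_lit 99)))) (XT.nd (nat_lit 78) (nat_lit 0) (nat_lit 0) (XT.lf (nat_lit 0) (nat_lit 7385039917) (nat_lit 228) (nat_lit 45564614484) (nat_lit 76) (nat_lit 8862362941) (nat_lit 34) (nat_lit 5) (nat_lit 37) (nat_lit 5) (nat_lit 35) (nat_lit 5) (nat_lit 380) (nat_lit 302) (nat_lit 98)) (XT.nd (nat_lit 78) (nat_lit 0) (nat_lit 0) (XT.lf (nat_lit 0) (nat_lit 16353180600) (nat_lit 228) (nat_lit 23834361370) (nat_lit 76) (nat_lit 23047664189) (nat_lit 34) (nat_lit 5) (nat_lit 37) (nat_lit 5) (nat_lit 35) (nat_lit 5)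 (nat_lit 381) (nat_lit 302) (nat_lit 97)) (XT.lf (nat_lit 0) (nat_lit 25588421781) (nat_lit 228) (nat_lit 1455352985) (nat_lit 76) (nat_lit 37657375793) (nat_lit 34) (nat_lit 5) (nat_lit 37) (nat_lit 5) (nat_lit 35) (nat_lit 5) (nat_lit 382) (nat_lit 302) (nat_lit 96))))))) (XT.nd (nat_lit 35178) (nat_lit 0) (nat_lit 8968) (XT.nd (nat_lit 34710) (nat_lit 0) (nat_lit 11324) (XT.nd (nat_lit 34476) (nat_lit 0) (nat_lit 11248) (XT.nd (nat_lit 78) (nat_lit 0) (nat_lit 0) (XT.lf (nat_lit 0) (nat_lit 22021687587) (nat_lit 152) (nat_lit 13288831433) (nat_lit 228) (nat_lit 30894261867) (nat_lit 32) (nat_lit 5) (nat_lit 34) (nat_lit 5) (nat_lit 35) (nat_lit 5) (nat_lit 383) (nat_lit 302) (nat_lit 95)) (XT.nd (nat_lit 34320) (nat_lit 0) (nat_lit 11248) (XT.lf (nat_lit 0) (nat_lit 45345695560) (nat_lit 228) (nat_lit 21531875855) (nat_lit 76) (nat_lit 875307732) (nat_lit 32) (nat_lit 5) (nat_lit 35) (nat_lit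 5) (nat_lit 33) (nat_lit 5) (nat_lit 384) (nat_lit 302) (nat_lit 94)) (XT.lf (nat_lit 0) (nat_lit 5071693335) (nat_lit 1140) (nat_lit 1170022416) (nat_lit 1140) (nat_lit 1170022416) (nat_lit 180) (nat_lit 3) (nat_lit 195) (nat_lit 3) (nat_lit 195) (nat_lit 5) (nat_lit 303) (nat_lit 303) (nat_lit 174)))) (XT.nd (nat_lit 78) (nat_lit 0) (nat_lit 0) (XT.lf (nat_lit 76) (nat_lit 4206758717) (nat_lit 0) (nat_lit 6410505818) (nat_lit 1140) (nat_lit 4418404279) (nat_lit 181) (nat_lit 5) (nat_lit 180) (nat_lit 3) (nat_lit 195) (nat_lit 5) (nat_lit 304) (nat_lit 303) (nat_lit 173)) (XT.nd (nat_lit 78) (nat_lit 0) (nat_lit 76) (XT.lf (nat_lit 76) (nat_lit 10992158741) (nat_lit 0) (nat_lit 125796406) (nat_lit 1140) (nat_lit 4135913844) (nat_lit 181) (nat_lit 5) (nat_lit 180) (nat_lit 3) (nat_lit 195) (nat_lit 5) (nat_lit 305) (nat_lit 303) (nat_lit 172)) (XT.lf (nat_lit 76) (nat_lit 2483963360) (nat_lit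 0) (nat_lit 9223933080) (nat_lit 1140) (nat_lit 3768511079) (nat_lit 182) (nat_lit 5) (nat_lit 181) (nat_lit 5) (nat_lit 196) (nat_lit 5) (nat_lit 306) (nat_lit 303) (nat_lit 171))))) (XT.nd (nat_lit 234) (nat_lit 0) (nat_lit 152) (XT.nd (nat_lit 78) (nat_lit 0) (nat_lit 76) (XT.lf (nat_lit 76) (nat_lit 9512158879) (nat_lit 0) (nat_lit 2837235767) (nat_lit 1140) (nat_lit 3355230479) (nat_lit 182) (nat_lit 5) (nat_lit 181) (nat_lit 5) (nat_lit 196) (nat_lit 5) (nat_lit 307) (nat_lit 303) (nat_lit 170)) (XT.nd (nat_lit 78) (nat_lit 0) (nat_lit 0) (XT.lf (nat_lit 76) (nat_lit 784733640) (nat_lit 0) (nat_lit 12258844251) (nat_lit 1140) (nat_lit 2895126304) (nat_lit 183) (nat_lit 5) (nat_lit 182) (nat_lit 5) (nat_lit 197) (nat_lit 5) (nat_lit 308) (nat_lit 303) (nat_lit 169)) (XT.lf (nat_lit 76) (nat_lit 8063469621) (nat_lit 0) (nat_lit 5775634995) (nat_lit 1140) (nat_lit 2338303092) (nat_lit 183)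 (nat_lit 5) (nat_lit 182) (nat_lit 5) (nat_lit 197) (nat_lit 5) (nat_lit 309) (nat_lit 303) (nat_lit 168)))) (XT.nd (nat_lit 78) (nat_lit 0) (nat_lit 0) (XT.lf (nat_lit 0) (nat_lit 14657659981) (nat_lit 1064) (nat_lit 877606511) (nat_lit 1140) (nat_lit 888048046) (nat_lit 183) (nat_lit 5) (nat_lit 197) (nat_lit 5) (nat_lit 198) (nat_lit 5) (nat_lit 310) (nat_lit 303) (nat_lit 167)) (XT.nd (nat_lit 78) (nat_lit 0) (nat_lit 0) (XT.lf (nat_lit 76) (nat_lit 6642194509) (nat_lit 0) (nat_lit 8970379367) (nat_lit 1140) (nat_lit 1060687239) (nat_lit 184) (nat_lit 5) (nat_lit 183) (nat_lit 5) (nat_lit 198) (nat_lit 5) (nat_lit 311) (nat_lit 303) (nat_lit 166)) (XT.lf (nat_lit 76) (nat_lit 14399589800) (nat_lit 0) (nat_lit 2196387321) (nat_lit 1140) (nat_lit 334749826) (nat_lit 184) (nat_lit 5) (nat_lit 183) (nat_lit 5) (nat_lit 198) (nat_lit 5) (nat_lit 312) (nat_lit 303) (nat_lit 165)))))) (XT.nd (nat_lit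 468) (nat_lit 1444) (nat_lit 0) (XT.nd (nat_lit 234) (nat_lit 0) (nat_lit 76) (XT.nd (nat_lit 78) (nat_lit 0) (nat_lit 0) (XT.lf (nat_lit 0) (nat_lit 493395584) (nat_lit 1140) (nat_lit 11954098422) (nat_lit 1216) (nat_lit 4745664200) (nat_lit 169) (nat_lit 5) (nat_lit 184) (nat_lit 5) (nat_lit 185) (nat_lit 5) (nat_lit 313) (nat_lit 303) (nat_lit 164)) (XT.nd (nat_lit 78) (nat_lit 0) (nat_lit 76) (XT.lf (nat_lit 0) (nat_lit 1378583641) (nat_lit 1140) (nat_lit 4200009545) (nat_lit 1216) (nat_lit 11883616740) (nat_lit 169) (nat_lit 5) (nat_lit 184) (nat_lit 5) (nat_lit 185) (nat_lit 5) (nat_lit 314) (nat_lit 303) (nat_lit 163)) (XT.lf (nat_lit 0) (nat_lit 2333784553) (nat_lit 1140) (nat_lit 13897382802) (nat_lit 1216) (nat_lit 1506876446) (nat_lit 170) (nat_lit 5) (nat_lit 185) (nat_lit 5) (nat_lit 186) (nat_lit 5) (nat_lit 315) (nat_lit 303) (nat_lit 162)))) (XT.nd (nat_lit 78) (nat_lit 0) (nat_lit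 0) (XT.lf (nat_lit 0) (nat_lit 3407533126) (nat_lit 1140) (nat_lit 5874173969) (nat_lit 1216) (nat_lit 8737762748) (nat_lit 170) (nat_lit 5) (nat_lit 185) (nat_lit 5) (nat_lit 186) (nat_lit 5) (nat_lit 316) (nat_lit 303) (nat_lit 161)) (XT.nd (nat_lit 78) (nat_lit 0) (nat_lit 76) (XT.lf (nat_lit 76) (nat_lit 2431065251) (nat_lit 0) (nat_lit 2097862119) (nat_lit 1216) (nat_lit 13779961798) (nat_lit 171) (nat_lit 5) (nat_lit 170) (nat_lit 5) (nat_lit 186) (nat_lit 5) (nat_lit 317) (nat_lit 303) (nat_lit 160)) (XT.lf (nat_lit 0) (nat_lit 5787083499) (nat_lit 1140) (nat_lit 7557190994) (nat_lit 1216) (nat_lit 5259636081) (nat_lit 171) (nat_lit 5) (nat_lit 186) (nat_lit 5) (nat_lit 187) (nat_lit 5) (nat_lit 318) (nat_lit 303) (nat_lit 159))))) (XT.nd (nat_lit 234) (nat_lit 1596) (nat_lit 0) (XT.nd (nat_lit 78) (nat_lit 0) (nat_lit 76) (XT.lf (nat_lit 76) (nat_lit 1005792997) (nat_lit 0) (nat_lit 6100110008)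 (nat_lit 1216) (nat_lit 11801204779) (nat_lit 172) (nat_lit 5) (nat_lit 171) (nat_lit 5) (nat_lit 187) (nat_lit 5) (nat_lit 319) (nat_lit 303) (nat_lit 158)) (XT.nd (nat_lit 78) (nat_lit 0) (nat_lit 0) (XT.lf (nat_lit 0) (nat_lit 8547094593) (nat_lit 1140) (nat_lit 9256681213) (nat_lit 76) (nat_lit 1413153229) (nat_lit 172) (nat_lit 5) (nat_lit 187) (nat_lit 5) (nat_lit 173) (nat_lit 5) (nat_lit 320) (nat_lit 303) (nat_lit 157)) (XT.lf (nat_lit 0) (nat_lit 10084785758) (nat_lit 1140) (nat_lit 419231215) (nat_lit 76) (nat_lit 9030442029) (nat_lit 172) (nat_lit 5) (nat_lit 187) (nat_lit 5) (nat_lit 173) (nat_lit 5) (nat_lit 321) (nat_lit 303) (nat_lit 156)))) (XT.nd (nat_lit 78) (nat_lit 532) (nat_lit 0) (XT.lf (nat_lit 0) (nat_lit 8850092418) (nat_lit 1140) (nat_lit 2896662207) (nat_lit 1216) (nat_lit 8112427475) (nat_lit 157) (nat_lit 5) (nat_lit 172) (nat_lit 5) (nat_lit 173) (nat_lit 5) (nat_lit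 322) (nat_lit 303) (nat_lit 155)) (XT.nd (nat_lit 78) (nat_lit 532) (nat_lit 0) (XT.lf (nat_lit 0) (nat_lit 13503561889) (nat_lit 1216) (nat_lit 1841060096) (nat_lit 76) (nat_lit 4847686830) (nat_lit 157) (nat_lit 5) (nat_lit 173) (nat_lit 5) (nat_lit 158) (nat_lit 5) (nat_lit 323) (nat_lit 303) (nat_lit 154)) (XT.lf (nat_lit 0) (nat_lit 7718002577) (nat_lit 532) (nat_lit 7691366163) (nat_lit 608) (nat_lit 5123182703) (nat_lit 150) (nat_lit 5) (nat_lit 157) (nat_lit 5) (nat_lit 158) (nat_lit 5) (nat_lit 324) (nat_lit 303) (nat_lit 153))))))))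
noncomputable def xc210 : XT := (XT.nd (nat_lit 1794) (nat_lit 2888) (nat_lit 0) (XT.nd (nat_lit 858) (nat_lit 2432) (nat_lit 0) (XT.nd (nat_lit 390) (nat_lit 1444) (nat_lit 0) (XT.nd (nat_lit 156) (nat_lit 608) (nat_lit 0) (XT.nd (nat_lit 78) (nat_lit 608) (nat_lit 0) (XT.lf (nat_lit 0) (nat_lit 17386531474) (nat_lit 608) (nat_lit 3288976417) (nat_lit 76) (nat_lit 207078664) (nat_lit 150) (nat_lit 5) (nat_lit 158) (nat_lit 5) (nat_lit 151) (nat_lit 5) (nat_lit 325) (nat_lit 303) (nat_lit 152)) (XT.lf (nat_lit 0) (nat_lit 6568477872) (nat_lit 608) (nat_lit 12987576804) (nat_lit 684) (nat_lit 1683087021) (nat_lit 142) (nat_lit 5) (nat_lit 150) (nat_lit 5) (nat_lit 151) (nat_lit 5) (nat_lit 326) (nat_lit 303) (nat_lit 151))) (XT.nd (nat_lit 78) (nat_lit 532) (nat_lit 0) (XT.lf (nat_lit 0) (nat_lit 208023833) (nat_lit 684) (nat_lit 4824403605) (nat_lit 76) (nat_lit 16573102180) (nat_lit 141) (nat_lit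 5) (nat_lit 150) (nat_lit 5) (nat_lit 142) (nat_lit 5) (nat_lit 327) (nat_lit 303) (nat_lit 150)) (XT.nd (nat_lit 78) (nat_lit 0) (nat_lit 0) (XT.lf (nat_lit 0) (nat_lit 2199007950) (nat_lit 608) (nat_lit 16611963867) (nat_lit 76) (nat_lit 3169137850) (nat_lit 134) (nat_lit 5) (nat_lit 142) (nat_lit 5) (nat_lit 135) (nat_lit 5) (nat_lit 328) (nat_lit 303) (nat_lit 149)) (XT.lf (nat_lit 0) (nat_lit 4342856920) (nat_lit 608) (nat_lit 6455345711) (nat_lit 76) (nat_lit 11564939617) (nat_lit 134) (nat_lit 5) (nat_lit 142) (nat_lit 5) (nat_lit 135) (nat_lit 5) (nat_lit 329) (nat_lit 303) (nat_lit 148))))) (XT.nd (nat_lit 234) (nat_lit 456) (nat_lit 0) (XT.nd (nat_lit 78) (nat_lit 456) (nat_lit 0) (XT.lf (nat_lit 0) (nat_lit 4079816914) (nat_lit 532) (nat_lit 2504703648) (nat_lit 608) (nat_lit 16172149191) (nat_lit 127) (nat_lit 5) (nat_lit 134) (nat_lit 5) (nat_lit 135) (nat_lit 5) (nat_lit 330) (nat_lit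 303) (nat_lit 147)) (XT.nd (nat_lit 78) (nat_lit 456) (nat_lit 0) (XT.lf (nat_lit 0) (nat_lit 9011695159) (nat_lit 608) (nat_lit 8161252682) (nat_lit 76) (nat_lit 5985516073) (nat_lit 127) (nat_lit 5) (nat_lit 135) (nat_lit 5) (nat_lit 128) (nat_lit 5) (nat_lit 331) (nat_lit 303) (nat_lit 146)) (XT.lf (nat_lit 0) (nat_lit 2691829797) (nat_lit 456) (nat_lit 8865085287) (nat_lit 532) (nat_lit 12014048325) (nat_lit 121) (nat_lit 5) (nat_lit 127) (nat_lit 5) (nat_lit 128) (nat_lit 5) (nat_lit 332) (nat_lit 303) (nat_lit 145)))) (XT.nd (nat_lit 78) (nat_lit 456) (nat_lit 0) (XT.lf (nat_lit 0) (nat_lit 14032144518) (nat_lit 456) (nat_lit 223419457) (nat_lit 532) (nat_lit 9737969907) (nat_lit 121) (nat_lit 5) (nat_lit 127) (nat_lit 5) (nat_lit 128) (nat_lit 5) (nat_lit 333) (nat_lit 303) (nat_lit 144)) (XT.nd (nat_lit 78) (nat_lit 0) (nat_lit 0) (XT.lf (nat_lit 0) (nat_lit 1218599447) (nat_lit 456) (nat_lit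 15906512509) (nat_lit 532) (nat_lit 7300979253) (nat_lit 115) (nat_lit 5) (nat_lit 121) (nat_lit 5) (nat_lit 122) (nat_lit 5) (nat_lit 334) (nat_lit 303) (nat_lit 143)) (XT.lf (nat_lit 0) (nat_lit 12930332344) (nat_lit 456) (nat_lit 7248104501) (nat_lit 532) (nat_lit 4690265393) (nat_lit 115) (nat_lit 5) (nat_lit 121) (nat_lit 5) (nat_lit 122) (nat_lit 5) (nat_lit 335) (nat_lit 303) (nat_lit 142)))))) (XT.nd (nat_lit 468) (nat_lit 1140) (nat_lit 0) (XT.nd (nat_lit 234) (nat_lit 836) (nat_lit 0) (XT.nd (nat_lit 78) (nat_lit 456) (nat_lit 0) (XT.lf (nat_lit 0) (nat_lit 23334468187) (nat_lit 532) (nat_lit 352814110) (nat_lit 76) (nat_lit 1636983575) (nat_lit 115) (nat_lit 5) (nat_lit 122) (nat_lit 5) (nat_lit 116) (nat_lit 5) (nat_lit 336) (nat_lit 303) (nat_lit 141)) (XT.nd (nat_lit 78) (nat_lit 0) (nat_lit 0) (XT.lf (nat_lit 0) (nat_lit 957744203) (nat_lit 456) (nat_lit 14065445055) (nat_lit 76)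 (nat_lit 10764640630) (nat_lit 109) (nat_lit 5) (nat_lit 115) (nat_lit 5) (nat_lit 110) (nat_lit 5) (nat_lit 337) (nat_lit 303) (nat_lit 140)) (XT.lf (nat_lit 0) (nat_lit 3952549263) (nat_lit 456) (nat_lit 2123330096) (nat_lit 76) (nat_lit 20188872381) (nat_lit 109) (nat_lit 5) (nat_lit 115) (nat_lit 5) (nat_lit 110) (nat_lit 5) (nat_lit 338) (nat_lit 303) (nat_lit 139)))) (XT.nd (nat_lit 78) (nat_lit 380) (nat_lit 0) (XT.lf (nat_lit 0) (nat_lit 7163455067) (nat_lit 532) (nat_lit 16410124849) (nat_lit 76) (nat_lit 3178620273) (nat_lit 103) (nat_lit 5) (nat_lit 110) (nat_lit 5) (nat_lit 104) (nat_lit 5) (nat_lit 339) (nat_lit 303) (nat_lit 138)) (XT.nd (nat_lit 78) (nat_lit 380) (nat_lit 0) (XT.lf (nat_lit 0) (nat_lit 10547947164) (nat_lit 532) (nat_lit 4094425688) (nat_lit 76) (nat_lit 12609587912) (nat_lit 103) (nat_lit 5) (nat_lit 110) (nat_lit 5) (nat_lit 104) (nat_lit 5) (nat_lit 340) (nat_lit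 303) (nat_lit 137)) (XT.lf (nat_lit 0) (nat_lit 8756373558) (nat_lit 380) (nat_lit 5357352800) (nat_lit 456) (nat_lit 13650601486) (nat_lit 98) (nat_lit 5) (nat_lit 103) (nat_lit 5) (nat_lit 104) (nat_lit 5) (nat_lit 341) (nat_lit 303) (nat_lit 136))))) (XT.nd (nat_lit 234) (nat_lit 760) (nat_lit 0) (XT.nd (nat_lit 78) (nat_lit 380) (nat_lit 0) (XT.lf (nat_lit 0) (nat_lit 17864318118) (nat_lit 456) (nat_lit 6260355228) (nat_lit 76) (nat_lit 4165063491) (nat_lit 98) (nat_lit 5) (nat_lit 104) (nat_lit 5) (nat_lit 99) (nat_lit 5) (nat_lit 342) (nat_lit 303) (nat_lit 135)) (XT.nd (nat_lit 78) (nat_lit 0) (nat_lit 0) (XT.lf (nat_lit 0) (nat_lit 6947029046) (nat_lit 380) (nat_lit 14895998847) (nat_lit 456) (nat_lit 6984418098) (nat_lit 93) (nat_lit 5) (nat_lit 98) (nat_lit 5) (nat_lit 99) (nat_lit 5) (nat_lit 343) (nat_lit 303) (nat_lit 134)) (XT.lf (nat_lit 0) (nat_lit 20673855378) (nat_lit 380) (nat_lit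 5326312813) (nat_lit 456) (nat_lit 3379351879) (nat_lit 93) (nat_lit 5) (nat_lit 98) (nat_lit 5) (nat_lit 99) (nat_lit 5) (nat_lit 344) (nat_lit 303) (nat_lit 133)))) (XT.nd (nat_lit 78) (nat_lit 380) (nat_lit 0) (XT.lf (nat_lit 0) (nat_lit 414930712) (nat_lit 380) (nat_lit 25038084820) (nat_lit 76) (nat_lit 4492422578) (nat_lit 88) (nat_lit 5) (nat_lit 93) (nat_lit 5) (nat_lit 89) (nat_lit 5) (nat_lit 345) (nat_lit 303) (nat_lit 132)) (XT.nd (nat_lit 78) (nat_lit 380) (nat_lit 0) (XT.lf (nat_lit 0) (nat_lit 4392624862) (nat_lit 380) (nat_lit 11510656523) (nat_lit 76) (nat_lit 14619928639) (nat_lit 88) (nat_lit 5) (nat_lit 93) (nat_lit 5) (nat_lit 89) (nat_lit 5) (nat_lit 346) (nat_lit 303) (nat_lit 131)) (XT.lf (nat_lit 0) (nat_lit 2465744703) (nat_lit 380) (nat_lit 6043712618) (nat_lit 456) (nat_lit 22608268638) (nat_lit 83) (nat_lit 5) (nat_lit 88) (nat_lit 5) (nat_lit 89) (nat_lit 5) (nat_lit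 347) (nat_lit 303) (nat_lit 130))))))) (XT.nd (nat_lit 936) (nat_lit 1368) (nat_lit 0) (XT.nd (nat_lit 468) (nat_lit 836) (nat_lit 0) (XT.nd (nat_lit 234) (nat_lit 380) (nat_lit 0) (XT.nd (nat_lit 78) (nat_lit 304) (nat_lit 0) (XT.lf (nat_lit 0) (nat_lit 12902865243) (nat_lit 456) (nat_lit 14674895788) (nat_lit 76) (nat_lit 4147729168) (nat_lit 83) (nat_lit 5) (nat_lit 89) (nat_lit 5) (nat_lit 84) (nat_lit 5) (nat_lit 348) (nat_lit 303) (nat_lit 129)) (XT.nd (nat_lit 78) (nat_lit 304) (nat_lit 0) (XT.lf (nat_lit 0) (nat_lit 17484186911) (nat_lit 456) (nat_lit 343216236) (nat_lit 76) (nat_lit 14522405668) (nat_lit 83) (nat_lit 5) (nat_lit 89) (nat_lit 5) (nat_lit 84) (nat_lit 5) (nat_lit 349) (nat_lit 303) (nat_lit 128)) (XT.lf (nat_lit 0) (nat_lit 14700536502) (nat_lit 304) (nat_lit 7640103608) (nat_lit 380) (nat_lit 10648090782) (nat_lit 79) (nat_lit 5) (nat_lit 83) (nat_lit 5) (nat_lit 84) (nat_lit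 5) (nat_lit 350) (nat_lit 303) (nat_lit 127)))) (XT.nd (nat_lit 78) (nat_lit 380) (nat_lit 0) (XT.lf (nat_lit 0) (nat_lit 27370140780) (nat_lit 380) (nat_lit 3476328104) (nat_lit 76) (nat_lit 2799535651) (nat_lit 79) (nat_lit 5) (nat_lit 84) (nat_lit 5) (nat_lit 80) (nat_lit 5) (nat_lit 351) (nat_lit 303) (nat_lit 126)) (XT.nd (nat_lit 78) (nat_lit 76) (nat_lit 0) (XT.lf (nat_lit 0) (nat_lit 11932442522) (nat_lit 304) (nat_lit 20804965179) (nat_lit 380) (nat_lit 1579986639) (nat_lit 75) (nat_lit 5) (nat_lit 79) (nat_lit 5) (nat_lit 80) (nat_lit 5) (nat_lit 352) (nat_lit 303) (nat_lit 125)) (XT.lf (nat_lit 0) (nat_lit 3225220631) (nat_lit 380) (nat_lit 7169467846) (nat_lit 76) (nat_lit 24612342166) (nat_lit 74) (nat_lit 5) (nat_lit 79) (nat_lit 5) (nat_lit 75) (nat_lit 5) (nat_lit 353) (nat_lit 303) (nat_lit 124))))) (XT.nd (nat_lit 234) (nat_lit 228) (nat_lit 0) (XT.nd (nat_lit 78) (nat_lit 304)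 (nat_lit 0) (XT.lf (nat_lit 0) (nat_lit 8226760204) (nat_lit 380) (nat_lit 27067506357) (nat_lit 76) (nat_lit 420106220) (nat_lit 70) (nat_lit 5) (nat_lit 75) (nat_lit 5) (nat_lit 71) (nat_lit 5) (nat_lit 354) (nat_lit 303) (nat_lit 123)) (XT.nd (nat_lit 78) (nat_lit 304) (nat_lit 0) (XT.lf (nat_lit 0) (nat_lit 13551074488) (nat_lit 380) (nat_lit 11464329340) (nat_lit 76) (nat_lit 11422353401) (nat_lit 70) (nat_lit 5) (nat_lit 75) (nat_lit 5) (nat_lit 71) (nat_lit 5) (nat_lit 355) (nat_lit 303) (nat_lit 122)) (XT.lf (nat_lit 0) (nat_lit 4694085825) (nat_lit 304) (nat_lit 14382947459) (nat_lit 380) (nat_lit 18104556259) (nat_lit 66) (nat_lit 5) (nat_lit 70) (nat_lit 5) (nat_lit 71) (nat_lit 5) (nat_lit 356) (nat_lit 303) (nat_lit 121)))) (XT.nd (nat_lit 78) (nat_lit 228) (nat_lit 0) (XT.lf (nat_lit 0) (nat_lit 21567848956) (nat_lit 304) (nat_lit 3313532802) (nat_lit 380) (nat_lit 13062980416) (nat_lit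 66) (nat_lit 5) (nat_lit 70) (nat_lit 5) (nat_lit 71) (nat_lit 5) (nat_lit 357) (nat_lit 303) (nat_lit 120)) (XT.nd (nat_lit 78) (nat_lit 0) (nat_lit 0) (XT.lf (nat_lit 0) (nat_lit 138393817) (nat_lit 228) (nat_lit 30797467537) (nat_lit 304) (nat_lit 7791880181) (nat_lit 63) (nat_lit 5) (nat_lit 66) (nat_lit 5) (nat_lit 67) (nat_lit 5) (nat_lit 358) (nat_lit 303) (nat_lit 119)) (XT.lf (nat_lit 0) (nat_lit 17446665885) (nat_lit 228) (nat_lit 19920137648) (nat_lit 304) (nat_lit 2161977363) (nat_lit 63) (nat_lit 5) (nat_lit 66) (nat_lit 5) (nat_lit 67) (nat_lit 5) (nat_lit 359) (nat_lit 303) (nat_lit 118)))))) (XT.nd (nat_lit 468) (nat_lit 760) (nat_lit 0) (XT.nd (nat_lit 234) (nat_lit 228) (nat_lit 0) (XT.nd (nat_lit 78) (nat_lit 304) (nat_lit 0) (XT.lf (nat_lit 0) (nat_lit 3562882729) (nat_lit 304) (nat_lit 5118885612) (nat_lit 76) (nat_lit 31671126750) (nat_lit 62) (nat_lit 5) (nat_lit 66) (nat_lit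 5) (nat_lit 63) (nat_lit 5) (nat_lit 360) (nat_lit 303) (nat_lit 117)) (XT.nd (nat_lit 78) (nat_lit 0) (nat_lit 0) (XT.lf (nat_lit 0) (nat_lit 9563222132) (nat_lit 380) (nat_lit 28653724056) (nat_lit 76) (nat_lit 2979731910) (nat_lit 58) (nat_lit 5) (nat_lit 63) (nat_lit 5) (nat_lit 59) (nat_lit 5) (nat_lit 361) (nat_lit 303) (nat_lit 116)) (XT.lf (nat_lit 0) (nat_lit 15878879195) (nat_lit 380) (nat_lit 11315285252) (nat_lit 76) (nat_lit 14867554004) (nat_lit 58) (nat_lit 5) (nat_lit 63) (nat_lit 5) (nat_lit 59) (nat_lit 5) (nat_lit 362) (nat_lit 303) (nat_lit 115)))) (XT.nd (nat_lit 78) (nat_lit 0) (nat_lit 0) (XT.lf (nat_lit 0) (nat_lit 6669399746) (nat_lit 228) (nat_lit 15775946552) (nat_lit 304) (nat_lit 20505526495) (nat_lit 55) (nat_lit 5) (nat_lit 58) (nat_lit 5) (nat_lit 59) (nat_lit 5) (nat_lit 363) (nat_lit 303) (nat_lit 114)) (XT.nd (nat_lit 78) (nat_lit 0) (nat_lit 0) (XT.lf (nat_lit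 0) (nat_lit 25421566284) (nat_lit 228) (nat_lit 3898775424) (nat_lit 304) (nat_lit 14543016929) (nat_lit 55) (nat_lit 5) (nat_lit 58) (nat_lit 5) (nat_lit 59) (nat_lit 5) (nat_lit 364) (nat_lit 303) (nat_lit 113)) (XT.lf (nat_lit 0) (nat_lit 36479044897) (nat_lit 304) (nat_lit 151004306) (nat_lit 76) (nat_lit 8170848935) (nat_lit 55) (nat_lit 5) (nat_lit 59) (nat_lit 5) (nat_lit 56) (nat_lit 5) (nat_lit 365) (nat_lit 303) (nat_lit 112))))) (XT.nd (nat_lit 234) (nat_lit 228) (nat_lit 0) (XT.nd (nat_lit 78) (nat_lit 304) (nat_lit 0) (XT.lf (nat_lit 0) (nat_lit 19017149480) (nat_lit 228) (nat_lit 25054182976) (nat_lit 304) (nat_lit 1688669405) (nat_lit 52) (nat_lit 5) (nat_lit 55) (nat_lit 5) (nat_lit 56) (nat_lit 5) (nat_lit 366) (nat_lit 303) (nat_lit 111)) (XT.nd (nat_lit 78) (nat_lit 228) (nat_lit 0) (XT.lf (nat_lit 0) (nat_lit 5042109347) (nat_lit 304) (nat_lit 8037712570) (nat_lit 76) (nat_lit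 33666607046) (nat_lit 51) (nat_lit 5) (nat_lit 55) (nat_lit 5) (nat_lit 52) (nat_lit 5) (nat_lit 367) (nat_lit 303) (nat_lit 110)) (XT.lf (nat_lit 0) (nat_lit 11431172588) (nat_lit 228) (nat_lit 617084493) (nat_lit 304) (nat_lit 35710471128) (nat_lit 48) (nat_lit 5) (nat_lit 51) (nat_lit 5) (nat_lit 52) (nat_lit 5) (nat_lit 368) (nat_lit 303) (nat_lit 109)))) (XT.nd (nat_lit 78) (nat_lit 228) (nat_lit 0) (XT.lf (nat_lit 0) (nat_lit 19461547369) (nat_lit 304) (nat_lit 17272117286) (nat_lit 76) (nat_lit 12061825465) (nat_lit 48) (nat_lit 5) (nat_lit 52) (nat_lit 5) (nat_lit 49) (nat_lit 5) (nat_lit 369) (nat_lit 303) (nat_lit 108)) (XT.nd (nat_lit 78) (nat_lit 0) (nat_lit 0) (XT.lf (nat_lit 0) (nat_lit 2391878644) (nat_lit 228) (nat_lit 24732059399) (nat_lit 304) (nat_lit 22738618155) (nat_lit 45) (nat_lit 5) (nat_lit 48) (nat_lit 5) (nat_lit 49) (nat_lit 5) (nat_lit 370) (nat_lit 303) (nat_lit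 107)) (XT.lf (nat_lit 0) (nat_lit 22996221930) (nat_lit 228) (nat_lit 12192027734) (nat_lit 304) (nat_lit 15768225407) (nat_lit 45) (nat_lit 5) (nat_lit 48) (nat_lit 5) (nat_lit 49) (nat_lit 5) (nat_lit 371) (nat_lit 303) (nat_lit 106))))))))
noncomputable def xc211 : XT := (XT.nd (nat_lit 36270) (nat_lit 0) (nat_lit 5700) (XT.nd (nat_lit 35334) (nat_lit 0) (nat_lit 10184) (XT.nd (nat_lit 468) (nat_lit 380) (nat_lit 0) (XT.nd (nat_lit 234) (nat_lit 228) (nat_lit 0) (XT.nd (nat_lit 78) (nat_lit 228) (nat_lit 0) (XT.lf (nat_lit 0) (nat_lit 43499143896) (nat_lit 304) (nat_lit 7875064923) (nat_lit 76) (nat_lit 708865319) (nat_lit 45) (nat_lit 5) (nat_lit 49) (nat_lit 5) (nat_lit 46) (nat_lit 5) (nat_lit 372) (nat_lit 303) (nat_lit 105)) (XT.nd (nat_lit 78) (nat_lit 76) (nat_lit 0) (XT.lf (nat_lit 0) (nat_lit 12941008547) (nat_lit 152) (nat_lit 39361225435) (nat_lit 228) (nat_lit 933953282) (nat_lit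 43) (nat_lit 5) (nat_lit 45) (nat_lit 5) (nat_lit 46) (nat_lit 5) (nat_lit 373) (nat_lit 303) (nat_lit 104)) (XT.lf (nat_lit 0) (nat_lit 6888068069) (nat_lit 228) (nat_lit 19949560004) (nat_lit 76) (nat_lit 27581922491) (nat_lit 42) (nat_lit 5) (nat_lit 45) (nat_lit 5) (nat_lit 43) (nat_lit 5) (nat_lit 374) (nat_lit 303) (nat_lit 103)))) (XT.nd (nat_lit 78) (nat_lit 0) (nat_lit 0) (XT.lf (nat_lit 0) (nat_lit 1013565052) (nat_lit 228) (nat_lit 13919988698) (nat_lit 304) (nat_lit 40704358320) (nat_lit 39) (nat_lit 5) (nat_lit 42) (nat_lit 5) (nat_lit 43) (nat_lit 5) (nat_lit 375) (nat_lit 303) (nat_lit 102)) (XT.nd (nat_lit 78) (nat_lit 0) (nat_lit 0) (XT.lf (nat_lit 0) (nat_lit 23011170092) (nat_lit 228) (nat_lit 408548408) (nat_lit 304) (nat_lit 33467128405) (nat_lit 39) (nat_lit 5) (nat_lit 42) (nat_lit 5) (nat_lit 43) (nat_lit 5) (nat_lit 376) (nat_lit 303) (nat_lit 101)) (XT.lf (nat_lit 0)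 (nat_lit 32288231496) (nat_lit 304) (nat_lit 12637710930) (nat_lit 76) (nat_lit 13243476323) (nat_lit 39) (nat_lit 5) (nat_lit 43) (nat_lit 5) (nat_lit 40) (nat_lit 5) (nat_lit 377) (nat_lit 303) (nat_lit 100))))) (XT.nd (nat_lit 234) (nat_lit 228) (nat_lit 0) (XT.nd (nat_lit 78) (nat_lit 0) (nat_lit 0) (XT.lf (nat_lit 0) (nat_lit 9413828135) (nat_lit 152) (nat_lit 32101482898) (nat_lit 228) (nat_lit 17972383189) (nat_lit 37) (nat_lit 5) (nat_lit 39) (nat_lit 5) (nat_lit 40) (nat_lit 5) (nat_lit 378) (nat_lit 303) (nat_lit 99)) (XT.nd (nat_lit 78) (nat_lit 0) (nat_lit 0) (XT.lf (nat_lit 0) (nat_lit 32382787155) (nat_lit 152) (nat_lit 18762034902) (nat_lit 228) (nat_lit 9696929085) (nat_lit 37) (nat_lit 5) (nat_lit 39) (nat_lit 5) (nat_lit 40) (nat_lit 5) (nat_lit 379) (nat_lit 303) (nat_lit 98)) (XT.lf (nat_lit 0) (nat_lit 56037720867) (nat_lit 152) (nat_lit 5023558709) (nat_lit 228) (nat_lit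 1175210062) (nat_lit 37) (nat_lit 5) (nat_lit 39) (nat_lit 5) (nat_lit 40) (nat_lit 5) (nat_lit 380) (nat_lit 303) (nat_lit 97)))) (XT.nd (nat_lit 78) (nat_lit 0) (nat_lit 0) (XT.lf (nat_lit 0) (nat_lit 7705242235) (nat_lit 228) (nat_lit 46771560923) (nat_lit 76) (nat_lit 9186533623) (nat_lit 34) (nat_lit 5) (nat_lit 37) (nat_lit 5) (nat_lit 35) (nat_lit 5) (nat_lit 381) (nat_lit 303) (nat_lit 96)) (XT.nd (nat_lit 78) (nat_lit 0) (nat_lit 0) (XT.lf (nat_lit 0) (nat_lit 16939553805) (nat_lit 228) (nat_lit 24394060177) (nat_lit 76) (nat_lit 23795695856) (nat_lit 34) (nat_lit 5) (nat_lit 37) (nat_lit 5) (nat_lit 35) (nat_lit 5) (nat_lit 382) (nat_lit 303) (nat_lit 95)) (XT.lf (nat_lit 0) (nat_lit 26449062576) (nat_lit 228) (nat_lit 1348205774) (nat_lit 76) (nat_lit 38842050214) (nat_lit 34) (nat_lit 5) (nat_lit 37) (nat_lit 5) (nat_lit 35) (nat_lit 5) (nat_lit 383) (nat_lit 303) (nat_lit 94))))))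 (XT.nd (nat_lit 468) (nat_lit 912) (nat_lit 0) (XT.nd (nat_lit 234) (nat_lit 0) (nat_lit 76) (XT.nd (nat_lit 78) (nat_lit 0) (nat_lit 0) (XT.lf (nat_lit 0) (nat_lit 5502429338) (nat_lit 1140) (nat_lit 1061400222) (nat_lit 1140) (nat_lit 1061400222) (nat_lit 180) (nat_lit 3) (nat_lit 195) (nat_lit 3) (nat_lit 195) (nat_lit 5) (nat_lit 304) (nat_lit 304) (nat_lit 172)) (XT.nd (nat_lit 78) (nat_lit 0) (nat_lit 0) (XT.lf (nat_lit 76) (nat_lit 4617589118) (nat_lit 0) (nat_lit 6861871511) (nat_lit 1140) (nat_lit 3989991254) (nat_lit 181) (nat_lit 5) (nat_lit 180) (nat_lit 3) (nat_lit 195) (nat_lit 5) (nat_lit 305) (nat_lit 304) (nat_lit 171)) (XT.lf (nat_lit 76) (nat_lit 11598261017) (nat_lit 0) (nat_lit 381075656) (nat_lit 1140) (nat_lit 3715364898) (nat_lit 181) (nat_lit 5) (nat_lit 180) (nat_lit 3) (nat_lit 195) (nat_lit 5) (nat_lit 306) (nat_lit 304) (nat_lit 170)))) (XT.nd (nat_lit 78) (nat_lit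 0) (nat_lit 0) (XT.lf (nat_lit 76) (nat_lit 2851123451) (nat_lit 0) (nat_lit 9720944529) (nat_lit 1140) (nat_lit 3352323139) (nat_lit 182) (nat_lit 5) (nat_lit 181) (nat_lit 5) (nat_lit 196) (nat_lit 5) (nat_lit 307) (nat_lit 304) (nat_lit 169)) (XT.nd (nat_lit 78) (nat_lit 0) (nat_lit 76) (XT.lf (nat_lit 76) (nat_lit 10081641305) (nat_lit 0) (nat_lit 3136229982) (nat_lit 1140) (nat_lit 2942058974) (nat_lit 182) (nat_lit 5) (nat_lit 181) (nat_lit 5) (nat_lit 196) (nat_lit 5) (nat_lit 308) (nat_lit 304) (nat_lit 168)) (XT.lf (nat_lit 76) (nat_lit 1107321990) (nat_lit 0) (nat_lit 12811931916) (nat_lit 1140) (nat_lit 2482212613) (nat_lit 183) (nat_lit 5) (nat_lit 182) (nat_lit 5) (nat_lit 197) (nat_lit 5) (nat_lit 309) (nat_lit 304) (nat_lit 167))))) (XT.nd (nat_lit 234) (nat_lit 1064) (nat_lit 0) (XT.nd (nat_lit 78) (nat_lit 0) (nat_lit 76) (XT.lf (nat_lit 76) (nat_lit 8595709963) (nat_lit 0) (nat_lit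 6128828645) (nat_lit 1140) (nat_lit 1923241038) (nat_lit 183) (nat_lit 5) (nat_lit 182) (nat_lit 5) (nat_lit 197) (nat_lit 5) (nat_lit 310) (nat_lit 304) (nat_lit 166)) (XT.nd (nat_lit 78) (nat_lit 0) (nat_lit 0) (XT.lf (nat_lit 0) (nat_lit 15552274546) (nat_lit 1064) (nat_lit 605860831) (nat_lit 1140) (nat_lit 743414125) (nat_lit 183) (nat_lit 5) (nat_lit 197) (nat_lit 5) (nat_lit 198) (nat_lit 5) (nat_lit 311) (nat_lit 304) (nat_lit 165)) (XT.lf (nat_lit 76) (nat_lit 7136611926) (nat_lit 0) (nat_lit 9388812038) (nat_lit 1140) (nat_lit 633906692) (nat_lit 184) (nat_lit 5) (nat_lit 183) (nat_lit 5) (nat_lit 198) (nat_lit 5) (nat_lit 312) (nat_lit 304) (nat_lit 164)))) (XT.nd (nat_lit 78) (nat_lit 0) (nat_lit 76) (XT.lf (nat_lit 0) (nat_lit 98491356) (nat_lit 1140) (nat_lit 2307765141) (nat_lit 1216) (nat_lit 15018646503) (nat_lit 168) (nat_lit 5) (nat_lit 183) (nat_lit 5) (nat_lit 184) (nat_lit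 5) (nat_lit 313) (nat_lit 304) (nat_lit 163)) (XT.nd (nat_lit 78) (nat_lit 0) (nat_lit 0) (XT.lf (nat_lit 0) (nat_lit 933571203) (nat_lit 1140) (nat_lit 12004821102) (nat_lit 1216) (nat_lit 4757072714) (nat_lit 169) (nat_lit 5) (nat_lit 184) (nat_lit 5) (nat_lit 185) (nat_lit 5) (nat_lit 314) (nat_lit 304) (nat_lit 162)) (XT.lf (nat_lit 0) (nat_lit 1832925375) (nat_lit 1140) (nat_lit 4027077528) (nat_lit 1216) (nat_lit 12112978241) (nat_lit 169) (nat_lit 5) (nat_lit 184) (nat_lit 5) (nat_lit 185) (nat_lit 5) (nat_lit 315) (nat_lit 304) (nat_lit 161))))))) (XT.nd (nat_lit 936) (nat_lit 2508) (nat_lit 0) (XT.nd (nat_lit 468) (nat_lit 2128) (nat_lit 0) (XT.nd (nat_lit 234) (nat_lit 0) (nat_lit 76) (XT.nd (nat_lit 78) (nat_lit 0) (nat_lit 0) (XT.lf (nat_lit 0) (nat_lit 2806562763) (nat_lit 1140) (nat_lit 14004467428) (nat_lit 1216) (nat_lit 1446386980) (nat_lit 170) (nat_lit 5) (nat_lit 185) (nat_lit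 5) (nat_lit 186) (nat_lit 5) (nat_lit 316) (nat_lit 304) (nat_lit 160)) (XT.nd (nat_lit 78) (nat_lit 0) (nat_lit 0) (XT.lf (nat_lit 0) (nat_lit 3900792783) (nat_lit 1140) (nat_lit 5749586705) (nat_lit 1216) (nat_lit 8897278389) (nat_lit 170) (nat_lit 5) (nat_lit 185) (nat_lit 5) (nat_lit 186) (nat_lit 5) (nat_lit 317) (nat_lit 304) (nat_lit 159)) (XT.lf (nat_lit 76) (nat_lit 2801860550) (nat_lit 0) (nat_lit 2245442220) (nat_lit 1216) (nat_lit 13798732165) (nat_lit 171) (nat_lit 5) (nat_lit 170) (nat_lit 5) (nat_lit 186) (nat_lit 5) (nat_lit 318) (nat_lit 304) (nat_lit 158)))) (XT.nd (nat_lit 78) (nat_lit 0) (nat_lit 0) (XT.lf (nat_lit 0) (nat_lit 6331272631) (nat_lit 1140) (nat_lit 7482161189) (nat_lit 1216) (nat_lit 5336849898) (nat_lit 171) (nat_lit 5) (nat_lit 186) (nat_lit 5) (nat_lit 187) (nat_lit 5) (nat_lit 319) (nat_lit 304) (nat_lit 157)) (XT.nd (nat_lit 78) (nat_lit 0) (nat_lit 76) (XT.lf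 (nat_lit 76) (nat_lit 1334754033) (nat_lit 0) (nat_lit 6346981321) (nat_lit 1216) (nat_lit 11781097389) (nat_lit 172) (nat_lit 5) (nat_lit 171) (nat_lit 5) (nat_lit 187) (nat_lit 5) (nat_lit 320) (nat_lit 304) (nat_lit 156)) (XT.lf (nat_lit 0) (nat_lit 9155003859) (nat_lit 1140) (nat_lit 9232547224) (nat_lit 76) (nat_lit 1394750042) (nat_lit 172) (nat_lit 5) (nat_lit 187) (nat_lit 5) (nat_lit 173) (nat_lit 5) (nat_lit 321) (nat_lit 304) (nat_lit 155))))) (XT.nd (nat_lit 234) (nat_lit 1140) (nat_lit 0) (XT.nd (nat_lit 78) (nat_lit 1140) (nat_lit 0) (XT.lf (nat_lit 0) (nat_lit 10728587998) (nat_lit 1140) (nat_lit 138765020) (nat_lit 76) (nat_lit 9242328315) (nat_lit 172) (nat_lit 5) (nat_lit 187) (nat_lit 5) (nat_lit 173) (nat_lit 5) (nat_lit 322) (nat_lit 304) (nat_lit 154)) (XT.nd (nat_lit 78) (nat_lit 0) (nat_lit 0) (XT.lf (nat_lit 0) (nat_lit 9405765351) (nat_lit 1140) (nat_lit 3027500301) (nat_lit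 1216) (nat_lit 8011111689) (nat_lit 157) (nat_lit 5) (nat_lit 172) (nat_lit 5) (nat_lit 173) (nat_lit 5) (nat_lit 323) (nat_lit 304) (nat_lit 153)) (XT.lf (nat_lit 0) (nat_lit 14232635762) (nat_lit 1216) (nat_lit 1603891177) (nat_lit 76) (nat_lit 4951291382) (nat_lit 157) (nat_lit 5) (nat_lit 173) (nat_lit 5) (nat_lit 158) (nat_lit 5) (nat_lit 324) (nat_lit 304) (nat_lit 152)))) (XT.nd (nat_lit 78) (nat_lit 608) (nat_lit 0) (XT.lf (nat_lit 0) (nat_lit 8239076702) (nat_lit 532) (nat_lit 7949887363) (nat_lit 608) (nat_lit 4949519497) (nat_lit 150) (nat_lit 5) (nat_lit 157) (nat_lit 5) (nat_lit 158) (nat_lit 5) (nat_lit 325) (nat_lit 304) (nat_lit 151)) (XT.nd (nat_lit 78) (nat_lit 608) (nat_lit 0) (XT.lf (nat_lit 0) (nat_lit 18215940255) (nat_lit 608) (nat_lit 3096533561) (nat_lit 76) (nat_lit 186846245) (nat_lit 150) (nat_lit 5) (nat_lit 158) (nat_lit 5) (nat_lit 151) (nat_lit 5) (nat_lit 326)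 (nat_lit 304) (nat_lit 150)) (XT.lf (nat_lit 0) (nat_lit 7053790316) (nat_lit 608) (nat_lit 13390564328) (nat_lit 684) (nat_lit 1422417894) (nat_lit 142) (nat_lit 5) (nat_lit 150) (nat_lit 5) (nat_lit 151) (nat_lit 5) (nat_lit 327) (nat_lit 304) (nat_lit 149)))))) (XT.nd (nat_lit 468) (nat_lit 912) (nat_lit 0) (XT.nd (nat_lit 234) (nat_lit 988) (nat_lit 0) (XT.nd (nat_lit 78) (nat_lit 532) (nat_lit 0) (XT.lf (nat_lit 0) (nat_lit 510468287) (nat_lit 684) (nat_lit 4682911984) (nat_lit 76) (nat_lit 17050962670) (nat_lit 141) (nat_lit 5) (nat_lit 150) (nat_lit 5) (nat_lit 142) (nat_lit 5) (nat_lit 328) (nat_lit 304) (nat_lit 148)) (XT.nd (nat_lit 78) (nat_lit 0) (nat_lit 0) (XT.lf (nat_lit 0) (nat_lit 2555212852) (nat_lit 608) (nat_lit 16817677110) (nat_lit 76) (nat_lit 3257463087) (nat_lit 134) (nat_lit 5) (nat_lit 142) (nat_lit 5) (nat_lit 135) (nat_lit 5) (nat_lit 329) (nat_lit 304) (nat_lit 147))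 (XT.lf (nat_lit 0) (nat_lit 4754923855) (nat_lit 608) (nat_lit 6364884070) (nat_lit 76) (nat_lit 11905335476) (nat_lit 134) (nat_lit 5) (nat_lit 142) (nat_lit 5) (nat_lit 135) (nat_lit 5) (nat_lit 330) (nat_lit 304) (nat_lit 146)))) (XT.nd (nat_lit 78) (nat_lit 456) (nat_lit 0) (XT.lf (nat_lit 0) (nat_lit 4483547924) (nat_lit 532) (nat_lit 2574786640) (nat_lit 608) (nat_lit 16372320058) (nat_lit 127) (nat_lit 5) (nat_lit 134) (nat_lit 5) (nat_lit 135) (nat_lit 5) (nat_lit 331) (nat_lit 304) (nat_lit 145)) (XT.nd (nat_lit 78) (nat_lit 456) (nat_lit 0) (XT.lf (nat_lit 0) (nat_lit 9550324662) (nat_lit 608) (nat_lit 8124533851) (nat_lit 76) (nat_lit 6169896521) (nat_lit 127) (nat_lit 5) (nat_lit 135) (nat_lit 5) (nat_lit 128) (nat_lit 5) (nat_lit 332) (nat_lit 304) (nat_lit 144)) (XT.lf (nat_lit 0) (nat_lit 3051380746) (nat_lit 456) (nat_lit 9115386456) (nat_lit 532) (nat_lit 12103028402) (nat_lit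 121) (nat_lit 5) (nat_lit 127) (nat_lit 5) (nat_lit 128) (nat_lit 5) (nat_lit 333) (nat_lit 304) (nat_lit 143))))) (XT.nd (nat_lit 234) (nat_lit 456) (nat_lit 0) (XT.nd (nat_lit 78) (nat_lit 456) (nat_lit 0) (XT.lf (nat_lit 0) (nat_lit 14723784635) (nat_lit 456) (nat_lit 214926516) (nat_lit 532) (nat_lit 9766573692) (nat_lit 121) (nat_lit 5) (nat_lit 127) (nat_lit 5) (nat_lit 128) (nat_lit 5) (nat_lit 334) (nat_lit 304) (nat_lit 142)) (XT.nd (nat_lit 78) (nat_lit 0) (nat_lit 0) (XT.lf (nat_lit 0) (nat_lit 1531010975) (nat_lit 456) (nat_lit 16358686912) (nat_lit 532) (nat_lit 7261271812) (nat_lit 115) (nat_lit 5) (nat_lit 121) (nat_lit 5) (nat_lit 122) (nat_lit 5) (nat_lit 335) (nat_lit 304) (nat_lit 141)) (XT.lf (nat_lit 0) (nat_lit 13586061290) (nat_lit 456) (nat_lit 7441255430) (nat_lit 532) (nat_lit 4579772560) (nat_lit 115) (nat_lit 5) (nat_lit 121) (nat_lit 5) (nat_lit 122) (nat_lit 5) (nat_lit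 336) (nat_lit 304) (nat_lit 140)))) (XT.nd (nat_lit 78) (nat_lit 456) (nat_lit 0) (XT.lf (nat_lit 0) (nat_lit 24271162699) (nat_lit 532) (nat_lit 96156310) (nat_lit 76) (nat_lit 1709217527) (nat_lit 115) (nat_lit 5) (nat_lit 122) (nat_lit 5) (nat_lit 116) (nat_lit 5) (nat_lit 337) (nat_lit 304) (nat_lit 139)) (XT.nd (nat_lit 78) (nat_lit 0) (nat_lit 0) (XT.lf (nat_lit 0) (nat_lit 1221428106) (nat_lit 456) (nat_lit 14217773232) (nat_lit 76) (nat_lit 11114877924) (nat_lit 109) (nat_lit 5) (nat_lit 115) (nat_lit 5) (nat_lit 110) (nat_lit 5) (nat_lit 338) (nat_lit 304) (nat_lit 138)) (XT.lf (nat_lit 0) (nat_lit 4299234068) (nat_lit 456) (nat_lit 1925248277) (nat_lit 76) (nat_lit 20821041537) (nat_lit 109) (nat_lit 5) (nat_lit 115) (nat_lit 5) (nat_lit 110) (nat_lit 5) (nat_lit 339) (nat_lit 304) (nat_lit 137))))))))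
noncomputable def xc212 : XT := (XT.nd (nat_lit 1794) (nat_lit 1824) (nat_lit 0) (XT.nd (nat_lit 858) (nat_lit 1900) (nat_lit 0) (XT.nd (nat_lit 390) (nat_lit 760) (nat_lit 0) (XT.nd (nat_lit 156) (nat_lit 760) (nat_lit 0) (XT.nd (nat_lit 78) (nat_lit 0) (nat_lit 0) (XT.lf (nat_lit 0) (nat_lit 7602653781) (nat_lit 532) (nat_lit 16636515975) (nat_lit 76) (nat_lit 3308549954) (nat_lit 103) (nat_lit 5) (nat_lit 110) (nat_lit 5) (nat_lit 104) (nat_lit 5) (nat_lit 340) (nat_lit 304) (nat_lit 136)) (XT.lf (nat_lit 0) (nat_lit 11082147776) (nat_lit 532) (nat_lit 3959090867) (nat_lit 76) (nat_lit 13021439697) (nat_lit 103) (nat_lit 5) (nat_lit 110) (nat_lit 5) (nat_lit 104) (nat_lit 5) (nat_lit 341) (nat_lit 304) (nat_lit 135))) (XT.nd (nat_lit 78) (nat_lit 380) (nat_lit 0) (XT.lf (nat_lit 0) (nat_lit 9274701301) (nat_lit 380) (nat_lit 5476313791) (nat_lit 456) (nat_lit 13839526880) (nat_lit 98) (nat_lit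 5) (nat_lit 103) (nat_lit 5) (nat_lit 104) (nat_lit 5) (nat_lit 342) (nat_lit 304) (nat_lit 134)) (XT.nd (nat_lit 78) (nat_lit 380) (nat_lit 0) (XT.lf (nat_lit 0) (nat_lit 18608284906) (nat_lit 456) (nat_lit 6193844696) (nat_lit 76) (nat_lit 4329767545) (nat_lit 98) (nat_lit 5) (nat_lit 104) (nat_lit 5) (nat_lit 99) (nat_lit 5) (nat_lit 343) (nat_lit 304) (nat_lit 133)) (XT.lf (nat_lit 0) (nat_lit 7407267762) (nat_lit 380) (nat_lit 15295449599) (nat_lit 456) (nat_lit 6983137839) (nat_lit 93) (nat_lit 5) (nat_lit 98) (nat_lit 5) (nat_lit 99) (nat_lit 5) (nat_lit 344) (nat_lit 304) (nat_lit 132))))) (XT.nd (nat_lit 234) (nat_lit 380) (nat_lit 0) (XT.nd (nat_lit 78) (nat_lit 380) (nat_lit 0) (XT.lf (nat_lit 0) (nat_lit 21538564092) (nat_lit 380) (nat_lit 5440054417) (nat_lit 456) (nat_lit 3276059812) (nat_lit 93) (nat_lit 5) (nat_lit 98) (nat_lit 5) (nat_lit 99) (nat_lit 5) (nat_lit 345) (nat_lit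 304) (nat_lit 131)) (XT.nd (nat_lit 78) (nat_lit 0) (nat_lit 0) (XT.lf (nat_lit 0) (nat_lit 625052170) (nat_lit 380) (nat_lit 25537210950) (nat_lit 76) (nat_lit 4675349664) (nat_lit 88) (nat_lit 5) (nat_lit 93) (nat_lit 5) (nat_lit 89) (nat_lit 5) (nat_lit 346) (nat_lit 304) (nat_lit 130)) (XT.lf (nat_lit 0) (nat_lit 4716319663) (nat_lit 380) (nat_lit 11611300087) (nat_lit 76) (nat_lit 15105278351) (nat_lit 88) (nat_lit 5) (nat_lit 93) (nat_lit 5) (nat_lit 89) (nat_lit 5) (nat_lit 347) (nat_lit 304) (nat_lit 129)))) (XT.nd (nat_lit 78) (nat_lit 0) (nat_lit 0) (XT.lf (nat_lit 0) (nat_lit 2781994390) (nat_lit 380) (nat_lit 6171401836) (nat_lit 456) (nat_lit 23091958418) (nat_lit 83) (nat_lit 5) (nat_lit 88) (nat_lit 5) (nat_lit 89) (nat_lit 5) (nat_lit 348) (nat_lit 304) (nat_lit 128)) (XT.nd (nat_lit 78) (nat_lit 0) (nat_lit 0) (XT.lf (nat_lit 0) (nat_lit 13473612009) (nat_lit 456) (nat_lit 14874691214)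 (nat_lit 76) (nat_lit 4323205509) (nat_lit 83) (nat_lit 5) (nat_lit 89) (nat_lit 5) (nat_lit 84) (nat_lit 5) (nat_lit 349) (nat_lit 304) (nat_lit 127)) (XT.lf (nat_lit 0) (nat_lit 18187023984) (nat_lit 456) (nat_lit 120064716) (nat_lit 76) (nat_lit 15007635572) (nat_lit 83) (nat_lit 5) (nat_lit 89) (nat_lit 5) (nat_lit 84) (nat_lit 5) (nat_lit 350) (nat_lit 304) (nat_lit 126)))))) (XT.nd (nat_lit 468) (nat_lit 912) (nat_lit 0) (XT.nd (nat_lit 234) (nat_lit 380) (nat_lit 0) (XT.nd (nat_lit 78) (nat_lit 304) (nat_lit 0) (XT.lf (nat_lit 0) (nat_lit 15372711898) (nat_lit 304) (nat_lit 7813487387) (nat_lit 380) (nat_lit 10786710553) (nat_lit 79) (nat_lit 5) (nat_lit 83) (nat_lit 5) (nat_lit 84) (nat_lit 5) (nat_lit 351) (nat_lit 304) (nat_lit 125)) (XT.nd (nat_lit 78) (nat_lit 304) (nat_lit 0) (XT.lf (nat_lit 0) (nat_lit 28361998927) (nat_lit 380) (nat_lit 3351389100) (nat_lit 76) (nat_lit 2936657733)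 (nat_lit 79) (nat_lit 5) (nat_lit 84) (nat_lit 5) (nat_lit 80) (nat_lit 5) (nat_lit 352) (nat_lit 304) (nat_lit 124)) (XT.lf (nat_lit 0) (nat_lit 12517397302) (nat_lit 304) (nat_lit 21370095023) (nat_lit 380) (nat_lit 1454174980) (nat_lit 75) (nat_lit 5) (nat_lit 79) (nat_lit 5) (nat_lit 80) (nat_lit 5) (nat_lit 353) (nat_lit 304) (nat_lit 123)))) (XT.nd (nat_lit 78) (nat_lit 304) (nat_lit 0) (XT.lf (nat_lit 0) (nat_lit 3486861990) (nat_lit 380) (nat_lit 7160702021) (nat_lit 76) (nat_lit 25404533072) (nat_lit 74) (nat_lit 5) (nat_lit 79) (nat_lit 5) (nat_lit 75) (nat_lit 5) (nat_lit 354) (nat_lit 304) (nat_lit 122)) (XT.nd (nat_lit 78) (nat_lit 0) (nat_lit 0) (XT.lf (nat_lit 0) (nat_lit 8636347364) (nat_lit 380) (nat_lit 27653389127) (nat_lit 76) (nat_lit 490991770) (nat_lit 70) (nat_lit 5) (nat_lit 75) (nat_lit 5) (nat_lit 71) (nat_lit 5) (nat_lit 355) (nat_lit 304) (nat_lit 121)) (XT.lf (nat_lit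 0) (nat_lit 14115649785) (nat_lit 380) (nat_lit 11588703472) (nat_lit 76) (nat_lit 11821608821) (nat_lit 70) (nat_lit 5) (nat_lit 75) (nat_lit 5) (nat_lit 71) (nat_lit 5) (nat_lit 356) (nat_lit 304) (nat_lit 120))))) (XT.nd (nat_lit 234) (nat_lit 380) (nat_lit 0) (XT.nd (nat_lit 78) (nat_lit 228) (nat_lit 0) (XT.lf (nat_lit 0) (nat_lit 5052311640) (nat_lit 304) (nat_lit 14752562322) (nat_lit 380) (nat_lit 18487316236) (nat_lit 66) (nat_lit 5) (nat_lit 70) (nat_lit 5) (nat_lit 71) (nat_lit 5) (nat_lit 357) (nat_lit 304) (nat_lit 119)) (XT.nd (nat_lit 78) (nat_lit 228) (nat_lit 0) (XT.lf (nat_lit 0) (nat_lit 22425955532) (nat_lit 304) (nat_lit 3352867368) (nat_lit 380) (nat_lit 13299164285) (nat_lit 66) (nat_lit 5) (nat_lit 70) (nat_lit 5) (nat_lit 71) (nat_lit 5) (nat_lit 358) (nat_lit 304) (nat_lit 118)) (XT.lf (nat_lit 0) (nat_lit 355635352) (nat_lit 228) (nat_lit 31657512455) (nat_lit 304) (nat_lit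 7871778913) (nat_lit 63) (nat_lit 5) (nat_lit 66) (nat_lit 5) (nat_lit 67) (nat_lit 5) (nat_lit 359) (nat_lit 304) (nat_lit 117)))) (XT.nd (nat_lit 78) (nat_lit 380) (nat_lit 0) (XT.lf (nat_lit 0) (nat_lit 18176949086) (nat_lit 228) (nat_lit 20455723225) (nat_lit 304) (nat_lit 2077460301) (nat_lit 63) (nat_lit 5) (nat_lit 66) (nat_lit 5) (nat_lit 67) (nat_lit 5) (nat_lit 360) (nat_lit 304) (nat_lit 116)) (XT.nd (nat_lit 78) (nat_lit 304) (nat_lit 0) (XT.lf (nat_lit 0) (nat_lit 3811964853) (nat_lit 304) (nat_lit 5068608456) (nat_lit 76) (nat_lit 32678486512) (nat_lit 62) (nat_lit 5) (nat_lit 66) (nat_lit 5) (nat_lit 63) (nat_lit 5) (nat_lit 361) (nat_lit 304) (nat_lit 115)) (XT.lf (nat_lit 0) (nat_lit 9990707627) (nat_lit 380) (nat_lit 29307733539) (nat_lit 76) (nat_lit 3129767908) (nat_lit 58) (nat_lit 5) (nat_lit 63) (nat_lit 5) (nat_lit 59) (nat_lit 5) (nat_lit 362) (nat_lit 304) (nat_lit 114)))))))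 (XT.nd (nat_lit 936) (nat_lit 684) (nat_lit 0) (XT.nd (nat_lit 468) (nat_lit 608) (nat_lit 0) (XT.nd (nat_lit 234) (nat_lit 304) (nat_lit 0) (XT.nd (nat_lit 78) (nat_lit 228) (nat_lit 0) (XT.lf (nat_lit 0) (nat_lit 16491739581) (nat_lit 380) (nat_lit 11455129985) (nat_lit 76) (nat_lit 15372458333) (nat_lit 58) (nat_lit 5) (nat_lit 63) (nat_lit 5) (nat_lit 59) (nat_lit 5) (nat_lit 363) (nat_lit 304) (nat_lit 113)) (XT.nd (nat_lit 78) (nat_lit 0) (nat_lit 0) (XT.lf (nat_lit 0) (nat_lit 7067138565) (nat_lit 228) (nat_lit 16185986577) (nat_lit 304) (nat_lit 20982098286) (nat_lit 55) (nat_lit 5) (nat_lit 58) (nat_lit 5) (nat_lit 59) (nat_lit 5) (nat_lit 364) (nat_lit 304) (nat_lit 112)) (XT.lf (nat_lit 0) (nat_lit 26376113104) (nat_lit 228) (nat_lit 3954342210) (nat_lit 304) (nat_lit 14844750153) (nat_lit 55) (nat_lit 5) (nat_lit 58) (nat_lit 5) (nat_lit 59) (nat_lit 5) (nat_lit 365) (nat_lit 304)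 (nat_lit 111)))) (XT.nd (nat_lit 78) (nat_lit 76) (nat_lit 0) (XT.lf (nat_lit 0) (nat_lit 34818375) (nat_lit 228) (nat_lit 37666207840) (nat_lit 304) (nat_lit 8439935782) (nat_lit 52) (nat_lit 5) (nat_lit 55) (nat_lit 5) (nat_lit 56) (nat_lit 5) (nat_lit 366) (nat_lit 304) (nat_lit 110)) (XT.nd (nat_lit 78) (nat_lit 76) (nat_lit 0) (XT.lf (nat_lit 0) (nat_lit 19775477801) (nat_lit 228) (nat_lit 25743368239) (nat_lit 304) (nat_lit 1610063807) (nat_lit 52) (nat_lit 5) (nat_lit 55) (nat_lit 5) (nat_lit 56) (nat_lit 5) (nat_lit 367) (nat_lit 304) (nat_lit 109)) (XT.lf (nat_lit 0) (nat_lit 5316424318) (nat_lit 304) (nat_lit 8093928098) (nat_lit 76) (nat_lit 34734654517) (nat_lit 51) (nat_lit 5) (nat_lit 55) (nat_lit 5) (nat_lit 52) (nat_lit 5) (nat_lit 368) (nat_lit 304) (nat_lit 108))))) (XT.nd (nat_lit 234) (nat_lit 152) (nat_lit 0) (XT.nd (nat_lit 78) (nat_lit 228) (nat_lit 0) (XT.lf (nat_lit 0)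 (nat_lit 11957210714) (nat_lit 228) (nat_lit 573721838) (nat_lit 304) (nat_lit 36656800916) (nat_lit 48) (nat_lit 5) (nat_lit 51) (nat_lit 5) (nat_lit 52) (nat_lit 5) (nat_lit 369) (nat_lit 304) (nat_lit 107)) (XT.nd (nat_lit 78) (nat_lit 228) (nat_lit 0) (XT.lf (nat_lit 0) (nat_lit 20163668100) (nat_lit 304) (nat_lit 17609441237) (nat_lit 76) (nat_lit 12482580989) (nat_lit 48) (nat_lit 5) (nat_lit 52) (nat_lit 5) (nat_lit 49) (nat_lit 5) (nat_lit 370) (nat_lit 304) (nat_lit 106)) (XT.lf (nat_lit 0) (nat_lit 2642701634) (nat_lit 228) (nat_lit 25411505276) (nat_lit 304) (nat_lit 23300616571) (nat_lit 45) (nat_lit 5) (nat_lit 48) (nat_lit 5) (nat_lit 49) (nat_lit 5) (nat_lit 371) (nat_lit 304) (nat_lit 105)))) (XT.nd (nat_lit 78) (nat_lit 152) (nat_lit 0) (XT.lf (nat_lit 0) (nat_lit 23859959686) (nat_lit 228) (nat_lit 12497093513) (nat_lit 304) (nat_lit 16124611850) (nat_lit 45) (nat_lit 5) (nat_lit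 48) (nat_lit 5) (nat_lit 49) (nat_lit 5) (nat_lit 372) (nat_lit 304) (nat_lit 104)) (XT.nd (nat_lit 78) (nat_lit 152) (nat_lit 0) (XT.lf (nat_lit 0) (nat_lit 44914544895) (nat_lit 304) (nat_lit 7939693633) (nat_lit 76) (nat_lit 787908632) (nat_lit 45) (nat_lit 5) (nat_lit 49) (nat_lit 5) (nat_lit 46) (nat_lit 5) (nat_lit 373) (nat_lit 304) (nat_lit 103)) (XT.lf (nat_lit 0) (nat_lit 13499179460) (nat_lit 152) (nat_lit 40480965486) (nat_lit 228) (nat_lit 849759315) (nat_lit 43) (nat_lit 5) (nat_lit 45) (nat_lit 5) (nat_lit 46) (nat_lit 5) (nat_lit 374) (nat_lit 304) (nat_lit 102)))))) (XT.nd (nat_lit 468) (nat_lit 228) (nat_lit 0) (XT.nd (nat_lit 234) (nat_lit 152) (nat_lit 0) (XT.nd (nat_lit 78) (nat_lit 228) (nat_lit 0) (XT.lf (nat_lit 0) (nat_lit 7201528454) (nat_lit 228) (nat_lit 20380832609) (nat_lit 76) (nat_lit 28466474095) (nat_lit 42) (nat_lit 5) (nat_lit 45) (nat_lit 5) (nat_lit 43) (nat_lit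 5) (nat_lit 375) (nat_lit 304) (nat_lit 101)) (XT.nd (nat_lit 78) (nat_lit 0) (nat_lit 0) (XT.lf (nat_lit 0) (nat_lit 1209546844) (nat_lit 228) (nat_lit 14277312255) (nat_lit 304) (nat_lit 41816936835) (nat_lit 39) (nat_lit 5) (nat_lit 42) (nat_lit 5) (nat_lit 43) (nat_lit 5) (nat_lit 376) (nat_lit 304) (nat_lit 100)) (XT.lf (nat_lit 0) (nat_lit 23862257468) (nat_lit 228) (nat_lit 362284371) (nat_lit 304) (nat_lit 34365751738) (nat_lit 39) (nat_lit 5) (nat_lit 42) (nat_lit 5) (nat_lit 43) (nat_lit 5) (nat_lit 377) (nat_lit 304) (nat_lit 99)))) (XT.nd (nat_lit 78) (nat_lit 152) (nat_lit 0) (XT.lf (nat_lit 0) (nat_lit 33356678749) (nat_lit 304) (nat_lit 12858251506) (nat_lit 76) (nat_lit 13696487937) (nat_lit 39) (nat_lit 5) (nat_lit 43) (nat_lit 5) (nat_lit 40) (nat_lit 5) (nat_lit 378) (nat_lit 304) (nat_lit 98)) (XT.nd (nat_lit 78) (nat_lit 0) (nat_lit 0) (XT.lf (nat_lit 0) (nat_lit 9853278919)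 (nat_lit 152) (nat_lit 33005894473) (nat_lit 228) (nat_lit 18410113051) (nat_lit 37) (nat_lit 5) (nat_lit 39) (nat_lit 5) (nat_lit 40) (nat_lit 5) (nat_lit 379) (nat_lit 304) (nat_lit 97)) (XT.lf (nat_lit 0) (nat_lit 33506732848) (nat_lit 152) (nat_lit 19267970792) (nat_lit 228) (nat_lit 9889349934) (nat_lit 37) (nat_lit 5) (nat_lit 39) (nat_lit 5) (nat_lit 40) (nat_lit 5) (nat_lit 380) (nat_lit 304) (nat_lit 96))))) (XT.nd (nat_lit 34710) (nat_lit 0) (nat_lit 11096) (XT.nd (nat_lit 78) (nat_lit 228) (nat_lit 0) (XT.lf (nat_lit 0) (nat_lit 57866873928) (nat_lit 152) (nat_lit 5118998328) (nat_lit 228) (nat_lit 1114847895) (nat_lit 37) (nat_lit 5) (nat_lit 39) (nat_lit 5) (nat_lit 40) (nat_lit 5) (nat_lit 381) (nat_lit 304) (nat_lit 95)) (XT.nd (nat_lit 78) (nat_lit 0) (nat_lit 0) (XT.lf (nat_lit 0) (nat_lit 8029387644) (nat_lit 228) (nat_lit 48023899950) (nat_lit 76) (nat_lit 9517082779) (nat_lit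 34) (nat_lit 5) (nat_lit 37) (nat_lit 5) (nat_lit 35) (nat_lit 5) (nat_lit 382) (nat_lit 304) (nat_lit 94)) (XT.lf (nat_lit 0) (nat_lit 17538020169) (nat_lit 228) (nat_lit 24979466642) (nat_lit 76) (nat_lit 24562919302) (nat_lit 34) (nat_lit 5) (nat_lit 37) (nat_lit 5) (nat_lit 35) (nat_lit 5) (nat_lit 383) (nat_lit 304) (nat_lit 93)))) (XT.nd (nat_lit 78) (nat_lit 0) (nat_lit 0) (XT.lf (nat_lit 0) (nat_lit 5930095492) (nat_lit 1140) (nat_lit 957769641) (nat_lit 1140) (nat_lit 957769641) (nat_lit 180) (nat_lit 3) (nat_lit 195) (nat_lit 3) (nat_lit 195) (nat_lit 5) (nat_lit 305) (nat_lit 305) (nat_lit 170)) (XT.nd (nat_lit 78) (nat_lit 0) (nat_lit 0) (XT.lf (nat_lit 76) (nat_lit 5024405639) (nat_lit 0) (nat_lit 7311907615) (nat_lit 1140) (nat_lit 3580927533) (nat_lit 181) (nat_lit 5) (nat_lit 180) (nat_lit 3) (nat_lit 195) (nat_lit 5) (nat_lit 306) (nat_lit 305) (nat_lit 169)) (XT.lf (nat_lit 76)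 (nat_lit 12206683457) (nat_lit 0) (nat_lit 629575847) (nat_lit 1140) (nat_lit 3313463264) (nat_lit 181) (nat_lit 5) (nat_lit 180) (nat_lit 3) (nat_lit 195) (nat_lit 5) (nat_lit 307) (nat_lit 305) (nat_lit 168))))))))
noncomputable def xc213 : XT := (XT.nd (nat_lit 1872) (nat_lit 4560) (nat_lit 0) (XT.nd (nat_lit 936) (nat_lit 2584) (nat_lit 0) (XT.nd (nat_lit 468) (nat_lit 988) (nat_lit 0) (XT.nd (nat_lit 234) (nat_lit 0) (nat_lit 76) (XT.nd (nat_lit 78) (nat_lit 0) (nat_lit 0) (XT.lf (nat_lit 76) (nat_lit 3212499543) (nat_lit 0) (nat_lit 10220220576) (nat_lit 1140) (nat_lit 2954030290) (nat_lit 182) (nat_lit 5) (nat_lit 181) (nat_lit 5) (nat_lit 196) (nat_lit 5) (nat_lit 308) (nat_lit 305) (nat_lit 167)) (XT.nd (nat_lit 78) (nat_lit 0) (nat_lit 76) (XT.lf (nat_lit 76) (nat_lit 10651898689) (nat_lit 0) (nat_lit 3431916601) (nat_lit 1140) (nat_lit 2545988176) (nat_lit 182) (nat_lit 5) (nat_lit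 181) (nat_lit 5) (nat_lit 196) (nat_lit 5) (nat_lit 309) (nat_lit 305) (nat_lit 166)) (XT.lf (nat_lit 76) (nat_lit 1422421508) (nat_lit 0) (nat_lit 13370973952) (nat_lit 1140) (nat_lit 2085600208) (nat_lit 183) (nat_lit 5) (nat_lit 182) (nat_lit 5) (nat_lit 197) (nat_lit 5) (nat_lit 310) (nat_lit 305) (nat_lit 165)))) (XT.nd (nat_lit 78) (nat_lit 0) (nat_lit 76) (XT.lf (nat_lit 76) (nat_lit 9127251026) (nat_lit 0) (nat_lit 6482289696) (nat_lit 1140) (nat_lit 1523580228) (nat_lit 183) (nat_lit 5) (nat_lit 182) (nat_lit 5) (nat_lit 197) (nat_lit 5) (nat_lit 311) (nat_lit 305) (nat_lit 164)) (XT.nd (nat_lit 78) (nat_lit 0) (nat_lit 0) (XT.lf (nat_lit 0) (nat_lit 16447615301) (nat_lit 1064) (nat_lit 343073440) (nat_lit 1140) (nat_lit 604273093) (nat_lit 183) (nat_lit 5) (nat_lit 197) (nat_lit 5) (nat_lit 198) (nat_lit 5) (nat_lit 312) (nat_lit 305) (nat_lit 163)) (XT.lf (nat_lit 76) (nat_lit 7628918958)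 (nat_lit 0) (nat_lit 9811226035) (nat_lit 1140) (nat_lit 220648311) (nat_lit 184) (nat_lit 5) (nat_lit 183) (nat_lit 5) (nat_lit 198) (nat_lit 5) (nat_lit 313) (nat_lit 305) (nat_lit 162))))) (XT.nd (nat_lit 234) (nat_lit 0) (nat_lit 152) (XT.nd (nat_lit 78) (nat_lit 0) (nat_lit 76) (XT.lf (nat_lit 0) (nat_lit 512941560) (nat_lit 1140) (nat_lit 2097997466) (nat_lit 1216) (nat_lit 15323660646) (nat_lit 168) (nat_lit 5) (nat_lit 183) (nat_lit 5) (nat_lit 184) (nat_lit 5) (nat_lit 314) (nat_lit 305) (nat_lit 161)) (XT.nd (nat_lit 78) (nat_lit 0) (nat_lit 0) (XT.lf (nat_lit 0) (nat_lit 1362533897) (nat_lit 1140) (nat_lit 12074740198) (nat_lit 1216) (nat_lit 4776341205) (nat_lit 169) (nat_lit 5) (nat_lit 184) (nat_lit 5) (nat_lit 185) (nat_lit 5) (nat_lit 315) (nat_lit 305) (nat_lit 160)) (XT.lf (nat_lit 0) (nat_lit 2277190377) (nat_lit 1140) (nat_lit 3866117488) (nat_lit 1216) (nat_lit 12356519345)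 (nat_lit 169) (nat_lit 5) (nat_lit 184) (nat_lit 5) (nat_lit 185) (nat_lit 5) (nat_lit 316) (nat_lit 305) (nat_lit 159)))) (XT.nd (nat_lit 78) (nat_lit 0) (nat_lit 0) (XT.lf (nat_lit 0) (nat_lit 3270403979) (nat_lit 1140) (nat_lit 14132550497) (nat_lit 1216) (nat_lit 1390150199) (nat_lit 170) (nat_lit 5) (nat_lit 185) (nat_lit 5) (nat_lit 186) (nat_lit 5) (nat_lit 317) (nat_lit 305) (nat_lit 158)) (XT.nd (nat_lit 78) (nat_lit 0) (nat_lit 0) (XT.lf (nat_lit 0) (nat_lit 4386403298) (nat_lit 1140) (nat_lit 5638529691) (nat_lit 1216) (nat_lit 9067470148) (nat_lit 170) (nat_lit 5) (nat_lit 185) (nat_lit 5) (nat_lit 186) (nat_lit 5) (nat_lit 318) (nat_lit 305) (nat_lit 157)) (XT.lf (nat_lit 76) (nat_lit 3166681133) (nat_lit 0) (nat_lit 2392590798) (nat_lit 1216) (nat_lit 13840718933) (nat_lit 171) (nat_lit 5) (nat_lit 170) (nat_lit 5) (nat_lit 186) (nat_lit 5) (nat_lit 319) (nat_lit 305) (nat_lit 156))))))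 (XT.nd (nat_lit 468) (nat_lit 1748) (nat_lit 0) (XT.nd (nat_lit 234) (nat_lit 1064) (nat_lit 0) (XT.nd (nat_lit 78) (nat_lit 0) (nat_lit 0) (XT.lf (nat_lit 0) (nat_lit 6870514823) (nat_lit 1140) (nat_lit 7422201917) (nat_lit 1216) (nat_lit 5421005480) (nat_lit 171) (nat_lit 5) (nat_lit 186) (nat_lit 5) (nat_lit 187) (nat_lit 5) (nat_lit 320) (nat_lit 305) (nat_lit 155)) (XT.nd (nat_lit 78) (nat_lit 0) (nat_lit 76) (XT.lf (nat_lit 76) (nat_lit 1656432289) (nat_lit 0) (nat_lit 6597592489) (nat_lit 1216) (nat_lit 11781864147) (nat_lit 172) (nat_lit 5) (nat_lit 171) (nat_lit 5) (nat_lit 187) (nat_lit 5) (nat_lit 321) (nat_lit 305) (nat_lit 154)) (XT.lf (nat_lit 0) (nat_lit 9760973069) (nat_lit 1140) (nat_lit 9225015746) (nat_lit 76) (nat_lit 1379284800) (nat_lit 172) (nat_lit 5) (nat_lit 187) (nat_lit 5) (nat_lit 173) (nat_lit 5) (nat_lit 322) (nat_lit 305) (nat_lit 153)))) (XT.nd (nat_lit 78) (nat_lit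 0) (nat_lit 0) (XT.lf (nat_lit 0) (nat_lit 135946084) (nat_lit 1140) (nat_lit 11237475375) (nat_lit 1216) (nat_lit 9329320291) (nat_lit 157) (nat_lit 5) (nat_lit 172) (nat_lit 5) (nat_lit 173) (nat_lit 5) (nat_lit 323) (nat_lit 305) (nat_lit 152)) (XT.nd (nat_lit 78) (nat_lit 0) (nat_lit 0) (XT.lf (nat_lit 0) (nat_lit 9961451517) (nat_lit 1140) (nat_lit 3159741304) (nat_lit 1216) (nat_lit 7926542967) (nat_lit 157) (nat_lit 5) (nat_lit 172) (nat_lit 5) (nat_lit 173) (nat_lit 5) (nat_lit 324) (nat_lit 305) (nat_lit 151)) (XT.lf (nat_lit 0) (nat_lit 14964984819) (nat_lit 1216) (nat_lit 1376392189) (nat_lit 76) (nat_lit 5060405056) (nat_lit 157) (nat_lit 5) (nat_lit 173) (nat_lit 5) (nat_lit 158) (nat_lit 5) (nat_lit 325) (nat_lit 305) (nat_lit 150))))) (XT.nd (nat_lit 234) (nat_lit 608) (nat_lit 0) (XT.nd (nat_lit 78) (nat_lit 608) (nat_lit 0) (XT.lf (nat_lit 0) (nat_lit 8759162611) (nat_lit 532)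 (nat_lit 8214569501) (nat_lit 608) (nat_lit 4789438122) (nat_lit 150) (nat_lit 5) (nat_lit 157) (nat_lit 5) (nat_lit 158) (nat_lit 5) (nat_lit 326) (nat_lit 305) (nat_lit 149)) (XT.nd (nat_lit 78) (nat_lit 608) (nat_lit 0) (XT.lf (nat_lit 0) (nat_lit 19052561584) (nat_lit 608) (nat_lit 2915028447) (nat_lit 76) (nat_lit 167524891) (nat_lit 150) (nat_lit 5) (nat_lit 158) (nat_lit 5) (nat_lit 151) (nat_lit 5) (nat_lit 327) (nat_lit 305) (nat_lit 148)) (XT.lf (nat_lit 0) (nat_lit 7537114939) (nat_lit 608) (nat_lit 13804874546) (nat_lit 684) (nat_lit 1171790649) (nat_lit 142) (nat_lit 5) (nat_lit 150) (nat_lit 5) (nat_lit 151) (nat_lit 5) (nat_lit 328) (nat_lit 305) (nat_lit 147)))) (XT.nd (nat_lit 78) (nat_lit 532) (nat_lit 0) (XT.lf (nat_lit 0) (nat_lit 804982769) (nat_lit 684) (nat_lit 4553606026) (nat_lit 76) (nat_lit 17544268744) (nat_lit 141) (nat_lit 5) (nat_lit 150) (nat_lit 5) (nat_lit 142)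 (nat_lit 5) (nat_lit 329) (nat_lit 305) (nat_lit 146)) (XT.nd (nat_lit 78) (nat_lit 0) (nat_lit 0) (XT.lf (nat_lit 0) (nat_lit 2905443245) (nat_lit 608) (nat_lit 17046360809) (nat_lit 76) (nat_lit 3348825496) (nat_lit 134) (nat_lit 5) (nat_lit 142) (nat_lit 5) (nat_lit 135) (nat_lit 5) (nat_lit 330) (nat_lit 305) (nat_lit 145)) (XT.lf (nat_lit 0) (nat_lit 5163177403) (nat_lit 608) (nat_lit 6288018345) (nat_lit 76) (nat_lit 12256319343) (nat_lit 134) (nat_lit 5) (nat_lit 142) (nat_lit 5) (nat_lit 135) (nat_lit 5) (nat_lit 331) (nat_lit 305) (nat_lit 144))))))) (XT.nd (nat_lit 936) (nat_lit 1824) (nat_lit 0) (XT.nd (nat_lit 468) (nat_lit 1292) (nat_lit 0) (XT.nd (nat_lit 234) (nat_lit 456) (nat_lit 0) (XT.nd (nat_lit 78) (nat_lit 456) (nat_lit 0) (XT.lf (nat_lit 0) (nat_lit 4883240998) (nat_lit 532) (nat_lit 2647262479) (nat_lit 608) (nat_lit 16594855851) (nat_lit 127) (nat_lit 5) (nat_lit 134)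 (nat_lit 5) (nat_lit 135) (nat_lit 5) (nat_lit 332) (nat_lit 305) (nat_lit 143)) (XT.nd (nat_lit 78) (nat_lit 456) (nat_lit 0) (XT.lf (nat_lit 0) (nat_lit 10089712758) (nat_lit 608) (nat_lit 8102875945) (nat_lit 76) (nat_lit 6359531984) (nat_lit 127) (nat_lit 5) (nat_lit 135) (nat_lit 5) (nat_lit 128) (nat_lit 5) (nat_lit 333) (nat_lit 305) (nat_lit 142)) (XT.lf (nat_lit 0) (nat_lit 3405714188) (nat_lit 456) (nat_lit 9374095113) (nat_lit 532) (nat_lit 12210259728) (nat_lit 121) (nat_lit 5) (nat_lit 127) (nat_lit 5) (nat_lit 128) (nat_lit 5) (nat_lit 334) (nat_lit 305) (nat_lit 141)))) (XT.nd (nat_lit 78) (nat_lit 456) (nat_lit 0) (XT.lf (nat_lit 0) (nat_lit 15420636058) (nat_lit 456) (nat_lit 207051073) (nat_lit 532) (nat_lit 9811163595) (nat_lit 121) (nat_lit 5) (nat_lit 127) (nat_lit 5) (nat_lit 128) (nat_lit 5) (nat_lit 335) (nat_lit 305) (nat_lit 140)) (XT.nd (nat_lit 78) (nat_lit 0) (nat_lit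 0) (XT.lf (nat_lit 0) (nat_lit 1836959727) (nat_lit 456) (nat_lit 16825862853) (nat_lit 532) (nat_lit 7235225699) (nat_lit 115) (nat_lit 5) (nat_lit 121) (nat_lit 5) (nat_lit 122) (nat_lit 5) (nat_lit 336) (nat_lit 305) (nat_lit 139)) (XT.lf (nat_lit 0) (nat_lit 14246088199) (nat_lit 456) (nat_lit 7641595359) (nat_lit 532) (nat_lit 4480384896) (nat_lit 115) (nat_lit 5) (nat_lit 121) (nat_lit 5) (nat_lit 122) (nat_lit 5) (nat_lit 337) (nat_lit 305) (nat_lit 138))))) (XT.nd (nat_lit 234) (nat_lit 836) (nat_lit 0) (XT.nd (nat_lit 78) (nat_lit 76) (nat_lit 0) (XT.lf (nat_lit 0) (nat_lit 155902648) (nat_lit 380) (nat_lit 25067968750) (nat_lit 456) (nat_lit 1627887042) (nat_lit 110) (nat_lit 5) (nat_lit 115) (nat_lit 5) (nat_lit 116) (nat_lit 5) (nat_lit 338) (nat_lit 305) (nat_lit 137)) (XT.nd (nat_lit 78) (nat_lit 0) (nat_lit 0) (XT.lf (nat_lit 0) (nat_lit 1479535344) (nat_lit 456) (nat_lit 14390149417)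 (nat_lit 76) (nat_lit 11474055315) (nat_lit 109) (nat_lit 5) (nat_lit 115) (nat_lit 5) (nat_lit 110) (nat_lit 5) (nat_lit 339) (nat_lit 305) (nat_lit 136)) (XT.lf (nat_lit 0) (nat_lit 4643225066) (nat_lit 456) (nat_lit 1736251344) (nat_lit 76) (nat_lit 21470654388) (nat_lit 109) (nat_lit 5) (nat_lit 115) (nat_lit 5) (nat_lit 110) (nat_lit 5) (nat_lit 340) (nat_lit 305) (nat_lit 135)))) (XT.nd (nat_lit 78) (nat_lit 380) (nat_lit 0) (XT.lf (nat_lit 0) (nat_lit 8042153003) (nat_lit 532) (nat_lit 16884963307) (nat_lit 76) (nat_lit 3440393005) (nat_lit 103) (nat_lit 5) (nat_lit 110) (nat_lit 5) (nat_lit 104) (nat_lit 5) (nat_lit 341) (nat_lit 305) (nat_lit 134)) (XT.nd (nat_lit 78) (nat_lit 380) (nat_lit 0) (XT.lf (nat_lit 0) (nat_lit 11619873965) (nat_lit 532) (nat_lit 3834515877) (nat_lit 76) (nat_lit 13443720317) (nat_lit 103) (nat_lit 5) (nat_lit 110) (nat_lit 5) (nat_lit 104) (nat_lit 5) (nat_lit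 342) (nat_lit 305) (nat_lit 133)) (XT.lf (nat_lit 0) (nat_lit 9793904294) (nat_lit 380) (nat_lit 5601240782) (nat_lit 456) (nat_lit 14046782957) (nat_lit 98) (nat_lit 5) (nat_lit 103) (nat_lit 5) (nat_lit 104) (nat_lit 5) (nat_lit 343) (nat_lit 305) (nat_lit 132)))))) (XT.nd (nat_lit 468) (nat_lit 684) (nat_lit 0) (XT.nd (nat_lit 234) (nat_lit 760) (nat_lit 0) (XT.nd (nat_lit 78) (nat_lit 380) (nat_lit 0) (XT.lf (nat_lit 0) (nat_lit 19362628509) (nat_lit 456) (nat_lit 6139937924) (nat_lit 76) (nat_lit 4497130784) (nat_lit 98) (nat_lit 5) (nat_lit 104) (nat_lit 5) (nat_lit 99) (nat_lit 5) (nat_lit 344) (nat_lit 305) (nat_lit 131)) (XT.nd (nat_lit 78) (nat_lit 0) (nat_lit 0) (XT.lf (nat_lit 0) (nat_lit 7866857691) (nat_lit 380) (nat_lit 15709606504) (nat_lit 456) (nat_lit 6993920690) (nat_lit 93) (nat_lit 5) (nat_lit 98) (nat_lit 5) (nat_lit 99) (nat_lit 5) (nat_lit 345) (nat_lit 305) (nat_lit 130))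 (XT.lf (nat_lit 0) (nat_lit 22415179166) (nat_lit 380) (nat_lit 5559851600) (nat_lit 456) (nat_lit 3181418030) (nat_lit 93) (nat_lit 5) (nat_lit 98) (nat_lit 5) (nat_lit 99) (nat_lit 5) (nat_lit 346) (nat_lit 305) (nat_lit 129)))) (XT.nd (nat_lit 78) (nat_lit 380) (nat_lit 0) (XT.lf (nat_lit 0) (nat_lit 830130002) (nat_lit 380) (nat_lit 26065777636) (nat_lit 76) (nat_lit 4861000303) (nat_lit 88) (nat_lit 5) (nat_lit 93) (nat_lit 5) (nat_lit 89) (nat_lit 5) (nat_lit 347) (nat_lit 305) (nat_lit 128)) (XT.nd (nat_lit 78) (nat_lit 380) (nat_lit 0) (XT.lf (nat_lit 0) (nat_lit 5038708541) (nat_lit 380) (nat_lit 11729008369) (nat_lit 76) (nat_lit 15602504807) (nat_lit 88) (nat_lit 5) (nat_lit 93) (nat_lit 5) (nat_lit 89) (nat_lit 5) (nat_lit 348) (nat_lit 305) (nat_lit 127)) (XT.lf (nat_lit 0) (nat_lit 3093823857) (nat_lit 380) (nat_lit 6305999861) (nat_lit 456) (nat_lit 23601327333) (nat_lit 83) (nat_lit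 5) (nat_lit 88) (nat_lit 5) (nat_lit 89) (nat_lit 5) (nat_lit 349) (nat_lit 305) (nat_lit 126))))) (XT.nd (nat_lit 234) (nat_lit 380) (nat_lit 0) (XT.nd (nat_lit 78) (nat_lit 304) (nat_lit 0) (XT.lf (nat_lit 0) (nat_lit 14050938298) (nat_lit 456) (nat_lit 15094283399) (nat_lit 76) (nat_lit 4501015978) (nat_lit 83) (nat_lit 5) (nat_lit 89) (nat_lit 5) (nat_lit 84) (nat_lit 5) (nat_lit 350) (nat_lit 305) (nat_lit 125)) (XT.nd (nat_lit 78) (nat_lit 0) (nat_lit 0) (XT.lf (nat_lit 0) (nat_lit 98298639) (nat_lit 304) (nat_lit 18803356629) (nat_lit 380) (nat_lit 15407223823) (nat_lit 79) (nat_lit 5) (nat_lit 83) (nat_lit 5) (nat_lit 84) (nat_lit 5) (nat_lit 351) (nat_lit 305) (nat_lit 124)) (XT.lf (nat_lit 0) (nat_lit 16051783067) (nat_lit 304) (nat_lit 7995276937) (nat_lit 380) (nat_lit 10939868894) (nat_lit 79) (nat_lit 5) (nat_lit 83) (nat_lit 5) (nat_lit 84) (nat_lit 5) (nat_lit 352) (nat_lit 305)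 (nat_lit 123)))) (XT.nd (nat_lit 78) (nat_lit 380) (nat_lit 0) (XT.lf (nat_lit 0) (nat_lit 29373810846) (nat_lit 380) (nat_lit 3235860600) (nat_lit 76) (nat_lit 3074843254) (nat_lit 79) (nat_lit 5) (nat_lit 84) (nat_lit 5) (nat_lit 80) (nat_lit 5) (nat_lit 353) (nat_lit 305) (nat_lit 122)) (XT.nd (nat_lit 78) (nat_lit 76) (nat_lit 0) (XT.lf (nat_lit 0) (nat_lit 13106871059) (nat_lit 304) (nat_lit 21955566702) (nat_lit 380) (nat_lit 1334532006) (nat_lit 75) (nat_lit 5) (nat_lit 79) (nat_lit 5) (nat_lit 80) (nat_lit 5) (nat_lit 354) (nat_lit 305) (nat_lit 121)) (XT.lf (nat_lit 0) (nat_lit 3746887532) (nat_lit 380) (nat_lit 7164523118) (nat_lit 76) (nat_lit 26217400179) (nat_lit 74) (nat_lit 5) (nat_lit 79) (nat_lit 5) (nat_lit 75) (nat_lit 5) (nat_lit 355) (nat_lit 305) (nat_lit 120))))))))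
noncomputable def xc214 : XT := (XT.nd (nat_lit 1794) (nat_lit 152) (nat_lit 0) (XT.nd (nat_lit 858) (nat_lit 1216) (nat_lit 0) (XT.nd (nat_lit 390) (nat_lit 608) (nat_lit 0) (XT.nd (nat_lit 156) (nat_lit 532) (nat_lit 0) (XT.nd (nat_lit 78) (nat_lit 0) (nat_lit 0) (XT.lf (nat_lit 0) (nat_lit 9048877651) (nat_lit 380) (nat_lit 28269829881) (nat_lit 76) (nat_lit 560658240) (nat_lit 70) (nat_lit 5) (nat_lit 75) (nat_lit 5) (nat_lit 71) (nat_lit 5) (nat_lit 356) (nat_lit 305) (nat_lit 119)) (XT.lf (nat_lit 0) (nat_lit 14688090022) (nat_lit 380) (nat_lit 11729412227) (nat_lit 76) (nat_lit 12229593704) (nat_lit 70) (nat_lit 5) (nat_lit 75) (nat_lit 5) (nat_lit 71) (nat_lit 5) (nat_lit 357) (nat_lit 305) (nat_lit 118))) (XT.nd (nat_lit 78) (nat_lit 228) (nat_lit 0) (XT.lf (nat_lit 0) (nat_lit 5408804394) (nat_lit 304) (nat_lit 15136817426) (nat_lit 380) (nat_lit 18890765292) (nat_lit 66) (nat_lit 5)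 (nat_lit 70) (nat_lit 5) (nat_lit 71) (nat_lit 5) (nat_lit 358) (nat_lit 305) (nat_lit 117)) (XT.nd (nat_lit 78) (nat_lit 228) (nat_lit 0) (XT.lf (nat_lit 0) (nat_lit 23297688960) (nat_lit 304) (nat_lit 3396830315) (nat_lit 380) (nat_lit 13551371804) (nat_lit 66) (nat_lit 5) (nat_lit 70) (nat_lit 5) (nat_lit 71) (nat_lit 5) (nat_lit 359) (nat_lit 305) (nat_lit 116)) (XT.lf (nat_lit 0) (nat_lit 567161912) (nat_lit 228) (nat_lit 32547025643) (nat_lit 304) (nat_lit 7962906666) (nat_lit 63) (nat_lit 5) (nat_lit 66) (nat_lit 5) (nat_lit 67) (nat_lit 5) (nat_lit 360) (nat_lit 305) (nat_lit 115))))) (XT.nd (nat_lit 234) (nat_lit 228) (nat_lit 0) (XT.nd (nat_lit 78) (nat_lit 380) (nat_lit 0) (XT.lf (nat_lit 0) (nat_lit 18917264839) (nat_lit 228) (nat_lit 21010936489) (nat_lit 304) (nat_lit 1998982544) (nat_lit 63) (nat_lit 5) (nat_lit 66) (nat_lit 5) (nat_lit 67) (nat_lit 5) (nat_lit 361) (nat_lit 305)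 (nat_lit 114)) (XT.nd (nat_lit 78) (nat_lit 304) (nat_lit 0) (XT.lf (nat_lit 0) (nat_lit 4060356828) (nat_lit 304) (nat_lit 5028524448) (nat_lit 76) (nat_lit 33712782063) (nat_lit 62) (nat_lit 5) (nat_lit 66) (nat_lit 5) (nat_lit 63) (nat_lit 5) (nat_lit 362) (nat_lit 305) (nat_lit 113)) (XT.lf (nat_lit 0) (nat_lit 10422947313) (nat_lit 380) (nat_lit 29993165715) (nat_lit 76) (nat_lit 3280823770) (nat_lit 58) (nat_lit 5) (nat_lit 63) (nat_lit 5) (nat_lit 59) (nat_lit 5) (nat_lit 363) (nat_lit 305) (nat_lit 112)))) (XT.nd (nat_lit 78) (nat_lit 228) (nat_lit 0) (XT.lf (nat_lit 0) (nat_lit 17115150465) (nat_lit 380) (nat_lit 11610628710) (nat_lit 76) (nat_lit 15889129971) (nat_lit 58) (nat_lit 5) (nat_lit 63) (nat_lit 5) (nat_lit 59) (nat_lit 5) (nat_lit 364) (nat_lit 305) (nat_lit 111)) (XT.nd (nat_lit 78) (nat_lit 0) (nat_lit 0) (XT.lf (nat_lit 0) (nat_lit 7465463237) (nat_lit 228) (nat_lit 16611957945)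 (nat_lit 304) (nat_lit 21480923094) (nat_lit 55) (nat_lit 5) (nat_lit 58) (nat_lit 5) (nat_lit 59) (nat_lit 5) (nat_lit 365) (nat_lit 305) (nat_lit 110)) (XT.lf (nat_lit 0) (nat_lit 27348280492) (nat_lit 228) (nat_lit 4015100409) (nat_lit 304) (nat_lit 15163259511) (nat_lit 55) (nat_lit 5) (nat_lit 58) (nat_lit 5) (nat_lit 59) (nat_lit 5) (nat_lit 366) (nat_lit 305) (nat_lit 109)))))) (XT.nd (nat_lit 468) (nat_lit 456) (nat_lit 0) (XT.nd (nat_lit 234) (nat_lit 456) (nat_lit 0) (XT.nd (nat_lit 78) (nat_lit 76) (nat_lit 0) (XT.lf (nat_lit 0) (nat_lit 218206457) (nat_lit 228) (nat_lit 38735572497) (nat_lit 304) (nat_lit 8567633195) (nat_lit 52) (nat_lit 5) (nat_lit 55) (nat_lit 5) (nat_lit 56) (nat_lit 5) (nat_lit 367) (nat_lit 305) (nat_lit 108)) (XT.nd (nat_lit 78) (nat_lit 76) (nat_lit 0) (XT.lf (nat_lit 0) (nat_lit 20545774690) (nat_lit 228) (nat_lit 26456813385) (nat_lit 304) (nat_lit 1536520421)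 (nat_lit 52) (nat_lit 5) (nat_lit 55) (nat_lit 5) (nat_lit 56) (nat_lit 5) (nat_lit 368) (nat_lit 305) (nat_lit 107)) (XT.lf (nat_lit 0) (nat_lit 5591905067) (nat_lit 304) (nat_lit 8162445018) (nat_lit 76) (nat_lit 35831411147) (nat_lit 51) (nat_lit 5) (nat_lit 55) (nat_lit 5) (nat_lit 52) (nat_lit 5) (nat_lit 369) (nat_lit 305) (nat_lit 106)))) (XT.nd (nat_lit 78) (nat_lit 228) (nat_lit 0) (XT.lf (nat_lit 0) (nat_lit 12488519125) (nat_lit 228) (nat_lit 532610191) (nat_lit 304) (nat_lit 37638695210) (nat_lit 48) (nat_lit 5) (nat_lit 51) (nat_lit 5) (nat_lit 52) (nat_lit 5) (nat_lit 370) (nat_lit 305) (nat_lit 105)) (XT.nd (nat_lit 78) (nat_lit 228) (nat_lit 0) (XT.lf (nat_lit 0) (nat_lit 20880063025) (nat_lit 304) (nat_lit 17967265838) (nat_lit 76) (nat_lit 12912578034) (nat_lit 48) (nat_lit 5) (nat_lit 52) (nat_lit 5) (nat_lit 49) (nat_lit 5) (nat_lit 371) (nat_lit 305) (nat_lit 104)) (XT.lf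 (nat_lit 0) (nat_lit 2890770157) (nat_lit 228) (nat_lit 26114923198) (nat_lit 304) (nat_lit 23886372622) (nat_lit 45) (nat_lit 5) (nat_lit 48) (nat_lit 5) (nat_lit 49) (nat_lit 5) (nat_lit 372) (nat_lit 305) (nat_lit 103))))) (XT.nd (nat_lit 234) (nat_lit 304) (nat_lit 0) (XT.nd (nat_lit 78) (nat_lit 152) (nat_lit 0) (XT.lf (nat_lit 0) (nat_lit 24739629810) (nat_lit 228) (nat_lit 12814795409) (nat_lit 304) (nat_lit 16498386666) (nat_lit 45) (nat_lit 5) (nat_lit 48) (nat_lit 5) (nat_lit 49) (nat_lit 5) (nat_lit 373) (nat_lit 305) (nat_lit 102)) (XT.nd (nat_lit 78) (nat_lit 152) (nat_lit 0) (XT.lf (nat_lit 0) (nat_lit 46366068981) (nat_lit 304) (nat_lit 8016113080) (nat_lit 76) (nat_lit 866006588) (nat_lit 45) (nat_lit 5) (nat_lit 49) (nat_lit 5) (nat_lit 46) (nat_lit 5) (nat_lit 374) (nat_lit 305) (nat_lit 101)) (XT.lf (nat_lit 0) (nat_lit 14064340212) (nat_lit 152) (nat_lit 41637804939) (nat_lit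 228) (nat_lit 769480990) (nat_lit 43) (nat_lit 5) (nat_lit 45) (nat_lit 5) (nat_lit 46) (nat_lit 5) (nat_lit 375) (nat_lit 305) (nat_lit 100)))) (XT.nd (nat_lit 78) (nat_lit 228) (nat_lit 0) (XT.lf (nat_lit 0) (nat_lit 7518260841) (nat_lit 228) (nat_lit 20834642170) (nat_lit 76) (nat_lit 29374284823) (nat_lit 42) (nat_lit 5) (nat_lit 45) (nat_lit 5) (nat_lit 43) (nat_lit 5) (nat_lit 376) (nat_lit 305) (nat_lit 99)) (XT.nd (nat_lit 78) (nat_lit 0) (nat_lit 0) (XT.lf (nat_lit 0) (nat_lit 1401903417) (nat_lit 228) (nat_lit 14648815613) (nat_lit 304) (nat_lit 42969124047) (nat_lit 39) (nat_lit 5) (nat_lit 42) (nat_lit 5) (nat_lit 43) (nat_lit 5) (nat_lit 377) (nat_lit 305) (nat_lit 98)) (XT.lf (nat_lit 0) (nat_lit 24729649626) (nat_lit 228) (nat_lit 317991728) (nat_lit 304) (nat_lit 35297383618) (nat_lit 39) (nat_lit 5) (nat_lit 42) (nat_lit 5) (nat_lit 43) (nat_lit 5) (nat_lit 378) (nat_lit 305)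 (nat_lit 97))))))) (XT.nd (nat_lit 35568) (nat_lit 0) (nat_lit 9120) (XT.nd (nat_lit 35100) (nat_lit 0) (nat_lit 10868) (XT.nd (nat_lit 234) (nat_lit 0) (nat_lit 0) (XT.nd (nat_lit 78) (nat_lit 152) (nat_lit 0) (XT.lf (nat_lit 0) (nat_lit 34451450474) (nat_lit 304) (nat_lit 13094512058) (nat_lit 76) (nat_lit 14159892072) (nat_lit 39) (nat_lit 5) (nat_lit 43) (nat_lit 5) (nat_lit 40) (nat_lit 5) (nat_lit 379) (nat_lit 305) (nat_lit 96)) (XT.nd (nat_lit 78) (nat_lit 0) (nat_lit 0) (XT.lf (nat_lit 0) (nat_lit 10296898722) (nat_lit 152) (nat_lit 33940804165) (nat_lit 228) (nat_lit 18866797974) (nat_lit 37) (nat_lit 5) (nat_lit 39) (nat_lit 5) (nat_lit 40) (nat_lit 5) (nat_lit 380) (nat_lit 305) (nat_lit 95)) (XT.lf (nat_lit 0) (nat_lit 34655644964) (nat_lit 152) (nat_lit 19792352495) (nat_lit 228) (nat_lit 10093196967) (nat_lit 37) (nat_lit 5) (nat_lit 39) (nat_lit 5) (nat_lit 40) (nat_lit 5) (nat_lit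 381) (nat_lit 305) (nat_lit 94)))) (XT.nd (nat_lit 34710) (nat_lit 0) (nat_lit 10868) (XT.lf (nat_lit 0) (nat_lit 59742404545) (nat_lit 152) (nat_lit 5220473695) (nat_lit 228) (nat_lit 1058163754) (nat_lit 37) (nat_lit 5) (nat_lit 39) (nat_lit 5) (nat_lit 40) (nat_lit 5) (nat_lit 382) (nat_lit 305) (nat_lit 93)) (XT.nd (nat_lit 78) (nat_lit 0) (nat_lit 0) (XT.lf (nat_lit 0) (nat_lit 6355517702) (nat_lit 1140) (nat_lit 858806825) (nat_lit 1140) (nat_lit 858806825) (nat_lit 180) (nat_lit 3) (nat_lit 195) (nat_lit 3) (nat_lit 195) (nat_lit 5) (nat_lit 306) (nat_lit 306) (nat_lit 168)) (XT.lf (nat_lit 76) (nat_lit 5428025780) (nat_lit 0) (nat_lit 7761427874) (nat_lit 1140) (nat_lit 3189945086) (nat_lit 181) (nat_lit 5) (nat_lit 180) (nat_lit 3) (nat_lit 195) (nat_lit 5) (nat_lit 307) (nat_lit 306) (nat_lit 167))))) (XT.nd (nat_lit 234) (nat_lit 0) (nat_lit 152) (XT.nd (nat_lit 78) (nat_lit 0) (nat_lit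 76) (XT.lf (nat_lit 76) (nat_lit 12818406263) (nat_lit 0) (nat_lit 871922376) (nat_lit 1140) (nat_lit 2928973693) (nat_lit 181) (nat_lit 5) (nat_lit 180) (nat_lit 3) (nat_lit 195) (nat_lit 5) (nat_lit 308) (nat_lit 306) (nat_lit 166)) (XT.nd (nat_lit 78) (nat_lit 0) (nat_lit 0) (XT.lf (nat_lit 76) (nat_lit 3568882436) (nat_lit 0) (nat_lit 10722555076) (nat_lit 1140) (nat_lit 2572425405) (nat_lit 182) (nat_lit 5) (nat_lit 181) (nat_lit 5) (nat_lit 196) (nat_lit 5) (nat_lit 309) (nat_lit 306) (nat_lit 165)) (XT.lf (nat_lit 76) (nat_lit 11223890511) (nat_lit 0) (nat_lit 3724901170) (nat_lit 1140) (nat_lit 2165837926) (nat_lit 182) (nat_lit 5) (nat_lit 181) (nat_lit 5) (nat_lit 196) (nat_lit 5) (nat_lit 310) (nat_lit 306) (nat_lit 164)))) (XT.nd (nat_lit 78) (nat_lit 0) (nat_lit 0) (XT.lf (nat_lit 76) (nat_lit 1730792953) (nat_lit 0) (nat_lit 13936759667) (nat_lit 1140) (nat_lit 1704131281) (nat_lit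 183) (nat_lit 5) (nat_lit 182) (nat_lit 5) (nat_lit 197) (nat_lit 5) (nat_lit 311) (nat_lit 306) (nat_lit 163)) (XT.nd (nat_lit 78) (nat_lit 0) (nat_lit 76) (XT.lf (nat_lit 76) (nat_lit 9659028558) (nat_lit 0) (nat_lit 6836619064) (nat_lit 1140) (nat_lit 1138183816) (nat_lit 183) (nat_lit 5) (nat_lit 182) (nat_lit 5) (nat_lit 197) (nat_lit 5) (nat_lit 312) (nat_lit 306) (nat_lit 162)) (XT.lf (nat_lit 0) (nat_lit 17345202982) (nat_lit 1064) (nat_lit 88530866) (nat_lit 1140) (nat_lit 470225345) (nat_lit 183) (nat_lit 5) (nat_lit 197) (nat_lit 5) (nat_lit 198) (nat_lit 5) (nat_lit 313) (nat_lit 306) (nat_lit 161)))))) (XT.nd (nat_lit 468) (nat_lit 836) (nat_lit 0) (XT.nd (nat_lit 234) (nat_lit 0) (nat_lit 76) (XT.nd (nat_lit 78) (nat_lit 0) (nat_lit 0) (XT.lf (nat_lit 0) (nat_lit 176677210) (nat_lit 1140) (nat_lit 10059771544) (nat_lit 1216) (nat_lit 7941563582) (nat_lit 168) (nat_lit 5) (nat_lit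 183) (nat_lit 5) (nat_lit 184) (nat_lit 5) (nat_lit 314) (nat_lit 306) (nat_lit 160)) (XT.nd (nat_lit 78) (nat_lit 0) (nat_lit 76) (XT.lf (nat_lit 0) (nat_lit 916203748) (nat_lit 1140) (nat_lit 1897952539) (nat_lit 1216) (nat_lit 15646180106) (nat_lit 168) (nat_lit 5) (nat_lit 183) (nat_lit 5) (nat_lit 184) (nat_lit 5) (nat_lit 315) (nat_lit 306) (nat_lit 159)) (XT.lf (nat_lit 0) (nat_lit 1781348983) (nat_lit 1140) (nat_lit 12163417000) (nat_lit 1216) (nat_lit 4803273923) (nat_lit 169) (nat_lit 5) (nat_lit 184) (nat_lit 5) (nat_lit 185) (nat_lit 5) (nat_lit 316) (nat_lit 306) (nat_lit 158)))) (XT.nd (nat_lit 78) (nat_lit 0) (nat_lit 76) (XT.lf (nat_lit 0) (nat_lit 2712437223) (nat_lit 1140) (nat_lit 3716503533) (nat_lit 1216) (nat_lit 12614246461) (nat_lit 169) (nat_lit 5) (nat_lit 184) (nat_lit 5) (nat_lit 185) (nat_lit 5) (nat_lit 317) (nat_lit 306) (nat_lit 157)) (XT.nd (nat_lit 78) (nat_lit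 0) (nat_lit 0) (XT.lf (nat_lit 0) (nat_lit 3726367294) (nat_lit 1140) (nat_lit 14281240977) (nat_lit 1216) (nat_lit 1337945392) (nat_lit 170) (nat_lit 5) (nat_lit 185) (nat_lit 5) (nat_lit 186) (nat_lit 5) (nat_lit 318) (nat_lit 306) (nat_lit 156)) (XT.lf (nat_lit 0) (nat_lit 4865423743) (nat_lit 1140) (nat_lit 5540417586) (nat_lit 1216) (nat_lit 9248320162) (nat_lit 170) (nat_lit 5) (nat_lit 185) (nat_lit 5) (nat_lit 186) (nat_lit 5) (nat_lit 319) (nat_lit 306) (nat_lit 155))))) (XT.nd (nat_lit 234) (nat_lit 988) (nat_lit 0) (XT.nd (nat_lit 78) (nat_lit 0) (nat_lit 76) (XT.lf (nat_lit 76) (nat_lit 3526329288) (nat_lit 0) (nat_lit 2539573830) (nat_lit 1216) (nat_lit 13905318202) (nat_lit 171) (nat_lit 5) (nat_lit 170) (nat_lit 5) (nat_lit 186) (nat_lit 5) (nat_lit 320) (nat_lit 306) (nat_lit 154)) (XT.nd (nat_lit 78) (nat_lit 0) (nat_lit 0) (XT.lf (nat_lit 0) (nat_lit 7405882801) (nat_lit 1140)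 (nat_lit 7376770974) (nat_lit 1216) (nat_lit 5512045565) (nat_lit 171) (nat_lit 5) (nat_lit 186) (nat_lit 5) (nat_lit 187) (nat_lit 5) (nat_lit 321) (nat_lit 306) (nat_lit 153)) (XT.lf (nat_lit 76) (nat_lit 1971593856) (nat_lit 0) (nat_lit 6852266166) (nat_lit 1216) (nat_lit 11802898388) (nat_lit 172) (nat_lit 5) (nat_lit 171) (nat_lit 5) (nat_lit 187) (nat_lit 5) (nat_lit 322) (nat_lit 306) (nat_lit 152)))) (XT.nd (nat_lit 78) (nat_lit 1140) (nat_lit 0) (XT.lf (nat_lit 0) (nat_lit 10366102285) (nat_lit 1140) (nat_lit 9233590240) (nat_lit 76) (nat_lit 1366645300) (nat_lit 172) (nat_lit 5) (nat_lit 187) (nat_lit 5) (nat_lit 173) (nat_lit 5) (nat_lit 323) (nat_lit 306) (nat_lit 151)) (XT.nd (nat_lit 78) (nat_lit 0) (nat_lit 0) (XT.lf (nat_lit 0) (nat_lit 405571268) (nat_lit 1140) (nat_lit 11614809339) (nat_lit 1216) (nat_lit 9293760994) (nat_lit 157) (nat_lit 5) (nat_lit 172) (nat_lit 5) (nat_lit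 173) (nat_lit 5) (nat_lit 324) (nat_lit 306) (nat_lit 150)) (XT.lf (nat_lit 0) (nat_lit 10518107491) (nat_lit 1140) (nat_lit 3293572090) (nat_lit 1216) (nat_lit 7858087890) (nat_lit 157) (nat_lit 5) (nat_lit 172) (nat_lit 5) (nat_lit 173) (nat_lit 5) (nat_lit 325) (nat_lit 306) (nat_lit 149))))))))
noncomputable def xc215 : XT := (XT.nd (nat_lit 1872) (nat_lit 3268) (nat_lit 0) (XT.nd (nat_lit 936) (nat_lit 2052) (nat_lit 0) (XT.nd (nat_lit 468) (nat_lit 1444) (nat_lit 0) (XT.nd (nat_lit 234) (nat_lit 1216) (nat_lit 0) (XT.nd (nat_lit 78) (nat_lit 532) (nat_lit 0) (XT.lf (nat_lit 0) (nat_lit 15701774862) (nat_lit 1216) (nat_lit 1157889701) (nat_lit 76) (nat_lit 5175055301) (nat_lit 157) (nat_lit 5) (nat_lit 173) (nat_lit 5) (nat_lit 158) (nat_lit 5) (nat_lit 326) (nat_lit 306) (nat_lit 148)) (XT.nd (nat_lit 78) (nat_lit 0) (nat_lit 0) (XT.lf (nat_lit 0) (nat_lit 9279184741) (nat_lit 532) (nat_lit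 8485688947) (nat_lit 608) (nat_lit 4642267311) (nat_lit 150) (nat_lit 5) (nat_lit 157) (nat_lit 5) (nat_lit 158) (nat_lit 5) (nat_lit 327) (nat_lit 306) (nat_lit 147)) (XT.lf (nat_lit 0) (nat_lit 19897626150) (nat_lit 608) (nat_lit 2743829926) (nat_lit 76) (nat_lit 149054794) (nat_lit 150) (nat_lit 5) (nat_lit 158) (nat_lit 5) (nat_lit 151) (nat_lit 5) (nat_lit 328) (nat_lit 306) (nat_lit 146)))) (XT.nd (nat_lit 78) (nat_lit 608) (nat_lit 0) (XT.lf (nat_lit 0) (nat_lit 8019341983) (nat_lit 608) (nat_lit 14230891164) (nat_lit 684) (nat_lit 930481195) (nat_lit 142) (nat_lit 5) (nat_lit 150) (nat_lit 5) (nat_lit 151) (nat_lit 5) (nat_lit 329) (nat_lit 306) (nat_lit 145)) (XT.nd (nat_lit 78) (nat_lit 532) (nat_lit 0) (XT.lf (nat_lit 0) (nat_lit 1092305439) (nat_lit 684) (nat_lit 4435908130) (nat_lit 76) (nat_lit 18053420063) (nat_lit 141) (nat_lit 5) (nat_lit 150) (nat_lit 5) (nat_lit 142) (nat_lit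 5) (nat_lit 330) (nat_lit 306) (nat_lit 144)) (XT.lf (nat_lit 0) (nat_lit 3250476282) (nat_lit 608) (nat_lit 17297739743) (nat_lit 76) (nat_lit 3443293952) (nat_lit 134) (nat_lit 5) (nat_lit 142) (nat_lit 5) (nat_lit 135) (nat_lit 5) (nat_lit 331) (nat_lit 306) (nat_lit 143))))) (XT.nd (nat_lit 234) (nat_lit 912) (nat_lit 0) (XT.nd (nat_lit 78) (nat_lit 532) (nat_lit 0) (XT.lf (nat_lit 0) (nat_lit 5568431695) (nat_lit 608) (nat_lit 6224220167) (nat_lit 76) (nat_lit 12618187264) (nat_lit 134) (nat_lit 5) (nat_lit 142) (nat_lit 5) (nat_lit 135) (nat_lit 5) (nat_lit 332) (nat_lit 306) (nat_lit 142)) (XT.nd (nat_lit 78) (nat_lit 0) (nat_lit 0) (XT.lf (nat_lit 0) (nat_lit 5279702067) (nat_lit 532) (nat_lit 2722186281) (nat_lit 608) (nat_lit 16839488397) (nat_lit 127) (nat_lit 5) (nat_lit 134) (nat_lit 5) (nat_lit 135) (nat_lit 5) (nat_lit 333) (nat_lit 306) (nat_lit 141)) (XT.lf (nat_lit 0) (nat_lit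 10630766244) (nat_lit 608) (nat_lit 8095802998) (nat_lit 76) (nat_lit 6554595979) (nat_lit 127) (nat_lit 5) (nat_lit 135) (nat_lit 5) (nat_lit 128) (nat_lit 5) (nat_lit 334) (nat_lit 306) (nat_lit 140)))) (XT.nd (nat_lit 78) (nat_lit 456) (nat_lit 0) (XT.lf (nat_lit 0) (nat_lit 3755592298) (nat_lit 456) (nat_lit 9641411910) (nat_lit 532) (nat_lit 12335395376) (nat_lit 121) (nat_lit 5) (nat_lit 127) (nat_lit 5) (nat_lit 128) (nat_lit 5) (nat_lit 335) (nat_lit 306) (nat_lit 139)) (XT.nd (nat_lit 78) (nat_lit 456) (nat_lit 0) (XT.lf (nat_lit 0) (nat_lit 16123747065) (nat_lit 456) (nat_lit 199761579) (nat_lit 532) (nat_lit 9871350791) (nat_lit 121) (nat_lit 5) (nat_lit 127) (nat_lit 5) (nat_lit 128) (nat_lit 5) (nat_lit 336) (nat_lit 306) (nat_lit 138)) (XT.lf (nat_lit 0) (nat_lit 2137160820) (nat_lit 456) (nat_lit 17308407928) (nat_lit 532) (nat_lit 7222398158) (nat_lit 115) (nat_lit 5) (nat_lit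 121) (nat_lit 5) (nat_lit 122) (nat_lit 5) (nat_lit 337) (nat_lit 306) (nat_lit 137)))))) (XT.nd (nat_lit 468) (nat_lit 1140) (nat_lit 0) (XT.nd (nat_lit 234) (nat_lit 456) (nat_lit 0) (XT.nd (nat_lit 78) (nat_lit 456) (nat_lit 0) (XT.lf (nat_lit 0) (nat_lit 14911424536) (nat_lit 456) (nat_lit 7849259909) (nat_lit 532) (nat_lit 4391607790) (nat_lit 115) (nat_lit 5) (nat_lit 121) (nat_lit 5) (nat_lit 122) (nat_lit 5) (nat_lit 338) (nat_lit 306) (nat_lit 136)) (XT.nd (nat_lit 78) (nat_lit 76) (nat_lit 0) (XT.lf (nat_lit 0) (nat_lit 402746528) (nat_lit 380) (nat_lit 25790438627) (nat_lit 456) (nat_lit 1457430478) (nat_lit 110) (nat_lit 5) (nat_lit 115) (nat_lit 5) (nat_lit 116) (nat_lit 5) (nat_lit 339) (nat_lit 306) (nat_lit 135)) (XT.lf (nat_lit 0) (nat_lit 1732672837) (nat_lit 456) (nat_lit 14582286539) (nat_lit 76) (nat_lit 11842530960) (nat_lit 109) (nat_lit 5) (nat_lit 115) (nat_lit 5) (nat_lit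 110) (nat_lit 5) (nat_lit 340) (nat_lit 306) (nat_lit 134)))) (XT.nd (nat_lit 78) (nat_lit 456) (nat_lit 0) (XT.lf (nat_lit 0) (nat_lit 4985193111) (nat_lit 456) (nat_lit 1555749214) (nat_lit 76) (nat_lit 22138321579) (nat_lit 109) (nat_lit 5) (nat_lit 115) (nat_lit 5) (nat_lit 110) (nat_lit 5) (nat_lit 341) (nat_lit 306) (nat_lit 133)) (XT.nd (nat_lit 78) (nat_lit 0) (nat_lit 0) (XT.lf (nat_lit 0) (nat_lit 8482700851) (nat_lit 532) (nat_lit 17155252288) (nat_lit 76) (nat_lit 3574320745) (nat_lit 103) (nat_lit 5) (nat_lit 110) (nat_lit 5) (nat_lit 104) (nat_lit 5) (nat_lit 342) (nat_lit 306) (nat_lit 132)) (XT.lf (nat_lit 0) (nat_lit 12161949075) (nat_lit 532) (nat_lit 3720172792) (nat_lit 76) (nat_lit 13876853238) (nat_lit 103) (nat_lit 5) (nat_lit 110) (nat_lit 5) (nat_lit 104) (nat_lit 5) (nat_lit 343) (nat_lit 306) (nat_lit 131))))) (XT.nd (nat_lit 234) (nat_lit 380) (nat_lit 0) (XT.nd (nat_lit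 78) (nat_lit 380) (nat_lit 0) (XT.lf (nat_lit 0) (nat_lit 10314851175) (nat_lit 380) (nat_lit 5732175147) (nat_lit 456) (nat_lit 14272192733) (nat_lit 98) (nat_lit 5) (nat_lit 103) (nat_lit 5) (nat_lit 104) (nat_lit 5) (nat_lit 344) (nat_lit 306) (nat_lit 130)) (XT.nd (nat_lit 78) (nat_lit 380) (nat_lit 0) (XT.lf (nat_lit 0) (nat_lit 20128345761) (nat_lit 456) (nat_lit 6098174979) (nat_lit 76) (nat_lit 4667363978) (nat_lit 98) (nat_lit 5) (nat_lit 104) (nat_lit 5) (nat_lit 99) (nat_lit 5) (nat_lit 345) (nat_lit 306) (nat_lit 129)) (XT.lf (nat_lit 0) (nat_lit 8326609200) (nat_lit 380) (nat_lit 16138754457) (nat_lit 456) (nat_lit 7016433867) (nat_lit 93) (nat_lit 5) (nat_lit 98) (nat_lit 5) (nat_lit 99) (nat_lit 5) (nat_lit 346) (nat_lit 306) (nat_lit 128)))) (XT.nd (nat_lit 78) (nat_lit 380) (nat_lit 0) (XT.lf (nat_lit 0) (nat_lit 23304863452) (nat_lit 380) (nat_lit 5685734292) (nat_lit 456) (nat_lit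 3095011596) (nat_lit 93) (nat_lit 5) (nat_lit 98) (nat_lit 5) (nat_lit 99) (nat_lit 5) (nat_lit 347) (nat_lit 306) (nat_lit 127)) (XT.nd (nat_lit 78) (nat_lit 0) (nat_lit 0) (XT.lf (nat_lit 0) (nat_lit 1030664279) (nat_lit 380) (nat_lit 26623837644) (nat_lit 76) (nat_lit 5049614880) (nat_lit 88) (nat_lit 5) (nat_lit 93) (nat_lit 5) (nat_lit 89) (nat_lit 5) (nat_lit 348) (nat_lit 306) (nat_lit 126)) (XT.lf (nat_lit 0) (nat_lit 5360384726) (nat_lit 380) (nat_lit 11863487047) (nat_lit 76) (nat_lit 16112118368) (nat_lit 88) (nat_lit 5) (nat_lit 93) (nat_lit 5) (nat_lit 89) (nat_lit 5) (nat_lit 349) (nat_lit 306) (nat_lit 125))))))) (XT.nd (nat_lit 936) (nat_lit 1368) (nat_lit 0) (XT.nd (nat_lit 468) (nat_lit 912) (nat_lit 0) (XT.nd (nat_lit 234) (nat_lit 304) (nat_lit 0) (XT.nd (nat_lit 78) (nat_lit 304) (nat_lit 0) (XT.lf (nat_lit 0) (nat_lit 3401898857) (nat_lit 380) (nat_lit 6447537262) (nat_lit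 456) (nat_lit 24136504641) (nat_lit 83) (nat_lit 5) (nat_lit 88) (nat_lit 5) (nat_lit 89) (nat_lit 5) (nat_lit 350) (nat_lit 306) (nat_lit 124)) (XT.nd (nat_lit 78) (nat_lit 304) (nat_lit 0) (XT.lf (nat_lit 0) (nat_lit 14635646697) (nat_lit 456) (nat_lit 15333473904) (nat_lit 76) (nat_lit 4681398804) (nat_lit 83) (nat_lit 5) (nat_lit 89) (nat_lit 5) (nat_lit 84) (nat_lit 5) (nat_lit 351) (nat_lit 306) (nat_lit 123)) (XT.lf (nat_lit 0) (nat_lit 312791105) (nat_lit 304) (nat_lit 19316374734) (nat_lit 380) (nat_lit 15703961921) (nat_lit 79) (nat_lit 5) (nat_lit 83) (nat_lit 5) (nat_lit 84) (nat_lit 5) (nat_lit 352) (nat_lit 306) (nat_lit 122)))) (XT.nd (nat_lit 78) (nat_lit 304) (nat_lit 0) (XT.lf (nat_lit 0) (nat_lit 16738718605) (nat_lit 304) (nat_lit 8185540495) (nat_lit 380) (nat_lit 11107406110) (nat_lit 79) (nat_lit 5) (nat_lit 83) (nat_lit 5) (nat_lit 84) (nat_lit 5) (nat_lit 353) (nat_lit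 306) (nat_lit 121)) (XT.nd (nat_lit 78) (nat_lit 304) (nat_lit 0) (XT.lf (nat_lit 0) (nat_lit 30406737821) (nat_lit 380) (nat_lit 3129269557) (nat_lit 76) (nat_lit 3214299210) (nat_lit 79) (nat_lit 5) (nat_lit 84) (nat_lit 5) (nat_lit 80) (nat_lit 5) (nat_lit 354) (nat_lit 306) (nat_lit 120)) (XT.lf (nat_lit 0) (nat_lit 13701747319) (nat_lit 304) (nat_lit 22561795987) (nat_lit 380) (nat_lit 1220672007) (nat_lit 75) (nat_lit 5) (nat_lit 79) (nat_lit 5) (nat_lit 80) (nat_lit 5) (nat_lit 355) (nat_lit 306) (nat_lit 119))))) (XT.nd (nat_lit 234) (nat_lit 532) (nat_lit 0) (XT.nd (nat_lit 78) (nat_lit 304) (nat_lit 0) (XT.lf (nat_lit 0) (nat_lit 4005792114) (nat_lit 380) (nat_lit 7180571110) (nat_lit 76) (nat_lit 27051741126) (nat_lit 74) (nat_lit 5) (nat_lit 79) (nat_lit 5) (nat_lit 75) (nat_lit 5) (nat_lit 356) (nat_lit 306) (nat_lit 118)) (XT.nd (nat_lit 78) (nat_lit 0) (nat_lit 0) (XT.lf (nat_lit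 0) (nat_lit 9464975771) (nat_lit 380) (nat_lit 28917000166) (nat_lit 76) (nat_lit 629261111) (nat_lit 70) (nat_lit 5) (nat_lit 75) (nat_lit 5) (nat_lit 71) (nat_lit 5) (nat_lit 357) (nat_lit 306) (nat_lit 117)) (XT.lf (nat_lit 0) (nat_lit 15269151936) (nat_lit 380) (nat_lit 11886222156) (nat_lit 76) (nat_lit 12646756393) (nat_lit 70) (nat_lit 5) (nat_lit 75) (nat_lit 5) (nat_lit 71) (nat_lit 5) (nat_lit 358) (nat_lit 306) (nat_lit 116)))) (XT.nd (nat_lit 78) (nat_lit 228) (nat_lit 0) (XT.lf (nat_lit 0) (nat_lit 5764228489) (nat_lit 304) (nat_lit 15535948091) (nat_lit 380) (nat_lit 19314995620) (nat_lit 66) (nat_lit 5) (nat_lit 70) (nat_lit 5) (nat_lit 71) (nat_lit 5) (nat_lit 359) (nat_lit 306) (nat_lit 115)) (XT.nd (nat_lit 78) (nat_lit 228) (nat_lit 0) (XT.lf (nat_lit 0) (nat_lit 24184153574) (nat_lit 304) (nat_lit 3445362547) (nat_lit 380) (nat_lit 13819570599) (nat_lit 66) (nat_lit 5) (nat_lit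 70) (nat_lit 5) (nat_lit 71) (nat_lit 5) (nat_lit 360) (nat_lit 306) (nat_lit 114)) (XT.lf (nat_lit 0) (nat_lit 773504226) (nat_lit 228) (nat_lit 33466680652) (nat_lit 304) (nat_lit 8065093316) (nat_lit 63) (nat_lit 5) (nat_lit 66) (nat_lit 5) (nat_lit 67) (nat_lit 5) (nat_lit 361) (nat_lit 306) (nat_lit 113)))))) (XT.nd (nat_lit 468) (nat_lit 760) (nat_lit 0) (XT.nd (nat_lit 234) (nat_lit 228) (nat_lit 0) (XT.nd (nat_lit 78) (nat_lit 380) (nat_lit 0) (XT.lf (nat_lit 0) (nat_lit 19668595849) (nat_lit 228) (nat_lit 21586161904) (nat_lit 304) (nat_lit 1926233039) (nat_lit 63) (nat_lit 5) (nat_lit 66) (nat_lit 5) (nat_lit 67) (nat_lit 5) (nat_lit 362) (nat_lit 306) (nat_lit 112)) (XT.nd (nat_lit 78) (nat_lit 304) (nat_lit 0) (XT.lf (nat_lit 0) (nat_lit 4308506519) (nat_lit 304) (nat_lit 4998267672) (nat_lit 76) (nat_lit 34775010050) (nat_lit 62) (nat_lit 5) (nat_lit 66) (nat_lit 5) (nat_lit 63) (nat_lit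 5) (nat_lit 363) (nat_lit 306) (nat_lit 111)) (XT.lf (nat_lit 0) (nat_lit 10860547087) (nat_lit 380) (nat_lit 30710285760) (nat_lit 76) (nat_lit 3433129927) (nat_lit 58) (nat_lit 5) (nat_lit 63) (nat_lit 5) (nat_lit 59) (nat_lit 5) (nat_lit 364) (nat_lit 306) (nat_lit 110)))) (XT.nd (nat_lit 78) (nat_lit 228) (nat_lit 0) (XT.lf (nat_lit 0) (nat_lit 17749878139) (nat_lit 380) (nat_lit 11781593274) (nat_lit 76) (nat_lit 16418115952) (nat_lit 58) (nat_lit 5) (nat_lit 63) (nat_lit 5) (nat_lit 59) (nat_lit 5) (nat_lit 365) (nat_lit 306) (nat_lit 109)) (XT.nd (nat_lit 78) (nat_lit 0) (nat_lit 0) (XT.lf (nat_lit 0) (nat_lit 7865042664) (nat_lit 228) (nat_lit 17054130209) (nat_lit 304) (nat_lit 22002211811) (nat_lit 55) (nat_lit 5) (nat_lit 58) (nat_lit 5) (nat_lit 59) (nat_lit 5) (nat_lit 366) (nat_lit 306) (nat_lit 108)) (XT.lf (nat_lit 0) (nat_lit 28339229422) (nat_lit 228) (nat_lit 4081003447) (nat_lit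 304) (nat_lit 15498604892) (nat_lit 55) (nat_lit 5) (nat_lit 58) (nat_lit 5) (nat_lit 59) (nat_lit 5) (nat_lit 367) (nat_lit 306) (nat_lit 107))))) (XT.nd (nat_lit 234) (nat_lit 456) (nat_lit 0) (XT.nd (nat_lit 78) (nat_lit 76) (nat_lit 0) (XT.lf (nat_lit 0) (nat_lit 396628917) (nat_lit 228) (nat_lit 39840498021) (nat_lit 304) (nat_lit 8706365782) (nat_lit 52) (nat_lit 5) (nat_lit 55) (nat_lit 5) (nat_lit 56) (nat_lit 5) (nat_lit 368) (nat_lit 306) (nat_lit 106)) (XT.nd (nat_lit 78) (nat_lit 76) (nat_lit 0) (XT.lf (nat_lit 0) (nat_lit 21329018092) (nat_lit 228) (nat_lit 27195040455) (nat_lit 304) (nat_lit 1467765151) (nat_lit 52) (nat_lit 5) (nat_lit 55) (nat_lit 5) (nat_lit 56) (nat_lit 5) (nat_lit 369) (nat_lit 306) (nat_lit 105)) (XT.lf (nat_lit 0) (nat_lit 5868992052) (nat_lit 304) (nat_lit 8243023032) (nat_lit 76) (nat_lit 36957929497) (nat_lit 51) (nat_lit 5) (nat_lit 55) (nat_lit 5) (nat_lit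 52) (nat_lit 5) (nat_lit 370) (nat_lit 306) (nat_lit 104)))) (XT.nd (nat_lit 78) (nat_lit 228) (nat_lit 0) (XT.lf (nat_lit 0) (nat_lit 13025859297) (nat_lit 228) (nat_lit 493613191) (nat_lit 304) (nat_lit 38656809093) (nat_lit 48) (nat_lit 5) (nat_lit 51) (nat_lit 5) (nat_lit 52) (nat_lit 5) (nat_lit 371) (nat_lit 306) (nat_lit 103)) (XT.nd (nat_lit 78) (nat_lit 228) (nat_lit 0) (XT.lf (nat_lit 0) (nat_lit 21611550109) (nat_lit 304) (nat_lit 18345610199) (nat_lit 76) (nat_lit 13352287938) (nat_lit 48) (nat_lit 5) (nat_lit 52) (nat_lit 5) (nat_lit 49) (nat_lit 5) (nat_lit 372) (nat_lit 306) (nat_lit 102)) (XT.lf (nat_lit 0) (nat_lit 3136591644) (nat_lit 228) (nat_lit 26842826322) (nat_lit 304) (nat_lit 24496203082) (nat_lit 45) (nat_lit 5) (nat_lit 48) (nat_lit 5) (nat_lit 49) (nat_lit 5) (nat_lit 373) (nat_lit 306) (nat_lit 101))))))))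
noncomputable def xc216 : XT := (XT.nd (nat_lit 36504) (nat_lit 0) (nat_lit 5016) (XT.nd (nat_lit 35568) (nat_lit 0) (nat_lit 9956) (XT.nd (nat_lit 390) (nat_lit 152) (nat_lit 0) (XT.nd (nat_lit 156) (nat_lit 456) (nat_lit 0) (XT.nd (nat_lit 78) (nat_lit 0) (nat_lit 0) (XT.lf (nat_lit 0) (nat_lit 25636283153) (nat_lit 228) (nat_lit 13145312503) (nat_lit 304) (nat_lit 16889687083) (nat_lit 45) (nat_lit 5) (nat_lit 48) (nat_lit 5) (nat_lit 49) (nat_lit 5) (nat_lit 374) (nat_lit 306) (nat_lit 100)) (XT.lf (nat_lit 0) (nat_lit 47855163727) (nat_lit 304) (nat_lit 8104111449) (nat_lit 76) (nat_lit 943321216) (nat_lit 45) (nat_lit 5) (nat_lit 49) (nat_lit 5) (nat_lit 46) (nat_lit 5) (nat_lit 375) (nat_lit 306) (nat_lit 99))) (XT.nd (nat_lit 78) (nat_lit 304) (nat_lit 0) (XT.lf (nat_lit 0) (nat_lit 14637260491) (nat_lit 152) (nat_lit 42832655450) (nat_lit 228) (nat_lit 692866009) (nat_lit 43) (nat_lit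 5) (nat_lit 45) (nat_lit 5) (nat_lit 46) (nat_lit 5) (nat_lit 376) (nat_lit 306) (nat_lit 98)) (XT.nd (nat_lit 78) (nat_lit 228) (nat_lit 0) (XT.lf (nat_lit 0) (nat_lit 7838715381) (nat_lit 228) (nat_lit 21311113788) (nat_lit 76) (nat_lit 30306240584) (nat_lit 42) (nat_lit 5) (nat_lit 45) (nat_lit 5) (nat_lit 43) (nat_lit 5) (nat_lit 377) (nat_lit 306) (nat_lit 97)) (XT.lf (nat_lit 0) (nat_lit 1591071622) (nat_lit 228) (nat_lit 15034725543) (nat_lit 304) (nat_lit 44161750514) (nat_lit 39) (nat_lit 5) (nat_lit 42) (nat_lit 5) (nat_lit 43) (nat_lit 5) (nat_lit 378) (nat_lit 306) (nat_lit 96))))) (XT.nd (nat_lit 234) (nat_lit 0) (nat_lit 0) (XT.nd (nat_lit 78) (nat_lit 152) (nat_lit 0) (XT.lf (nat_lit 0) (nat_lit 25614365427) (nat_lit 228) (nat_lit 275536782) (nat_lit 304) (nat_lit 36262667015) (nat_lit 39) (nat_lit 5) (nat_lit 42) (nat_lit 5) (nat_lit 43) (nat_lit 5) (nat_lit 379) (nat_lit 306)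 (nat_lit 95)) (XT.nd (nat_lit 78) (nat_lit 152) (nat_lit 0) (XT.lf (nat_lit 0) (nat_lit 35573665269) (nat_lit 304) (nat_lit 13346441591) (nat_lit 76) (nat_lit 14634184070) (nat_lit 39) (nat_lit 5) (nat_lit 43) (nat_lit 5) (nat_lit 40) (nat_lit 5) (nat_lit 380) (nat_lit 306) (nat_lit 94)) (XT.lf (nat_lit 0) (nat_lit 10745330082) (nat_lit 152) (nat_lit 34906933707) (nat_lit 228) (nat_lit 19342672335) (nat_lit 37) (nat_lit 5) (nat_lit 39) (nat_lit 5) (nat_lit 40) (nat_lit 5) (nat_lit 381) (nat_lit 306) (nat_lit 93)))) (XT.nd (nat_lit 34788) (nat_lit 0) (nat_lit 10868) (XT.lf (nat_lit 0) (nat_lit 35830774895) (nat_lit 152) (nat_lit 20335545806) (nat_lit 228) (nat_lit 10308488432) (nat_lit 37) (nat_lit 5) (nat_lit 39) (nat_lit 5) (nat_lit 40) (nat_lit 5) (nat_lit 382) (nat_lit 306) (nat_lit 92)) (XT.nd (nat_lit 78) (nat_lit 0) (nat_lit 0) (XT.lf (nat_lit 0) (nat_lit 6779493955) (nat_lit 1140) (nat_lit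 764205391) (nat_lit 1140) (nat_lit 764205391) (nat_lit 180) (nat_lit 3) (nat_lit 195) (nat_lit 3) (nat_lit 195) (nat_lit 5) (nat_lit 307) (nat_lit 307) (nat_lit 166)) (XT.lf (nat_lit 76) (nat_lit 5829237720) (nat_lit 0) (nat_lit 8211221442) (nat_lit 1140) (nat_lit 2815843955) (nat_lit 181) (nat_lit 5) (nat_lit 180) (nat_lit 3) (nat_lit 195) (nat_lit 5) (nat_lit 308) (nat_lit 307) (nat_lit 165)))))) (XT.nd (nat_lit 468) (nat_lit 912) (nat_lit 0) (XT.nd (nat_lit 234) (nat_lit 0) (nat_lit 152) (XT.nd (nat_lit 78) (nat_lit 0) (nat_lit 76) (XT.lf (nat_lit 76) (nat_lit 13434386768) (nat_lit 0) (nat_lit 1108711825) (nat_lit 1140) (nat_lit 2560726900) (nat_lit 181) (nat_lit 5) (nat_lit 180) (nat_lit 3) (nat_lit 195) (nat_lit 5) (nat_lit 309) (nat_lit 307) (nat_lit 164)) (XT.nd (nat_lit 78) (nat_lit 0) (nat_lit 0) (XT.lf (nat_lit 76) (nat_lit 3921031299) (nat_lit 0) (nat_lit 11228724030) (nat_lit 1140)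 (nat_lit 2206365259) (nat_lit 182) (nat_lit 5) (nat_lit 181) (nat_lit 5) (nat_lit 196) (nat_lit 5) (nat_lit 310) (nat_lit 307) (nat_lit 163)) (XT.lf (nat_lit 76) (nat_lit 11798551294) (nat_lit 0) (nat_lit 4015766944) (nat_lit 1140) (nat_lit 1800489851) (nat_lit 182) (nat_lit 5) (nat_lit 181) (nat_lit 5) (nat_lit 196) (nat_lit 5) (nat_lit 311) (nat_lit 307) (nat_lit 162)))) (XT.nd (nat_lit 78) (nat_lit 0) (nat_lit 0) (XT.lf (nat_lit 76) (nat_lit 2033163345) (nat_lit 0) (nat_lit 14510066998) (nat_lit 1140) (nat_lit 1336707823) (nat_lit 183) (nat_lit 5) (nat_lit 182) (nat_lit 5) (nat_lit 197) (nat_lit 5) (nat_lit 312) (nat_lit 307) (nat_lit 161)) (XT.nd (nat_lit 78) (nat_lit 0) (nat_lit 76) (XT.lf (nat_lit 76) (nat_lit 10191951456) (nat_lit 0) (nat_lit 7192401656) (nat_lit 1140) (nat_lit 765972634) (nat_lit 183) (nat_lit 5) (nat_lit 182) (nat_lit 5) (nat_lit 197) (nat_lit 5) (nat_lit 313) (nat_lit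 307) (nat_lit 160)) (XT.lf (nat_lit 76) (nat_lit 161598759) (nat_lit 0) (nat_lit 18086472527) (nat_lit 1140) (nat_lit 180846313) (nat_lit 184) (nat_lit 5) (nat_lit 183) (nat_lit 5) (nat_lit 198) (nat_lit 5) (nat_lit 314) (nat_lit 307) (nat_lit 159))))) (XT.nd (nat_lit 234) (nat_lit 0) (nat_lit 76) (XT.nd (nat_lit 78) (nat_lit 0) (nat_lit 0) (XT.lf (nat_lit 0) (nat_lit 558554168) (nat_lit 1140) (nat_lit 10106239592) (nat_lit 1216) (nat_lit 8046615965) (nat_lit 168) (nat_lit 5) (nat_lit 183) (nat_lit 5) (nat_lit 184) (nat_lit 5) (nat_lit 315) (nat_lit 307) (nat_lit 158)) (XT.nd (nat_lit 78) (nat_lit 0) (nat_lit 76) (XT.lf (nat_lit 0) (nat_lit 1309298250) (nat_lit 1140) (nat_lit 1707002671) (nat_lit 1216) (nat_lit 15986250438) (nat_lit 168) (nat_lit 5) (nat_lit 183) (nat_lit 5) (nat_lit 184) (nat_lit 5) (nat_lit 316) (nat_lit 307) (nat_lit 157)) (XT.lf (nat_lit 0) (nat_lit 2191033273) (nat_lit 1140)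 (nat_lit 12270457879) (nat_lit 1216) (nat_lit 4837694021) (nat_lit 169) (nat_lit 5) (nat_lit 184) (nat_lit 5) (nat_lit 185) (nat_lit 5) (nat_lit 317) (nat_lit 307) (nat_lit 156)))) (XT.nd (nat_lit 78) (nat_lit 0) (nat_lit 76) (XT.lf (nat_lit 0) (nat_lit 3139678126) (nat_lit 1140) (nat_lit 3577647541) (nat_lit 1216) (nat_lit 12886190243) (nat_lit 169) (nat_lit 5) (nat_lit 184) (nat_lit 5) (nat_lit 185) (nat_lit 5) (nat_lit 318) (nat_lit 307) (nat_lit 155)) (XT.nd (nat_lit 78) (nat_lit 0) (nat_lit 0) (XT.lf (nat_lit 0) (nat_lit 4175467387) (nat_lit 1140) (nat_lit 14450194716) (nat_lit 1216) (nat_lit 1289565220) (nat_lit 170) (nat_lit 5) (nat_lit 185) (nat_lit 5) (nat_lit 186) (nat_lit 5) (nat_lit 319) (nat_lit 307) (nat_lit 154)) (XT.lf (nat_lit 0) (nat_lit 5338870992) (nat_lit 1140) (nat_lit 5454704395) (nat_lit 1216) (nat_lit 9439829442) (nat_lit 170) (nat_lit 5) (nat_lit 185) (nat_lit 5) (nat_lit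 186) (nat_lit 5) (nat_lit 320) (nat_lit 307) (nat_lit 153))))))) (XT.nd (nat_lit 936) (nat_lit 2356) (nat_lit 0) (XT.nd (nat_lit 468) (nat_lit 1748) (nat_lit 0) (XT.nd (nat_lit 234) (nat_lit 988) (nat_lit 0) (XT.nd (nat_lit 78) (nat_lit 0) (nat_lit 76) (XT.lf (nat_lit 76) (nat_lit 3881575025) (nat_lit 0) (nat_lit 2686649261) (nat_lit 1216) (nat_lit 13991982603) (nat_lit 171) (nat_lit 5) (nat_lit 170) (nat_lit 5) (nat_lit 186) (nat_lit 5) (nat_lit 321) (nat_lit 307) (nat_lit 152)) (XT.nd (nat_lit 78) (nat_lit 0) (nat_lit 0) (XT.lf (nat_lit 0) (nat_lit 7938411376) (nat_lit 1140) (nat_lit 7345366968) (nat_lit 1216) (nat_lit 5609926415) (nat_lit 171) (nat_lit 5) (nat_lit 186) (nat_lit 5) (nat_lit 187) (nat_lit 5) (nat_lit 322) (nat_lit 307) (nat_lit 151)) (XT.lf (nat_lit 76) (nat_lit 2280971286) (nat_lit 0) (nat_lit 7111322606) (nat_lit 1216) (nat_lit 11843646021) (nat_lit 172) (nat_lit 5) (nat_lit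 171) (nat_lit 5) (nat_lit 187) (nat_lit 5) (nat_lit 323) (nat_lit 307) (nat_lit 150)))) (XT.nd (nat_lit 78) (nat_lit 1140) (nat_lit 0) (XT.lf (nat_lit 0) (nat_lit 10971458078) (nat_lit 1140) (nat_lit 9257816368) (nat_lit 76) (nat_lit 1356727471) (nat_lit 172) (nat_lit 5) (nat_lit 187) (nat_lit 5) (nat_lit 173) (nat_lit 5) (nat_lit 324) (nat_lit 307) (nat_lit 149)) (XT.nd (nat_lit 78) (nat_lit 0) (nat_lit 0) (XT.lf (nat_lit 0) (nat_lit 668041735) (nat_lit 1140) (nat_lit 12001155121) (nat_lit 1216) (nat_lit 9275242401) (nat_lit 157) (nat_lit 5) (nat_lit 172) (nat_lit 5) (nat_lit 173) (nat_lit 5) (nat_lit 325) (nat_lit 307) (nat_lit 148)) (XT.lf (nat_lit 0) (nat_lit 11076663656) (nat_lit 1140) (nat_lit 3429176827) (nat_lit 1216) (nat_lit 7805159243) (nat_lit 157) (nat_lit 5) (nat_lit 172) (nat_lit 5) (nat_lit 173) (nat_lit 5) (nat_lit 326) (nat_lit 307) (nat_lit 147))))) (XT.nd (nat_lit 234) (nat_lit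 1216) (nat_lit 0) (XT.nd (nat_lit 78) (nat_lit 532) (nat_lit 0) (XT.lf (nat_lit 0) (nat_lit 16444145384) (nat_lit 1216) (nat_lit 947745392) (nat_lit 76) (nat_lit 5295278299) (nat_lit 157) (nat_lit 5) (nat_lit 173) (nat_lit 5) (nat_lit 158) (nat_lit 5) (nat_lit 327) (nat_lit 307) (nat_lit 146)) (XT.nd (nat_lit 78) (nat_lit 0) (nat_lit 0) (XT.lf (nat_lit 0) (nat_lit 9800040489) (nat_lit 532) (nat_lit 8763525109) (nat_lit 608) (nat_lit 4507377583) (nat_lit 150) (nat_lit 5) (nat_lit 157) (nat_lit 5) (nat_lit 158) (nat_lit 5) (nat_lit 328) (nat_lit 307) (nat_lit 145)) (XT.lf (nat_lit 0) (nat_lit 20752343339) (nat_lit 608) (nat_lit 2582342983) (nat_lit 76) (nat_lit 131379351) (nat_lit 150) (nat_lit 5) (nat_lit 158) (nat_lit 5) (nat_lit 151) (nat_lit 5) (nat_lit 329) (nat_lit 307) (nat_lit 144)))) (XT.nd (nat_lit 78) (nat_lit 608) (nat_lit 0) (XT.lf (nat_lit 0) (nat_lit 8501333870) (nat_lit 608) (nat_lit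 14669006872) (nat_lit 684) (nat_lit 697802574) (nat_lit 142) (nat_lit 5) (nat_lit 150) (nat_lit 5) (nat_lit 151) (nat_lit 5) (nat_lit 330) (nat_lit 307) (nat_lit 143)) (XT.nd (nat_lit 78) (nat_lit 532) (nat_lit 0) (XT.lf (nat_lit 0) (nat_lit 1373140571) (nat_lit 684) (nat_lit 4329277506) (nat_lit 76) (nat_lit 18578831937) (nat_lit 141) (nat_lit 5) (nat_lit 150) (nat_lit 5) (nat_lit 142) (nat_lit 5) (nat_lit 331) (nat_lit 307) (nat_lit 142)) (XT.lf (nat_lit 0) (nat_lit 3591057533) (nat_lit 608) (nat_lit 17571585791) (nat_lit 76) (nat_lit 3540940674) (nat_lit 134) (nat_lit 5) (nat_lit 142) (nat_lit 5) (nat_lit 135) (nat_lit 5) (nat_lit 332) (nat_lit 307) (nat_lit 141)))))) (XT.nd (nat_lit 468) (nat_lit 912) (nat_lit 0) (XT.nd (nat_lit 234) (nat_lit 912) (nat_lit 0) (XT.nd (nat_lit 78) (nat_lit 532) (nat_lit 0) (XT.lf (nat_lit 0) (nat_lit 5971471988) (nat_lit 608) (nat_lit 6172999059) (nat_lit 76)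 (nat_lit 12991245409) (nat_lit 134) (nat_lit 5) (nat_lit 142) (nat_lit 5) (nat_lit 135) (nat_lit 5) (nat_lit 333) (nat_lit 307) (nat_lit 140)) (XT.nd (nat_lit 78) (nat_lit 0) (nat_lit 0) (XT.lf (nat_lit 0) (nat_lit 5673708021) (nat_lit 532) (nat_lit 2799615776) (nat_lit 608) (nat_lit 17105995388) (nat_lit 127) (nat_lit 5) (nat_lit 134) (nat_lit 5) (nat_lit 135) (nat_lit 5) (nat_lit 334) (nat_lit 307) (nat_lit 139)) (XT.lf (nat_lit 0) (nat_lit 11174368376) (nat_lit 608) (nat_lit 8102878026) (nat_lit 76) (nat_lit 6755266316) (nat_lit 127) (nat_lit 5) (nat_lit 135) (nat_lit 5) (nat_lit 128) (nat_lit 5) (nat_lit 335) (nat_lit 307) (nat_lit 138)))) (XT.nd (nat_lit 78) (nat_lit 456) (nat_lit 0) (XT.lf (nat_lit 0) (nat_lit 4101747373) (nat_lit 456) (nat_lit 9917546475) (nat_lit 532) (nat_lit 12478129362) (nat_lit 121) (nat_lit 5) (nat_lit 127) (nat_lit 5) (nat_lit 128) (nat_lit 5) (nat_lit 336) (nat_lit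 307) (nat_lit 137)) (XT.nd (nat_lit 78) (nat_lit 456) (nat_lit 0) (XT.lf (nat_lit 0) (nat_lit 16834146183) (nat_lit 456) (nat_lit 193028415) (nat_lit 532) (nat_lit 9946784639) (nat_lit 121) (nat_lit 5) (nat_lit 127) (nat_lit 5) (nat_lit 128) (nat_lit 5) (nat_lit 337) (nat_lit 307) (nat_lit 136)) (XT.lf (nat_lit 0) (nat_lit 2432298645) (nat_lit 456) (nat_lit 17806705496) (nat_lit 532) (nat_lit 7222382091) (nat_lit 115) (nat_lit 5) (nat_lit 121) (nat_lit 5) (nat_lit 122) (nat_lit 5) (nat_lit 338) (nat_lit 307) (nat_lit 135))))) (XT.nd (nat_lit 234) (nat_lit 456) (nat_lit 0) (XT.nd (nat_lit 78) (nat_lit 456) (nat_lit 0) (XT.lf (nat_lit 0) (nat_lit 15583061447) (nat_lit 456) (nat_lit 8064393365) (nat_lit 532) (nat_lit 4312979313) (nat_lit 115) (nat_lit 5) (nat_lit 121) (nat_lit 5) (nat_lit 122) (nat_lit 5) (nat_lit 339) (nat_lit 307) (nat_lit 134)) (XT.nd (nat_lit 78) (nat_lit 76) (nat_lit 0) (XT.lf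 (nat_lit 0) (nat_lit 643094359) (nat_lit 380) (nat_lit 26536279993) (nat_lit 456) (nat_lit 1294448543) (nat_lit 110) (nat_lit 5) (nat_lit 115) (nat_lit 5) (nat_lit 116) (nat_lit 5) (nat_lit 340) (nat_lit 307) (nat_lit 133)) (XT.lf (nat_lit 0) (nat_lit 1981421269) (nat_lit 456) (nat_lit 14793939922) (nat_lit 76) (nat_lit 12220668596) (nat_lit 109) (nat_lit 5) (nat_lit 115) (nat_lit 5) (nat_lit 110) (nat_lit 5) (nat_lit 341) (nat_lit 307) (nat_lit 132)))) (XT.nd (nat_lit 78) (nat_lit 456) (nat_lit 0) (XT.lf (nat_lit 0) (nat_lit 5325786037) (nat_lit 456) (nat_lit 1383183620) (nat_lit 76) (nat_lit 22824667059) (nat_lit 109) (nat_lit 5) (nat_lit 115) (nat_lit 5) (nat_lit 110) (nat_lit 5) (nat_lit 342) (nat_lit 307) (nat_lit 131)) (XT.nd (nat_lit 78) (nat_lit 0) (nat_lit 0) (XT.lf (nat_lit 0) (nat_lit 8925025460) (nat_lit 532) (nat_lit 17447212225) (nat_lit 76) (nat_lit 3710503097) (nat_lit 103) (nat_lit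 5) (nat_lit 110) (nat_lit 5) (nat_lit 104) (nat_lit 5) (nat_lit 343) (nat_lit 307) (nat_lit 130)) (XT.lf (nat_lit 0) (nat_lit 12709179958) (nat_lit 532) (nat_lit 3615566683) (nat_lit 76) (nat_lit 14321268281) (nat_lit 103) (nat_lit 5) (nat_lit 110) (nat_lit 5) (nat_lit 104) (nat_lit 5) (nat_lit 344) (nat_lit 307) (nat_lit 129))))))))
noncomputable def xc217 : XT := (XT.nd (nat_lit 1794) (nat_lit 1216) (nat_lit 0) (XT.nd (nat_lit 858) (nat_lit 1824) (nat_lit 0) (XT.nd (nat_lit 390) (nat_lit 684) (nat_lit 0) (XT.nd (nat_lit 156) (nat_lit 760) (nat_lit 0) (XT.nd (nat_lit 78) (nat_lit 0) (nat_lit 0) (XT.lf (nat_lit 0) (nat_lit 10838388285) (nat_lit 380) (nat_lit 5869167400) (nat_lit 456) (nat_lit 14515615644) (nat_lit 98) (nat_lit 5) (nat_lit 103) (nat_lit 5) (nat_lit 104) (nat_lit 5) (nat_lit 345) (nat_lit 307) (nat_lit 128)) (XT.lf (nat_lit 0) (nat_lit 20906424051) (nat_lit 456) (nat_lit 6068130236)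 (nat_lit 76) (nat_lit 4840676696) (nat_lit 98) (nat_lit 5) (nat_lit 104) (nat_lit 5) (nat_lit 99) (nat_lit 5) (nat_lit 346) (nat_lit 307) (nat_lit 127))) (XT.nd (nat_lit 78) (nat_lit 380) (nat_lit 0) (XT.lf (nat_lit 0) (nat_lit 8787309331) (nat_lit 380) (nat_lit 16583195870) (nat_lit 456) (nat_lit 7050374480) (nat_lit 93) (nat_lit 5) (nat_lit 98) (nat_lit 5) (nat_lit 99) (nat_lit 5) (nat_lit 347) (nat_lit 307) (nat_lit 126)) (XT.nd (nat_lit 78) (nat_lit 380) (nat_lit 0) (XT.lf (nat_lit 0) (nat_lit 24208768438) (nat_lit 380) (nat_lit 5817742029) (nat_lit 456) (nat_lit 3016451845) (nat_lit 93) (nat_lit 5) (nat_lit 98) (nat_lit 5) (nat_lit 99) (nat_lit 5) (nat_lit 348) (nat_lit 307) (nat_lit 125)) (XT.lf (nat_lit 0) (nat_lit 1227132682) (nat_lit 380) (nat_lit 27211492993) (nat_lit 76) (nat_lit 5241431886) (nat_lit 88) (nat_lit 5) (nat_lit 93) (nat_lit 5) (nat_lit 89) (nat_lit 5) (nat_lit 349) (nat_lit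 307) (nat_lit 124))))) (XT.nd (nat_lit 234) (nat_lit 304) (nat_lit 0) (XT.nd (nat_lit 78) (nat_lit 380) (nat_lit 0) (XT.lf (nat_lit 0) (nat_lit 5681922943) (nat_lit 380) (nat_lit 12014479250) (nat_lit 76) (nat_lit 16634635860) (nat_lit 88) (nat_lit 5) (nat_lit 93) (nat_lit 5) (nat_lit 89) (nat_lit 5) (nat_lit 350) (nat_lit 307) (nat_lit 123)) (XT.nd (nat_lit 78) (nat_lit 0) (nat_lit 0) (XT.lf (nat_lit 0) (nat_lit 3706859285) (nat_lit 380) (nat_lit 6596055664) (nat_lit 456) (nat_lit 24697660285) (nat_lit 83) (nat_lit 5) (nat_lit 88) (nat_lit 5) (nat_lit 89) (nat_lit 5) (nat_lit 351) (nat_lit 307) (nat_lit 122)) (XT.lf (nat_lit 0) (nat_lit 15228529135) (nat_lit 456) (nat_lit 15592103819) (nat_lit 76) (nat_lit 4864589705) (nat_lit 83) (nat_lit 5) (nat_lit 89) (nat_lit 5) (nat_lit 84) (nat_lit 5) (nat_lit 352) (nat_lit 307) (nat_lit 121)))) (XT.nd (nat_lit 78) (nat_lit 0) (nat_lit 0) (XT.lf (nat_lit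 0) (nat_lit 521574882) (nat_lit 304) (nat_lit 19847715733) (nat_lit 380) (nat_lit 16019101312) (nat_lit 79) (nat_lit 5) (nat_lit 83) (nat_lit 5) (nat_lit 84) (nat_lit 5) (nat_lit 353) (nat_lit 307) (nat_lit 120)) (XT.nd (nat_lit 78) (nat_lit 0) (nat_lit 0) (XT.lf (nat_lit 0) (nat_lit 17434472439) (nat_lit 304) (nat_lit 8384358900) (nat_lit 380) (nat_lit 11289191917) (nat_lit 79) (nat_lit 5) (nat_lit 83) (nat_lit 5) (nat_lit 84) (nat_lit 5) (nat_lit 354) (nat_lit 307) (nat_lit 119)) (XT.lf (nat_lit 0) (nat_lit 31461943679) (nat_lit 380) (nat_lit 3031172094) (nat_lit 76) (nat_lit 3355228761) (nat_lit 79) (nat_lit 5) (nat_lit 84) (nat_lit 5) (nat_lit 80) (nat_lit 5) (nat_lit 355) (nat_lit 307) (nat_lit 118)))))) (XT.nd (nat_lit 468) (nat_lit 836) (nat_lit 0) (XT.nd (nat_lit 234) (nat_lit 304) (nat_lit 0) (XT.nd (nat_lit 78) (nat_lit 380) (nat_lit 0) (XT.lf (nat_lit 0) (nat_lit 14302893175) (nat_lit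 304) (nat_lit 23189222290) (nat_lit 380) (nat_lit 1112230466) (nat_lit 75) (nat_lit 5) (nat_lit 79) (nat_lit 5) (nat_lit 80) (nat_lit 5) (nat_lit 356) (nat_lit 307) (nat_lit 117)) (XT.nd (nat_lit 78) (nat_lit 304) (nat_lit 0) (XT.lf (nat_lit 0) (nat_lit 4264054252) (nat_lit 380) (nat_lit 7208517509) (nat_lit 76) (nat_lit 27908367299) (nat_lit 74) (nat_lit 5) (nat_lit 79) (nat_lit 5) (nat_lit 75) (nat_lit 5) (nat_lit 357) (nat_lit 307) (nat_lit 116)) (XT.lf (nat_lit 0) (nat_lit 9885254378) (nat_lit 380) (nat_lit 29595119455) (nat_lit 76) (nat_lit 696949506) (nat_lit 70) (nat_lit 5) (nat_lit 75) (nat_lit 5) (nat_lit 71) (nat_lit 5) (nat_lit 358) (nat_lit 307) (nat_lit 115)))) (XT.nd (nat_lit 78) (nat_lit 304) (nat_lit 0) (XT.lf (nat_lit 0) (nat_lit 15859585071) (nat_lit 380) (nat_lit 12058934338) (nat_lit 76) (nat_lit 13073547980) (nat_lit 70) (nat_lit 5) (nat_lit 75) (nat_lit 5) (nat_lit 71) (nat_lit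 5) (nat_lit 359) (nat_lit 307) (nat_lit 114)) (XT.nd (nat_lit 78) (nat_lit 0) (nat_lit 0) (XT.lf (nat_lit 0) (nat_lit 6119227135) (nat_lit 304) (nat_lit 15950208400) (nat_lit 380) (nat_lit 19760132518) (nat_lit 66) (nat_lit 5) (nat_lit 70) (nat_lit 5) (nat_lit 71) (nat_lit 5) (nat_lit 360) (nat_lit 307) (nat_lit 113)) (XT.lf (nat_lit 0) (nat_lit 25086446910) (nat_lit 304) (nat_lit 3498414556) (nat_lit 380) (nat_lit 14103756775) (nat_lit 66) (nat_lit 5) (nat_lit 70) (nat_lit 5) (nat_lit 71) (nat_lit 5) (nat_lit 361) (nat_lit 307) (nat_lit 112))))) (XT.nd (nat_lit 234) (nat_lit 532) (nat_lit 0) (XT.nd (nat_lit 78) (nat_lit 76) (nat_lit 0) (XT.lf (nat_lit 0) (nat_lit 975168639) (nat_lit 228) (nat_lit 34417183324) (nat_lit 304) (nat_lit 8178192736) (nat_lit 63) (nat_lit 5) (nat_lit 66) (nat_lit 5) (nat_lit 67) (nat_lit 5) (nat_lit 362) (nat_lit 307) (nat_lit 111)) (XT.nd (nat_lit 78) (nat_lit 76)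 (nat_lit 0) (XT.lf (nat_lit 0) (nat_lit 20431915167) (nat_lit 228) (nat_lit 22181807200) (nat_lit 304) (nat_lit 1858919662) (nat_lit 63) (nat_lit 5) (nat_lit 66) (nat_lit 5) (nat_lit 67) (nat_lit 5) (nat_lit 363) (nat_lit 307) (nat_lit 110)) (XT.lf (nat_lit 0) (nat_lit 4556848326) (nat_lit 304) (nat_lit 4977499792) (nat_lit 76) (nat_lit 35866186192) (nat_lit 62) (nat_lit 5) (nat_lit 66) (nat_lit 5) (nat_lit 63) (nat_lit 5) (nat_lit 364) (nat_lit 307) (nat_lit 109)))) (XT.nd (nat_lit 78) (nat_lit 228) (nat_lit 0) (XT.lf (nat_lit 0) (nat_lit 11304104432) (nat_lit 380) (nat_lit 31459405695) (nat_lit 76) (nat_lit 3586912254) (nat_lit 58) (nat_lit 5) (nat_lit 63) (nat_lit 5) (nat_lit 59) (nat_lit 5) (nat_lit 365) (nat_lit 307) (nat_lit 108)) (XT.nd (nat_lit 78) (nat_lit 228) (nat_lit 0) (XT.lf (nat_lit 0) (nat_lit 18396686068) (nat_lit 380) (nat_lit 11967867637) (nat_lit 76) (nat_lit 16959968586) (nat_lit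 58) (nat_lit 5) (nat_lit 63) (nat_lit 5) (nat_lit 59) (nat_lit 5) (nat_lit 366) (nat_lit 307) (nat_lit 107)) (XT.lf (nat_lit 0) (nat_lit 8266528424) (nat_lit 228) (nat_lit 17512792975) (nat_lit 304) (nat_lit 22546207869) (nat_lit 55) (nat_lit 5) (nat_lit 58) (nat_lit 5) (nat_lit 59) (nat_lit 5) (nat_lit 367) (nat_lit 307) (nat_lit 106))))))) (XT.nd (nat_lit 936) (nat_lit 0) (nat_lit 0) (XT.nd (nat_lit 468) (nat_lit 684) (nat_lit 0) (XT.nd (nat_lit 234) (nat_lit 304) (nat_lit 0) (XT.nd (nat_lit 78) (nat_lit 228) (nat_lit 0) (XT.lf (nat_lit 0) (nat_lit 29350119392) (nat_lit 228) (nat_lit 4152014967) (nat_lit 304) (nat_lit 15850873431) (nat_lit 55) (nat_lit 5) (nat_lit 58) (nat_lit 5) (nat_lit 59) (nat_lit 5) (nat_lit 368) (nat_lit 307) (nat_lit 105)) (XT.nd (nat_lit 78) (nat_lit 0) (nat_lit 0) (XT.lf (nat_lit 0) (nat_lit 570537650) (nat_lit 228) (nat_lit 40981851474) (nat_lit 304) (nat_lit 8856051045)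 (nat_lit 52) (nat_lit 5) (nat_lit 55) (nat_lit 5) (nat_lit 56) (nat_lit 5) (nat_lit 369) (nat_lit 307) (nat_lit 104)) (XT.lf (nat_lit 0) (nat_lit 22126179766) (nat_lit 228) (nat_lit 27958598963) (nat_lit 304) (nat_lit 1403540134) (nat_lit 52) (nat_lit 5) (nat_lit 55) (nat_lit 5) (nat_lit 56) (nat_lit 5) (nat_lit 370) (nat_lit 307) (nat_lit 103)))) (XT.nd (nat_lit 78) (nat_lit 228) (nat_lit 0) (XT.lf (nat_lit 0) (nat_lit 6148115666) (nat_lit 304) (nat_lit 8335449610) (nat_lit 76) (nat_lit 38115282723) (nat_lit 51) (nat_lit 5) (nat_lit 55) (nat_lit 5) (nat_lit 52) (nat_lit 5) (nat_lit 371) (nat_lit 307) (nat_lit 102)) (XT.nd (nat_lit 78) (nat_lit 0) (nat_lit 0) (XT.lf (nat_lit 0) (nat_lit 13569980913) (nat_lit 228) (nat_lit 456602089) (nat_lit 304) (nat_lit 39711840944) (nat_lit 48) (nat_lit 5) (nat_lit 51) (nat_lit 5) (nat_lit 52) (nat_lit 5) (nat_lit 372) (nat_lit 307) (nat_lit 101)) (XT.lf (nat_lit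 0) (nat_lit 22358949485) (nat_lit 304) (nat_lit 18744528214) (nat_lit 76) (nat_lit 13802185035) (nat_lit 48) (nat_lit 5) (nat_lit 52) (nat_lit 5) (nat_lit 49) (nat_lit 5) (nat_lit 373) (nat_lit 307) (nat_lit 100))))) (XT.nd (nat_lit 234) (nat_lit 456) (nat_lit 0) (XT.nd (nat_lit 78) (nat_lit 0) (nat_lit 0) (XT.lf (nat_lit 0) (nat_lit 3380654877) (nat_lit 228) (nat_lit 27595755025) (nat_lit 304) (nat_lit 25130456959) (nat_lit 45) (nat_lit 5) (nat_lit 48) (nat_lit 5) (nat_lit 49) (nat_lit 5) (nat_lit 374) (nat_lit 307) (nat_lit 99)) (XT.nd (nat_lit 78) (nat_lit 0) (nat_lit 0) (XT.lf (nat_lit 0) (nat_lit 26550969205) (nat_lit 228) (nat_lit 13488840726) (nat_lit 304) (nat_lit 17298676515) (nat_lit 45) (nat_lit 5) (nat_lit 48) (nat_lit 5) (nat_lit 49) (nat_lit 5) (nat_lit 375) (nat_lit 307) (nat_lit 98)) (XT.lf (nat_lit 0) (nat_lit 49383299247) (nat_lit 304) (nat_lit 8203503033) (nat_lit 76) (nat_lit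 1020008477) (nat_lit 45) (nat_lit 5) (nat_lit 49) (nat_lit 5) (nat_lit 46) (nat_lit 5) (nat_lit 376) (nat_lit 307) (nat_lit 97)))) (XT.nd (nat_lit 78) (nat_lit 304) (nat_lit 0) (XT.lf (nat_lit 0) (nat_lit 15218700930) (nat_lit 152) (nat_lit 44066467578) (nat_lit 228) (nat_lit 619675733) (nat_lit 43) (nat_lit 5) (nat_lit 45) (nat_lit 5) (nat_lit 46) (nat_lit 5) (nat_lit 377) (nat_lit 307) (nat_lit 96)) (XT.nd (nat_lit 78) (nat_lit 228) (nat_lit 0) (XT.lf (nat_lit 0) (nat_lit 8163335524) (nat_lit 228) (nat_lit 21810407945) (nat_lit 76) (nat_lit 31263243069) (nat_lit 42) (nat_lit 5) (nat_lit 45) (nat_lit 5) (nat_lit 43) (nat_lit 5) (nat_lit 378) (nat_lit 307) (nat_lit 95)) (XT.lf (nat_lit 0) (nat_lit 1777470093) (nat_lit 228) (nat_lit 15435287021) (nat_lit 304) (nat_lit 45395692242) (nat_lit 39) (nat_lit 5) (nat_lit 42) (nat_lit 5) (nat_lit 43) (nat_lit 5) (nat_lit 379) (nat_lit 307) (nat_lit 94))))))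 (XT.nd (nat_lit 35334) (nat_lit 0) (nat_lit 9804) (XT.nd (nat_lit 35100) (nat_lit 0) (nat_lit 10716) (XT.nd (nat_lit 78) (nat_lit 0) (nat_lit 0) (XT.lf (nat_lit 0) (nat_lit 26517423888) (nat_lit 228) (nat_lit 234792896) (nat_lit 304) (nat_lit 37262284125) (nat_lit 39) (nat_lit 5) (nat_lit 42) (nat_lit 5) (nat_lit 43) (nat_lit 5) (nat_lit 380) (nat_lit 307) (nat_lit 93)) (XT.nd (nat_lit 34944) (nat_lit 0) (nat_lit 10716) (XT.lf (nat_lit 0) (nat_lit 36724456415) (nat_lit 304) (nat_lit 13614017581) (nat_lit 76) (nat_lit 15119863600) (nat_lit 39) (nat_lit 5) (nat_lit 43) (nat_lit 5) (nat_lit 40) (nat_lit 5) (nat_lit 381) (nat_lit 307) (nat_lit 92)) (XT.lf (nat_lit 0) (nat_lit 7202796506) (nat_lit 1140) (nat_lit 673675394) (nat_lit 1140) (nat_lit 673675394) (nat_lit 180) (nat_lit 3) (nat_lit 195) (nat_lit 3) (nat_lit 195) (nat_lit 5) (nat_lit 308) (nat_lit 308) (nat_lit 164)))) (XT.nd (nat_lit 78)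 (nat_lit 0) (nat_lit 0) (XT.lf (nat_lit 76) (nat_lit 6228802538) (nat_lit 0) (nat_lit 8662054956) (nat_lit 1140) (nat_lit 2457488201) (nat_lit 181) (nat_lit 5) (nat_lit 180) (nat_lit 3) (nat_lit 195) (nat_lit 5) (nat_lit 309) (nat_lit 308) (nat_lit 163)) (XT.nd (nat_lit 78) (nat_lit 0) (nat_lit 76) (XT.lf (nat_lit 76) (nat_lit 14055561757) (nat_lit 0) (nat_lit 1340513832) (nat_lit 1140) (nat_lit 2207615627) (nat_lit 181) (nat_lit 5) (nat_lit 180) (nat_lit 3) (nat_lit 195) (nat_lit 5) (nat_lit 310) (nat_lit 308) (nat_lit 162)) (XT.lf (nat_lit 76) (nat_lit 4269675896) (nat_lit 0) (nat_lit 11739487439) (nat_lit 1140) (nat_lit 1854766690) (nat_lit 182) (nat_lit 5) (nat_lit 181) (nat_lit 5) (nat_lit 196) (nat_lit 5) (nat_lit 311) (nat_lit 308) (nat_lit 161))))) (XT.nd (nat_lit 234) (nat_lit 988) (nat_lit 0) (XT.nd (nat_lit 78) (nat_lit 0) (nat_lit 76) (XT.lf (nat_lit 76) (nat_lit 12376792937) (nat_lit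 0) (nat_lit 4305076543) (nat_lit 1140) (nat_lit 1448883647) (nat_lit 182) (nat_lit 5) (nat_lit 181) (nat_lit 5) (nat_lit 196) (nat_lit 5) (nat_lit 312) (nat_lit 308) (nat_lit 160)) (XT.nd (nat_lit 78) (nat_lit 0) (nat_lit 0) (XT.lf (nat_lit 76) (nat_lit 2330228188) (nat_lit 0) (nat_lit 15091664173) (nat_lit 1140) (nat_lit 982287993) (nat_lit 183) (nat_lit 5) (nat_lit 182) (nat_lit 5) (nat_lit 197) (nat_lit 5) (nat_lit 313) (nat_lit 308) (nat_lit 159)) (XT.lf (nat_lit 76) (nat_lit 10726904119) (nat_lit 0) (nat_lit 7550207846) (nat_lit 1140) (nat_lit 405921654) (nat_lit 183) (nat_lit 5) (nat_lit 182) (nat_lit 5) (nat_lit 197) (nat_lit 5) (nat_lit 314) (nat_lit 308) (nat_lit 158)))) (XT.nd (nat_lit 78) (nat_lit 0) (nat_lit 0) (XT.lf (nat_lit 0) (nat_lit 182971519) (nat_lit 1140) (nat_lit 18565659403) (nat_lit 1216) (nat_lit 221612795) (nat_lit 168) (nat_lit 5) (nat_lit 183) (nat_lit 5) (nat_lit 184)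 (nat_lit 5) (nat_lit 315) (nat_lit 308) (nat_lit 157)) (XT.nd (nat_lit 78) (nat_lit 0) (nat_lit 0) (XT.lf (nat_lit 0) (nat_lit 930270395) (nat_lit 1140) (nat_lit 10168758387) (nat_lit 1216) (nat_lit 8162465831) (nat_lit 168) (nat_lit 5) (nat_lit 183) (nat_lit 5) (nat_lit 184) (nat_lit 5) (nat_lit 316) (nat_lit 308) (nat_lit 156)) (XT.lf (nat_lit 0) (nat_lit 1693198170) (nat_lit 1140) (nat_lit 1524554117) (nat_lit 1216) (nat_lit 16343946094) (nat_lit 168) (nat_lit 5) (nat_lit 183) (nat_lit 5) (nat_lit 184) (nat_lit 5) (nat_lit 317) (nat_lit 308) (nat_lit 155))))))))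
noncomputable def xc218 : XT := (XT.nd (nat_lit 1794) (nat_lit 3952) (nat_lit 0) (XT.nd (nat_lit 858) (nat_lit 3192) (nat_lit 0) (XT.nd (nat_lit 390) (nat_lit 912) (nat_lit 0) (XT.nd (nat_lit 156) (nat_lit 0) (nat_lit 76) (XT.nd (nat_lit 78) (nat_lit 0) (nat_lit 0) (XT.lf (nat_lit 0) (nat_lit 2592558239) (nat_lit 1140) (nat_lit 12395512297) (nat_lit 1216) (nat_lit 4879442694) (nat_lit 169) (nat_lit 5) (nat_lit 184) (nat_lit 5) (nat_lit 185) (nat_lit 5) (nat_lit 318) (nat_lit 308) (nat_lit 154)) (XT.lf (nat_lit 0) (nat_lit 3559882031) (nat_lit 1140) (nat_lit 3448997046) (nat_lit 1216) (nat_lit 13172404934) (nat_lit 169) (nat_lit 5) (nat_lit 184) (nat_lit 5) (nat_lit 185) (nat_lit 5) (nat_lit 319) (nat_lit 308) (nat_lit 153))) (XT.nd (nat_lit 78) (nat_lit 0) (nat_lit 0) (XT.lf (nat_lit 0) (nat_lit 4618677561) (nat_lit 1140) (nat_lit 14639112481) (nat_lit 1216) (nat_lit 1244814968) (nat_lit 170)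 (nat_lit 5) (nat_lit 185) (nat_lit 5) (nat_lit 186) (nat_lit 5) (nat_lit 320) (nat_lit 308) (nat_lit 152)) (XT.nd (nat_lit 78) (nat_lit 0) (nat_lit 0) (XT.lf (nat_lit 0) (nat_lit 5807722707) (nat_lit 1140) (nat_lit 5380881375) (nat_lit 1216) (nat_lit 9642017327) (nat_lit 170) (nat_lit 5) (nat_lit 185) (nat_lit 5) (nat_lit 186) (nat_lit 5) (nat_lit 321) (nat_lit 308) (nat_lit 151)) (XT.lf (nat_lit 76) (nat_lit 4233158348) (nat_lit 0) (nat_lit 2834067682) (nat_lit 1216) (nat_lit 14100218710) (nat_lit 171) (nat_lit 5) (nat_lit 170) (nat_lit 5) (nat_lit 186) (nat_lit 5) (nat_lit 322) (nat_lit 308) (nat_lit 150))))) (XT.nd (nat_lit 234) (nat_lit 1064) (nat_lit 0) (XT.nd (nat_lit 78) (nat_lit 0) (nat_lit 0) (XT.lf (nat_lit 0) (nat_lit 8469100329) (nat_lit 1140) (nat_lit 7327527265) (nat_lit 1216) (nat_lit 5714617349) (nat_lit 171) (nat_lit 5) (nat_lit 186) (nat_lit 5) (nat_lit 187) (nat_lit 5) (nat_lit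 323) (nat_lit 308) (nat_lit 149)) (XT.nd (nat_lit 78) (nat_lit 0) (nat_lit 76) (XT.lf (nat_lit 76) (nat_lit 2585265836) (nat_lit 0) (nat_lit 7375080284) (nat_lit 1216) (nat_lit 11903603042) (nat_lit 172) (nat_lit 5) (nat_lit 171) (nat_lit 5) (nat_lit 187) (nat_lit 5) (nat_lit 324) (nat_lit 308) (nat_lit 148)) (XT.lf (nat_lit 0) (nat_lit 11578076346) (nat_lit 1140) (nat_lit 9297279976) (nat_lit 76) (nat_lit 1349434963) (nat_lit 172) (nat_lit 5) (nat_lit 187) (nat_lit 5) (nat_lit 173) (nat_lit 5) (nat_lit 325) (nat_lit 308) (nat_lit 147)))) (XT.nd (nat_lit 78) (nat_lit 0) (nat_lit 0) (XT.lf (nat_lit 0) (nat_lit 924017880) (nat_lit 1140) (nat_lit 12396915575) (nat_lit 1216) (nat_lit 9273236290) (nat_lit 157) (nat_lit 5) (nat_lit 172) (nat_lit 5) (nat_lit 173) (nat_lit 5) (nat_lit 326) (nat_lit 308) (nat_lit 146)) (XT.nd (nat_lit 78) (nat_lit 0) (nat_lit 0) (XT.lf (nat_lit 0) (nat_lit 11638026570)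 (nat_lit 1140) (nat_lit 3566737375) (nat_lit 1216) (nat_lit 7767213649) (nat_lit 157) (nat_lit 5) (nat_lit 172) (nat_lit 5) (nat_lit 173) (nat_lit 5) (nat_lit 327) (nat_lit 308) (nat_lit 145)) (XT.lf (nat_lit 0) (nat_lit 17193212300) (nat_lit 1216) (nat_lit 745353924) (nat_lit 76) (nat_lit 5421118775) (nat_lit 157) (nat_lit 5) (nat_lit 173) (nat_lit 5) (nat_lit 158) (nat_lit 5) (nat_lit 328) (nat_lit 308) (nat_lit 144)))))) (XT.nd (nat_lit 468) (nat_lit 1444) (nat_lit 0) (XT.nd (nat_lit 234) (nat_lit 608) (nat_lit 0) (XT.nd (nat_lit 78) (nat_lit 608) (nat_lit 0) (XT.lf (nat_lit 0) (nat_lit 10322602554) (nat_lit 532) (nat_lit 9048360820) (nat_lit 608) (nat_lit 4384178939) (nat_lit 150) (nat_lit 5) (nat_lit 157) (nat_lit 5) (nat_lit 158) (nat_lit 5) (nat_lit 329) (nat_lit 308) (nat_lit 143)) (XT.nd (nat_lit 78) (nat_lit 608) (nat_lit 0) (XT.lf (nat_lit 0) (nat_lit 21617903935) (nat_lit 608) (nat_lit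 2430006654) (nat_lit 76) (nat_lit 114444979) (nat_lit 150) (nat_lit 5) (nat_lit 158) (nat_lit 5) (nat_lit 151) (nat_lit 5) (nat_lit 330) (nat_lit 308) (nat_lit 142)) (XT.lf (nat_lit 0) (nat_lit 8983927499) (nat_lit 608) (nat_lit 15119623759) (nat_lit 684) (nat_lit 473102701) (nat_lit 142) (nat_lit 5) (nat_lit 150) (nat_lit 5) (nat_lit 151) (nat_lit 5) (nat_lit 331) (nat_lit 308) (nat_lit 141)))) (XT.nd (nat_lit 78) (nat_lit 532) (nat_lit 0) (XT.lf (nat_lit 0) (nat_lit 1648160755) (nat_lit 684) (nat_lit 4233208176) (nat_lit 76) (nat_lit 19120935581) (nat_lit 141) (nat_lit 5) (nat_lit 150) (nat_lit 5) (nat_lit 142) (nat_lit 5) (nat_lit 332) (nat_lit 308) (nat_lit 140)) (XT.nd (nat_lit 78) (nat_lit 0) (nat_lit 0) (XT.lf (nat_lit 0) (nat_lit 3927903183) (nat_lit 608) (nat_lit 17867716168) (nat_lit 76) (nat_lit 3641841251) (nat_lit 134) (nat_lit 5) (nat_lit 142) (nat_lit 5) (nat_lit 135) (nat_lit 5)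 (nat_lit 333) (nat_lit 308) (nat_lit 139)) (XT.lf (nat_lit 0) (nat_lit 6373056851) (nat_lit 608) (nat_lit 6133900491) (nat_lit 76) (nat_lit 13375810303) (nat_lit 134) (nat_lit 5) (nat_lit 142) (nat_lit 5) (nat_lit 135) (nat_lit 5) (nat_lit 334) (nat_lit 308) (nat_lit 138))))) (XT.nd (nat_lit 234) (nat_lit 456) (nat_lit 0) (XT.nd (nat_lit 78) (nat_lit 456) (nat_lit 0) (XT.lf (nat_lit 0) (nat_lit 6066008895) (nat_lit 532) (nat_lit 2879611325) (nat_lit 608) (nat_lit 17394198664) (nat_lit 127) (nat_lit 5) (nat_lit 134) (nat_lit 5) (nat_lit 135) (nat_lit 5) (nat_lit 335) (nat_lit 308) (nat_lit 137)) (XT.nd (nat_lit 78) (nat_lit 456) (nat_lit 0) (XT.lf (nat_lit 0) (nat_lit 11721381069) (nat_lit 608) (nat_lit 8123701136) (nat_lit 76) (nat_lit 6961725285) (nat_lit 127) (nat_lit 5) (nat_lit 135) (nat_lit 5) (nat_lit 128) (nat_lit 5) (nat_lit 336) (nat_lit 308) (nat_lit 136)) (XT.lf (nat_lit 0) (nat_lit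 4444883974) (nat_lit 456) (nat_lit 10202717518) (nat_lit 532) (nat_lit 12638194917) (nat_lit 121) (nat_lit 5) (nat_lit 127) (nat_lit 5) (nat_lit 128) (nat_lit 5) (nat_lit 337) (nat_lit 308) (nat_lit 135)))) (XT.nd (nat_lit 78) (nat_lit 456) (nat_lit 0) (XT.lf (nat_lit 0) (nat_lit 17552844529) (nat_lit 456) (nat_lit 186823780) (nat_lit 532) (nat_lit 10037150969) (nat_lit 121) (nat_lit 5) (nat_lit 127) (nat_lit 5) (nat_lit 128) (nat_lit 5) (nat_lit 338) (nat_lit 308) (nat_lit 134)) (XT.nd (nat_lit 78) (nat_lit 0) (nat_lit 0) (XT.lf (nat_lit 0) (nat_lit 2723028940) (nat_lit 456) (nat_lit 18321154874) (nat_lit 532) (nat_lit 7234804320) (nat_lit 115) (nat_lit 5) (nat_lit 121) (nat_lit 5) (nat_lit 122) (nat_lit 5) (nat_lit 339) (nat_lit 308) (nat_lit 133)) (XT.lf (nat_lit 0) (nat_lit 16261972063) (nat_lit 456) (nat_lit 8287148674) (nat_lit 532) (nat_lit 4244068465) (nat_lit 115) (nat_lit 5) (nat_lit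 121) (nat_lit 5) (nat_lit 122) (nat_lit 5) (nat_lit 340) (nat_lit 308) (nat_lit 132))))))) (XT.nd (nat_lit 936) (nat_lit 1520) (nat_lit 0) (XT.nd (nat_lit 468) (nat_lit 1140) (nat_lit 0) (XT.nd (nat_lit 234) (nat_lit 836) (nat_lit 0) (XT.nd (nat_lit 78) (nat_lit 76) (nat_lit 0) (XT.lf (nat_lit 0) (nat_lit 877549255) (nat_lit 380) (nat_lit 27306096554) (nat_lit 456) (nat_lit 1138442853) (nat_lit 110) (nat_lit 5) (nat_lit 115) (nat_lit 5) (nat_lit 116) (nat_lit 5) (nat_lit 341) (nat_lit 308) (nat_lit 131)) (XT.nd (nat_lit 78) (nat_lit 0) (nat_lit 0) (XT.lf (nat_lit 0) (nat_lit 2226336851) (nat_lit 456) (nat_lit 15024905623) (nat_lit 76) (nat_lit 12608838006) (nat_lit 109) (nat_lit 5) (nat_lit 115) (nat_lit 5) (nat_lit 110) (nat_lit 5) (nat_lit 342) (nat_lit 308) (nat_lit 130)) (XT.lf (nat_lit 0) (nat_lit 5665630438) (nat_lit 456) (nat_lit 1218026219) (nat_lit 76) (nat_lit 23530328771) (nat_lit 109)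 (nat_lit 5) (nat_lit 115) (nat_lit 5) (nat_lit 110) (nat_lit 5) (nat_lit 343) (nat_lit 308) (nat_lit 129)))) (XT.nd (nat_lit 78) (nat_lit 380) (nat_lit 0) (XT.lf (nat_lit 0) (nat_lit 9369836817) (nat_lit 532) (nat_lit 17760714714) (nat_lit 76) (nat_lit 3849108914) (nat_lit 103) (nat_lit 5) (nat_lit 110) (nat_lit 5) (nat_lit 104) (nat_lit 5) (nat_lit 344) (nat_lit 308) (nat_lit 128)) (XT.nd (nat_lit 78) (nat_lit 380) (nat_lit 0) (XT.lf (nat_lit 0) (nat_lit 13262358846) (nat_lit 532) (nat_lit 3520233803) (nat_lit 76) (nat_lit 14777402178) (nat_lit 103) (nat_lit 5) (nat_lit 110) (nat_lit 5) (nat_lit 104) (nat_lit 5) (nat_lit 345) (nat_lit 308) (nat_lit 127)) (XT.lf (nat_lit 0) (nat_lit 11365341776) (nat_lit 380) (nat_lit 6012277013) (nat_lit 456) (nat_lit 14776946238) (nat_lit 98) (nat_lit 5) (nat_lit 103) (nat_lit 5) (nat_lit 104) (nat_lit 5) (nat_lit 346) (nat_lit 308) (nat_lit 126))))) (XT.nd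 (nat_lit 234) (nat_lit 760) (nat_lit 0) (XT.nd (nat_lit 78) (nat_lit 380) (nat_lit 0) (XT.lf (nat_lit 0) (nat_lit 21697843295) (nat_lit 456) (nat_lit 6049410647) (nat_lit 76) (nat_lit 5017277711) (nat_lit 98) (nat_lit 5) (nat_lit 104) (nat_lit 5) (nat_lit 99) (nat_lit 5) (nat_lit 347) (nat_lit 308) (nat_lit 125)) (XT.nd (nat_lit 78) (nat_lit 0) (nat_lit 0) (XT.lf (nat_lit 0) (nat_lit 9249723837) (nat_lit 380) (nat_lit 17043250687) (nat_lit 456) (nat_lit 7095468143) (nat_lit 93) (nat_lit 5) (nat_lit 98) (nat_lit 5) (nat_lit 99) (nat_lit 5) (nat_lit 348) (nat_lit 308) (nat_lit 124)) (XT.lf (nat_lit 0) (nat_lit 25128036565) (nat_lit 380) (nat_lit 5955923747) (nat_lit 456) (nat_lit 2945374941) (nat_lit 93) (nat_lit 5) (nat_lit 98) (nat_lit 5) (nat_lit 99) (nat_lit 5) (nat_lit 349) (nat_lit 308) (nat_lit 123)))) (XT.nd (nat_lit 78) (nat_lit 380) (nat_lit 0) (XT.lf (nat_lit 0) (nat_lit 1419991977) (nat_lit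 380) (nat_lit 27828893697) (nat_lit 76) (nat_lit 5436688378) (nat_lit 88) (nat_lit 5) (nat_lit 93) (nat_lit 5) (nat_lit 89) (nat_lit 5) (nat_lit 350) (nat_lit 308) (nat_lit 122)) (XT.nd (nat_lit 78) (nat_lit 380) (nat_lit 0) (XT.lf (nat_lit 0) (nat_lit 6003880937) (nat_lit 380) (nat_lit 12181764030) (nat_lit 76) (nat_lit 17170581280) (nat_lit 88) (nat_lit 5) (nat_lit 93) (nat_lit 5) (nat_lit 89) (nat_lit 5) (nat_lit 351) (nat_lit 308) (nat_lit 121)) (XT.lf (nat_lit 0) (nat_lit 4009321038) (nat_lit 380) (nat_lit 6751607504) (nat_lit 456) (nat_lit 25285003991) (nat_lit 83) (nat_lit 5) (nat_lit 88) (nat_lit 5) (nat_lit 89) (nat_lit 5) (nat_lit 352) (nat_lit 308) (nat_lit 120)))))) (XT.nd (nat_lit 468) (nat_lit 836) (nat_lit 0) (XT.nd (nat_lit 234) (nat_lit 380) (nat_lit 0) (XT.nd (nat_lit 78) (nat_lit 304) (nat_lit 0) (XT.lf (nat_lit 0) (nat_lit 15830368548) (nat_lit 456) (nat_lit 15870052341) (nat_lit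 76) (nat_lit 5050822368) (nat_lit 83) (nat_lit 5) (nat_lit 89) (nat_lit 5) (nat_lit 84) (nat_lit 5) (nat_lit 353) (nat_lit 308) (nat_lit 119)) (XT.nd (nat_lit 78) (nat_lit 0) (nat_lit 0) (XT.lf (nat_lit 0) (nat_lit 725175794) (nat_lit 304) (nat_lit 20397760982) (nat_lit 380) (nat_lit 16352648743) (nat_lit 79) (nat_lit 5) (nat_lit 83) (nat_lit 5) (nat_lit 84) (nat_lit 5) (nat_lit 354) (nat_lit 308) (nat_lit 118)) (XT.lf (nat_lit 0) (nat_lit 18139985899) (nat_lit 304) (nat_lit 8591825373) (nat_lit 380) (nat_lit 11485124366) (nat_lit 79) (nat_lit 5) (nat_lit 83) (nat_lit 5) (nat_lit 84) (nat_lit 5) (nat_lit 355) (nat_lit 308) (nat_lit 117)))) (XT.nd (nat_lit 78) (nat_lit 380) (nat_lit 0) (XT.lf (nat_lit 0) (nat_lit 32540596714) (nat_lit 380) (nat_lit 2941151888) (nat_lit 76) (nat_lit 3497831682) (nat_lit 79) (nat_lit 5) (nat_lit 84) (nat_lit 5) (nat_lit 80) (nat_lit 5) (nat_lit 356) (nat_lit 308)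 (nat_lit 116)) (XT.nd (nat_lit 78) (nat_lit 76) (nat_lit 0) (XT.lf (nat_lit 0) (nat_lit 14911161266) (nat_lit 304) (nat_lit 23838308728) (nat_lit 380) (nat_lit 1008862813) (nat_lit 75) (nat_lit 5) (nat_lit 79) (nat_lit 5) (nat_lit 80) (nat_lit 5) (nat_lit 357) (nat_lit 308) (nat_lit 115)) (XT.lf (nat_lit 0) (nat_lit 4522137416) (nat_lit 380) (nat_lit 7248063887) (nat_lit 76) (nat_lit 28788104828) (nat_lit 74) (nat_lit 5) (nat_lit 79) (nat_lit 5) (nat_lit 75) (nat_lit 5) (nat_lit 358) (nat_lit 308) (nat_lit 114))))) (XT.nd (nat_lit 234) (nat_lit 228) (nat_lit 0) (XT.nd (nat_lit 78) (nat_lit 304) (nat_lit 0) (XT.lf (nat_lit 0) (nat_lit 10310315481) (nat_lit 380) (nat_lit 30304454124) (nat_lit 76) (nat_lit 763866627) (nat_lit 70) (nat_lit 5) (nat_lit 75) (nat_lit 5) (nat_lit 71) (nat_lit 5) (nat_lit 359) (nat_lit 308) (nat_lit 113)) (XT.nd (nat_lit 78) (nat_lit 304) (nat_lit 0) (XT.lf (nat_lit 0)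 (nat_lit 16460133275) (nat_lit 380) (nat_lit 12247383034) (nat_lit 76) (nat_lit 13510422997) (nat_lit 70) (nat_lit 5) (nat_lit 75) (nat_lit 5) (nat_lit 71) (nat_lit 5) (nat_lit 360) (nat_lit 308) (nat_lit 112)) (XT.lf (nat_lit 0) (nat_lit 6474424074) (nat_lit 304) (nat_lit 16379871091) (nat_lit 380) (nat_lit 20226333638) (nat_lit 66) (nat_lit 5) (nat_lit 70) (nat_lit 5) (nat_lit 71) (nat_lit 5) (nat_lit 361) (nat_lit 308) (nat_lit 111)))) (XT.nd (nat_lit 78) (nat_lit 228) (nat_lit 0) (XT.lf (nat_lit 0) (nat_lit 26005661799) (nat_lit 304) (nat_lit 3555946060) (nat_lit 380) (nat_lit 14403954084) (nat_lit 66) (nat_lit 5) (nat_lit 70) (nat_lit 5) (nat_lit 71) (nat_lit 5) (nat_lit 362) (nat_lit 308) (nat_lit 110)) (XT.nd (nat_lit 78) (nat_lit 0) (nat_lit 0) (XT.lf (nat_lit 0) (nat_lit 1172638691) (nat_lit 228) (nat_lit 35399272066) (nat_lit 304) (nat_lit 8302081849) (nat_lit 63) (nat_lit 5) (nat_lit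 66) (nat_lit 5) (nat_lit 67) (nat_lit 5) (nat_lit 363) (nat_lit 308) (nat_lit 109)) (XT.lf (nat_lit 0) (nat_lit 21208188150) (nat_lit 228) (nat_lit 22798303399) (nat_lit 304) (nat_lit 1796768156) (nat_lit 63) (nat_lit 5) (nat_lit 66) (nat_lit 5) (nat_lit 67) (nat_lit 5) (nat_lit 364) (nat_lit 308) (nat_lit 108))))))))
noncomputable def xc219 : XT := (XT.nd (nat_lit 36816) (nat_lit 0) (nat_lit 6232) (XT.nd (nat_lit 936) (nat_lit 456) (nat_lit 0) (XT.nd (nat_lit 468) (nat_lit 532) (nat_lit 0) (XT.nd (nat_lit 234) (nat_lit 456) (nat_lit 0) (XT.nd (nat_lit 78) (nat_lit 304) (nat_lit 0) (XT.lf (nat_lit 0) (nat_lit 4805804329) (nat_lit 304) (nat_lit 4965908666) (nat_lit 76) (nat_lit 36987346479) (nat_lit 62) (nat_lit 5) (nat_lit 66) (nat_lit 5) (nat_lit 63) (nat_lit 5) (nat_lit 365) (nat_lit 308) (nat_lit 107)) (XT.nd (nat_lit 78) (nat_lit 0) (nat_lit 0) (XT.lf (nat_lit 0) (nat_lit 11754209686) (nat_lit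 380) (nat_lit 32240883560) (nat_lit 76) (nat_lit 3742392588) (nat_lit 58) (nat_lit 5) (nat_lit 63) (nat_lit 5) (nat_lit 59) (nat_lit 5) (nat_lit 366) (nat_lit 308) (nat_lit 106)) (XT.lf (nat_lit 0) (nat_lit 19056336282) (nat_lit 380) (nat_lit 12169326670) (nat_lit 76) (nat_lit 17515246251) (nat_lit 58) (nat_lit 5) (nat_lit 63) (nat_lit 5) (nat_lit 59) (nat_lit 5) (nat_lit 367) (nat_lit 308) (nat_lit 105)))) (XT.nd (nat_lit 78) (nat_lit 228) (nat_lit 0) (XT.lf (nat_lit 0) (nat_lit 8670556401) (nat_lit 228) (nat_lit 17988255811) (nat_lit 304) (nat_lit 23113186719) (nat_lit 55) (nat_lit 5) (nat_lit 58) (nat_lit 5) (nat_lit 59) (nat_lit 5) (nat_lit 368) (nat_lit 308) (nat_lit 104)) (XT.nd (nat_lit 78) (nat_lit 228) (nat_lit 0) (XT.lf (nat_lit 0) (nat_lit 30382110472) (nat_lit 228) (nat_lit 4228108471) (nat_lit 304) (nat_lit 16220178871) (nat_lit 55) (nat_lit 5) (nat_lit 58) (nat_lit 5) (nat_lit 59)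 (nat_lit 5) (nat_lit 369) (nat_lit 308) (nat_lit 103)) (XT.lf (nat_lit 0) (nat_lit 740363616) (nat_lit 228) (nat_lit 42160537401) (nat_lit 304) (nat_lit 9016627749) (nat_lit 52) (nat_lit 5) (nat_lit 55) (nat_lit 5) (nat_lit 56) (nat_lit 5) (nat_lit 370) (nat_lit 308) (nat_lit 102))))) (XT.nd (nat_lit 234) (nat_lit 228) (nat_lit 0) (XT.nd (nat_lit 78) (nat_lit 304) (nat_lit 0) (XT.lf (nat_lit 0) (nat_lit 22938227136) (nat_lit 228) (nat_lit 28748066041) (nat_lit 304) (nat_lit 1343602816) (nat_lit 52) (nat_lit 5) (nat_lit 55) (nat_lit 5) (nat_lit 56) (nat_lit 5) (nat_lit 371) (nat_lit 308) (nat_lit 101)) (XT.nd (nat_lit 78) (nat_lit 228) (nat_lit 0) (XT.lf (nat_lit 0) (nat_lit 6429697277) (nat_lit 304) (nat_lit 8439538820) (nat_lit 76) (nat_lit 39304565827) (nat_lit 51) (nat_lit 5) (nat_lit 55) (nat_lit 5) (nat_lit 52) (nat_lit 5) (nat_lit 372) (nat_lit 308) (nat_lit 100)) (XT.lf (nat_lit 0) (nat_lit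 14121623499) (nat_lit 228) (nat_lit 421455305) (nat_lit 304) (nat_lit 40804532375) (nat_lit 48) (nat_lit 5) (nat_lit 51) (nat_lit 5) (nat_lit 52) (nat_lit 5) (nat_lit 373) (nat_lit 308) (nat_lit 99)))) (XT.nd (nat_lit 78) (nat_lit 228) (nat_lit 0) (XT.lf (nat_lit 0) (nat_lit 23123084803) (nat_lit 304) (nat_lit 19164107636) (nat_lit 76) (nat_lit 14262747390) (nat_lit 48) (nat_lit 5) (nat_lit 52) (nat_lit 5) (nat_lit 49) (nat_lit 5) (nat_lit 374) (nat_lit 308) (nat_lit 98)) (XT.nd (nat_lit 78) (nat_lit 0) (nat_lit 0) (XT.lf (nat_lit 0) (nat_lit 3623431376) (nat_lit 228) (nat_lit 28374277043) (nat_lit 304) (nat_lit 25789515152) (nat_lit 45) (nat_lit 5) (nat_lit 48) (nat_lit 5) (nat_lit 49) (nat_lit 5) (nat_lit 375) (nat_lit 308) (nat_lit 97)) (XT.lf (nat_lit 0) (nat_lit 27484737944) (nat_lit 228) (nat_lit 13845592712) (nat_lit 304) (nat_lit 17725544077) (nat_lit 45) (nat_lit 5) (nat_lit 48) (nat_lit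 5) (nat_lit 49) (nat_lit 5) (nat_lit 376) (nat_lit 308) (nat_lit 96)))))) (XT.nd (nat_lit 35412) (nat_lit 0) (nat_lit 10716) (XT.nd (nat_lit 234) (nat_lit 228) (nat_lit 0) (XT.nd (nat_lit 78) (nat_lit 228) (nat_lit 0) (XT.lf (nat_lit 0) (nat_lit 50951970067) (nat_lit 304) (nat_lit 8314127155) (nat_lit 76) (nat_lit 1096218707) (nat_lit 45) (nat_lit 5) (nat_lit 49) (nat_lit 5) (nat_lit 46) (nat_lit 5) (nat_lit 377) (nat_lit 308) (nat_lit 95)) (XT.nd (nat_lit 78) (nat_lit 76) (nat_lit 0) (XT.lf (nat_lit 0) (nat_lit 15809414682) (nat_lit 152) (nat_lit 45340231297) (nat_lit 228) (nat_lit 549684370) (nat_lit 43) (nat_lit 5) (nat_lit 45) (nat_lit 5) (nat_lit 46) (nat_lit 5) (nat_lit 378) (nat_lit 308) (nat_lit 94)) (XT.lf (nat_lit 0) (nat_lit 8492558976) (nat_lit 228) (nat_lit 22332719754) (nat_lit 76) (nat_lit 32246210836) (nat_lit 42) (nat_lit 5) (nat_lit 45) (nat_lit 5) (nat_lit 43) (nat_lit 5) (nat_lit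 379) (nat_lit 308) (nat_lit 93)))) (XT.nd (nat_lit 78) (nat_lit 0) (nat_lit 0) (XT.lf (nat_lit 0) (nat_lit 1961500504) (nat_lit 228) (nat_lit 15850763118) (nat_lit 304) (nat_lit 46671870873) (nat_lit 39) (nat_lit 5) (nat_lit 42) (nat_lit 5) (nat_lit 43) (nat_lit 5) (nat_lit 380) (nat_lit 308) (nat_lit 92)) (XT.nd (nat_lit 35022) (nat_lit 0) (nat_lit 10716) (XT.lf (nat_lit 0) (nat_lit 27439845933) (nat_lit 228) (nat_lit 195640068) (nat_lit 304) (nat_lit 38296956400) (nat_lit 39) (nat_lit 5) (nat_lit 42) (nat_lit 5) (nat_lit 43) (nat_lit 5) (nat_lit 381) (nat_lit 308) (nat_lit 91)) (XT.lf (nat_lit 0) (nat_lit 7626173956) (nat_lit 1140) (nat_lit 586942345) (nat_lit 1140) (nat_lit 586942345) (nat_lit 180) (nat_lit 3) (nat_lit 195) (nat_lit 3) (nat_lit 195) (nat_lit 5) (nat_lit 309) (nat_lit 309) (nat_lit 162))))) (XT.nd (nat_lit 234) (nat_lit 0) (nat_lit 76) (XT.nd (nat_lit 78) (nat_lit 0) (nat_lit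 0) (XT.lf (nat_lit 76) (nat_lit 6627456309) (nat_lit 0) (nat_lit 9114674520) (nat_lit 1140) (nat_lit 2113802091) (nat_lit 181) (nat_lit 5) (nat_lit 180) (nat_lit 3) (nat_lit 195) (nat_lit 5) (nat_lit 310) (nat_lit 309) (nat_lit 161)) (XT.nd (nat_lit 78) (nat_lit 0) (nat_lit 76) (XT.lf (nat_lit 76) (nat_lit 14682849672) (nat_lit 0) (nat_lit 1567872853) (nat_lit 1140) (nat_lit 1868590934) (nat_lit 181) (nat_lit 5) (nat_lit 180) (nat_lit 3) (nat_lit 195) (nat_lit 5) (nat_lit 311) (nat_lit 309) (nat_lit 160)) (XT.lf (nat_lit 76) (nat_lit 4615518701) (nat_lit 0) (nat_lit 12255591083) (nat_lit 1140) (nat_lit 1516602992) (nat_lit 182) (nat_lit 5) (nat_lit 181) (nat_lit 5) (nat_lit 196) (nat_lit 5) (nat_lit 312) (nat_lit 309) (nat_lit 159)))) (XT.nd (nat_lit 78) (nat_lit 0) (nat_lit 76) (XT.lf (nat_lit 76) (nat_lit 12959506948) (nat_lit 0) (nat_lit 4593373520) (nat_lit 1140) (nat_lit 1110013556) (nat_lit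 182) (nat_lit 5) (nat_lit 181) (nat_lit 5) (nat_lit 196) (nat_lit 5) (nat_lit 313) (nat_lit 309) (nat_lit 158)) (XT.nd (nat_lit 78) (nat_lit 0) (nat_lit 0) (XT.lf (nat_lit 76) (nat_lit 2622653596) (nat_lit 0) (nat_lit 15682311322) (nat_lit 1140) (nat_lit 639882692) (nat_lit 183) (nat_lit 5) (nat_lit 182) (nat_lit 5) (nat_lit 197) (nat_lit 5) (nat_lit 314) (nat_lit 309) (nat_lit 157)) (XT.lf (nat_lit 76) (nat_lit 11264748682) (nat_lit 0) (nat_lit 7910594882) (nat_lit 1140) (nat_lit 57056642) (nat_lit 183) (nat_lit 5) (nat_lit 182) (nat_lit 5) (nat_lit 197) (nat_lit 5) (nat_lit 315) (nat_lit 309) (nat_lit 156))))))) (XT.nd (nat_lit 936) (nat_lit 2736) (nat_lit 0) (XT.nd (nat_lit 468) (nat_lit 836) (nat_lit 0) (XT.nd (nat_lit 234) (nat_lit 0) (nat_lit 76) (XT.nd (nat_lit 78) (nat_lit 0) (nat_lit 0) (XT.lf (nat_lit 0) (nat_lit 533081637) (nat_lit 1140) (nat_lit 18888970551) (nat_lit 1216) (nat_lit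 106369322) (nat_lit 168) (nat_lit 5) (nat_lit 183) (nat_lit 5) (nat_lit 184) (nat_lit 5) (nat_lit 316) (nat_lit 309) (nat_lit 155)) (XT.nd (nat_lit 78) (nat_lit 0) (nat_lit 0) (XT.lf (nat_lit 0) (nat_lit 1292761975) (nat_lit 1140) (nat_lit 10246968096) (nat_lit 1216) (nat_lit 8288998197) (nat_lit 168) (nat_lit 5) (nat_lit 183) (nat_lit 5) (nat_lit 184) (nat_lit 5) (nat_lit 317) (nat_lit 309) (nat_lit 154)) (XT.lf (nat_lit 0) (nat_lit 2068832434) (nat_lit 1140) (nat_lit 1350045068) (nat_lit 1216) (nat_lit 16719369710) (nat_lit 168) (nat_lit 5) (nat_lit 183) (nat_lit 5) (nat_lit 184) (nat_lit 5) (nat_lit 318) (nat_lit 309) (nat_lit 153)))) (XT.nd (nat_lit 78) (nat_lit 0) (nat_lit 0) (XT.lf (nat_lit 0) (nat_lit 2986853006) (nat_lit 1140) (nat_lit 12538270947) (nat_lit 1216) (nat_lit 4928378386) (nat_lit 169) (nat_lit 5) (nat_lit 184) (nat_lit 5) (nat_lit 185) (nat_lit 5) (nat_lit 319) (nat_lit 309)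 (nat_lit 152)) (XT.nd (nat_lit 78) (nat_lit 0) (nat_lit 76) (XT.lf (nat_lit 0) (nat_lit 3973977541) (nat_lit 1140) (nat_lit 3330033250) (nat_lit 1216) (nat_lit 13472967772) (nat_lit 169) (nat_lit 5) (nat_lit 184) (nat_lit 5) (nat_lit 185) (nat_lit 5) (nat_lit 320) (nat_lit 309) (nat_lit 151)) (XT.lf (nat_lit 0) (nat_lit 5056932630) (nat_lit 1140) (nat_lit 14847738135) (nat_lit 1216) (nat_lit 1203511846) (nat_lit 170) (nat_lit 5) (nat_lit 185) (nat_lit 5) (nat_lit 186) (nat_lit 5) (nat_lit 321) (nat_lit 309) (nat_lit 150))))) (XT.nd (nat_lit 234) (nat_lit 988) (nat_lit 0) (XT.nd (nat_lit 78) (nat_lit 0) (nat_lit 0) (XT.lf (nat_lit 0) (nat_lit 6272920158) (nat_lit 1140) (nat_lit 5318475078) (nat_lit 1216) (nat_lit 9854920982) (nat_lit 170) (nat_lit 5) (nat_lit 185) (nat_lit 5) (nat_lit 186) (nat_lit 5) (nat_lit 322) (nat_lit 309) (nat_lit 149)) (XT.nd (nat_lit 78) (nat_lit 0) (nat_lit 76) (XT.lf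 (nat_lit 76) (nat_lit 4581791398) (nat_lit 0) (nat_lit 2982072974) (nat_lit 1216) (nat_lit 14229584615) (nat_lit 171) (nat_lit 5) (nat_lit 170) (nat_lit 5) (nat_lit 186) (nat_lit 5) (nat_lit 323) (nat_lit 309) (nat_lit 148)) (XT.lf (nat_lit 0) (nat_lit 8998917153) (nat_lit 1140) (nat_lit 7322826066) (nat_lit 1216) (nat_lit 5826100305) (nat_lit 171) (nat_lit 5) (nat_lit 186) (nat_lit 5) (nat_lit 187) (nat_lit 5) (nat_lit 324) (nat_lit 309) (nat_lit 147)))) (XT.nd (nat_lit 78) (nat_lit 1064) (nat_lit 0) (XT.lf (nat_lit 76) (nat_lit 2885149583) (nat_lit 0) (nat_lit 7643856492) (nat_lit 1216) (nat_lit 11982313207) (nat_lit 172) (nat_lit 5) (nat_lit 171) (nat_lit 5) (nat_lit 187) (nat_lit 5) (nat_lit 325) (nat_lit 309) (nat_lit 146)) (XT.nd (nat_lit 78) (nat_lit 1140) (nat_lit 0) (XT.lf (nat_lit 0) (nat_lit 12186964990) (nat_lit 1140) (nat_lit 9351605216) (nat_lit 76) (nat_lit 1344678750) (nat_lit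 172) (nat_lit 5) (nat_lit 187) (nat_lit 5) (nat_lit 173) (nat_lit 5) (nat_lit 326) (nat_lit 309) (nat_lit 145)) (XT.lf (nat_lit 0) (nat_lit 1174129683) (nat_lit 1140) (nat_lit 12802498036) (nat_lit 1216) (nat_lit 9287258261) (nat_lit 157) (nat_lit 5) (nat_lit 172) (nat_lit 5) (nat_lit 173) (nat_lit 5) (nat_lit 327) (nat_lit 309) (nat_lit 144)))))) (XT.nd (nat_lit 468) (nat_lit 1520) (nat_lit 0) (XT.nd (nat_lit 234) (nat_lit 684) (nat_lit 0) (XT.nd (nat_lit 78) (nat_lit 532) (nat_lit 0) (XT.lf (nat_lit 0) (nat_lit 12203081217) (nat_lit 1140) (nat_lit 3706433665) (nat_lit 1216) (nat_lit 7743749361) (nat_lit 157) (nat_lit 5) (nat_lit 172) (nat_lit 5) (nat_lit 173) (nat_lit 5) (nat_lit 328) (nat_lit 309) (nat_lit 143)) (XT.nd (nat_lit 78) (nat_lit 532) (nat_lit 0) (XT.lf (nat_lit 0) (nat_lit 17950070554) (nat_lit 1216) (nat_lit 550140945) (nat_lit 76) (nat_lit 5552629826) (nat_lit 157) (nat_lit 5)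 (nat_lit 173) (nat_lit 5) (nat_lit 158) (nat_lit 5) (nat_lit 329) (nat_lit 309) (nat_lit 142)) (XT.lf (nat_lit 0) (nat_lit 10847721154) (nat_lit 532) (nat_lit 9340482733) (nat_lit 608) (nat_lit 4272118700) (nat_lit 150) (nat_lit 5) (nat_lit 157) (nat_lit 5) (nat_lit 158) (nat_lit 5) (nat_lit 330) (nat_lit 309) (nat_lit 141)))) (XT.nd (nat_lit 78) (nat_lit 684) (nat_lit 0) (XT.lf (nat_lit 0) (nat_lit 22495482712) (nat_lit 608) (nat_lit 2286292075) (nat_lit 76) (nat_lit 98200929) (nat_lit 150) (nat_lit 5) (nat_lit 158) (nat_lit 5) (nat_lit 151) (nat_lit 5) (nat_lit 331) (nat_lit 309) (nat_lit 140)) (XT.nd (nat_lit 78) (nat_lit 76) (nat_lit 0) (XT.lf (nat_lit 0) (nat_lit 9467936428) (nat_lit 608) (nat_lit 15583153730) (nat_lit 684) (nat_lit 255762226) (nat_lit 142) (nat_lit 5) (nat_lit 150) (nat_lit 5) (nat_lit 151) (nat_lit 5) (nat_lit 332) (nat_lit 309) (nat_lit 139)) (XT.lf (nat_lit 0) (nat_lit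 1918008978) (nat_lit 684) (nat_lit 4147227086) (nat_lit 76) (nat_lit 19680178397) (nat_lit 141) (nat_lit 5) (nat_lit 150) (nat_lit 5) (nat_lit 142) (nat_lit 5) (nat_lit 333) (nat_lit 309) (nat_lit 138))))) (XT.nd (nat_lit 234) (nat_lit 456) (nat_lit 0) (XT.nd (nat_lit 78) (nat_lit 532) (nat_lit 0) (XT.lf (nat_lit 0) (nat_lit 4261702126) (nat_lit 608) (nat_lit 18185991788) (nat_lit 76) (nat_lit 3746074675) (nat_lit 134) (nat_lit 5) (nat_lit 142) (nat_lit 5) (nat_lit 135) (nat_lit 5) (nat_lit 334) (nat_lit 309) (nat_lit 137)) (XT.nd (nat_lit 78) (nat_lit 532) (nat_lit 0) (XT.lf (nat_lit 0) (nat_lit 6773920253) (nat_lit 608) (nat_lit 6106504045) (nat_lit 76) (nat_lit 13772209064) (nat_lit 134) (nat_lit 5) (nat_lit 142) (nat_lit 5) (nat_lit 135) (nat_lit 5) (nat_lit 335) (nat_lit 309) (nat_lit 136)) (XT.lf (nat_lit 0) (nat_lit 6457329942) (nat_lit 532) (nat_lit 2962235951) (nat_lit 608) (nat_lit 17703962614)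 (nat_lit 127) (nat_lit 5) (nat_lit 134) (nat_lit 5) (nat_lit 135) (nat_lit 5) (nat_lit 336) (nat_lit 309) (nat_lit 135)))) (XT.nd (nat_lit 78) (nat_lit 456) (nat_lit 0) (XT.lf (nat_lit 0) (nat_lit 12272647011) (nat_lit 608) (nat_lit 8157907757) (nat_lit 76) (nat_lit 7174159830) (nat_lit 127) (nat_lit 5) (nat_lit 135) (nat_lit 5) (nat_lit 128) (nat_lit 5) (nat_lit 337) (nat_lit 309) (nat_lit 134)) (XT.nd (nat_lit 78) (nat_lit 0) (nat_lit 0) (XT.lf (nat_lit 0) (nat_lit 4785680941) (nat_lit 456) (nat_lit 10497152939) (nat_lit 532) (nat_lit 12815362892) (nat_lit 121) (nat_lit 5) (nat_lit 127) (nat_lit 5) (nat_lit 128) (nat_lit 5) (nat_lit 338) (nat_lit 309) (nat_lit 133)) (XT.lf (nat_lit 0) (nat_lit 18280838067) (nat_lit 456) (nat_lit 181121597) (nat_lit 532) (nat_lit 10142170476) (nat_lit 121) (nat_lit 5) (nat_lit 127) (nat_lit 5) (nat_lit 128) (nat_lit 5) (nat_lit 339) (nat_lit 309) (nat_lit 132))))))))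
noncomputable def xc220 : XT := (XT.nd (nat_lit 1794) (nat_lit 1824) (nat_lit 0) (XT.nd (nat_lit 858) (nat_lit 2052) (nat_lit 0) (XT.nd (nat_lit 390) (nat_lit 1216) (nat_lit 0) (XT.nd (nat_lit 156) (nat_lit 456) (nat_lit 0) (XT.nd (nat_lit 78) (nat_lit 0) (nat_lit 0) (XT.lf (nat_lit 0) (nat_lit 3009980752) (nat_lit 456) (nat_lit 18852171567) (nat_lit 532) (nat_lit 7259323957) (nat_lit 115) (nat_lit 5) (nat_lit 121) (nat_lit 5) (nat_lit 122) (nat_lit 5) (nat_lit 340) (nat_lit 309) (nat_lit 131)) (XT.lf (nat_lit 0) (nat_lit 16949113695) (nat_lit 456) (nat_lit 8517687452) (nat_lit 532) (nat_lit 4184473536) (nat_lit 115) (nat_lit 5) (nat_lit 121) (nat_lit 5) (nat_lit 122) (nat_lit 5) (nat_lit 341) (nat_lit 309) (nat_lit 130))) (XT.nd (nat_lit 78) (nat_lit 76) (nat_lit 0) (XT.lf (nat_lit 0) (nat_lit 1106686616) (nat_lit 380) (nat_lit 28100515723) (nat_lit 456) (nat_lit 988941557) (nat_lit 110) (nat_lit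 5) (nat_lit 115) (nat_lit 5) (nat_lit 116) (nat_lit 5) (nat_lit 342) (nat_lit 309) (nat_lit 129)) (XT.nd (nat_lit 78) (nat_lit 0) (nat_lit 0) (XT.lf (nat_lit 0) (nat_lit 2467952995) (nat_lit 456) (nat_lit 15275018899) (nat_lit 76) (nat_lit 13007415477) (nat_lit 109) (nat_lit 5) (nat_lit 115) (nat_lit 5) (nat_lit 110) (nat_lit 5) (nat_lit 343) (nat_lit 309) (nat_lit 128)) (XT.lf (nat_lit 0) (nat_lit 6005333369) (nat_lit 456) (nat_lit 1059776819) (nat_lit 76) (nat_lit 24255959344) (nat_lit 109) (nat_lit 5) (nat_lit 115) (nat_lit 5) (nat_lit 110) (nat_lit 5) (nat_lit 344) (nat_lit 309) (nat_lit 127))))) (XT.nd (nat_lit 234) (nat_lit 380) (nat_lit 0) (XT.nd (nat_lit 78) (nat_lit 380) (nat_lit 0) (XT.lf (nat_lit 0) (nat_lit 9817828513) (nat_lit 532) (nat_lit 18095672194) (nat_lit 76) (nat_lit 3990306306) (nat_lit 103) (nat_lit 5) (nat_lit 110) (nat_lit 5) (nat_lit 104) (nat_lit 5) (nat_lit 345) (nat_lit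 309) (nat_lit 126)) (XT.nd (nat_lit 78) (nat_lit 380) (nat_lit 0) (XT.lf (nat_lit 0) (nat_lit 13822265137) (nat_lit 532) (nat_lit 3433739883) (nat_lit 76) (nat_lit 15245699121) (nat_lit 103) (nat_lit 5) (nat_lit 110) (nat_lit 5) (nat_lit 104) (nat_lit 5) (nat_lit 346) (nat_lit 309) (nat_lit 125)) (XT.lf (nat_lit 0) (nat_lit 11896519621) (nat_lit 380) (nat_lit 6161572264) (nat_lit 456) (nat_lit 15056112976) (nat_lit 98) (nat_lit 5) (nat_lit 103) (nat_lit 5) (nat_lit 104) (nat_lit 5) (nat_lit 347) (nat_lit 309) (nat_lit 124)))) (XT.nd (nat_lit 78) (nat_lit 380) (nat_lit 0) (XT.lf (nat_lit 0) (nat_lit 22503577841) (nat_lit 456) (nat_lit 6041654117) (nat_lit 76) (nat_lit 5197375374) (nat_lit 98) (nat_lit 5) (nat_lit 104) (nat_lit 5) (nat_lit 99) (nat_lit 5) (nat_lit 348) (nat_lit 309) (nat_lit 123)) (XT.nd (nat_lit 78) (nat_lit 0) (nat_lit 0) (XT.lf (nat_lit 0) (nat_lit 9714599118) (nat_lit 380) (nat_lit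 17519256418) (nat_lit 456) (nat_lit 7151467664) (nat_lit 93) (nat_lit 5) (nat_lit 98) (nat_lit 5) (nat_lit 99) (nat_lit 5) (nat_lit 349) (nat_lit 309) (nat_lit 122)) (XT.lf (nat_lit 0) (nat_lit 26063803455) (nat_lit 380) (nat_lit 6100337586) (nat_lit 456) (nat_lit 2881440536) (nat_lit 93) (nat_lit 5) (nat_lit 98) (nat_lit 5) (nat_lit 99) (nat_lit 5) (nat_lit 350) (nat_lit 309) (nat_lit 121)))))) (XT.nd (nat_lit 468) (nat_lit 988) (nat_lit 0) (XT.nd (nat_lit 234) (nat_lit 304) (nat_lit 0) (XT.nd (nat_lit 78) (nat_lit 380) (nat_lit 0) (XT.lf (nat_lit 0) (nat_lit 1609679412) (nat_lit 380) (nat_lit 28476236627) (nat_lit 76) (nat_lit 5635620432) (nat_lit 88) (nat_lit 5) (nat_lit 93) (nat_lit 5) (nat_lit 89) (nat_lit 5) (nat_lit 351) (nat_lit 309) (nat_lit 120)) (XT.nd (nat_lit 78) (nat_lit 380) (nat_lit 0) (XT.lf (nat_lit 0) (nat_lit 6326800933) (nat_lit 380) (nat_lit 12365154930) (nat_lit 76) (nat_lit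 17720486488) (nat_lit 88) (nat_lit 5) (nat_lit 93) (nat_lit 5) (nat_lit 89) (nat_lit 5) (nat_lit 352) (nat_lit 309) (nat_lit 119)) (XT.lf (nat_lit 0) (nat_lit 4309877768) (nat_lit 380) (nat_lit 6914255806) (nat_lit 456) (nat_lit 25898784480) (nat_lit 83) (nat_lit 5) (nat_lit 88) (nat_lit 5) (nat_lit 89) (nat_lit 5) (nat_lit 353) (nat_lit 309) (nat_lit 118)))) (XT.nd (nat_lit 78) (nat_lit 304) (nat_lit 0) (XT.lf (nat_lit 0) (nat_lit 16441940495) (nat_lit 456) (nat_lit 16167235452) (nat_lit 76) (nat_lit 5240328916) (nat_lit 83) (nat_lit 5) (nat_lit 89) (nat_lit 5) (nat_lit 84) (nat_lit 5) (nat_lit 354) (nat_lit 309) (nat_lit 117)) (XT.nd (nat_lit 78) (nat_lit 0) (nat_lit 0) (XT.lf (nat_lit 0) (nat_lit 924095425) (nat_lit 304) (nat_lit 20966912943) (nat_lit 380) (nat_lit 16704642469) (nat_lit 79) (nat_lit 5) (nat_lit 83) (nat_lit 5) (nat_lit 84) (nat_lit 5) (nat_lit 355) (nat_lit 309) (nat_lit 116))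 (XT.lf (nat_lit 0) (nat_lit 18856189706) (nat_lit 304) (nat_lit 8808045311) (nat_lit 380) (nat_lit 11695128839) (nat_lit 79) (nat_lit 5) (nat_lit 83) (nat_lit 5) (nat_lit 84) (nat_lit 5) (nat_lit 356) (nat_lit 309) (nat_lit 115))))) (XT.nd (nat_lit 234) (nat_lit 608) (nat_lit 0) (XT.nd (nat_lit 78) (nat_lit 380) (nat_lit 0) (XT.lf (nat_lit 0) (nat_lit 33643871571) (nat_lit 380) (nat_lit 2858818655) (nat_lit 76) (nat_lit 3642304817) (nat_lit 79) (nat_lit 5) (nat_lit 84) (nat_lit 5) (nat_lit 80) (nat_lit 5) (nat_lit 357) (nat_lit 309) (nat_lit 114)) (XT.nd (nat_lit 78) (nat_lit 76) (nat_lit 0) (XT.lf (nat_lit 0) (nat_lit 15527391661) (nat_lit 304) (nat_lit 24509542228) (nat_lit 380) (nat_lit 910243254) (nat_lit 75) (nat_lit 5) (nat_lit 79) (nat_lit 5) (nat_lit 80) (nat_lit 5) (nat_lit 358) (nat_lit 309) (nat_lit 113)) (XT.lf (nat_lit 0) (nat_lit 4780491270) (nat_lit 380) (nat_lit 7298940484) (nat_lit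 76) (nat_lit 29691795584) (nat_lit 74) (nat_lit 5) (nat_lit 79) (nat_lit 5) (nat_lit 75) (nat_lit 5) (nat_lit 359) (nat_lit 309) (nat_lit 112)))) (XT.nd (nat_lit 78) (nat_lit 304) (nat_lit 0) (XT.lf (nat_lit 0) (nat_lit 10740751793) (nat_lit 380) (nat_lit 31045316549) (nat_lit 76) (nat_lit 830150177) (nat_lit 70) (nat_lit 5) (nat_lit 75) (nat_lit 5) (nat_lit 71) (nat_lit 5) (nat_lit 360) (nat_lit 309) (nat_lit 111)) (XT.nd (nat_lit 78) (nat_lit 304) (nat_lit 0) (XT.lf (nat_lit 0) (nat_lit 17071536154) (nat_lit 380) (nat_lit 12451434429) (nat_lit 76) (nat_lit 13957840106) (nat_lit 70) (nat_lit 5) (nat_lit 75) (nat_lit 5) (nat_lit 71) (nat_lit 5) (nat_lit 361) (nat_lit 309) (nat_lit 110)) (XT.lf (nat_lit 0) (nat_lit 6830425225) (nat_lit 304) (nat_lit 16825227483) (nat_lit 380) (nat_lit 20713788312) (nat_lit 66) (nat_lit 5) (nat_lit 70) (nat_lit 5) (nat_lit 71) (nat_lit 5) (nat_lit 362) (nat_lit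 309) (nat_lit 109))))))) (XT.nd (nat_lit 936) (nat_lit 456) (nat_lit 0) (XT.nd (nat_lit 468) (nat_lit 760) (nat_lit 0) (XT.nd (nat_lit 234) (nat_lit 380) (nat_lit 0) (XT.nd (nat_lit 78) (nat_lit 228) (nat_lit 0) (XT.lf (nat_lit 0) (nat_lit 26942888379) (nat_lit 304) (nat_lit 3617925665) (nat_lit 380) (nat_lit 14720213158) (nat_lit 66) (nat_lit 5) (nat_lit 70) (nat_lit 5) (nat_lit 71) (nat_lit 5) (nat_lit 363) (nat_lit 309) (nat_lit 108)) (XT.nd (nat_lit 78) (nat_lit 0) (nat_lit 0) (XT.lf (nat_lit 0) (nat_lit 1366376617) (nat_lit 228) (nat_lit 36413718172) (nat_lit 304) (nat_lit 8436659746) (nat_lit 63) (nat_lit 5) (nat_lit 66) (nat_lit 5) (nat_lit 67) (nat_lit 5) (nat_lit 364) (nat_lit 309) (nat_lit 107)) (XT.lf (nat_lit 0) (nat_lit 21998374342) (nat_lit 228) (nat_lit 23436104874) (nat_lit 304) (nat_lit 1739521144) (nat_lit 63) (nat_lit 5) (nat_lit 66) (nat_lit 5) (nat_lit 67) (nat_lit 5) (nat_lit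 365) (nat_lit 309) (nat_lit 106)))) (XT.nd (nat_lit 78) (nat_lit 304) (nat_lit 0) (XT.lf (nat_lit 0) (nat_lit 5055785370) (nat_lit 304) (nat_lit 4963207051) (nat_lit 76) (nat_lit 38139548362) (nat_lit 62) (nat_lit 5) (nat_lit 66) (nat_lit 5) (nat_lit 63) (nat_lit 5) (nat_lit 366) (nat_lit 309) (nat_lit 105)) (XT.nd (nat_lit 78) (nat_lit 0) (nat_lit 0) (XT.lf (nat_lit 0) (nat_lit 12211447270) (nat_lit 380) (nat_lit 33055122691) (nat_lit 76) (nat_lit 3899789227) (nat_lit 58) (nat_lit 5) (nat_lit 63) (nat_lit 5) (nat_lit 59) (nat_lit 5) (nat_lit 367) (nat_lit 309) (nat_lit 104)) (XT.lf (nat_lit 0) (nat_lit 19729590733) (nat_lit 380) (nat_lit 12385875038) (nat_lit 76) (nat_lit 18084514183) (nat_lit 58) (nat_lit 5) (nat_lit 63) (nat_lit 5) (nat_lit 59) (nat_lit 5) (nat_lit 368) (nat_lit 309) (nat_lit 103))))) (XT.nd (nat_lit 234) (nat_lit 304) (nat_lit 0) (XT.nd (nat_lit 78) (nat_lit 228) (nat_lit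 0) (XT.lf (nat_lit 0) (nat_lit 9077748334) (nat_lit 228) (nat_lit 18480848198) (nat_lit 304) (nat_lit 23703455366) (nat_lit 55) (nat_lit 5) (nat_lit 58) (nat_lit 5) (nat_lit 59) (nat_lit 5) (nat_lit 369) (nat_lit 309) (nat_lit 102)) (XT.nd (nat_lit 78) (nat_lit 228) (nat_lit 0) (XT.lf (nat_lit 0) (nat_lit 31436365283) (nat_lit 228) (nat_lit 4309266980) (nat_lit 304) (nat_lit 16606660980) (nat_lit 55) (nat_lit 5) (nat_lit 58) (nat_lit 5) (nat_lit 59) (nat_lit 5) (nat_lit 370) (nat_lit 309) (nat_lit 101)) (XT.lf (nat_lit 0) (nat_lit 906518191) (nat_lit 228) (nat_lit 43377498290) (nat_lit 304) (nat_lit 9188055202) (nat_lit 52) (nat_lit 5) (nat_lit 55) (nat_lit 5) (nat_lit 56) (nat_lit 5) (nat_lit 371) (nat_lit 309) (nat_lit 100)))) (XT.nd (nat_lit 78) (nat_lit 304) (nat_lit 0) (XT.lf (nat_lit 0) (nat_lit 23766125083) (nat_lit 228) (nat_lit 29564046631) (nat_lit 304) (nat_lit 1287725095) (nat_lit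 52) (nat_lit 5) (nat_lit 55) (nat_lit 5) (nat_lit 56) (nat_lit 5) (nat_lit 372) (nat_lit 309) (nat_lit 99)) (XT.nd (nat_lit 78) (nat_lit 228) (nat_lit 0) (XT.lf (nat_lit 0) (nat_lit 6714150209) (nat_lit 304) (nat_lit 8555130226) (nat_lit 76) (nat_lit 40526896903) (nat_lit 51) (nat_lit 5) (nat_lit 55) (nat_lit 5) (nat_lit 52) (nat_lit 5) (nat_lit 373) (nat_lit 309) (nat_lit 98)) (XT.lf (nat_lit 0) (nat_lit 14681517994) (nat_lit 228) (nat_lit 388058011) (nat_lit 304) (nat_lit 41935668255) (nat_lit 48) (nat_lit 5) (nat_lit 51) (nat_lit 5) (nat_lit 52) (nat_lit 5) (nat_lit 374) (nat_lit 309) (nat_lit 97)))))) (XT.nd (nat_lit 35568) (nat_lit 0) (nat_lit 10488) (XT.nd (nat_lit 234) (nat_lit 228) (nat_lit 0) (XT.nd (nat_lit 78) (nat_lit 228) (nat_lit 0) (XT.lf (nat_lit 0) (nat_lit 23904784542) (nat_lit 304) (nat_lit 19604469243) (nat_lit 76) (nat_lit 14734457509) (nat_lit 48) (nat_lit 5) (nat_lit 52)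 (nat_lit 5) (nat_lit 49) (nat_lit 5) (nat_lit 375) (nat_lit 309) (nat_lit 96)) (XT.nd (nat_lit 78) (nat_lit 0) (nat_lit 0) (XT.lf (nat_lit 0) (nat_lit 3865376707) (nat_lit 228) (nat_lit 29178987650) (nat_lit 304) (nat_lit 26473790186) (nat_lit 45) (nat_lit 5) (nat_lit 48) (nat_lit 5) (nat_lit 49) (nat_lit 5) (nat_lit 376) (nat_lit 309) (nat_lit 95)) (XT.lf (nat_lit 0) (nat_lit 28438641626) (nat_lit 228) (nat_lit 14215797674) (nat_lit 304) (nat_lit 18170504165) (nat_lit 45) (nat_lit 5) (nat_lit 48) (nat_lit 5) (nat_lit 49) (nat_lit 5) (nat_lit 377) (nat_lit 309) (nat_lit 94)))) (XT.nd (nat_lit 78) (nat_lit 228) (nat_lit 0) (XT.lf (nat_lit 0) (nat_lit 52562696991) (nat_lit 304) (nat_lit 8435847163) (nat_lit 76) (nat_lit 1172097046) (nat_lit 45) (nat_lit 5) (nat_lit 49) (nat_lit 5) (nat_lit 46) (nat_lit 5) (nat_lit 378) (nat_lit 309) (nat_lit 93)) (XT.nd (nat_lit 78) (nat_lit 76) (nat_lit 0) (XT.lf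 (nat_lit 0) (nat_lit 16410148931) (nat_lit 152) (nat_lit 46654976544) (nat_lit 228) (nat_lit 482678214) (nat_lit 43) (nat_lit 5) (nat_lit 45) (nat_lit 5) (nat_lit 46) (nat_lit 5) (nat_lit 379) (nat_lit 309) (nat_lit 92)) (XT.lf (nat_lit 0) (nat_lit 8826818625) (nat_lit 228) (nat_lit 22878278281) (nat_lit 76) (nat_lit 33256080407) (nat_lit 42) (nat_lit 5) (nat_lit 45) (nat_lit 5) (nat_lit 43) (nat_lit 5) (nat_lit 380) (nat_lit 309) (nat_lit 91))))) (XT.nd (nat_lit 234) (nat_lit 0) (nat_lit 76) (XT.nd (nat_lit 78) (nat_lit 0) (nat_lit 0) (XT.lf (nat_lit 0) (nat_lit 8050353231) (nat_lit 1140) (nat_lit 503746287) (nat_lit 1140) (nat_lit 503746287) (nat_lit 180) (nat_lit 3) (nat_lit 195) (nat_lit 3) (nat_lit 195) (nat_lit 5) (nat_lit 310) (nat_lit 310) (nat_lit 160)) (XT.nd (nat_lit 78) (nat_lit 0) (nat_lit 0) (XT.lf (nat_lit 76) (nat_lit 7025912098) (nat_lit 0) (nat_lit 9569807577) (nat_lit 1140)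 (nat_lit 1783766482) (nat_lit 181) (nat_lit 5) (nat_lit 180) (nat_lit 3) (nat_lit 195) (nat_lit 5) (nat_lit 311) (nat_lit 310) (nat_lit 159)) (XT.lf (nat_lit 76) (nat_lit 15317152734) (nat_lit 0) (nat_lit 1791309836) (nat_lit 1140) (nat_lit 1542658689) (nat_lit 181) (nat_lit 5) (nat_lit 180) (nat_lit 3) (nat_lit 195) (nat_lit 5) (nat_lit 312) (nat_lit 310) (nat_lit 158)))) (XT.nd (nat_lit 78) (nat_lit 0) (nat_lit 0) (XT.lf (nat_lit 76) (nat_lit 4959236905) (nat_lit 0) (nat_lit 12777768213) (nat_lit 1140) (nat_lit 1190900499) (nat_lit 182) (nat_lit 5) (nat_lit 181) (nat_lit 5) (nat_lit 196) (nat_lit 5) (nat_lit 313) (nat_lit 310) (nat_lit 157)) (XT.nd (nat_lit 78) (nat_lit 0) (nat_lit 76) (XT.lf (nat_lit 76) (nat_lit 13547566567) (nat_lit 0) (nat_lit 4881183850) (nat_lit 1140) (nat_lit 782925047) (nat_lit 182) (nat_lit 5) (nat_lit 181) (nat_lit 5) (nat_lit 196) (nat_lit 5) (nat_lit 314) (nat_lit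 310) (nat_lit 156)) (XT.lf (nat_lit 76) (nat_lit 2911078291) (nat_lit 0) (nat_lit 16282762021) (nat_lit 1140) (nat_lit 308552317) (nat_lit 183) (nat_lit 5) (nat_lit 182) (nat_lit 5) (nat_lit 197) (nat_lit 5) (nat_lit 315) (nat_lit 310) (nat_lit 155))))))))
noncomputable def xc221 : XT := (XT.nd (nat_lit 1872) (nat_lit 4180) (nat_lit 0) (XT.nd (nat_lit 936) (nat_lit 3496) (nat_lit 0) (XT.nd (nat_lit 468) (nat_lit 0) (nat_lit 228) (XT.nd (nat_lit 234) (nat_lit 0) (nat_lit 76) (XT.nd (nat_lit 78) (nat_lit 0) (nat_lit 0) (XT.lf (nat_lit 0) (nat_lit 276054958) (nat_lit 1140) (nat_lit 7995265650) (nat_lit 1216) (nat_lit 11527484576) (nat_lit 167) (nat_lit 5) (nat_lit 182) (nat_lit 5) (nat_lit 183) (nat_lit 5) (nat_lit 316) (nat_lit 310) (nat_lit 154)) (XT.nd (nat_lit 78) (nat_lit 0) (nat_lit 76) (XT.lf (nat_lit 76) (nat_lit 868524174) (nat_lit 0) (nat_lit 5440528) (nat_lit 1216) (nat_lit 19230005764)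 (nat_lit 168) (nat_lit 5) (nat_lit 167) (nat_lit 5) (nat_lit 183) (nat_lit 5) (nat_lit 317) (nat_lit 310) (nat_lit 153)) (XT.lf (nat_lit 0) (nat_lit 1646921843) (nat_lit 1140) (nat_lit 10340546389) (nat_lit 1216) (nat_lit 8426119826) (nat_lit 168) (nat_lit 5) (nat_lit 183) (nat_lit 5) (nat_lit 184) (nat_lit 5) (nat_lit 318) (nat_lit 310) (nat_lit 152)))) (XT.nd (nat_lit 78) (nat_lit 0) (nat_lit 76) (XT.lf (nat_lit 0) (nat_lit 2437088678) (nat_lit 1140) (nat_lit 1182943750) (nat_lit 1216) (nat_lit 17112651465) (nat_lit 168) (nat_lit 5) (nat_lit 183) (nat_lit 5) (nat_lit 184) (nat_lit 5) (nat_lit 319) (nat_lit 310) (nat_lit 151)) (XT.nd (nat_lit 78) (nat_lit 0) (nat_lit 0) (XT.lf (nat_lit 0) (nat_lit 3374807187) (nat_lit 1140) (nat_lit 12698464019) (nat_lit 1216) (nat_lit 4984376038) (nat_lit 169) (nat_lit 5) (nat_lit 184) (nat_lit 5) (nat_lit 185) (nat_lit 5) (nat_lit 320) (nat_lit 310) (nat_lit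 150)) (XT.lf (nat_lit 0) (nat_lit 4382855693) (nat_lit 1140) (nat_lit 3220269144) (nat_lit 1216) (nat_lit 13787978456) (nat_lit 169) (nat_lit 5) (nat_lit 184) (nat_lit 5) (nat_lit 185) (nat_lit 5) (nat_lit 321) (nat_lit 310) (nat_lit 149))))) (XT.nd (nat_lit 234) (nat_lit 0) (nat_lit 76) (XT.nd (nat_lit 78) (nat_lit 0) (nat_lit 0) (XT.lf (nat_lit 0) (nat_lit 5491131648) (nat_lit 1140) (nat_lit 15075856941) (nat_lit 1216) (nat_lit 1165484322) (nat_lit 170) (nat_lit 5) (nat_lit 185) (nat_lit 5) (nat_lit 186) (nat_lit 5) (nat_lit 322) (nat_lit 310) (nat_lit 148)) (XT.nd (nat_lit 78) (nat_lit 0) (nat_lit 0) (XT.lf (nat_lit 0) (nat_lit 6735370907) (nat_lit 1140) (nat_lit 5267045507) (nat_lit 1216) (nat_lit 10078594942) (nat_lit 170) (nat_lit 5) (nat_lit 185) (nat_lit 5) (nat_lit 186) (nat_lit 5) (nat_lit 323) (nat_lit 310) (nat_lit 147)) (XT.lf (nat_lit 76) (nat_lit 4928160494) (nat_lit 0) (nat_lit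 3130902928) (nat_lit 1216) (nat_lit 14379687673) (nat_lit 171) (nat_lit 5) (nat_lit 170) (nat_lit 5) (nat_lit 186) (nat_lit 5) (nat_lit 324) (nat_lit 310) (nat_lit 146)))) (XT.nd (nat_lit 78) (nat_lit 0) (nat_lit 0) (XT.lf (nat_lit 0) (nat_lit 9528799658) (nat_lit 1140) (nat_lit 7330872600) (nat_lit 1216) (nat_lit 5944369444) (nat_lit 171) (nat_lit 5) (nat_lit 186) (nat_lit 5) (nat_lit 187) (nat_lit 5) (nat_lit 325) (nat_lit 310) (nat_lit 145)) (XT.nd (nat_lit 78) (nat_lit 0) (nat_lit 76) (XT.lf (nat_lit 76) (nat_lit 3181267433) (nat_lit 0) (nat_lit 7917967927) (nat_lit 1216) (nat_lit 12079365856) (nat_lit 172) (nat_lit 5) (nat_lit 171) (nat_lit 5) (nat_lit 187) (nat_lit 5) (nat_lit 326) (nat_lit 310) (nat_lit 144)) (XT.lf (nat_lit 0) (nat_lit 12799106462) (nat_lit 1140) (nat_lit 9420452779) (nat_lit 76) (nat_lit 1342376770) (nat_lit 172) (nat_lit 5) (nat_lit 187) (nat_lit 5) (nat_lit 173) (nat_lit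 5) (nat_lit 327) (nat_lit 310) (nat_lit 143)))))) (XT.nd (nat_lit 468) (nat_lit 1596) (nat_lit 0) (XT.nd (nat_lit 234) (nat_lit 1140) (nat_lit 0) (XT.nd (nat_lit 78) (nat_lit 0) (nat_lit 0) (XT.lf (nat_lit 0) (nat_lit 1418978670) (nat_lit 1140) (nat_lit 13218314888) (nat_lit 1216) (nat_lit 9316865623) (nat_lit 157) (nat_lit 5) (nat_lit 172) (nat_lit 5) (nat_lit 173) (nat_lit 5) (nat_lit 328) (nat_lit 310) (nat_lit 142)) (XT.nd (nat_lit 78) (nat_lit 0) (nat_lit 0) (XT.lf (nat_lit 0) (nat_lit 12772693166) (nat_lit 1140) (nat_lit 3848444064) (nat_lit 1216) (nat_lit 7734304186) (nat_lit 157) (nat_lit 5) (nat_lit 172) (nat_lit 5) (nat_lit 173) (nat_lit 5) (nat_lit 329) (nat_lit 310) (nat_lit 141)) (XT.lf (nat_lit 0) (nat_lit 18715796618) (nat_lit 1216) (nat_lit 361561191) (nat_lit 76) (nat_lit 5689872769) (nat_lit 157) (nat_lit 5) (nat_lit 173) (nat_lit 5) (nat_lit 158) (nat_lit 5) (nat_lit 330) (nat_lit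 310) (nat_lit 140)))) (XT.nd (nat_lit 78) (nat_lit 608) (nat_lit 0) (XT.lf (nat_lit 0) (nat_lit 11376226144) (nat_lit 532) (nat_lit 9640181699) (nat_lit 608) (nat_lit 4170679464) (nat_lit 150) (nat_lit 5) (nat_lit 157) (nat_lit 5) (nat_lit 158) (nat_lit 5) (nat_lit 331) (nat_lit 310) (nat_lit 139)) (XT.nd (nat_lit 78) (nat_lit 608) (nat_lit 0) (XT.lf (nat_lit 0) (nat_lit 23386240924) (nat_lit 608) (nat_lit 2150700633) (nat_lit 76) (nat_lit 82599120) (nat_lit 150) (nat_lit 5) (nat_lit 158) (nat_lit 5) (nat_lit 151) (nat_lit 5) (nat_lit 332) (nat_lit 310) (nat_lit 138)) (XT.lf (nat_lit 0) (nat_lit 9954152958) (nat_lit 608) (nat_lit 16060018931) (nat_lit 684) (nat_lit 45192511) (nat_lit 142) (nat_lit 5) (nat_lit 150) (nat_lit 5) (nat_lit 151) (nat_lit 5) (nat_lit 333) (nat_lit 310) (nat_lit 137))))) (XT.nd (nat_lit 234) (nat_lit 988) (nat_lit 0) (XT.nd (nat_lit 78) (nat_lit 532) (nat_lit 0) (XT.lf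 (nat_lit 0) (nat_lit 2183300591) (nat_lit 684) (nat_lit 4070892333) (nat_lit 76) (nat_lit 20257024269) (nat_lit 141) (nat_lit 5) (nat_lit 150) (nat_lit 5) (nat_lit 142) (nat_lit 5) (nat_lit 334) (nat_lit 310) (nat_lit 136)) (XT.nd (nat_lit 78) (nat_lit 0) (nat_lit 0) (XT.lf (nat_lit 0) (nat_lit 4593117943) (nat_lit 608) (nat_lit 18526315755) (nat_lit 76) (nat_lit 3853723373) (nat_lit 134) (nat_lit 5) (nat_lit 142) (nat_lit 5) (nat_lit 135) (nat_lit 5) (nat_lit 335) (nat_lit 310) (nat_lit 135)) (XT.lf (nat_lit 0) (nat_lit 7174773544) (nat_lit 608) (nat_lit 6090421703) (nat_lit 76) (nat_lit 14180779664) (nat_lit 134) (nat_lit 5) (nat_lit 142) (nat_lit 5) (nat_lit 135) (nat_lit 5) (nat_lit 336) (nat_lit 310) (nat_lit 134)))) (XT.nd (nat_lit 78) (nat_lit 456) (nat_lit 0) (XT.lf (nat_lit 0) (nat_lit 6848373603) (nat_lit 532) (nat_lit 3047555368) (nat_lit 608) (nat_lit 18035192709) (nat_lit 127) (nat_lit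 5) (nat_lit 134) (nat_lit 5) (nat_lit 135) (nat_lit 5) (nat_lit 337) (nat_lit 310) (nat_lit 133)) (XT.nd (nat_lit 78) (nat_lit 456) (nat_lit 0) (XT.lf (nat_lit 0) (nat_lit 12828991667) (nat_lit 608) (nat_lit 8205166988) (nat_lit 76) (nat_lit 7392761745) (nat_lit 127) (nat_lit 5) (nat_lit 135) (nat_lit 5) (nat_lit 128) (nat_lit 5) (nat_lit 338) (nat_lit 310) (nat_lit 132)) (XT.lf (nat_lit 0) (nat_lit 5124793313) (nat_lit 456) (nat_lit 10801089958) (nat_lit 532) (nat_lit 13009440261) (nat_lit 121) (nat_lit 5) (nat_lit 127) (nat_lit 5) (nat_lit 128) (nat_lit 5) (nat_lit 339) (nat_lit 310) (nat_lit 131))))))) (XT.nd (nat_lit 936) (nat_lit 2052) (nat_lit 0) (XT.nd (nat_lit 468) (nat_lit 1216) (nat_lit 0) (XT.nd (nat_lit 234) (nat_lit 456) (nat_lit 0) (XT.nd (nat_lit 78) (nat_lit 456) (nat_lit 0) (XT.lf (nat_lit 0) (nat_lit 19019109756) (nat_lit 456) (nat_lit 175897410) (nat_lit 532) (nat_lit 10261597224)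 (nat_lit 121) (nat_lit 5) (nat_lit 127) (nat_lit 5) (nat_lit 128) (nat_lit 5) (nat_lit 340) (nat_lit 310) (nat_lit 130)) (XT.nd (nat_lit 78) (nat_lit 0) (nat_lit 0) (XT.lf (nat_lit 0) (nat_lit 3293758301) (nat_lit 456) (nat_lit 19400187507) (nat_lit 532) (nat_lit 7295630877) (nat_lit 115) (nat_lit 5) (nat_lit 121) (nat_lit 5) (nat_lit 122) (nat_lit 5) (nat_lit 341) (nat_lit 310) (nat_lit 129)) (XT.lf (nat_lit 0) (nat_lit 17645429946) (nat_lit 456) (nat_lit 8756180010) (nat_lit 532) (nat_lit 4133820559) (nat_lit 115) (nat_lit 5) (nat_lit 121) (nat_lit 5) (nat_lit 122) (nat_lit 5) (nat_lit 342) (nat_lit 310) (nat_lit 128)))) (XT.nd (nat_lit 78) (nat_lit 76) (nat_lit 0) (XT.lf (nat_lit 0) (nat_lit 1331055923) (nat_lit 380) (nat_lit 28920189006) (nat_lit 456) (nat_lit 845497746) (nat_lit 110) (nat_lit 5) (nat_lit 115) (nat_lit 5) (nat_lit 116) (nat_lit 5) (nat_lit 343) (nat_lit 310) (nat_lit 127))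 (XT.nd (nat_lit 78) (nat_lit 0) (nat_lit 0) (XT.lf (nat_lit 0) (nat_lit 2706781893) (nat_lit 456) (nat_lit 15544152780) (nat_lit 76) (nat_lit 13416784262) (nat_lit 109) (nat_lit 5) (nat_lit 115) (nat_lit 5) (nat_lit 110) (nat_lit 5) (nat_lit 344) (nat_lit 310) (nat_lit 126)) (XT.lf (nat_lit 0) (nat_lit 6345483961) (nat_lit 456) (nat_lit 907961690) (nat_lit 76) (nat_lit 25002226785) (nat_lit 109) (nat_lit 5) (nat_lit 115) (nat_lit 5) (nat_lit 110) (nat_lit 5) (nat_lit 345) (nat_lit 310) (nat_lit 125))))) (XT.nd (nat_lit 234) (nat_lit 380) (nat_lit 0) (XT.nd (nat_lit 78) (nat_lit 380) (nat_lit 0) (XT.lf (nat_lit 0) (nat_lit 10269679412) (nat_lit 532) (nat_lit 18452036599) (nat_lit 76) (nat_lit 4134262950) (nat_lit 103) (nat_lit 5) (nat_lit 110) (nat_lit 5) (nat_lit 104) (nat_lit 5) (nat_lit 346) (nat_lit 310) (nat_lit 124)) (XT.nd (nat_lit 78) (nat_lit 380) (nat_lit 0) (XT.lf (nat_lit 0) (nat_lit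 14389667114) (nat_lit 532) (nat_lit 3355678525) (nat_lit 76) (nat_lit 15726611313) (nat_lit 103) (nat_lit 5) (nat_lit 110) (nat_lit 5) (nat_lit 104) (nat_lit 5) (nat_lit 347) (nat_lit 310) (nat_lit 123)) (XT.lf (nat_lit 0) (nat_lit 12432713533) (nat_lit 380) (nat_lit 6317130093) (nat_lit 456) (nat_lit 15353077119) (nat_lit 98) (nat_lit 5) (nat_lit 103) (nat_lit 5) (nat_lit 104) (nat_lit 5) (nat_lit 348) (nat_lit 310) (nat_lit 122)))) (XT.nd (nat_lit 78) (nat_lit 380) (nat_lit 0) (XT.lf (nat_lit 0) (nat_lit 23324598314) (nat_lit 456) (nat_lit 6044527975) (nat_lit 76) (nat_lit 5381177993) (nat_lit 98) (nat_lit 5) (nat_lit 104) (nat_lit 5) (nat_lit 99) (nat_lit 5) (nat_lit 349) (nat_lit 310) (nat_lit 121)) (XT.nd (nat_lit 78) (nat_lit 0) (nat_lit 0) (XT.lf (nat_lit 0) (nat_lit 10182664075) (nat_lit 380) (nat_lit 18011568214) (nat_lit 456) (nat_lit 7218151836) (nat_lit 93) (nat_lit 5) (nat_lit 98)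 (nat_lit 5) (nat_lit 99) (nat_lit 5) (nat_lit 350) (nat_lit 310) (nat_lit 120)) (XT.lf (nat_lit 0) (nat_lit 27017200066) (nat_lit 380) (nat_lit 6251050727) (nat_lit 456) (nat_lit 2824330493) (nat_lit 93) (nat_lit 5) (nat_lit 98) (nat_lit 5) (nat_lit 99) (nat_lit 5) (nat_lit 351) (nat_lit 310) (nat_lit 119)))))) (XT.nd (nat_lit 468) (nat_lit 988) (nat_lit 0) (XT.nd (nat_lit 234) (nat_lit 304) (nat_lit 0) (XT.nd (nat_lit 78) (nat_lit 380) (nat_lit 0) (XT.lf (nat_lit 0) (nat_lit 1796614036) (nat_lit 380) (nat_lit 29153764482) (nat_lit 76) (nat_lit 5838463578) (nat_lit 88) (nat_lit 5) (nat_lit 93) (nat_lit 5) (nat_lit 89) (nat_lit 5) (nat_lit 352) (nat_lit 310) (nat_lit 118)) (XT.nd (nat_lit 78) (nat_lit 380) (nat_lit 0) (XT.lf (nat_lit 0) (nat_lit 6651211021) (nat_lit 380) (nat_lit 12564498662) (nat_lit 76) (nat_lit 18284891892) (nat_lit 88) (nat_lit 5) (nat_lit 93) (nat_lit 5) (nat_lit 89) (nat_lit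 5) (nat_lit 353) (nat_lit 310) (nat_lit 117)) (XT.lf (nat_lit 0) (nat_lit 4609102557) (nat_lit 380) (nat_lit 7084073975) (nat_lit 456) (nat_lit 26539288752) (nat_lit 83) (nat_lit 5) (nat_lit 88) (nat_lit 5) (nat_lit 89) (nat_lit 5) (nat_lit 354) (nat_lit 310) (nat_lit 116)))) (XT.nd (nat_lit 78) (nat_lit 304) (nat_lit 0) (XT.lf (nat_lit 0) (nat_lit 17064014706) (nat_lit 456) (nat_lit 16483604708) (nat_lit 76) (nat_lit 5433340344) (nat_lit 83) (nat_lit 5) (nat_lit 89) (nat_lit 5) (nat_lit 84) (nat_lit 5) (nat_lit 355) (nat_lit 310) (nat_lit 115)) (XT.nd (nat_lit 78) (nat_lit 0) (nat_lit 0) (XT.lf (nat_lit 0) (nat_lit 1118812685) (nat_lit 304) (nat_lit 21555595261) (nat_lit 380) (nat_lit 17075151395) (nat_lit 79) (nat_lit 5) (nat_lit 83) (nat_lit 5) (nat_lit 84) (nat_lit 5) (nat_lit 356) (nat_lit 310) (nat_lit 114)) (XT.lf (nat_lit 0) (nat_lit 19584005880) (nat_lit 304) (nat_lit 9033136116) (nat_lit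 380) (nat_lit 11919157123) (nat_lit 79) (nat_lit 5) (nat_lit 83) (nat_lit 5) (nat_lit 84) (nat_lit 5) (nat_lit 357) (nat_lit 310) (nat_lit 113))))) (XT.nd (nat_lit 234) (nat_lit 608) (nat_lit 0) (XT.nd (nat_lit 78) (nat_lit 380) (nat_lit 0) (XT.lf (nat_lit 0) (nat_lit 34772951085) (nat_lit 380) (nat_lit 2783806713) (nat_lit 76) (nat_lit 3788842491) (nat_lit 79) (nat_lit 5) (nat_lit 84) (nat_lit 5) (nat_lit 80) (nat_lit 5) (nat_lit 358) (nat_lit 310) (nat_lit 112)) (XT.nd (nat_lit 78) (nat_lit 76) (nat_lit 0) (XT.lf (nat_lit 0) (nat_lit 16152413672) (nat_lit 304) (nat_lit 25203433678) (nat_lit 380) (nat_lit 816063660) (nat_lit 75) (nat_lit 5) (nat_lit 79) (nat_lit 5) (nat_lit 80) (nat_lit 5) (nat_lit 359) (nat_lit 310) (nat_lit 111)) (XT.lf (nat_lit 0) (nat_lit 5039552848) (nat_lit 380) (nat_lit 7360904910) (nat_lit 76) (nat_lit 30620298166) (nat_lit 74) (nat_lit 5) (nat_lit 79) (nat_lit 5) (nat_lit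 75) (nat_lit 5) (nat_lit 360) (nat_lit 310) (nat_lit 110)))) (XT.nd (nat_lit 78) (nat_lit 304) (nat_lit 0) (XT.lf (nat_lit 0) (nat_lit 11177148017) (nat_lit 380) (nat_lit 31818064302) (nat_lit 76) (nat_lit 895932759) (nat_lit 70) (nat_lit 5) (nat_lit 75) (nat_lit 5) (nat_lit 71) (nat_lit 5) (nat_lit 361) (nat_lit 310) (nat_lit 109)) (XT.nd (nat_lit 78) (nat_lit 304) (nat_lit 0) (XT.lf (nat_lit 0) (nat_lit 17694530463) (nat_lit 380) (nat_lit 12670985478) (nat_lit 76) (nat_lit 14416262762) (nat_lit 70) (nat_lit 5) (nat_lit 75) (nat_lit 5) (nat_lit 71) (nat_lit 5) (nat_lit 362) (nat_lit 310) (nat_lit 108)) (XT.lf (nat_lit 0) (nat_lit 7187820240) (nat_lit 304) (nat_lit 17286587437) (nat_lit 380) (nat_lit 21222716964) (nat_lit 66) (nat_lit 5) (nat_lit 70) (nat_lit 5) (nat_lit 71) (nat_lit 5) (nat_lit 363) (nat_lit 310) (nat_lit 107))))))))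
noncomputable def xc222 : XT := (XT.nd (nat_lit 36972) (nat_lit 0) (nat_lit 5928) (XT.nd (nat_lit 858) (nat_lit 608) (nat_lit 0) (XT.nd (nat_lit 390) (nat_lit 532) (nat_lit 0) (XT.nd (nat_lit 156) (nat_lit 380) (nat_lit 0) (XT.nd (nat_lit 78) (nat_lit 228) (nat_lit 0) (XT.lf (nat_lit 0) (nat_lit 27899216058) (nat_lit 304) (nat_lit 3684330550) (nat_lit 380) (nat_lit 15052610817) (nat_lit 66) (nat_lit 5) (nat_lit 70) (nat_lit 5) (nat_lit 71) (nat_lit 5) (nat_lit 364) (nat_lit 310) (nat_lit 106)) (XT.lf (nat_lit 0) (nat_lit 1556824758) (nat_lit 228) (nat_lit 37461326196) (nat_lit 304) (nat_lit 8581846862) (nat_lit 63) (nat_lit 5) (nat_lit 66) (nat_lit 5) (nat_lit 67) (nat_lit 5) (nat_lit 365) (nat_lit 310) (nat_lit 105))) (XT.nd (nat_lit 78) (nat_lit 380) (nat_lit 0) (XT.lf (nat_lit 0) (nat_lit 22803429303) (nat_lit 228) (nat_lit 24095689456) (nat_lit 304) (nat_lit 1686937189) (nat_lit 63) (nat_lit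 5) (nat_lit 66) (nat_lit 5) (nat_lit 67) (nat_lit 5) (nat_lit 366) (nat_lit 310) (nat_lit 104)) (XT.nd (nat_lit 78) (nat_lit 304) (nat_lit 0) (XT.lf (nat_lit 0) (nat_lit 5307192094) (nat_lit 304) (nat_lit 4969131375) (nat_lit 76) (nat_lit 39323871949) (nat_lit 62) (nat_lit 5) (nat_lit 66) (nat_lit 5) (nat_lit 63) (nat_lit 5) (nat_lit 367) (nat_lit 310) (nat_lit 103)) (XT.lf (nat_lit 0) (nat_lit 12676396866) (nat_lit 380) (nat_lit 33902571098) (nat_lit 76) (nat_lit 4059317414) (nat_lit 58) (nat_lit 5) (nat_lit 63) (nat_lit 5) (nat_lit 59) (nat_lit 5) (nat_lit 368) (nat_lit 310) (nat_lit 102))))) (XT.nd (nat_lit 234) (nat_lit 304) (nat_lit 0) (XT.nd (nat_lit 78) (nat_lit 228) (nat_lit 0) (XT.lf (nat_lit 0) (nat_lit 20417212608) (nat_lit 380) (nat_lit 12617446169) (nat_lit 76) (nat_lit 18668345250) (nat_lit 58) (nat_lit 5) (nat_lit 63) (nat_lit 5) (nat_lit 59) (nat_lit 5) (nat_lit 369) (nat_lit 310)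 (nat_lit 101)) (XT.nd (nat_lit 78) (nat_lit 0) (nat_lit 0) (XT.lf (nat_lit 0) (nat_lit 9488713305) (nat_lit 228) (nat_lit 18990919523) (nat_lit 304) (nat_lit 24317351982) (nat_lit 55) (nat_lit 5) (nat_lit 58) (nat_lit 5) (nat_lit 59) (nat_lit 5) (nat_lit 370) (nat_lit 310) (nat_lit 100)) (XT.lf (nat_lit 0) (nat_lit 32514050922) (nat_lit 228) (nat_lit 4395482736) (nat_lit 304) (nat_lit 17010485038) (nat_lit 55) (nat_lit 5) (nat_lit 58) (nat_lit 5) (nat_lit 59) (nat_lit 5) (nat_lit 371) (nat_lit 310) (nat_lit 99)))) (XT.nd (nat_lit 78) (nat_lit 76) (nat_lit 0) (XT.lf (nat_lit 0) (nat_lit 1069394449) (nat_lit 228) (nat_lit 44633715091) (nat_lit 304) (nat_lit 9370312581) (nat_lit 52) (nat_lit 5) (nat_lit 55) (nat_lit 5) (nat_lit 56) (nat_lit 5) (nat_lit 372) (nat_lit 310) (nat_lit 98)) (XT.nd (nat_lit 78) (nat_lit 76) (nat_lit 0) (XT.lf (nat_lit 0) (nat_lit 24610837682) (nat_lit 228) (nat_lit 30407173712)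 (nat_lit 304) (nat_lit 1235692501) (nat_lit 52) (nat_lit 5) (nat_lit 55) (nat_lit 5) (nat_lit 56) (nat_lit 5) (nat_lit 373) (nat_lit 310) (nat_lit 97)) (XT.lf (nat_lit 0) (nat_lit 7001880695) (nat_lit 304) (nat_lit 8682087877) (nat_lit 76) (nat_lit 41783418393) (nat_lit 51) (nat_lit 5) (nat_lit 55) (nat_lit 5) (nat_lit 52) (nat_lit 5) (nat_lit 374) (nat_lit 310) (nat_lit 96)))))) (XT.nd (nat_lit 35646) (nat_lit 0) (nat_lit 9424) (XT.nd (nat_lit 234) (nat_lit 152) (nat_lit 0) (XT.nd (nat_lit 78) (nat_lit 228) (nat_lit 0) (XT.lf (nat_lit 0) (nat_lit 15250388258) (nat_lit 228) (nat_lit 356301737) (nat_lit 304) (nat_lit 43106076797) (nat_lit 48) (nat_lit 5) (nat_lit 51) (nat_lit 5) (nat_lit 52) (nat_lit 5) (nat_lit 375) (nat_lit 310) (nat_lit 95)) (XT.nd (nat_lit 78) (nat_lit 228) (nat_lit 0) (XT.lf (nat_lit 0) (nat_lit 24704883300) (nat_lit 304) (nat_lit 20065766086) (nat_lit 76) (nat_lit 15217803042)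 (nat_lit 48) (nat_lit 5) (nat_lit 52) (nat_lit 5) (nat_lit 49) (nat_lit 5) (nat_lit 376) (nat_lit 310) (nat_lit 94)) (XT.lf (nat_lit 0) (nat_lit 4106931740) (nat_lit 228) (nat_lit 30010509882) (nat_lit 304) (nat_lit 27183725995) (nat_lit 45) (nat_lit 5) (nat_lit 48) (nat_lit 5) (nat_lit 49) (nat_lit 5) (nat_lit 377) (nat_lit 310) (nat_lit 93)))) (XT.nd (nat_lit 78) (nat_lit 152) (nat_lit 0) (XT.lf (nat_lit 0) (nat_lit 29413736537) (nat_lit 228) (nat_lit 14599701315) (nat_lit 304) (nat_lit 18633796090) (nat_lit 45) (nat_lit 5) (nat_lit 48) (nat_lit 5) (nat_lit 49) (nat_lit 5) (nat_lit 378) (nat_lit 310) (nat_lit 92)) (XT.nd (nat_lit 78) (nat_lit 152) (nat_lit 0) (XT.lf (nat_lit 0) (nat_lit 54217028953) (nat_lit 304) (nat_lit 8568549492) (nat_lit 76) (nat_lit 1247783831) (nat_lit 45) (nat_lit 5) (nat_lit 49) (nat_lit 5) (nat_lit 46) (nat_lit 5) (nat_lit 379) (nat_lit 310) (nat_lit 91)) (XT.lf (nat_lit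 0) (nat_lit 17021646357) (nat_lit 152) (nat_lit 48011773836) (nat_lit 228) (nat_lit 418454925) (nat_lit 43) (nat_lit 5) (nat_lit 45) (nat_lit 5) (nat_lit 46) (nat_lit 5) (nat_lit 380) (nat_lit 310) (nat_lit 90))))) (XT.nd (nat_lit 234) (nat_lit 988) (nat_lit 0) (XT.nd (nat_lit 78) (nat_lit 0) (nat_lit 0) (XT.lf (nat_lit 0) (nat_lit 8476041467) (nat_lit 1140) (nat_lit 423840929) (nat_lit 1140) (nat_lit 423840929) (nat_lit 180) (nat_lit 3) (nat_lit 195) (nat_lit 3) (nat_lit 195) (nat_lit 5) (nat_lit 311) (nat_lit 311) (nat_lit 158)) (XT.nd (nat_lit 78) (nat_lit 0) (nat_lit 0) (XT.lf (nat_lit 76) (nat_lit 7424861861) (nat_lit 0) (nat_lit 10028164715) (nat_lit 1140) (nat_lit 1466415425) (nat_lit 181) (nat_lit 5) (nat_lit 180) (nat_lit 3) (nat_lit 195) (nat_lit 5) (nat_lit 312) (nat_lit 311) (nat_lit 157)) (XT.lf (nat_lit 76) (nat_lit 15959358967) (nat_lit 0) (nat_lit 2011323802) (nat_lit 1140) (nat_lit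 1228876264) (nat_lit 181) (nat_lit 5) (nat_lit 180) (nat_lit 3) (nat_lit 195) (nat_lit 5) (nat_lit 313) (nat_lit 311) (nat_lit 156)))) (XT.nd (nat_lit 78) (nat_lit 1064) (nat_lit 0) (XT.lf (nat_lit 76) (nat_lit 5301484314) (nat_lit 0) (nat_lit 13306741186) (nat_lit 1140) (nat_lit 876735363) (nat_lit 182) (nat_lit 5) (nat_lit 181) (nat_lit 5) (nat_lit 196) (nat_lit 5) (nat_lit 314) (nat_lit 311) (nat_lit 155)) (XT.nd (nat_lit 78) (nat_lit 1064) (nat_lit 0) (XT.lf (nat_lit 76) (nat_lit 14141828808) (nat_lit 0) (nat_lit 5169017352) (nat_lit 1140) (nat_lit 466711681) (nat_lit 182) (nat_lit 5) (nat_lit 181) (nat_lit 5) (nat_lit 196) (nat_lit 5) (nat_lit 315) (nat_lit 311) (nat_lit 154)) (XT.lf (nat_lit 0) (nat_lit 12350494) (nat_lit 1140) (nat_lit 16881289569) (nat_lit 1216) (nat_lit 3183640291) (nat_lit 167) (nat_lit 5) (nat_lit 182) (nat_lit 5) (nat_lit 183) (nat_lit 5) (nat_lit 316) (nat_lit 311)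 (nat_lit 153))))))) (XT.nd (nat_lit 936) (nat_lit 3496) (nat_lit 0) (XT.nd (nat_lit 468) (nat_lit 0) (nat_lit 228) (XT.nd (nat_lit 234) (nat_lit 0) (nat_lit 76) (XT.nd (nat_lit 78) (nat_lit 0) (nat_lit 0) (XT.lf (nat_lit 0) (nat_lit 598858729) (nat_lit 1140) (nat_lit 8036376798) (nat_lit 1216) (nat_lit 11747557402) (nat_lit 167) (nat_lit 5) (nat_lit 182) (nat_lit 5) (nat_lit 183) (nat_lit 5) (nat_lit 317) (nat_lit 311) (nat_lit 152)) (XT.nd (nat_lit 78) (nat_lit 0) (nat_lit 76) (XT.lf (nat_lit 76) (nat_lit 1091378222) (nat_lit 0) (nat_lit 116058450) (nat_lit 1216) (nat_lit 19489910320) (nat_lit 168) (nat_lit 5) (nat_lit 167) (nat_lit 5) (nat_lit 183) (nat_lit 5) (nat_lit 318) (nat_lit 311) (nat_lit 151)) (XT.lf (nat_lit 0) (nat_lit 1993602577) (nat_lit 1140) (nat_lit 10449206791) (nat_lit 1216) (nat_lit 8573758434) (nat_lit 168) (nat_lit 5) (nat_lit 183) (nat_lit 5) (nat_lit 184) (nat_lit 5) (nat_lit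 319) (nat_lit 311) (nat_lit 150)))) (XT.nd (nat_lit 78) (nat_lit 0) (nat_lit 76) (XT.lf (nat_lit 0) (nat_lit 2798815977) (nat_lit 1140) (nat_lit 1022746635) (nat_lit 1216) (nat_lit 17523948497) (nat_lit 168) (nat_lit 5) (nat_lit 183) (nat_lit 5) (nat_lit 184) (nat_lit 5) (nat_lit 320) (nat_lit 311) (nat_lit 149)) (XT.nd (nat_lit 78) (nat_lit 0) (nat_lit 0) (XT.lf (nat_lit 0) (nat_lit 3757273564) (nat_lit 1140) (nat_lit 12875859587) (nat_lit 1216) (nat_lit 5047326398) (nat_lit 169) (nat_lit 5) (nat_lit 184) (nat_lit 5) (nat_lit 185) (nat_lit 5) (nat_lit 321) (nat_lit 311) (nat_lit 148)) (XT.lf (nat_lit 0) (nat_lit 4787372588) (nat_lit 1140) (nat_lit 3119247750) (nat_lit 1216) (nat_lit 14117558663) (nat_lit 169) (nat_lit 5) (nat_lit 184) (nat_lit 5) (nat_lit 185) (nat_lit 5) (nat_lit 322) (nat_lit 311) (nat_lit 147))))) (XT.nd (nat_lit 234) (nat_lit 0) (nat_lit 76) (XT.nd (nat_lit 78) (nat_lit 0)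 (nat_lit 0) (XT.lf (nat_lit 0) (nat_lit 5922140494) (nat_lit 1140) (nat_lit 15323293986) (nat_lit 1216) (nat_lit 1130571504) (nat_lit 170) (nat_lit 5) (nat_lit 185) (nat_lit 5) (nat_lit 186) (nat_lit 5) (nat_lit 323) (nat_lit 311) (nat_lit 146)) (XT.nd (nat_lit 78) (nat_lit 0) (nat_lit 0) (XT.lf (nat_lit 0) (nat_lit 7195951352) (nat_lit 1140) (nat_lit 5226184384) (nat_lit 1216) (nat_lit 10313110705) (nat_lit 170) (nat_lit 5) (nat_lit 185) (nat_lit 5) (nat_lit 186) (nat_lit 5) (nat_lit 324) (nat_lit 311) (nat_lit 145)) (XT.lf (nat_lit 76) (nat_lit 5272928068) (nat_lit 0) (nat_lit 3280789829) (nat_lit 1216) (nat_lit 14550182384) (nat_lit 171) (nat_lit 5) (nat_lit 170) (nat_lit 5) (nat_lit 186) (nat_lit 5) (nat_lit 325) (nat_lit 311) (nat_lit 144)))) (XT.nd (nat_lit 78) (nat_lit 0) (nat_lit 0) (XT.lf (nat_lit 0) (nat_lit 10059658454) (nat_lit 1140) (nat_lit 7351309432) (nat_lit 1216) (nat_lit 6069430785)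 (nat_lit 171) (nat_lit 5) (nat_lit 186) (nat_lit 5) (nat_lit 187) (nat_lit 5) (nat_lit 326) (nat_lit 311) (nat_lit 143)) (XT.nd (nat_lit 78) (nat_lit 0) (nat_lit 76) (XT.lf (nat_lit 76) (nat_lit 3474239024) (nat_lit 0) (nat_lit 8197731245) (nat_lit 1216) (nat_lit 12194393880) (nat_lit 172) (nat_lit 5) (nat_lit 171) (nat_lit 5) (nat_lit 187) (nat_lit 5) (nat_lit 327) (nat_lit 311) (nat_lit 142)) (XT.lf (nat_lit 0) (nat_lit 13415460203) (nat_lit 1140) (nat_lit 9503518249) (nat_lit 76) (nat_lit 1342453575) (nat_lit 172) (nat_lit 5) (nat_lit 187) (nat_lit 5) (nat_lit 173) (nat_lit 5) (nat_lit 328) (nat_lit 311) (nat_lit 141)))))) (XT.nd (nat_lit 468) (nat_lit 1520) (nat_lit 0) (XT.nd (nat_lit 234) (nat_lit 1216) (nat_lit 0) (XT.nd (nat_lit 78) (nat_lit 0) (nat_lit 0) (XT.lf (nat_lit 0) (nat_lit 1659139790) (nat_lit 1140) (nat_lit 13644784130) (nat_lit 1216) (nat_lit 9361655421) (nat_lit 157) (nat_lit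 5) (nat_lit 172) (nat_lit 5) (nat_lit 173) (nat_lit 5) (nat_lit 329) (nat_lit 311) (nat_lit 140)) (XT.nd (nat_lit 78) (nat_lit 0) (nat_lit 0) (XT.lf (nat_lit 0) (nat_lit 13347710620) (nat_lit 1140) (nat_lit 3992945731) (nat_lit 1216) (nat_lit 7738453534) (nat_lit 157) (nat_lit 5) (nat_lit 172) (nat_lit 5) (nat_lit 173) (nat_lit 5) (nat_lit 330) (nat_lit 311) (nat_lit 139)) (XT.lf (nat_lit 0) (nat_lit 19491450880) (nat_lit 1216) (nat_lit 179096703) (nat_lit 76) (nat_lit 5832917003) (nat_lit 157) (nat_lit 5) (nat_lit 173) (nat_lit 5) (nat_lit 158) (nat_lit 5) (nat_lit 331) (nat_lit 311) (nat_lit 138)))) (XT.nd (nat_lit 78) (nat_lit 684) (nat_lit 0) (XT.lf (nat_lit 0) (nat_lit 11908929042) (nat_lit 532) (nat_lit 9947753145) (nat_lit 608) (nat_lit 4079377190) (nat_lit 150) (nat_lit 5) (nat_lit 157) (nat_lit 5) (nat_lit 158) (nat_lit 5) (nat_lit 332) (nat_lit 311) (nat_lit 137)) (XT.nd (nat_lit 78)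 (nat_lit 684) (nat_lit 0) (XT.lf (nat_lit 0) (nat_lit 24291328699) (nat_lit 608) (nat_lit 2022762227) (nat_lit 76) (nat_lit 67593979) (nat_lit 150) (nat_lit 5) (nat_lit 158) (nat_lit 5) (nat_lit 151) (nat_lit 5) (nat_lit 333) (nat_lit 311) (nat_lit 136)) (XT.lf (nat_lit 0) (nat_lit 156060371) (nat_lit 684) (nat_lit 16393015902) (nat_lit 76) (nat_lit 10285713839) (nat_lit 141) (nat_lit 5) (nat_lit 150) (nat_lit 5) (nat_lit 142) (nat_lit 5) (nat_lit 334) (nat_lit 311) (nat_lit 135))))) (XT.nd (nat_lit 234) (nat_lit 988) (nat_lit 0) (XT.nd (nat_lit 78) (nat_lit 532) (nat_lit 0) (XT.lf (nat_lit 0) (nat_lit 2444625175) (nat_lit 684) (nat_lit 4003791499) (nat_lit 76) (nat_lit 20851953887) (nat_lit 141) (nat_lit 5) (nat_lit 150) (nat_lit 5) (nat_lit 142) (nat_lit 5) (nat_lit 335) (nat_lit 311) (nat_lit 134)) (XT.nd (nat_lit 78) (nat_lit 0) (nat_lit 0) (XT.lf (nat_lit 0) (nat_lit 4922790786) (nat_lit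 608) (nat_lit 18888631962) (nat_lit 76) (nat_lit 3964873257) (nat_lit 134) (nat_lit 5) (nat_lit 142) (nat_lit 5) (nat_lit 135) (nat_lit 5) (nat_lit 336) (nat_lit 311) (nat_lit 133)) (XT.lf (nat_lit 0) (nat_lit 7576307337) (nat_lit 608) (nat_lit 6085296232) (nat_lit 76) (nat_lit 14601871193) (nat_lit 134) (nat_lit 5) (nat_lit 142) (nat_lit 5) (nat_lit 135) (nat_lit 5) (nat_lit 337) (nat_lit 311) (nat_lit 132)))) (XT.nd (nat_lit 78) (nat_lit 456) (nat_lit 0) (XT.lf (nat_lit 0) (nat_lit 7239821382) (nat_lit 532) (nat_lit 3135638017) (nat_lit 608) (nat_lit 18387834141) (nat_lit 127) (nat_lit 5) (nat_lit 134) (nat_lit 5) (nat_lit 135) (nat_lit 5) (nat_lit 338) (nat_lit 311) (nat_lit 131)) (XT.nd (nat_lit 78) (nat_lit 456) (nat_lit 0) (XT.lf (nat_lit 0) (nat_lit 13391225208) (nat_lit 608) (nat_lit 8265180040) (nat_lit 76) (nat_lit 7617727858) (nat_lit 127) (nat_lit 5) (nat_lit 135) (nat_lit 5) (nat_lit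 128) (nat_lit 5) (nat_lit 339) (nat_lit 311) (nat_lit 130)) (XT.lf (nat_lit 0) (nat_lit 5462854148) (nat_lit 456) (nat_lit 11114775244) (nat_lit 532) (nat_lit 13220268745) (nat_lit 121) (nat_lit 5) (nat_lit 127) (nat_lit 5) (nat_lit 128) (nat_lit 5) (nat_lit 340) (nat_lit 311) (nat_lit 129))))))))
noncomputable def xc223 : XT := (XT.nd (nat_lit 1872) (nat_lit 1596) (nat_lit 0) (XT.nd (nat_lit 936) (nat_lit 2052) (nat_lit 0) (XT.nd (nat_lit 468) (nat_lit 1216) (nat_lit 0) (XT.nd (nat_lit 234) (nat_lit 456) (nat_lit 0) (XT.nd (nat_lit 78) (nat_lit 456) (nat_lit 0) (XT.lf (nat_lit 0) (nat_lit 19768631627) (nat_lit 456) (nat_lit 171128301) (nat_lit 532) (nat_lit 10395217253) (nat_lit 121) (nat_lit 5) (nat_lit 127) (nat_lit 5) (nat_lit 128) (nat_lit 5) (nat_lit 341) (nat_lit 311) (nat_lit 128)) (XT.nd (nat_lit 78) (nat_lit 0) (nat_lit 0) (XT.lf (nat_lit 0) (nat_lit 3574942740) (nat_lit 456) (nat_lit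 19965651321) (nat_lit 532) (nat_lit 7343444285) (nat_lit 115) (nat_lit 5) (nat_lit 121) (nat_lit 5) (nat_lit 122) (nat_lit 5) (nat_lit 342) (nat_lit 311) (nat_lit 127)) (XT.lf (nat_lit 0) (nat_lit 18351852738) (nat_lit 456) (nat_lit 9002805400) (nat_lit 532) (nat_lit 4091761857) (nat_lit 115) (nat_lit 5) (nat_lit 121) (nat_lit 5) (nat_lit 122) (nat_lit 5) (nat_lit 343) (nat_lit 311) (nat_lit 126)))) (XT.nd (nat_lit 78) (nat_lit 76) (nat_lit 0) (XT.lf (nat_lit 0) (nat_lit 1551182443) (nat_lit 380) (nat_lit 29765792426) (nat_lit 456) (nat_lit 707687961) (nat_lit 110) (nat_lit 5) (nat_lit 115) (nat_lit 5) (nat_lit 116) (nat_lit 5) (nat_lit 344) (nat_lit 311) (nat_lit 125)) (XT.nd (nat_lit 78) (nat_lit 0) (nat_lit 0) (XT.lf (nat_lit 0) (nat_lit 2943316021) (nat_lit 456) (nat_lit 15832216749) (nat_lit 76) (nat_lit 13837335033) (nat_lit 109) (nat_lit 5) (nat_lit 115) (nat_lit 5) (nat_lit 110) (nat_lit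 5) (nat_lit 345) (nat_lit 311) (nat_lit 124)) (XT.lf (nat_lit 0) (nat_lit 6686654956) (nat_lit 456) (nat_lit 762131982) (nat_lit 76) (nat_lit 25769815184) (nat_lit 109) (nat_lit 5) (nat_lit 115) (nat_lit 5) (nat_lit 110) (nat_lit 5) (nat_lit 346) (nat_lit 311) (nat_lit 123))))) (XT.nd (nat_lit 234) (nat_lit 380) (nat_lit 0) (XT.nd (nat_lit 78) (nat_lit 380) (nat_lit 0) (XT.lf (nat_lit 0) (nat_lit 10726055254) (nat_lit 532) (nat_lit 18829798129) (nat_lit 76) (nat_lit 4281146390) (nat_lit 103) (nat_lit 5) (nat_lit 110) (nat_lit 5) (nat_lit 104) (nat_lit 5) (nat_lit 347) (nat_lit 311) (nat_lit 122)) (XT.nd (nat_lit 78) (nat_lit 380) (nat_lit 0) (XT.lf (nat_lit 0) (nat_lit 14965323593) (nat_lit 532) (nat_lit 3285669689) (nat_lit 76) (nat_lit 16220599509) (nat_lit 103) (nat_lit 5) (nat_lit 110) (nat_lit 5) (nat_lit 104) (nat_lit 5) (nat_lit 348) (nat_lit 311) (nat_lit 121)) (XT.lf (nat_lit 0) (nat_lit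 12974700805) (nat_lit 380) (nat_lit 6479035985) (nat_lit 456) (nat_lit 15667831704) (nat_lit 98) (nat_lit 5) (nat_lit 103) (nat_lit 5) (nat_lit 104) (nat_lit 5) (nat_lit 349) (nat_lit 311) (nat_lit 120)))) (XT.nd (nat_lit 78) (nat_lit 380) (nat_lit 0) (XT.lf (nat_lit 0) (nat_lit 24161873390) (nat_lit 456) (nat_lit 6057727548) (nat_lit 76) (nat_lit 5568894186) (nat_lit 98) (nat_lit 5) (nat_lit 104) (nat_lit 5) (nat_lit 99) (nat_lit 5) (nat_lit 350) (nat_lit 311) (nat_lit 119)) (XT.nd (nat_lit 78) (nat_lit 0) (nat_lit 0) (XT.lf (nat_lit 0) (nat_lit 10654631870) (nat_lit 380) (nat_lit 18520558963) (nat_lit 456) (nat_lit 7295324295) (nat_lit 93) (nat_lit 5) (nat_lit 98) (nat_lit 5) (nat_lit 99) (nat_lit 5) (nat_lit 351) (nat_lit 311) (nat_lit 118)) (XT.lf (nat_lit 0) (nat_lit 27989354779) (nat_lit 380) (nat_lit 6408139241) (nat_lit 456) (nat_lit 2773747692) (nat_lit 93) (nat_lit 5) (nat_lit 98) (nat_lit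 5) (nat_lit 99) (nat_lit 5) (nat_lit 352) (nat_lit 311) (nat_lit 117)))))) (XT.nd (nat_lit 468) (nat_lit 988) (nat_lit 0) (XT.nd (nat_lit 234) (nat_lit 304) (nat_lit 0) (XT.nd (nat_lit 78) (nat_lit 380) (nat_lit 0) (XT.lf (nat_lit 0) (nat_lit 1981197952) (nat_lit 380) (nat_lit 29861764877) (nat_lit 76) (nat_lit 6045453223) (nat_lit 88) (nat_lit 5) (nat_lit 93) (nat_lit 5) (nat_lit 89) (nat_lit 5) (nat_lit 353) (nat_lit 311) (nat_lit 116)) (XT.nd (nat_lit 78) (nat_lit 380) (nat_lit 0) (XT.lf (nat_lit 0) (nat_lit 6977626473) (nat_lit 380) (nat_lit 12779673875) (nat_lit 76) (nat_lit 18864347131) (nat_lit 88) (nat_lit 5) (nat_lit 93) (nat_lit 5) (nat_lit 89) (nat_lit 5) (nat_lit 354) (nat_lit 311) (nat_lit 115)) (XT.lf (nat_lit 0) (nat_lit 4907549501) (nat_lit 380) (nat_lit 7261145629) (nat_lit 456) (nat_lit 27206841472) (nat_lit 83) (nat_lit 5) (nat_lit 88) (nat_lit 5) (nat_lit 89) (nat_lit 5) (nat_lit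 355) (nat_lit 311) (nat_lit 114)))) (XT.nd (nat_lit 78) (nat_lit 304) (nat_lit 0) (XT.lf (nat_lit 0) (nat_lit 17697356579) (nat_lit 456) (nat_lit 16819146115) (nat_lit 76) (nat_lit 5630086960) (nat_lit 83) (nat_lit 5) (nat_lit 89) (nat_lit 5) (nat_lit 84) (nat_lit 5) (nat_lit 356) (nat_lit 311) (nat_lit 113)) (XT.nd (nat_lit 78) (nat_lit 0) (nat_lit 0) (XT.lf (nat_lit 0) (nat_lit 1309785302) (nat_lit 304) (nat_lit 22164252872) (nat_lit 380) (nat_lit 17464274305) (nat_lit 79) (nat_lit 5) (nat_lit 83) (nat_lit 5) (nat_lit 84) (nat_lit 5) (nat_lit 357) (nat_lit 311) (nat_lit 112)) (XT.lf (nat_lit 0) (nat_lit 20324349587) (nat_lit 304) (nat_lit 9267227047) (nat_lit 380) (nat_lit 12157186563) (nat_lit 79) (nat_lit 5) (nat_lit 83) (nat_lit 5) (nat_lit 84) (nat_lit 5) (nat_lit 358) (nat_lit 311) (nat_lit 111))))) (XT.nd (nat_lit 234) (nat_lit 608) (nat_lit 0) (XT.nd (nat_lit 78) (nat_lit 380) (nat_lit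 0) (XT.lf (nat_lit 0) (nat_lit 35929028078) (nat_lit 380) (nat_lit 2715773643) (nat_lit 76) (nat_lit 3937636930) (nat_lit 79) (nat_lit 5) (nat_lit 84) (nat_lit 5) (nat_lit 80) (nat_lit 5) (nat_lit 359) (nat_lit 311) (nat_lit 110)) (XT.nd (nat_lit 78) (nat_lit 76) (nat_lit 0) (XT.lf (nat_lit 0) (nat_lit 16787047597) (nat_lit 304) (nat_lit 25920518103) (nat_lit 380) (nat_lit 726032523) (nat_lit 75) (nat_lit 5) (nat_lit 79) (nat_lit 5) (nat_lit 80) (nat_lit 5) (nat_lit 360) (nat_lit 311) (nat_lit 109)) (XT.lf (nat_lit 0) (nat_lit 5299747671) (nat_lit 380) (nat_lit 7433740929) (nat_lit 76) (nat_lit 31574488894) (nat_lit 74) (nat_lit 5) (nat_lit 79) (nat_lit 5) (nat_lit 75) (nat_lit 5) (nat_lit 361) (nat_lit 311) (nat_lit 108)))) (XT.nd (nat_lit 78) (nat_lit 304) (nat_lit 0) (XT.lf (nat_lit 0) (nat_lit 11620082093) (nat_lit 380) (nat_lit 32623099450) (nat_lit 76) (nat_lit 961342250) (nat_lit 70) (nat_lit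 5) (nat_lit 75) (nat_lit 5) (nat_lit 71) (nat_lit 5) (nat_lit 362) (nat_lit 311) (nat_lit 107)) (XT.nd (nat_lit 78) (nat_lit 304) (nat_lit 0) (XT.lf (nat_lit 0) (nat_lit 18329851459) (nat_lit 380) (nat_lit 12905962828) (nat_lit 76) (nat_lit 14886159876) (nat_lit 70) (nat_lit 5) (nat_lit 75) (nat_lit 5) (nat_lit 71) (nat_lit 5) (nat_lit 363) (nat_lit 311) (nat_lit 106)) (XT.lf (nat_lit 0) (nat_lit 7547184001) (nat_lit 304) (nat_lit 17764279347) (nat_lit 380) (nat_lit 21753370574) (nat_lit 66) (nat_lit 5) (nat_lit 70) (nat_lit 5) (nat_lit 71) (nat_lit 5) (nat_lit 364) (nat_lit 311) (nat_lit 105))))))) (XT.nd (nat_lit 936) (nat_lit 228) (nat_lit 0) (XT.nd (nat_lit 468) (nat_lit 760) (nat_lit 0) (XT.nd (nat_lit 234) (nat_lit 380) (nat_lit 0) (XT.nd (nat_lit 78) (nat_lit 228) (nat_lit 0) (XT.lf (nat_lit 0) (nat_lit 28875735407) (nat_lit 304) (nat_lit 3755146182) (nat_lit 380) (nat_lit 15401249434)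 (nat_lit 66) (nat_lit 5) (nat_lit 70) (nat_lit 5) (nat_lit 71) (nat_lit 5) (nat_lit 365) (nat_lit 311) (nat_lit 104)) (XT.nd (nat_lit 78) (nat_lit 0) (nat_lit 0) (XT.lf (nat_lit 0) (nat_lit 1744406909) (nat_lit 228) (nat_lit 38542934366) (nat_lit 304) (nat_lit 8737584220) (nat_lit 63) (nat_lit 5) (nat_lit 66) (nat_lit 5) (nat_lit 67) (nat_lit 5) (nat_lit 366) (nat_lit 311) (nat_lit 103)) (XT.lf (nat_lit 0) (nat_lit 23624306365) (nat_lit 228) (nat_lit 24777558571) (nat_lit 304) (nat_lit 1638789918) (nat_lit 63) (nat_lit 5) (nat_lit 66) (nat_lit 5) (nat_lit 67) (nat_lit 5) (nat_lit 367) (nat_lit 311) (nat_lit 102)))) (XT.nd (nat_lit 78) (nat_lit 304) (nat_lit 0) (XT.lf (nat_lit 0) (nat_lit 5560415927) (nat_lit 304) (nat_lit 4983440600) (nat_lit 76) (nat_lit 40541421209) (nat_lit 62) (nat_lit 5) (nat_lit 66) (nat_lit 5) (nat_lit 63) (nat_lit 5) (nat_lit 368) (nat_lit 311) (nat_lit 101)) (XT.nd (nat_lit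 78) (nat_lit 0) (nat_lit 0) (XT.lf (nat_lit 0) (nat_lit 13149634551) (nat_lit 380) (nat_lit 34783720930) (nat_lit 76) (nat_lit 4221189791) (nat_lit 58) (nat_lit 5) (nat_lit 63) (nat_lit 5) (nat_lit 59) (nat_lit 5) (nat_lit 369) (nat_lit 311) (nat_lit 100)) (XT.lf (nat_lit 0) (nat_lit 21119967607) (nat_lit 380) (nat_lit 12864001300) (nat_lit 76) (nat_lit 19267320709) (nat_lit 58) (nat_lit 5) (nat_lit 63) (nat_lit 5) (nat_lit 59) (nat_lit 5) (nat_lit 370) (nat_lit 311) (nat_lit 99))))) (XT.nd (nat_lit 234) (nat_lit 304) (nat_lit 0) (XT.nd (nat_lit 78) (nat_lit 228) (nat_lit 0) (XT.lf (nat_lit 0) (nat_lit 9904049152) (nat_lit 228) (nat_lit 19518839095) (nat_lit 304) (nat_lit 24955245578) (nat_lit 55) (nat_lit 5) (nat_lit 58) (nat_lit 5) (nat_lit 59) (nat_lit 5) (nat_lit 371) (nat_lit 311) (nat_lit 98)) (XT.nd (nat_lit 78) (nat_lit 228) (nat_lit 0) (XT.lf (nat_lit 0) (nat_lit 33616340845) (nat_lit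 228) (nat_lit 4486756914) (nat_lit 304) (nat_lit 17431841372) (nat_lit 55) (nat_lit 5) (nat_lit 58) (nat_lit 5) (nat_lit 59) (nat_lit 5) (nat_lit 372) (nat_lit 311) (nat_lit 97)) (XT.lf (nat_lit 0) (nat_lit 1229368366) (nat_lit 228) (nat_lit 45930207789) (nat_lit 304) (nat_lit 9563398320) (nat_lit 52) (nat_lit 5) (nat_lit 55) (nat_lit 5) (nat_lit 56) (nat_lit 5) (nat_lit 373) (nat_lit 311) (nat_lit 96)))) (XT.nd (nat_lit 78) (nat_lit 304) (nat_lit 0) (XT.lf (nat_lit 0) (nat_lit 25473329884) (nat_lit 228) (nat_lit 31278108578) (nat_lit 304) (nat_lit 1187303434) (nat_lit 52) (nat_lit 5) (nat_lit 55) (nat_lit 5) (nat_lit 56) (nat_lit 5) (nat_lit 374) (nat_lit 311) (nat_lit 95)) (XT.nd (nat_lit 78) (nat_lit 228) (nat_lit 0) (XT.lf (nat_lit 0) (nat_lit 7293288779) (nat_lit 304) (nat_lit 8820299353) (nat_lit 76) (nat_lit 43075298344) (nat_lit 51) (nat_lit 5) (nat_lit 55) (nat_lit 5) (nat_lit 52) (nat_lit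 5) (nat_lit 375) (nat_lit 311) (nat_lit 94)) (XT.lf (nat_lit 0) (nat_lit 15828952525) (nat_lit 228) (nat_lit 326083999) (nat_lit 304) (nat_lit 44316629724) (nat_lit 48) (nat_lit 5) (nat_lit 51) (nat_lit 5) (nat_lit 52) (nat_lit 5) (nat_lit 376) (nat_lit 311) (nat_lit 93)))))) (XT.nd (nat_lit 35802) (nat_lit 0) (nat_lit 9272) (XT.nd (nat_lit 35568) (nat_lit 0) (nat_lit 10260) (XT.nd (nat_lit 78) (nat_lit 228) (nat_lit 0) (XT.lf (nat_lit 0) (nat_lit 25524223052) (nat_lit 304) (nat_lit 20548182810) (nat_lit 76) (nat_lit 15713277475) (nat_lit 48) (nat_lit 5) (nat_lit 52) (nat_lit 5) (nat_lit 49) (nat_lit 5) (nat_lit 377) (nat_lit 311) (nat_lit 92)) (XT.nd (nat_lit 78) (nat_lit 0) (nat_lit 0) (XT.lf (nat_lit 0) (nat_lit 4348523831) (nat_lit 228) (nat_lit 30869494800) (nat_lit 304) (nat_lit 27919797774) (nat_lit 45) (nat_lit 5) (nat_lit 48) (nat_lit 5) (nat_lit 49) (nat_lit 5) (nat_lit 378) (nat_lit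 311) (nat_lit 91)) (XT.lf (nat_lit 0) (nat_lit 30411084689) (nat_lit 228) (nat_lit 14997565774) (nat_lit 304) (nat_lit 19115683758) (nat_lit 45) (nat_lit 5) (nat_lit 48) (nat_lit 5) (nat_lit 49) (nat_lit 5) (nat_lit 379) (nat_lit 311) (nat_lit 90)))) (XT.nd (nat_lit 78) (nat_lit 0) (nat_lit 0) (XT.lf (nat_lit 0) (nat_lit 8903927799) (nat_lit 1140) (nat_lit 346992818) (nat_lit 1140) (nat_lit 346992818) (nat_lit 180) (nat_lit 3) (nat_lit 195) (nat_lit 3) (nat_lit 195) (nat_lit 5) (nat_lit 312) (nat_lit 312) (nat_lit 156)) (XT.nd (nat_lit 78) (nat_lit 0) (nat_lit 0) (XT.lf (nat_lit 76) (nat_lit 7824978251) (nat_lit 0) (nat_lit 10490441375) (nat_lit 1140) (nat_lit 1160832950) (nat_lit 181) (nat_lit 5) (nat_lit 180) (nat_lit 3) (nat_lit 195) (nat_lit 5) (nat_lit 313) (nat_lit 312) (nat_lit 155)) (XT.lf (nat_lit 76) (nat_lit 16610344139) (nat_lit 0) (nat_lit 2228393340) (nat_lit 1140) (nat_lit 926349409)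 (nat_lit 181) (nat_lit 5) (nat_lit 180) (nat_lit 3) (nat_lit 195) (nat_lit 5) (nat_lit 314) (nat_lit 312) (nat_lit 154))))) (XT.nd (nat_lit 234) (nat_lit 0) (nat_lit 0) (XT.nd (nat_lit 78) (nat_lit 1064) (nat_lit 0) (XT.lf (nat_lit 76) (nat_lit 5642893158) (nat_lit 0) (nat_lit 13843223021) (nat_lit 1140) (nat_lit 573230513) (nat_lit 182) (nat_lit 5) (nat_lit 181) (nat_lit 5) (nat_lit 196) (nat_lit 5) (nat_lit 315) (nat_lit 312) (nat_lit 153)) (XT.nd (nat_lit 78) (nat_lit 1064) (nat_lit 0) (XT.lf (nat_lit 76) (nat_lit 14743136405) (nat_lit 0) (nat_lit 5457369037) (nat_lit 1140) (nat_lit 160512148) (nat_lit 182) (nat_lit 5) (nat_lit 181) (nat_lit 5) (nat_lit 196) (nat_lit 5) (nat_lit 316) (nat_lit 312) (nat_lit 152)) (XT.lf (nat_lit 0) (nat_lit 318082291) (nat_lit 1140) (nat_lit 17194770177) (nat_lit 1216) (nat_lit 3157060459) (nat_lit 167) (nat_lit 5) (nat_lit 182) (nat_lit 5) (nat_lit 183) (nat_lit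 5) (nat_lit 317) (nat_lit 312) (nat_lit 151)))) (XT.nd (nat_lit 78) (nat_lit 0) (nat_lit 0) (XT.lf (nat_lit 0) (nat_lit 913291755) (nat_lit 1140) (nat_lit 8090130161) (nat_lit 1216) (nat_lit 11981451076) (nat_lit 167) (nat_lit 5) (nat_lit 182) (nat_lit 5) (nat_lit 183) (nat_lit 5) (nat_lit 318) (nat_lit 312) (nat_lit 150)) (XT.nd (nat_lit 78) (nat_lit 0) (nat_lit 76) (XT.lf (nat_lit 76) (nat_lit 1309620863) (nat_lit 0) (nat_lit 223654357) (nat_lit 1216) (nat_lit 19775808857) (nat_lit 168) (nat_lit 5) (nat_lit 167) (nat_lit 5) (nat_lit 183) (nat_lit 5) (nat_lit 319) (nat_lit 312) (nat_lit 149)) (XT.lf (nat_lit 0) (nat_lit 2333619041) (nat_lit 1140) (nat_lit 10572697142) (nat_lit 1216) (nat_lit 8731861953) (nat_lit 168) (nat_lit 5) (nat_lit 183) (nat_lit 5) (nat_lit 184) (nat_lit 5) (nat_lit 320) (nat_lit 312) (nat_lit 148))))))))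
noncomputable def xc224 : XT := (XT.nd (nat_lit 1794) (nat_lit 3952) (nat_lit 0) (XT.nd (nat_lit 858) (nat_lit 3192) (nat_lit 0) (XT.nd (nat_lit 390) (nat_lit 836) (nat_lit 0) (XT.nd (nat_lit 156) (nat_lit 0) (nat_lit 76) (XT.nd (nat_lit 78) (nat_lit 0) (nat_lit 76) (XT.lf (nat_lit 0) (nat_lit 3154827435) (nat_lit 1140) (nat_lit 868976751) (nat_lit 1216) (nat_lit 17953444395) (nat_lit 168) (nat_lit 5) (nat_lit 183) (nat_lit 5) (nat_lit 184) (nat_lit 5) (nat_lit 321) (nat_lit 312) (nat_lit 147)) (XT.lf (nat_lit 0) (nat_lit 4135070630) (nat_lit 1140) (nat_lit 13070262105) (nat_lit 1216) (nat_lit 5117135368) (nat_lit 169) (nat_lit 5) (nat_lit 184) (nat_lit 5) (nat_lit 185) (nat_lit 5) (nat_lit 322) (nat_lit 312) (nat_lit 146))) (XT.nd (nat_lit 78) (nat_lit 0) (nat_lit 76) (XT.lf (nat_lit 0) (nat_lit 5188351881) (nat_lit 1140) (nat_lit 3026540454) (nat_lit 1216) (nat_lit 14461851616) (nat_lit 169)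 (nat_lit 5) (nat_lit 184) (nat_lit 5) (nat_lit 185) (nat_lit 5) (nat_lit 323) (nat_lit 312) (nat_lit 145)) (XT.nd (nat_lit 78) (nat_lit 0) (nat_lit 0) (XT.lf (nat_lit 0) (nat_lit 6350794338) (nat_lit 1140) (nat_lit 15589912719) (nat_lit 1216) (nat_lit 1098622546) (nat_lit 170) (nat_lit 5) (nat_lit 185) (nat_lit 5) (nat_lit 186) (nat_lit 5) (nat_lit 324) (nat_lit 312) (nat_lit 144)) (XT.lf (nat_lit 0) (nat_lit 7655509144) (nat_lit 1140) (nat_lit 5195513521) (nat_lit 1216) (nat_lit 10558556354) (nat_lit 170) (nat_lit 5) (nat_lit 185) (nat_lit 5) (nat_lit 186) (nat_lit 5) (nat_lit 325) (nat_lit 312) (nat_lit 143))))) (XT.nd (nat_lit 234) (nat_lit 988) (nat_lit 0) (XT.nd (nat_lit 78) (nat_lit 0) (nat_lit 76) (XT.lf (nat_lit 76) (nat_lit 5616734496) (nat_lit 0) (nat_lit 3431961014) (nat_lit 1216) (nat_lit 14740768430) (nat_lit 171) (nat_lit 5) (nat_lit 170) (nat_lit 5) (nat_lit 186) (nat_lit 5) (nat_lit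 326) (nat_lit 312) (nat_lit 142)) (XT.nd (nat_lit 78) (nat_lit 0) (nat_lit 0) (XT.lf (nat_lit 0) (nat_lit 10592379310) (nat_lit 1140) (nat_lit 7383810873) (nat_lit 1216) (nat_lit 6201301867) (nat_lit 171) (nat_lit 5) (nat_lit 186) (nat_lit 5) (nat_lit 187) (nat_lit 5) (nat_lit 327) (nat_lit 312) (nat_lit 141)) (XT.lf (nat_lit 76) (nat_lit 3764660529) (nat_lit 0) (nat_lit 8483463617) (nat_lit 1216) (nat_lit 12327071817) (nat_lit 172) (nat_lit 5) (nat_lit 171) (nat_lit 5) (nat_lit 187) (nat_lit 5) (nat_lit 328) (nat_lit 312) (nat_lit 140)))) (XT.nd (nat_lit 78) (nat_lit 1140) (nat_lit 0) (XT.lf (nat_lit 0) (nat_lit 14036964962) (nat_lit 1140) (nat_lit 9600530561) (nat_lit 76) (nat_lit 1344840013) (nat_lit 172) (nat_lit 5) (nat_lit 187) (nat_lit 5) (nat_lit 173) (nat_lit 5) (nat_lit 329) (nat_lit 312) (nat_lit 139)) (XT.nd (nat_lit 78) (nat_lit 0) (nat_lit 0) (XT.lf (nat_lit 0) (nat_lit 1895163167)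 (nat_lit 1140) (nat_lit 14082329930) (nat_lit 1216) (nat_lit 9421262582) (nat_lit 157) (nat_lit 5) (nat_lit 172) (nat_lit 5) (nat_lit 173) (nat_lit 5) (nat_lit 330) (nat_lit 312) (nat_lit 138)) (XT.lf (nat_lit 0) (nat_lit 13928966389) (nat_lit 1140) (nat_lit 4140114954) (nat_lit 1216) (nat_lit 7755808594) (nat_lit 157) (nat_lit 5) (nat_lit 172) (nat_lit 5) (nat_lit 173) (nat_lit 5) (nat_lit 331) (nat_lit 312) (nat_lit 137)))))) (XT.nd (nat_lit 468) (nat_lit 1444) (nat_lit 0) (XT.nd (nat_lit 234) (nat_lit 1216) (nat_lit 0) (XT.nd (nat_lit 78) (nat_lit 532) (nat_lit 0) (XT.lf (nat_lit 0) (nat_lit 20278079940) (nat_lit 1216) (nat_lit 2255142) (nat_lit 76) (nat_lit 5981839899) (nat_lit 157) (nat_lit 5) (nat_lit 173) (nat_lit 5) (nat_lit 158) (nat_lit 5) (nat_lit 332) (nat_lit 312) (nat_lit 136)) (XT.nd (nat_lit 78) (nat_lit 0) (nat_lit 0) (XT.lf (nat_lit 0) (nat_lit 12446624960) (nat_lit 532) (nat_lit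 10263497451) (nat_lit 608) (nat_lit 3997759394) (nat_lit 150) (nat_lit 5) (nat_lit 157) (nat_lit 5) (nat_lit 158) (nat_lit 5) (nat_lit 333) (nat_lit 312) (nat_lit 135)) (XT.lf (nat_lit 0) (nat_lit 25211887343) (nat_lit 608) (nat_lit 1902033627) (nat_lit 76) (nat_lit 53142286) (nat_lit 150) (nat_lit 5) (nat_lit 158) (nat_lit 5) (nat_lit 151) (nat_lit 5) (nat_lit 334) (nat_lit 312) (nat_lit 134)))) (XT.nd (nat_lit 78) (nat_lit 532) (nat_lit 0) (XT.lf (nat_lit 0) (nat_lit 350864092) (nat_lit 684) (nat_lit 16701090259) (nat_lit 76) (nat_lit 10581876410) (nat_lit 141) (nat_lit 5) (nat_lit 150) (nat_lit 5) (nat_lit 142) (nat_lit 5) (nat_lit 335) (nat_lit 312) (nat_lit 133)) (XT.nd (nat_lit 78) (nat_lit 532) (nat_lit 0) (XT.lf (nat_lit 0) (nat_lit 2702548308) (nat_lit 684) (nat_lit 3945540078) (nat_lit 76) (nat_lit 21465465082) (nat_lit 141) (nat_lit 5) (nat_lit 150) (nat_lit 5) (nat_lit 142) (nat_lit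 5) (nat_lit 336) (nat_lit 312) (nat_lit 132)) (XT.lf (nat_lit 0) (nat_lit 5251339157) (nat_lit 608) (nat_lit 19272923813) (nat_lit 76) (nat_lit 4079613765) (nat_lit 134) (nat_lit 5) (nat_lit 142) (nat_lit 5) (nat_lit 135) (nat_lit 5) (nat_lit 337) (nat_lit 312) (nat_lit 131))))) (XT.nd (nat_lit 234) (nat_lit 912) (nat_lit 0) (XT.nd (nat_lit 78) (nat_lit 532) (nat_lit 0) (XT.lf (nat_lit 0) (nat_lit 7979193302) (nat_lit 608) (nat_lit 6090799674) (nat_lit 76) (nat_lit 15035844134) (nat_lit 134) (nat_lit 5) (nat_lit 142) (nat_lit 5) (nat_lit 135) (nat_lit 5) (nat_lit 338) (nat_lit 312) (nat_lit 130)) (XT.nd (nat_lit 78) (nat_lit 0) (nat_lit 0) (XT.lf (nat_lit 0) (nat_lit 7632335631) (nat_lit 532) (nat_lit 3226555107) (nat_lit 608) (nat_lit 18761870571) (nat_lit 127) (nat_lit 5) (nat_lit 134) (nat_lit 5) (nat_lit 135) (nat_lit 5) (nat_lit 339) (nat_lit 312) (nat_lit 129)) (XT.lf (nat_lit 0) (nat_lit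 13960144348) (nat_lit 608) (nat_lit 8337678794) (nat_lit 76) (nat_lit 7849260221) (nat_lit 127) (nat_lit 5) (nat_lit 135) (nat_lit 5) (nat_lit 128) (nat_lit 5) (nat_lit 340) (nat_lit 312) (nat_lit 128)))) (XT.nd (nat_lit 78) (nat_lit 456) (nat_lit 0) (XT.lf (nat_lit 0) (nat_lit 5800476256) (nat_lit 456) (nat_lit 11438465073) (nat_lit 532) (nat_lit 13447723518) (nat_lit 121) (nat_lit 5) (nat_lit 127) (nat_lit 5) (nat_lit 128) (nat_lit 5) (nat_lit 341) (nat_lit 312) (nat_lit 127)) (XT.nd (nat_lit 78) (nat_lit 456) (nat_lit 0) (XT.lf (nat_lit 0) (nat_lit 20530366774) (nat_lit 456) (nat_lit 166792802) (nat_lit 532) (nat_lit 10542847277) (nat_lit 121) (nat_lit 5) (nat_lit 127) (nat_lit 5) (nat_lit 128) (nat_lit 5) (nat_lit 342) (nat_lit 312) (nat_lit 126)) (XT.lf (nat_lit 0) (nat_lit 3854093831) (nat_lit 456) (nat_lit 20549028618) (nat_lit 532) (nat_lit 7402511382) (nat_lit 115) (nat_lit 5) (nat_lit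 121) (nat_lit 5) (nat_lit 122) (nat_lit 5) (nat_lit 343) (nat_lit 312) (nat_lit 125))))))) (XT.nd (nat_lit 936) (nat_lit 1900) (nat_lit 0) (XT.nd (nat_lit 468) (nat_lit 1140) (nat_lit 0) (XT.nd (nat_lit 234) (nat_lit 456) (nat_lit 0) (XT.nd (nat_lit 78) (nat_lit 456) (nat_lit 0) (XT.lf (nat_lit 0) (nat_lit 19069304251) (nat_lit 456) (nat_lit 9257751463) (nat_lit 532) (nat_lit 4057974682) (nat_lit 115) (nat_lit 5) (nat_lit 121) (nat_lit 5) (nat_lit 122) (nat_lit 5) (nat_lit 344) (nat_lit 312) (nat_lit 124)) (XT.nd (nat_lit 78) (nat_lit 76) (nat_lit 0) (XT.lf (nat_lit 0) (nat_lit 1767568837) (nat_lit 380) (nat_lit 30638026966) (nat_lit 456) (nat_lit 575110779) (nat_lit 110) (nat_lit 5) (nat_lit 115) (nat_lit 5) (nat_lit 116) (nat_lit 5) (nat_lit 345) (nat_lit 312) (nat_lit 123)) (XT.lf (nat_lit 0) (nat_lit 3178029557) (nat_lit 456) (nat_lit 16139155525) (nat_lit 76) (nat_lit 14269466341) (nat_lit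 109) (nat_lit 5) (nat_lit 115) (nat_lit 5) (nat_lit 110) (nat_lit 5) (nat_lit 346) (nat_lit 312) (nat_lit 122)))) (XT.nd (nat_lit 78) (nat_lit 456) (nat_lit 0) (XT.lf (nat_lit 0) (nat_lit 7029404173) (nat_lit 456) (nat_lit 621862227) (nat_lit 76) (nat_lit 26559425423) (nat_lit 109) (nat_lit 5) (nat_lit 115) (nat_lit 5) (nat_lit 110) (nat_lit 5) (nat_lit 347) (nat_lit 312) (nat_lit 121)) (XT.nd (nat_lit 78) (nat_lit 0) (nat_lit 0) (XT.lf (nat_lit 0) (nat_lit 11187610179) (nat_lit 532) (nat_lit 19228984120) (nat_lit 76) (nat_lit 4431124332) (nat_lit 103) (nat_lit 5) (nat_lit 110) (nat_lit 5) (nat_lit 104) (nat_lit 5) (nat_lit 348) (nat_lit 312) (nat_lit 120)) (XT.lf (nat_lit 0) (nat_lit 15549985502) (nat_lit 532) (nat_lit 3223358272) (nat_lit 76) (nat_lit 16728133562) (nat_lit 103) (nat_lit 5) (nat_lit 110) (nat_lit 5) (nat_lit 104) (nat_lit 5) (nat_lit 349) (nat_lit 312) (nat_lit 119))))) (XT.nd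 (nat_lit 234) (nat_lit 380) (nat_lit 0) (XT.nd (nat_lit 78) (nat_lit 380) (nat_lit 0) (XT.lf (nat_lit 0) (nat_lit 13523246068) (nat_lit 380) (nat_lit 6647383866) (nat_lit 456) (nat_lit 16000400608) (nat_lit 98) (nat_lit 5) (nat_lit 103) (nat_lit 5) (nat_lit 104) (nat_lit 5) (nat_lit 350) (nat_lit 312) (nat_lit 118)) (XT.nd (nat_lit 78) (nat_lit 380) (nat_lit 0) (XT.lf (nat_lit 0) (nat_lit 25016371525) (nat_lit 456) (nat_lit 6080974817) (nat_lit 76) (nat_lit 5760733237) (nat_lit 98) (nat_lit 5) (nat_lit 104) (nat_lit 5) (nat_lit 99) (nat_lit 5) (nat_lit 351) (nat_lit 312) (nat_lit 117)) (XT.lf (nat_lit 0) (nat_lit 11131201613) (nat_lit 380) (nat_lit 19046619414) (nat_lit 456) (nat_lit 7382812455) (nat_lit 93) (nat_lit 5) (nat_lit 98) (nat_lit 5) (nat_lit 99) (nat_lit 5) (nat_lit 352) (nat_lit 312) (nat_lit 116)))) (XT.nd (nat_lit 78) (nat_lit 380) (nat_lit 0) (XT.lf (nat_lit 0) (nat_lit 28981395410)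 (nat_lit 380) (nat_lit 6571687964) (nat_lit 456) (nat_lit 2729414911) (nat_lit 93) (nat_lit 5) (nat_lit 98) (nat_lit 5) (nat_lit 99) (nat_lit 5) (nat_lit 353) (nat_lit 312) (nat_lit 115)) (XT.nd (nat_lit 78) (nat_lit 0) (nat_lit 0) (XT.lf (nat_lit 0) (nat_lit 2163817503) (nat_lit 380) (nat_lit 30600569525) (nat_lit 76) (nat_lit 6256825055) (nat_lit 88) (nat_lit 5) (nat_lit 93) (nat_lit 5) (nat_lit 89) (nat_lit 5) (nat_lit 354) (nat_lit 312) (nat_lit 114)) (XT.lf (nat_lit 0) (nat_lit 7306551007) (nat_lit 380) (nat_lit 13010590015) (nat_lit 76) (nat_lit 19459411755) (nat_lit 88) (nat_lit 5) (nat_lit 93) (nat_lit 5) (nat_lit 89) (nat_lit 5) (nat_lit 355) (nat_lit 312) (nat_lit 113)))))) (XT.nd (nat_lit 468) (nat_lit 912) (nat_lit 0) (XT.nd (nat_lit 234) (nat_lit 304) (nat_lit 0) (XT.nd (nat_lit 78) (nat_lit 304) (nat_lit 0) (XT.lf (nat_lit 0) (nat_lit 5205755218) (nat_lit 380) (nat_lit 7445564440)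 (nat_lit 456) (nat_lit 27901804429) (nat_lit 83) (nat_lit 5) (nat_lit 88) (nat_lit 5) (nat_lit 89) (nat_lit 5) (nat_lit 356) (nat_lit 312) (nat_lit 112)) (XT.nd (nat_lit 78) (nat_lit 304) (nat_lit 0) (XT.lf (nat_lit 0) (nat_lit 18342728621) (nat_lit 456) (nat_lit 17173879106) (nat_lit 76) (nat_lit 5830798792) (nat_lit 83) (nat_lit 5) (nat_lit 89) (nat_lit 5) (nat_lit 84) (nat_lit 5) (nat_lit 357) (nat_lit 312) (nat_lit 111)) (XT.lf (nat_lit 0) (nat_lit 1497451220) (nat_lit 304) (nat_lit 22793352154) (nat_lit 380) (nat_lit 17872139162) (nat_lit 79) (nat_lit 5) (nat_lit 83) (nat_lit 5) (nat_lit 84) (nat_lit 5) (nat_lit 358) (nat_lit 312) (nat_lit 110)))) (XT.nd (nat_lit 78) (nat_lit 304) (nat_lit 0) (XT.lf (nat_lit 0) (nat_lit 21078130909) (nat_lit 304) (nat_lit 9510459098) (nat_lit 380) (nat_lit 12409219274) (nat_lit 79) (nat_lit 5) (nat_lit 83) (nat_lit 5) (nat_lit 84) (nat_lit 5) (nat_lit 359)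 (nat_lit 312) (nat_lit 109)) (XT.nd (nat_lit 78) (nat_lit 304) (nat_lit 0) (XT.lf (nat_lit 0) (nat_lit 37113307120) (nat_lit 380) (nat_lit 2654399013) (nat_lit 76) (nat_lit 4088878644) (nat_lit 79) (nat_lit 5) (nat_lit 84) (nat_lit 5) (nat_lit 80) (nat_lit 5) (nat_lit 360) (nat_lit 312) (nat_lit 108)) (XT.lf (nat_lit 0) (nat_lit 17432106394) (nat_lit 304) (nat_lit 26661354888) (nat_lit 380) (nat_lit 639873969) (nat_lit 75) (nat_lit 5) (nat_lit 79) (nat_lit 5) (nat_lit 80) (nat_lit 5) (nat_lit 361) (nat_lit 312) (nat_lit 107))))) (XT.nd (nat_lit 234) (nat_lit 532) (nat_lit 0) (XT.nd (nat_lit 78) (nat_lit 304) (nat_lit 0) (XT.lf (nat_lit 0) (nat_lit 5561490820) (nat_lit 380) (nat_lit 7517257324) (nat_lit 76) (nat_lit 32555262805) (nat_lit 74) (nat_lit 5) (nat_lit 79) (nat_lit 5) (nat_lit 75) (nat_lit 5) (nat_lit 362) (nat_lit 312) (nat_lit 106)) (XT.nd (nat_lit 78) (nat_lit 0) (nat_lit 0) (XT.lf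 (nat_lit 0) (nat_lit 12070126383) (nat_lit 380) (nat_lit 33460867954) (nat_lit 76) (nat_lit 1026502159) (nat_lit 70) (nat_lit 5) (nat_lit 75) (nat_lit 5) (nat_lit 71) (nat_lit 5) (nat_lit 363) (nat_lit 312) (nat_lit 105)) (XT.lf (nat_lit 0) (nat_lit 18978234214) (nat_lit 380) (nat_lit 13156321830) (nat_lit 76) (nat_lit 15368006460) (nat_lit 70) (nat_lit 5) (nat_lit 75) (nat_lit 5) (nat_lit 71) (nat_lit 5) (nat_lit 364) (nat_lit 312) (nat_lit 104)))) (XT.nd (nat_lit 78) (nat_lit 228) (nat_lit 0) (XT.lf (nat_lit 0) (nat_lit 7909078033) (nat_lit 304) (nat_lit 18258650169) (nat_lit 380) (nat_lit 22306030227) (nat_lit 66) (nat_lit 5) (nat_lit 70) (nat_lit 5) (nat_lit 71) (nat_lit 5) (nat_lit 365) (nat_lit 312) (nat_lit 103)) (XT.nd (nat_lit 78) (nat_lit 228) (nat_lit 0) (XT.lf (nat_lit 0) (nat_lit 29873540005) (nat_lit 304) (nat_lit 3830366045) (nat_lit 380) (nat_lit 15766256369) (nat_lit 66) (nat_lit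 5) (nat_lit 70) (nat_lit 5) (nat_lit 71) (nat_lit 5) (nat_lit 366) (nat_lit 312) (nat_lit 102)) (XT.lf (nat_lit 0) (nat_lit 1929529585) (nat_lit 228) (nat_lit 39659415048) (nat_lit 304) (nat_lit 8903832731) (nat_lit 63) (nat_lit 5) (nat_lit 66) (nat_lit 5) (nat_lit 67) (nat_lit 5) (nat_lit 367) (nat_lit 312) (nat_lit 101))))))))
noncomputable def xc225 : XT := (XT.nd (nat_lit 37206) (nat_lit 0) (nat_lit 4864) (XT.nd (nat_lit 858) (nat_lit 228) (nat_lit 0) (XT.nd (nat_lit 390) (nat_lit 532) (nat_lit 0) (XT.nd (nat_lit 156) (nat_lit 532) (nat_lit 0) (XT.nd (nat_lit 78) (nat_lit 76) (nat_lit 0) (XT.lf (nat_lit 0) (nat_lit 24461958342) (nat_lit 228) (nat_lit 25482237417) (nat_lit 304) (nat_lit 1594867193) (nat_lit 63) (nat_lit 5) (nat_lit 66) (nat_lit 5) (nat_lit 67) (nat_lit 5) (nat_lit 368) (nat_lit 312) (nat_lit 100)) (XT.lf (nat_lit 0) (nat_lit 5815840028) (nat_lit 304) (nat_lit 5005915148) (nat_lit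 76) (nat_lit 41793325172) (nat_lit 62) (nat_lit 5) (nat_lit 66) (nat_lit 5) (nat_lit 63) (nat_lit 5) (nat_lit 369) (nat_lit 312) (nat_lit 99))) (XT.nd (nat_lit 78) (nat_lit 228) (nat_lit 0) (XT.lf (nat_lit 0) (nat_lit 13631733899) (nat_lit 380) (nat_lit 35699108040) (nat_lit 76) (nat_lit 4385616846) (nat_lit 58) (nat_lit 5) (nat_lit 63) (nat_lit 5) (nat_lit 59) (nat_lit 5) (nat_lit 370) (nat_lit 312) (nat_lit 98)) (XT.nd (nat_lit 78) (nat_lit 228) (nat_lit 0) (XT.lf (nat_lit 0) (nat_lit 21838625189) (nat_lit 380) (nat_lit 13125528603) (nat_lit 76) (nat_lit 19882030972) (nat_lit 58) (nat_lit 5) (nat_lit 63) (nat_lit 5) (nat_lit 59) (nat_lit 5) (nat_lit 371) (nat_lit 312) (nat_lit 97)) (XT.lf (nat_lit 0) (nat_lit 10324343826) (nat_lit 228) (nat_lit 20064996206) (nat_lit 304) (nat_lit 25617535745) (nat_lit 55) (nat_lit 5) (nat_lit 58) (nat_lit 5) (nat_lit 59) (nat_lit 5) (nat_lit 372) (nat_lit 312)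 (nat_lit 96))))) (XT.nd (nat_lit 234) (nat_lit 304) (nat_lit 0) (XT.nd (nat_lit 78) (nat_lit 228) (nat_lit 0) (XT.lf (nat_lit 0) (nat_lit 34744416701) (nat_lit 228) (nat_lit 4583099367) (nat_lit 304) (nat_lit 17870944962) (nat_lit 55) (nat_lit 5) (nat_lit 58) (nat_lit 5) (nat_lit 59) (nat_lit 5) (nat_lit 373) (nat_lit 312) (nat_lit 95)) (XT.nd (nat_lit 78) (nat_lit 0) (nat_lit 0) (XT.lf (nat_lit 0) (nat_lit 1386799972) (nat_lit 228) (nat_lit 47268036018) (nat_lit 304) (nat_lit 9767329549) (nat_lit 52) (nat_lit 5) (nat_lit 55) (nat_lit 5) (nat_lit 56) (nat_lit 5) (nat_lit 374) (nat_lit 312) (nat_lit 94)) (XT.lf (nat_lit 0) (nat_lit 26354569154) (nat_lit 228) (nat_lit 32177541152) (nat_lit 304) (nat_lit 1142368439) (nat_lit 52) (nat_lit 5) (nat_lit 55) (nat_lit 5) (nat_lit 56) (nat_lit 5) (nat_lit 375) (nat_lit 312) (nat_lit 93)))) (XT.nd (nat_lit 78) (nat_lit 228) (nat_lit 0) (XT.lf (nat_lit 0)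 (nat_lit 7588769188) (nat_lit 304) (nat_lit 8969674890) (nat_lit 76) (nat_lit 44403731674) (nat_lit 51) (nat_lit 5) (nat_lit 55) (nat_lit 5) (nat_lit 52) (nat_lit 5) (nat_lit 376) (nat_lit 312) (nat_lit 92)) (XT.nd (nat_lit 78) (nat_lit 0) (nat_lit 0) (XT.lf (nat_lit 0) (nat_lit 16417924805) (nat_lit 228) (nat_lit 297307946) (nat_lit 304) (nat_lit 45568242503) (nat_lit 48) (nat_lit 5) (nat_lit 51) (nat_lit 5) (nat_lit 52) (nat_lit 5) (nat_lit 377) (nat_lit 312) (nat_lit 91)) (XT.lf (nat_lit 0) (nat_lit 26363654383) (nat_lit 304) (nat_lit 21051935055) (nat_lit 76) (nat_lit 16221380805) (nat_lit 48) (nat_lit 5) (nat_lit 52) (nat_lit 5) (nat_lit 49) (nat_lit 5) (nat_lit 378) (nat_lit 312) (nat_lit 90)))))) (XT.nd (nat_lit 35880) (nat_lit 0) (nat_lit 9272) (XT.nd (nat_lit 35646) (nat_lit 0) (nat_lit 9196) (XT.nd (nat_lit 35490) (nat_lit 0) (nat_lit 10260) (XT.lf (nat_lit 0) (nat_lit 4590567950) (nat_lit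 228) (nat_lit 31756621799) (nat_lit 304) (nat_lit 28682511887) (nat_lit 45) (nat_lit 5) (nat_lit 48) (nat_lit 5) (nat_lit 49) (nat_lit 5) (nat_lit 379) (nat_lit 312) (nat_lit 89)) (XT.nd (nat_lit 78) (nat_lit 0) (nat_lit 0) (XT.lf (nat_lit 0) (nat_lit 9334685079) (nat_lit 1140) (nat_lit 272980565) (nat_lit 1140) (nat_lit 272980565) (nat_lit 180) (nat_lit 3) (nat_lit 195) (nat_lit 3) (nat_lit 195) (nat_lit 5) (nat_lit 313) (nat_lit 313) (nat_lit 154)) (XT.lf (nat_lit 76) (nat_lit 8226916339) (nat_lit 0) (nat_lit 10957319494) (nat_lit 1140) (nat_lit 866150033) (nat_lit 181) (nat_lit 5) (nat_lit 180) (nat_lit 3) (nat_lit 195) (nat_lit 5) (nat_lit 314) (nat_lit 313) (nat_lit 153)))) (XT.nd (nat_lit 78) (nat_lit 1064) (nat_lit 0) (XT.lf (nat_lit 76) (nat_lit 17270973628) (nat_lit 0) (nat_lit 2442978031) (nat_lit 1140) (nat_lit 634229303) (nat_lit 181) (nat_lit 5) (nat_lit 180) (nat_lit 3) (nat_lit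 195) (nat_lit 5) (nat_lit 315) (nat_lit 313) (nat_lit 152)) (XT.nd (nat_lit 78) (nat_lit 1140) (nat_lit 0) (XT.lf (nat_lit 76) (nat_lit 5984075810) (nat_lit 0) (nat_lit 14387918900) (nat_lit 1140) (nat_lit 279552784) (nat_lit 182) (nat_lit 5) (nat_lit 181) (nat_lit 5) (nat_lit 196) (nat_lit 5) (nat_lit 316) (nat_lit 313) (nat_lit 151)) (XT.lf (nat_lit 0) (nat_lit 133829069) (nat_lit 1140) (nat_lit 5611539907) (nat_lit 1216) (nat_lit 15217139198) (nat_lit 166) (nat_lit 5) (nat_lit 181) (nat_lit 5) (nat_lit 182) (nat_lit 5) (nat_lit 317) (nat_lit 313) (nat_lit 150))))) (XT.nd (nat_lit 234) (nat_lit 0) (nat_lit 76) (XT.nd (nat_lit 78) (nat_lit 0) (nat_lit 0) (XT.lf (nat_lit 0) (nat_lit 615457056) (nat_lit 1140) (nat_lit 17528731786) (nat_lit 1216) (nat_lit 3136691643) (nat_lit 167) (nat_lit 5) (nat_lit 182) (nat_lit 5) (nat_lit 183) (nat_lit 5) (nat_lit 318) (nat_lit 313) (nat_lit 149)) (XT.nd (nat_lit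 78) (nat_lit 0) (nat_lit 0) (XT.lf (nat_lit 0) (nat_lit 1220139339) (nat_lit 1140) (nat_lit 8156250089) (nat_lit 1216) (nat_lit 12229165841) (nat_lit 167) (nat_lit 5) (nat_lit 182) (nat_lit 5) (nat_lit 183) (nat_lit 5) (nat_lit 319) (nat_lit 313) (nat_lit 148)) (XT.lf (nat_lit 76) (nat_lit 1523762250) (nat_lit 0) (nat_lit 328501563) (nat_lit 1216) (nat_lit 20087436623) (nat_lit 168) (nat_lit 5) (nat_lit 167) (nat_lit 5) (nat_lit 183) (nat_lit 5) (nat_lit 320) (nat_lit 313) (nat_lit 147)))) (XT.nd (nat_lit 78) (nat_lit 0) (nat_lit 0) (XT.lf (nat_lit 0) (nat_lit 2667750892) (nat_lit 1140) (nat_lit 10710798170) (nat_lit 1216) (nat_lit 8900397852) (nat_lit 168) (nat_lit 5) (nat_lit 183) (nat_lit 5) (nat_lit 184) (nat_lit 5) (nat_lit 321) (nat_lit 313) (nat_lit 146)) (XT.nd (nat_lit 78) (nat_lit 0) (nat_lit 76) (XT.lf (nat_lit 0) (nat_lit 3505902626) (nat_lit 1140) (nat_lit 721182085) (nat_lit 1216)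 (nat_lit 18401348737) (nat_lit 168) (nat_lit 5) (nat_lit 183) (nat_lit 5) (nat_lit 184) (nat_lit 5) (nat_lit 322) (nat_lit 313) (nat_lit 145)) (XT.lf (nat_lit 0) (nat_lit 4508984996) (nat_lit 1140) (nat_lit 13281511008) (nat_lit 1216) (nat_lit 5193723403) (nat_lit 169) (nat_lit 5) (nat_lit 184) (nat_lit 5) (nat_lit 185) (nat_lit 5) (nat_lit 323) (nat_lit 313) (nat_lit 144))))))) (XT.nd (nat_lit 936) (nat_lit 3116) (nat_lit 0) (XT.nd (nat_lit 468) (nat_lit 1444) (nat_lit 0) (XT.nd (nat_lit 234) (nat_lit 0) (nat_lit 76) (XT.nd (nat_lit 78) (nat_lit 0) (nat_lit 76) (XT.lf (nat_lit 0) (nat_lit 5586587144) (nat_lit 1140) (nat_lit 2941745445) (nat_lit 1216) (nat_lit 14821021701) (nat_lit 169) (nat_lit 5) (nat_lit 184) (nat_lit 5) (nat_lit 185) (nat_lit 5) (nat_lit 324) (nat_lit 313) (nat_lit 143)) (XT.nd (nat_lit 78) (nat_lit 0) (nat_lit 0) (XT.lf (nat_lit 0) (nat_lit 6777899966) (nat_lit 1140) (nat_lit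 15875613602) (nat_lit 1216) (nat_lit 1069496103) (nat_lit 170) (nat_lit 5) (nat_lit 185) (nat_lit 5) (nat_lit 186) (nat_lit 5) (nat_lit 325) (nat_lit 313) (nat_lit 142)) (XT.lf (nat_lit 0) (nat_lit 8114865483) (nat_lit 1140) (nat_lit 5174683296) (nat_lit 1216) (nat_lit 10815036230) (nat_lit 170) (nat_lit 5) (nat_lit 185) (nat_lit 5) (nat_lit 186) (nat_lit 5) (nat_lit 326) (nat_lit 313) (nat_lit 141)))) (XT.nd (nat_lit 78) (nat_lit 0) (nat_lit 76) (XT.lf (nat_lit 76) (nat_lit 5960199852) (nat_lit 0) (nat_lit 3584639413) (nat_lit 1216) (nat_lit 14951188838) (nat_lit 171) (nat_lit 5) (nat_lit 170) (nat_lit 5) (nat_lit 186) (nat_lit 5) (nat_lit 327) (nat_lit 313) (nat_lit 140)) (XT.nd (nat_lit 78) (nat_lit 0) (nat_lit 0) (XT.lf (nat_lit 0) (nat_lit 11127825402) (nat_lit 1140) (nat_lit 7428081499) (nat_lit 1216) (nat_lit 6340011447) (nat_lit 171) (nat_lit 5) (nat_lit 186) (nat_lit 5) (nat_lit 187)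 (nat_lit 5) (nat_lit 328) (nat_lit 313) (nat_lit 139)) (XT.lf (nat_lit 76) (nat_lit 4053106362) (nat_lit 0) (nat_lit 8775483252) (nat_lit 1216) (nat_lit 12477114077) (nat_lit 172) (nat_lit 5) (nat_lit 171) (nat_lit 5) (nat_lit 187) (nat_lit 5) (nat_lit 329) (nat_lit 313) (nat_lit 138))))) (XT.nd (nat_lit 234) (nat_lit 532) (nat_lit 0) (XT.nd (nat_lit 78) (nat_lit 1140) (nat_lit 0) (XT.lf (nat_lit 0) (nat_lit 14664541017) (nat_lit 1140) (nat_lit 9711250564) (nat_lit 76) (nat_lit 1349472923) (nat_lit 172) (nat_lit 5) (nat_lit 187) (nat_lit 5) (nat_lit 173) (nat_lit 5) (nat_lit 330) (nat_lit 313) (nat_lit 137)) (XT.nd (nat_lit 78) (nat_lit 0) (nat_lit 0) (XT.lf (nat_lit 0) (nat_lit 2127575781) (nat_lit 1140) (nat_lit 14531383179) (nat_lit 1216) (nat_lit 9495358182) (nat_lit 157) (nat_lit 5) (nat_lit 172) (nat_lit 5) (nat_lit 173) (nat_lit 5) (nat_lit 331) (nat_lit 313) (nat_lit 136)) (XT.lf (nat_lit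 0) (nat_lit 14517279768) (nat_lit 1140) (nat_lit 4290127481) (nat_lit 1216) (nat_lit 7786014622) (nat_lit 157) (nat_lit 5) (nat_lit 172) (nat_lit 5) (nat_lit 173) (nat_lit 5) (nat_lit 332) (nat_lit 313) (nat_lit 135)))) (XT.nd (nat_lit 78) (nat_lit 0) (nat_lit 0) (XT.lf (nat_lit 0) (nat_lit 172803835) (nat_lit 532) (nat_lit 20905576077) (nat_lit 608) (nat_lit 5965583959) (nat_lit 150) (nat_lit 5) (nat_lit 157) (nat_lit 5) (nat_lit 158) (nat_lit 5) (nat_lit 333) (nat_lit 313) (nat_lit 134)) (XT.nd (nat_lit 78) (nat_lit 0) (nat_lit 0) (XT.lf (nat_lit 0) (nat_lit 12990094447) (nat_lit 532) (nat_lit 10587720323) (nat_lit 608) (nat_lit 3925403448) (nat_lit 150) (nat_lit 5) (nat_lit 157) (nat_lit 5) (nat_lit 158) (nat_lit 5) (nat_lit 334) (nat_lit 313) (nat_lit 133)) (XT.lf (nat_lit 0) (nat_lit 26149051564) (nat_lit 608) (nat_lit 1788096929) (nat_lit 76) (nat_lit 39203034) (nat_lit 150) (nat_lit 5)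 (nat_lit 158) (nat_lit 5) (nat_lit 151) (nat_lit 5) (nat_lit 335) (nat_lit 313) (nat_lit 132)))))) (XT.nd (nat_lit 468) (nat_lit 1368) (nat_lit 0) (XT.nd (nat_lit 234) (nat_lit 532) (nat_lit 0) (XT.nd (nat_lit 78) (nat_lit 532) (nat_lit 0) (XT.lf (nat_lit 0) (nat_lit 540598148) (nat_lit 684) (nat_lit 17028952903) (nat_lit 76) (nat_lit 10887636176) (nat_lit 141) (nat_lit 5) (nat_lit 150) (nat_lit 5) (nat_lit 142) (nat_lit 5) (nat_lit 336) (nat_lit 313) (nat_lit 131)) (XT.nd (nat_lit 78) (nat_lit 532) (nat_lit 0) (XT.lf (nat_lit 0) (nat_lit 2957613237) (nat_lit 684) (nat_lit 3895780005) (nat_lit 76) (nat_lit 22098073184) (nat_lit 141) (nat_lit 5) (nat_lit 150) (nat_lit 5) (nat_lit 142) (nat_lit 5) (nat_lit 337) (nat_lit 313) (nat_lit 130)) (XT.lf (nat_lit 0) (nat_lit 5579361608) (nat_lit 608) (nat_lit 19679213037) (nat_lit 76) (nat_lit 4198037911) (nat_lit 134) (nat_lit 5) (nat_lit 142) (nat_lit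 5) (nat_lit 135) (nat_lit 5) (nat_lit 338) (nat_lit 313) (nat_lit 129)))) (XT.nd (nat_lit 78) (nat_lit 532) (nat_lit 0) (XT.lf (nat_lit 0) (nat_lit 8384085874) (nat_lit 608) (nat_lit 6106631926) (nat_lit 76) (nat_lit 15483070656) (nat_lit 134) (nat_lit 5) (nat_lit 142) (nat_lit 5) (nat_lit 135) (nat_lit 5) (nat_lit 339) (nat_lit 313) (nat_lit 128)) (XT.nd (nat_lit 78) (nat_lit 0) (nat_lit 0) (XT.lf (nat_lit 0) (nat_lit 8026561245) (nat_lit 532) (nat_lit 3320380649) (nat_lit 608) (nat_lit 19157322979) (nat_lit 127) (nat_lit 5) (nat_lit 134) (nat_lit 5) (nat_lit 135) (nat_lit 5) (nat_lit 340) (nat_lit 313) (nat_lit 127)) (XT.lf (nat_lit 0) (nat_lit 14536534110) (nat_lit 608) (nat_lit 8422424440) (nat_lit 76) (nat_lit 8087566313) (nat_lit 127) (nat_lit 5) (nat_lit 135) (nat_lit 5) (nat_lit 128) (nat_lit 5) (nat_lit 341) (nat_lit 313) (nat_lit 126))))) (XT.nd (nat_lit 234) (nat_lit 456) (nat_lit 0)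 (XT.nd (nat_lit 78) (nat_lit 456) (nat_lit 0) (XT.lf (nat_lit 0) (nat_lit 6138253843) (nat_lit 456) (nat_lit 11772425483) (nat_lit 532) (nat_lit 13691712026) (nat_lit 121) (nat_lit 5) (nat_lit 127) (nat_lit 5) (nat_lit 128) (nat_lit 5) (nat_lit 342) (nat_lit 313) (nat_lit 125)) (XT.nd (nat_lit 78) (nat_lit 456) (nat_lit 0) (XT.lf (nat_lit 0) (nat_lit 21305271271) (nat_lit 456) (nat_lit 162870817) (nat_lit 532) (nat_lit 10704333473) (nat_lit 121) (nat_lit 5) (nat_lit 127) (nat_lit 5) (nat_lit 128) (nat_lit 5) (nat_lit 343) (nat_lit 313) (nat_lit 124)) (XT.lf (nat_lit 0) (nat_lit 4131751531) (nat_lit 456) (nat_lit 21150802292) (nat_lit 532) (nat_lit 7472606112) (nat_lit 115) (nat_lit 5) (nat_lit 121) (nat_lit 5) (nat_lit 122) (nat_lit 5) (nat_lit 344) (nat_lit 313) (nat_lit 123)))) (XT.nd (nat_lit 78) (nat_lit 456) (nat_lit 0) (XT.lf (nat_lit 0) (nat_lit 19798698801) (nat_lit 456) (nat_lit 9521214895)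 (nat_lit 532) (nat_lit 4032159931) (nat_lit 115) (nat_lit 5) (nat_lit 121) (nat_lit 5) (nat_lit 122) (nat_lit 5) (nat_lit 345) (nat_lit 313) (nat_lit 122)) (XT.nd (nat_lit 78) (nat_lit 76) (nat_lit 0) (XT.lf (nat_lit 0) (nat_lit 1980696686) (nat_lit 380) (nat_lit 31537619060) (nat_lit 456) (nat_lit 447385479) (nat_lit 110) (nat_lit 5) (nat_lit 115) (nat_lit 5) (nat_lit 116) (nat_lit 5) (nat_lit 346) (nat_lit 313) (nat_lit 121)) (XT.lf (nat_lit 0) (nat_lit 3411379732) (nat_lit 456) (nat_lit 16464947943) (nat_lit 76) (nat_lit 14713585073) (nat_lit 109) (nat_lit 5) (nat_lit 115) (nat_lit 5) (nat_lit 110) (nat_lit 5) (nat_lit 347) (nat_lit 313) (nat_lit 120))))))))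
noncomputable def xc226 : XT := (XT.nd (nat_lit 1794) (nat_lit 1064) (nat_lit 0) (XT.nd (nat_lit 858) (nat_lit 1596) (nat_lit 0) (XT.nd (nat_lit 390) (nat_lit 1140) (nat_lit 0) (XT.nd (nat_lit 156) (nat_lit 380) (nat_lit 0) (XT.nd (nat_lit 78) (nat_lit 456) (nat_lit 0) (XT.lf (nat_lit 0) (nat_lit 7374275899) (nat_lit 456) (nat_lit 486748922) (nat_lit 76) (nat_lit 27371775897) (nat_lit 109) (nat_lit 5) (nat_lit 115) (nat_lit 5) (nat_lit 110) (nat_lit 5) (nat_lit 348) (nat_lit 313) (nat_lit 119)) (XT.lf (nat_lit 0) (nat_lit 11654988195) (nat_lit 532) (nat_lit 19649658005) (nat_lit 76) (nat_lit 4584364923) (nat_lit 103) (nat_lit 5) (nat_lit 110) (nat_lit 5) (nat_lit 104) (nat_lit 5) (nat_lit 349) (nat_lit 313) (nat_lit 118))) (XT.nd (nat_lit 78) (nat_lit 380) (nat_lit 0) (XT.lf (nat_lit 0) (nat_lit 16144397407) (nat_lit 532) (nat_lit 3168412769) (nat_lit 76) (nat_lit 17249692968) (nat_lit 103) (nat_lit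 5) (nat_lit 110) (nat_lit 5) (nat_lit 104) (nat_lit 5) (nat_lit 350) (nat_lit 313) (nat_lit 117)) (XT.nd (nat_lit 78) (nat_lit 0) (nat_lit 0) (XT.lf (nat_lit 0) (nat_lit 14079102973) (nat_lit 380) (nat_lit 6822276022) (nat_lit 456) (nat_lit 16350837693) (nat_lit 98) (nat_lit 5) (nat_lit 103) (nat_lit 5) (nat_lit 104) (nat_lit 5) (nat_lit 351) (nat_lit 313) (nat_lit 116)) (XT.lf (nat_lit 0) (nat_lit 25889062626) (nat_lit 456) (nat_lit 6114017166) (nat_lit 76) (nat_lit 5956905432) (nat_lit 98) (nat_lit 5) (nat_lit 104) (nat_lit 5) (nat_lit 99) (nat_lit 5) (nat_lit 352) (nat_lit 313) (nat_lit 115))))) (XT.nd (nat_lit 234) (nat_lit 380) (nat_lit 0) (XT.nd (nat_lit 78) (nat_lit 380) (nat_lit 0) (XT.lf (nat_lit 0) (nat_lit 11613059979) (nat_lit 380) (nat_lit 19590158332) (nat_lit 456) (nat_lit 7480466526) (nat_lit 93) (nat_lit 5) (nat_lit 98) (nat_lit 5) (nat_lit 99) (nat_lit 5) (nat_lit 353) (nat_lit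 313) (nat_lit 114)) (XT.nd (nat_lit 78) (nat_lit 380) (nat_lit 0) (XT.lf (nat_lit 0) (nat_lit 29994451173) (nat_lit 380) (nat_lit 6741790385) (nat_lit 456) (nat_lit 2691073763) (nat_lit 93) (nat_lit 5) (nat_lit 98) (nat_lit 5) (nat_lit 99) (nat_lit 5) (nat_lit 354) (nat_lit 313) (nat_lit 113)) (XT.lf (nat_lit 0) (nat_lit 2344844398) (nat_lit 380) (nat_lit 31370553527) (nat_lit 76) (nat_lit 6472815447) (nat_lit 88) (nat_lit 5) (nat_lit 93) (nat_lit 5) (nat_lit 89) (nat_lit 5) (nat_lit 355) (nat_lit 313) (nat_lit 112)))) (XT.nd (nat_lit 78) (nat_lit 380) (nat_lit 0) (XT.lf (nat_lit 0) (nat_lit 7638477993) (nat_lit 380) (nat_lit 13257186275) (nat_lit 76) (nat_lit 20070655894) (nat_lit 88) (nat_lit 5) (nat_lit 93) (nat_lit 5) (nat_lit 89) (nat_lit 5) (nat_lit 356) (nat_lit 313) (nat_lit 111)) (XT.nd (nat_lit 78) (nat_lit 0) (nat_lit 0) (XT.lf (nat_lit 0) (nat_lit 5504240281) (nat_lit 380) (nat_lit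 7637434005) (nat_lit 456) (nat_lit 28624576077) (nat_lit 83) (nat_lit 5) (nat_lit 88) (nat_lit 5) (nat_lit 89) (nat_lit 5) (nat_lit 357) (nat_lit 313) (nat_lit 110)) (XT.lf (nat_lit 0) (nat_lit 19000891849) (nat_lit 456) (nat_lit 17547855596) (nat_lit 76) (nat_lit 6035706000) (nat_lit 83) (nat_lit 5) (nat_lit 89) (nat_lit 5) (nat_lit 84) (nat_lit 5) (nat_lit 358) (nat_lit 313) (nat_lit 109)))))) (XT.nd (nat_lit 468) (nat_lit 608) (nat_lit 0) (XT.nd (nat_lit 234) (nat_lit 684) (nat_lit 0) (XT.nd (nat_lit 78) (nat_lit 0) (nat_lit 0) (XT.lf (nat_lit 0) (nat_lit 1682229936) (nat_lit 304) (nat_lit 23443381107) (nat_lit 380) (nat_lit 18298902477) (nat_lit 79) (nat_lit 5) (nat_lit 83) (nat_lit 5) (nat_lit 84) (nat_lit 5) (nat_lit 359) (nat_lit 313) (nat_lit 108)) (XT.nd (nat_lit 78) (nat_lit 0) (nat_lit 0) (XT.lf (nat_lit 0) (nat_lit 21846256564) (nat_lit 304) (nat_lit 9762984898) (nat_lit 380) (nat_lit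 12675281425) (nat_lit 79) (nat_lit 5) (nat_lit 83) (nat_lit 5) (nat_lit 84) (nat_lit 5) (nat_lit 360) (nat_lit 313) (nat_lit 107)) (XT.lf (nat_lit 0) (nat_lit 38327006268) (nat_lit 380) (nat_lit 2599383195) (nat_lit 76) (nat_lit 4242756811) (nat_lit 79) (nat_lit 5) (nat_lit 84) (nat_lit 5) (nat_lit 80) (nat_lit 5) (nat_lit 361) (nat_lit 313) (nat_lit 106)))) (XT.nd (nat_lit 78) (nat_lit 380) (nat_lit 0) (XT.lf (nat_lit 0) (nat_lit 18088397298) (nat_lit 304) (nat_lit 27426528027) (nat_lit 380) (nat_lit 557326829) (nat_lit 75) (nat_lit 5) (nat_lit 79) (nat_lit 5) (nat_lit 80) (nat_lit 5) (nat_lit 362) (nat_lit 313) (nat_lit 105)) (XT.nd (nat_lit 78) (nat_lit 304) (nat_lit 0) (XT.lf (nat_lit 0) (nat_lit 5825187952) (nat_lit 380) (nat_lit 7611286843) (nat_lit 76) (nat_lit 33563534643) (nat_lit 74) (nat_lit 5) (nat_lit 79) (nat_lit 5) (nat_lit 75) (nat_lit 5) (nat_lit 363) (nat_lit 313) (nat_lit 104))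 (XT.lf (nat_lit 0) (nat_lit 12527848826) (nat_lit 380) (nat_lit 34331859154) (nat_lit 76) (nat_lit 1091531969) (nat_lit 70) (nat_lit 5) (nat_lit 75) (nat_lit 5) (nat_lit 71) (nat_lit 5) (nat_lit 364) (nat_lit 313) (nat_lit 103))))) (XT.nd (nat_lit 234) (nat_lit 304) (nat_lit 0) (XT.nd (nat_lit 78) (nat_lit 304) (nat_lit 0) (XT.lf (nat_lit 0) (nat_lit 19640414883) (nat_lit 380) (nat_lit 13422045622) (nat_lit 76) (nat_lit 15862284271) (nat_lit 70) (nat_lit 5) (nat_lit 75) (nat_lit 5) (nat_lit 71) (nat_lit 5) (nat_lit 365) (nat_lit 313) (nat_lit 102)) (XT.nd (nat_lit 78) (nat_lit 0) (nat_lit 0) (XT.lf (nat_lit 0) (nat_lit 8274051865) (nat_lit 304) (nat_lit 18770065478) (nat_lit 380) (nat_lit 22881006719) (nat_lit 66) (nat_lit 5) (nat_lit 70) (nat_lit 5) (nat_lit 71) (nat_lit 5) (nat_lit 366) (nat_lit 313) (nat_lit 101)) (XT.lf (nat_lit 0) (nat_lit 30893728236) (nat_lit 304) (nat_lit 3909991399) (nat_lit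 380) (nat_lit 16147783463) (nat_lit 66) (nat_lit 5) (nat_lit 70) (nat_lit 5) (nat_lit 71) (nat_lit 5) (nat_lit 367) (nat_lit 313) (nat_lit 100)))) (XT.nd (nat_lit 78) (nat_lit 76) (nat_lit 0) (XT.lf (nat_lit 0) (nat_lit 2112583226) (nat_lit 228) (nat_lit 40811675256) (nat_lit 304) (nat_lit 9080572545) (nat_lit 63) (nat_lit 5) (nat_lit 66) (nat_lit 5) (nat_lit 67) (nat_lit 5) (nat_lit 368) (nat_lit 313) (nat_lit 99)) (XT.nd (nat_lit 78) (nat_lit 76) (nat_lit 0) (XT.lf (nat_lit 0) (nat_lit 25317339182) (nat_lit 228) (nat_lit 26210275177) (nat_lit 304) (nat_lit 1554970327) (nat_lit 63) (nat_lit 5) (nat_lit 66) (nat_lit 5) (nat_lit 67) (nat_lit 5) (nat_lit 369) (nat_lit 313) (nat_lit 98)) (XT.lf (nat_lit 0) (nat_lit 6073840182) (nat_lit 304) (nat_lit 5036355898) (nat_lit 76) (nat_lit 43080739147) (nat_lit 62) (nat_lit 5) (nat_lit 66) (nat_lit 5) (nat_lit 63) (nat_lit 5) (nat_lit 370) (nat_lit 313)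 (nat_lit 97))))))) (XT.nd (nat_lit 36504) (nat_lit 0) (nat_lit 8968) (XT.nd (nat_lit 468) (nat_lit 304) (nat_lit 0) (XT.nd (nat_lit 234) (nat_lit 228) (nat_lit 0) (XT.nd (nat_lit 78) (nat_lit 228) (nat_lit 0) (XT.lf (nat_lit 0) (nat_lit 14123267037) (nat_lit 380) (nat_lit 36649311635) (nat_lit 76) (nat_lit 4552807334) (nat_lit 58) (nat_lit 5) (nat_lit 63) (nat_lit 5) (nat_lit 59) (nat_lit 5) (nat_lit 371) (nat_lit 313) (nat_lit 96)) (XT.nd (nat_lit 78) (nat_lit 228) (nat_lit 0) (XT.lf (nat_lit 0) (nat_lit 22573959791) (nat_lit 380) (nat_lit 13402042378) (nat_lit 76) (nat_lit 20513076350) (nat_lit 58) (nat_lit 5) (nat_lit 63) (nat_lit 5) (nat_lit 59) (nat_lit 5) (nat_lit 372) (nat_lit 313) (nat_lit 95)) (XT.lf (nat_lit 0) (nat_lit 10750176694) (nat_lit 228) (nat_lit 20629800214) (nat_lit 304) (nat_lit 26304652447) (nat_lit 55) (nat_lit 5) (nat_lit 58) (nat_lit 5) (nat_lit 59) (nat_lit 5) (nat_lit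 373) (nat_lit 313) (nat_lit 94)))) (XT.nd (nat_lit 78) (nat_lit 228) (nat_lit 0) (XT.lf (nat_lit 0) (nat_lit 35899470128) (nat_lit 228) (nat_lit 4684528388) (nat_lit 304) (nat_lit 18328035087) (nat_lit 55) (nat_lit 5) (nat_lit 58) (nat_lit 5) (nat_lit 59) (nat_lit 5) (nat_lit 374) (nat_lit 313) (nat_lit 93)) (XT.nd (nat_lit 78) (nat_lit 0) (nat_lit 0) (XT.lf (nat_lit 0) (nat_lit 1542034431) (nat_lit 228) (nat_lit 48648299735) (nat_lit 304) (nat_lit 9982141573) (nat_lit 52) (nat_lit 5) (nat_lit 55) (nat_lit 5) (nat_lit 56) (nat_lit 5) (nat_lit 375) (nat_lit 313) (nat_lit 92)) (XT.lf (nat_lit 0) (nat_lit 27255527063) (nat_lit 228) (nat_lit 33106190334) (nat_lit 304) (nat_lit 1100709529) (nat_lit 52) (nat_lit 5) (nat_lit 55) (nat_lit 5) (nat_lit 56) (nat_lit 5) (nat_lit 376) (nat_lit 313) (nat_lit 91))))) (XT.nd (nat_lit 35802) (nat_lit 0) (nat_lit 8968) (XT.nd (nat_lit 78) (nat_lit 228) (nat_lit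 0) (XT.lf (nat_lit 0) (nat_lit 7888712162) (nat_lit 304) (nat_lit 9130146564) (nat_lit 76) (nat_lit 45769941446) (nat_lit 51) (nat_lit 5) (nat_lit 55) (nat_lit 5) (nat_lit 52) (nat_lit 5) (nat_lit 377) (nat_lit 313) (nat_lit 90)) (XT.nd (nat_lit 35646) (nat_lit 0) (nat_lit 10032) (XT.lf (nat_lit 0) (nat_lit 17018016234) (nat_lit 228) (nat_lit 269882031) (nat_lit 304) (nat_lit 46861874647) (nat_lit 48) (nat_lit 5) (nat_lit 51) (nat_lit 5) (nat_lit 52) (nat_lit 5) (nat_lit 378) (nat_lit 313) (nat_lit 89)) (XT.lf (nat_lit 0) (nat_lit 9768971505) (nat_lit 1140) (nat_lit 201594115) (nat_lit 1140) (nat_lit 201594115) (nat_lit 180) (nat_lit 3) (nat_lit 195) (nat_lit 3) (nat_lit 195) (nat_lit 5) (nat_lit 314) (nat_lit 314) (nat_lit 152)))) (XT.nd (nat_lit 78) (nat_lit 1064) (nat_lit 0) (XT.lf (nat_lit 76) (nat_lit 8631315252) (nat_lit 0) (nat_lit 11429469070) (nat_lit 1140) (nat_lit 581541730) (nat_lit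 181) (nat_lit 5) (nat_lit 180) (nat_lit 3) (nat_lit 195) (nat_lit 5) (nat_lit 315) (nat_lit 314) (nat_lit 151)) (XT.nd (nat_lit 78) (nat_lit 1064) (nat_lit 0) (XT.lf (nat_lit 76) (nat_lit 17942104219) (nat_lit 0) (nat_lit 2655519791) (nat_lit 1140) (nat_lit 351709770) (nat_lit 181) (nat_lit 5) (nat_lit 180) (nat_lit 3) (nat_lit 195) (nat_lit 5) (nat_lit 316) (nat_lit 314) (nat_lit 150)) (XT.lf (nat_lit 0) (nat_lit 4990479) (nat_lit 1140) (nat_lit 14936486739) (nat_lit 1216) (nat_lit 6320585543) (nat_lit 166) (nat_lit 5) (nat_lit 181) (nat_lit 5) (nat_lit 182) (nat_lit 5) (nat_lit 317) (nat_lit 314) (nat_lit 149)))))) (XT.nd (nat_lit 468) (nat_lit 0) (nat_lit 228) (XT.nd (nat_lit 234) (nat_lit 0) (nat_lit 76) (XT.nd (nat_lit 78) (nat_lit 0) (nat_lit 76) (XT.lf (nat_lit 0) (nat_lit 416786770) (nat_lit 1140) (nat_lit 5616545088) (nat_lit 1216) (nat_lit 15549202829) (nat_lit 166) (nat_lit 5) (nat_lit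 181) (nat_lit 5) (nat_lit 182) (nat_lit 5) (nat_lit 318) (nat_lit 314) (nat_lit 148)) (XT.nd (nat_lit 78) (nat_lit 0) (nat_lit 0) (XT.lf (nat_lit 0) (nat_lit 905230313) (nat_lit 1140) (nat_lit 17883152986) (nat_lit 1216) (nat_lit 3122317861) (nat_lit 167) (nat_lit 5) (nat_lit 182) (nat_lit 5) (nat_lit 183) (nat_lit 5) (nat_lit 319) (nat_lit 314) (nat_lit 147)) (XT.lf (nat_lit 0) (nat_lit 1520150845) (nat_lit 1140) (nat_lit 8234490258) (nat_lit 1216) (nat_lit 12490725738) (nat_lit 167) (nat_lit 5) (nat_lit 182) (nat_lit 5) (nat_lit 183) (nat_lit 5) (nat_lit 320) (nat_lit 314) (nat_lit 146)))) (XT.nd (nat_lit 78) (nat_lit 0) (nat_lit 76) (XT.lf (nat_lit 76) (nat_lit 1734290615) (nat_lit 0) (nat_lit 430860687) (nat_lit 1216) (nat_lit 20424580882) (nat_lit 168) (nat_lit 5) (nat_lit 167) (nat_lit 5) (nat_lit 183) (nat_lit 5) (nat_lit 321) (nat_lit 314) (nat_lit 145)) (XT.nd (nat_lit 78) (nat_lit 0)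 (nat_lit 0) (XT.lf (nat_lit 0) (nat_lit 2996744942) (nat_lit 1140) (nat_lit 10863322146) (nat_lit 1216) (nat_lit 9079352517) (nat_lit 168) (nat_lit 5) (nat_lit 183) (nat_lit 5) (nat_lit 184) (nat_lit 5) (nat_lit 322) (nat_lit 314) (nat_lit 144)) (XT.lf (nat_lit 0) (nat_lit 3852789922) (nat_lit 1140) (nat_lit 578934083) (nat_lit 1216) (nat_lit 18867896703) (nat_lit 168) (nat_lit 5) (nat_lit 183) (nat_lit 5) (nat_lit 184) (nat_lit 5) (nat_lit 323) (nat_lit 314) (nat_lit 143))))) (XT.nd (nat_lit 234) (nat_lit 0) (nat_lit 76) (XT.nd (nat_lit 78) (nat_lit 0) (nat_lit 0) (XT.lf (nat_lit 0) (nat_lit 4879773679) (nat_lit 1140) (nat_lit 13509479423) (nat_lit 1216) (nat_lit 5277024946) (nat_lit 169) (nat_lit 5) (nat_lit 184) (nat_lit 5) (nat_lit 185) (nat_lit 5) (nat_lit 324) (nat_lit 314) (nat_lit 142)) (XT.nd (nat_lit 78) (nat_lit 0) (nat_lit 76) (XT.lf (nat_lit 0) (nat_lit 5982844111) (nat_lit 1140)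 (nat_lit 2864486240) (nat_lit 1216) (nat_lit 15195254140) (nat_lit 169) (nat_lit 5) (nat_lit 184) (nat_lit 5) (nat_lit 185) (nat_lit 5) (nat_lit 325) (nat_lit 314) (nat_lit 141)) (XT.lf (nat_lit 0) (nat_lit 7204237999) (nat_lit 1140) (nat_lit 16180332854) (nat_lit 1216) (nat_lit 1043059807) (nat_lit 170) (nat_lit 5) (nat_lit 185) (nat_lit 5) (nat_lit 186) (nat_lit 5) (nat_lit 326) (nat_lit 314) (nat_lit 140)))) (XT.nd (nat_lit 78) (nat_lit 0) (nat_lit 0) (XT.lf (nat_lit 0) (nat_lit 8574817307) (nat_lit 1140) (nat_lit 5163371217) (nat_lit 1216) (nat_lit 11082670638) (nat_lit 170) (nat_lit 5) (nat_lit 185) (nat_lit 5) (nat_lit 186) (nat_lit 5) (nat_lit 327) (nat_lit 314) (nat_lit 139)) (XT.nd (nat_lit 78) (nat_lit 0) (nat_lit 76) (XT.lf (nat_lit 76) (nat_lit 6303925557) (nat_lit 0) (nat_lit 3739044057) (nat_lit 1216) (nat_lit 15181228278) (nat_lit 171) (nat_lit 5) (nat_lit 170) (nat_lit 5) (nat_lit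 186) (nat_lit 5) (nat_lit 328) (nat_lit 314) (nat_lit 138)) (XT.lf (nat_lit 0) (nat_lit 11666839458) (nat_lit 1140) (nat_lit 7483854757) (nat_lit 1216) (nat_lit 6485599219) (nat_lit 171) (nat_lit 5) (nat_lit 186) (nat_lit 5) (nat_lit 187) (nat_lit 5) (nat_lit 329) (nat_lit 314) (nat_lit 137))))))))
noncomputable def xc227 : XT := (XT.nd (nat_lit 1872) (nat_lit 3496) (nat_lit 0) (XT.nd (nat_lit 936) (nat_lit 2204) (nat_lit 0) (XT.nd (nat_lit 468) (nat_lit 1748) (nat_lit 0) (XT.nd (nat_lit 234) (nat_lit 532) (nat_lit 0) (XT.nd (nat_lit 78) (nat_lit 1064) (nat_lit 0) (XT.lf (nat_lit 76) (nat_lit 4340130806) (nat_lit 0) (nat_lit 9074109920) (nat_lit 1216) (nat_lit 12644273297) (nat_lit 172) (nat_lit 5) (nat_lit 171) (nat_lit 5) (nat_lit 187) (nat_lit 5) (nat_lit 330) (nat_lit 314) (nat_lit 136)) (XT.nd (nat_lit 78) (nat_lit 1140) (nat_lit 0) (XT.lf (nat_lit 0) (nat_lit 15299092298) (nat_lit 1140)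 (nat_lit 9835469678) (nat_lit 76) (nat_lit 1356294851) (nat_lit 172) (nat_lit 5) (nat_lit 187) (nat_lit 5) (nat_lit 173) (nat_lit 5) (nat_lit 331) (nat_lit 314) (nat_lit 135)) (XT.lf (nat_lit 0) (nat_lit 2356883042) (nat_lit 1140) (nat_lit 14992382032) (nat_lit 1216) (nat_lit 9583647829) (nat_lit 157) (nat_lit 5) (nat_lit 172) (nat_lit 5) (nat_lit 173) (nat_lit 5) (nat_lit 332) (nat_lit 314) (nat_lit 134)))) (XT.nd (nat_lit 78) (nat_lit 532) (nat_lit 0) (XT.lf (nat_lit 0) (nat_lit 15113458343) (nat_lit 1140) (nat_lit 4443158837) (nat_lit 1216) (nat_lit 7828749334) (nat_lit 157) (nat_lit 5) (nat_lit 172) (nat_lit 5) (nat_lit 173) (nat_lit 5) (nat_lit 333) (nat_lit 314) (nat_lit 133)) (XT.nd (nat_lit 78) (nat_lit 0) (nat_lit 0) (XT.lf (nat_lit 0) (nat_lit 343105171) (nat_lit 532) (nat_lit 21548586028) (nat_lit 608) (nat_lit 5957863392) (nat_lit 150) (nat_lit 5) (nat_lit 157) (nat_lit 5) (nat_lit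 158) (nat_lit 5) (nat_lit 334) (nat_lit 314) (nat_lit 132)) (XT.lf (nat_lit 0) (nat_lit 13540105262) (nat_lit 532) (nat_lit 10920733164) (nat_lit 608) (nat_lit 3861914983) (nat_lit 150) (nat_lit 5) (nat_lit 157) (nat_lit 5) (nat_lit 158) (nat_lit 5) (nat_lit 335) (nat_lit 314) (nat_lit 131))))) (XT.nd (nat_lit 234) (nat_lit 1064) (nat_lit 0) (XT.nd (nat_lit 78) (nat_lit 684) (nat_lit 0) (XT.lf (nat_lit 0) (nat_lit 27103951616) (nat_lit 608) (nat_lit 1680558098) (nat_lit 76) (nat_lit 25737292) (nat_lit 150) (nat_lit 5) (nat_lit 158) (nat_lit 5) (nat_lit 151) (nat_lit 5) (nat_lit 336) (nat_lit 314) (nat_lit 130)) (XT.nd (nat_lit 78) (nat_lit 0) (nat_lit 0) (XT.lf (nat_lit 0) (nat_lit 725736946) (nat_lit 684) (nat_lit 17376592096) (nat_lit 76) (nat_lit 11203240164) (nat_lit 141) (nat_lit 5) (nat_lit 150) (nat_lit 5) (nat_lit 142) (nat_lit 5) (nat_lit 337) (nat_lit 314) (nat_lit 129)) (XT.lf (nat_lit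 0) (nat_lit 3210342463) (nat_lit 684) (nat_lit 3854178266) (nat_lit 76) (nat_lit 22750311401) (nat_lit 141) (nat_lit 5) (nat_lit 150) (nat_lit 5) (nat_lit 142) (nat_lit 5) (nat_lit 338) (nat_lit 314) (nat_lit 128)))) (XT.nd (nat_lit 78) (nat_lit 532) (nat_lit 0) (XT.lf (nat_lit 0) (nat_lit 5907438353) (nat_lit 608) (nat_lit 20107558614) (nat_lit 76) (nat_lit 4320242347) (nat_lit 134) (nat_lit 5) (nat_lit 142) (nat_lit 5) (nat_lit 135) (nat_lit 5) (nat_lit 339) (nat_lit 314) (nat_lit 127)) (XT.nd (nat_lit 78) (nat_lit 532) (nat_lit 0) (XT.lf (nat_lit 0) (nat_lit 8791623884) (nat_lit 608) (nat_lit 6132519414) (nat_lit 76) (nat_lit 15943934910) (nat_lit 134) (nat_lit 5) (nat_lit 142) (nat_lit 5) (nat_lit 135) (nat_lit 5) (nat_lit 340) (nat_lit 314) (nat_lit 126)) (XT.lf (nat_lit 0) (nat_lit 8423127282) (nat_lit 532) (nat_lit 3417191512) (nat_lit 608) (nat_lit 19574248618) (nat_lit 127) (nat_lit 5)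 (nat_lit 134) (nat_lit 5) (nat_lit 135) (nat_lit 5) (nat_lit 341) (nat_lit 314) (nat_lit 125)))))) (XT.nd (nat_lit 468) (nat_lit 912) (nat_lit 0) (XT.nd (nat_lit 234) (nat_lit 836) (nat_lit 0) (XT.nd (nat_lit 78) (nat_lit 456) (nat_lit 0) (XT.lf (nat_lit 0) (nat_lit 15121169516) (nat_lit 608) (nat_lit 8519206215) (nat_lit 76) (nat_lit 8332859232) (nat_lit 127) (nat_lit 5) (nat_lit 135) (nat_lit 5) (nat_lit 128) (nat_lit 5) (nat_lit 342) (nat_lit 314) (nat_lit 124)) (XT.nd (nat_lit 78) (nat_lit 0) (nat_lit 0) (XT.lf (nat_lit 0) (nat_lit 6476764074) (nat_lit 456) (nat_lit 12116932453) (nat_lit 532) (nat_lit 13952172880) (nat_lit 121) (nat_lit 5) (nat_lit 127) (nat_lit 5) (nat_lit 128) (nat_lit 5) (nat_lit 343) (nat_lit 314) (nat_lit 123)) (XT.lf (nat_lit 0) (nat_lit 22094296027) (nat_lit 456) (nat_lit 159343549) (nat_lit 532) (nat_lit 10879550365) (nat_lit 121) (nat_lit 5) (nat_lit 127) (nat_lit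 5) (nat_lit 128) (nat_lit 5) (nat_lit 344) (nat_lit 314) (nat_lit 122)))) (XT.nd (nat_lit 78) (nat_lit 380) (nat_lit 0) (XT.lf (nat_lit 0) (nat_lit 4408437496) (nat_lit 456) (nat_lit 21771472855) (nat_lit 532) (nat_lit 7553527992) (nat_lit 115) (nat_lit 5) (nat_lit 121) (nat_lit 5) (nat_lit 122) (nat_lit 5) (nat_lit 345) (nat_lit 314) (nat_lit 121)) (XT.nd (nat_lit 78) (nat_lit 380) (nat_lit 0) (XT.lf (nat_lit 0) (nat_lit 20540944638) (nat_lit 456) (nat_lit 9793401337) (nat_lit 532) (nat_lit 4014040939) (nat_lit 115) (nat_lit 5) (nat_lit 121) (nat_lit 5) (nat_lit 122) (nat_lit 5) (nat_lit 346) (nat_lit 314) (nat_lit 120)) (XT.lf (nat_lit 0) (nat_lit 2191027931) (nat_lit 380) (nat_lit 32465321093) (nat_lit 456) (nat_lit 324150787) (nat_lit 110) (nat_lit 5) (nat_lit 115) (nat_lit 5) (nat_lit 116) (nat_lit 5) (nat_lit 347) (nat_lit 314) (nat_lit 119))))) (XT.nd (nat_lit 234) (nat_lit 380) (nat_lit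 0) (XT.nd (nat_lit 78) (nat_lit 456) (nat_lit 0) (XT.lf (nat_lit 0) (nat_lit 3643808116) (nat_lit 456) (nat_lit 16809605923) (nat_lit 76) (nat_lit 15170106907) (nat_lit 109) (nat_lit 5) (nat_lit 115) (nat_lit 5) (nat_lit 110) (nat_lit 5) (nat_lit 348) (nat_lit 314) (nat_lit 118)) (XT.nd (nat_lit 78) (nat_lit 456) (nat_lit 0) (XT.lf (nat_lit 0) (nat_lit 7721802226) (nat_lit 456) (nat_lit 356409197) (nat_lit 76) (nat_lit 28207603234) (nat_lit 109) (nat_lit 5) (nat_lit 115) (nat_lit 5) (nat_lit 110) (nat_lit 5) (nat_lit 349) (nat_lit 314) (nat_lit 117)) (XT.lf (nat_lit 0) (nat_lit 12128824579) (nat_lit 532) (nat_lit 20091918375) (nat_lit 76) (nat_lit 4741037036) (nat_lit 103) (nat_lit 5) (nat_lit 110) (nat_lit 5) (nat_lit 104) (nat_lit 5) (nat_lit 350) (nat_lit 314) (nat_lit 116)))) (XT.nd (nat_lit 78) (nat_lit 380) (nat_lit 0) (XT.lf (nat_lit 0) (nat_lit 16749298978) (nat_lit 532) (nat_lit 3120524016)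 (nat_lit 76) (nat_lit 17785767413) (nat_lit 103) (nat_lit 5) (nat_lit 110) (nat_lit 5) (nat_lit 104) (nat_lit 5) (nat_lit 351) (nat_lit 314) (nat_lit 115)) (XT.nd (nat_lit 78) (nat_lit 0) (nat_lit 0) (XT.lf (nat_lit 0) (nat_lit 14643015815) (nat_lit 380) (nat_lit 7003823028) (nat_lit 456) (nat_lit 16719226022) (nat_lit 98) (nat_lit 5) (nat_lit 103) (nat_lit 5) (nat_lit 104) (nat_lit 5) (nat_lit 352) (nat_lit 314) (nat_lit 114)) (XT.lf (nat_lit 0) (nat_lit 26780919683) (nat_lit 456) (nat_lit 6156626205) (nat_lit 76) (nat_lit 6157622396) (nat_lit 98) (nat_lit 5) (nat_lit 104) (nat_lit 5) (nat_lit 99) (nat_lit 5) (nat_lit 353) (nat_lit 314) (nat_lit 113))))))) (XT.nd (nat_lit 936) (nat_lit 1368) (nat_lit 0) (XT.nd (nat_lit 468) (nat_lit 988) (nat_lit 0) (XT.nd (nat_lit 234) (nat_lit 380) (nat_lit 0) (XT.nd (nat_lit 78) (nat_lit 380) (nat_lit 0) (XT.lf (nat_lit 0) (nat_lit 12100882750) (nat_lit 380)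 (nat_lit 20151602676) (nat_lit 456) (nat_lit 7588158585) (nat_lit 93) (nat_lit 5) (nat_lit 98) (nat_lit 5) (nat_lit 99) (nat_lit 5) (nat_lit 354) (nat_lit 314) (nat_lit 112)) (XT.nd (nat_lit 78) (nat_lit 380) (nat_lit 0) (XT.lf (nat_lit 0) (nat_lit 31029654584) (nat_lit 380) (nat_lit 6918548557) (nat_lit 456) (nat_lit 2658483707) (nat_lit 93) (nat_lit 5) (nat_lit 98) (nat_lit 5) (nat_lit 99) (nat_lit 5) (nat_lit 355) (nat_lit 314) (nat_lit 111)) (XT.lf (nat_lit 0) (nat_lit 2524636774) (nat_lit 380) (nat_lit 32172134754) (nat_lit 76) (nat_lit 6693661839) (nat_lit 88) (nat_lit 5) (nat_lit 93) (nat_lit 5) (nat_lit 89) (nat_lit 5) (nat_lit 356) (nat_lit 314) (nat_lit 110)))) (XT.nd (nat_lit 78) (nat_lit 380) (nat_lit 0) (XT.lf (nat_lit 0) (nat_lit 7973891599) (nat_lit 380) (nat_lit 13519430622) (nat_lit 76) (nat_lit 20698660938) (nat_lit 88) (nat_lit 5) (nat_lit 93) (nat_lit 5) (nat_lit 89) (nat_lit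 5) (nat_lit 357) (nat_lit 314) (nat_lit 109)) (XT.nd (nat_lit 78) (nat_lit 0) (nat_lit 0) (XT.lf (nat_lit 0) (nat_lit 5803510582) (nat_lit 380) (nat_lit 7836867734) (nat_lit 456) (nat_lit 29375591158) (nat_lit 83) (nat_lit 5) (nat_lit 88) (nat_lit 5) (nat_lit 89) (nat_lit 5) (nat_lit 358) (nat_lit 314) (nat_lit 108)) (XT.lf (nat_lit 0) (nat_lit 19672607142) (nat_lit 456) (nat_lit 17941159127) (nat_lit 76) (nat_lit 6245039263) (nat_lit 83) (nat_lit 5) (nat_lit 89) (nat_lit 5) (nat_lit 84) (nat_lit 5) (nat_lit 359) (nat_lit 314) (nat_lit 107))))) (XT.nd (nat_lit 234) (nat_lit 684) (nat_lit 0) (XT.nd (nat_lit 78) (nat_lit 0) (nat_lit 0) (XT.lf (nat_lit 0) (nat_lit 1864523754) (nat_lit 304) (nat_lit 24114849557) (nat_lit 380) (nat_lit 18744748748) (nat_lit 79) (nat_lit 5) (nat_lit 83) (nat_lit 5) (nat_lit 84) (nat_lit 5) (nat_lit 360) (nat_lit 314) (nat_lit 106)) (XT.nd (nat_lit 78) (nat_lit 0) (nat_lit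 0) (XT.lf (nat_lit 0) (nat_lit 22629631561) (nat_lit 304) (nat_lit 10024968636) (nat_lit 380) (nat_lit 12955422584) (nat_lit 79) (nat_lit 5) (nat_lit 83) (nat_lit 5) (nat_lit 84) (nat_lit 5) (nat_lit 361) (nat_lit 314) (nat_lit 105)) (XT.lf (nat_lit 0) (nat_lit 39571358764) (nat_lit 380) (nat_lit 2550446237) (nat_lit 76) (nat_lit 4399459637) (nat_lit 79) (nat_lit 5) (nat_lit 84) (nat_lit 5) (nat_lit 80) (nat_lit 5) (nat_lit 362) (nat_lit 314) (nat_lit 104)))) (XT.nd (nat_lit 78) (nat_lit 380) (nat_lit 0) (XT.lf (nat_lit 0) (nat_lit 18756723373) (nat_lit 304) (nat_lit 28216646417) (nat_lit 380) (nat_lit 478143760) (nat_lit 75) (nat_lit 5) (nat_lit 79) (nat_lit 5) (nat_lit 80) (nat_lit 5) (nat_lit 363) (nat_lit 314) (nat_lit 103)) (XT.nd (nat_lit 78) (nat_lit 304) (nat_lit 0) (XT.lf (nat_lit 0) (nat_lit 6091236274) (nat_lit 380) (nat_lit 7715685207) (nat_lit 76) (nat_lit 34600239865) (nat_lit 74)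 (nat_lit 5) (nat_lit 79) (nat_lit 5) (nat_lit 75) (nat_lit 5) (nat_lit 364) (nat_lit 314) (nat_lit 102)) (XT.lf (nat_lit 0) (nat_lit 12993814041) (nat_lit 380) (nat_lit 35236605354) (nat_lit 76) (nat_lit 1156547460) (nat_lit 70) (nat_lit 5) (nat_lit 75) (nat_lit 5) (nat_lit 71) (nat_lit 5) (nat_lit 365) (nat_lit 314) (nat_lit 101)))))) (XT.nd (nat_lit 468) (nat_lit 760) (nat_lit 0) (XT.nd (nat_lit 234) (nat_lit 304) (nat_lit 0) (XT.nd (nat_lit 78) (nat_lit 304) (nat_lit 0) (XT.lf (nat_lit 0) (nat_lit 20317131941) (nat_lit 380) (nat_lit 13703144297) (nat_lit 76) (nat_lit 16369482441) (nat_lit 70) (nat_lit 5) (nat_lit 75) (nat_lit 5) (nat_lit 71) (nat_lit 5) (nat_lit 366) (nat_lit 314) (nat_lit 100)) (XT.nd (nat_lit 78) (nat_lit 0) (nat_lit 0) (XT.lf (nat_lit 0) (nat_lit 8642644324) (nat_lit 304) (nat_lit 19298909552) (nat_lit 380) (nat_lit 23478640224) (nat_lit 66) (nat_lit 5) (nat_lit 70) (nat_lit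 5) (nat_lit 71) (nat_lit 5) (nat_lit 367) (nat_lit 314) (nat_lit 99)) (XT.lf (nat_lit 0) (nat_lit 31937405037) (nat_lit 304) (nat_lit 3994031053) (nat_lit 380) (nat_lit 16546006582) (nat_lit 66) (nat_lit 5) (nat_lit 70) (nat_lit 5) (nat_lit 71) (nat_lit 5) (nat_lit 368) (nat_lit 314) (nat_lit 98)))) (XT.nd (nat_lit 78) (nat_lit 76) (nat_lit 0) (XT.lf (nat_lit 0) (nat_lit 2293943334) (nat_lit 228) (nat_lit 42000657201) (nat_lit 304) (nat_lit 9267802458) (nat_lit 63) (nat_lit 5) (nat_lit 66) (nat_lit 5) (nat_lit 67) (nat_lit 5) (nat_lit 369) (nat_lit 314) (nat_lit 97)) (XT.nd (nat_lit 78) (nat_lit 76) (nat_lit 0) (XT.lf (nat_lit 0) (nat_lit 26191405583) (nat_lit 228) (nat_lit 26962245264) (nat_lit 304) (nat_lit 1518913356) (nat_lit 63) (nat_lit 5) (nat_lit 66) (nat_lit 5) (nat_lit 67) (nat_lit 5) (nat_lit 370) (nat_lit 314) (nat_lit 96)) (XT.lf (nat_lit 0) (nat_lit 6334785667) (nat_lit 304) (nat_lit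 5074583246) (nat_lit 76) (nat_lit 44404845948) (nat_lit 62) (nat_lit 5) (nat_lit 66) (nat_lit 5) (nat_lit 63) (nat_lit 5) (nat_lit 371) (nat_lit 314) (nat_lit 95))))) (XT.nd (nat_lit 234) (nat_lit 228) (nat_lit 0) (XT.nd (nat_lit 78) (nat_lit 228) (nat_lit 0) (XT.lf (nat_lit 0) (nat_lit 14624805675) (nat_lit 380) (nat_lit 37634954009) (nat_lit 76) (nat_lit 4722968689) (nat_lit 58) (nat_lit 5) (nat_lit 63) (nat_lit 5) (nat_lit 59) (nat_lit 5) (nat_lit 372) (nat_lit 314) (nat_lit 94)) (XT.nd (nat_lit 78) (nat_lit 228) (nat_lit 0) (XT.lf (nat_lit 0) (nat_lit 23326752009) (nat_lit 380) (nat_lit 13693582314) (nat_lit 76) (nat_lit 21161067801) (nat_lit 58) (nat_lit 5) (nat_lit 63) (nat_lit 5) (nat_lit 59) (nat_lit 5) (nat_lit 373) (nat_lit 314) (nat_lit 93)) (XT.lf (nat_lit 0) (nat_lit 11182119787) (nat_lit 228) (nat_lit 21213680668) (nat_lit 304) (nat_lit 27017055881) (nat_lit 55) (nat_lit 5) (nat_lit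 58) (nat_lit 5) (nat_lit 59) (nat_lit 5) (nat_lit 374) (nat_lit 314) (nat_lit 92)))) (XT.nd (nat_lit 78) (nat_lit 228) (nat_lit 0) (XT.lf (nat_lit 0) (nat_lit 37082704516) (nat_lit 228) (nat_lit 4791070500) (nat_lit 304) (nat_lit 18803375034) (nat_lit 55) (nat_lit 5) (nat_lit 58) (nat_lit 5) (nat_lit 59) (nat_lit 5) (nat_lit 375) (nat_lit 314) (nat_lit 91)) (XT.nd (nat_lit 78) (nat_lit 0) (nat_lit 0) (XT.lf (nat_lit 0) (nat_lit 1695403070) (nat_lit 228) (nat_lit 50072139939) (nat_lit 304) (nat_lit 10207887409) (nat_lit 52) (nat_lit 5) (nat_lit 55) (nat_lit 5) (nat_lit 56) (nat_lit 5) (nat_lit 376) (nat_lit 314) (nat_lit 90)) (XT.lf (nat_lit 0) (nat_lit 28177180843) (nat_lit 228) (nat_lit 34064804406) (nat_lit 304) (nat_lit 1062159542) (nat_lit 52) (nat_lit 5) (nat_lit 55) (nat_lit 5) (nat_lit 56) (nat_lit 5) (nat_lit 377) (nat_lit 314) (nat_lit 89))))))))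
noncomputable def xc228 : XT := (XT.nd (nat_lit 1794) (nat_lit 5396) (nat_lit 0) (XT.nd (nat_lit 858) (nat_lit 1216) (nat_lit 0) (XT.nd (nat_lit 390) (nat_lit 0) (nat_lit 76) (XT.nd (nat_lit 156) (nat_lit 1064) (nat_lit 0) (XT.nd (nat_lit 78) (nat_lit 0) (nat_lit 0) (XT.lf (nat_lit 0) (nat_lit 10207432178) (nat_lit 1140) (nat_lit 132634052) (nat_lit 1140) (nat_lit 132634052) (nat_lit 180) (nat_lit 3) (nat_lit 195) (nat_lit 3) (nat_lit 195) (nat_lit 5) (nat_lit 315) (nat_lit 315) (nat_lit 150)) (XT.lf (nat_lit 76) (nat_lit 9038799740) (nat_lit 0) (nat_lit 11907549665) (nat_lit 1140) (nat_lit 306224475) (nat_lit 181) (nat_lit 5) (nat_lit 180) (nat_lit 3) (nat_lit 195) (nat_lit 5) (nat_lit 316) (nat_lit 315) (nat_lit 149))) (XT.nd (nat_lit 78) (nat_lit 1064) (nat_lit 0) (XT.lf (nat_lit 76) (nat_lit 18624585821) (nat_lit 0) (nat_lit 2866444145) (nat_lit 1140) (nat_lit 78024649) (nat_lit 181) (nat_lit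 5) (nat_lit 180) (nat_lit 3) (nat_lit 195) (nat_lit 5) (nat_lit 317) (nat_lit 315) (nat_lit 148)) (XT.nd (nat_lit 78) (nat_lit 0) (nat_lit 0) (XT.lf (nat_lit 0) (nat_lit 275958474) (nat_lit 1140) (nat_lit 15225997830) (nat_lit 1216) (nat_lit 6389377338) (nat_lit 166) (nat_lit 5) (nat_lit 181) (nat_lit 5) (nat_lit 182) (nat_lit 5) (nat_lit 318) (nat_lit 315) (nat_lit 147)) (XT.lf (nat_lit 0) (nat_lit 692220742) (nat_lit 1140) (nat_lit 5631076866) (nat_lit 1216) (nat_lit 15898372340) (nat_lit 166) (nat_lit 5) (nat_lit 181) (nat_lit 5) (nat_lit 182) (nat_lit 5) (nat_lit 319) (nat_lit 315) (nat_lit 146))))) (XT.nd (nat_lit 234) (nat_lit 0) (nat_lit 76) (XT.nd (nat_lit 78) (nat_lit 0) (nat_lit 0) (XT.lf (nat_lit 0) (nat_lit 1188122489) (nat_lit 1140) (nat_lit 18258048222) (nat_lit 1216) (nat_lit 3113739748) (nat_lit 167) (nat_lit 5) (nat_lit 182) (nat_lit 5) (nat_lit 183) (nat_lit 5) (nat_lit 320)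 (nat_lit 315) (nat_lit 145)) (XT.nd (nat_lit 78) (nat_lit 0) (nat_lit 0) (XT.lf (nat_lit 0) (nat_lit 1814042037) (nat_lit 1140) (nat_lit 8324632390) (nat_lit 1216) (nat_lit 12766177948) (nat_lit 167) (nat_lit 5) (nat_lit 182) (nat_lit 5) (nat_lit 183) (nat_lit 5) (nat_lit 321) (nat_lit 315) (nat_lit 144)) (XT.lf (nat_lit 76) (nat_lit 1941673747) (nat_lit 0) (nat_lit 530980472) (nat_lit 1216) (nat_lit 20787079041) (nat_lit 168) (nat_lit 5) (nat_lit 167) (nat_lit 5) (nat_lit 183) (nat_lit 5) (nat_lit 322) (nat_lit 315) (nat_lit 143)))) (XT.nd (nat_lit 78) (nat_lit 0) (nat_lit 0) (XT.lf (nat_lit 0) (nat_lit 3321317403) (nat_lit 1140) (nat_lit 11030111651) (nat_lit 1216) (nat_lit 9268730669) (nat_lit 168) (nat_lit 5) (nat_lit 183) (nat_lit 5) (nat_lit 184) (nat_lit 5) (nat_lit 323) (nat_lit 315) (nat_lit 142)) (XT.nd (nat_lit 78) (nat_lit 0) (nat_lit 76) (XT.lf (nat_lit 0) (nat_lit 4196208680) (nat_lit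 1140) (nat_lit 441826222) (nat_lit 1216) (nat_lit 19353348727) (nat_lit 168) (nat_lit 5) (nat_lit 183) (nat_lit 5) (nat_lit 184) (nat_lit 5) (nat_lit 324) (nat_lit 315) (nat_lit 141)) (XT.lf (nat_lit 0) (nat_lit 5248166260) (nat_lit 1140) (nat_lit 13754072962) (nat_lit 1216) (nat_lit 5366987916) (nat_lit 169) (nat_lit 5) (nat_lit 184) (nat_lit 5) (nat_lit 185) (nat_lit 5) (nat_lit 325) (nat_lit 315) (nat_lit 140)))))) (XT.nd (nat_lit 468) (nat_lit 1444) (nat_lit 0) (XT.nd (nat_lit 234) (nat_lit 0) (nat_lit 76) (XT.nd (nat_lit 78) (nat_lit 0) (nat_lit 76) (XT.lf (nat_lit 0) (nat_lit 6377862804) (nat_lit 1140) (nat_lit 2794410300) (nat_lit 1216) (nat_lit 15584754698) (nat_lit 169) (nat_lit 5) (nat_lit 184) (nat_lit 5) (nat_lit 185) (nat_lit 5) (nat_lit 326) (nat_lit 315) (nat_lit 139)) (XT.nd (nat_lit 78) (nat_lit 0) (nat_lit 0) (XT.lf (nat_lit 0) (nat_lit 7630565002) (nat_lit 1140) (nat_lit 16504041307)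 (nat_lit 1216) (nat_lit 1019189777) (nat_lit 170) (nat_lit 5) (nat_lit 185) (nat_lit 5) (nat_lit 186) (nat_lit 5) (nat_lit 327) (nat_lit 315) (nat_lit 138)) (XT.lf (nat_lit 0) (nat_lit 9036139362) (nat_lit 1140) (nat_lit 5161280574) (nat_lit 1216) (nat_lit 11361595588) (nat_lit 170) (nat_lit 5) (nat_lit 185) (nat_lit 5) (nat_lit 186) (nat_lit 5) (nat_lit 328) (nat_lit 315) (nat_lit 137)))) (XT.nd (nat_lit 78) (nat_lit 0) (nat_lit 76) (XT.lf (nat_lit 76) (nat_lit 6648495968) (nat_lit 0) (nat_lit 3895390571) (nat_lit 1216) (nat_lit 15430711478) (nat_lit 171) (nat_lit 5) (nat_lit 170) (nat_lit 5) (nat_lit 186) (nat_lit 5) (nat_lit 329) (nat_lit 315) (nat_lit 136)) (XT.nd (nat_lit 78) (nat_lit 0) (nat_lit 0) (XT.lf (nat_lit 0) (nat_lit 12210245804) (nat_lit 1140) (nat_lit 7550891668) (nat_lit 1216) (nat_lit 6638115569) (nat_lit 171) (nat_lit 5) (nat_lit 186) (nat_lit 5) (nat_lit 187) (nat_lit 5) (nat_lit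 330) (nat_lit 315) (nat_lit 135)) (XT.lf (nat_lit 76) (nat_lit 4626269554) (nat_lit 0) (nat_lit 9379665454) (nat_lit 1216) (nat_lit 12828338791) (nat_lit 172) (nat_lit 5) (nat_lit 171) (nat_lit 5) (nat_lit 187) (nat_lit 5) (nat_lit 331) (nat_lit 315) (nat_lit 134))))) (XT.nd (nat_lit 234) (nat_lit 532) (nat_lit 0) (XT.nd (nat_lit 78) (nat_lit 1140) (nat_lit 0) (XT.lf (nat_lit 0) (nat_lit 15941508416) (nat_lit 1140) (nat_lit 9973008645) (nat_lit 76) (nat_lit 1365253789) (nat_lit 172) (nat_lit 5) (nat_lit 187) (nat_lit 5) (nat_lit 173) (nat_lit 5) (nat_lit 332) (nat_lit 315) (nat_lit 133)) (XT.nd (nat_lit 78) (nat_lit 0) (nat_lit 0) (XT.lf (nat_lit 0) (nat_lit 2583570293) (nat_lit 1140) (nat_lit 15465772456) (nat_lit 1216) (nat_lit 9685870152) (nat_lit 157) (nat_lit 5) (nat_lit 172) (nat_lit 5) (nat_lit 173) (nat_lit 5) (nat_lit 333) (nat_lit 315) (nat_lit 132)) (XT.lf (nat_lit 0) (nat_lit 15718299724)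 (nat_lit 1140) (nat_lit 4599384634) (nat_lit 1216) (nat_lit 7883721414) (nat_lit 157) (nat_lit 5) (nat_lit 172) (nat_lit 5) (nat_lit 173) (nat_lit 5) (nat_lit 334) (nat_lit 315) (nat_lit 131)))) (XT.nd (nat_lit 78) (nat_lit 0) (nat_lit 0) (XT.lf (nat_lit 0) (nat_lit 509037144) (nat_lit 532) (nat_lit 22209976843) (nat_lit 608) (nat_lit 5960627868) (nat_lit 150) (nat_lit 5) (nat_lit 157) (nat_lit 5) (nat_lit 158) (nat_lit 5) (nat_lit 335) (nat_lit 315) (nat_lit 130)) (XT.nd (nat_lit 78) (nat_lit 0) (nat_lit 0) (XT.lf (nat_lit 0) (nat_lit 14097414068) (nat_lit 532) (nat_lit 11262853445) (nat_lit 608) (nat_lit 3806926388) (nat_lit 150) (nat_lit 5) (nat_lit 157) (nat_lit 5) (nat_lit 158) (nat_lit 5) (nat_lit 336) (nat_lit 315) (nat_lit 129)) (XT.lf (nat_lit 0) (nat_lit 28077715375) (nat_lit 608) (nat_lit 1579045594) (nat_lit 76) (nat_lit 12708078) (nat_lit 150) (nat_lit 5) (nat_lit 158) (nat_lit 5)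 (nat_lit 151) (nat_lit 5) (nat_lit 337) (nat_lit 315) (nat_lit 128))))))) (XT.nd (nat_lit 936) (nat_lit 2280) (nat_lit 0) (XT.nd (nat_lit 468) (nat_lit 1368) (nat_lit 0) (XT.nd (nat_lit 234) (nat_lit 532) (nat_lit 0) (XT.nd (nat_lit 78) (nat_lit 532) (nat_lit 0) (XT.lf (nat_lit 0) (nat_lit 906733161) (nat_lit 684) (nat_lit 17744030500) (nat_lit 76) (nat_lit 11528945157) (nat_lit 141) (nat_lit 5) (nat_lit 150) (nat_lit 5) (nat_lit 142) (nat_lit 5) (nat_lit 338) (nat_lit 315) (nat_lit 127)) (XT.nd (nat_lit 78) (nat_lit 532) (nat_lit 0) (XT.lf (nat_lit 0) (nat_lit 3461239247) (nat_lit 684) (nat_lit 3820425595) (nat_lit 76) (nat_lit 23422731216) (nat_lit 141) (nat_lit 5) (nat_lit 150) (nat_lit 5) (nat_lit 142) (nat_lit 5) (nat_lit 339) (nat_lit 315) (nat_lit 126)) (XT.lf (nat_lit 0) (nat_lit 6236132799) (nat_lit 608) (nat_lit 20558055790) (nat_lit 76) (nat_lit 4446327418) (nat_lit 134) (nat_lit 5)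 (nat_lit 142) (nat_lit 5) (nat_lit 135) (nat_lit 5) (nat_lit 340) (nat_lit 315) (nat_lit 125)))) (XT.nd (nat_lit 78) (nat_lit 532) (nat_lit 0) (XT.lf (nat_lit 0) (nat_lit 9202432110) (nat_lit 608) (nat_lit 6168213849) (nat_lit 76) (nat_lit 16418833346) (nat_lit 134) (nat_lit 5) (nat_lit 142) (nat_lit 5) (nat_lit 135) (nat_lit 5) (nat_lit 341) (nat_lit 315) (nat_lit 124)) (XT.nd (nat_lit 78) (nat_lit 0) (nat_lit 0) (XT.lf (nat_lit 0) (nat_lit 8822648512) (nat_lit 532) (nat_lit 3517067464) (nat_lit 608) (nat_lit 20012740049) (nat_lit 127) (nat_lit 5) (nat_lit 134) (nat_lit 5) (nat_lit 135) (nat_lit 5) (nat_lit 342) (nat_lit 315) (nat_lit 123)) (XT.lf (nat_lit 0) (nat_lit 15714817216) (nat_lit 608) (nat_lit 8627840222) (nat_lit 76) (nat_lit 8585357904) (nat_lit 127) (nat_lit 5) (nat_lit 135) (nat_lit 5) (nat_lit 128) (nat_lit 5) (nat_lit 343) (nat_lit 315) (nat_lit 122))))) (XT.nd (nat_lit 234) (nat_lit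 456) (nat_lit 0) (XT.nd (nat_lit 78) (nat_lit 456) (nat_lit 0) (XT.lf (nat_lit 0) (nat_lit 6816568567) (nat_lit 456) (nat_lit 12472272084) (nat_lit 532) (nat_lit 14229074850) (nat_lit 121) (nat_lit 5) (nat_lit 127) (nat_lit 5) (nat_lit 128) (nat_lit 5) (nat_lit 344) (nat_lit 315) (nat_lit 121)) (XT.nd (nat_lit 78) (nat_lit 456) (nat_lit 0) (XT.lf (nat_lit 0) (nat_lit 22898388568) (nat_lit 456) (nat_lit 156193425) (nat_lit 532) (nat_lit 11068399772) (nat_lit 121) (nat_lit 5) (nat_lit 127) (nat_lit 5) (nat_lit 128) (nat_lit 5) (nat_lit 345) (nat_lit 315) (nat_lit 120)) (XT.lf (nat_lit 0) (nat_lit 4684656517) (nat_lit 456) (nat_lit 22411558783) (nat_lit 532) (nat_lit 7645101026) (nat_lit 115) (nat_lit 5) (nat_lit 121) (nat_lit 5) (nat_lit 122) (nat_lit 5) (nat_lit 346) (nat_lit 315) (nat_lit 119)))) (XT.nd (nat_lit 78) (nat_lit 456) (nat_lit 0) (XT.lf (nat_lit 0) (nat_lit 21296945692) (nat_lit 456)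 (nat_lit 10074525456) (nat_lit 532) (nat_lit 4003362356) (nat_lit 115) (nat_lit 5) (nat_lit 121) (nat_lit 5) (nat_lit 122) (nat_lit 5) (nat_lit 347) (nat_lit 315) (nat_lit 118)) (XT.nd (nat_lit 78) (nat_lit 76) (nat_lit 0) (XT.lf (nat_lit 0) (nat_lit 2399006241) (nat_lit 380) (nat_lit 33421911946) (nat_lit 456) (nat_lit 205063682) (nat_lit 110) (nat_lit 5) (nat_lit 115) (nat_lit 5) (nat_lit 116) (nat_lit 5) (nat_lit 348) (nat_lit 315) (nat_lit 117)) (XT.lf (nat_lit 0) (nat_lit 3875741825) (nat_lit 456) (nat_lit 17173173525) (nat_lit 76) (nat_lit 15639456775) (nat_lit 109) (nat_lit 5) (nat_lit 115) (nat_lit 5) (nat_lit 110) (nat_lit 5) (nat_lit 349) (nat_lit 315) (nat_lit 116)))))) (XT.nd (nat_lit 468) (nat_lit 1064) (nat_lit 0) (XT.nd (nat_lit 234) (nat_lit 760) (nat_lit 0) (XT.nd (nat_lit 78) (nat_lit 456) (nat_lit 0) (XT.lf (nat_lit 0) (nat_lit 8072504318) (nat_lit 456) (nat_lit 230479555) (nat_lit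 76) (nat_lit 29067663040) (nat_lit 109) (nat_lit 5) (nat_lit 115) (nat_lit 5) (nat_lit 110) (nat_lit 5) (nat_lit 350) (nat_lit 315) (nat_lit 115)) (XT.nd (nat_lit 78) (nat_lit 0) (nat_lit 0) (XT.lf (nat_lit 0) (nat_lit 12609747227) (nat_lit 532) (nat_lit 20555898124) (nat_lit 76) (nat_lit 4901310531) (nat_lit 103) (nat_lit 5) (nat_lit 110) (nat_lit 5) (nat_lit 104) (nat_lit 5) (nat_lit 351) (nat_lit 315) (nat_lit 114)) (XT.lf (nat_lit 0) (nat_lit 17365426405) (nat_lit 532) (nat_lit 3079404006) (nat_lit 76) (nat_lit 18336857312) (nat_lit 103) (nat_lit 5) (nat_lit 110) (nat_lit 5) (nat_lit 104) (nat_lit 5) (nat_lit 352) (nat_lit 315) (nat_lit 113)))) (XT.nd (nat_lit 78) (nat_lit 380) (nat_lit 0) (XT.lf (nat_lit 0) (nat_lit 15215721080) (nat_lit 380) (nat_lit 7192143700) (nat_lit 456) (nat_lit 17105677153) (nat_lit 98) (nat_lit 5) (nat_lit 103) (nat_lit 5) (nat_lit 104) (nat_lit 5) (nat_lit 353)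 (nat_lit 315) (nat_lit 112)) (XT.nd (nat_lit 78) (nat_lit 380) (nat_lit 0) (XT.lf (nat_lit 0) (nat_lit 27692920351) (nat_lit 456) (nat_lit 6208596670) (nat_lit 76) (nat_lit 6363097417) (nat_lit 98) (nat_lit 5) (nat_lit 104) (nat_lit 5) (nat_lit 99) (nat_lit 5) (nat_lit 354) (nat_lit 315) (nat_lit 111)) (XT.lf (nat_lit 0) (nat_lit 12595336296) (nat_lit 380) (nat_lit 20731397805) (nat_lit 456) (nat_lit 7705781722) (nat_lit 93) (nat_lit 5) (nat_lit 98) (nat_lit 5) (nat_lit 99) (nat_lit 5) (nat_lit 355) (nat_lit 315) (nat_lit 110))))) (XT.nd (nat_lit 234) (nat_lit 684) (nat_lit 0) (XT.nd (nat_lit 78) (nat_lit 380) (nat_lit 0) (XT.lf (nat_lit 0) (nat_lit 32088143312) (nat_lit 380) (nat_lit 7102073023) (nat_lit 456) (nat_lit 2631421112) (nat_lit 93) (nat_lit 5) (nat_lit 98) (nat_lit 5) (nat_lit 99) (nat_lit 5) (nat_lit 356) (nat_lit 315) (nat_lit 109)) (XT.nd (nat_lit 78) (nat_lit 0) (nat_lit 0) (XT.lf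 (nat_lit 0) (nat_lit 2703540213) (nat_lit 380) (nat_lit 33005773320) (nat_lit 76) (nat_lit 6919603119) (nat_lit 88) (nat_lit 5) (nat_lit 93) (nat_lit 5) (nat_lit 89) (nat_lit 5) (nat_lit 357) (nat_lit 315) (nat_lit 108)) (XT.lf (nat_lit 0) (nat_lit 8313267897) (nat_lit 380) (nat_lit 13797318902) (nat_lit 76) (nat_lit 21344020208) (nat_lit 88) (nat_lit 5) (nat_lit 93) (nat_lit 5) (nat_lit 89) (nat_lit 5) (nat_lit 358) (nat_lit 315) (nat_lit 107)))) (XT.nd (nat_lit 78) (nat_lit 304) (nat_lit 0) (XT.lf (nat_lit 0) (nat_lit 6104058629) (nat_lit 380) (nat_lit 8043988763) (nat_lit 456) (nat_lit 30155320386) (nat_lit 83) (nat_lit 5) (nat_lit 88) (nat_lit 5) (nat_lit 89) (nat_lit 5) (nat_lit 359) (nat_lit 315) (nat_lit 106)) (XT.nd (nat_lit 78) (nat_lit 304) (nat_lit 0) (XT.lf (nat_lit 0) (nat_lit 20358636555) (nat_lit 456) (nat_lit 18353904093) (nat_lit 76) (nat_lit 6459030164) (nat_lit 83) (nat_lit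 5) (nat_lit 89) (nat_lit 5) (nat_lit 84) (nat_lit 5) (nat_lit 360) (nat_lit 315) (nat_lit 105)) (XT.lf (nat_lit 0) (nat_lit 2044718982) (nat_lit 304) (nat_lit 24808289403) (nat_lit 380) (nat_lit 19209889964) (nat_lit 79) (nat_lit 5) (nat_lit 83) (nat_lit 5) (nat_lit 84) (nat_lit 5) (nat_lit 361) (nat_lit 315) (nat_lit 104))))))))
noncomputable def xc229 : XT := (XT.nd (nat_lit 37596) (nat_lit 0) (nat_lit 5244) (XT.nd (nat_lit 858) (nat_lit 760) (nat_lit 0) (XT.nd (nat_lit 390) (nat_lit 608) (nat_lit 0) (XT.nd (nat_lit 156) (nat_lit 684) (nat_lit 0) (XT.nd (nat_lit 78) (nat_lit 0) (nat_lit 0) (XT.lf (nat_lit 0) (nat_lit 23429160814) (nat_lit 304) (nat_lit 10296586006) (nat_lit 380) (nat_lit 13249715118) (nat_lit 79) (nat_lit 5) (nat_lit 83) (nat_lit 5) (nat_lit 84) (nat_lit 5) (nat_lit 362) (nat_lit 315) (nat_lit 103)) (XT.lf (nat_lit 0) (nat_lit 40847614719) (nat_lit 380) (nat_lit 2507326808)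 (nat_lit 76) (nat_lit 4559174713) (nat_lit 79) (nat_lit 5) (nat_lit 84) (nat_lit 5) (nat_lit 80) (nat_lit 5) (nat_lit 363) (nat_lit 315) (nat_lit 102))) (XT.nd (nat_lit 78) (nat_lit 380) (nat_lit 0) (XT.lf (nat_lit 0) (nat_lit 19437885020) (nat_lit 304) (nat_lit 29032344178) (nat_lit 380) (nat_lit 402090416) (nat_lit 75) (nat_lit 5) (nat_lit 79) (nat_lit 5) (nat_lit 80) (nat_lit 5) (nat_lit 364) (nat_lit 315) (nat_lit 101)) (XT.nd (nat_lit 78) (nat_lit 304) (nat_lit 0) (XT.lf (nat_lit 0) (nat_lit 6360025472) (nat_lit 380) (nat_lit 7830330200) (nat_lit 76) (nat_lit 35666335650) (nat_lit 74) (nat_lit 5) (nat_lit 79) (nat_lit 5) (nat_lit 75) (nat_lit 5) (nat_lit 365) (nat_lit 315) (nat_lit 100)) (XT.lf (nat_lit 0) (nat_lit 13468584396) (nat_lit 380) (nat_lit 36175681482) (nat_lit 76) (nat_lit 1221661012) (nat_lit 70) (nat_lit 5) (nat_lit 75) (nat_lit 5) (nat_lit 71) (nat_lit 5) (nat_lit 366) (nat_lit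 315) (nat_lit 99))))) (XT.nd (nat_lit 234) (nat_lit 304) (nat_lit 0) (XT.nd (nat_lit 78) (nat_lit 304) (nat_lit 0) (XT.lf (nat_lit 0) (nat_lit 21009127388) (nat_lit 380) (nat_lit 13999654127) (nat_lit 76) (nat_lit 16890098107) (nat_lit 70) (nat_lit 5) (nat_lit 75) (nat_lit 5) (nat_lit 71) (nat_lit 5) (nat_lit 367) (nat_lit 315) (nat_lit 98)) (XT.nd (nat_lit 78) (nat_lit 0) (nat_lit 0) (XT.lf (nat_lit 0) (nat_lit 9015384774) (nat_lit 304) (nat_lit 19845585491) (nat_lit 380) (nat_lit 24099300028) (nat_lit 66) (nat_lit 5) (nat_lit 70) (nat_lit 5) (nat_lit 71) (nat_lit 5) (nat_lit 368) (nat_lit 315) (nat_lit 97)) (XT.lf (nat_lit 0) (nat_lit 33005683616) (nat_lit 304) (nat_lit 4082501162) (nat_lit 380) (nat_lit 16961125224) (nat_lit 66) (nat_lit 5) (nat_lit 70) (nat_lit 5) (nat_lit 71) (nat_lit 5) (nat_lit 369) (nat_lit 315) (nat_lit 96)))) (XT.nd (nat_lit 78) (nat_lit 76) (nat_lit 0) (XT.lf (nat_lit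 0) (nat_lit 2473971562) (nat_lit 228) (nat_lit 43227338889) (nat_lit 304) (nat_lit 9465539365) (nat_lit 63) (nat_lit 5) (nat_lit 66) (nat_lit 5) (nat_lit 67) (nat_lit 5) (nat_lit 370) (nat_lit 315) (nat_lit 95)) (XT.nd (nat_lit 78) (nat_lit 76) (nat_lit 0) (XT.lf (nat_lit 0) (nat_lit 27085118553) (nat_lit 228) (nat_lit 27738745605) (nat_lit 304) (nat_lit 1486522343) (nat_lit 63) (nat_lit 5) (nat_lit 66) (nat_lit 5) (nat_lit 67) (nat_lit 5) (nat_lit 371) (nat_lit 315) (nat_lit 94)) (XT.lf (nat_lit 0) (nat_lit 6599040076) (nat_lit 304) (nat_lit 5120436232) (nat_lit 76) (nat_lit 45766857126) (nat_lit 62) (nat_lit 5) (nat_lit 66) (nat_lit 5) (nat_lit 63) (nat_lit 5) (nat_lit 372) (nat_lit 315) (nat_lit 93)))))) (XT.nd (nat_lit 36270) (nat_lit 0) (nat_lit 8588) (XT.nd (nat_lit 234) (nat_lit 228) (nat_lit 0) (XT.nd (nat_lit 78) (nat_lit 228) (nat_lit 0) (XT.lf (nat_lit 0) (nat_lit 15136922101) (nat_lit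 380) (nat_lit 38656700362) (nat_lit 76) (nat_lit 4896307420) (nat_lit 58) (nat_lit 5) (nat_lit 63) (nat_lit 5) (nat_lit 59) (nat_lit 5) (nat_lit 373) (nat_lit 315) (nat_lit 92)) (XT.nd (nat_lit 78) (nat_lit 228) (nat_lit 0) (XT.lf (nat_lit 0) (nat_lit 24097789769) (nat_lit 380) (nat_lit 14000212826) (nat_lit 76) (nat_lit 21826627670) (nat_lit 58) (nat_lit 5) (nat_lit 63) (nat_lit 5) (nat_lit 59) (nat_lit 5) (nat_lit 374) (nat_lit 315) (nat_lit 91)) (XT.lf (nat_lit 0) (nat_lit 11620738996) (nat_lit 228) (nat_lit 21817087456) (nat_lit 304) (nat_lit 27755236387) (nat_lit 55) (nat_lit 5) (nat_lit 58) (nat_lit 5) (nat_lit 59) (nat_lit 5) (nat_lit 375) (nat_lit 315) (nat_lit 90)))) (XT.nd (nat_lit 78) (nat_lit 228) (nat_lit 0) (XT.lf (nat_lit 0) (nat_lit 38295336734) (nat_lit 228) (nat_lit 4902760254) (nat_lit 304) (nat_lit 19297251847) (nat_lit 55) (nat_lit 5) (nat_lit 58) (nat_lit 5) (nat_lit 59)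 (nat_lit 5) (nat_lit 376) (nat_lit 315) (nat_lit 89)) (XT.nd (nat_lit 35880) (nat_lit 0) (nat_lit 9728) (XT.lf (nat_lit 0) (nat_lit 1847224354) (nat_lit 228) (nat_lit 51540739439) (nat_lit 304) (nat_lit 10444637359) (nat_lit 52) (nat_lit 5) (nat_lit 55) (nat_lit 5) (nat_lit 56) (nat_lit 5) (nat_lit 377) (nat_lit 315) (nat_lit 88)) (XT.lf (nat_lit 0) (nat_lit 10650700604) (nat_lit 1140) (nat_lit 65910947) (nat_lit 1140) (nat_lit 65910947) (nat_lit 180) (nat_lit 3) (nat_lit 195) (nat_lit 3) (nat_lit 195) (nat_lit 5) (nat_lit 316) (nat_lit 316) (nat_lit 148))))) (XT.nd (nat_lit 234) (nat_lit 0) (nat_lit 76) (XT.nd (nat_lit 78) (nat_lit 1140) (nat_lit 0) (XT.lf (nat_lit 76) (nat_lit 9449981671) (nat_lit 0) (nat_lit 12392211845) (nat_lit 1140) (nat_lit 39453526) (nat_lit 181) (nat_lit 5) (nat_lit 180) (nat_lit 3) (nat_lit 195) (nat_lit 5) (nat_lit 317) (nat_lit 316) (nat_lit 147)) (XT.nd (nat_lit 78)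 (nat_lit 0) (nat_lit 76) (XT.lf (nat_lit 0) (nat_lit 183894824) (nat_lit 1140) (nat_lit 2890409638) (nat_lit 1216) (nat_lit 19133511340) (nat_lit 165) (nat_lit 5) (nat_lit 180) (nat_lit 3) (nat_lit 181) (nat_lit 5) (nat_lit 318) (nat_lit 316) (nat_lit 146)) (XT.lf (nat_lit 0) (nat_lit 539509431) (nat_lit 1140) (nat_lit 15533297596) (nat_lit 1216) (nat_lit 6467168780) (nat_lit 166) (nat_lit 5) (nat_lit 181) (nat_lit 5) (nat_lit 182) (nat_lit 5) (nat_lit 319) (nat_lit 316) (nat_lit 145)))) (XT.nd (nat_lit 78) (nat_lit 0) (nat_lit 76) (XT.lf (nat_lit 0) (nat_lit 960824455) (nat_lit 1140) (nat_lit 5654882795) (nat_lit 1216) (nat_lit 16264750813) (nat_lit 166) (nat_lit 5) (nat_lit 181) (nat_lit 5) (nat_lit 182) (nat_lit 5) (nat_lit 320) (nat_lit 316) (nat_lit 144)) (XT.nd (nat_lit 78) (nat_lit 0) (nat_lit 0) (XT.lf (nat_lit 0) (nat_lit 1464821181) (nat_lit 1140) (nat_lit 18653466779) (nat_lit 1216)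 (nat_lit 3110773725) (nat_lit 167) (nat_lit 5) (nat_lit 182) (nat_lit 5) (nat_lit 183) (nat_lit 5) (nat_lit 321) (nat_lit 316) (nat_lit 143)) (XT.lf (nat_lit 0) (nat_lit 2102497295) (nat_lit 1140) (nat_lit 8426485061) (nat_lit 1216) (nat_lit 13055592203) (nat_lit 167) (nat_lit 5) (nat_lit 182) (nat_lit 5) (nat_lit 183) (nat_lit 5) (nat_lit 322) (nat_lit 316) (nat_lit 142))))))) (XT.nd (nat_lit 936) (nat_lit 2736) (nat_lit 0) (XT.nd (nat_lit 468) (nat_lit 760) (nat_lit 0) (XT.nd (nat_lit 234) (nat_lit 0) (nat_lit 152) (XT.nd (nat_lit 78) (nat_lit 0) (nat_lit 76) (XT.lf (nat_lit 76) (nat_lit 2146360395) (nat_lit 0) (nat_lit 629098561) (nat_lit 1216) (nat_lit 21174816903) (nat_lit 168) (nat_lit 5) (nat_lit 167) (nat_lit 5) (nat_lit 183) (nat_lit 5) (nat_lit 323) (nat_lit 316) (nat_lit 141)) (XT.nd (nat_lit 78) (nat_lit 0) (nat_lit 0) (XT.lf (nat_lit 0) (nat_lit 3642156014) (nat_lit 1140) (nat_lit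 11211038415) (nat_lit 1216) (nat_lit 9468554844) (nat_lit 168) (nat_lit 5) (nat_lit 183) (nat_lit 5) (nat_lit 184) (nat_lit 5) (nat_lit 324) (nat_lit 316) (nat_lit 140)) (XT.lf (nat_lit 0) (nat_lit 4536851338) (nat_lit 1140) (nat_lit 309472673) (nat_lit 1216) (nat_lit 19857990213) (nat_lit 168) (nat_lit 5) (nat_lit 183) (nat_lit 5) (nat_lit 184) (nat_lit 5) (nat_lit 325) (nat_lit 316) (nat_lit 139)))) (XT.nd (nat_lit 78) (nat_lit 0) (nat_lit 0) (XT.lf (nat_lit 0) (nat_lit 5614866947) (nat_lit 1140) (nat_lit 14015228620) (nat_lit 1216) (nat_lit 5463573217) (nat_lit 169) (nat_lit 5) (nat_lit 184) (nat_lit 5) (nat_lit 185) (nat_lit 5) (nat_lit 326) (nat_lit 316) (nat_lit 138)) (XT.nd (nat_lit 78) (nat_lit 0) (nat_lit 76) (XT.lf (nat_lit 0) (nat_lit 6772359561) (nat_lit 1140) (nat_lit 2731187724) (nat_lit 1216) (nat_lit 15989749440) (nat_lit 169) (nat_lit 5) (nat_lit 184) (nat_lit 5) (nat_lit 185)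 (nat_lit 5) (nat_lit 327) (nat_lit 316) (nat_lit 137)) (XT.lf (nat_lit 0) (nat_lit 8057615483) (nat_lit 1140) (nat_lit 16846743343) (nat_lit 1216) (nat_lit 997770161) (nat_lit 170) (nat_lit 5) (nat_lit 185) (nat_lit 5) (nat_lit 186) (nat_lit 5) (nat_lit 328) (nat_lit 316) (nat_lit 136))))) (XT.nd (nat_lit 234) (nat_lit 988) (nat_lit 0) (XT.nd (nat_lit 78) (nat_lit 0) (nat_lit 0) (XT.lf (nat_lit 0) (nat_lit 9499586195) (nat_lit 1140) (nat_lit 5168139182) (nat_lit 1216) (nat_lit 11651962572) (nat_lit 170) (nat_lit 5) (nat_lit 185) (nat_lit 5) (nat_lit 186) (nat_lit 5) (nat_lit 329) (nat_lit 316) (nat_lit 135)) (XT.nd (nat_lit 78) (nat_lit 0) (nat_lit 76) (XT.lf (nat_lit 76) (nat_lit 6994479873) (nat_lit 0) (nat_lit 4053891644) (nat_lit 1216) (nat_lit 15699501757) (nat_lit 171) (nat_lit 5) (nat_lit 170) (nat_lit 5) (nat_lit 186) (nat_lit 5) (nat_lit 330) (nat_lit 316) (nat_lit 134)) (XT.lf (nat_lit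 0) (nat_lit 12758852323) (nat_lit 1140) (nat_lit 7628979609) (nat_lit 1216) (nat_lit 6797621345) (nat_lit 171) (nat_lit 5) (nat_lit 186) (nat_lit 5) (nat_lit 187) (nat_lit 5) (nat_lit 331) (nat_lit 316) (nat_lit 133)))) (XT.nd (nat_lit 78) (nat_lit 1064) (nat_lit 0) (XT.lf (nat_lit 76) (nat_lit 4912041167) (nat_lit 0) (nat_lit 9692474248) (nat_lit 1216) (nat_lit 13029135129) (nat_lit 172) (nat_lit 5) (nat_lit 171) (nat_lit 5) (nat_lit 187) (nat_lit 5) (nat_lit 332) (nat_lit 316) (nat_lit 132)) (XT.nd (nat_lit 78) (nat_lit 1140) (nat_lit 0) (XT.lf (nat_lit 0) (nat_lit 16592666620) (nat_lit 1140) (nat_lit 10123716368) (nat_lit 76) (nat_lit 1376302921) (nat_lit 172) (nat_lit 5) (nat_lit 187) (nat_lit 5) (nat_lit 173) (nat_lit 5) (nat_lit 333) (nat_lit 316) (nat_lit 131)) (XT.lf (nat_lit 0) (nat_lit 2808104227) (nat_lit 1140) (nat_lit 15952008767) (nat_lit 1216) (nat_lit 9801795382) (nat_lit 157)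 (nat_lit 5) (nat_lit 172) (nat_lit 5) (nat_lit 173) (nat_lit 5) (nat_lit 334) (nat_lit 316) (nat_lit 130)))))) (XT.nd (nat_lit 468) (nat_lit 1520) (nat_lit 0) (XT.nd (nat_lit 234) (nat_lit 684) (nat_lit 0) (XT.nd (nat_lit 78) (nat_lit 532) (nat_lit 0) (XT.lf (nat_lit 0) (nat_lit 16332593206) (nat_lit 1140) (nat_lit 4758980870) (nat_lit 1216) (nat_lit 7950669100) (nat_lit 157) (nat_lit 5) (nat_lit 172) (nat_lit 5) (nat_lit 173) (nat_lit 5) (nat_lit 335) (nat_lit 316) (nat_lit 129)) (XT.nd (nat_lit 78) (nat_lit 0) (nat_lit 0) (XT.lf (nat_lit 0) (nat_lit 671012771) (nat_lit 532) (nat_lit 22890352154) (nat_lit 608) (nat_lit 5973576758) (nat_lit 150) (nat_lit 5) (nat_lit 157) (nat_lit 5) (nat_lit 158) (nat_lit 5) (nat_lit 336) (nat_lit 316) (nat_lit 128)) (XT.lf (nat_lit 0) (nat_lit 14662768056) (nat_lit 532) (nat_lit 11614405073) (nat_lit 608) (nat_lit 3760095398) (nat_lit 150) (nat_lit 5) (nat_lit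 157) (nat_lit 5) (nat_lit 158) (nat_lit 5) (nat_lit 337) (nat_lit 316) (nat_lit 127)))) (XT.nd (nat_lit 78) (nat_lit 684) (nat_lit 0) (XT.lf (nat_lit 0) (nat_lit 29071470355) (nat_lit 608) (nat_lit 1483209075) (nat_lit 76) (nat_lit 80242) (nat_lit 150) (nat_lit 5) (nat_lit 158) (nat_lit 5) (nat_lit 151) (nat_lit 5) (nat_lit 338) (nat_lit 316) (nat_lit 126)) (XT.nd (nat_lit 78) (nat_lit 0) (nat_lit 0) (XT.lf (nat_lit 0) (nat_lit 1084019146) (nat_lit 684) (nat_lit 18131324213) (nat_lit 76) (nat_lit 11865017855) (nat_lit 141) (nat_lit 5) (nat_lit 150) (nat_lit 5) (nat_lit 142) (nat_lit 5) (nat_lit 339) (nat_lit 316) (nat_lit 125)) (XT.lf (nat_lit 0) (nat_lit 3710789037) (nat_lit 684) (nat_lit 3794235254) (nat_lit 76) (nat_lit 24115902807) (nat_lit 141) (nat_lit 5) (nat_lit 150) (nat_lit 5) (nat_lit 142) (nat_lit 5) (nat_lit 340) (nat_lit 316) (nat_lit 124))))) (XT.nd (nat_lit 234) (nat_lit 456) (nat_lit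 0) (XT.nd (nat_lit 78) (nat_lit 532) (nat_lit 0) (XT.lf (nat_lit 0) (nat_lit 6565993005) (nat_lit 608) (nat_lit 21030835185) (nat_lit 76) (nat_lit 4576397229) (nat_lit 134) (nat_lit 5) (nat_lit 142) (nat_lit 5) (nat_lit 135) (nat_lit 5) (nat_lit 341) (nat_lit 316) (nat_lit 123)) (XT.nd (nat_lit 78) (nat_lit 532) (nat_lit 0) (XT.lf (nat_lit 0) (nat_lit 9617122765) (nat_lit 608) (nat_lit 6213491061) (nat_lit 76) (nat_lit 16908175035) (nat_lit 134) (nat_lit 5) (nat_lit 142) (nat_lit 5) (nat_lit 135) (nat_lit 5) (nat_lit 342) (nat_lit 316) (nat_lit 122)) (XT.lf (nat_lit 0) (nat_lit 9225726884) (nat_lit 532) (nat_lit 3620091229) (nat_lit 608) (nat_lit 20472924280) (nat_lit 127) (nat_lit 5) (nat_lit 134) (nat_lit 5) (nat_lit 135) (nat_lit 5) (nat_lit 343) (nat_lit 316) (nat_lit 121)))) (XT.nd (nat_lit 78) (nat_lit 456) (nat_lit 0) (XT.lf (nat_lit 0) (nat_lit 16318237050) (nat_lit 608) (nat_lit 8748168331)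 (nat_lit 76) (nat_lit 8845287285) (nat_lit 127) (nat_lit 5) (nat_lit 135) (nat_lit 5) (nat_lit 128) (nat_lit 5) (nat_lit 344) (nat_lit 316) (nat_lit 120)) (XT.nd (nat_lit 78) (nat_lit 0) (nat_lit 0) (XT.lf (nat_lit 0) (nat_lit 7158214809) (nat_lit 456) (nat_lit 12838740800) (nat_lit 532) (nat_lit 14522415927) (nat_lit 121) (nat_lit 5) (nat_lit 127) (nat_lit 5) (nat_lit 128) (nat_lit 5) (nat_lit 345) (nat_lit 316) (nat_lit 119)) (XT.lf (nat_lit 0) (nat_lit 23718494773) (nat_lit 456) (nat_lit 153404037) (nat_lit 532) (nat_lit 11270809854) (nat_lit 121) (nat_lit 5) (nat_lit 127) (nat_lit 5) (nat_lit 128) (nat_lit 5) (nat_lit 346) (nat_lit 316) (nat_lit 118))))))))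
noncomputable def xc230 : XT := (XT.nd (nat_lit 1794) (nat_lit 836) (nat_lit 0) (XT.nd (nat_lit 858) (nat_lit 2052) (nat_lit 0) (XT.nd (nat_lit 390) (nat_lit 1216) (nat_lit 0) (XT.nd (nat_lit 156) (nat_lit 456) (nat_lit 0) (XT.nd (nat_lit 78) (nat_lit 0) (nat_lit 0) (XT.lf (nat_lit 0) (nat_lit 4960897878) (nat_lit 456) (nat_lit 23071596886) (nat_lit 532) (nat_lit 7747172687) (nat_lit 115) (nat_lit 5) (nat_lit 121) (nat_lit 5) (nat_lit 122) (nat_lit 5) (nat_lit 347) (nat_lit 316) (nat_lit 117)) (XT.lf (nat_lit 0) (nat_lit 22067603252) (nat_lit 456) (nat_lit 10364811064) (nat_lit 532) (nat_lit 3999889081) (nat_lit 115) (nat_lit 5) (nat_lit 121) (nat_lit 5) (nat_lit 122) (nat_lit 5) (nat_lit 348) (nat_lit 316) (nat_lit 116))) (XT.nd (nat_lit 78) (nat_lit 76) (nat_lit 0) (XT.lf (nat_lit 0) (nat_lit 2605058314) (nat_lit 380) (nat_lit 34408197563) (nat_lit 456) (nat_lit 89798278) (nat_lit 110) (nat_lit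 5) (nat_lit 115) (nat_lit 5) (nat_lit 116) (nat_lit 5) (nat_lit 349) (nat_lit 316) (nat_lit 115)) (XT.nd (nat_lit 78) (nat_lit 0) (nat_lit 0) (XT.lf (nat_lit 0) (nat_lit 4107594687) (nat_lit 456) (nat_lit 17555726092) (nat_lit 76) (nat_lit 16122069322) (nat_lit 109) (nat_lit 5) (nat_lit 115) (nat_lit 5) (nat_lit 110) (nat_lit 5) (nat_lit 350) (nat_lit 316) (nat_lit 114)) (XT.lf (nat_lit 0) (nat_lit 8426893629) (nat_lit 456) (nat_lit 108614680) (nat_lit 76) (nat_lit 29952730643) (nat_lit 109) (nat_lit 5) (nat_lit 115) (nat_lit 5) (nat_lit 110) (nat_lit 5) (nat_lit 351) (nat_lit 316) (nat_lit 113))))) (XT.nd (nat_lit 234) (nat_lit 380) (nat_lit 0) (XT.nd (nat_lit 78) (nat_lit 380) (nat_lit 0) (XT.lf (nat_lit 0) (nat_lit 13098377952) (nat_lit 532) (nat_lit 21041763680) (nat_lit 76) (nat_lit 5065356524) (nat_lit 103) (nat_lit 5) (nat_lit 110) (nat_lit 5) (nat_lit 104) (nat_lit 5) (nat_lit 352) (nat_lit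 316) (nat_lit 112)) (XT.nd (nat_lit 78) (nat_lit 380) (nat_lit 0) (XT.lf (nat_lit 0) (nat_lit 17993513768) (nat_lit 532) (nat_lit 3044784779) (nat_lit 76) (nat_lit 18903474368) (nat_lit 103) (nat_lit 5) (nat_lit 110) (nat_lit 5) (nat_lit 104) (nat_lit 5) (nat_lit 353) (nat_lit 316) (nat_lit 111)) (XT.lf (nat_lit 0) (nat_lit 15797948950) (nat_lit 380) (nat_lit 7387365058) (nat_lit 456) (nat_lit 17510330501) (nat_lit 98) (nat_lit 5) (nat_lit 103) (nat_lit 5) (nat_lit 104) (nat_lit 5) (nat_lit 354) (nat_lit 316) (nat_lit 110)))) (XT.nd (nat_lit 78) (nat_lit 380) (nat_lit 0) (XT.lf (nat_lit 0) (nat_lit 28626048501) (nat_lit 456) (nat_lit 6269745397) (nat_lit 76) (nat_lit 6573545763) (nat_lit 98) (nat_lit 5) (nat_lit 104) (nat_lit 5) (nat_lit 99) (nat_lit 5) (nat_lit 355) (nat_lit 316) (nat_lit 109)) (XT.nd (nat_lit 78) (nat_lit 0) (nat_lit 0) (XT.lf (nat_lit 0) (nat_lit 13097078997) (nat_lit 380)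 (nat_lit 21330007709) (nat_lit 456) (nat_lit 7833249245) (nat_lit 93) (nat_lit 5) (nat_lit 98) (nat_lit 5) (nat_lit 99) (nat_lit 5) (nat_lit 356) (nat_lit 316) (nat_lit 108)) (XT.lf (nat_lit 0) (nat_lit 33171061992) (nat_lit 380) (nat_lit 7292482757) (nat_lit 456) (nat_lit 2609678377) (nat_lit 93) (nat_lit 5) (nat_lit 98) (nat_lit 5) (nat_lit 99) (nat_lit 5) (nat_lit 357) (nat_lit 316) (nat_lit 107)))))) (XT.nd (nat_lit 468) (nat_lit 988) (nat_lit 0) (XT.nd (nat_lit 234) (nat_lit 304) (nat_lit 0) (XT.nd (nat_lit 78) (nat_lit 380) (nat_lit 0) (XT.lf (nat_lit 0) (nat_lit 2881888701) (nat_lit 380) (nat_lit 33871971142) (nat_lit 76) (nat_lit 7150879991) (nat_lit 88) (nat_lit 5) (nat_lit 93) (nat_lit 5) (nat_lit 89) (nat_lit 5) (nat_lit 358) (nat_lit 316) (nat_lit 106)) (XT.nd (nat_lit 78) (nat_lit 380) (nat_lit 0) (XT.lf (nat_lit 0) (nat_lit 8657075916) (nat_lit 380) (nat_lit 14090874026) (nat_lit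 76) (nat_lit 22007339628) (nat_lit 88) (nat_lit 5) (nat_lit 93) (nat_lit 5) (nat_lit 89) (nat_lit 5) (nat_lit 359) (nat_lit 316) (nat_lit 105)) (XT.lf (nat_lit 0) (nat_lit 6406364788) (nat_lit 380) (nat_lit 8258929876) (nat_lit 456) (nat_lit 30964270216) (nat_lit 83) (nat_lit 5) (nat_lit 88) (nat_lit 5) (nat_lit 89) (nat_lit 5) (nat_lit 360) (nat_lit 316) (nat_lit 104)))) (XT.nd (nat_lit 78) (nat_lit 304) (nat_lit 0) (XT.lf (nat_lit 0) (nat_lit 21059744600) (nat_lit 456) (nat_lit 18786235037) (nat_lit 76) (nat_lit 6677911564) (nat_lit 83) (nat_lit 5) (nat_lit 89) (nat_lit 5) (nat_lit 84) (nat_lit 5) (nat_lit 361) (nat_lit 316) (nat_lit 103)) (XT.nd (nat_lit 78) (nat_lit 0) (nat_lit 0) (XT.lf (nat_lit 0) (nat_lit 2223187062) (nat_lit 304) (nat_lit 25524254892) (nat_lit 380) (nat_lit 19694565165) (nat_lit 79) (nat_lit 5) (nat_lit 83) (nat_lit 5) (nat_lit 84) (nat_lit 5) (nat_lit 362) (nat_lit 316)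 (nat_lit 102)) (XT.lf (nat_lit 0) (nat_lit 24245750697) (nat_lit 304) (nat_lit 10578024175) (nat_lit 380) (nat_lit 13558253661) (nat_lit 79) (nat_lit 5) (nat_lit 83) (nat_lit 5) (nat_lit 84) (nat_lit 5) (nat_lit 363) (nat_lit 316) (nat_lit 101))))) (XT.nd (nat_lit 234) (nat_lit 608) (nat_lit 0) (XT.nd (nat_lit 78) (nat_lit 380) (nat_lit 0) (XT.lf (nat_lit 0) (nat_lit 42157042777) (nat_lit 380) (nat_lit 2469781209) (nat_lit 76) (nat_lit 4722089351) (nat_lit 79) (nat_lit 5) (nat_lit 84) (nat_lit 5) (nat_lit 80) (nat_lit 5) (nat_lit 364) (nat_lit 316) (nat_lit 100)) (XT.nd (nat_lit 78) (nat_lit 76) (nat_lit 0) (XT.lf (nat_lit 0) (nat_lit 20132681430) (nat_lit 304) (nat_lit 29874281011) (nat_lit 380) (nat_lit 328944667) (nat_lit 75) (nat_lit 5) (nat_lit 79) (nat_lit 5) (nat_lit 80) (nat_lit 5) (nat_lit 365) (nat_lit 316) (nat_lit 99)) (XT.lf (nat_lit 0) (nat_lit 6631938602) (nat_lit 380) (nat_lit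 7955120808) (nat_lit 76) (nat_lit 36762801908) (nat_lit 74) (nat_lit 5) (nat_lit 79) (nat_lit 5) (nat_lit 75) (nat_lit 5) (nat_lit 366) (nat_lit 316) (nat_lit 98)))) (XT.nd (nat_lit 78) (nat_lit 304) (nat_lit 0) (XT.lf (nat_lit 0) (nat_lit 13952721043) (nat_lit 380) (nat_lit 37149704840) (nat_lit 76) (nat_lit 1286981902) (nat_lit 70) (nat_lit 5) (nat_lit 75) (nat_lit 5) (nat_lit 71) (nat_lit 5) (nat_lit 367) (nat_lit 316) (nat_lit 97)) (XT.nd (nat_lit 78) (nat_lit 304) (nat_lit 0) (XT.lf (nat_lit 0) (nat_lit 21717147924) (nat_lit 380) (nat_lit 14311636872) (nat_lit 76) (nat_lit 17424637031) (nat_lit 70) (nat_lit 5) (nat_lit 75) (nat_lit 5) (nat_lit 71) (nat_lit 5) (nat_lit 368) (nat_lit 316) (nat_lit 96)) (XT.lf (nat_lit 0) (nat_lit 9392794306) (nat_lit 304) (nat_lit 20410515363) (nat_lit 380) (nat_lit 24743384315) (nat_lit 66) (nat_lit 5) (nat_lit 70) (nat_lit 5) (nat_lit 71) (nat_lit 5) (nat_lit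 369) (nat_lit 316) (nat_lit 95))))))) (XT.nd (nat_lit 36894) (nat_lit 0) (nat_lit 8512) (XT.nd (nat_lit 468) (nat_lit 228) (nat_lit 0) (XT.nd (nat_lit 234) (nat_lit 380) (nat_lit 0) (XT.nd (nat_lit 78) (nat_lit 228) (nat_lit 0) (XT.lf (nat_lit 0) (nat_lit 34099687123) (nat_lit 304) (nat_lit 4175425039) (nat_lit 380) (nat_lit 17393362171) (nat_lit 66) (nat_lit 5) (nat_lit 70) (nat_lit 5) (nat_lit 71) (nat_lit 5) (nat_lit 370) (nat_lit 316) (nat_lit 94)) (XT.nd (nat_lit 78) (nat_lit 0) (nat_lit 0) (XT.lf (nat_lit 0) (nat_lit 2653016731) (nat_lit 228) (nat_lit 44492734767) (nat_lit 304) (nat_lit 9673817766) (nat_lit 63) (nat_lit 5) (nat_lit 66) (nat_lit 5) (nat_lit 67) (nat_lit 5) (nat_lit 371) (nat_lit 316) (nat_lit 93)) (XT.lf (nat_lit 0) (nat_lit 27999444947) (nat_lit 228) (nat_lit 28540398955) (nat_lit 304) (nat_lit 1457634731) (nat_lit 63) (nat_lit 5) (nat_lit 66) (nat_lit 5) (nat_lit 67) (nat_lit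 5) (nat_lit 372) (nat_lit 316) (nat_lit 92)))) (XT.nd (nat_lit 78) (nat_lit 304) (nat_lit 0) (XT.lf (nat_lit 0) (nat_lit 6866962112) (nat_lit 304) (nat_lit 5173771714) (nat_lit 76) (nat_lit 47168014220) (nat_lit 62) (nat_lit 5) (nat_lit 66) (nat_lit 5) (nat_lit 63) (nat_lit 5) (nat_lit 373) (nat_lit 316) (nat_lit 91)) (XT.nd (nat_lit 78) (nat_lit 0) (nat_lit 0) (XT.lf (nat_lit 0) (nat_lit 15660190153) (nat_lit 380) (nat_lit 39715258696) (nat_lit 76) (nat_lit 5073029492) (nat_lit 58) (nat_lit 5) (nat_lit 63) (nat_lit 5) (nat_lit 59) (nat_lit 5) (nat_lit 374) (nat_lit 316) (nat_lit 90)) (XT.lf (nat_lit 0) (nat_lit 24887869471) (nat_lit 380) (nat_lit 14322022436) (nat_lit 76) (nat_lit 22510390432) (nat_lit 58) (nat_lit 5) (nat_lit 63) (nat_lit 5) (nat_lit 59) (nat_lit 5) (nat_lit 375) (nat_lit 316) (nat_lit 89))))) (XT.nd (nat_lit 36192) (nat_lit 0) (nat_lit 8360) (XT.nd (nat_lit 36036) (nat_lit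 0) (nat_lit 8360) (XT.lf (nat_lit 0) (nat_lit 12066595227) (nat_lit 228) (nat_lit 22440490991) (nat_lit 304) (nat_lit 28519714412) (nat_lit 55) (nat_lit 5) (nat_lit 58) (nat_lit 5) (nat_lit 59) (nat_lit 5) (nat_lit 376) (nat_lit 316) (nat_lit 88)) (XT.nd (nat_lit 78) (nat_lit 1140) (nat_lit 0) (XT.lf (nat_lit 0) (nat_lit 11099400112) (nat_lit 1140) (nat_lit 1244739) (nat_lit 1140) (nat_lit 1244739) (nat_lit 180) (nat_lit 3) (nat_lit 195) (nat_lit 3) (nat_lit 195) (nat_lit 5) (nat_lit 317) (nat_lit 317) (nat_lit 146)) (XT.lf (nat_lit 0) (nat_lit 215196617) (nat_lit 1140) (nat_lit 12666728879) (nat_lit 1216) (nat_lit 9648091775) (nat_lit 165) (nat_lit 5) (nat_lit 180) (nat_lit 3) (nat_lit 181) (nat_lit 5) (nat_lit 318) (nat_lit 317) (nat_lit 145)))) (XT.nd (nat_lit 78) (nat_lit 0) (nat_lit 76) (XT.lf (nat_lit 0) (nat_lit 437024069) (nat_lit 1140) (nat_lit 2843630836) (nat_lit 1216) (nat_lit 19585540129)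 (nat_lit 165) (nat_lit 5) (nat_lit 180) (nat_lit 3) (nat_lit 181) (nat_lit 5) (nat_lit 319) (nat_lit 317) (nat_lit 144)) (XT.nd (nat_lit 78) (nat_lit 0) (nat_lit 0) (XT.lf (nat_lit 0) (nat_lit 796313248) (nat_lit 1140) (nat_lit 15858397128) (nat_lit 1216) (nat_lit 6553831710) (nat_lit 166) (nat_lit 5) (nat_lit 181) (nat_lit 5) (nat_lit 182) (nat_lit 5) (nat_lit 320) (nat_lit 317) (nat_lit 143)) (XT.lf (nat_lit 0) (nat_lit 1223259416) (nat_lit 1140) (nat_lit 5687733749) (nat_lit 1216) (nat_lit 16648467966) (nat_lit 166) (nat_lit 5) (nat_lit 181) (nat_lit 5) (nat_lit 182) (nat_lit 5) (nat_lit 321) (nat_lit 317) (nat_lit 142)))))) (XT.nd (nat_lit 468) (nat_lit 0) (nat_lit 152) (XT.nd (nat_lit 234) (nat_lit 0) (nat_lit 76) (XT.nd (nat_lit 78) (nat_lit 0) (nat_lit 0) (XT.lf (nat_lit 0) (nat_lit 1735983288) (nat_lit 1140) (nat_lit 19069491850) (nat_lit 1216) (nat_lit 3113251225) (nat_lit 167) (nat_lit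 5) (nat_lit 182) (nat_lit 5) (nat_lit 183) (nat_lit 5) (nat_lit 322) (nat_lit 317) (nat_lit 141)) (XT.nd (nat_lit 78) (nat_lit 0) (nat_lit 0) (XT.lf (nat_lit 0) (nat_lit 2386171701) (nat_lit 1140) (nat_lit 8539882591) (nat_lit 1216) (nat_lit 13359060249) (nat_lit 167) (nat_lit 5) (nat_lit 182) (nat_lit 5) (nat_lit 183) (nat_lit 5) (nat_lit 323) (nat_lit 317) (nat_lit 140)) (XT.lf (nat_lit 76) (nat_lit 2348781591) (nat_lit 0) (nat_lit 725442226) (nat_lit 1216) (nat_lit 21587727062) (nat_lit 168) (nat_lit 5) (nat_lit 167) (nat_lit 5) (nat_lit 183) (nat_lit 5) (nat_lit 324) (nat_lit 317) (nat_lit 139)))) (XT.nd (nat_lit 78) (nat_lit 0) (nat_lit 0) (XT.lf (nat_lit 0) (nat_lit 3959922051) (nat_lit 1140) (nat_lit 11406002251) (nat_lit 1216) (nat_lit 9678864911) (nat_lit 168) (nat_lit 5) (nat_lit 183) (nat_lit 5) (nat_lit 184) (nat_lit 5) (nat_lit 325) (nat_lit 317) (nat_lit 138)) (XT.nd (nat_lit 78)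 (nat_lit 0) (nat_lit 76) (XT.lf (nat_lit 0) (nat_lit 4875385379) (nat_lit 1140) (nat_lit 181507032) (nat_lit 1216) (nat_lit 20382131299) (nat_lit 168) (nat_lit 5) (nat_lit 183) (nat_lit 5) (nat_lit 184) (nat_lit 5) (nat_lit 326) (nat_lit 317) (nat_lit 137)) (XT.lf (nat_lit 0) (nat_lit 5980556521) (nat_lit 1140) (nat_lit 14292913746) (nat_lit 1216) (nat_lit 5566754298) (nat_lit 169) (nat_lit 5) (nat_lit 184) (nat_lit 5) (nat_lit 185) (nat_lit 5) (nat_lit 327) (nat_lit 317) (nat_lit 136))))) (XT.nd (nat_lit 234) (nat_lit 0) (nat_lit 76) (XT.nd (nat_lit 78) (nat_lit 0) (nat_lit 76) (XT.lf (nat_lit 0) (nat_lit 7167028956) (nat_lit 1140) (nat_lit 2674510023) (nat_lit 1216) (nat_lit 16410484529) (nat_lit 169) (nat_lit 5) (nat_lit 184) (nat_lit 5) (nat_lit 185) (nat_lit 5) (nat_lit 328) (nat_lit 317) (nat_lit 135)) (XT.nd (nat_lit 78) (nat_lit 0) (nat_lit 0) (XT.lf (nat_lit 0) (nat_lit 8486103803) (nat_lit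 1140) (nat_lit 17208475926) (nat_lit 1216) (nat_lit 978692700) (nat_lit 170) (nat_lit 5) (nat_lit 185) (nat_lit 5) (nat_lit 186) (nat_lit 5) (nat_lit 329) (nat_lit 317) (nat_lit 134)) (XT.lf (nat_lit 0) (nat_lit 9965894028) (nat_lit 1140) (nat_lit 5183698196) (nat_lit 1216) (nat_lit 11953938375) (nat_lit 170) (nat_lit 5) (nat_lit 185) (nat_lit 5) (nat_lit 186) (nat_lit 5) (nat_lit 330) (nat_lit 317) (nat_lit 133)))) (XT.nd (nat_lit 78) (nat_lit 0) (nat_lit 76) (XT.lf (nat_lit 76) (nat_lit 7342431930) (nat_lit 0) (nat_lit 4214757480) (nat_lit 1216) (nat_lit 15987499661) (nat_lit 171) (nat_lit 5) (nat_lit 170) (nat_lit 5) (nat_lit 186) (nat_lit 5) (nat_lit 331) (nat_lit 317) (nat_lit 132)) (XT.nd (nat_lit 78) (nat_lit 0) (nat_lit 0) (XT.lf (nat_lit 0) (nat_lit 13313452321) (nat_lit 1140) (nat_lit 7717931183) (nat_lit 1216) (nat_lit 6964187660) (nat_lit 171) (nat_lit 5) (nat_lit 186) (nat_lit 5)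 (nat_lit 187) (nat_lit 5) (nat_lit 332) (nat_lit 317) (nat_lit 131)) (XT.lf (nat_lit 76) (nat_lit 5197948472) (nat_lit 0) (nat_lit 10012863737) (nat_lit 1216) (nat_lit 13246520799) (nat_lit 172) (nat_lit 5) (nat_lit 171) (nat_lit 5) (nat_lit 187) (nat_lit 5) (nat_lit 333) (nat_lit 317) (nat_lit 130))))))))
noncomputable def xc231 : XT := (XT.nd (nat_lit 1872) (nat_lit 2660) (nat_lit 0) (XT.nd (nat_lit 936) (nat_lit 2584) (nat_lit 0) (XT.nd (nat_lit 468) (nat_lit 1748) (nat_lit 0) (XT.nd (nat_lit 234) (nat_lit 532) (nat_lit 0) (XT.nd (nat_lit 78) (nat_lit 1140) (nat_lit 0) (XT.lf (nat_lit 0) (nat_lit 17253433659) (nat_lit 1140) (nat_lit 10287468827) (nat_lit 76) (nat_lit 1389400397) (nat_lit 172) (nat_lit 5) (nat_lit 187) (nat_lit 5) (nat_lit 173) (nat_lit 5) (nat_lit 334) (nat_lit 317) (nat_lit 129)) (XT.nd (nat_lit 78) (nat_lit 0) (nat_lit 0) (XT.lf (nat_lit 0) (nat_lit 3030934238) (nat_lit 1140)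 (nat_lit 16451554173) (nat_lit 1216) (nat_lit 9931224044) (nat_lit 157) (nat_lit 5) (nat_lit 172) (nat_lit 5) (nat_lit 173) (nat_lit 5) (nat_lit 335) (nat_lit 317) (nat_lit 128)) (XT.lf (nat_lit 0) (nat_lit 16957121376) (nat_lit 1140) (nat_lit 4922124221) (nat_lit 1216) (nat_lit 8029358882) (nat_lit 157) (nat_lit 5) (nat_lit 172) (nat_lit 5) (nat_lit 173) (nat_lit 5) (nat_lit 336) (nat_lit 317) (nat_lit 127)))) (XT.nd (nat_lit 78) (nat_lit 0) (nat_lit 0) (XT.lf (nat_lit 0) (nat_lit 829426228) (nat_lit 532) (nat_lit 23590330704) (nat_lit 608) (nat_lit 5996435729) (nat_lit 150) (nat_lit 5) (nat_lit 157) (nat_lit 5) (nat_lit 158) (nat_lit 5) (nat_lit 337) (nat_lit 317) (nat_lit 126)) (XT.nd (nat_lit 78) (nat_lit 0) (nat_lit 0) (XT.lf (nat_lit 0) (nat_lit 15236906509) (nat_lit 532) (nat_lit 11975718765) (nat_lit 608) (nat_lit 3721103762) (nat_lit 150) (nat_lit 5) (nat_lit 157) (nat_lit 5) (nat_lit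 158) (nat_lit 5) (nat_lit 338) (nat_lit 317) (nat_lit 125)) (XT.lf (nat_lit 0) (nat_lit 30074043009) (nat_lit 532) (nat_lit 12422054) (nat_lit 608) (nat_lit 1380415532) (nat_lit 150) (nat_lit 5) (nat_lit 157) (nat_lit 5) (nat_lit 158) (nat_lit 5) (nat_lit 339) (nat_lit 317) (nat_lit 124))))) (XT.nd (nat_lit 234) (nat_lit 532) (nat_lit 0) (XT.nd (nat_lit 78) (nat_lit 532) (nat_lit 0) (XT.lf (nat_lit 0) (nat_lit 1258008276) (nat_lit 684) (nat_lit 18538561892) (nat_lit 76) (nat_lit 12211735044) (nat_lit 141) (nat_lit 5) (nat_lit 150) (nat_lit 5) (nat_lit 142) (nat_lit 5) (nat_lit 340) (nat_lit 317) (nat_lit 123)) (XT.nd (nat_lit 78) (nat_lit 532) (nat_lit 0) (XT.lf (nat_lit 0) (nat_lit 3959460821) (nat_lit 684) (nat_lit 3775341877) (nat_lit 76) (nat_lit 24830415478) (nat_lit 141) (nat_lit 5) (nat_lit 150) (nat_lit 5) (nat_lit 142) (nat_lit 5) (nat_lit 341) (nat_lit 317) (nat_lit 122)) (XT.lf (nat_lit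 0) (nat_lit 6897553079) (nat_lit 608) (nat_lit 21526061985) (nat_lit 76) (nat_lit 4710559718) (nat_lit 134) (nat_lit 5) (nat_lit 142) (nat_lit 5) (nat_lit 135) (nat_lit 5) (nat_lit 342) (nat_lit 317) (nat_lit 121)))) (XT.nd (nat_lit 78) (nat_lit 532) (nat_lit 0) (XT.lf (nat_lit 0) (nat_lit 10036296918) (nat_lit 608) (nat_lit 6268149914) (nat_lit 76) (nat_lit 17412382006) (nat_lit 134) (nat_lit 5) (nat_lit 142) (nat_lit 5) (nat_lit 135) (nat_lit 5) (nat_lit 343) (nat_lit 317) (nat_lit 120)) (XT.nd (nat_lit 78) (nat_lit 0) (nat_lit 0) (XT.lf (nat_lit 0) (nat_lit 9632952944) (nat_lit 532) (nat_lit 3726348544) (nat_lit 608) (nat_lit 20954961975) (nat_lit 127) (nat_lit 5) (nat_lit 134) (nat_lit 5) (nat_lit 135) (nat_lit 5) (nat_lit 344) (nat_lit 317) (nat_lit 119)) (XT.lf (nat_lit 0) (nat_lit 16932183556) (nat_lit 608) (nat_lit 8880057157) (nat_lit 76) (nat_lit 9112878578) (nat_lit 127) (nat_lit 5)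 (nat_lit 135) (nat_lit 5) (nat_lit 128) (nat_lit 5) (nat_lit 345) (nat_lit 317) (nat_lit 118)))))) (XT.nd (nat_lit 468) (nat_lit 1216) (nat_lit 0) (XT.nd (nat_lit 234) (nat_lit 456) (nat_lit 0) (XT.nd (nat_lit 78) (nat_lit 456) (nat_lit 0) (XT.lf (nat_lit 0) (nat_lit 7502237513) (nat_lit 456) (nat_lit 13216645557) (nat_lit 532) (nat_lit 14832222472) (nat_lit 121) (nat_lit 5) (nat_lit 127) (nat_lit 5) (nat_lit 128) (nat_lit 5) (nat_lit 346) (nat_lit 317) (nat_lit 117)) (XT.nd (nat_lit 78) (nat_lit 456) (nat_lit 0) (XT.lf (nat_lit 0) (nat_lit 24555560549) (nat_lit 456) (nat_lit 150960074) (nat_lit 532) (nat_lit 11486734215) (nat_lit 121) (nat_lit 5) (nat_lit 127) (nat_lit 5) (nat_lit 128) (nat_lit 5) (nat_lit 347) (nat_lit 317) (nat_lit 116)) (XT.lf (nat_lit 0) (nat_lit 5237636648) (nat_lit 456) (nat_lit 23752142699) (nat_lit 532) (nat_lit 7859612969) (nat_lit 115) (nat_lit 5) (nat_lit 121) (nat_lit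 5) (nat_lit 122) (nat_lit 5) (nat_lit 348) (nat_lit 317) (nat_lit 115)))) (XT.nd (nat_lit 78) (nat_lit 456) (nat_lit 0) (XT.lf (nat_lit 0) (nat_lit 22853817596) (nat_lit 456) (nat_lit 10664491228) (nat_lit 532) (nat_lit 4003405270) (nat_lit 115) (nat_lit 5) (nat_lit 121) (nat_lit 5) (nat_lit 122) (nat_lit 5) (nat_lit 349) (nat_lit 317) (nat_lit 114)) (XT.nd (nat_lit 78) (nat_lit 0) (nat_lit 0) (XT.lf (nat_lit 0) (nat_lit 21526811) (nat_lit 456) (nat_lit 35403267364) (nat_lit 76) (nat_lit 2787850911) (nat_lit 109) (nat_lit 5) (nat_lit 115) (nat_lit 5) (nat_lit 110) (nat_lit 5) (nat_lit 350) (nat_lit 317) (nat_lit 113)) (XT.lf (nat_lit 0) (nat_lit 4339768335) (nat_lit 456) (nat_lit 17957369466) (nat_lit 76) (nat_lit 16618389375) (nat_lit 109) (nat_lit 5) (nat_lit 115) (nat_lit 5) (nat_lit 110) (nat_lit 5) (nat_lit 351) (nat_lit 317) (nat_lit 112))))) (XT.nd (nat_lit 234) (nat_lit 760) (nat_lit 0)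 (XT.nd (nat_lit 78) (nat_lit 0) (nat_lit 0) (XT.lf (nat_lit 0) (nat_lit 9703024) (nat_lit 456) (nat_lit 8775863313) (nat_lit 532) (nat_lit 30853992104) (nat_lit 103) (nat_lit 5) (nat_lit 109) (nat_lit 5) (nat_lit 110) (nat_lit 5) (nat_lit 352) (nat_lit 317) (nat_lit 111)) (XT.nd (nat_lit 78) (nat_lit 0) (nat_lit 0) (XT.lf (nat_lit 0) (nat_lit 13595333728) (nat_lit 532) (nat_lit 21549714311) (nat_lit 76) (nat_lit 5233347643) (nat_lit 103) (nat_lit 5) (nat_lit 110) (nat_lit 5) (nat_lit 104) (nat_lit 5) (nat_lit 353) (nat_lit 317) (nat_lit 110)) (XT.lf (nat_lit 0) (nat_lit 18634294363) (nat_lit 532) (nat_lit 3016417371) (nat_lit 76) (nat_lit 19486142118) (nat_lit 103) (nat_lit 5) (nat_lit 110) (nat_lit 5) (nat_lit 104) (nat_lit 5) (nat_lit 354) (nat_lit 317) (nat_lit 109)))) (XT.nd (nat_lit 78) (nat_lit 380) (nat_lit 0) (XT.lf (nat_lit 0) (nat_lit 16390424732) (nat_lit 380) (nat_lit 7589622306) (nat_lit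 456) (nat_lit 17933352767) (nat_lit 98) (nat_lit 5) (nat_lit 103) (nat_lit 5) (nat_lit 104) (nat_lit 5) (nat_lit 355) (nat_lit 317) (nat_lit 108)) (XT.nd (nat_lit 78) (nat_lit 380) (nat_lit 0) (XT.lf (nat_lit 0) (nat_lit 29581295729) (nat_lit 456) (nat_lit 6339910364) (nat_lit 76) (nat_lit 6789184997) (nat_lit 98) (nat_lit 5) (nat_lit 104) (nat_lit 5) (nat_lit 99) (nat_lit 5) (nat_lit 356) (nat_lit 317) (nat_lit 107)) (XT.lf (nat_lit 0) (nat_lit 13606762611) (nat_lit 380) (nat_lit 21947915264) (nat_lit 456) (nat_lit 7970493937) (nat_lit 93) (nat_lit 5) (nat_lit 98) (nat_lit 5) (nat_lit 99) (nat_lit 5) (nat_lit 357) (nat_lit 317) (nat_lit 106))))))) (XT.nd (nat_lit 936) (nat_lit 912) (nat_lit 0) (XT.nd (nat_lit 468) (nat_lit 684) (nat_lit 0) (XT.nd (nat_lit 234) (nat_lit 684) (nat_lit 0) (XT.nd (nat_lit 78) (nat_lit 380) (nat_lit 0) (XT.lf (nat_lit 0) (nat_lit 34279563992) (nat_lit 380) (nat_lit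 7489905126) (nat_lit 456) (nat_lit 2593063112) (nat_lit 93) (nat_lit 5) (nat_lit 98) (nat_lit 5) (nat_lit 99) (nat_lit 5) (nat_lit 358) (nat_lit 317) (nat_lit 105)) (XT.nd (nat_lit 78) (nat_lit 0) (nat_lit 0) (XT.lf (nat_lit 0) (nat_lit 3060005539) (nat_lit 380) (nat_lit 34771271593) (nat_lit 76) (nat_lit 7387735336) (nat_lit 88) (nat_lit 5) (nat_lit 93) (nat_lit 5) (nat_lit 89) (nat_lit 5) (nat_lit 359) (nat_lit 317) (nat_lit 104)) (XT.lf (nat_lit 0) (nat_lit 9005778656) (nat_lit 380) (nat_lit 14400145215) (nat_lit 76) (nat_lit 22689238405) (nat_lit 88) (nat_lit 5) (nat_lit 93) (nat_lit 5) (nat_lit 89) (nat_lit 5) (nat_lit 360) (nat_lit 317) (nat_lit 103)))) (XT.nd (nat_lit 78) (nat_lit 304) (nat_lit 0) (XT.lf (nat_lit 0) (nat_lit 6710898460) (nat_lit 380) (nat_lit 8481833458) (nat_lit 456) (nat_lit 31802982674) (nat_lit 83) (nat_lit 5) (nat_lit 88) (nat_lit 5) (nat_lit 89) (nat_lit 5) (nat_lit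 361) (nat_lit 317) (nat_lit 102)) (XT.nd (nat_lit 78) (nat_lit 304) (nat_lit 0) (XT.lf (nat_lit 0) (nat_lit 21776699487) (nat_lit 456) (nat_lit 19238326020) (nat_lit 76) (nat_lit 6901917961) (nat_lit 83) (nat_lit 5) (nat_lit 89) (nat_lit 5) (nat_lit 84) (nat_lit 5) (nat_lit 362) (nat_lit 317) (nat_lit 101)) (XT.lf (nat_lit 0) (nat_lit 2400285643) (nat_lit 304) (nat_lit 26263322916) (nat_lit 380) (nat_lit 20199040070) (nat_lit 79) (nat_lit 5) (nat_lit 83) (nat_lit 5) (nat_lit 84) (nat_lit 5) (nat_lit 363) (nat_lit 317) (nat_lit 100))))) (XT.nd (nat_lit 234) (nat_lit 380) (nat_lit 0) (XT.nd (nat_lit 78) (nat_lit 304) (nat_lit 0) (XT.lf (nat_lit 0) (nat_lit 25080310568) (nat_lit 304) (nat_lit 10869481771) (nat_lit 380) (nat_lit 13881154621) (nat_lit 79) (nat_lit 5) (nat_lit 83) (nat_lit 5) (nat_lit 84) (nat_lit 5) (nat_lit 364) (nat_lit 317) (nat_lit 99)) (XT.nd (nat_lit 78) (nat_lit 304) (nat_lit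 0) (XT.lf (nat_lit 0) (nat_lit 43500931755) (nat_lit 380) (nat_lit 2437582438) (nat_lit 76) (nat_lit 4888390921) (nat_lit 79) (nat_lit 5) (nat_lit 84) (nat_lit 5) (nat_lit 80) (nat_lit 5) (nat_lit 365) (nat_lit 317) (nat_lit 98)) (XT.lf (nat_lit 0) (nat_lit 20841912000) (nat_lit 304) (nat_lit 30743142591) (nat_lit 380) (nat_lit 258495860) (nat_lit 75) (nat_lit 5) (nat_lit 79) (nat_lit 5) (nat_lit 80) (nat_lit 5) (nat_lit 366) (nat_lit 317) (nat_lit 97)))) (XT.nd (nat_lit 78) (nat_lit 304) (nat_lit 0) (XT.lf (nat_lit 0) (nat_lit 6907352945) (nat_lit 380) (nat_lit 8089976432) (nat_lit 76) (nat_lit 37890642312) (nat_lit 74) (nat_lit 5) (nat_lit 79) (nat_lit 5) (nat_lit 75) (nat_lit 5) (nat_lit 367) (nat_lit 317) (nat_lit 96)) (XT.nd (nat_lit 78) (nat_lit 0) (nat_lit 0) (XT.lf (nat_lit 0) (nat_lit 14446784921) (nat_lit 380) (nat_lit 38159334938) (nat_lit 76) (nat_lit 1352616584) (nat_lit 70) (nat_lit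 5) (nat_lit 75) (nat_lit 5) (nat_lit 71) (nat_lit 5) (nat_lit 368) (nat_lit 317) (nat_lit 95)) (XT.lf (nat_lit 0) (nat_lit 22441946096) (nat_lit 380) (nat_lit 14639179136) (nat_lit 76) (nat_lit 17973614224) (nat_lit 70) (nat_lit 5) (nat_lit 75) (nat_lit 5) (nat_lit 71) (nat_lit 5) (nat_lit 369) (nat_lit 317) (nat_lit 94)))))) (XT.nd (nat_lit 468) (nat_lit 0) (nat_lit 0) (XT.nd (nat_lit 234) (nat_lit 380) (nat_lit 0) (XT.nd (nat_lit 78) (nat_lit 228) (nat_lit 0) (XT.lf (nat_lit 0) (nat_lit 9775386871) (nat_lit 304) (nat_lit 20994140380) (nat_lit 380) (nat_lit 25411320009) (nat_lit 66) (nat_lit 5) (nat_lit 70) (nat_lit 5) (nat_lit 71) (nat_lit 5) (nat_lit 370) (nat_lit 317) (nat_lit 93)) (XT.nd (nat_lit 78) (nat_lit 228) (nat_lit 0) (XT.lf (nat_lit 0) (nat_lit 35220550296) (nat_lit 304) (nat_lit 4272832990) (nat_lit 380) (nat_lit 17842963196) (nat_lit 66) (nat_lit 5) (nat_lit 70) (nat_lit 5) (nat_lit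 71) (nat_lit 5) (nat_lit 371) (nat_lit 317) (nat_lit 92)) (XT.lf (nat_lit 0) (nat_lit 2831415813) (nat_lit 228) (nat_lit 45797896405) (nat_lit 304) (nat_lit 9892689307) (nat_lit 63) (nat_lit 5) (nat_lit 66) (nat_lit 5) (nat_lit 67) (nat_lit 5) (nat_lit 372) (nat_lit 317) (nat_lit 91)))) (XT.nd (nat_lit 78) (nat_lit 380) (nat_lit 0) (XT.lf (nat_lit 0) (nat_lit 28935358956) (nat_lit 228) (nat_lit 29367853248) (nat_lit 304) (nat_lit 1432098732) (nat_lit 63) (nat_lit 5) (nat_lit 66) (nat_lit 5) (nat_lit 67) (nat_lit 5) (nat_lit 373) (nat_lit 317) (nat_lit 90)) (XT.nd (nat_lit 78) (nat_lit 304) (nat_lit 0) (XT.lf (nat_lit 0) (nat_lit 7138906344) (nat_lit 304) (nat_lit 5234463605) (nat_lit 76) (nat_lit 48609590022) (nat_lit 62) (nat_lit 5) (nat_lit 66) (nat_lit 5) (nat_lit 63) (nat_lit 5) (nat_lit 374) (nat_lit 317) (nat_lit 89)) (XT.lf (nat_lit 0) (nat_lit 16195186157) (nat_lit 380) (nat_lit 40811379782)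 (nat_lit 76) (nat_lit 5253340698) (nat_lit 58) (nat_lit 5) (nat_lit 63) (nat_lit 5) (nat_lit 59) (nat_lit 5) (nat_lit 375) (nat_lit 317) (nat_lit 88))))) (XT.nd (nat_lit 36270) (nat_lit 0) (nat_lit 8132) (XT.nd (nat_lit 36114) (nat_lit 0) (nat_lit 8132) (XT.lf (nat_lit 0) (nat_lit 25697797108) (nat_lit 380) (nat_lit 14659123231) (nat_lit 76) (nat_lit 23213003428) (nat_lit 58) (nat_lit 5) (nat_lit 63) (nat_lit 5) (nat_lit 59) (nat_lit 5) (nat_lit 376) (nat_lit 317) (nat_lit 87)) (XT.nd (nat_lit 78) (nat_lit 0) (nat_lit 0) (XT.lf (nat_lit 0) (nat_lit 60932549) (nat_lit 0) (nat_lit 60932549) (nat_lit 1140) (nat_lit 11309137106) (nat_lit 165) (nat_lit 5) (nat_lit 165) (nat_lit 3) (nat_lit 180) (nat_lit 3) (nat_lit 318) (nat_lit 318) (nat_lit 144)) (XT.lf (nat_lit 0) (nat_lit 462052904) (nat_lit 1140) (nat_lit 12917127743) (nat_lit 1216) (nat_lit 9819110692) (nat_lit 165) (nat_lit 5) (nat_lit 180)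 (nat_lit 3) (nat_lit 181) (nat_lit 5) (nat_lit 319) (nat_lit 318) (nat_lit 143)))) (XT.nd (nat_lit 78) (nat_lit 0) (nat_lit 76) (XT.lf (nat_lit 0) (nat_lit 683533226) (nat_lit 1140) (nat_lit 2803111604) (nat_lit 1216) (nat_lit 20058131734) (nat_lit 165) (nat_lit 5) (nat_lit 180) (nat_lit 3) (nat_lit 181) (nat_lit 5) (nat_lit 320) (nat_lit 318) (nat_lit 142)) (XT.nd (nat_lit 78) (nat_lit 0) (nat_lit 0) (XT.lf (nat_lit 0) (nat_lit 1047008692) (nat_lit 1140) (nat_lit 16201337848) (nat_lit 1216) (nat_lit 6649256980) (nat_lit 166) (nat_lit 5) (nat_lit 181) (nat_lit 5) (nat_lit 182) (nat_lit 5) (nat_lit 321) (nat_lit 318) (nat_lit 141)) (XT.lf (nat_lit 0) (nat_lit 1480157244) (nat_lit 1140) (nat_lit 5729422855) (nat_lit 1216) (nat_lit 17049679596) (nat_lit 166) (nat_lit 5) (nat_lit 181) (nat_lit 5) (nat_lit 182) (nat_lit 5) (nat_lit 322) (nat_lit 318) (nat_lit 140))))))))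
noncomputable def xc232 : XT := (XT.nd (nat_lit 1794) (nat_lit 4332) (nat_lit 0) (XT.nd (nat_lit 858) (nat_lit 3040) (nat_lit 0) (XT.nd (nat_lit 390) (nat_lit 0) (nat_lit 152) (XT.nd (nat_lit 156) (nat_lit 0) (nat_lit 0) (XT.nd (nat_lit 78) (nat_lit 0) (nat_lit 0) (XT.lf (nat_lit 0) (nat_lit 2002237047) (nat_lit 1140) (nat_lit 19506239692) (nat_lit 1216) (nat_lit 3121017965) (nat_lit 167) (nat_lit 5) (nat_lit 182) (nat_lit 5) (nat_lit 183) (nat_lit 5) (nat_lit 323) (nat_lit 318) (nat_lit 139)) (XT.lf (nat_lit 0) (nat_lit 2665693027) (nat_lit 1140) (nat_lit 8664684006) (nat_lit 1216) (nat_lit 13676695361) (nat_lit 167) (nat_lit 5) (nat_lit 182) (nat_lit 5) (nat_lit 183) (nat_lit 5) (nat_lit 324) (nat_lit 318) (nat_lit 138))) (XT.nd (nat_lit 78) (nat_lit 0) (nat_lit 76) (XT.lf (nat_lit 76) (nat_lit 2549351914) (nat_lit 0) (nat_lit 820229065) (nat_lit 1216) (nat_lit 22025787426) (nat_lit 168) (nat_lit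 5) (nat_lit 167) (nat_lit 5) (nat_lit 183) (nat_lit 5) (nat_lit 325) (nat_lit 318) (nat_lit 137)) (XT.nd (nat_lit 78) (nat_lit 0) (nat_lit 0) (XT.lf (nat_lit 0) (nat_lit 4275252237) (nat_lit 1140) (nat_lit 11614930064) (nat_lit 1216) (nat_lit 9899717635) (nat_lit 168) (nat_lit 5) (nat_lit 183) (nat_lit 5) (nat_lit 184) (nat_lit 5) (nat_lit 326) (nat_lit 318) (nat_lit 136)) (XT.lf (nat_lit 0) (nat_lit 5212455217) (nat_lit 1140) (nat_lit 57581123) (nat_lit 1216) (nat_lit 20926106672) (nat_lit 168) (nat_lit 5) (nat_lit 183) (nat_lit 5) (nat_lit 184) (nat_lit 5) (nat_lit 327) (nat_lit 318) (nat_lit 135))))) (XT.nd (nat_lit 234) (nat_lit 0) (nat_lit 76) (XT.nd (nat_lit 78) (nat_lit 0) (nat_lit 0) (XT.lf (nat_lit 0) (nat_lit 6345894195) (nat_lit 1140) (nat_lit 14587125107) (nat_lit 1216) (nat_lit 5676516739) (nat_lit 169) (nat_lit 5) (nat_lit 184) (nat_lit 5) (nat_lit 185) (nat_lit 5) (nat_lit 328)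 (nat_lit 318) (nat_lit 134)) (XT.nd (nat_lit 78) (nat_lit 0) (nat_lit 76) (XT.lf (nat_lit 0) (nat_lit 7562545628) (nat_lit 1140) (nat_lit 2624088963) (nat_lit 1216) (nat_lit 16847226066) (nat_lit 169) (nat_lit 5) (nat_lit 184) (nat_lit 5) (nat_lit 185) (nat_lit 5) (nat_lit 329) (nat_lit 318) (nat_lit 133)) (XT.lf (nat_lit 0) (nat_lit 8916725992) (nat_lit 1140) (nat_lit 17589307716) (nat_lit 1216) (nat_lit 961856321) (nat_lit 170) (nat_lit 5) (nat_lit 185) (nat_lit 5) (nat_lit 186) (nat_lit 5) (nat_lit 330) (nat_lit 318) (nat_lit 132)))) (XT.nd (nat_lit 78) (nat_lit 0) (nat_lit 0) (XT.lf (nat_lit 0) (nat_lit 10435782573) (nat_lit 1140) (nat_lit 5207730998) (nat_lit 1216) (nat_lit 12267704916) (nat_lit 170) (nat_lit 5) (nat_lit 185) (nat_lit 5) (nat_lit 186) (nat_lit 5) (nat_lit 331) (nat_lit 318) (nat_lit 131)) (XT.nd (nat_lit 78) (nat_lit 0) (nat_lit 76) (XT.lf (nat_lit 76) (nat_lit 7692894030)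 (nat_lit 0) (nat_lit 4378196233) (nat_lit 1216) (nat_lit 16294641713) (nat_lit 171) (nat_lit 5) (nat_lit 170) (nat_lit 5) (nat_lit 186) (nat_lit 5) (nat_lit 332) (nat_lit 318) (nat_lit 130)) (XT.lf (nat_lit 0) (nat_lit 13874826320) (nat_lit 1140) (nat_lit 7817583160) (nat_lit 1216) (nat_lit 7137895714) (nat_lit 171) (nat_lit 5) (nat_lit 186) (nat_lit 5) (nat_lit 187) (nat_lit 5) (nat_lit 333) (nat_lit 318) (nat_lit 129)))))) (XT.nd (nat_lit 468) (nat_lit 1748) (nat_lit 0) (XT.nd (nat_lit 234) (nat_lit 532) (nat_lit 0) (XT.nd (nat_lit 78) (nat_lit 1064) (nat_lit 0) (XT.lf (nat_lit 76) (nat_lit 5484479886) (nat_lit 0) (nat_lit 10341164872) (nat_lit 1216) (nat_lit 13480386983) (nat_lit 172) (nat_lit 5) (nat_lit 171) (nat_lit 5) (nat_lit 187) (nat_lit 5) (nat_lit 334) (nat_lit 318) (nat_lit 128)) (XT.nd (nat_lit 78) (nat_lit 1140) (nat_lit 0) (XT.lf (nat_lit 0) (nat_lit 17924667586) (nat_lit 1140)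 (nat_lit 10464168081) (nat_lit 76) (nat_lit 1404509110) (nat_lit 172) (nat_lit 5) (nat_lit 187) (nat_lit 5) (nat_lit 173) (nat_lit 5) (nat_lit 335) (nat_lit 318) (nat_lit 127)) (XT.lf (nat_lit 0) (nat_lit 3252493696) (nat_lit 1140) (nat_lit 16964881307) (nat_lit 1216) (nat_lit 10073985725) (nat_lit 157) (nat_lit 5) (nat_lit 172) (nat_lit 5) (nat_lit 173) (nat_lit 5) (nat_lit 336) (nat_lit 318) (nat_lit 126)))) (XT.nd (nat_lit 78) (nat_lit 532) (nat_lit 0) (XT.lf (nat_lit 0) (nat_lit 17592661648) (nat_lit 1140) (nat_lit 5088992325) (nat_lit 1216) (nat_lit 8119584271) (nat_lit 157) (nat_lit 5) (nat_lit 172) (nat_lit 5) (nat_lit 173) (nat_lit 5) (nat_lit 337) (nat_lit 318) (nat_lit 125)) (XT.nd (nat_lit 78) (nat_lit 0) (nat_lit 0) (XT.lf (nat_lit 0) (nat_lit 984654074) (nat_lit 532) (nat_lit 24310546974) (nat_lit 608) (nat_lit 6028955502) (nat_lit 150) (nat_lit 5) (nat_lit 157) (nat_lit 5) (nat_lit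 158) (nat_lit 5) (nat_lit 338) (nat_lit 318) (nat_lit 124)) (XT.lf (nat_lit 0) (nat_lit 15820562305) (nat_lit 532) (nat_lit 12347132414) (nat_lit 608) (nat_lit 3689656002) (nat_lit 150) (nat_lit 5) (nat_lit 157) (nat_lit 5) (nat_lit 158) (nat_lit 5) (nat_lit 339) (nat_lit 318) (nat_lit 123))))) (XT.nd (nat_lit 234) (nat_lit 1064) (nat_lit 0) (XT.nd (nat_lit 78) (nat_lit 684) (nat_lit 0) (XT.lf (nat_lit 0) (nat_lit 31099127019) (nat_lit 532) (nat_lit 24583149) (nat_lit 608) (nat_lit 1282914530) (nat_lit 150) (nat_lit 5) (nat_lit 157) (nat_lit 5) (nat_lit 158) (nat_lit 5) (nat_lit 340) (nat_lit 318) (nat_lit 122)) (XT.nd (nat_lit 78) (nat_lit 0) (nat_lit 0) (XT.lf (nat_lit 0) (nat_lit 1429096206) (nat_lit 684) (nat_lit 18965863958) (nat_lit 76) (nat_lit 12569383782) (nat_lit 141) (nat_lit 5) (nat_lit 150) (nat_lit 5) (nat_lit 142) (nat_lit 5) (nat_lit 341) (nat_lit 318) (nat_lit 121)) (XT.lf (nat_lit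 0) (nat_lit 4207708414) (nat_lit 684) (nat_lit 3763500395) (nat_lit 76) (nat_lit 25566878123) (nat_lit 141) (nat_lit 5) (nat_lit 150) (nat_lit 5) (nat_lit 142) (nat_lit 5) (nat_lit 342) (nat_lit 318) (nat_lit 120)))) (XT.nd (nat_lit 78) (nat_lit 532) (nat_lit 0) (XT.lf (nat_lit 0) (nat_lit 7231334496) (nat_lit 608) (nat_lit 22043935224) (nat_lit 76) (nat_lit 4848926722) (nat_lit 134) (nat_lit 5) (nat_lit 142) (nat_lit 5) (nat_lit 135) (nat_lit 5) (nat_lit 343) (nat_lit 318) (nat_lit 119)) (XT.nd (nat_lit 78) (nat_lit 532) (nat_lit 0) (XT.lf (nat_lit 0) (nat_lit 10460545849) (nat_lit 608) (nat_lit 6332011284) (nat_lit 76) (nat_lit 17931889595) (nat_lit 134) (nat_lit 5) (nat_lit 142) (nat_lit 5) (nat_lit 135) (nat_lit 5) (nat_lit 344) (nat_lit 318) (nat_lit 118)) (XT.lf (nat_lit 0) (nat_lit 10044907177) (nat_lit 532) (nat_lit 3835928215) (nat_lit 608) (nat_lit 21459046753) (nat_lit 127) (nat_lit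 5) (nat_lit 134) (nat_lit 5) (nat_lit 135) (nat_lit 5) (nat_lit 345) (nat_lit 318) (nat_lit 117))))))) (XT.nd (nat_lit 936) (nat_lit 2128) (nat_lit 0) (XT.nd (nat_lit 468) (nat_lit 836) (nat_lit 0) (XT.nd (nat_lit 234) (nat_lit 912) (nat_lit 0) (XT.nd (nat_lit 78) (nat_lit 456) (nat_lit 0) (XT.lf (nat_lit 0) (nat_lit 17557407423) (nat_lit 608) (nat_lit 9023397110) (nat_lit 76) (nat_lit 9388369445) (nat_lit 127) (nat_lit 5) (nat_lit 135) (nat_lit 5) (nat_lit 128) (nat_lit 5) (nat_lit 346) (nat_lit 318) (nat_lit 116)) (XT.nd (nat_lit 78) (nat_lit 0) (nat_lit 0) (XT.lf (nat_lit 0) (nat_lit 7849159913) (nat_lit 456) (nat_lit 13606304065) (nat_lit 532) (nat_lit 15158548433) (nat_lit 121) (nat_lit 5) (nat_lit 127) (nat_lit 5) (nat_lit 128) (nat_lit 5) (nat_lit 347) (nat_lit 318) (nat_lit 115)) (XT.lf (nat_lit 0) (nat_lit 25410533457) (nat_lit 456) (nat_lit 148847266) (nat_lit 532) (nat_lit 11716151083)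 (nat_lit 121) (nat_lit 5) (nat_lit 127) (nat_lit 5) (nat_lit 128) (nat_lit 5) (nat_lit 348) (nat_lit 318) (nat_lit 114)))) (XT.nd (nat_lit 78) (nat_lit 456) (nat_lit 0) (XT.lf (nat_lit 0) (nat_lit 5515334919) (nat_lit 456) (nat_lit 24453770895) (nat_lit 532) (nat_lit 7982313510) (nat_lit 115) (nat_lit 5) (nat_lit 121) (nat_lit 5) (nat_lit 122) (nat_lit 5) (nat_lit 349) (nat_lit 318) (nat_lit 113)) (XT.nd (nat_lit 78) (nat_lit 456) (nat_lit 0) (XT.lf (nat_lit 0) (nat_lit 23656489572) (nat_lit 456) (nat_lit 10973808406) (nat_lit 532) (nat_lit 4013713400) (nat_lit 115) (nat_lit 5) (nat_lit 121) (nat_lit 5) (nat_lit 122) (nat_lit 5) (nat_lit 350) (nat_lit 318) (nat_lit 112)) (XT.lf (nat_lit 0) (nat_lit 127945244) (nat_lit 456) (nat_lit 36343978580) (nat_lit 76) (nat_lit 2883775732) (nat_lit 109) (nat_lit 5) (nat_lit 115) (nat_lit 5) (nat_lit 110) (nat_lit 5) (nat_lit 351) (nat_lit 318) (nat_lit 111)))))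 (XT.nd (nat_lit 234) (nat_lit 380) (nat_lit 0) (XT.nd (nat_lit 78) (nat_lit 456) (nat_lit 0) (XT.lf (nat_lit 0) (nat_lit 4572653257) (nat_lit 456) (nat_lit 18378239284) (nat_lit 76) (nat_lit 17128872410) (nat_lit 109) (nat_lit 5) (nat_lit 115) (nat_lit 5) (nat_lit 110) (nat_lit 5) (nat_lit 352) (nat_lit 318) (nat_lit 110)) (XT.nd (nat_lit 78) (nat_lit 0) (nat_lit 0) (XT.lf (nat_lit 0) (nat_lit 126689976) (nat_lit 456) (nat_lit 9023265949) (nat_lit 532) (nat_lit 31675621596) (nat_lit 103) (nat_lit 5) (nat_lit 109) (nat_lit 5) (nat_lit 110) (nat_lit 5) (nat_lit 353) (nat_lit 318) (nat_lit 109)) (XT.lf (nat_lit 0) (nat_lit 14101227898) (nat_lit 532) (nat_lit 22079981516) (nat_lit 76) (nat_lit 5405458285) (nat_lit 103) (nat_lit 5) (nat_lit 110) (nat_lit 5) (nat_lit 104) (nat_lit 5) (nat_lit 354) (nat_lit 318) (nat_lit 108)))) (XT.nd (nat_lit 78) (nat_lit 380) (nat_lit 0) (XT.lf (nat_lit 0) (nat_lit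 19288501988) (nat_lit 532) (nat_lit 2994070840) (nat_lit 76) (nat_lit 20085396491) (nat_lit 103) (nat_lit 5) (nat_lit 110) (nat_lit 5) (nat_lit 104) (nat_lit 5) (nat_lit 355) (nat_lit 318) (nat_lit 107)) (XT.nd (nat_lit 78) (nat_lit 0) (nat_lit 0) (XT.lf (nat_lit 0) (nat_lit 16993870262) (nat_lit 380) (nat_lit 7799058828) (nat_lit 456) (nat_lit 18374937431) (nat_lit 98) (nat_lit 5) (nat_lit 103) (nat_lit 5) (nat_lit 104) (nat_lit 5) (nat_lit 356) (nat_lit 318) (nat_lit 106)) (XT.lf (nat_lit 0) (nat_lit 30559662844) (nat_lit 456) (nat_lit 6418949795) (nat_lit 76) (nat_lit 7010235288) (nat_lit 98) (nat_lit 5) (nat_lit 104) (nat_lit 5) (nat_lit 99) (nat_lit 5) (nat_lit 357) (nat_lit 318) (nat_lit 105)))))) (XT.nd (nat_lit 468) (nat_lit 988) (nat_lit 0) (XT.nd (nat_lit 234) (nat_lit 380) (nat_lit 0) (XT.nd (nat_lit 78) (nat_lit 380) (nat_lit 0) (XT.lf (nat_lit 0) (nat_lit 14125033586) (nat_lit 380)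 (nat_lit 22585622515) (nat_lit 456) (nat_lit 8117467381) (nat_lit 93) (nat_lit 5) (nat_lit 98) (nat_lit 5) (nat_lit 99) (nat_lit 5) (nat_lit 358) (nat_lit 318) (nat_lit 104)) (XT.nd (nat_lit 78) (nat_lit 380) (nat_lit 0) (XT.lf (nat_lit 0) (nat_lit 35414813141) (nat_lit 380) (nat_lit 7694475866) (nat_lit 456) (nat_lit 2581397360) (nat_lit 93) (nat_lit 5) (nat_lit 98) (nat_lit 5) (nat_lit 99) (nat_lit 5) (nat_lit 359) (nat_lit 318) (nat_lit 103)) (XT.lf (nat_lit 0) (nat_lit 3238204212) (nat_lit 380) (nat_lit 35704259225) (nat_lit 76) (nat_lit 7630414569) (nat_lit 88) (nat_lit 5) (nat_lit 93) (nat_lit 5) (nat_lit 89) (nat_lit 5) (nat_lit 360) (nat_lit 318) (nat_lit 102)))) (XT.nd (nat_lit 78) (nat_lit 380) (nat_lit 0) (XT.lf (nat_lit 0) (nat_lit 9359834062) (nat_lit 380) (nat_lit 14725207322) (nat_lit 76) (nat_lit 23390349705) (nat_lit 88) (nat_lit 5) (nat_lit 93) (nat_lit 5) (nat_lit 89) (nat_lit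 5) (nat_lit 361) (nat_lit 318) (nat_lit 101)) (XT.nd (nat_lit 78) (nat_lit 0) (nat_lit 0) (XT.lf (nat_lit 0) (nat_lit 7018119209) (nat_lit 380) (nat_lit 8712851462) (nat_lit 456) (nat_lit 32672035254) (nat_lit 83) (nat_lit 5) (nat_lit 88) (nat_lit 5) (nat_lit 89) (nat_lit 5) (nat_lit 362) (nat_lit 318) (nat_lit 100)) (XT.lf (nat_lit 0) (nat_lit 22510274342) (nat_lit 456) (nat_lit 19710380062) (nat_lit 76) (nat_lit 7131285849) (nat_lit 83) (nat_lit 5) (nat_lit 89) (nat_lit 5) (nat_lit 84) (nat_lit 5) (nat_lit 363) (nat_lit 318) (nat_lit 99))))) (XT.nd (nat_lit 234) (nat_lit 684) (nat_lit 0) (XT.nd (nat_lit 78) (nat_lit 0) (nat_lit 0) (XT.lf (nat_lit 0) (nat_lit 2576359600) (nat_lit 304) (nat_lit 27026093353) (nat_lit 380) (nat_lit 20723606758) (nat_lit 79) (nat_lit 5) (nat_lit 83) (nat_lit 5) (nat_lit 84) (nat_lit 5) (nat_lit 364) (nat_lit 318) (nat_lit 98)) (XT.nd (nat_lit 78) (nat_lit 0) (nat_lit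 0) (XT.lf (nat_lit 0) (nat_lit 25933754242) (nat_lit 304) (nat_lit 11171168893) (nat_lit 380) (nat_lit 14218555751) (nat_lit 79) (nat_lit 5) (nat_lit 83) (nat_lit 5) (nat_lit 84) (nat_lit 5) (nat_lit 365) (nat_lit 318) (nat_lit 97)) (XT.lf (nat_lit 0) (nat_lit 44880592278) (nat_lit 380) (nat_lit 2410519311) (nat_lit 76) (nat_lit 5058267164) (nat_lit 79) (nat_lit 5) (nat_lit 84) (nat_lit 5) (nat_lit 80) (nat_lit 5) (nat_lit 366) (nat_lit 318) (nat_lit 96)))) (XT.nd (nat_lit 78) (nat_lit 380) (nat_lit 0) (XT.lf (nat_lit 0) (nat_lit 21566377699) (nat_lit 304) (nat_lit 31639640987) (nat_lit 380) (nat_lit 190544122) (nat_lit 75) (nat_lit 5) (nat_lit 79) (nat_lit 5) (nat_lit 80) (nat_lit 5) (nat_lit 367) (nat_lit 318) (nat_lit 95)) (XT.nd (nat_lit 78) (nat_lit 304) (nat_lit 0) (XT.lf (nat_lit 0) (nat_lit 7186640821) (nat_lit 380) (nat_lit 8234836154) (nat_lit 76) (nat_lit 39050885333) (nat_lit 74) (nat_lit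 5) (nat_lit 79) (nat_lit 5) (nat_lit 75) (nat_lit 5) (nat_lit 368) (nat_lit 318) (nat_lit 94)) (XT.lf (nat_lit 0) (nat_lit 14951337726) (nat_lit 380) (nat_lit 39205273391) (nat_lit 76) (nat_lit 1418668947) (nat_lit 70) (nat_lit 5) (nat_lit 75) (nat_lit 5) (nat_lit 71) (nat_lit 5) (nat_lit 369) (nat_lit 318) (nat_lit 93))))))))
noncomputable def xc233 : XT := (XT.nd (nat_lit 37986) (nat_lit 0) (nat_lit 2356) (XT.nd (nat_lit 37050) (nat_lit 0) (nat_lit 7980) (XT.nd (nat_lit 390) (nat_lit 76) (nat_lit 0) (XT.nd (nat_lit 156) (nat_lit 228) (nat_lit 0) (XT.nd (nat_lit 78) (nat_lit 304) (nat_lit 0) (XT.lf (nat_lit 0) (nat_lit 23184281428) (nat_lit 380) (nat_lit 14982391796) (nat_lit 76) (nat_lit 18537554560) (nat_lit 70) (nat_lit 5) (nat_lit 75) (nat_lit 5) (nat_lit 71) (nat_lit 5) (nat_lit 370) (nat_lit 318) (nat_lit 92)) (XT.lf (nat_lit 0) (nat_lit 10163670380) (nat_lit 304) (nat_lit 21596921096)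 (nat_lit 380) (nat_lit 26103562677) (nat_lit 66) (nat_lit 5) (nat_lit 70) (nat_lit 5) (nat_lit 71) (nat_lit 5) (nat_lit 371) (nat_lit 318) (nat_lit 91))) (XT.nd (nat_lit 78) (nat_lit 228) (nat_lit 0) (XT.lf (nat_lit 0) (nat_lit 36369421079) (nat_lit 304) (nat_lit 4374762159) (nat_lit 380) (nat_lit 18310196818) (nat_lit 66) (nat_lit 5) (nat_lit 70) (nat_lit 5) (nat_lit 71) (nat_lit 5) (nat_lit 372) (nat_lit 318) (nat_lit 90)) (XT.nd (nat_lit 78) (nat_lit 0) (nat_lit 0) (XT.lf (nat_lit 0) (nat_lit 3009494850) (nat_lit 228) (nat_lit 47143913224) (nat_lit 304) (nat_lit 10122222373) (nat_lit 63) (nat_lit 5) (nat_lit 66) (nat_lit 5) (nat_lit 67) (nat_lit 5) (nat_lit 373) (nat_lit 318) (nat_lit 89)) (XT.lf (nat_lit 0) (nat_lit 29893843572) (nat_lit 228) (nat_lit 30221781978) (nat_lit 304) (nat_lit 1409772750) (nat_lit 63) (nat_lit 5) (nat_lit 66) (nat_lit 5) (nat_lit 67) (nat_lit 5) (nat_lit 374) (nat_lit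 318) (nat_lit 88))))) (XT.nd (nat_lit 36426) (nat_lit 0) (nat_lit 7828) (XT.nd (nat_lit 36270) (nat_lit 0) (nat_lit 7828) (XT.lf (nat_lit 0) (nat_lit 7415223944) (nat_lit 304) (nat_lit 5302402160) (nat_lit 76) (nat_lit 50092889860) (nat_lit 62) (nat_lit 5) (nat_lit 66) (nat_lit 5) (nat_lit 63) (nat_lit 5) (nat_lit 375) (nat_lit 318) (nat_lit 87)) (XT.nd (nat_lit 78) (nat_lit 0) (nat_lit 0) (XT.lf (nat_lit 0) (nat_lit 121391935) (nat_lit 0) (nat_lit 121391935) (nat_lit 1140) (nat_lit 11527429333) (nat_lit 165) (nat_lit 5) (nat_lit 165) (nat_lit 3) (nat_lit 180) (nat_lit 3) (nat_lit 319) (nat_lit 319) (nat_lit 142)) (XT.lf (nat_lit 0) (nat_lit 702514914) (nat_lit 1140) (nat_lit 13182478317) (nat_lit 1216) (nat_lit 10002058188) (nat_lit 165) (nat_lit 5) (nat_lit 180) (nat_lit 3) (nat_lit 181) (nat_lit 5) (nat_lit 320) (nat_lit 319) (nat_lit 141)))) (XT.nd (nat_lit 78) (nat_lit 0) (nat_lit 76) (XT.lf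 (nat_lit 0) (nat_lit 924039634) (nat_lit 1140) (nat_lit 2768599846) (nat_lit 1216) (nat_lit 20551501099) (nat_lit 165) (nat_lit 5) (nat_lit 180) (nat_lit 3) (nat_lit 181) (nat_lit 5) (nat_lit 321) (nat_lit 319) (nat_lit 140)) (XT.nd (nat_lit 78) (nat_lit 0) (nat_lit 0) (XT.lf (nat_lit 0) (nat_lit 1292205404) (nat_lit 1140) (nat_lit 16562190696) (nat_lit 1216) (nat_lit 6753353710) (nat_lit 166) (nat_lit 5) (nat_lit 181) (nat_lit 5) (nat_lit 182) (nat_lit 5) (nat_lit 322) (nat_lit 319) (nat_lit 139)) (XT.lf (nat_lit 0) (nat_lit 1732121622) (nat_lit 1140) (nat_lit 5779764484) (nat_lit 1216) (nat_lit 17468567091) (nat_lit 166) (nat_lit 5) (nat_lit 181) (nat_lit 5) (nat_lit 182) (nat_lit 5) (nat_lit 323) (nat_lit 319) (nat_lit 138)))))) (XT.nd (nat_lit 468) (nat_lit 0) (nat_lit 152) (XT.nd (nat_lit 234) (nat_lit 0) (nat_lit 76) (XT.nd (nat_lit 78) (nat_lit 0) (nat_lit 0) (XT.lf (nat_lit 0) (nat_lit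 2264183940) (nat_lit 1140) (nat_lit 19963858861) (nat_lit 1216) (nat_lit 3133933266) (nat_lit 167) (nat_lit 5) (nat_lit 182) (nat_lit 5) (nat_lit 183) (nat_lit 5) (nat_lit 324) (nat_lit 319) (nat_lit 137)) (XT.nd (nat_lit 78) (nat_lit 0) (nat_lit 0) (XT.lf (nat_lit 0) (nat_lit 2941663606) (nat_lit 1140) (nat_lit 8800772078) (nat_lit 1216) (nat_lit 14008631913) (nat_lit 167) (nat_lit 5) (nat_lit 182) (nat_lit 5) (nat_lit 183) (nat_lit 5) (nat_lit 325) (nat_lit 319) (nat_lit 136)) (XT.lf (nat_lit 76) (nat_lit 2748470680) (nat_lit 0) (nat_lit 913667658) (nat_lit 1216) (nat_lit 22489019861) (nat_lit 168) (nat_lit 5) (nat_lit 167) (nat_lit 5) (nat_lit 183) (nat_lit 5) (nat_lit 326) (nat_lit 319) (nat_lit 135)))) (XT.nd (nat_lit 78) (nat_lit 0) (nat_lit 0) (XT.lf (nat_lit 0) (nat_lit 4588760559) (nat_lit 1140) (nat_lit 11837774937) (nat_lit 1216) (nat_lit 10131186284) (nat_lit 168) (nat_lit 5) (nat_lit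 183) (nat_lit 5) (nat_lit 184) (nat_lit 5) (nat_lit 327) (nat_lit 319) (nat_lit 134)) (XT.nd (nat_lit 78) (nat_lit 0) (nat_lit 76) (XT.lf (nat_lit 76) (nat_lit 63882713) (nat_lit 0) (nat_lit 5485415341) (nat_lit 1216) (nat_lit 21427006792) (nat_lit 169) (nat_lit 5) (nat_lit 168) (nat_lit 5) (nat_lit 184) (nat_lit 5) (nat_lit 328) (nat_lit 319) (nat_lit 133)) (XT.lf (nat_lit 0) (nat_lit 6711519375) (nat_lit 1140) (nat_lit 14897888024) (nat_lit 1216) (nat_lit 5792857873) (nat_lit 169) (nat_lit 5) (nat_lit 184) (nat_lit 5) (nat_lit 185) (nat_lit 5) (nat_lit 329) (nat_lit 319) (nat_lit 132))))) (XT.nd (nat_lit 234) (nat_lit 0) (nat_lit 76) (XT.nd (nat_lit 78) (nat_lit 0) (nat_lit 76) (XT.lf (nat_lit 0) (nat_lit 7959566030) (nat_lit 1140) (nat_lit 2579655481) (nat_lit 1216) (nat_lit 17300259967) (nat_lit 169) (nat_lit 5) (nat_lit 184) (nat_lit 5) (nat_lit 185) (nat_lit 5) (nat_lit 330) (nat_lit 319)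 (nat_lit 131)) (XT.nd (nat_lit 78) (nat_lit 0) (nat_lit 0) (XT.lf (nat_lit 0) (nat_lit 9350161485) (nat_lit 1140) (nat_lit 17989338265) (nat_lit 1216) (nat_lit 947166758) (nat_lit 170) (nat_lit 5) (nat_lit 185) (nat_lit 5) (nat_lit 186) (nat_lit 5) (nat_lit 331) (nat_lit 319) (nat_lit 130)) (XT.lf (nat_lit 0) (nat_lit 10909956743) (nat_lit 1140) (nat_lit 5240032168) (nat_lit 1216) (nat_lit 12593459118) (nat_lit 170) (nat_lit 5) (nat_lit 185) (nat_lit 5) (nat_lit 186) (nat_lit 5) (nat_lit 332) (nat_lit 319) (nat_lit 129)))) (XT.nd (nat_lit 78) (nat_lit 0) (nat_lit 76) (XT.lf (nat_lit 76) (nat_lit 8046396604) (nat_lit 0) (nat_lit 4544414425) (nat_lit 1216) (nat_lit 16620899253) (nat_lit 171) (nat_lit 5) (nat_lit 170) (nat_lit 5) (nat_lit 186) (nat_lit 5) (nat_lit 333) (nat_lit 319) (nat_lit 128)) (XT.nd (nat_lit 78) (nat_lit 0) (nat_lit 0) (XT.lf (nat_lit 0) (nat_lit 14443743773) (nat_lit 1140)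 (nat_lit 7927795489) (nat_lit 1216) (nat_lit 7318836643) (nat_lit 171) (nat_lit 5) (nat_lit 186) (nat_lit 5) (nat_lit 187) (nat_lit 5) (nat_lit 334) (nat_lit 319) (nat_lit 127)) (XT.lf (nat_lit 76) (nat_lit 5772110671) (nat_lit 0) (nat_lit 10677712594) (nat_lit 1216) (nat_lit 13730656410) (nat_lit 172) (nat_lit 5) (nat_lit 171) (nat_lit 5) (nat_lit 187) (nat_lit 5) (nat_lit 335) (nat_lit 319) (nat_lit 126))))))) (XT.nd (nat_lit 936) (nat_lit 2584) (nat_lit 0) (XT.nd (nat_lit 468) (nat_lit 1748) (nat_lit 0) (XT.nd (nat_lit 234) (nat_lit 532) (nat_lit 0) (XT.nd (nat_lit 78) (nat_lit 1140) (nat_lit 0) (XT.lf (nat_lit 0) (nat_lit 18607219488) (nat_lit 1140) (nat_lit 10653741336) (nat_lit 76) (nat_lit 1421596501) (nat_lit 172) (nat_lit 5) (nat_lit 187) (nat_lit 5) (nat_lit 173) (nat_lit 5) (nat_lit 336) (nat_lit 319) (nat_lit 125)) (XT.nd (nat_lit 78) (nat_lit 0) (nat_lit 0) (XT.lf (nat_lit 0) (nat_lit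 3473201158) (nat_lit 1140) (nat_lit 17492472774) (nat_lit 1216) (nat_lit 10229937939) (nat_lit 157) (nat_lit 5) (nat_lit 172) (nat_lit 5) (nat_lit 173) (nat_lit 5) (nat_lit 337) (nat_lit 319) (nat_lit 124)) (XT.lf (nat_lit 0) (nat_lit 18239987762) (nat_lit 1140) (nat_lit 5259764063) (nat_lit 1216) (nat_lit 8221164655) (nat_lit 157) (nat_lit 5) (nat_lit 172) (nat_lit 5) (nat_lit 173) (nat_lit 5) (nat_lit 338) (nat_lit 319) (nat_lit 123)))) (XT.nd (nat_lit 78) (nat_lit 0) (nat_lit 0) (XT.lf (nat_lit 0) (nat_lit 1137056416) (nat_lit 532) (nat_lit 25051651817) (nat_lit 608) (nat_lit 6070910699) (nat_lit 150) (nat_lit 5) (nat_lit 157) (nat_lit 5) (nat_lit 158) (nat_lit 5) (nat_lit 339) (nat_lit 319) (nat_lit 122)) (XT.nd (nat_lit 78) (nat_lit 0) (nat_lit 0) (XT.lf (nat_lit 0) (nat_lit 16414463368) (nat_lit 532) (nat_lit 12728991467) (nat_lit 608) (nat_lit 3665478237) (nat_lit 150) (nat_lit 5) (nat_lit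 157) (nat_lit 5) (nat_lit 158) (nat_lit 5) (nat_lit 340) (nat_lit 319) (nat_lit 121)) (XT.lf (nat_lit 0) (nat_lit 32147910727) (nat_lit 532) (nat_lit 36432372) (nat_lit 608) (nat_lit 1190462699) (nat_lit 150) (nat_lit 5) (nat_lit 157) (nat_lit 5) (nat_lit 158) (nat_lit 5) (nat_lit 341) (nat_lit 319) (nat_lit 120))))) (XT.nd (nat_lit 234) (nat_lit 532) (nat_lit 0) (XT.nd (nat_lit 78) (nat_lit 532) (nat_lit 0) (XT.lf (nat_lit 0) (nat_lit 1597662072) (nat_lit 684) (nat_lit 19413381878) (nat_lit 76) (nat_lit 12938261587) (nat_lit 141) (nat_lit 5) (nat_lit 150) (nat_lit 5) (nat_lit 142) (nat_lit 5) (nat_lit 342) (nat_lit 319) (nat_lit 119)) (XT.nd (nat_lit 78) (nat_lit 532) (nat_lit 0) (XT.lf (nat_lit 0) (nat_lit 4455971686) (nat_lit 684) (nat_lit 3758485020) (nat_lit 76) (nat_lit 26325919701) (nat_lit 141) (nat_lit 5) (nat_lit 150) (nat_lit 5) (nat_lit 142) (nat_lit 5) (nat_lit 343) (nat_lit 319)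 (nat_lit 118)) (XT.lf (nat_lit 0) (nat_lit 7567847370) (nat_lit 608) (nat_lit 22584687138) (nat_lit 76) (nat_lit 4991614067) (nat_lit 134) (nat_lit 5) (nat_lit 142) (nat_lit 5) (nat_lit 135) (nat_lit 5) (nat_lit 344) (nat_lit 319) (nat_lit 117)))) (XT.nd (nat_lit 78) (nat_lit 532) (nat_lit 0) (XT.lf (nat_lit 0) (nat_lit 10890452360) (nat_lit 608) (nat_lit 6404917115) (nat_lit 76) (nat_lit 18467146811) (nat_lit 134) (nat_lit 5) (nat_lit 142) (nat_lit 5) (nat_lit 135) (nat_lit 5) (nat_lit 345) (nat_lit 319) (nat_lit 116)) (XT.nd (nat_lit 78) (nat_lit 0) (nat_lit 0) (XT.lf (nat_lit 0) (nat_lit 10462161307) (nat_lit 532) (nat_lit 3948922184) (nat_lit 608) (nat_lit 21985404562) (nat_lit 127) (nat_lit 5) (nat_lit 134) (nat_lit 5) (nat_lit 135) (nat_lit 5) (nat_lit 346) (nat_lit 319) (nat_lit 115)) (XT.lf (nat_lit 0) (nat_lit 18194656897) (nat_lit 608) (nat_lit 9178101510) (nat_lit 76) (nat_lit 9672004231)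 (nat_lit 127) (nat_lit 5) (nat_lit 135) (nat_lit 5) (nat_lit 128) (nat_lit 5) (nat_lit 347) (nat_lit 319) (nat_lit 114)))))) (XT.nd (nat_lit 468) (nat_lit 1216) (nat_lit 0) (XT.nd (nat_lit 234) (nat_lit 456) (nat_lit 0) (XT.nd (nat_lit 78) (nat_lit 456) (nat_lit 0) (XT.lf (nat_lit 0) (nat_lit 8199494994) (nat_lit 456) (nat_lit 14008045022) (nat_lit 532) (nat_lit 15501474635) (nat_lit 121) (nat_lit 5) (nat_lit 127) (nat_lit 5) (nat_lit 128) (nat_lit 5) (nat_lit 348) (nat_lit 319) (nat_lit 113)) (XT.nd (nat_lit 78) (nat_lit 456) (nat_lit 0) (XT.lf (nat_lit 0) (nat_lit 26284364299) (nat_lit 456) (nat_lit 147052329) (nat_lit 532) (nat_lit 11959062556) (nat_lit 121) (nat_lit 5) (nat_lit 127) (nat_lit 5) (nat_lit 128) (nat_lit 5) (nat_lit 349) (nat_lit 319) (nat_lit 112)) (XT.lf (nat_lit 0) (nat_lit 5794442975) (nat_lit 456) (nat_lit 25177075712) (nat_lit 532) (nat_lit 8115186771) (nat_lit 115) (nat_lit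 5) (nat_lit 121) (nat_lit 5) (nat_lit 122) (nat_lit 5) (nat_lit 350) (nat_lit 319) (nat_lit 111)))) (XT.nd (nat_lit 78) (nat_lit 456) (nat_lit 0) (XT.lf (nat_lit 0) (nat_lit 24476522131) (nat_lit 456) (nat_lit 11293014591) (nat_lit 532) (nat_lit 4030633401) (nat_lit 115) (nat_lit 5) (nat_lit 121) (nat_lit 5) (nat_lit 122) (nat_lit 5) (nat_lit 351) (nat_lit 319) (nat_lit 110)) (XT.nd (nat_lit 78) (nat_lit 0) (nat_lit 0) (XT.lf (nat_lit 0) (nat_lit 231484448) (nat_lit 456) (nat_lit 37319879232) (nat_lit 76) (nat_lit 2981872843) (nat_lit 109) (nat_lit 5) (nat_lit 115) (nat_lit 5) (nat_lit 110) (nat_lit 5) (nat_lit 352) (nat_lit 319) (nat_lit 109)) (XT.lf (nat_lit 0) (nat_lit 4806629793) (nat_lit 456) (nat_lit 18818500341) (nat_lit 76) (nat_lit 17653985027) (nat_lit 109) (nat_lit 5) (nat_lit 115) (nat_lit 5) (nat_lit 110) (nat_lit 5) (nat_lit 353) (nat_lit 319) (nat_lit 108))))) (XT.nd (nat_lit 234)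 (nat_lit 760) (nat_lit 0) (XT.nd (nat_lit 78) (nat_lit 0) (nat_lit 0) (XT.lf (nat_lit 0) (nat_lit 240487718) (nat_lit 456) (nat_lit 9279001855) (nat_lit 532) (nat_lit 32527869439) (nat_lit 103) (nat_lit 5) (nat_lit 109) (nat_lit 5) (nat_lit 110) (nat_lit 5) (nat_lit 354) (nat_lit 319) (nat_lit 107)) (XT.nd (nat_lit 78) (nat_lit 0) (nat_lit 0) (XT.lf (nat_lit 0) (nat_lit 14616671331) (nat_lit 532) (nat_lit 22632828483) (nat_lit 76) (nat_lit 5581864858) (nat_lit 103) (nat_lit 5) (nat_lit 110) (nat_lit 5) (nat_lit 104) (nat_lit 5) (nat_lit 355) (nat_lit 319) (nat_lit 106)) (XT.lf (nat_lit 0) (nat_lit 19956872189) (nat_lit 532) (nat_lit 2977531335) (nat_lit 76) (nat_lit 20701786370) (nat_lit 103) (nat_lit 5) (nat_lit 110) (nat_lit 5) (nat_lit 104) (nat_lit 5) (nat_lit 356) (nat_lit 319) (nat_lit 105)))) (XT.nd (nat_lit 78) (nat_lit 380) (nat_lit 0) (XT.lf (nat_lit 0) (nat_lit 17609005238) (nat_lit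 380) (nat_lit 8015826193) (nat_lit 456) (nat_lit 18835304303) (nat_lit 98) (nat_lit 5) (nat_lit 103) (nat_lit 5) (nat_lit 104) (nat_lit 5) (nat_lit 357) (nat_lit 319) (nat_lit 104)) (XT.nd (nat_lit 78) (nat_lit 380) (nat_lit 0) (XT.lf (nat_lit 0) (nat_lit 31562161320) (nat_lit 456) (nat_lit 6506741326) (nat_lit 76) (nat_lit 7236919705) (nat_lit 98) (nat_lit 5) (nat_lit 104) (nat_lit 5) (nat_lit 99) (nat_lit 5) (nat_lit 358) (nat_lit 319) (nat_lit 103)) (XT.lf (nat_lit 0) (nat_lit 14652534331) (nat_lit 380) (nat_lit 23243650982) (nat_lit 456) (nat_lit 8274139319) (nat_lit 93) (nat_lit 5) (nat_lit 98) (nat_lit 5) (nat_lit 99) (nat_lit 5) (nat_lit 359) (nat_lit 319) (nat_lit 102))))))))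
noncomputable def xc234 : XT := (XT.nd (nat_lit 38064) (nat_lit 0) (nat_lit 4408) (XT.nd (nat_lit 858) (nat_lit 532) (nat_lit 0) (XT.nd (nat_lit 390) (nat_lit 988) (nat_lit 0) (XT.nd (nat_lit 156) (nat_lit 380) (nat_lit 0) (XT.nd (nat_lit 78) (nat_lit 380) (nat_lit 0) (XT.lf (nat_lit 0) (nat_lit 36577985436) (nat_lit 380) (nat_lit 7906339066) (nat_lit 456) (nat_lit 2574516870) (nat_lit 93) (nat_lit 5) (nat_lit 98) (nat_lit 5) (nat_lit 99) (nat_lit 5) (nat_lit 360) (nat_lit 319) (nat_lit 101)) (XT.lf (nat_lit 0) (nat_lit 3416789219) (nat_lit 380) (nat_lit 36671559575) (nat_lit 76) (nat_lit 7879165985) (nat_lit 88) (nat_lit 5) (nat_lit 93) (nat_lit 5) (nat_lit 89) (nat_lit 5) (nat_lit 361) (nat_lit 319) (nat_lit 100))) (XT.nd (nat_lit 78) (nat_lit 380) (nat_lit 0) (XT.lf (nat_lit 0) (nat_lit 9719695957) (nat_lit 380) (nat_lit 15066160215) (nat_lit 76) (nat_lit 24111321341) (nat_lit 88) (nat_lit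 5) (nat_lit 93) (nat_lit 5) (nat_lit 89) (nat_lit 5) (nat_lit 362) (nat_lit 319) (nat_lit 99)) (XT.nd (nat_lit 78) (nat_lit 0) (nat_lit 0) (XT.lf (nat_lit 0) (nat_lit 7328477844) (nat_lit 380) (nat_lit 8952145386) (nat_lit 456) (nat_lit 33572040876) (nat_lit 83) (nat_lit 5) (nat_lit 88) (nat_lit 5) (nat_lit 89) (nat_lit 5) (nat_lit 363) (nat_lit 319) (nat_lit 98)) (XT.lf (nat_lit 0) (nat_lit 23261248394) (nat_lit 456) (nat_lit 20202628651) (nat_lit 76) (nat_lit 7366254068) (nat_lit 83) (nat_lit 5) (nat_lit 89) (nat_lit 5) (nat_lit 84) (nat_lit 5) (nat_lit 364) (nat_lit 319) (nat_lit 97))))) (XT.nd (nat_lit 234) (nat_lit 684) (nat_lit 0) (XT.nd (nat_lit 78) (nat_lit 0) (nat_lit 0) (XT.lf (nat_lit 0) (nat_lit 2751741997) (nat_lit 304) (nat_lit 27813189424) (nat_lit 380) (nat_lit 21268583399) (nat_lit 79) (nat_lit 5) (nat_lit 83) (nat_lit 5) (nat_lit 84) (nat_lit 5) (nat_lit 365) (nat_lit 319) (nat_lit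 96)) (XT.nd (nat_lit 78) (nat_lit 0) (nat_lit 0) (XT.lf (nat_lit 0) (nat_lit 26807001440) (nat_lit 304) (nat_lit 11483307136) (nat_lit 380) (nat_lit 14570615761) (nat_lit 79) (nat_lit 5) (nat_lit 83) (nat_lit 5) (nat_lit 84) (nat_lit 5) (nat_lit 366) (nat_lit 319) (nat_lit 95)) (XT.lf (nat_lit 0) (nat_lit 46297358402) (nat_lit 380) (nat_lit 2388395640) (nat_lit 76) (nat_lit 5231906513) (nat_lit 79) (nat_lit 5) (nat_lit 84) (nat_lit 5) (nat_lit 80) (nat_lit 5) (nat_lit 367) (nat_lit 319) (nat_lit 94)))) (XT.nd (nat_lit 78) (nat_lit 380) (nat_lit 0) (XT.lf (nat_lit 0) (nat_lit 22306882405) (nat_lit 304) (nat_lit 32564515125) (nat_lit 380) (nat_lit 124899700) (nat_lit 75) (nat_lit 5) (nat_lit 79) (nat_lit 5) (nat_lit 80) (nat_lit 5) (nat_lit 368) (nat_lit 319) (nat_lit 93)) (XT.nd (nat_lit 78) (nat_lit 304) (nat_lit 0) (XT.lf (nat_lit 0) (nat_lit 7470170375) (nat_lit 380) (nat_lit 8389658060) (nat_lit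 76) (nat_lit 40244585284) (nat_lit 74) (nat_lit 5) (nat_lit 79) (nat_lit 5) (nat_lit 75) (nat_lit 5) (nat_lit 369) (nat_lit 319) (nat_lit 92)) (XT.lf (nat_lit 0) (nat_lit 15466942856) (nat_lit 380) (nat_lit 40288263910) (nat_lit 76) (nat_lit 1485240578) (nat_lit 70) (nat_lit 5) (nat_lit 75) (nat_lit 5) (nat_lit 71) (nat_lit 5) (nat_lit 370) (nat_lit 319) (nat_lit 91)))))) (XT.nd (nat_lit 36738) (nat_lit 0) (nat_lit 7752) (XT.nd (nat_lit 234) (nat_lit 228) (nat_lit 0) (XT.nd (nat_lit 78) (nat_lit 304) (nat_lit 0) (XT.lf (nat_lit 0) (nat_lit 23944921519) (nat_lit 380) (nat_lit 15341409489) (nat_lit 76) (nat_lit 19116993392) (nat_lit 70) (nat_lit 5) (nat_lit 75) (nat_lit 5) (nat_lit 71) (nat_lit 5) (nat_lit 371) (nat_lit 319) (nat_lit 90)) (XT.nd (nat_lit 78) (nat_lit 0) (nat_lit 0) (XT.lf (nat_lit 0) (nat_lit 10558147748) (nat_lit 304) (nat_lit 22219337641) (nat_lit 380) (nat_lit 26820596477) (nat_lit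 66) (nat_lit 5) (nat_lit 70) (nat_lit 5) (nat_lit 71) (nat_lit 5) (nat_lit 372) (nat_lit 319) (nat_lit 89)) (XT.lf (nat_lit 0) (nat_lit 37547462213) (nat_lit 304) (nat_lit 4481256395) (nat_lit 380) (nat_lit 18795354100) (nat_lit 66) (nat_lit 5) (nat_lit 70) (nat_lit 5) (nat_lit 71) (nat_lit 5) (nat_lit 373) (nat_lit 319) (nat_lit 88)))) (XT.nd (nat_lit 78) (nat_lit 0) (nat_lit 0) (XT.lf (nat_lit 0) (nat_lit 3187569839) (nat_lit 228) (nat_lit 48531913274) (nat_lit 304) (nat_lit 10362501720) (nat_lit 63) (nat_lit 5) (nat_lit 66) (nat_lit 5) (nat_lit 67) (nat_lit 5) (nat_lit 374) (nat_lit 319) (nat_lit 87)) (XT.nd (nat_lit 36348) (nat_lit 0) (nat_lit 7752) (XT.lf (nat_lit 0) (nat_lit 30875892028) (nat_lit 228) (nat_lit 31102884616) (nat_lit 304) (nat_lit 1390524841) (nat_lit 63) (nat_lit 5) (nat_lit 66) (nat_lit 5) (nat_lit 67) (nat_lit 5) (nat_lit 375) (nat_lit 319) (nat_lit 86)) (XT.lf (nat_lit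 0) (nat_lit 180299420) (nat_lit 0) (nat_lit 180299420) (nat_lit 1140) (nat_lit 11759215181) (nat_lit 165) (nat_lit 5) (nat_lit 165) (nat_lit 3) (nat_lit 180) (nat_lit 3) (nat_lit 320) (nat_lit 320) (nat_lit 140))))) (XT.nd (nat_lit 234) (nat_lit 0) (nat_lit 76) (XT.nd (nat_lit 78) (nat_lit 0) (nat_lit 0) (XT.lf (nat_lit 0) (nat_lit 937182993) (nat_lit 1140) (nat_lit 13462802078) (nat_lit 1216) (nat_lit 10196901889) (nat_lit 165) (nat_lit 5) (nat_lit 180) (nat_lit 3) (nat_lit 181) (nat_lit 5) (nat_lit 321) (nat_lit 320) (nat_lit 139)) (XT.nd (nat_lit 78) (nat_lit 0) (nat_lit 76) (XT.lf (nat_lit 0) (nat_lit 1159132310) (nat_lit 1140) (nat_lit 2739861154) (nat_lit 1216) (nat_lit 21065892690) (nat_lit 165) (nat_lit 5) (nat_lit 180) (nat_lit 3) (nat_lit 181) (nat_lit 5) (nat_lit 322) (nat_lit 320) (nat_lit 138)) (XT.lf (nat_lit 0) (nat_lit 1532485801) (nat_lit 1140) (nat_lit 16941055391) (nat_lit 1216)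 (nat_lit 6866048600) (nat_lit 166) (nat_lit 5) (nat_lit 181) (nat_lit 5) (nat_lit 182) (nat_lit 5) (nat_lit 323) (nat_lit 320) (nat_lit 137)))) (XT.nd (nat_lit 78) (nat_lit 0) (nat_lit 76) (XT.lf (nat_lit 0) (nat_lit 1979730159) (nat_lit 1140) (nat_lit 5838593316) (nat_lit 1216) (nat_lit 17905336995) (nat_lit 166) (nat_lit 5) (nat_lit 181) (nat_lit 5) (nat_lit 182) (nat_lit 5) (nat_lit 324) (nat_lit 320) (nat_lit 136)) (XT.nd (nat_lit 78) (nat_lit 0) (nat_lit 0) (XT.lf (nat_lit 0) (nat_lit 2522400514) (nat_lit 1140) (nat_lit 20442529531) (nat_lit 1216) (nat_lit 3151869411) (nat_lit 167) (nat_lit 5) (nat_lit 182) (nat_lit 5) (nat_lit 183) (nat_lit 5) (nat_lit 325) (nat_lit 320) (nat_lit 135)) (XT.lf (nat_lit 0) (nat_lit 3214662112) (nat_lit 1140) (nat_lit 8948052429) (nat_lit 1216) (nat_lit 14355024993) (nat_lit 167) (nat_lit 5) (nat_lit 182) (nat_lit 5) (nat_lit 183) (nat_lit 5) (nat_lit 326)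 (nat_lit 320) (nat_lit 134))))))) (XT.nd (nat_lit 936) (nat_lit 2736) (nat_lit 0) (XT.nd (nat_lit 468) (nat_lit 760) (nat_lit 0) (XT.nd (nat_lit 234) (nat_lit 0) (nat_lit 152) (XT.nd (nat_lit 78) (nat_lit 0) (nat_lit 76) (XT.lf (nat_lit 76) (nat_lit 2946523074) (nat_lit 0) (nat_lit 1005958186) (nat_lit 1216) (nat_lit 22977488940) (nat_lit 168) (nat_lit 5) (nat_lit 167) (nat_lit 5) (nat_lit 183) (nat_lit 5) (nat_lit 327) (nat_lit 320) (nat_lit 133)) (XT.nd (nat_lit 78) (nat_lit 0) (nat_lit 0) (XT.lf (nat_lit 0) (nat_lit 4901039979) (nat_lit 1140) (nat_lit 12074515283) (nat_lit 1216) (nat_lit 10373360275) (nat_lit 168) (nat_lit 5) (nat_lit 183) (nat_lit 5) (nat_lit 184) (nat_lit 5) (nat_lit 328) (nat_lit 320) (nat_lit 132)) (XT.lf (nat_lit 76) (nat_lit 183031382) (nat_lit 0) (nat_lit 5703403204) (nat_lit 1216) (nat_lit 21893748999) (nat_lit 169) (nat_lit 5) (nat_lit 168) (nat_lit 5) (nat_lit 184)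 (nat_lit 5) (nat_lit 329) (nat_lit 320) (nat_lit 131)))) (XT.nd (nat_lit 78) (nat_lit 0) (nat_lit 0) (XT.lf (nat_lit 0) (nat_lit 7078053337) (nat_lit 1140) (nat_lit 15225255586) (nat_lit 1216) (nat_lit 5915786443) (nat_lit 169) (nat_lit 5) (nat_lit 184) (nat_lit 5) (nat_lit 185) (nat_lit 5) (nat_lit 330) (nat_lit 320) (nat_lit 130)) (XT.nd (nat_lit 78) (nat_lit 0) (nat_lit 76) (XT.lf (nat_lit 0) (nat_lit 8358730080) (nat_lit 1140) (nat_lit 2540958661) (nat_lit 1216) (nat_lit 17769891877) (nat_lit 169) (nat_lit 5) (nat_lit 184) (nat_lit 5) (nat_lit 185) (nat_lit 5) (nat_lit 331) (nat_lit 320) (nat_lit 129)) (XT.lf (nat_lit 0) (nat_lit 9787074768) (nat_lit 1140) (nat_lit 18408697287) (nat_lit 1216) (nat_lit 934536183) (nat_lit 170) (nat_lit 5) (nat_lit 185) (nat_lit 5) (nat_lit 186) (nat_lit 5) (nat_lit 332) (nat_lit 320) (nat_lit 128))))) (XT.nd (nat_lit 234) (nat_lit 988) (nat_lit 0) (XT.nd (nat_lit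 78) (nat_lit 0) (nat_lit 0) (XT.lf (nat_lit 0) (nat_lit 11389108298) (nat_lit 1140) (nat_lit 5280416505) (nat_lit 1216) (nat_lit 12931412816) (nat_lit 170) (nat_lit 5) (nat_lit 185) (nat_lit 5) (nat_lit 186) (nat_lit 5) (nat_lit 333) (nat_lit 320) (nat_lit 127)) (XT.nd (nat_lit 78) (nat_lit 0) (nat_lit 76) (XT.lf (nat_lit 76) (nat_lit 8403459868) (nat_lit 0) (nat_lit 4713617350) (nat_lit 1216) (nat_lit 16966277375) (nat_lit 171) (nat_lit 5) (nat_lit 170) (nat_lit 5) (nat_lit 186) (nat_lit 5) (nat_lit 334) (nat_lit 320) (nat_lit 126)) (XT.lf (nat_lit 0) (nat_lit 15020964715) (nat_lit 1140) (nat_lit 8048450388) (nat_lit 1216) (nat_lit 7507111383) (nat_lit 171) (nat_lit 5) (nat_lit 186) (nat_lit 5) (nat_lit 187) (nat_lit 5) (nat_lit 335) (nat_lit 320) (nat_lit 125)))) (XT.nd (nat_lit 78) (nat_lit 1064) (nat_lit 0) (XT.lf (nat_lit 76) (nat_lit 6061304145) (nat_lit 0) (nat_lit 11022846287) (nat_lit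 1216) (nat_lit 13997282313) (nat_lit 172) (nat_lit 5) (nat_lit 171) (nat_lit 5) (nat_lit 187) (nat_lit 5) (nat_lit 336) (nat_lit 320) (nat_lit 124)) (XT.nd (nat_lit 78) (nat_lit 1140) (nat_lit 0) (XT.lf (nat_lit 0) (nat_lit 19301935153) (nat_lit 1140) (nat_lit 10856140091) (nat_lit 76) (nat_lit 1440634365) (nat_lit 172) (nat_lit 5) (nat_lit 187) (nat_lit 5) (nat_lit 173) (nat_lit 5) (nat_lit 337) (nat_lit 320) (nat_lit 123)) (XT.lf (nat_lit 0) (nat_lit 3693461527) (nat_lit 1140) (nat_lit 18034821684) (nat_lit 1216) (nat_lit 10398965065) (nat_lit 157) (nat_lit 5) (nat_lit 172) (nat_lit 5) (nat_lit 173) (nat_lit 5) (nat_lit 338) (nat_lit 320) (nat_lit 122)))))) (XT.nd (nat_lit 468) (nat_lit 1520) (nat_lit 0) (XT.nd (nat_lit 234) (nat_lit 684) (nat_lit 0) (XT.nd (nat_lit 78) (nat_lit 532) (nat_lit 0) (XT.lf (nat_lit 0) (nat_lit 18899871214) (nat_lit 1140) (nat_lit 5434619827) (nat_lit 1216) (nat_lit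 8333944243) (nat_lit 157) (nat_lit 5) (nat_lit 172) (nat_lit 5) (nat_lit 173) (nat_lit 5) (nat_lit 339) (nat_lit 320) (nat_lit 121)) (XT.nd (nat_lit 78) (nat_lit 0) (nat_lit 0) (XT.lf (nat_lit 0) (nat_lit 1286978006) (nat_lit 532) (nat_lit 25814313100) (nat_lit 608) (nat_lit 6122098753) (nat_lit 150) (nat_lit 5) (nat_lit 157) (nat_lit 5) (nat_lit 158) (nat_lit 5) (nat_lit 340) (nat_lit 320) (nat_lit 120)) (XT.lf (nat_lit 0) (nat_lit 17019334063) (nat_lit 532) (nat_lit 13121649297) (nat_lit 608) (nat_lit 3648317083) (nat_lit 150) (nat_lit 5) (nat_lit 157) (nat_lit 5) (nat_lit 158) (nat_lit 5) (nat_lit 341) (nat_lit 320) (nat_lit 119)))) (XT.nd (nat_lit 78) (nat_lit 684) (nat_lit 0) (XT.lf (nat_lit 0) (nat_lit 33221509984) (nat_lit 532) (nat_lit 47999213) (nat_lit 608) (nat_lit 1102753762) (nat_lit 150) (nat_lit 5) (nat_lit 157) (nat_lit 5) (nat_lit 158) (nat_lit 5) (nat_lit 342) (nat_lit 320) (nat_lit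 118)) (XT.nd (nat_lit 78) (nat_lit 0) (nat_lit 0) (XT.lf (nat_lit 0) (nat_lit 1764069623) (nat_lit 684) (nat_lit 19881297522) (nat_lit 76) (nat_lit 13318676653) (nat_lit 141) (nat_lit 5) (nat_lit 150) (nat_lit 5) (nat_lit 142) (nat_lit 5) (nat_lit 343) (nat_lit 320) (nat_lit 117)) (XT.lf (nat_lit 0) (nat_lit 4704677718) (nat_lit 684) (nat_lit 3760088296) (nat_lit 76) (nat_lit 27108189737) (nat_lit 141) (nat_lit 5) (nat_lit 150) (nat_lit 5) (nat_lit 142) (nat_lit 5) (nat_lit 344) (nat_lit 320) (nat_lit 116))))) (XT.nd (nat_lit 234) (nat_lit 456) (nat_lit 0) (XT.nd (nat_lit 78) (nat_lit 532) (nat_lit 0) (XT.lf (nat_lit 0) (nat_lit 7907591659) (nat_lit 608) (nat_lit 23148582599) (nat_lit 76) (nat_lit 5138741642) (nat_lit 134) (nat_lit 5) (nat_lit 142) (nat_lit 5) (nat_lit 135) (nat_lit 5) (nat_lit 345) (nat_lit 320) (nat_lit 115)) (XT.nd (nat_lit 78) (nat_lit 532) (nat_lit 0) (XT.lf (nat_lit 0) (nat_lit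 11326592016) (nat_lit 608) (nat_lit 6486729529) (nat_lit 76) (nat_lit 19018616703) (nat_lit 134) (nat_lit 5) (nat_lit 142) (nat_lit 5) (nat_lit 135) (nat_lit 5) (nat_lit 346) (nat_lit 320) (nat_lit 114)) (XT.lf (nat_lit 0) (nat_lit 10885279529) (nat_lit 532) (nat_lit 4065425595) (nat_lit 608) (nat_lit 22534293126) (nat_lit 127) (nat_lit 5) (nat_lit 134) (nat_lit 5) (nat_lit 135) (nat_lit 5) (nat_lit 347) (nat_lit 320) (nat_lit 113)))) (XT.nd (nat_lit 78) (nat_lit 456) (nat_lit 0) (XT.lf (nat_lit 0) (nat_lit 18844679138) (nat_lit 608) (nat_lit 9344105773) (nat_lit 76) (nat_lit 9964034188) (nat_lit 127) (nat_lit 5) (nat_lit 135) (nat_lit 5) (nat_lit 128) (nat_lit 5) (nat_lit 348) (nat_lit 320) (nat_lit 112)) (XT.nd (nat_lit 78) (nat_lit 0) (nat_lit 0) (XT.lf (nat_lit 0) (nat_lit 8553746676) (nat_lit 456) (nat_lit 14422208358) (nat_lit 532) (nat_lit 15861108136) (nat_lit 121) (nat_lit 5) (nat_lit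 127) (nat_lit 5) (nat_lit 128) (nat_lit 5) (nat_lit 349) (nat_lit 320) (nat_lit 111)) (XT.lf (nat_lit 0) (nat_lit 27178008658) (nat_lit 456) (nat_lit 145562914) (nat_lit 532) (nat_lit 12215493911) (nat_lit 121) (nat_lit 5) (nat_lit 127) (nat_lit 5) (nat_lit 128) (nat_lit 5) (nat_lit 350) (nat_lit 320) (nat_lit 110))))))))
noncomputable def xc235 : XT := (XT.nd (nat_lit 38298) (nat_lit 0) (nat_lit 5700) (XT.nd (nat_lit 936) (nat_lit 1672) (nat_lit 0) (XT.nd (nat_lit 468) (nat_lit 1140) (nat_lit 0) (XT.nd (nat_lit 234) (nat_lit 456) (nat_lit 0) (XT.nd (nat_lit 78) (nat_lit 456) (nat_lit 0) (XT.lf (nat_lit 0) (nat_lit 6075400411) (nat_lit 456) (nat_lit 25922671414) (nat_lit 532) (nat_lit 8258165286) (nat_lit 115) (nat_lit 5) (nat_lit 121) (nat_lit 5) (nat_lit 122) (nat_lit 5) (nat_lit 351) (nat_lit 320) (nat_lit 109)) (XT.nd (nat_lit 78) (nat_lit 456) (nat_lit 0) (XT.lf (nat_lit 0) (nat_lit 25314821822)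 (nat_lit 456) (nat_lit 11622371465) (nat_lit 532) (nat_lit 4054001831) (nat_lit 115) (nat_lit 5) (nat_lit 121) (nat_lit 5) (nat_lit 122) (nat_lit 5) (nat_lit 352) (nat_lit 320) (nat_lit 108)) (XT.lf (nat_lit 0) (nat_lit 332406592) (nat_lit 456) (nat_lit 38331625005) (nat_lit 76) (nat_lit 3082247907) (nat_lit 109) (nat_lit 5) (nat_lit 115) (nat_lit 5) (nat_lit 110) (nat_lit 5) (nat_lit 353) (nat_lit 320) (nat_lit 107)))) (XT.nd (nat_lit 78) (nat_lit 456) (nat_lit 0) (XT.lf (nat_lit 0) (nat_lit 5042069085) (nat_lit 456) (nat_lit 19278346027) (nat_lit 76) (nat_lit 18194205431) (nat_lit 109) (nat_lit 5) (nat_lit 115) (nat_lit 5) (nat_lit 110) (nat_lit 5) (nat_lit 354) (nat_lit 320) (nat_lit 106)) (XT.nd (nat_lit 78) (nat_lit 0) (nat_lit 0) (XT.lf (nat_lit 0) (nat_lit 351385111) (nat_lit 456) (nat_lit 9543268722) (nat_lit 532) (nat_lit 33411311513) (nat_lit 103) (nat_lit 5) (nat_lit 109) (nat_lit 5)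 (nat_lit 110) (nat_lit 5) (nat_lit 355) (nat_lit 320) (nat_lit 105)) (XT.lf (nat_lit 0) (nat_lit 15142273550) (nat_lit 532) (nat_lit 23208549620) (nat_lit 76) (nat_lit 5762746031) (nat_lit 103) (nat_lit 5) (nat_lit 110) (nat_lit 5) (nat_lit 104) (nat_lit 5) (nat_lit 356) (nat_lit 320) (nat_lit 104))))) (XT.nd (nat_lit 234) (nat_lit 760) (nat_lit 0) (XT.nd (nat_lit 78) (nat_lit 380) (nat_lit 0) (XT.lf (nat_lit 0) (nat_lit 20640143480) (nat_lit 532) (nat_lit 2966601239) (nat_lit 76) (nat_lit 21335874163) (nat_lit 103) (nat_lit 5) (nat_lit 110) (nat_lit 5) (nat_lit 104) (nat_lit 5) (nat_lit 357) (nat_lit 320) (nat_lit 103)) (XT.nd (nat_lit 78) (nat_lit 0) (nat_lit 0) (XT.lf (nat_lit 0) (nat_lit 18236548530) (nat_lit 380) (nat_lit 8240084182) (nat_lit 456) (nat_lit 19314699136) (nat_lit 98) (nat_lit 5) (nat_lit 103) (nat_lit 5) (nat_lit 104) (nat_lit 5) (nat_lit 358) (nat_lit 320) (nat_lit 102)) (XT.lf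 (nat_lit 0) (nat_lit 32589814726) (nat_lit 456) (nat_lit 6603181230) (nat_lit 76) (nat_lit 7469464528) (nat_lit 98) (nat_lit 5) (nat_lit 104) (nat_lit 5) (nat_lit 99) (nat_lit 5) (nat_lit 359) (nat_lit 320) (nat_lit 101)))) (XT.nd (nat_lit 78) (nat_lit 380) (nat_lit 0) (XT.lf (nat_lit 0) (nat_lit 15189904439) (nat_lit 380) (nat_lit 23922541991) (nat_lit 456) (nat_lit 8440497081) (nat_lit 93) (nat_lit 5) (nat_lit 98) (nat_lit 5) (nat_lit 99) (nat_lit 5) (nat_lit 360) (nat_lit 320) (nat_lit 100)) (XT.nd (nat_lit 78) (nat_lit 380) (nat_lit 0) (XT.lf (nat_lit 0) (nat_lit 37770270706) (nat_lit 380) (nat_lit 8125647179) (nat_lit 456) (nat_lit 2572270417) (nat_lit 93) (nat_lit 5) (nat_lit 98) (nat_lit 5) (nat_lit 99) (nat_lit 5) (nat_lit 361) (nat_lit 320) (nat_lit 99)) (XT.lf (nat_lit 0) (nat_lit 3596056850) (nat_lit 380) (nat_lit 37673839055) (nat_lit 76) (nat_lit 8134241105) (nat_lit 88) (nat_lit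 5) (nat_lit 93) (nat_lit 5) (nat_lit 89) (nat_lit 5) (nat_lit 362) (nat_lit 320) (nat_lit 98)))))) (XT.nd (nat_lit 468) (nat_lit 988) (nat_lit 0) (XT.nd (nat_lit 234) (nat_lit 304) (nat_lit 0) (XT.nd (nat_lit 78) (nat_lit 380) (nat_lit 0) (XT.lf (nat_lit 0) (nat_lit 10085814948) (nat_lit 380) (nat_lit 15423128218) (nat_lit 76) (nat_lit 24852816457) (nat_lit 88) (nat_lit 5) (nat_lit 93) (nat_lit 5) (nat_lit 89) (nat_lit 5) (nat_lit 363) (nat_lit 320) (nat_lit 97)) (XT.nd (nat_lit 78) (nat_lit 0) (nat_lit 0) (XT.lf (nat_lit 0) (nat_lit 7642417446) (nat_lit 380) (nat_lit 9199886276) (nat_lit 456) (nat_lit 34503647918) (nat_lit 83) (nat_lit 5) (nat_lit 88) (nat_lit 5) (nat_lit 89) (nat_lit 5) (nat_lit 364) (nat_lit 320) (nat_lit 96)) (XT.lf (nat_lit 0) (nat_lit 24030408140) (nat_lit 456) (nat_lit 20715331309) (nat_lit 76) (nat_lit 7607064147) (nat_lit 83) (nat_lit 5) (nat_lit 89) (nat_lit 5) (nat_lit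 84) (nat_lit 5) (nat_lit 365) (nat_lit 320) (nat_lit 95)))) (XT.nd (nat_lit 78) (nat_lit 0) (nat_lit 0) (XT.lf (nat_lit 0) (nat_lit 2926755006) (nat_lit 304) (nat_lit 28625258093) (nat_lit 380) (nat_lit 21834314044) (nat_lit 79) (nat_lit 5) (nat_lit 83) (nat_lit 5) (nat_lit 84) (nat_lit 5) (nat_lit 366) (nat_lit 320) (nat_lit 94)) (XT.nd (nat_lit 78) (nat_lit 0) (nat_lit 0) (XT.lf (nat_lit 0) (nat_lit 27700979201) (nat_lit 304) (nat_lit 11806129637) (nat_lit 380) (nat_lit 14937513985) (nat_lit 79) (nat_lit 5) (nat_lit 83) (nat_lit 5) (nat_lit 84) (nat_lit 5) (nat_lit 367) (nat_lit 320) (nat_lit 93)) (XT.lf (nat_lit 0) (nat_lit 47752589227) (nat_lit 380) (nat_lit 2371029459) (nat_lit 76) (nat_lit 5409498390) (nat_lit 79) (nat_lit 5) (nat_lit 84) (nat_lit 5) (nat_lit 80) (nat_lit 5) (nat_lit 368) (nat_lit 320) (nat_lit 92))))) (XT.nd (nat_lit 234) (nat_lit 304) (nat_lit 0) (XT.nd (nat_lit 78) (nat_lit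 380) (nat_lit 0) (XT.lf (nat_lit 0) (nat_lit 23064234202) (nat_lit 304) (nat_lit 33518531272) (nat_lit 380) (nat_lit 61382345) (nat_lit 75) (nat_lit 5) (nat_lit 79) (nat_lit 5) (nat_lit 80) (nat_lit 5) (nat_lit 369) (nat_lit 320) (nat_lit 91)) (XT.nd (nat_lit 78) (nat_lit 304) (nat_lit 0) (XT.lf (nat_lit 0) (nat_lit 7758306338) (nat_lit 380) (nat_lit 8554418611) (nat_lit 76) (nat_lit 41472823390) (nat_lit 74) (nat_lit 5) (nat_lit 79) (nat_lit 5) (nat_lit 75) (nat_lit 5) (nat_lit 370) (nat_lit 320) (nat_lit 90)) (XT.lf (nat_lit 0) (nat_lit 15994166335) (nat_lit 380) (nat_lit 41409092351) (nat_lit 76) (nat_lit 1552430995) (nat_lit 70) (nat_lit 5) (nat_lit 75) (nat_lit 5) (nat_lit 71) (nat_lit 5) (nat_lit 371) (nat_lit 320) (nat_lit 89)))) (XT.nd (nat_lit 78) (nat_lit 304) (nat_lit 0) (XT.lf (nat_lit 0) (nat_lit 24724643139) (nat_lit 380) (nat_lit 15716390146) (nat_lit 76) (nat_lit 19712477175) (nat_lit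 70) (nat_lit 5) (nat_lit 75) (nat_lit 5) (nat_lit 71) (nat_lit 5) (nat_lit 372) (nat_lit 320) (nat_lit 88)) (XT.nd (nat_lit 78) (nat_lit 0) (nat_lit 0) (XT.lf (nat_lit 0) (nat_lit 10959317910) (nat_lit 304) (nat_lit 22861889975) (nat_lit 380) (nat_lit 27562934155) (nat_lit 66) (nat_lit 5) (nat_lit 70) (nat_lit 5) (nat_lit 71) (nat_lit 5) (nat_lit 373) (nat_lit 320) (nat_lit 87)) (XT.lf (nat_lit 0) (nat_lit 38755852807) (nat_lit 304) (nat_lit 4592366130) (nat_lit 380) (nat_lit 19298748494) (nat_lit 66) (nat_lit 5) (nat_lit 70) (nat_lit 5) (nat_lit 71) (nat_lit 5) (nat_lit 374) (nat_lit 320) (nat_lit 86))))))) (XT.nd (nat_lit 936) (nat_lit 1824) (nat_lit 0) (XT.nd (nat_lit 468) (nat_lit 0) (nat_lit 152) (XT.nd (nat_lit 234) (nat_lit 0) (nat_lit 76) (XT.nd (nat_lit 78) (nat_lit 0) (nat_lit 0) (XT.lf (nat_lit 0) (nat_lit 237801650) (nat_lit 0) (nat_lit 237801650) (nat_lit 1140) (nat_lit 12004500797)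 (nat_lit 165) (nat_lit 5) (nat_lit 165) (nat_lit 3) (nat_lit 180) (nat_lit 3) (nat_lit 321) (nat_lit 321) (nat_lit 138)) (XT.nd (nat_lit 78) (nat_lit 0) (nat_lit 0) (XT.lf (nat_lit 0) (nat_lit 1166630024) (nat_lit 1140) (nat_lit 13758145667) (nat_lit 1216) (nat_lit 10403630847) (nat_lit 165) (nat_lit 5) (nat_lit 180) (nat_lit 3) (nat_lit 181) (nat_lit 5) (nat_lit 322) (nat_lit 321) (nat_lit 137)) (XT.lf (nat_lit 0) (nat_lit 1389373794) (nat_lit 1140) (nat_lit 2716677888) (nat_lit 1216) (nat_lit 21601580055) (nat_lit 165) (nat_lit 5) (nat_lit 180) (nat_lit 3) (nat_lit 181) (nat_lit 5) (nat_lit 323) (nat_lit 321) (nat_lit 136)))) (XT.nd (nat_lit 78) (nat_lit 0) (nat_lit 0) (XT.lf (nat_lit 0) (nat_lit 1768406868) (nat_lit 1140) (nat_lit 17338059769) (nat_lit 1216) (nat_lit 6987285293) (nat_lit 166) (nat_lit 5) (nat_lit 181) (nat_lit 5) (nat_lit 182) (nat_lit 5) (nat_lit 324) (nat_lit 321) (nat_lit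 135)) (XT.nd (nat_lit 78) (nat_lit 0) (nat_lit 76) (XT.lf (nat_lit 0) (nat_lit 2223536135) (nat_lit 1140) (nat_lit 5905763461) (nat_lit 1216) (nat_lit 18360220634) (nat_lit 166) (nat_lit 5) (nat_lit 181) (nat_lit 5) (nat_lit 182) (nat_lit 5) (nat_lit 325) (nat_lit 321) (nat_lit 134)) (XT.lf (nat_lit 0) (nat_lit 2777440101) (nat_lit 1140) (nat_lit 20942462882) (nat_lit 1216) (nat_lit 3174711049) (nat_lit 167) (nat_lit 5) (nat_lit 182) (nat_lit 5) (nat_lit 183) (nat_lit 5) (nat_lit 326) (nat_lit 321) (nat_lit 133))))) (XT.nd (nat_lit 234) (nat_lit 0) (nat_lit 76) (XT.nd (nat_lit 78) (nat_lit 0) (nat_lit 0) (XT.lf (nat_lit 0) (nat_lit 3485245248) (nat_lit 1140) (nat_lit 9106452706) (nat_lit 1216) (nat_lit 14716050069) (nat_lit 167) (nat_lit 5) (nat_lit 182) (nat_lit 5) (nat_lit 183) (nat_lit 5) (nat_lit 327) (nat_lit 321) (nat_lit 132)) (XT.nd (nat_lit 78) (nat_lit 0) (nat_lit 76) (XT.lf (nat_lit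 76) (nat_lit 3143881226) (nat_lit 0) (nat_lit 1097293025) (nat_lit 1216) (nat_lit 23491300821) (nat_lit 168) (nat_lit 5) (nat_lit 167) (nat_lit 5) (nat_lit 183) (nat_lit 5) (nat_lit 328) (nat_lit 321) (nat_lit 131)) (XT.lf (nat_lit 0) (nat_lit 5212664074) (nat_lit 1140) (nat_lit 12325154077) (nat_lit 1216) (nat_lit 10626344853) (nat_lit 168) (nat_lit 5) (nat_lit 183) (nat_lit 5) (nat_lit 184) (nat_lit 5) (nat_lit 329) (nat_lit 321) (nat_lit 130)))) (XT.nd (nat_lit 78) (nat_lit 0) (nat_lit 76) (XT.lf (nat_lit 76) (nat_lit 299024903) (nat_lit 0) (nat_lit 5924863866) (nat_lit 1216) (nat_lit 22384600496) (nat_lit 169) (nat_lit 5) (nat_lit 168) (nat_lit 5) (nat_lit 184) (nat_lit 5) (nat_lit 330) (nat_lit 321) (nat_lit 129)) (XT.nd (nat_lit 78) (nat_lit 0) (nat_lit 0) (XT.lf (nat_lit 0) (nat_lit 7446100829) (nat_lit 1140) (nat_lit 15569307930) (nat_lit 1216) (nat_lit 6045322280) (nat_lit 169) (nat_lit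 5) (nat_lit 184) (nat_lit 5) (nat_lit 185) (nat_lit 5) (nat_lit 331) (nat_lit 321) (nat_lit 128)) (XT.lf (nat_lit 0) (nat_lit 8760662751) (nat_lit 1140) (nat_lit 2507764776) (nat_lit 1216) (nat_lit 18256447122) (nat_lit 169) (nat_lit 5) (nat_lit 184) (nat_lit 5) (nat_lit 185) (nat_lit 5) (nat_lit 332) (nat_lit 321) (nat_lit 127)))))) (XT.nd (nat_lit 468) (nat_lit 2204) (nat_lit 0) (XT.nd (nat_lit 234) (nat_lit 0) (nat_lit 76) (XT.nd (nat_lit 78) (nat_lit 0) (nat_lit 0) (XT.lf (nat_lit 0) (nat_lit 10228116966) (nat_lit 1140) (nat_lit 18847544004) (nat_lit 1216) (nat_lit 923882875) (nat_lit 170) (nat_lit 5) (nat_lit 185) (nat_lit 5) (nat_lit 186) (nat_lit 5) (nat_lit 333) (nat_lit 321) (nat_lit 126)) (XT.nd (nat_lit 78) (nat_lit 0) (nat_lit 0) (XT.lf (nat_lit 0) (nat_lit 11873917425) (nat_lit 1140) (nat_lit 5328718125) (nat_lit 1216) (nat_lit 13281792683) (nat_lit 170) (nat_lit 5) (nat_lit 185)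 (nat_lit 5) (nat_lit 186) (nat_lit 5) (nat_lit 334) (nat_lit 321) (nat_lit 125)) (XT.lf (nat_lit 76) (nat_lit 8764595021) (nat_lit 0) (nat_lit 4886009462) (nat_lit 1216) (nat_lit 17330813951) (nat_lit 171) (nat_lit 5) (nat_lit 170) (nat_lit 5) (nat_lit 186) (nat_lit 5) (nat_lit 335) (nat_lit 321) (nat_lit 124)))) (XT.nd (nat_lit 78) (nat_lit 0) (nat_lit 0) (XT.lf (nat_lit 0) (nat_lit 15607241341) (nat_lit 1140) (nat_lit 8179451485) (nat_lit 1216) (nat_lit 7702830560) (nat_lit 171) (nat_lit 5) (nat_lit 186) (nat_lit 5) (nat_lit 187) (nat_lit 5) (nat_lit 336) (nat_lit 321) (nat_lit 123)) (XT.nd (nat_lit 78) (nat_lit 0) (nat_lit 76) (XT.lf (nat_lit 76) (nat_lit 6352512816) (nat_lit 0) (nat_lit 11376910236) (nat_lit 1216) (nat_lit 14280247450) (nat_lit 172) (nat_lit 5) (nat_lit 171) (nat_lit 5) (nat_lit 187) (nat_lit 5) (nat_lit 337) (nat_lit 321) (nat_lit 122)) (XT.lf (nat_lit 0) (nat_lit 20009656682)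 (nat_lit 1140) (nat_lit 11071339342) (nat_lit 76) (nat_lit 1461598677) (nat_lit 172) (nat_lit 5) (nat_lit 187) (nat_lit 5) (nat_lit 173) (nat_lit 5) (nat_lit 338) (nat_lit 321) (nat_lit 121))))) (XT.nd (nat_lit 234) (nat_lit 684) (nat_lit 0) (XT.nd (nat_lit 78) (nat_lit 532) (nat_lit 0) (XT.lf (nat_lit 0) (nat_lit 3913667139) (nat_lit 1140) (nat_lit 18592432199) (nat_lit 1216) (nat_lit 10580977364) (nat_lit 157) (nat_lit 5) (nat_lit 172) (nat_lit 5) (nat_lit 173) (nat_lit 5) (nat_lit 339) (nat_lit 321) (nat_lit 120)) (XT.nd (nat_lit 78) (nat_lit 532) (nat_lit 0) (XT.lf (nat_lit 0) (nat_lit 19573082657) (nat_lit 1140) (nat_lit 5613741786) (nat_lit 1216) (nat_lit 8457791062) (nat_lit 157) (nat_lit 5) (nat_lit 172) (nat_lit 5) (nat_lit 173) (nat_lit 5) (nat_lit 340) (nat_lit 321) (nat_lit 119)) (XT.lf (nat_lit 0) (nat_lit 1434749281) (nat_lit 532) (nat_lit 26599216363) (nat_lit 608) (nat_lit 6182338898)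 (nat_lit 150) (nat_lit 5) (nat_lit 157) (nat_lit 5) (nat_lit 158) (nat_lit 5) (nat_lit 341) (nat_lit 321) (nat_lit 118)))) (XT.nd (nat_lit 78) (nat_lit 684) (nat_lit 0) (XT.lf (nat_lit 0) (nat_lit 17635896546) (nat_lit 532) (nat_lit 13525467582) (nat_lit 608) (nat_lit 3637938617) (nat_lit 150) (nat_lit 5) (nat_lit 157) (nat_lit 5) (nat_lit 158) (nat_lit 5) (nat_lit 342) (nat_lit 321) (nat_lit 117)) (XT.nd (nat_lit 78) (nat_lit 684) (nat_lit 0) (XT.lf (nat_lit 0) (nat_lit 34321050877) (nat_lit 532) (nat_lit 59311817) (nat_lit 608) (nat_lit 1019498532) (nat_lit 150) (nat_lit 5) (nat_lit 157) (nat_lit 5) (nat_lit 158) (nat_lit 5) (nat_lit 343) (nat_lit 321) (nat_lit 116)) (XT.lf (nat_lit 0) (nat_lit 1928668295) (nat_lit 684) (nat_lit 20369822589) (nat_lit 76) (nat_lit 13710948064) (nat_lit 141) (nat_lit 5) (nat_lit 150) (nat_lit 5) (nat_lit 142) (nat_lit 5) (nat_lit 344) (nat_lit 321) (nat_lit 115))))))))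
noncomputable def xc236 : XT := (XT.nd (nat_lit 1794) (nat_lit 988) (nat_lit 0) (XT.nd (nat_lit 858) (nat_lit 2280) (nat_lit 0) (XT.nd (nat_lit 390) (nat_lit 1368) (nat_lit 0) (XT.nd (nat_lit 156) (nat_lit 532) (nat_lit 0) (XT.nd (nat_lit 78) (nat_lit 532) (nat_lit 0) (XT.lf (nat_lit 0) (nat_lit 4954241918) (nat_lit 684) (nat_lit 3768120209) (nat_lit 76) (nat_lit 27914358838) (nat_lit 141) (nat_lit 5) (nat_lit 150) (nat_lit 5) (nat_lit 142) (nat_lit 5) (nat_lit 345) (nat_lit 321) (nat_lit 114)) (XT.lf (nat_lit 0) (nat_lit 8251058328) (nat_lit 608) (nat_lit 23735918621) (nat_lit 76) (nat_lit 5290433491) (nat_lit 134) (nat_lit 5) (nat_lit 142) (nat_lit 5) (nat_lit 135) (nat_lit 5) (nat_lit 346) (nat_lit 321) (nat_lit 113))) (XT.nd (nat_lit 78) (nat_lit 532) (nat_lit 0) (XT.lf (nat_lit 0) (nat_lit 11769534358) (nat_lit 608) (nat_lit 6577330001) (nat_lit 76) (nat_lit 19586776758) (nat_lit 134) (nat_lit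 5) (nat_lit 142) (nat_lit 5) (nat_lit 135) (nat_lit 5) (nat_lit 347) (nat_lit 321) (nat_lit 112)) (XT.nd (nat_lit 78) (nat_lit 0) (nat_lit 0) (XT.lf (nat_lit 0) (nat_lit 11314819707) (nat_lit 532) (nat_lit 4185536865) (nat_lit 608) (nat_lit 23106001463) (nat_lit 127) (nat_lit 5) (nat_lit 134) (nat_lit 5) (nat_lit 135) (nat_lit 5) (nat_lit 348) (nat_lit 321) (nat_lit 111)) (XT.lf (nat_lit 0) (nat_lit 19508221543) (nat_lit 608) (nat_lit 9521366658) (nat_lit 76) (nat_lit 10264717707) (nat_lit 127) (nat_lit 5) (nat_lit 135) (nat_lit 5) (nat_lit 128) (nat_lit 5) (nat_lit 349) (nat_lit 321) (nat_lit 110))))) (XT.nd (nat_lit 234) (nat_lit 456) (nat_lit 0) (XT.nd (nat_lit 78) (nat_lit 456) (nat_lit 0) (XT.lf (nat_lit 0) (nat_lit 8912410950) (nat_lit 456) (nat_lit 14849145498) (nat_lit 532) (nat_lit 16237581651) (nat_lit 121) (nat_lit 5) (nat_lit 127) (nat_lit 5) (nat_lit 128) (nat_lit 5) (nat_lit 350)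 (nat_lit 321) (nat_lit 109)) (XT.nd (nat_lit 78) (nat_lit 456) (nat_lit 0) (XT.lf (nat_lit 0) (nat_lit 28092428407) (nat_lit 456) (nat_lit 144367558) (nat_lit 532) (nat_lit 12485492971) (nat_lit 121) (nat_lit 5) (nat_lit 127) (nat_lit 5) (nat_lit 128) (nat_lit 5) (nat_lit 351) (nat_lit 321) (nat_lit 108)) (XT.lf (nat_lit 0) (nat_lit 6358637207) (nat_lit 456) (nat_lit 26691192757) (nat_lit 532) (nat_lit 8411200951) (nat_lit 115) (nat_lit 5) (nat_lit 121) (nat_lit 5) (nat_lit 122) (nat_lit 5) (nat_lit 352) (nat_lit 321) (nat_lit 107)))) (XT.nd (nat_lit 78) (nat_lit 456) (nat_lit 0) (XT.lf (nat_lit 0) (nat_lit 26172300246) (nat_lit 456) (nat_lit 11962150571) (nat_lit 532) (nat_lit 4083671116) (nat_lit 115) (nat_lit 5) (nat_lit 121) (nat_lit 5) (nat_lit 122) (nat_lit 5) (nat_lit 353) (nat_lit 321) (nat_lit 106)) (XT.nd (nat_lit 78) (nat_lit 0) (nat_lit 0) (XT.lf (nat_lit 0) (nat_lit 430961700) (nat_lit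 456) (nat_lit 39379914218) (nat_lit 76) (nat_lit 3185007435) (nat_lit 109) (nat_lit 5) (nat_lit 115) (nat_lit 5) (nat_lit 110) (nat_lit 5) (nat_lit 354) (nat_lit 321) (nat_lit 105)) (XT.lf (nat_lit 0) (nat_lit 5279333984) (nat_lit 456) (nat_lit 19757997827) (nat_lit 76) (nat_lit 18750023915) (nat_lit 109) (nat_lit 5) (nat_lit 115) (nat_lit 5) (nat_lit 110) (nat_lit 5) (nat_lit 355) (nat_lit 321) (nat_lit 104)))))) (XT.nd (nat_lit 468) (nat_lit 1064) (nat_lit 0) (XT.nd (nat_lit 234) (nat_lit 760) (nat_lit 0) (XT.nd (nat_lit 78) (nat_lit 0) (nat_lit 0) (XT.lf (nat_lit 0) (nat_lit 459657612) (nat_lit 456) (nat_lit 9816273176) (nat_lit 532) (nat_lit 34326560644) (nat_lit 103) (nat_lit 5) (nat_lit 109) (nat_lit 5) (nat_lit 110) (nat_lit 5) (nat_lit 356) (nat_lit 321) (nat_lit 103)) (XT.nd (nat_lit 78) (nat_lit 0) (nat_lit 0) (XT.lf (nat_lit 0) (nat_lit 15678643820) (nat_lit 532) (nat_lit 23807470150)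 (nat_lit 76) (nat_lit 5948282977) (nat_lit 103) (nat_lit 5) (nat_lit 110) (nat_lit 5) (nat_lit 104) (nat_lit 5) (nat_lit 357) (nat_lit 321) (nat_lit 102)) (XT.lf (nat_lit 0) (nat_lit 21339058526) (nat_lit 532) (nat_lit 2961098346) (nat_lit 76) (nat_lit 21988236373) (nat_lit 103) (nat_lit 5) (nat_lit 110) (nat_lit 5) (nat_lit 104) (nat_lit 5) (nat_lit 358) (nat_lit 321) (nat_lit 101)))) (XT.nd (nat_lit 78) (nat_lit 380) (nat_lit 0) (XT.lf (nat_lit 0) (nat_lit 18877219436) (nat_lit 380) (nat_lit 8472000821) (nat_lit 456) (nat_lit 19813393296) (nat_lit 98) (nat_lit 5) (nat_lit 103) (nat_lit 5) (nat_lit 104) (nat_lit 5) (nat_lit 359) (nat_lit 321) (nat_lit 100)) (XT.nd (nat_lit 78) (nat_lit 380) (nat_lit 0) (XT.lf (nat_lit 0) (nat_lit 33643660140) (nat_lit 456) (nat_lit 6708183692) (nat_lit 76) (nat_lit 7708099536) (nat_lit 98) (nat_lit 5) (nat_lit 104) (nat_lit 5) (nat_lit 99) (nat_lit 5) (nat_lit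 360) (nat_lit 321) (nat_lit 99)) (XT.lf (nat_lit 0) (nat_lit 15737781871) (nat_lit 380) (nat_lit 24622857029) (nat_lit 456) (nat_lit 8616545042) (nat_lit 93) (nat_lit 5) (nat_lit 98) (nat_lit 5) (nat_lit 99) (nat_lit 5) (nat_lit 361) (nat_lit 321) (nat_lit 98))))) (XT.nd (nat_lit 234) (nat_lit 684) (nat_lit 0) (XT.nd (nat_lit 78) (nat_lit 380) (nat_lit 0) (XT.lf (nat_lit 0) (nat_lit 38992874262) (nat_lit 380) (nat_lit 8352561040) (nat_lit 456) (nat_lit 2574519160) (nat_lit 93) (nat_lit 5) (nat_lit 98) (nat_lit 5) (nat_lit 99) (nat_lit 5) (nat_lit 362) (nat_lit 321) (nat_lit 97)) (XT.nd (nat_lit 78) (nat_lit 0) (nat_lit 0) (XT.lf (nat_lit 0) (nat_lit 3776295945) (nat_lit 380) (nat_lit 38711804903) (nat_lit 76) (nat_lit 8395895014) (nat_lit 88) (nat_lit 5) (nat_lit 93) (nat_lit 5) (nat_lit 89) (nat_lit 5) (nat_lit 363) (nat_lit 321) (nat_lit 96)) (XT.lf (nat_lit 0) (nat_lit 10458639289) (nat_lit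 380) (nat_lit 15796259615) (nat_lit 76) (nat_lit 25615514228) (nat_lit 88) (nat_lit 5) (nat_lit 93) (nat_lit 5) (nat_lit 89) (nat_lit 5) (nat_lit 364) (nat_lit 321) (nat_lit 95)))) (XT.nd (nat_lit 78) (nat_lit 304) (nat_lit 0) (XT.lf (nat_lit 0) (nat_lit 7960374356) (nat_lit 380) (nat_lit 9456254746) (nat_lit 456) (nat_lit 35467540290) (nat_lit 83) (nat_lit 5) (nat_lit 88) (nat_lit 5) (nat_lit 89) (nat_lit 5) (nat_lit 365) (nat_lit 321) (nat_lit 94)) (XT.nd (nat_lit 78) (nat_lit 304) (nat_lit 0) (XT.lf (nat_lit 0) (nat_lit 24818548487) (nat_lit 456) (nat_lit 21248775222) (nat_lit 76) (nat_lit 7853960637) (nat_lit 83) (nat_lit 5) (nat_lit 89) (nat_lit 5) (nat_lit 84) (nat_lit 5) (nat_lit 366) (nat_lit 321) (nat_lit 93)) (XT.lf (nat_lit 0) (nat_lit 3101710780) (nat_lit 304) (nat_lit 29462970483) (nat_lit 380) (nat_lit 22421168467) (nat_lit 79) (nat_lit 5) (nat_lit 83) (nat_lit 5) (nat_lit 84) (nat_lit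 5) (nat_lit 367) (nat_lit 321) (nat_lit 92))))))) (XT.nd (nat_lit 37440) (nat_lit 0) (nat_lit 7676) (XT.nd (nat_lit 468) (nat_lit 304) (nat_lit 0) (XT.nd (nat_lit 234) (nat_lit 304) (nat_lit 0) (XT.nd (nat_lit 78) (nat_lit 380) (nat_lit 0) (XT.lf (nat_lit 0) (nat_lit 28616623261) (nat_lit 304) (nat_lit 12139881146) (nat_lit 380) (nat_lit 15319450085) (nat_lit 79) (nat_lit 5) (nat_lit 83) (nat_lit 5) (nat_lit 84) (nat_lit 5) (nat_lit 368) (nat_lit 321) (nat_lit 91)) (XT.nd (nat_lit 78) (nat_lit 380) (nat_lit 0) (XT.lf (nat_lit 0) (nat_lit 49247670507) (nat_lit 380) (nat_lit 2358252293) (nat_lit 76) (nat_lit 5591233508) (nat_lit 79) (nat_lit 5) (nat_lit 84) (nat_lit 5) (nat_lit 80) (nat_lit 5) (nat_lit 369) (nat_lit 321) (nat_lit 90)) (XT.lf (nat_lit 0) (nat_lit 175783) (nat_lit 380) (nat_lit 34502306007) (nat_lit 76) (nat_lit 23839069092) (nat_lit 74) (nat_lit 5) (nat_lit 79) (nat_lit 5) (nat_lit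 75) (nat_lit 5) (nat_lit 370) (nat_lit 321) (nat_lit 89)))) (XT.nd (nat_lit 78) (nat_lit 304) (nat_lit 0) (XT.lf (nat_lit 0) (nat_lit 8051410746) (nat_lit 380) (nat_lit 8729112069) (nat_lit 76) (nat_lit 42736708863) (nat_lit 74) (nat_lit 5) (nat_lit 79) (nat_lit 5) (nat_lit 75) (nat_lit 5) (nat_lit 371) (nat_lit 321) (nat_lit 88)) (XT.nd (nat_lit 78) (nat_lit 0) (nat_lit 0) (XT.lf (nat_lit 0) (nat_lit 16533577707) (nat_lit 380) (nat_lit 42568586842) (nat_lit 76) (nat_lit 1620337886) (nat_lit 70) (nat_lit 5) (nat_lit 75) (nat_lit 5) (nat_lit 71) (nat_lit 5) (nat_lit 372) (nat_lit 321) (nat_lit 87)) (XT.lf (nat_lit 0) (nat_lit 25524233290) (nat_lit 380) (nat_lit 16107514589) (nat_lit 76) (nat_lit 20324564074) (nat_lit 70) (nat_lit 5) (nat_lit 75) (nat_lit 5) (nat_lit 71) (nat_lit 5) (nat_lit 373) (nat_lit 321) (nat_lit 86))))) (XT.nd (nat_lit 36738) (nat_lit 0) (nat_lit 7524) (XT.nd (nat_lit 36582)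 (nat_lit 0) (nat_lit 7524) (XT.lf (nat_lit 0) (nat_lit 11367676794) (nat_lit 304) (nat_lit 23525098173) (nat_lit 380) (nat_lit 28331117102) (nat_lit 66) (nat_lit 5) (nat_lit 70) (nat_lit 5) (nat_lit 71) (nat_lit 5) (nat_lit 374) (nat_lit 321) (nat_lit 85)) (XT.nd (nat_lit 78) (nat_lit 0) (nat_lit 0) (XT.lf (nat_lit 0) (nat_lit 294038582) (nat_lit 0) (nat_lit 294038582) (nat_lit 1140) (nat_lit 12263315396) (nat_lit 165) (nat_lit 5) (nat_lit 165) (nat_lit 3) (nat_lit 180) (nat_lit 3) (nat_lit 322) (nat_lit 322) (nat_lit 136)) (XT.lf (nat_lit 0) (nat_lit 1391403211) (nat_lit 1140) (nat_lit 14068580231) (nat_lit 1216) (nat_lit 10622254902) (nat_lit 165) (nat_lit 5) (nat_lit 180) (nat_lit 3) (nat_lit 181) (nat_lit 5) (nat_lit 323) (nat_lit 322) (nat_lit 135)))) (XT.nd (nat_lit 78) (nat_lit 0) (nat_lit 76) (XT.lf (nat_lit 0) (nat_lit 1615301889) (nat_lit 1140) (nat_lit 2698848316) (nat_lit 1216) (nat_lit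 22158865446) (nat_lit 165) (nat_lit 5) (nat_lit 180) (nat_lit 3) (nat_lit 181) (nat_lit 5) (nat_lit 324) (nat_lit 322) (nat_lit 134)) (XT.nd (nat_lit 78) (nat_lit 0) (nat_lit 0) (XT.lf (nat_lit 0) (nat_lit 2000501861) (nat_lit 1140) (nat_lit 17753359179) (nat_lit 1216) (nat_lit 7117023783) (nat_lit 166) (nat_lit 5) (nat_lit 181) (nat_lit 5) (nat_lit 182) (nat_lit 5) (nat_lit 325) (nat_lit 322) (nat_lit 133)) (XT.lf (nat_lit 0) (nat_lit 2464070167) (nat_lit 1140) (nat_lit 5981147644) (nat_lit 1216) (nat_lit 18833473788) (nat_lit 166) (nat_lit 5) (nat_lit 181) (nat_lit 5) (nat_lit 182) (nat_lit 5) (nat_lit 326) (nat_lit 322) (nat_lit 132)))))) (XT.nd (nat_lit 468) (nat_lit 0) (nat_lit 152) (XT.nd (nat_lit 234) (nat_lit 0) (nat_lit 76) (XT.nd (nat_lit 78) (nat_lit 0) (nat_lit 0) (XT.lf (nat_lit 0) (nat_lit 3029834442) (nat_lit 1140) (nat_lit 21463900558) (nat_lit 1216) (nat_lit 3202354639) (nat_lit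 167) (nat_lit 5) (nat_lit 182) (nat_lit 5) (nat_lit 183) (nat_lit 5) (nat_lit 327) (nat_lit 322) (nat_lit 131)) (XT.nd (nat_lit 78) (nat_lit 0) (nat_lit 0) (XT.lf (nat_lit 0) (nat_lit 3753949342) (nat_lit 1140) (nat_lit 9275921812) (nat_lit 1216) (nat_lit 15091902696) (nat_lit 167) (nat_lit 5) (nat_lit 182) (nat_lit 5) (nat_lit 183) (nat_lit 5) (nat_lit 328) (nat_lit 322) (nat_lit 130)) (XT.lf (nat_lit 76) (nat_lit 3340905232) (nat_lit 0) (nat_lit 1187857298) (nat_lit 1216) (nat_lit 24030602210) (nat_lit 168) (nat_lit 5) (nat_lit 167) (nat_lit 5) (nat_lit 183) (nat_lit 5) (nat_lit 329) (nat_lit 322) (nat_lit 129)))) (XT.nd (nat_lit 78) (nat_lit 0) (nat_lit 0) (XT.lf (nat_lit 0) (nat_lit 5524188586) (nat_lit 1140) (nat_lit 12589718139) (nat_lit 1216) (nat_lit 10890260818) (nat_lit 168) (nat_lit 5) (nat_lit 183) (nat_lit 5) (nat_lit 184) (nat_lit 5) (nat_lit 330) (nat_lit 322) (nat_lit 128)) (XT.nd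 (nat_lit 78) (nat_lit 0) (nat_lit 76) (XT.lf (nat_lit 76) (nat_lit 412154930) (nat_lit 0) (nat_lit 6150077561) (nat_lit 1216) (nat_lit 22899704377) (nat_lit 169) (nat_lit 5) (nat_lit 168) (nat_lit 5) (nat_lit 184) (nat_lit 5) (nat_lit 331) (nat_lit 322) (nat_lit 127)) (XT.lf (nat_lit 0) (nat_lit 7816251591) (nat_lit 1140) (nat_lit 15930151590) (nat_lit 1216) (nat_lit 6181496015) (nat_lit 169) (nat_lit 5) (nat_lit 184) (nat_lit 5) (nat_lit 185) (nat_lit 5) (nat_lit 332) (nat_lit 322) (nat_lit 126))))) (XT.nd (nat_lit 234) (nat_lit 0) (nat_lit 76) (XT.nd (nat_lit 78) (nat_lit 0) (nat_lit 76) (XT.lf (nat_lit 0) (nat_lit 9165975582) (nat_lit 1140) (nat_lit 2479856382) (nat_lit 1216) (nat_lit 18760270697) (nat_lit 169) (nat_lit 5) (nat_lit 184) (nat_lit 5) (nat_lit 185) (nat_lit 5) (nat_lit 333) (nat_lit 322) (nat_lit 125)) (XT.nd (nat_lit 78) (nat_lit 0) (nat_lit 0) (XT.lf (nat_lit 0) (nat_lit 10673927347)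 (nat_lit 1140) (nat_lit 19306066562) (nat_lit 1216) (nat_lit 915130897) (nat_lit 170) (nat_lit 5) (nat_lit 185) (nat_lit 5) (nat_lit 186) (nat_lit 5) (nat_lit 334) (nat_lit 322) (nat_lit 124)) (XT.lf (nat_lit 0) (nat_lit 12365054241) (nat_lit 1140) (nat_lit 5384789609) (nat_lit 1216) (nat_lit 13644840188) (nat_lit 170) (nat_lit 5) (nat_lit 185) (nat_lit 5) (nat_lit 186) (nat_lit 5) (nat_lit 335) (nat_lit 322) (nat_lit 123)))) (XT.nd (nat_lit 78) (nat_lit 0) (nat_lit 76) (XT.lf (nat_lit 76) (nat_lit 9130305383) (nat_lit 0) (nat_lit 5061794752) (nat_lit 1216) (nat_lit 17714578746) (nat_lit 171) (nat_lit 5) (nat_lit 170) (nat_lit 5) (nat_lit 186) (nat_lit 5) (nat_lit 336) (nat_lit 322) (nat_lit 122)) (XT.nd (nat_lit 78) (nat_lit 0) (nat_lit 0) (XT.lf (nat_lit 0) (nat_lit 16203319533) (nat_lit 1140) (nat_lit 8320723036) (nat_lit 1216) (nat_lit 7906114397) (nat_lit 171) (nat_lit 5) (nat_lit 186) (nat_lit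 5) (nat_lit 187) (nat_lit 5) (nat_lit 337) (nat_lit 322) (nat_lit 121)) (XT.lf (nat_lit 76) (nat_lit 6646179489) (nat_lit 0) (nat_lit 11740254079) (nat_lit 1216) (nat_lit 14579563223) (nat_lit 172) (nat_lit 5) (nat_lit 171) (nat_lit 5) (nat_lit 187) (nat_lit 5) (nat_lit 338) (nat_lit 322) (nat_lit 120))))))))
noncomputable def xc237 : XT := (XT.nd (nat_lit 1872) (nat_lit 1748) (nat_lit 0) (XT.nd (nat_lit 936) (nat_lit 2584) (nat_lit 0) (XT.nd (nat_lit 468) (nat_lit 1748) (nat_lit 0) (XT.nd (nat_lit 234) (nat_lit 532) (nat_lit 0) (XT.nd (nat_lit 78) (nat_lit 1140) (nat_lit 0) (XT.lf (nat_lit 0) (nat_lit 20731224048) (nat_lit 1140) (nat_lit 11299336858) (nat_lit 76) (nat_lit 1484469430) (nat_lit 172) (nat_lit 5) (nat_lit 187) (nat_lit 5) (nat_lit 173) (nat_lit 5) (nat_lit 339) (nat_lit 322) (nat_lit 119)) (XT.nd (nat_lit 78) (nat_lit 0) (nat_lit 0) (XT.lf (nat_lit 0) (nat_lit 4134198811) (nat_lit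 1140) (nat_lit 19165820082) (nat_lit 1216) (nat_lit 10775910075) (nat_lit 157) (nat_lit 5) (nat_lit 172) (nat_lit 5) (nat_lit 173) (nat_lit 5) (nat_lit 340) (nat_lit 322) (nat_lit 118)) (XT.lf (nat_lit 0) (nat_lit 20260393251) (nat_lit 1140) (nat_lit 5797314153) (nat_lit 1216) (nat_lit 8592596047) (nat_lit 157) (nat_lit 5) (nat_lit 172) (nat_lit 5) (nat_lit 173) (nat_lit 5) (nat_lit 341) (nat_lit 322) (nat_lit 117)))) (XT.nd (nat_lit 78) (nat_lit 0) (nat_lit 0) (XT.lf (nat_lit 0) (nat_lit 1580687353) (nat_lit 532) (nat_lit 27407065481) (nat_lit 608) (nat_lit 6251471222) (nat_lit 150) (nat_lit 5) (nat_lit 157) (nat_lit 5) (nat_lit 158) (nat_lit 5) (nat_lit 342) (nat_lit 322) (nat_lit 116)) (XT.nd (nat_lit 78) (nat_lit 0) (nat_lit 0) (XT.lf (nat_lit 0) (nat_lit 18264872077) (nat_lit 532) (nat_lit 13940816685) (nat_lit 608) (nat_lit 3634127414) (nat_lit 150) (nat_lit 5) (nat_lit 157) (nat_lit 5)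 (nat_lit 158) (nat_lit 5) (nat_lit 343) (nat_lit 322) (nat_lit 115)) (XT.lf (nat_lit 0) (nat_lit 35447671369) (nat_lit 532) (nat_lit 70397070) (nat_lit 608) (nat_lit 940423914) (nat_lit 150) (nat_lit 5) (nat_lit 157) (nat_lit 5) (nat_lit 158) (nat_lit 5) (nat_lit 344) (nat_lit 322) (nat_lit 114))))) (XT.nd (nat_lit 234) (nat_lit 532) (nat_lit 0) (XT.nd (nat_lit 78) (nat_lit 532) (nat_lit 0) (XT.lf (nat_lit 0) (nat_lit 2091794236) (nat_lit 684) (nat_lit 20879198105) (nat_lit 76) (nat_lit 14115406030) (nat_lit 141) (nat_lit 5) (nat_lit 150) (nat_lit 5) (nat_lit 142) (nat_lit 5) (nat_lit 345) (nat_lit 322) (nat_lit 113)) (XT.nd (nat_lit 78) (nat_lit 532) (nat_lit 0) (XT.lf (nat_lit 0) (nat_lit 5205069070) (nat_lit 684) (nat_lit 3782407347) (nat_lit 76) (nat_lit 28745119238) (nat_lit 141) (nat_lit 5) (nat_lit 150) (nat_lit 5) (nat_lit 142) (nat_lit 5) (nat_lit 346) (nat_lit 322) (nat_lit 112)) (XT.lf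 (nat_lit 0) (nat_lit 8598730448) (nat_lit 608) (nat_lit 24347023933) (nat_lit 76) (nat_lit 5446817907) (nat_lit 134) (nat_lit 5) (nat_lit 142) (nat_lit 5) (nat_lit 135) (nat_lit 5) (nat_lit 347) (nat_lit 322) (nat_lit 111)))) (XT.nd (nat_lit 78) (nat_lit 532) (nat_lit 0) (XT.lf (nat_lit 0) (nat_lit 12219844049) (nat_lit 608) (nat_lit 6676618594) (nat_lit 76) (nat_lit 20172119294) (nat_lit 134) (nat_lit 5) (nat_lit 142) (nat_lit 5) (nat_lit 135) (nat_lit 5) (nat_lit 348) (nat_lit 322) (nat_lit 110)) (XT.nd (nat_lit 78) (nat_lit 0) (nat_lit 0) (XT.lf (nat_lit 0) (nat_lit 11751334514) (nat_lit 532) (nat_lit 4309357757) (nat_lit 608) (nat_lit 23700849472) (nat_lit 127) (nat_lit 5) (nat_lit 134) (nat_lit 5) (nat_lit 135) (nat_lit 5) (nat_lit 349) (nat_lit 322) (nat_lit 109)) (XT.lf (nat_lit 0) (nat_lit 20186033022) (nat_lit 608) (nat_lit 9709861566) (nat_lit 76) (nat_lit 10574320558) (nat_lit 127)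 (nat_lit 5) (nat_lit 135) (nat_lit 5) (nat_lit 128) (nat_lit 5) (nat_lit 350) (nat_lit 322) (nat_lit 108)))))) (XT.nd (nat_lit 468) (nat_lit 1216) (nat_lit 0) (XT.nd (nat_lit 234) (nat_lit 456) (nat_lit 0) (XT.nd (nat_lit 78) (nat_lit 456) (nat_lit 0) (XT.lf (nat_lit 0) (nat_lit 9275976958) (nat_lit 456) (nat_lit 15289219626) (nat_lit 532) (nat_lit 16631053025) (nat_lit 121) (nat_lit 5) (nat_lit 127) (nat_lit 5) (nat_lit 128) (nat_lit 5) (nat_lit 351) (nat_lit 322) (nat_lit 107)) (XT.nd (nat_lit 78) (nat_lit 456) (nat_lit 0) (XT.lf (nat_lit 0) (nat_lit 29028593180) (nat_lit 456) (nat_lit 143455636) (nat_lit 532) (nat_lit 12769129532) (nat_lit 121) (nat_lit 5) (nat_lit 127) (nat_lit 5) (nat_lit 128) (nat_lit 5) (nat_lit 352) (nat_lit 322) (nat_lit 106)) (XT.lf (nat_lit 0) (nat_lit 6644574741) (nat_lit 456) (nat_lit 27483295492) (nat_lit 532) (nat_lit 8574264388) (nat_lit 115) (nat_lit 5) (nat_lit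 121) (nat_lit 5) (nat_lit 122) (nat_lit 5) (nat_lit 353) (nat_lit 322) (nat_lit 105)))) (XT.nd (nat_lit 78) (nat_lit 456) (nat_lit 0) (XT.lf (nat_lit 0) (nat_lit 27049875484) (nat_lit 456) (nat_lit 12312633489) (nat_lit 532) (nat_lit 4119508830) (nat_lit 115) (nat_lit 5) (nat_lit 121) (nat_lit 5) (nat_lit 122) (nat_lit 5) (nat_lit 354) (nat_lit 322) (nat_lit 104)) (XT.nd (nat_lit 78) (nat_lit 0) (nat_lit 0) (XT.lf (nat_lit 0) (nat_lit 527388441) (nat_lit 456) (nat_lit 40465487780) (nat_lit 76) (nat_lit 3290258940) (nat_lit 109) (nat_lit 5) (nat_lit 115) (nat_lit 5) (nat_lit 110) (nat_lit 5) (nat_lit 355) (nat_lit 322) (nat_lit 103)) (XT.lf (nat_lit 0) (nat_lit 5518779916) (nat_lit 456) (nat_lit 20257704884) (nat_lit 76) (nat_lit 19321943354) (nat_lit 109) (nat_lit 5) (nat_lit 115) (nat_lit 5) (nat_lit 110) (nat_lit 5) (nat_lit 356) (nat_lit 322) (nat_lit 102))))) (XT.nd (nat_lit 234) (nat_lit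 760) (nat_lit 0) (XT.nd (nat_lit 78) (nat_lit 0) (nat_lit 0) (XT.lf (nat_lit 0) (nat_lit 565568131) (nat_lit 456) (nat_lit 10098230870) (nat_lit 532) (nat_lit 35274266582) (nat_lit 103) (nat_lit 5) (nat_lit 109) (nat_lit 5) (nat_lit 110) (nat_lit 5) (nat_lit 357) (nat_lit 322) (nat_lit 101)) (XT.nd (nat_lit 78) (nat_lit 0) (nat_lit 0) (XT.lf (nat_lit 0) (nat_lit 16226392204) (nat_lit 532) (nat_lit 24429945779) (nat_lit 76) (nat_lit 6138659608) (nat_lit 103) (nat_lit 5) (nat_lit 110) (nat_lit 5) (nat_lit 104) (nat_lit 5) (nat_lit 358) (nat_lit 322) (nat_lit 100)) (XT.lf (nat_lit 0) (nat_lit 22054365301) (nat_lit 532) (nat_lit 2960855106) (nat_lit 76) (nat_lit 22659464184) (nat_lit 103) (nat_lit 5) (nat_lit 110) (nat_lit 5) (nat_lit 104) (nat_lit 5) (nat_lit 359) (nat_lit 322) (nat_lit 99)))) (XT.nd (nat_lit 78) (nat_lit 380) (nat_lit 0) (XT.lf (nat_lit 0) (nat_lit 19531738913) (nat_lit 380) (nat_lit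 8711752432) (nat_lit 456) (nat_lit 20331683478) (nat_lit 98) (nat_lit 5) (nat_lit 103) (nat_lit 5) (nat_lit 104) (nat_lit 5) (nat_lit 360) (nat_lit 322) (nat_lit 98)) (XT.nd (nat_lit 78) (nat_lit 380) (nat_lit 0) (XT.lf (nat_lit 0) (nat_lit 34724749539) (nat_lit 456) (nat_lit 6821680146) (nat_lit 76) (nat_lit 7953058302) (nat_lit 98) (nat_lit 5) (nat_lit 104) (nat_lit 5) (nat_lit 99) (nat_lit 5) (nat_lit 361) (nat_lit 322) (nat_lit 97)) (XT.lf (nat_lit 0) (nat_lit 16296804099) (nat_lit 380) (nat_lit 25345178124) (nat_lit 456) (nat_lit 8802304141) (nat_lit 93) (nat_lit 5) (nat_lit 98) (nat_lit 5) (nat_lit 99) (nat_lit 5) (nat_lit 362) (nat_lit 322) (nat_lit 96))))))) (XT.nd (nat_lit 37596) (nat_lit 0) (nat_lit 7220) (XT.nd (nat_lit 468) (nat_lit 684) (nat_lit 0) (XT.nd (nat_lit 234) (nat_lit 684) (nat_lit 0) (XT.nd (nat_lit 78) (nat_lit 380) (nat_lit 0) (XT.lf (nat_lit 0) (nat_lit 40247018521)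 (nat_lit 380) (nat_lit 8587249893) (nat_lit 456) (nat_lit 2581136043) (nat_lit 93) (nat_lit 5) (nat_lit 98) (nat_lit 5) (nat_lit 99) (nat_lit 5) (nat_lit 363) (nat_lit 322) (nat_lit 95)) (XT.nd (nat_lit 78) (nat_lit 0) (nat_lit 0) (XT.lf (nat_lit 0) (nat_lit 3957788603) (nat_lit 380) (nat_lit 39786205215) (nat_lit 76) (nat_lit 8664386696) (nat_lit 88) (nat_lit 5) (nat_lit 93) (nat_lit 5) (nat_lit 89) (nat_lit 5) (nat_lit 364) (nat_lit 322) (nat_lit 94)) (XT.lf (nat_lit 0) (nat_lit 10838615729) (nat_lit 380) (nat_lit 16185726204) (nat_lit 76) (nat_lit 26400110561) (nat_lit 88) (nat_lit 5) (nat_lit 93) (nat_lit 5) (nat_lit 89) (nat_lit 5) (nat_lit 365) (nat_lit 322) (nat_lit 93)))) (XT.nd (nat_lit 78) (nat_lit 304) (nat_lit 0) (XT.lf (nat_lit 0) (nat_lit 8282779127) (nat_lit 380) (nat_lit 9721441004) (nat_lit 456) (nat_lit 36464437583) (nat_lit 83) (nat_lit 5) (nat_lit 88) (nat_lit 5) (nat_lit 89)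 (nat_lit 5) (nat_lit 366) (nat_lit 322) (nat_lit 92)) (XT.nd (nat_lit 78) (nat_lit 304) (nat_lit 0) (XT.lf (nat_lit 0) (nat_lit 25626473876) (nat_lit 456) (nat_lit 21803274933) (nat_lit 76) (nat_lit 8107191452) (nat_lit 83) (nat_lit 5) (nat_lit 89) (nat_lit 5) (nat_lit 84) (nat_lit 5) (nat_lit 367) (nat_lit 322) (nat_lit 91)) (XT.lf (nat_lit 0) (nat_lit 3276912282) (nat_lit 304) (nat_lit 30327022335) (nat_lit 380) (nat_lit 23029542045) (nat_lit 79) (nat_lit 5) (nat_lit 83) (nat_lit 5) (nat_lit 84) (nat_lit 5) (nat_lit 368) (nat_lit 322) (nat_lit 90))))) (XT.nd (nat_lit 234) (nat_lit 304) (nat_lit 0) (XT.nd (nat_lit 78) (nat_lit 380) (nat_lit 0) (XT.lf (nat_lit 0) (nat_lit 29554879413) (nat_lit 304) (nat_lit 12484818101) (nat_lit 380) (nat_lit 15716643806) (nat_lit 79) (nat_lit 5) (nat_lit 83) (nat_lit 5) (nat_lit 84) (nat_lit 5) (nat_lit 369) (nat_lit 322) (nat_lit 89)) (XT.nd (nat_lit 78) (nat_lit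 380) (nat_lit 0) (XT.lf (nat_lit 0) (nat_lit 50784016263) (nat_lit 380) (nat_lit 2349908477) (nat_lit 76) (nat_lit 5777304160) (nat_lit 79) (nat_lit 5) (nat_lit 84) (nat_lit 5) (nat_lit 80) (nat_lit 5) (nat_lit 370) (nat_lit 322) (nat_lit 88)) (XT.lf (nat_lit 0) (nat_lit 58778355) (nat_lit 380) (nat_lit 35457822663) (nat_lit 76) (nat_lit 24573368126) (nat_lit 74) (nat_lit 5) (nat_lit 79) (nat_lit 5) (nat_lit 75) (nat_lit 5) (nat_lit 371) (nat_lit 322) (nat_lit 87)))) (XT.nd (nat_lit 78) (nat_lit 304) (nat_lit 0) (XT.lf (nat_lit 0) (nat_lit 8349843650) (nat_lit 380) (nat_lit 8913749971) (nat_lit 76) (nat_lit 44037379994) (nat_lit 74) (nat_lit 5) (nat_lit 79) (nat_lit 5) (nat_lit 75) (nat_lit 5) (nat_lit 372) (nat_lit 322) (nat_lit 86)) (XT.nd (nat_lit 36738) (nat_lit 0) (nat_lit 7220) (XT.lf (nat_lit 0) (nat_lit 17085750919) (nat_lit 380) (nat_lit 43767617979) (nat_lit 76) (nat_lit 1689057328)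 (nat_lit 70) (nat_lit 5) (nat_lit 75) (nat_lit 5) (nat_lit 71) (nat_lit 5) (nat_lit 373) (nat_lit 322) (nat_lit 85)) (XT.lf (nat_lit 0) (nat_lit 349143916) (nat_lit 0) (nat_lit 349143916) (nat_lit 1140) (nat_lit 12535710639) (nat_lit 165) (nat_lit 5) (nat_lit 165) (nat_lit 3) (nat_lit 180) (nat_lit 3) (nat_lit 323) (nat_lit 323) (nat_lit 134)))))) (XT.nd (nat_lit 468) (nat_lit 0) (nat_lit 152) (XT.nd (nat_lit 234) (nat_lit 0) (nat_lit 76) (XT.nd (nat_lit 78) (nat_lit 0) (nat_lit 0) (XT.lf (nat_lit 0) (nat_lit 1612025774) (nat_lit 1140) (nat_lit 14394200833) (nat_lit 1216) (nat_lit 10852804093) (nat_lit 165) (nat_lit 5) (nat_lit 180) (nat_lit 3) (nat_lit 181) (nat_lit 5) (nat_lit 324) (nat_lit 323) (nat_lit 133)) (XT.nd (nat_lit 78) (nat_lit 0) (nat_lit 76) (XT.lf (nat_lit 0) (nat_lit 1837431301) (nat_lit 1140) (nat_lit 2686185799) (nat_lit 1216) (nat_lit 22738079511) (nat_lit 165) (nat_lit 5)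 (nat_lit 180) (nat_lit 3) (nat_lit 181) (nat_lit 5) (nat_lit 325) (nat_lit 323) (nat_lit 132)) (XT.lf (nat_lit 0) (nat_lit 2229281916) (nat_lit 1140) (nat_lit 18187135953) (nat_lit 1216) (nat_lit 7255239871) (nat_lit 166) (nat_lit 5) (nat_lit 181) (nat_lit 5) (nat_lit 182) (nat_lit 5) (nat_lit 326) (nat_lit 323) (nat_lit 131)))) (XT.nd (nat_lit 78) (nat_lit 0) (nat_lit 76) (XT.lf (nat_lit 0) (nat_lit 2701841786) (nat_lit 1140) (nat_lit 6064636441) (nat_lit 1216) (nat_lit 19325376423) (nat_lit 166) (nat_lit 5) (nat_lit 181) (nat_lit 5) (nat_lit 182) (nat_lit 5) (nat_lit 327) (nat_lit 323) (nat_lit 130)) (XT.nd (nat_lit 78) (nat_lit 0) (nat_lit 0) (XT.lf (nat_lit 0) (nat_lit 3280095239) (nat_lit 1140) (nat_lit 22007114201) (nat_lit 1216) (nat_lit 3234707924) (nat_lit 167) (nat_lit 5) (nat_lit 182) (nat_lit 5) (nat_lit 183) (nat_lit 5) (nat_lit 328) (nat_lit 323) (nat_lit 129)) (XT.lf (nat_lit 0)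 (nat_lit 4021291865) (nat_lit 1140) (nat_lit 9456429200) (nat_lit 1216) (nat_lit 15482798268) (nat_lit 167) (nat_lit 5) (nat_lit 182) (nat_lit 5) (nat_lit 183) (nat_lit 5) (nat_lit 329) (nat_lit 323) (nat_lit 128))))) (XT.nd (nat_lit 234) (nat_lit 0) (nat_lit 152) (XT.nd (nat_lit 78) (nat_lit 0) (nat_lit 76) (XT.lf (nat_lit 76) (nat_lit 3537944124) (nat_lit 0) (nat_lit 1277829413) (nat_lit 1216) (nat_lit 24595579438) (nat_lit 168) (nat_lit 5) (nat_lit 167) (nat_lit 5) (nat_lit 183) (nat_lit 5) (nat_lit 330) (nat_lit 323) (nat_lit 127)) (XT.nd (nat_lit 78) (nat_lit 0) (nat_lit 0) (XT.lf (nat_lit 0) (nat_lit 5836152900) (nat_lit 1140) (nat_lit 12868257492) (nat_lit 1216) (nat_lit 11165244277) (nat_lit 168) (nat_lit 5) (nat_lit 183) (nat_lit 5) (nat_lit 184) (nat_lit 5) (nat_lit 331) (nat_lit 323) (nat_lit 126)) (XT.lf (nat_lit 76) (nat_lit 522699689) (nat_lit 0) (nat_lit 6379322822) (nat_lit 1216)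 (nat_lit 23439241333) (nat_lit 169) (nat_lit 5) (nat_lit 168) (nat_lit 5) (nat_lit 184) (nat_lit 5) (nat_lit 332) (nat_lit 323) (nat_lit 125)))) (XT.nd (nat_lit 78) (nat_lit 0) (nat_lit 0) (XT.lf (nat_lit 0) (nat_lit 8189081808) (nat_lit 1140) (nat_lit 16307918917) (nat_lit 1216) (nat_lit 6324348820) (nat_lit 169) (nat_lit 5) (nat_lit 184) (nat_lit 5) (nat_lit 185) (nat_lit 5) (nat_lit 333) (nat_lit 323) (nat_lit 124)) (XT.nd (nat_lit 78) (nat_lit 0) (nat_lit 76) (XT.lf (nat_lit 0) (nat_lit 9575268120) (nat_lit 1140) (nat_lit 2457031471) (nat_lit 1216) (nat_lit 19281727288) (nat_lit 169) (nat_lit 5) (nat_lit 184) (nat_lit 5) (nat_lit 185) (nat_lit 5) (nat_lit 334) (nat_lit 323) (nat_lit 123)) (XT.lf (nat_lit 0) (nat_lit 11125134772) (nat_lit 1140) (nat_lit 19784481509) (nat_lit 1216) (nat_lit 908209799) (nat_lit 170) (nat_lit 5) (nat_lit 185) (nat_lit 5) (nat_lit 186) (nat_lit 5) (nat_lit 335)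 (nat_lit 323) (nat_lit 122))))))))
noncomputable def xc238 : XT := (XT.nd (nat_lit 1794) (nat_lit 2204) (nat_lit 0) (XT.nd (nat_lit 858) (nat_lit 2888) (nat_lit 0) (XT.nd (nat_lit 390) (nat_lit 2204) (nat_lit 0) (XT.nd (nat_lit 156) (nat_lit 0) (nat_lit 76) (XT.nd (nat_lit 78) (nat_lit 0) (nat_lit 0) (XT.lf (nat_lit 0) (nat_lit 12863180242) (nat_lit 1140) (nat_lit 5448501211) (nat_lit 1216) (nat_lit 14020811582) (nat_lit 170) (nat_lit 5) (nat_lit 185) (nat_lit 5) (nat_lit 186) (nat_lit 5) (nat_lit 336) (nat_lit 323) (nat_lit 121)) (XT.lf (nat_lit 76) (nat_lit 9501087492) (nat_lit 0) (nat_lit 5241177114) (nat_lit 1216) (nat_lit 18117672604) (nat_lit 171) (nat_lit 5) (nat_lit 170) (nat_lit 5) (nat_lit 186) (nat_lit 5) (nat_lit 337) (nat_lit 323) (nat_lit 120))) (XT.nd (nat_lit 78) (nat_lit 0) (nat_lit 0) (XT.lf (nat_lit 0) (nat_lit 16809940330) (nat_lit 1140) (nat_lit 8472209187) (nat_lit 1216)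 (nat_lit 8117092646) (nat_lit 171) (nat_lit 5) (nat_lit 186) (nat_lit 5) (nat_lit 187) (nat_lit 5) (nat_lit 338) (nat_lit 323) (nat_lit 119)) (XT.nd (nat_lit 78) (nat_lit 0) (nat_lit 76) (XT.lf (nat_lit 76) (nat_lit 6942738300) (nat_lit 0) (nat_lit 12113233249) (nat_lit 1216) (nat_lit 14895268858) (nat_lit 172) (nat_lit 5) (nat_lit 171) (nat_lit 5) (nat_lit 187) (nat_lit 5) (nat_lit 339) (nat_lit 323) (nat_lit 118)) (XT.lf (nat_lit 0) (nat_lit 21467476600) (nat_lit 1140) (nat_lit 11540152515) (nat_lit 76) (nat_lit 1509230484) (nat_lit 172) (nat_lit 5) (nat_lit 187) (nat_lit 5) (nat_lit 173) (nat_lit 5) (nat_lit 340) (nat_lit 323) (nat_lit 117))))) (XT.nd (nat_lit 234) (nat_lit 684) (nat_lit 0) (XT.nd (nat_lit 78) (nat_lit 532) (nat_lit 0) (XT.lf (nat_lit 0) (nat_lit 4355426827) (nat_lit 1140) (nat_lit 19755513241) (nat_lit 1216) (nat_lit 10983722575) (nat_lit 157) (nat_lit 5) (nat_lit 172) (nat_lit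 5) (nat_lit 173) (nat_lit 5) (nat_lit 341) (nat_lit 323) (nat_lit 116)) (XT.nd (nat_lit 78) (nat_lit 532) (nat_lit 0) (XT.lf (nat_lit 0) (nat_lit 20962575973) (nat_lit 1140) (nat_lit 5985523438) (nat_lit 1216) (nat_lit 8738272178) (nat_lit 157) (nat_lit 5) (nat_lit 172) (nat_lit 5) (nat_lit 173) (nat_lit 5) (nat_lit 342) (nat_lit 323) (nat_lit 115)) (XT.lf (nat_lit 0) (nat_lit 1725096939) (nat_lit 532) (nat_lit 28238583344) (nat_lit 608) (nat_lit 6329355784) (nat_lit 150) (nat_lit 5) (nat_lit 157) (nat_lit 5) (nat_lit 158) (nat_lit 5) (nat_lit 343) (nat_lit 323) (nat_lit 114)))) (XT.nd (nat_lit 78) (nat_lit 684) (nat_lit 0) (XT.lf (nat_lit 0) (nat_lit 18906982283) (nat_lit 532) (nat_lit 14368076037) (nat_lit 608) (nat_lit 3636685630) (nat_lit 150) (nat_lit 5) (nat_lit 157) (nat_lit 5) (nat_lit 158) (nat_lit 5) (nat_lit 344) (nat_lit 323) (nat_lit 113)) (XT.nd (nat_lit 78) (nat_lit 684) (nat_lit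 0) (XT.lf (nat_lit 0) (nat_lit 36602522912) (nat_lit 532) (nat_lit 81280683) (nat_lit 608) (nat_lit 865271964) (nat_lit 150) (nat_lit 5) (nat_lit 157) (nat_lit 5) (nat_lit 158) (nat_lit 5) (nat_lit 345) (nat_lit 323) (nat_lit 112)) (XT.lf (nat_lit 0) (nat_lit 2253771262) (nat_lit 684) (nat_lit 21409693983) (nat_lit 76) (nat_lit 14532392128) (nat_lit 141) (nat_lit 5) (nat_lit 150) (nat_lit 5) (nat_lit 142) (nat_lit 5) (nat_lit 346) (nat_lit 323) (nat_lit 111)))))) (XT.nd (nat_lit 468) (nat_lit 1368) (nat_lit 0) (XT.nd (nat_lit 234) (nat_lit 988) (nat_lit 0) (XT.nd (nat_lit 78) (nat_lit 532) (nat_lit 0) (XT.lf (nat_lit 0) (nat_lit 5457554345) (nat_lit 684) (nat_lit 3802792126) (nat_lit 76) (nat_lit 29601185356) (nat_lit 141) (nat_lit 5) (nat_lit 150) (nat_lit 5) (nat_lit 142) (nat_lit 5) (nat_lit 347) (nat_lit 323) (nat_lit 110)) (XT.nd (nat_lit 78) (nat_lit 0) (nat_lit 0) (XT.lf (nat_lit 0) (nat_lit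 8951084264) (nat_lit 608) (nat_lit 24982258625) (nat_lit 76) (nat_lit 5608027526) (nat_lit 134) (nat_lit 5) (nat_lit 142) (nat_lit 5) (nat_lit 135) (nat_lit 5) (nat_lit 348) (nat_lit 323) (nat_lit 109)) (XT.lf (nat_lit 0) (nat_lit 12678081995) (nat_lit 608) (nat_lit 6784513243) (nat_lit 76) (nat_lit 20775151885) (nat_lit 134) (nat_lit 5) (nat_lit 142) (nat_lit 5) (nat_lit 135) (nat_lit 5) (nat_lit 349) (nat_lit 323) (nat_lit 108)))) (XT.nd (nat_lit 78) (nat_lit 456) (nat_lit 0) (XT.lf (nat_lit 0) (nat_lit 12195372538) (nat_lit 532) (nat_lit 4436993457) (nat_lit 608) (nat_lit 24319187581) (nat_lit 127) (nat_lit 5) (nat_lit 134) (nat_lit 5) (nat_lit 135) (nat_lit 5) (nat_lit 350) (nat_lit 323) (nat_lit 107)) (XT.nd (nat_lit 78) (nat_lit 456) (nat_lit 0) (XT.lf (nat_lit 0) (nat_lit 20878865245) (nat_lit 608) (nat_lit 9909587905) (nat_lit 76) (nat_lit 10893116127) (nat_lit 127) (nat_lit 5) (nat_lit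 135) (nat_lit 5) (nat_lit 128) (nat_lit 5) (nat_lit 351) (nat_lit 323) (nat_lit 106)) (XT.lf (nat_lit 0) (nat_lit 9644928035) (nat_lit 456) (nat_lit 15742805973) (nat_lit 532) (nat_lit 17041704783) (nat_lit 121) (nat_lit 5) (nat_lit 127) (nat_lit 5) (nat_lit 128) (nat_lit 5) (nat_lit 352) (nat_lit 323) (nat_lit 105))))) (XT.nd (nat_lit 234) (nat_lit 912) (nat_lit 0) (XT.nd (nat_lit 78) (nat_lit 456) (nat_lit 0) (XT.lf (nat_lit 0) (nat_lit 29987481819) (nat_lit 456) (nat_lit 142817324) (nat_lit 532) (nat_lit 13066494843) (nat_lit 121) (nat_lit 5) (nat_lit 127) (nat_lit 5) (nat_lit 128) (nat_lit 5) (nat_lit 353) (nat_lit 323) (nat_lit 104)) (XT.nd (nat_lit 78) (nat_lit 0) (nat_lit 0) (XT.lf (nat_lit 0) (nat_lit 6933626770) (nat_lit 456) (nat_lit 28299656883) (nat_lit 532) (nat_lit 8747344340) (nat_lit 115) (nat_lit 5) (nat_lit 121) (nat_lit 5) (nat_lit 122) (nat_lit 5) (nat_lit 354) (nat_lit 323)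 (nat_lit 103)) (XT.lf (nat_lit 0) (nat_lit 27948473484) (nat_lit 456) (nat_lit 12674112033) (nat_lit 532) (nat_lit 4161397027) (nat_lit 115) (nat_lit 5) (nat_lit 121) (nat_lit 5) (nat_lit 122) (nat_lit 5) (nat_lit 355) (nat_lit 323) (nat_lit 102)))) (XT.nd (nat_lit 78) (nat_lit 456) (nat_lit 0) (XT.lf (nat_lit 0) (nat_lit 621914863) (nat_lit 456) (nat_lit 41589129231) (nat_lit 76) (nat_lit 3398111098) (nat_lit 109) (nat_lit 5) (nat_lit 115) (nat_lit 5) (nat_lit 110) (nat_lit 5) (nat_lit 356) (nat_lit 323) (nat_lit 101)) (XT.nd (nat_lit 78) (nat_lit 456) (nat_lit 0) (XT.lf (nat_lit 0) (nat_lit 5760755711) (nat_lit 456) (nat_lit 20777743620) (nat_lit 76) (nat_lit 19910479702) (nat_lit 109) (nat_lit 5) (nat_lit 115) (nat_lit 5) (nat_lit 110) (nat_lit 5) (nat_lit 357) (nat_lit 323) (nat_lit 100)) (XT.lf (nat_lit 0) (nat_lit 669367856) (nat_lit 456) (nat_lit 10389366598) (nat_lit 532) (nat_lit 36255116052)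 (nat_lit 103) (nat_lit 5) (nat_lit 109) (nat_lit 5) (nat_lit 110) (nat_lit 5) (nat_lit 358) (nat_lit 323) (nat_lit 99))))))) (XT.nd (nat_lit 936) (nat_lit 380) (nat_lit 0) (XT.nd (nat_lit 468) (nat_lit 1064) (nat_lit 0) (XT.nd (nat_lit 234) (nat_lit 380) (nat_lit 0) (XT.nd (nat_lit 78) (nat_lit 380) (nat_lit 0) (XT.lf (nat_lit 0) (nat_lit 16786130590) (nat_lit 532) (nat_lit 25076362414) (nat_lit 76) (nat_lit 6334062813) (nat_lit 103) (nat_lit 5) (nat_lit 110) (nat_lit 5) (nat_lit 104) (nat_lit 5) (nat_lit 359) (nat_lit 323) (nat_lit 98)) (XT.nd (nat_lit 78) (nat_lit 380) (nat_lit 0) (XT.lf (nat_lit 0) (nat_lit 22786818221) (nat_lit 532) (nat_lit 2965717907) (nat_lit 76) (nat_lit 23350164048) (nat_lit 103) (nat_lit 5) (nat_lit 110) (nat_lit 5) (nat_lit 104) (nat_lit 5) (nat_lit 360) (nat_lit 323) (nat_lit 97)) (XT.lf (nat_lit 0) (nat_lit 20200830768) (nat_lit 380) (nat_lit 8959523693) (nat_lit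 456) (nat_lit 20869891483) (nat_lit 98) (nat_lit 5) (nat_lit 103) (nat_lit 5) (nat_lit 104) (nat_lit 5) (nat_lit 361) (nat_lit 323) (nat_lit 96)))) (XT.nd (nat_lit 78) (nat_lit 380) (nat_lit 0) (XT.lf (nat_lit 0) (nat_lit 35834151178) (nat_lit 456) (nat_lit 6943618649) (nat_lit 76) (nat_lit 8204578490) (nat_lit 98) (nat_lit 5) (nat_lit 104) (nat_lit 5) (nat_lit 99) (nat_lit 5) (nat_lit 362) (nat_lit 323) (nat_lit 95)) (XT.nd (nat_lit 78) (nat_lit 0) (nat_lit 0) (XT.lf (nat_lit 0) (nat_lit 16867609223) (nat_lit 380) (nat_lit 26090108247) (nat_lit 456) (nat_lit 8997811429) (nat_lit 93) (nat_lit 5) (nat_lit 98) (nat_lit 5) (nat_lit 99) (nat_lit 5) (nat_lit 363) (nat_lit 323) (nat_lit 94)) (XT.lf (nat_lit 0) (nat_lit 41533944612) (nat_lit 380) (nat_lit 8829891448) (nat_lit 456) (nat_lit 2592005235) (nat_lit 93) (nat_lit 5) (nat_lit 98) (nat_lit 5) (nat_lit 99) (nat_lit 5) (nat_lit 364) (nat_lit 323)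 (nat_lit 93))))) (XT.nd (nat_lit 234) (nat_lit 304) (nat_lit 0) (XT.nd (nat_lit 78) (nat_lit 380) (nat_lit 0) (XT.lf (nat_lit 0) (nat_lit 4140810865) (nat_lit 380) (nat_lit 40897829043) (nat_lit 76) (nat_lit 8939979370) (nat_lit 88) (nat_lit 5) (nat_lit 93) (nat_lit 5) (nat_lit 89) (nat_lit 5) (nat_lit 365) (nat_lit 323) (nat_lit 92)) (XT.nd (nat_lit 78) (nat_lit 380) (nat_lit 0) (XT.lf (nat_lit 0) (nat_lit 11226190321) (nat_lit 380) (nat_lit 16591722913) (nat_lit 76) (nat_lit 27207318803) (nat_lit 88) (nat_lit 5) (nat_lit 93) (nat_lit 5) (nat_lit 89) (nat_lit 5) (nat_lit 366) (nat_lit 323) (nat_lit 91)) (XT.lf (nat_lit 0) (nat_lit 8610057429) (nat_lit 380) (nat_lit 9995644905) (nat_lit 456) (nat_lit 37495095270) (nat_lit 83) (nat_lit 5) (nat_lit 88) (nat_lit 5) (nat_lit 89) (nat_lit 5) (nat_lit 367) (nat_lit 323) (nat_lit 90)))) (XT.nd (nat_lit 78) (nat_lit 304) (nat_lit 0) (XT.lf (nat_lit 0)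 (nat_lit 26454999391) (nat_lit 456) (nat_lit 22379172081) (nat_lit 76) (nat_lit 8367008191) (nat_lit 83) (nat_lit 5) (nat_lit 89) (nat_lit 5) (nat_lit 84) (nat_lit 5) (nat_lit 368) (nat_lit 323) (nat_lit 89)) (XT.nd (nat_lit 78) (nat_lit 0) (nat_lit 0) (XT.lf (nat_lit 0) (nat_lit 3452654072) (nat_lit 304) (nat_lit 31218134482) (nat_lit 380) (nat_lit 23659855703) (nat_lit 79) (nat_lit 5) (nat_lit 83) (nat_lit 5) (nat_lit 84) (nat_lit 5) (nat_lit 369) (nat_lit 323) (nat_lit 88)) (XT.lf (nat_lit 0) (nat_lit 30516704845) (nat_lit 304) (nat_lit 12841208739) (nat_lit 380) (nat_lit 16129334767) (nat_lit 79) (nat_lit 5) (nat_lit 83) (nat_lit 5) (nat_lit 84) (nat_lit 5) (nat_lit 370) (nat_lit 323) (nat_lit 87)))))) (XT.nd (nat_lit 37206) (nat_lit 0) (nat_lit 6992) (XT.nd (nat_lit 36972) (nat_lit 0) (nat_lit 6916) (XT.nd (nat_lit 78) (nat_lit 380) (nat_lit 0) (XT.lf (nat_lit 0) (nat_lit 52363070392) (nat_lit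 380) (nat_lit 2345854515) (nat_lit 76) (nat_lit 5967904506) (nat_lit 79) (nat_lit 5) (nat_lit 84) (nat_lit 5) (nat_lit 80) (nat_lit 5) (nat_lit 371) (nat_lit 323) (nat_lit 86)) (XT.nd (nat_lit 78) (nat_lit 0) (nat_lit 0) (XT.lf (nat_lit 0) (nat_lit 115775281) (nat_lit 380) (nat_lit 36446571460) (nat_lit 76) (nat_lit 25328598166) (nat_lit 74) (nat_lit 5) (nat_lit 79) (nat_lit 5) (nat_lit 75) (nat_lit 5) (nat_lit 372) (nat_lit 323) (nat_lit 85)) (XT.lf (nat_lit 0) (nat_lit 8653963789) (nat_lit 380) (nat_lit 9108360641) (nat_lit 76) (nat_lit 45376005274) (nat_lit 74) (nat_lit 5) (nat_lit 79) (nat_lit 5) (nat_lit 75) (nat_lit 5) (nat_lit 373) (nat_lit 323) (nat_lit 84)))) (XT.nd (nat_lit 78) (nat_lit 0) (nat_lit 0) (XT.lf (nat_lit 0) (nat_lit 403245508) (nat_lit 0) (nat_lit 403245508) (nat_lit 1140) (nat_lit 12821760072) (nat_lit 165) (nat_lit 5) (nat_lit 165) (nat_lit 3) (nat_lit 180) (nat_lit 3)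 (nat_lit 324) (nat_lit 324) (nat_lit 132)) (XT.nd (nat_lit 78) (nat_lit 0) (nat_lit 0) (XT.lf (nat_lit 0) (nat_lit 1828998543) (nat_lit 1140) (nat_lit 14735125920) (nat_lit 1216) (nat_lit 11095328119) (nat_lit 165) (nat_lit 5) (nat_lit 180) (nat_lit 3) (nat_lit 181) (nat_lit 5) (nat_lit 325) (nat_lit 324) (nat_lit 131)) (XT.lf (nat_lit 0) (nat_lit 2056255207) (nat_lit 1140) (nat_lit 2678518036) (nat_lit 1216) (nat_lit 23339581026) (nat_lit 165) (nat_lit 5) (nat_lit 180) (nat_lit 3) (nat_lit 181) (nat_lit 5) (nat_lit 326) (nat_lit 324) (nat_lit 130))))) (XT.nd (nat_lit 234) (nat_lit 0) (nat_lit 76) (XT.nd (nat_lit 78) (nat_lit 0) (nat_lit 0) (XT.lf (nat_lit 0) (nat_lit 2455237570) (nat_lit 1140) (nat_lit 18639598933) (nat_lit 1216) (nat_lit 7401924660) (nat_lit 166) (nat_lit 5) (nat_lit 181) (nat_lit 5) (nat_lit 182) (nat_lit 5) (nat_lit 327) (nat_lit 324) (nat_lit 129)) (XT.nd (nat_lit 78) (nat_lit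 0) (nat_lit 76) (XT.lf (nat_lit 0) (nat_lit 2937340921) (nat_lit 1140) (nat_lit 6156137574) (nat_lit 1216) (nat_lit 19836232467) (nat_lit 166) (nat_lit 5) (nat_lit 181) (nat_lit 5) (nat_lit 182) (nat_lit 5) (nat_lit 328) (nat_lit 324) (nat_lit 128)) (XT.lf (nat_lit 0) (nat_lit 3528715613) (nat_lit 1140) (nat_lit 22572405038) (nat_lit 1216) (nat_lit 3271689444) (nat_lit 167) (nat_lit 5) (nat_lit 182) (nat_lit 5) (nat_lit 183) (nat_lit 5) (nat_lit 329) (nat_lit 324) (nat_lit 127)))) (XT.nd (nat_lit 78) (nat_lit 0) (nat_lit 0) (XT.lf (nat_lit 0) (nat_lit 4287772870) (nat_lit 1140) (nat_lit 9647964223) (nat_lit 1216) (nat_lit 15888971810) (nat_lit 167) (nat_lit 5) (nat_lit 182) (nat_lit 5) (nat_lit 183) (nat_lit 5) (nat_lit 330) (nat_lit 324) (nat_lit 126)) (XT.nd (nat_lit 78) (nat_lit 0) (nat_lit 76) (XT.lf (nat_lit 76) (nat_lit 3735336792) (nat_lit 0) (nat_lit 1367381560) (nat_lit 1216) (nat_lit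 25186457624) (nat_lit 168) (nat_lit 5) (nat_lit 167) (nat_lit 5) (nat_lit 183) (nat_lit 5) (nat_lit 331) (nat_lit 324) (nat_lit 125)) (XT.lf (nat_lit 0) (nat_lit 6149081446) (nat_lit 1140) (nat_lit 13160844767) (nat_lit 1216) (nat_lit 11451446429) (nat_lit 168) (nat_lit 5) (nat_lit 183) (nat_lit 5) (nat_lit 184) (nat_lit 5) (nat_lit 332) (nat_lit 324) (nat_lit 124))))))))
noncomputable def xc239 : XT := (XT.nd (nat_lit 1872) (nat_lit 2736) (nat_lit 0) (XT.nd (nat_lit 936) (nat_lit 2660) (nat_lit 0) (XT.nd (nat_lit 468) (nat_lit 1368) (nat_lit 0) (XT.nd (nat_lit 234) (nat_lit 0) (nat_lit 152) (XT.nd (nat_lit 78) (nat_lit 0) (nat_lit 76) (XT.lf (nat_lit 76) (nat_lit 630924851) (nat_lit 0) (nat_lit 6612877013) (nat_lit 1216) (nat_lit 24003428871) (nat_lit 169) (nat_lit 5) (nat_lit 168) (nat_lit 5) (nat_lit 184) (nat_lit 5) (nat_lit 333) (nat_lit 324) (nat_lit 123)) (XT.nd (nat_lit 78) (nat_lit 0)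 (nat_lit 0) (XT.lf (nat_lit 0) (nat_lit 8565155495) (nat_lit 1140) (nat_lit 16702767550) (nat_lit 1216) (nat_lit 6473932168) (nat_lit 169) (nat_lit 5) (nat_lit 184) (nat_lit 5) (nat_lit 185) (nat_lit 5) (nat_lit 334) (nat_lit 324) (nat_lit 122)) (XT.lf (nat_lit 0) (nat_lit 9989129303) (nat_lit 1140) (nat_lit 2439102672) (nat_lit 1216) (nat_lit 19821201324) (nat_lit 169) (nat_lit 5) (nat_lit 184) (nat_lit 5) (nat_lit 185) (nat_lit 5) (nat_lit 335) (nat_lit 324) (nat_lit 121)))) (XT.nd (nat_lit 78) (nat_lit 0) (nat_lit 0) (XT.lf (nat_lit 0) (nat_lit 11582359082) (nat_lit 1140) (nat_lit 20283033347) (nat_lit 1216) (nat_lit 903054335) (nat_lit 170) (nat_lit 5) (nat_lit 185) (nat_lit 5) (nat_lit 186) (nat_lit 5) (nat_lit 336) (nat_lit 324) (nat_lit 120)) (XT.nd (nat_lit 78) (nat_lit 0) (nat_lit 0) (XT.lf (nat_lit 0) (nat_lit 13368949694) (nat_lit 1140) (nat_lit 5519740122) (nat_lit 1216) (nat_lit 14409977912)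 (nat_lit 170) (nat_lit 5) (nat_lit 185) (nat_lit 5) (nat_lit 186) (nat_lit 5) (nat_lit 337) (nat_lit 324) (nat_lit 119)) (XT.lf (nat_lit 76) (nat_lit 9877432162) (nat_lit 0) (nat_lit 5424360698) (nat_lit 1216) (nat_lit 18540226720) (nat_lit 171) (nat_lit 5) (nat_lit 170) (nat_lit 5) (nat_lit 186) (nat_lit 5) (nat_lit 338) (nat_lit 324) (nat_lit 118))))) (XT.nd (nat_lit 234) (nat_lit 1596) (nat_lit 0) (XT.nd (nat_lit 78) (nat_lit 0) (nat_lit 0) (XT.lf (nat_lit 0) (nat_lit 17427841340) (nat_lit 1140) (nat_lit 8633873305) (nat_lit 1216) (nat_lit 8335904526) (nat_lit 171) (nat_lit 5) (nat_lit 186) (nat_lit 5) (nat_lit 187) (nat_lit 5) (nat_lit 339) (nat_lit 324) (nat_lit 117)) (XT.nd (nat_lit 78) (nat_lit 0) (nat_lit 76) (XT.lf (nat_lit 76) (nat_lit 7242615723) (nat_lit 0) (nat_lit 12496209423) (nat_lit 1216) (nat_lit 15227430664) (nat_lit 172) (nat_lit 5) (nat_lit 171) (nat_lit 5) (nat_lit 187) (nat_lit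 5) (nat_lit 340) (nat_lit 324) (nat_lit 116)) (XT.lf (nat_lit 0) (nat_lit 22219254532) (nat_lit 1140) (nat_lit 11793827682) (nat_lit 76) (nat_lit 1535869421) (nat_lit 172) (nat_lit 5) (nat_lit 187) (nat_lit 5) (nat_lit 173) (nat_lit 5) (nat_lit 341) (nat_lit 324) (nat_lit 115)))) (XT.nd (nat_lit 78) (nat_lit 532) (nat_lit 0) (XT.lf (nat_lit 0) (nat_lit 4577711889) (nat_lit 1140) (nat_lit 20362052290) (nat_lit 1216) (nat_lit 11204397601) (nat_lit 157) (nat_lit 5) (nat_lit 172) (nat_lit 5) (nat_lit 173) (nat_lit 5) (nat_lit 342) (nat_lit 324) (nat_lit 114)) (XT.nd (nat_lit 78) (nat_lit 532) (nat_lit 0) (XT.lf (nat_lit 0) (nat_lit 21680406900) (nat_lit 1140) (nat_lit 6178558706) (nat_lit 1216) (nat_lit 8894753692) (nat_lit 157) (nat_lit 5) (nat_lit 172) (nat_lit 5) (nat_lit 173) (nat_lit 5) (nat_lit 343) (nat_lit 324) (nat_lit 113)) (XT.lf (nat_lit 0) (nat_lit 1868271249) (nat_lit 532) (nat_lit 29094512546)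 (nat_lit 608) (nat_lit 6415871791) (nat_lit 150) (nat_lit 5) (nat_lit 157) (nat_lit 5) (nat_lit 158) (nat_lit 5) (nat_lit 344) (nat_lit 324) (nat_lit 112)))))) (XT.nd (nat_lit 468) (nat_lit 1444) (nat_lit 0) (XT.nd (nat_lit 234) (nat_lit 532) (nat_lit 0) (XT.nd (nat_lit 78) (nat_lit 684) (nat_lit 0) (XT.lf (nat_lit 0) (nat_lit 19562950395) (nat_lit 532) (nat_lit 14807634534) (nat_lit 608) (nat_lit 3645432153) (nat_lit 150) (nat_lit 5) (nat_lit 157) (nat_lit 5) (nat_lit 158) (nat_lit 5) (nat_lit 345) (nat_lit 324) (nat_lit 111)) (XT.nd (nat_lit 78) (nat_lit 684) (nat_lit 0) (XT.lf (nat_lit 0) (nat_lit 37786772039) (nat_lit 532) (nat_lit 91987273) (nat_lit 608) (nat_lit 793799012) (nat_lit 150) (nat_lit 5) (nat_lit 157) (nat_lit 5) (nat_lit 158) (nat_lit 5) (nat_lit 346) (nat_lit 324) (nat_lit 110)) (XT.lf (nat_lit 0) (nat_lit 2414911781) (nat_lit 684) (nat_lit 21961608645) (nat_lit 76) (nat_lit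 14962259562) (nat_lit 141) (nat_lit 5) (nat_lit 150) (nat_lit 5) (nat_lit 142) (nat_lit 5) (nat_lit 347) (nat_lit 324) (nat_lit 109)))) (XT.nd (nat_lit 78) (nat_lit 532) (nat_lit 0) (XT.lf (nat_lit 0) (nat_lit 5712084258) (nat_lit 684) (nat_lit 3829132047) (nat_lit 76) (nat_lit 30483294383) (nat_lit 141) (nat_lit 5) (nat_lit 150) (nat_lit 5) (nat_lit 142) (nat_lit 5) (nat_lit 348) (nat_lit 324) (nat_lit 108)) (XT.nd (nat_lit 78) (nat_lit 0) (nat_lit 0) (XT.lf (nat_lit 0) (nat_lit 9308590214) (nat_lit 608) (nat_lit 25642013851) (nat_lit 76) (nat_lit 5774199431) (nat_lit 134) (nat_lit 5) (nat_lit 142) (nat_lit 5) (nat_lit 135) (nat_lit 5) (nat_lit 349) (nat_lit 324) (nat_lit 107)) (XT.lf (nat_lit 0) (nat_lit 13144806417) (nat_lit 608) (nat_lit 6900949094) (nat_lit 76) (nat_lit 21396397780) (nat_lit 134) (nat_lit 5) (nat_lit 142) (nat_lit 5) (nat_lit 135) (nat_lit 5) (nat_lit 350) (nat_lit 324) (nat_lit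 106))))) (XT.nd (nat_lit 234) (nat_lit 456) (nat_lit 0) (XT.nd (nat_lit 78) (nat_lit 456) (nat_lit 0) (XT.lf (nat_lit 0) (nat_lit 12647479343) (nat_lit 532) (nat_lit 4568552661) (nat_lit 608) (nat_lit 24961396468) (nat_lit 127) (nat_lit 5) (nat_lit 134) (nat_lit 5) (nat_lit 135) (nat_lit 5) (nat_lit 351) (nat_lit 324) (nat_lit 105)) (XT.nd (nat_lit 78) (nat_lit 456) (nat_lit 0) (XT.lf (nat_lit 0) (nat_lit 21587473857) (nat_lit 608) (nat_lit 10120562498) (nat_lit 76) (nat_lit 11221385672) (nat_lit 127) (nat_lit 5) (nat_lit 135) (nat_lit 5) (nat_lit 128) (nat_lit 5) (nat_lit 352) (nat_lit 324) (nat_lit 104)) (XT.lf (nat_lit 0) (nat_lit 10019742713) (nat_lit 456) (nat_lit 16210292112) (nat_lit 532) (nat_lit 17469743717) (nat_lit 121) (nat_lit 5) (nat_lit 127) (nat_lit 5) (nat_lit 128) (nat_lit 5) (nat_lit 353) (nat_lit 324) (nat_lit 103)))) (XT.nd (nat_lit 78) (nat_lit 456) (nat_lit 0) (XT.lf (nat_lit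 0) (nat_lit 30970083786) (nat_lit 456) (nat_lit 142443551) (nat_lit 532) (nat_lit 13377701135) (nat_lit 121) (nat_lit 5) (nat_lit 127) (nat_lit 5) (nat_lit 128) (nat_lit 5) (nat_lit 354) (nat_lit 324) (nat_lit 102)) (XT.nd (nat_lit 78) (nat_lit 0) (nat_lit 0) (XT.lf (nat_lit 0) (nat_lit 7226200364) (nat_lit 456) (nat_lit 29140976239) (nat_lit 532) (nat_lit 8930447128) (nat_lit 115) (nat_lit 5) (nat_lit 121) (nat_lit 5) (nat_lit 122) (nat_lit 5) (nat_lit 355) (nat_lit 324) (nat_lit 101)) (XT.lf (nat_lit 0) (nat_lit 28869029427) (nat_lit 456) (nat_lit 13046888452) (nat_lit 532) (nat_lit 4209231616) (nat_lit 115) (nat_lit 5) (nat_lit 121) (nat_lit 5) (nat_lit 122) (nat_lit 5) (nat_lit 356) (nat_lit 324) (nat_lit 100))))))) (XT.nd (nat_lit 936) (nat_lit 304) (nat_lit 0) (XT.nd (nat_lit 468) (nat_lit 1140) (nat_lit 0) (XT.nd (nat_lit 234) (nat_lit 380) (nat_lit 0) (XT.nd (nat_lit 78) (nat_lit 456)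 (nat_lit 0) (XT.lf (nat_lit 0) (nat_lit 714759103) (nat_lit 456) (nat_lit 42751664845) (nat_lit 76) (nat_lit 3508673895) (nat_lit 109) (nat_lit 5) (nat_lit 115) (nat_lit 5) (nat_lit 110) (nat_lit 5) (nat_lit 357) (nat_lit 324) (nat_lit 99)) (XT.nd (nat_lit 78) (nat_lit 456) (nat_lit 0) (XT.lf (nat_lit 0) (nat_lit 6005604395) (nat_lit 456) (nat_lit 21318417422) (nat_lit 76) (nat_lit 20516162505) (nat_lit 109) (nat_lit 5) (nat_lit 115) (nat_lit 5) (nat_lit 110) (nat_lit 5) (nat_lit 358) (nat_lit 324) (nat_lit 98)) (XT.lf (nat_lit 0) (nat_lit 771297021) (nat_lit 456) (nat_lit 10689914409) (nat_lit 532) (nat_lit 37269832849) (nat_lit 103) (nat_lit 5) (nat_lit 109) (nat_lit 5) (nat_lit 110) (nat_lit 5) (nat_lit 359) (nat_lit 324) (nat_lit 97)))) (XT.nd (nat_lit 78) (nat_lit 380) (nat_lit 0) (XT.lf (nat_lit 0) (nat_lit 17358473694) (nat_lit 532) (nat_lit 25747135954) (nat_lit 76) (nat_lit 6534682696)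 (nat_lit 103) (nat_lit 5) (nat_lit 110) (nat_lit 5) (nat_lit 104) (nat_lit 5) (nat_lit 360) (nat_lit 324) (nat_lit 96)) (XT.nd (nat_lit 78) (nat_lit 380) (nat_lit 0) (XT.lf (nat_lit 0) (nat_lit 23537179259) (nat_lit 532) (nat_lit 2975546402) (nat_lit 76) (nat_lit 24060958289) (nat_lit 103) (nat_lit 5) (nat_lit 110) (nat_lit 5) (nat_lit 104) (nat_lit 5) (nat_lit 361) (nat_lit 324) (nat_lit 95)) (XT.lf (nat_lit 0) (nat_lit 20885222820) (nat_lit 380) (nat_lit 9215507715) (nat_lit 456) (nat_lit 21428364042) (nat_lit 98) (nat_lit 5) (nat_lit 103) (nat_lit 5) (nat_lit 104) (nat_lit 5) (nat_lit 362) (nat_lit 324) (nat_lit 94))))) (XT.nd (nat_lit 234) (nat_lit 760) (nat_lit 0) (XT.nd (nat_lit 78) (nat_lit 380) (nat_lit 0) (XT.lf (nat_lit 0) (nat_lit 36972950954) (nat_lit 456) (nat_lit 7073963308) (nat_lit 76) (nat_lit 8462902138) (nat_lit 98) (nat_lit 5) (nat_lit 104) (nat_lit 5) (nat_lit 99) (nat_lit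 5) (nat_lit 363) (nat_lit 324) (nat_lit 93)) (XT.nd (nat_lit 78) (nat_lit 0) (nat_lit 0) (XT.lf (nat_lit 0) (nat_lit 17450837048) (nat_lit 380) (nat_lit 26858271744) (nat_lit 456) (nat_lit 9203119666) (nat_lit 93) (nat_lit 5) (nat_lit 98) (nat_lit 5) (nat_lit 99) (nat_lit 5) (nat_lit 364) (nat_lit 324) (nat_lit 92)) (XT.lf (nat_lit 0) (nat_lit 42854913968) (nat_lit 380) (nat_lit 9080671929) (nat_lit 456) (nat_lit 2607021599) (nat_lit 93) (nat_lit 5) (nat_lit 98) (nat_lit 5) (nat_lit 99) (nat_lit 5) (nat_lit 365) (nat_lit 324) (nat_lit 91)))) (XT.nd (nat_lit 78) (nat_lit 380) (nat_lit 0) (XT.lf (nat_lit 0) (nat_lit 4325633366) (nat_lit 380) (nat_lit 42047506558) (nat_lit 76) (nat_lit 9222940815) (nat_lit 88) (nat_lit 5) (nat_lit 93) (nat_lit 5) (nat_lit 89) (nat_lit 5) (nat_lit 366) (nat_lit 324) (nat_lit 90)) (XT.nd (nat_lit 78) (nat_lit 380) (nat_lit 0) (XT.lf (nat_lit 0) (nat_lit 11621809211)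 (nat_lit 380) (nat_lit 17014467459) (nat_lit 76) (nat_lit 28037870467) (nat_lit 88) (nat_lit 5) (nat_lit 93) (nat_lit 5) (nat_lit 89) (nat_lit 5) (nat_lit 367) (nat_lit 324) (nat_lit 89)) (XT.lf (nat_lit 0) (nat_lit 8942630930) (nat_lit 380) (nat_lit 10279076012) (nat_lit 456) (nat_lit 38560304957) (nat_lit 83) (nat_lit 5) (nat_lit 88) (nat_lit 5) (nat_lit 89) (nat_lit 5) (nat_lit 368) (nat_lit 324) (nat_lit 88)))))) (XT.nd (nat_lit 37362) (nat_lit 0) (nat_lit 6536) (XT.nd (nat_lit 234) (nat_lit 0) (nat_lit 0) (XT.nd (nat_lit 78) (nat_lit 304) (nat_lit 0) (XT.lf (nat_lit 0) (nat_lit 27304951850) (nat_lit 456) (nat_lit 22976835208) (nat_lit 76) (nat_lit 8633666467) (nat_lit 83) (nat_lit 5) (nat_lit 89) (nat_lit 5) (nat_lit 84) (nat_lit 5) (nat_lit 369) (nat_lit 324) (nat_lit 87)) (XT.nd (nat_lit 78) (nat_lit 0) (nat_lit 0) (XT.lf (nat_lit 0) (nat_lit 3629223063) (nat_lit 304) (nat_lit 32137053366)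 (nat_lit 380) (nat_lit 24312555886) (nat_lit 79) (nat_lit 5) (nat_lit 83) (nat_lit 5) (nat_lit 84) (nat_lit 5) (nat_lit 370) (nat_lit 324) (nat_lit 86)) (XT.lf (nat_lit 0) (nat_lit 31503069456) (nat_lit 304) (nat_lit 13209333204) (nat_lit 380) (nat_lit 16557782297) (nat_lit 79) (nat_lit 5) (nat_lit 83) (nat_lit 5) (nat_lit 84) (nat_lit 5) (nat_lit 371) (nat_lit 324) (nat_lit 85)))) (XT.nd (nat_lit 36972) (nat_lit 0) (nat_lit 6536) (XT.lf (nat_lit 0) (nat_lit 53986308288) (nat_lit 380) (nat_lit 2345958480) (nat_lit 76) (nat_lit 6163230850) (nat_lit 79) (nat_lit 5) (nat_lit 84) (nat_lit 5) (nat_lit 80) (nat_lit 5) (nat_lit 372) (nat_lit 324) (nat_lit 84)) (XT.nd (nat_lit 78) (nat_lit 0) (nat_lit 0) (XT.lf (nat_lit 0) (nat_lit 456465764) (nat_lit 0) (nat_lit 456465764) (nat_lit 1140) (nat_lit 13121558613) (nat_lit 165) (nat_lit 5) (nat_lit 165) (nat_lit 3) (nat_lit 180) (nat_lit 3) (nat_lit 325)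 (nat_lit 325) (nat_lit 130)) (XT.lf (nat_lit 0) (nat_lit 2042801476) (nat_lit 1140) (nat_lit 15091496845) (nat_lit 1216) (nat_lit 11349895855) (nat_lit 165) (nat_lit 5) (nat_lit 180) (nat_lit 3) (nat_lit 181) (nat_lit 5) (nat_lit 326) (nat_lit 325) (nat_lit 129))))) (XT.nd (nat_lit 234) (nat_lit 0) (nat_lit 152) (XT.nd (nat_lit 78) (nat_lit 0) (nat_lit 76) (XT.lf (nat_lit 0) (nat_lit 2272246724) (nat_lit 1140) (nat_lit 2675686342) (nat_lit 1216) (nat_lit 23963756702) (nat_lit 165) (nat_lit 5) (nat_lit 180) (nat_lit 3) (nat_lit 181) (nat_lit 5) (nat_lit 327) (nat_lit 325) (nat_lit 128)) (XT.nd (nat_lit 78) (nat_lit 0) (nat_lit 0) (XT.lf (nat_lit 0) (nat_lit 2678840213) (nat_lit 1140) (nat_lit 19110983056) (nat_lit 1216) (nat_lit 7557084100) (nat_lit 166) (nat_lit 5) (nat_lit 181) (nat_lit 5) (nat_lit 182) (nat_lit 5) (nat_lit 328) (nat_lit 325) (nat_lit 127)) (XT.lf (nat_lit 0) (nat_lit 3171039319)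 (nat_lit 1140) (nat_lit 6255575250) (nat_lit 1216) (nat_lit 20366369635) (nat_lit 166) (nat_lit 5) (nat_lit 181) (nat_lit 5) (nat_lit 182) (nat_lit 5) (nat_lit 329) (nat_lit 325) (nat_lit 126)))) (XT.nd (nat_lit 78) (nat_lit 0) (nat_lit 0) (XT.lf (nat_lit 0) (nat_lit 3776171498) (nat_lit 1140) (nat_lit 23160103545) (nat_lit 1216) (nat_lit 3313228083) (nat_lit 167) (nat_lit 5) (nat_lit 182) (nat_lit 5) (nat_lit 183) (nat_lit 5) (nat_lit 330) (nat_lit 325) (nat_lit 125)) (XT.nd (nat_lit 78) (nat_lit 0) (nat_lit 0) (XT.lf (nat_lit 0) (nat_lit 4553876364) (nat_lit 1140) (nat_lit 9850535534) (nat_lit 1216) (nat_lit 16310677815) (nat_lit 167) (nat_lit 5) (nat_lit 182) (nat_lit 5) (nat_lit 183) (nat_lit 5) (nat_lit 331) (nat_lit 325) (nat_lit 124)) (XT.lf (nat_lit 76) (nat_lit 3933412868) (nat_lit 0) (nat_lit 1456680191) (nat_lit 1216) (nat_lit 25803499938) (nat_lit 168) (nat_lit 5) (nat_lit 167) (nat_lit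 5) (nat_lit 183) (nat_lit 5) (nat_lit 332) (nat_lit 325) (nat_lit 123))))))))
noncomputable def xc240 : XT := (XT.nd (nat_lit 1794) (nat_lit 3192) (nat_lit 0) (XT.nd (nat_lit 858) (nat_lit 2736) (nat_lit 0) (XT.nd (nat_lit 390) (nat_lit 836) (nat_lit 0) (XT.nd (nat_lit 156) (nat_lit 0) (nat_lit 76) (XT.nd (nat_lit 78) (nat_lit 0) (nat_lit 0) (XT.lf (nat_lit 0) (nat_lit 6463485041) (nat_lit 1140) (nat_lit 13467574672) (nat_lit 1216) (nat_lit 11749033392) (nat_lit 168) (nat_lit 5) (nat_lit 183) (nat_lit 5) (nat_lit 184) (nat_lit 5) (nat_lit 333) (nat_lit 325) (nat_lit 122)) (XT.lf (nat_lit 76) (nat_lit 737084354) (nat_lit 0) (nat_lit 6851016841) (nat_lit 1216) (nat_lit 24592520612) (nat_lit 169) (nat_lit 5) (nat_lit 168) (nat_lit 5) (nat_lit 184) (nat_lit 5) (nat_lit 334) (nat_lit 325) (nat_lit 121))) (XT.nd (nat_lit 78) (nat_lit 0) (nat_lit 0) (XT.lf (nat_lit 0) (nat_lit 8945025829) (nat_lit 1140)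 (nat_lit 17114879952) (nat_lit 1216) (nat_lit 6630307625) (nat_lit 169) (nat_lit 5) (nat_lit 184) (nat_lit 5) (nat_lit 185) (nat_lit 5) (nat_lit 335) (nat_lit 325) (nat_lit 120)) (XT.nd (nat_lit 78) (nat_lit 0) (nat_lit 76) (XT.lf (nat_lit 0) (nat_lit 10408138783) (nat_lit 1140) (nat_lit 2425896506) (nat_lit 1216) (nat_lit 20379097064) (nat_lit 169) (nat_lit 5) (nat_lit 184) (nat_lit 5) (nat_lit 185) (nat_lit 5) (nat_lit 336) (nat_lit 325) (nat_lit 119)) (XT.lf (nat_lit 0) (nat_lit 12046212422) (nat_lit 1140) (nat_lit 20801994129) (nat_lit 1216) (nat_lit 899604200) (nat_lit 170) (nat_lit 5) (nat_lit 185) (nat_lit 5) (nat_lit 186) (nat_lit 5) (nat_lit 337) (nat_lit 325) (nat_lit 118))))) (XT.nd (nat_lit 234) (nat_lit 988) (nat_lit 0) (XT.nd (nat_lit 78) (nat_lit 0) (nat_lit 0) (XT.lf (nat_lit 0) (nat_lit 13883010969) (nat_lit 1140) (nat_lit 5598409784) (nat_lit 1216) (nat_lit 14812625051) (nat_lit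 170) (nat_lit 5) (nat_lit 185) (nat_lit 5) (nat_lit 186) (nat_lit 5) (nat_lit 338) (nat_lit 325) (nat_lit 117)) (XT.nd (nat_lit 78) (nat_lit 0) (nat_lit 76) (XT.lf (nat_lit 76) (nat_lit 10259825487) (nat_lit 0) (nat_lit 5611550252) (nat_lit 1216) (nat_lit 18982401980) (nat_lit 171) (nat_lit 5) (nat_lit 170) (nat_lit 5) (nat_lit 186) (nat_lit 5) (nat_lit 339) (nat_lit 325) (nat_lit 116)) (XT.lf (nat_lit 0) (nat_lit 18057758115) (nat_lit 1140) (nat_lit 8805697348) (nat_lit 1216) (nat_lit 8562698696) (nat_lit 171) (nat_lit 5) (nat_lit 186) (nat_lit 5) (nat_lit 187) (nat_lit 5) (nat_lit 340) (nat_lit 325) (nat_lit 115)))) (XT.nd (nat_lit 78) (nat_lit 1064) (nat_lit 0) (XT.lf (nat_lit 76) (nat_lit 7546231526) (nat_lit 0) (nat_lit 12889550957) (nat_lit 1216) (nat_lit 15576141359) (nat_lit 172) (nat_lit 5) (nat_lit 171) (nat_lit 5) (nat_lit 187) (nat_lit 5) (nat_lit 341) (nat_lit 325) (nat_lit 114))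 (XT.nd (nat_lit 78) (nat_lit 1140) (nat_lit 0) (XT.lf (nat_lit 0) (nat_lit 22987400303) (nat_lit 1140) (nat_lit 12060424671) (nat_lit 76) (nat_lit 1564377423) (nat_lit 172) (nat_lit 5) (nat_lit 187) (nat_lit 5) (nat_lit 173) (nat_lit 5) (nat_lit 342) (nat_lit 325) (nat_lit 113)) (XT.lf (nat_lit 0) (nat_lit 4801406010) (nat_lit 1140) (nat_lit 20985991106) (nat_lit 1216) (nat_lit 11437940547) (nat_lit 157) (nat_lit 5) (nat_lit 172) (nat_lit 5) (nat_lit 173) (nat_lit 5) (nat_lit 343) (nat_lit 325) (nat_lit 112)))))) (XT.nd (nat_lit 468) (nat_lit 1520) (nat_lit 0) (XT.nd (nat_lit 234) (nat_lit 684) (nat_lit 0) (XT.nd (nat_lit 78) (nat_lit 532) (nat_lit 0) (XT.lf (nat_lit 0) (nat_lit 22414666451) (nat_lit 1140) (nat_lit 6376611823) (nat_lit 1216) (nat_lit 9061995350) (nat_lit 157) (nat_lit 5) (nat_lit 172) (nat_lit 5) (nat_lit 173) (nat_lit 5) (nat_lit 344) (nat_lit 325) (nat_lit 111)) (XT.nd (nat_lit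 78) (nat_lit 0) (nat_lit 0) (XT.lf (nat_lit 0) (nat_lit 2010492826) (nat_lit 532) (nat_lit 29975616092) (nat_lit 608) (nat_lit 6510916833) (nat_lit 150) (nat_lit 5) (nat_lit 157) (nat_lit 5) (nat_lit 158) (nat_lit 5) (nat_lit 345) (nat_lit 325) (nat_lit 110)) (XT.lf (nat_lit 0) (nat_lit 20233502440) (nat_lit 532) (nat_lit 15259890919) (nat_lit 608) (nat_lit 3660201805) (nat_lit 150) (nat_lit 5) (nat_lit 157) (nat_lit 5) (nat_lit 158) (nat_lit 5) (nat_lit 346) (nat_lit 325) (nat_lit 109)))) (XT.nd (nat_lit 78) (nat_lit 684) (nat_lit 0) (XT.lf (nat_lit 0) (nat_lit 39001601932) (nat_lit 532) (nat_lit 102540435) (nat_lit 608) (nat_lit 725774815) (nat_lit 150) (nat_lit 5) (nat_lit 157) (nat_lit 5) (nat_lit 158) (nat_lit 5) (nat_lit 347) (nat_lit 325) (nat_lit 108)) (XT.nd (nat_lit 78) (nat_lit 0) (nat_lit 0) (XT.lf (nat_lit 0) (nat_lit 2575517661) (nat_lit 684) (nat_lit 22535268707) (nat_lit 76) (nat_lit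 15405373433) (nat_lit 141) (nat_lit 5) (nat_lit 150) (nat_lit 5) (nat_lit 142) (nat_lit 5) (nat_lit 348) (nat_lit 325) (nat_lit 107)) (XT.lf (nat_lit 0) (nat_lit 5969037588) (nat_lit 684) (nat_lit 3861299021) (nat_lit 76) (nat_lit 31392206889) (nat_lit 141) (nat_lit 5) (nat_lit 150) (nat_lit 5) (nat_lit 142) (nat_lit 5) (nat_lit 349) (nat_lit 325) (nat_lit 106))))) (XT.nd (nat_lit 234) (nat_lit 456) (nat_lit 0) (XT.nd (nat_lit 78) (nat_lit 532) (nat_lit 0) (XT.lf (nat_lit 0) (nat_lit 9671713903) (nat_lit 608) (nat_lit 26326711600) (nat_lit 76) (nat_lit 5945475257) (nat_lit 134) (nat_lit 5) (nat_lit 142) (nat_lit 5) (nat_lit 135) (nat_lit 5) (nat_lit 350) (nat_lit 325) (nat_lit 105)) (XT.nd (nat_lit 78) (nat_lit 532) (nat_lit 0) (XT.lf (nat_lit 0) (nat_lit 13620573895) (nat_lit 608) (nat_lit 7025877890) (nat_lit 76) (nat_lit 22036396358) (nat_lit 134) (nat_lit 5) (nat_lit 142) (nat_lit 5) (nat_lit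 135) (nat_lit 5) (nat_lit 351) (nat_lit 325) (nat_lit 104)) (XT.lf (nat_lit 0) (nat_lit 13108198501) (nat_lit 532) (nat_lit 4704147651) (nat_lit 608) (nat_lit 25627886830) (nat_lit 127) (nat_lit 5) (nat_lit 134) (nat_lit 5) (nat_lit 135) (nat_lit 5) (nat_lit 352) (nat_lit 325) (nat_lit 103)))) (XT.nd (nat_lit 78) (nat_lit 456) (nat_lit 0) (XT.lf (nat_lit 0) (nat_lit 22312619662) (nat_lit 608) (nat_lit 10342821051) (nat_lit 76) (nat_lit 11559418571) (nat_lit 127) (nat_lit 5) (nat_lit 135) (nat_lit 5) (nat_lit 128) (nat_lit 5) (nat_lit 353) (nat_lit 325) (nat_lit 102)) (XT.nd (nat_lit 78) (nat_lit 0) (nat_lit 0) (XT.lf (nat_lit 0) (nat_lit 10400895686) (nat_lit 456) (nat_lit 16692078262) (nat_lit 532) (nat_lit 17915400541) (nat_lit 121) (nat_lit 5) (nat_lit 127) (nat_lit 5) (nat_lit 128) (nat_lit 5) (nat_lit 354) (nat_lit 325) (nat_lit 101)) (XT.lf (nat_lit 0) (nat_lit 31977400563) (nat_lit 456)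 (nat_lit 142325971) (nat_lit 532) (nat_lit 13702881210) (nat_lit 121) (nat_lit 5) (nat_lit 127) (nat_lit 5) (nat_lit 128) (nat_lit 5) (nat_lit 355) (nat_lit 325) (nat_lit 100))))))) (XT.nd (nat_lit 936) (nat_lit 684) (nat_lit 0) (XT.nd (nat_lit 468) (nat_lit 1140) (nat_lit 0) (XT.nd (nat_lit 234) (nat_lit 456) (nat_lit 0) (XT.nd (nat_lit 78) (nat_lit 456) (nat_lit 0) (XT.lf (nat_lit 0) (nat_lit 7522696801) (nat_lit 456) (nat_lit 30007975485) (nat_lit 532) (nat_lit 9123596152) (nat_lit 115) (nat_lit 5) (nat_lit 121) (nat_lit 5) (nat_lit 122) (nat_lit 5) (nat_lit 356) (nat_lit 325) (nat_lit 99)) (XT.nd (nat_lit 78) (nat_lit 456) (nat_lit 0) (XT.lf (nat_lit 0) (nat_lit 29812489073) (nat_lit 456) (nat_lit 13431275649) (nat_lit 532) (nat_lit 4262921778) (nat_lit 115) (nat_lit 5) (nat_lit 121) (nat_lit 5) (nat_lit 122) (nat_lit 5) (nat_lit 357) (nat_lit 325) (nat_lit 98)) (XT.lf (nat_lit 0) (nat_lit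 806130044) (nat_lit 456) (nat_lit 43953963813) (nat_lit 76) (nat_lit 3622058783) (nat_lit 109) (nat_lit 5) (nat_lit 115) (nat_lit 5) (nat_lit 110) (nat_lit 5) (nat_lit 358) (nat_lit 325) (nat_lit 97)))) (XT.nd (nat_lit 78) (nat_lit 456) (nat_lit 0) (XT.lf (nat_lit 0) (nat_lit 6253663952) (nat_lit 456) (nat_lit 21880056374) (nat_lit 76) (nat_lit 21139535410) (nat_lit 109) (nat_lit 5) (nat_lit 115) (nat_lit 5) (nat_lit 110) (nat_lit 5) (nat_lit 359) (nat_lit 325) (nat_lit 96)) (XT.nd (nat_lit 78) (nat_lit 0) (nat_lit 0) (XT.lf (nat_lit 0) (nat_lit 871585644) (nat_lit 456) (nat_lit 11000117744) (nat_lit 532) (nat_lit 38319178015) (nat_lit 103) (nat_lit 5) (nat_lit 109) (nat_lit 5) (nat_lit 110) (nat_lit 5) (nat_lit 360) (nat_lit 325) (nat_lit 95)) (XT.lf (nat_lit 0) (nat_lit 17944040032) (nat_lit 532) (nat_lit 26442712128) (nat_lit 76) (nat_lit 6740712807) (nat_lit 103) (nat_lit 5) (nat_lit 110)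 (nat_lit 5) (nat_lit 104) (nat_lit 5) (nat_lit 361) (nat_lit 325) (nat_lit 94))))) (XT.nd (nat_lit 234) (nat_lit 760) (nat_lit 0) (XT.nd (nat_lit 78) (nat_lit 380) (nat_lit 0) (XT.lf (nat_lit 0) (nat_lit 24306219032) (nat_lit 532) (nat_lit 2990212888) (nat_lit 76) (nat_lit 24792485708) (nat_lit 103) (nat_lit 5) (nat_lit 110) (nat_lit 5) (nat_lit 104) (nat_lit 5) (nat_lit 362) (nat_lit 325) (nat_lit 93)) (XT.nd (nat_lit 78) (nat_lit 0) (nat_lit 0) (XT.lf (nat_lit 0) (nat_lit 21585648040) (nat_lit 380) (nat_lit 9479906127) (nat_lit 456) (nat_lit 22007472682) (nat_lit 98) (nat_lit 5) (nat_lit 103) (nat_lit 5) (nat_lit 104) (nat_lit 5) (nat_lit 363) (nat_lit 325) (nat_lit 92)) (XT.lf (nat_lit 0) (nat_lit 38142253763) (nat_lit 456) (nat_lit 7212693754) (nat_lit 76) (nat_lit 8728275952) (nat_lit 98) (nat_lit 5) (nat_lit 104) (nat_lit 5) (nat_lit 99) (nat_lit 5) (nat_lit 364) (nat_lit 325) (nat_lit 91))))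 (XT.nd (nat_lit 78) (nat_lit 380) (nat_lit 0) (XT.lf (nat_lit 0) (nat_lit 18047130138) (nat_lit 380) (nat_lit 27650314787) (nat_lit 456) (nat_lit 9418296952) (nat_lit 93) (nat_lit 5) (nat_lit 98) (nat_lit 5) (nat_lit 99) (nat_lit 5) (nat_lit 365) (nat_lit 325) (nat_lit 90)) (XT.nd (nat_lit 78) (nat_lit 380) (nat_lit 0) (XT.lf (nat_lit 0) (nat_lit 44211209910) (nat_lit 380) (nat_lit 9339786156) (nat_lit 456) (nat_lit 2626090205) (nat_lit 93) (nat_lit 5) (nat_lit 98) (nat_lit 5) (nat_lit 99) (nat_lit 5) (nat_lit 366) (nat_lit 325) (nat_lit 89)) (XT.lf (nat_lit 0) (nat_lit 4512521959) (nat_lit 380) (nat_lit 43236109287) (nat_lit 76) (nat_lit 9513543700) (nat_lit 88) (nat_lit 5) (nat_lit 93) (nat_lit 5) (nat_lit 89) (nat_lit 5) (nat_lit 367) (nat_lit 325) (nat_lit 88)))))) (XT.nd (nat_lit 37440) (nat_lit 0) (nat_lit 6536) (XT.nd (nat_lit 234) (nat_lit 304) (nat_lit 0) (XT.nd (nat_lit 78) (nat_lit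 380) (nat_lit 0) (XT.lf (nat_lit 0) (nat_lit 12025919401) (nat_lit 380) (nat_lit 17454200058) (nat_lit 76) (nat_lit 28892515961) (nat_lit 88) (nat_lit 5) (nat_lit 93) (nat_lit 5) (nat_lit 89) (nat_lit 5) (nat_lit 368) (nat_lit 325) (nat_lit 87)) (XT.nd (nat_lit 78) (nat_lit 0) (nat_lit 0) (XT.lf (nat_lit 0) (nat_lit 9280918132) (nat_lit 380) (nat_lit 10571953674) (nat_lit 456) (nat_lit 39660894697) (nat_lit 83) (nat_lit 5) (nat_lit 88) (nat_lit 5) (nat_lit 89) (nat_lit 5) (nat_lit 369) (nat_lit 325) (nat_lit 86)) (XT.lf (nat_lit 0) (nat_lit 28177170890) (nat_lit 456) (nat_lit 23596659600) (nat_lit 76) (nat_lit 8907426230) (nat_lit 83) (nat_lit 5) (nat_lit 89) (nat_lit 5) (nat_lit 84) (nat_lit 5) (nat_lit 370) (nat_lit 325) (nat_lit 85)))) (XT.nd (nat_lit 78) (nat_lit 0) (nat_lit 0) (XT.lf (nat_lit 0) (nat_lit 3806899236) (nat_lit 304) (nat_lit 33084551571) (nat_lit 380) (nat_lit 24988114589) (nat_lit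 79) (nat_lit 5) (nat_lit 83) (nat_lit 5) (nat_lit 84) (nat_lit 5) (nat_lit 371) (nat_lit 325) (nat_lit 84)) (XT.nd (nat_lit 37050) (nat_lit 0) (nat_lit 6536) (XT.lf (nat_lit 0) (nat_lit 32514957152) (nat_lit 304) (nat_lit 13589483690) (nat_lit 380) (nat_lit 17002265306) (nat_lit 79) (nat_lit 5) (nat_lit 83) (nat_lit 5) (nat_lit 84) (nat_lit 5) (nat_lit 372) (nat_lit 325) (nat_lit 83)) (XT.lf (nat_lit 0) (nat_lit 508922006) (nat_lit 0) (nat_lit 508922006) (nat_lit 1140) (nat_lit 13435222092) (nat_lit 165) (nat_lit 5) (nat_lit 165) (nat_lit 3) (nat_lit 180) (nat_lit 3) (nat_lit 326) (nat_lit 326) (nat_lit 128))))) (XT.nd (nat_lit 234) (nat_lit 0) (nat_lit 76) (XT.nd (nat_lit 78) (nat_lit 0) (nat_lit 0) (XT.lf (nat_lit 0) (nat_lit 2253895095) (nat_lit 1140) (nat_lit 15463477445) (nat_lit 1216) (nat_lit 11616594911) (nat_lit 165) (nat_lit 5) (nat_lit 180) (nat_lit 3) (nat_lit 181) (nat_lit 5) (nat_lit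 327) (nat_lit 326) (nat_lit 127)) (XT.nd (nat_lit 78) (nat_lit 0) (nat_lit 76) (XT.lf (nat_lit 0) (nat_lit 2485860315) (nat_lit 1140) (nat_lit 2677544985) (nat_lit 1216) (nat_lit 24611021034) (nat_lit 165) (nat_lit 5) (nat_lit 180) (nat_lit 3) (nat_lit 181) (nat_lit 5) (nat_lit 328) (nat_lit 326) (nat_lit 126)) (XT.lf (nat_lit 0) (nat_lit 2900543449) (nat_lit 1140) (nat_lit 19601549002) (nat_lit 1216) (nat_lit 7720738559) (nat_lit 166) (nat_lit 5) (nat_lit 181) (nat_lit 5) (nat_lit 182) (nat_lit 5) (nat_lit 329) (nat_lit 326) (nat_lit 125)))) (XT.nd (nat_lit 78) (nat_lit 0) (nat_lit 76) (XT.lf (nat_lit 0) (nat_lit 3403391886) (nat_lit 1140) (nat_lit 6362889551) (nat_lit 1216) (nat_lit 20916139303) (nat_lit 166) (nat_lit 5) (nat_lit 181) (nat_lit 5) (nat_lit 182) (nat_lit 5) (nat_lit 330) (nat_lit 326) (nat_lit 124)) (XT.nd (nat_lit 78) (nat_lit 0) (nat_lit 0) (XT.lf (nat_lit 0) (nat_lit 4022922961)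 (nat_lit 1140) (nat_lit 23770569161) (nat_lit 1216) (nat_lit 3359262644) (nat_lit 167) (nat_lit 5) (nat_lit 182) (nat_lit 5) (nat_lit 183) (nat_lit 5) (nat_lit 331) (nat_lit 326) (nat_lit 123)) (XT.lf (nat_lit 0) (nat_lit 4820071605) (nat_lit 1140) (nat_lit 10064170541) (nat_lit 1216) (nat_lit 16748190109) (nat_lit 167) (nat_lit 5) (nat_lit 182) (nat_lit 5) (nat_lit 183) (nat_lit 5) (nat_lit 332) (nat_lit 326) (nat_lit 122))))))))
noncomputable def xc241 : XT := (XT.nd (nat_lit 1794) (nat_lit 2888) (nat_lit 0) (XT.nd (nat_lit 858) (nat_lit 3496) (nat_lit 0) (XT.nd (nat_lit 390) (nat_lit 0) (nat_lit 228) (XT.nd (nat_lit 156) (nat_lit 0) (nat_lit 76) (XT.nd (nat_lit 78) (nat_lit 0) (nat_lit 76) (XT.lf (nat_lit 76) (nat_lit 4132493558) (nat_lit 0) (nat_lit 1545886473) (nat_lit 1216) (nat_lit 26447006939) (nat_lit 168) (nat_lit 5) (nat_lit 167) (nat_lit 5) (nat_lit 183) (nat_lit 5) (nat_lit 333) (nat_lit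 326) (nat_lit 121)) (XT.lf (nat_lit 0) (nat_lit 6779862165) (nat_lit 1140) (nat_lit 13788563513) (nat_lit 1216) (nat_lit 12058186052) (nat_lit 168) (nat_lit 5) (nat_lit 183) (nat_lit 5) (nat_lit 184) (nat_lit 5) (nat_lit 334) (nat_lit 326) (nat_lit 120))) (XT.nd (nat_lit 78) (nat_lit 0) (nat_lit 76) (XT.lf (nat_lit 76) (nat_lit 841421181) (nat_lit 0) (nat_lit 7094018849) (nat_lit 1216) (nat_lit 25206805680) (nat_lit 169) (nat_lit 5) (nat_lit 168) (nat_lit 5) (nat_lit 184) (nat_lit 5) (nat_lit 335) (nat_lit 326) (nat_lit 119)) (XT.nd (nat_lit 78) (nat_lit 0) (nat_lit 0) (XT.lf (nat_lit 0) (nat_lit 9329236411) (nat_lit 1140) (nat_lit 17544463005) (nat_lit 1216) (nat_lit 6793546661) (nat_lit 169) (nat_lit 5) (nat_lit 184) (nat_lit 5) (nat_lit 185) (nat_lit 5) (nat_lit 336) (nat_lit 326) (nat_lit 118)) (XT.lf (nat_lit 0) (nat_lit 10832868196) (nat_lit 1140) (nat_lit 2417252677) (nat_lit 1216) (nat_lit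 20955838721) (nat_lit 169) (nat_lit 5) (nat_lit 184) (nat_lit 5) (nat_lit 185) (nat_lit 5) (nat_lit 337) (nat_lit 326) (nat_lit 117))))) (XT.nd (nat_lit 234) (nat_lit 0) (nat_lit 76) (XT.nd (nat_lit 78) (nat_lit 0) (nat_lit 0) (XT.lf (nat_lit 0) (nat_lit 12517300526) (nat_lit 1140) (nat_lit 21341663136) (nat_lit 1216) (nat_lit 897803784) (nat_lit 170) (nat_lit 5) (nat_lit 185) (nat_lit 5) (nat_lit 186) (nat_lit 5) (nat_lit 338) (nat_lit 326) (nat_lit 116)) (XT.nd (nat_lit 78) (nat_lit 0) (nat_lit 0) (XT.lf (nat_lit 0) (nat_lit 14406007834) (nat_lit 1140) (nat_lit 5684429246) (nat_lit 1216) (nat_lit 15229053762) (nat_lit 170) (nat_lit 5) (nat_lit 185) (nat_lit 5) (nat_lit 186) (nat_lit 5) (nat_lit 339) (nat_lit 326) (nat_lit 115)) (XT.lf (nat_lit 76) (nat_lit 10648749821) (nat_lit 0) (nat_lit 5802951461) (nat_lit 1216) (nat_lit 19444388375) (nat_lit 171) (nat_lit 5) (nat_lit 170) (nat_lit 5) (nat_lit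 186) (nat_lit 5) (nat_lit 340) (nat_lit 326) (nat_lit 114)))) (XT.nd (nat_lit 78) (nat_lit 0) (nat_lit 0) (XT.lf (nat_lit 0) (nat_lit 18700425475) (nat_lit 1140) (nat_lit 8987681299) (nat_lit 1216) (nat_lit 8797633228) (nat_lit 171) (nat_lit 5) (nat_lit 186) (nat_lit 5) (nat_lit 187) (nat_lit 5) (nat_lit 341) (nat_lit 326) (nat_lit 113)) (XT.nd (nat_lit 78) (nat_lit 0) (nat_lit 76) (XT.lf (nat_lit 76) (nat_lit 7853999686) (nat_lit 0) (nat_lit 13293633331) (nat_lit 1216) (nat_lit 15941519459) (nat_lit 172) (nat_lit 5) (nat_lit 171) (nat_lit 5) (nat_lit 187) (nat_lit 5) (nat_lit 342) (nat_lit 326) (nat_lit 112)) (XT.lf (nat_lit 0) (nat_lit 23772760021) (nat_lit 1140) (nat_lit 12340026231) (nat_lit 76) (nat_lit 1594749145) (nat_lit 172) (nat_lit 5) (nat_lit 187) (nat_lit 5) (nat_lit 173) (nat_lit 5) (nat_lit 343) (nat_lit 326) (nat_lit 111)))))) (XT.nd (nat_lit 468) (nat_lit 1520) (nat_lit 0) (XT.nd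 (nat_lit 234) (nat_lit 684) (nat_lit 0) (XT.nd (nat_lit 78) (nat_lit 532) (nat_lit 0) (XT.lf (nat_lit 0) (nat_lit 5026853379) (nat_lit 1140) (nat_lit 21627897398) (nat_lit 1216) (nat_lit 11684378809) (nat_lit 157) (nat_lit 5) (nat_lit 172) (nat_lit 5) (nat_lit 173) (nat_lit 5) (nat_lit 344) (nat_lit 326) (nat_lit 110)) (XT.nd (nat_lit 78) (nat_lit 532) (nat_lit 0) (XT.lf (nat_lit 0) (nat_lit 23166140608) (nat_lit 1140) (nat_lit 6579877712) (nat_lit 1216) (nat_lit 9239971759) (nat_lit 157) (nat_lit 5) (nat_lit 172) (nat_lit 5) (nat_lit 173) (nat_lit 5) (nat_lit 345) (nat_lit 326) (nat_lit 109)) (XT.lf (nat_lit 0) (nat_lit 2152034343) (nat_lit 532) (nat_lit 30882678118) (nat_lit 608) (nat_lit 6614406170) (nat_lit 150) (nat_lit 5) (nat_lit 157) (nat_lit 5) (nat_lit 158) (nat_lit 5) (nat_lit 346) (nat_lit 326) (nat_lit 108)))) (XT.nd (nat_lit 78) (nat_lit 684) (nat_lit 0) (XT.lf (nat_lit 0) (nat_lit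 20919368418) (nat_lit 532) (nat_lit 15725254193) (nat_lit 608) (nat_lit 3680844590) (nat_lit 150) (nat_lit 5) (nat_lit 157) (nat_lit 5) (nat_lit 158) (nat_lit 5) (nat_lit 347) (nat_lit 326) (nat_lit 107)) (XT.nd (nat_lit 78) (nat_lit 684) (nat_lit 0) (XT.lf (nat_lit 0) (nat_lit 40248213975) (nat_lit 532) (nat_lit 112962810) (nat_lit 608) (nat_lit 660981778) (nat_lit 150) (nat_lit 5) (nat_lit 157) (nat_lit 5) (nat_lit 158) (nat_lit 5) (nat_lit 348) (nat_lit 326) (nat_lit 106)) (XT.lf (nat_lit 0) (nat_lit 2735881057) (nat_lit 684) (nat_lit 23131028723) (nat_lit 76) (nat_lit 15862111019) (nat_lit 141) (nat_lit 5) (nat_lit 150) (nat_lit 5) (nat_lit 142) (nat_lit 5) (nat_lit 349) (nat_lit 326) (nat_lit 105))))) (XT.nd (nat_lit 234) (nat_lit 988) (nat_lit 0) (XT.nd (nat_lit 78) (nat_lit 532) (nat_lit 0) (XT.lf (nat_lit 0) (nat_lit 6228786256) (nat_lit 684) (nat_lit 3899178725) (nat_lit 76) (nat_lit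 32328707447) (nat_lit 141) (nat_lit 5) (nat_lit 150) (nat_lit 5) (nat_lit 142) (nat_lit 5) (nat_lit 350) (nat_lit 326) (nat_lit 104)) (XT.nd (nat_lit 78) (nat_lit 0) (nat_lit 0) (XT.lf (nat_lit 0) (nat_lit 10040917053) (nat_lit 608) (nat_lit 27036804524) (nat_lit 76) (nat_lit 6122001306) (nat_lit 134) (nat_lit 5) (nat_lit 142) (nat_lit 5) (nat_lit 135) (nat_lit 5) (nat_lit 351) (nat_lit 326) (nat_lit 103)) (XT.lf (nat_lit 0) (nat_lit 14105940367) (nat_lit 608) (nat_lit 7159267408) (nat_lit 76) (nat_lit 22695703579) (nat_lit 134) (nat_lit 5) (nat_lit 142) (nat_lit 5) (nat_lit 135) (nat_lit 5) (nat_lit 352) (nat_lit 326) (nat_lit 102)))) (XT.nd (nat_lit 78) (nat_lit 456) (nat_lit 0) (XT.lf (nat_lit 0) (nat_lit 13578072581) (nat_lit 532) (nat_lit 4843894392) (nat_lit 608) (nat_lit 26319099218) (nat_lit 127) (nat_lit 5) (nat_lit 134) (nat_lit 5) (nat_lit 135) (nat_lit 5) (nat_lit 353) (nat_lit 326)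 (nat_lit 101)) (XT.nd (nat_lit 78) (nat_lit 456) (nat_lit 0) (XT.lf (nat_lit 0) (nat_lit 23055069786) (nat_lit 608) (nat_lit 10576417661) (nat_lit 76) (nat_lit 11907512589) (nat_lit 127) (nat_lit 5) (nat_lit 135) (nat_lit 5) (nat_lit 128) (nat_lit 5) (nat_lit 354) (nat_lit 326) (nat_lit 100)) (XT.lf (nat_lit 0) (nat_lit 10788858735) (nat_lit 456) (nat_lit 17188577613) (nat_lit 532) (nat_lit 18378929586) (nat_lit 121) (nat_lit 5) (nat_lit 127) (nat_lit 5) (nat_lit 128) (nat_lit 5) (nat_lit 355) (nat_lit 326) (nat_lit 99))))))) (XT.nd (nat_lit 936) (nat_lit 760) (nat_lit 0) (XT.nd (nat_lit 468) (nat_lit 760) (nat_lit 0) (XT.nd (nat_lit 234) (nat_lit 912) (nat_lit 0) (XT.nd (nat_lit 78) (nat_lit 456) (nat_lit 0) (XT.lf (nat_lit 0) (nat_lit 33010447025) (nat_lit 456) (nat_lit 142456918) (nat_lit 532) (nat_lit 14042188063) (nat_lit 121) (nat_lit 5) (nat_lit 127) (nat_lit 5) (nat_lit 128) (nat_lit 5)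 (nat_lit 356) (nat_lit 326) (nat_lit 98)) (XT.nd (nat_lit 78) (nat_lit 0) (nat_lit 0) (XT.lf (nat_lit 0) (nat_lit 7823512427) (nat_lit 456) (nat_lit 30901399743) (nat_lit 532) (nat_lit 9326831428) (nat_lit 115) (nat_lit 5) (nat_lit 121) (nat_lit 5) (nat_lit 122) (nat_lit 5) (nat_lit 357) (nat_lit 326) (nat_lit 97)) (XT.lf (nat_lit 0) (nat_lit 30779810077) (nat_lit 456) (nat_lit 13827597407) (nat_lit 532) (nat_lit 4322389423) (nat_lit 115) (nat_lit 5) (nat_lit 121) (nat_lit 5) (nat_lit 122) (nat_lit 5) (nat_lit 358) (nat_lit 326) (nat_lit 96)))) (XT.nd (nat_lit 78) (nat_lit 456) (nat_lit 0) (XT.lf (nat_lit 0) (nat_lit 896227950) (nat_lit 456) (nat_lit 45196938484) (nat_lit 76) (nat_lit 3738378828) (nat_lit 109) (nat_lit 5) (nat_lit 115) (nat_lit 5) (nat_lit 110) (nat_lit 5) (nat_lit 359) (nat_lit 326) (nat_lit 95)) (XT.nd (nat_lit 78) (nat_lit 456) (nat_lit 0) (XT.lf (nat_lit 0) (nat_lit 6505268051)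 (nat_lit 456) (nat_lit 22463017052) (nat_lit 76) (nat_lit 21781156698) (nat_lit 109) (nat_lit 5) (nat_lit 115) (nat_lit 5) (nat_lit 110) (nat_lit 5) (nat_lit 360) (nat_lit 326) (nat_lit 94)) (XT.lf (nat_lit 0) (nat_lit 970454217) (nat_lit 456) (nat_lit 11320229584) (nat_lit 532) (nat_lit 39403950056) (nat_lit 103) (nat_lit 5) (nat_lit 109) (nat_lit 5) (nat_lit 110) (nat_lit 5) (nat_lit 361) (nat_lit 326) (nat_lit 93))))) (XT.nd (nat_lit 234) (nat_lit 380) (nat_lit 0) (XT.nd (nat_lit 78) (nat_lit 380) (nat_lit 0) (XT.lf (nat_lit 0) (nat_lit 18543452879) (nat_lit 532) (nat_lit 27163566398) (nat_lit 76) (nat_lit 6952350376) (nat_lit 103) (nat_lit 5) (nat_lit 110) (nat_lit 5) (nat_lit 104) (nat_lit 5) (nat_lit 362) (nat_lit 326) (nat_lit 92)) (XT.nd (nat_lit 78) (nat_lit 380) (nat_lit 0) (XT.lf (nat_lit 0) (nat_lit 25094717880) (nat_lit 532) (nat_lit 3009601707) (nat_lit 76) (nat_lit 25545402206)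 (nat_lit 103) (nat_lit 5) (nat_lit 110) (nat_lit 5) (nat_lit 104) (nat_lit 5) (nat_lit 363) (nat_lit 326) (nat_lit 91)) (XT.lf (nat_lit 0) (nat_lit 22302845660) (nat_lit 380) (nat_lit 9752929175) (nat_lit 456) (nat_lit 22607613649) (nat_lit 98) (nat_lit 5) (nat_lit 103) (nat_lit 5) (nat_lit 104) (nat_lit 5) (nat_lit 364) (nat_lit 326) (nat_lit 90)))) (XT.nd (nat_lit 78) (nat_lit 380) (nat_lit 0) (XT.lf (nat_lit 0) (nat_lit 39343184851) (nat_lit 456) (nat_lit 7359804651) (nat_lit 76) (nat_lit 9000951594) (nat_lit 98) (nat_lit 5) (nat_lit 104) (nat_lit 5) (nat_lit 99) (nat_lit 5) (nat_lit 365) (nat_lit 326) (nat_lit 89)) (XT.nd (nat_lit 78) (nat_lit 0) (nat_lit 0) (XT.lf (nat_lit 0) (nat_lit 18657134841) (nat_lit 380) (nat_lit 28466905852) (nat_lit 456) (nat_lit 9643426402) (nat_lit 93) (nat_lit 5) (nat_lit 98) (nat_lit 5) (nat_lit 99) (nat_lit 5) (nat_lit 366) (nat_lit 326) (nat_lit 88)) (XT.lf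 (nat_lit 0) (nat_lit 45604139216) (nat_lit 380) (nat_lit 9607437625) (nat_lit 456) (nat_lit 2649125864) (nat_lit 93) (nat_lit 5) (nat_lit 98) (nat_lit 5) (nat_lit 99) (nat_lit 5) (nat_lit 367) (nat_lit 326) (nat_lit 87)))))) (XT.nd (nat_lit 37596) (nat_lit 0) (nat_lit 6232) (XT.nd (nat_lit 234) (nat_lit 0) (nat_lit 0) (XT.nd (nat_lit 78) (nat_lit 380) (nat_lit 0) (XT.lf (nat_lit 0) (nat_lit 4701738311) (nat_lit 380) (nat_lit 44464550405) (nat_lit 76) (nat_lit 9812065913) (nat_lit 88) (nat_lit 5) (nat_lit 93) (nat_lit 5) (nat_lit 89) (nat_lit 5) (nat_lit 368) (nat_lit 326) (nat_lit 86)) (XT.nd (nat_lit 78) (nat_lit 380) (nat_lit 0) (XT.lf (nat_lit 0) (nat_lit 12438969501) (nat_lit 380) (nat_lit 17911183185) (nat_lit 76) (nat_lit 29772025325) (nat_lit 88) (nat_lit 5) (nat_lit 93) (nat_lit 5) (nat_lit 89) (nat_lit 5) (nat_lit 369) (nat_lit 326) (nat_lit 85)) (XT.lf (nat_lit 0) (nat_lit 9625335188)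 (nat_lit 380) (nat_lit 10874507121) (nat_lit 456) (nat_lit 40797729352) (nat_lit 83) (nat_lit 5) (nat_lit 88) (nat_lit 5) (nat_lit 89) (nat_lit 5) (nat_lit 370) (nat_lit 326) (nat_lit 84)))) (XT.nd (nat_lit 37206) (nat_lit 0) (nat_lit 6232) (XT.lf (nat_lit 0) (nat_lit 29072510039) (nat_lit 456) (nat_lit 24239067199) (nat_lit 76) (nat_lit 9188552089) (nat_lit 83) (nat_lit 5) (nat_lit 89) (nat_lit 5) (nat_lit 84) (nat_lit 5) (nat_lit 371) (nat_lit 326) (nat_lit 83)) (XT.nd (nat_lit 78) (nat_lit 0) (nat_lit 0) (XT.lf (nat_lit 0) (nat_lit 560726822) (nat_lit 0) (nat_lit 560726822) (nat_lit 1140) (nat_lit 13762886843) (nat_lit 165) (nat_lit 5) (nat_lit 165) (nat_lit 3) (nat_lit 180) (nat_lit 3) (nat_lit 327) (nat_lit 327) (nat_lit 126)) (XT.lf (nat_lit 0) (nat_lit 2462721840) (nat_lit 1140) (nat_lit 15851253664) (nat_lit 1216) (nat_lit 11895531235) (nat_lit 165) (nat_lit 5) (nat_lit 180) (nat_lit 3)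 (nat_lit 181) (nat_lit 5) (nat_lit 328) (nat_lit 327) (nat_lit 125))))) (XT.nd (nat_lit 234) (nat_lit 0) (nat_lit 152) (XT.nd (nat_lit 78) (nat_lit 0) (nat_lit 76) (XT.lf (nat_lit 0) (nat_lit 2697533107) (nat_lit 1140) (nat_lit 2683960553) (nat_lit 1216) (nat_lit 25281816206) (nat_lit 165) (nat_lit 5) (nat_lit 180) (nat_lit 3) (nat_lit 181) (nat_lit 5) (nat_lit 329) (nat_lit 327) (nat_lit 124)) (XT.nd (nat_lit 78) (nat_lit 0) (nat_lit 0) (XT.lf (nat_lit 0) (nat_lit 3120784401) (nat_lit 1140) (nat_lit 20111582893) (nat_lit 1216) (nat_lit 7892922443) (nat_lit 166) (nat_lit 5) (nat_lit 181) (nat_lit 5) (nat_lit 182) (nat_lit 5) (nat_lit 330) (nat_lit 327) (nat_lit 123)) (XT.lf (nat_lit 0) (nat_lit 3634837962) (nat_lit 1140) (nat_lit 6478035869) (nat_lit 1216) (nat_lit 21485916421) (nat_lit 166) (nat_lit 5) (nat_lit 181) (nat_lit 5) (nat_lit 182) (nat_lit 5) (nat_lit 331) (nat_lit 327) (nat_lit 122))))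 (XT.nd (nat_lit 78) (nat_lit 0) (nat_lit 0) (XT.lf (nat_lit 0) (nat_lit 4269415456) (nat_lit 1140) (nat_lit 24404190062) (nat_lit 1216) (nat_lit 3409741455) (nat_lit 167) (nat_lit 5) (nat_lit 182) (nat_lit 5) (nat_lit 183) (nat_lit 5) (nat_lit 332) (nat_lit 327) (nat_lit 121)) (XT.nd (nat_lit 78) (nat_lit 0) (nat_lit 0) (XT.lf (nat_lit 0) (nat_lit 5086814340) (nat_lit 1140) (nat_lit 10288914906) (nat_lit 1216) (nat_lit 17201801766) (nat_lit 167) (nat_lit 5) (nat_lit 182) (nat_lit 5) (nat_lit 183) (nat_lit 5) (nat_lit 333) (nat_lit 327) (nat_lit 120)) (XT.lf (nat_lit 76) (nat_lit 4332892441) (nat_lit 0) (nat_lit 1635156720) (nat_lit 1216) (nat_lit 27117316009) (nat_lit 168) (nat_lit 5) (nat_lit 167) (nat_lit 5) (nat_lit 183) (nat_lit 5) (nat_lit 334) (nat_lit 327) (nat_lit 119))))))))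
noncomputable def xc242 : XT := (XT.nd (nat_lit 1794) (nat_lit 2888) (nat_lit 0) (XT.nd (nat_lit 858) (nat_lit 2736) (nat_lit 0) (XT.nd (nat_lit 390) (nat_lit 836) (nat_lit 0) (XT.nd (nat_lit 156) (nat_lit 0) (nat_lit 76) (XT.nd (nat_lit 78) (nat_lit 0) (nat_lit 0) (XT.lf (nat_lit 0) (nat_lit 7098700175) (nat_lit 1140) (nat_lit 14123948763) (nat_lit 1216) (nat_lit 12379099941) (nat_lit 168) (nat_lit 5) (nat_lit 183) (nat_lit 5) (nat_lit 184) (nat_lit 5) (nat_lit 335) (nat_lit 327) (nat_lit 118)) (XT.lf (nat_lit 76) (nat_lit 944168103) (nat_lit 0) (nat_lit 7342159900) (nat_lit 1216) (nat_lit 25846608163) (nat_lit 169) (nat_lit 5) (nat_lit 168) (nat_lit 5) (nat_lit 184) (nat_lit 5) (nat_lit 336) (nat_lit 327) (nat_lit 117))) (XT.nd (nat_lit 78) (nat_lit 0) (nat_lit 0) (XT.lf (nat_lit 0) (nat_lit 9718322484) (nat_lit 1140) (nat_lit 17991747648) (nat_lit 1216) (nat_lit 6963730482) (nat_lit 169) (nat_lit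 5) (nat_lit 184) (nat_lit 5) (nat_lit 185) (nat_lit 5) (nat_lit 337) (nat_lit 327) (nat_lit 116)) (XT.nd (nat_lit 78) (nat_lit 0) (nat_lit 76) (XT.lf (nat_lit 0) (nat_lit 11263882378) (nat_lit 1140) (nat_lit 2413023416) (nat_lit 1216) (nat_lit 21551870603) (nat_lit 169) (nat_lit 5) (nat_lit 184) (nat_lit 5) (nat_lit 185) (nat_lit 5) (nat_lit 338) (nat_lit 327) (nat_lit 115)) (XT.lf (nat_lit 0) (nat_lit 12996223946) (nat_lit 1140) (nat_lit 21902366591) (nat_lit 1216) (nat_lit 897601935) (nat_lit 170) (nat_lit 5) (nat_lit 185) (nat_lit 5) (nat_lit 186) (nat_lit 5) (nat_lit 339) (nat_lit 327) (nat_lit 114))))) (XT.nd (nat_lit 234) (nat_lit 988) (nat_lit 0) (XT.nd (nat_lit 78) (nat_lit 0) (nat_lit 0) (XT.lf (nat_lit 0) (nat_lit 14938580694) (nat_lit 1140) (nat_lit 5777732571) (nat_lit 1216) (nat_lit 15659579780) (nat_lit 170) (nat_lit 5) (nat_lit 185) (nat_lit 5) (nat_lit 186) (nat_lit 5) (nat_lit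 340) (nat_lit 327) (nat_lit 113)) (XT.nd (nat_lit 78) (nat_lit 0) (nat_lit 76) (XT.lf (nat_lit 76) (nat_lit 11044684715) (nat_lit 0) (nat_lit 5998771272) (nat_lit 1216) (nat_lit 19926404479) (nat_lit 171) (nat_lit 5) (nat_lit 170) (nat_lit 5) (nat_lit 186) (nat_lit 5) (nat_lit 341) (nat_lit 327) (nat_lit 112)) (XT.lf (nat_lit 0) (nat_lit 19356578796) (nat_lit 1140) (nat_lit 9179842637) (nat_lit 1216) (nat_lit 9040875611) (nat_lit 171) (nat_lit 5) (nat_lit 186) (nat_lit 5) (nat_lit 187) (nat_lit 5) (nat_lit 342) (nat_lit 327) (nat_lit 111)))) (XT.nd (nat_lit 78) (nat_lit 1064) (nat_lit 0) (XT.lf (nat_lit 76) (nat_lit 8166329277) (nat_lit 0) (nat_lit 13708839582) (nat_lit 1216) (nat_lit 16323708731) (nat_lit 172) (nat_lit 5) (nat_lit 171) (nat_lit 5) (nat_lit 187) (nat_lit 5) (nat_lit 343) (nat_lit 327) (nat_lit 110)) (XT.nd (nat_lit 78) (nat_lit 1140) (nat_lit 0) (XT.lf (nat_lit 0) (nat_lit 24576184794)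 (nat_lit 1140) (nat_lit 12632735095) (nat_lit 76) (nat_lit 1626982607) (nat_lit 172) (nat_lit 5) (nat_lit 187) (nat_lit 5) (nat_lit 173) (nat_lit 5) (nat_lit 344) (nat_lit 327) (nat_lit 109)) (XT.lf (nat_lit 0) (nat_lit 5254391178) (nat_lit 1140) (nat_lit 22288353285) (nat_lit 1216) (nat_lit 11943761192) (nat_lit 157) (nat_lit 5) (nat_lit 172) (nat_lit 5) (nat_lit 173) (nat_lit 5) (nat_lit 345) (nat_lit 327) (nat_lit 108)))))) (XT.nd (nat_lit 468) (nat_lit 1520) (nat_lit 0) (XT.nd (nat_lit 234) (nat_lit 684) (nat_lit 0) (XT.nd (nat_lit 78) (nat_lit 532) (nat_lit 0) (XT.lf (nat_lit 0) (nat_lit 23935622106) (nat_lit 1140) (nat_lit 6788554591) (nat_lit 1216) (nat_lit 9428676755) (nat_lit 157) (nat_lit 5) (nat_lit 172) (nat_lit 5) (nat_lit 173) (nat_lit 5) (nat_lit 346) (nat_lit 327) (nat_lit 107)) (XT.nd (nat_lit 78) (nat_lit 0) (nat_lit 0) (XT.lf (nat_lit 0) (nat_lit 2293159358) (nat_lit 532) (nat_lit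 31816504623) (nat_lit 608) (nat_lit 6726272075) (nat_lit 150) (nat_lit 5) (nat_lit 157) (nat_lit 5) (nat_lit 158) (nat_lit 5) (nat_lit 347) (nat_lit 327) (nat_lit 106)) (XT.lf (nat_lit 0) (nat_lit 21621283436) (nat_lit 532) (nat_lit 16204144015) (nat_lit 608) (nat_lit 3707224995) (nat_lit 150) (nat_lit 5) (nat_lit 157) (nat_lit 5) (nat_lit 158) (nat_lit 5) (nat_lit 348) (nat_lit 327) (nat_lit 105)))) (XT.nd (nat_lit 78) (nat_lit 684) (nat_lit 0) (XT.lf (nat_lit 0) (nat_lit 41527829293) (nat_lit 532) (nat_lit 123276156) (nat_lit 608) (nat_lit 599214209) (nat_lit 150) (nat_lit 5) (nat_lit 157) (nat_lit 5) (nat_lit 158) (nat_lit 5) (nat_lit 349) (nat_lit 327) (nat_lit 104)) (XT.nd (nat_lit 78) (nat_lit 0) (nat_lit 0) (XT.lf (nat_lit 0) (nat_lit 2896285199) (nat_lit 684) (nat_lit 23749270976) (nat_lit 76) (nat_lit 16332862070) (nat_lit 141) (nat_lit 5) (nat_lit 150) (nat_lit 5) (nat_lit 142) (nat_lit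 5) (nat_lit 350) (nat_lit 327) (nat_lit 103)) (XT.lf (nat_lit 0) (nat_lit 6491696164) (nat_lit 684) (nat_lit 3942670000) (nat_lit 76) (nat_lit 33293605292) (nat_lit 141) (nat_lit 5) (nat_lit 150) (nat_lit 5) (nat_lit 142) (nat_lit 5) (nat_lit 351) (nat_lit 327) (nat_lit 102))))) (XT.nd (nat_lit 234) (nat_lit 456) (nat_lit 0) (XT.nd (nat_lit 78) (nat_lit 532) (nat_lit 0) (XT.lf (nat_lit 0) (nat_lit 10416658405) (nat_lit 608) (nat_lit 27772775826) (nat_lit 76) (nat_lit 6303928656) (nat_lit 134) (nat_lit 5) (nat_lit 142) (nat_lit 5) (nat_lit 135) (nat_lit 5) (nat_lit 352) (nat_lit 327) (nat_lit 101)) (XT.nd (nat_lit 78) (nat_lit 532) (nat_lit 0) (XT.lf (nat_lit 0) (nat_lit 14601462112) (nat_lit 608) (nat_lit 7301100931) (nat_lit 76) (nat_lit 23374892464) (nat_lit 134) (nat_lit 5) (nat_lit 142) (nat_lit 5) (nat_lit 135) (nat_lit 5) (nat_lit 353) (nat_lit 327) (nat_lit 100)) (XT.lf (nat_lit 0) (nat_lit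 14057644115) (nat_lit 532) (nat_lit 4987912620) (nat_lit 608) (nat_lit 27035503925) (nat_lit 127) (nat_lit 5) (nat_lit 134) (nat_lit 5) (nat_lit 135) (nat_lit 5) (nat_lit 354) (nat_lit 327) (nat_lit 99)))) (XT.nd (nat_lit 78) (nat_lit 456) (nat_lit 0) (XT.lf (nat_lit 0) (nat_lit 23815598808) (nat_lit 608) (nat_lit 10821424375) (nat_lit 76) (nat_lit 12265974144) (nat_lit 127) (nat_lit 5) (nat_lit 135) (nat_lit 5) (nat_lit 128) (nat_lit 5) (nat_lit 355) (nat_lit 327) (nat_lit 98)) (XT.nd (nat_lit 78) (nat_lit 0) (nat_lit 0) (XT.lf (nat_lit 0) (nat_lit 11184101629) (nat_lit 456) (nat_lit 17700216658) (nat_lit 532) (nat_lit 18860608559) (nat_lit 121) (nat_lit 5) (nat_lit 127) (nat_lit 5) (nat_lit 128) (nat_lit 5) (nat_lit 356) (nat_lit 327) (nat_lit 97)) (XT.lf (nat_lit 0) (nat_lit 34070252796) (nat_lit 456) (nat_lit 142829380) (nat_lit 532) (nat_lit 14395794564) (nat_lit 121) (nat_lit 5) (nat_lit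 127) (nat_lit 5) (nat_lit 128) (nat_lit 5) (nat_lit 357) (nat_lit 327) (nat_lit 96))))))) (XT.nd (nat_lit 936) (nat_lit 380) (nat_lit 0) (XT.nd (nat_lit 468) (nat_lit 1140) (nat_lit 0) (XT.nd (nat_lit 234) (nat_lit 456) (nat_lit 0) (XT.nd (nat_lit 78) (nat_lit 456) (nat_lit 0) (XT.lf (nat_lit 0) (nat_lit 8129039481) (nat_lit 456) (nat_lit 31822017937) (nat_lit 532) (nat_lit 9540209178) (nat_lit 115) (nat_lit 5) (nat_lit 121) (nat_lit 5) (nat_lit 122) (nat_lit 5) (nat_lit 358) (nat_lit 327) (nat_lit 95)) (XT.nd (nat_lit 78) (nat_lit 456) (nat_lit 0) (XT.lf (nat_lit 0) (nat_lit 31771963294) (nat_lit 456) (nat_lit 14236188632) (nat_lit 532) (nat_lit 4387568686) (nat_lit 115) (nat_lit 5) (nat_lit 121) (nat_lit 5) (nat_lit 122) (nat_lit 5) (nat_lit 359) (nat_lit 327) (nat_lit 94)) (XT.lf (nat_lit 0) (nat_lit 985245060) (nat_lit 456) (nat_lit 46481544684) (nat_lit 76) (nat_lit 3857748858) (nat_lit 109)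 (nat_lit 5) (nat_lit 115) (nat_lit 5) (nat_lit 110) (nat_lit 5) (nat_lit 360) (nat_lit 327) (nat_lit 93)))) (XT.nd (nat_lit 78) (nat_lit 456) (nat_lit 0) (XT.lf (nat_lit 0) (nat_lit 6760746744) (nat_lit 456) (nat_lit 23067682365) (nat_lit 76) (nat_lit 22441599811) (nat_lit 109) (nat_lit 5) (nat_lit 115) (nat_lit 5) (nat_lit 110) (nat_lit 5) (nat_lit 361) (nat_lit 327) (nat_lit 92)) (XT.nd (nat_lit 78) (nat_lit 0) (nat_lit 0) (XT.lf (nat_lit 0) (nat_lit 1068114363) (nat_lit 456) (nat_lit 11650512602) (nat_lit 532) (nat_lit 40524985233) (nat_lit 103) (nat_lit 5) (nat_lit 109) (nat_lit 5) (nat_lit 110) (nat_lit 5) (nat_lit 362) (nat_lit 327) (nat_lit 91)) (XT.lf (nat_lit 0) (nat_lit 19157341201) (nat_lit 532) (nat_lit 27910203908) (nat_lit 76) (nat_lit 7169796545) (nat_lit 103) (nat_lit 5) (nat_lit 110) (nat_lit 5) (nat_lit 104) (nat_lit 5) (nat_lit 363) (nat_lit 327) (nat_lit 90))))) (XT.nd (nat_lit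 234) (nat_lit 760) (nat_lit 0) (XT.nd (nat_lit 78) (nat_lit 380) (nat_lit 0) (XT.lf (nat_lit 0) (nat_lit 25903466927) (nat_lit 532) (nat_lit 3033608707) (nat_lit 76) (nat_lit 26320381415) (nat_lit 103) (nat_lit 5) (nat_lit 110) (nat_lit 5) (nat_lit 104) (nat_lit 5) (nat_lit 364) (nat_lit 327) (nat_lit 89)) (XT.nd (nat_lit 78) (nat_lit 0) (nat_lit 0) (XT.lf (nat_lit 0) (nat_lit 23037562267) (nat_lit 380) (nat_lit 10034795838) (nat_lit 456) (nat_lit 23229207867) (nat_lit 98) (nat_lit 5) (nat_lit 103) (nat_lit 5) (nat_lit 104) (nat_lit 5) (nat_lit 365) (nat_lit 327) (nat_lit 88)) (XT.lf (nat_lit 0) (nat_lit 40576891157) (nat_lit 456) (nat_lit 7515305251) (nat_lit 76) (nat_lit 9281185971) (nat_lit 98) (nat_lit 5) (nat_lit 104) (nat_lit 5) (nat_lit 99) (nat_lit 5) (nat_lit 366) (nat_lit 327) (nat_lit 87)))) (XT.nd (nat_lit 78) (nat_lit 380) (nat_lit 0) (XT.lf (nat_lit 0) (nat_lit 19281502292) (nat_lit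 380) (nat_lit 29308736215) (nat_lit 456) (nat_lit 9878605847) (nat_lit 93) (nat_lit 5) (nat_lit 98) (nat_lit 5) (nat_lit 99) (nat_lit 5) (nat_lit 367) (nat_lit 327) (nat_lit 86)) (XT.nd (nat_lit 78) (nat_lit 380) (nat_lit 0) (XT.lf (nat_lit 0) (nat_lit 47035033690) (nat_lit 380) (nat_lit 9883838606) (nat_lit 456) (nat_lit 2676052701) (nat_lit 93) (nat_lit 5) (nat_lit 98) (nat_lit 5) (nat_lit 99) (nat_lit 5) (nat_lit 368) (nat_lit 327) (nat_lit 85)) (XT.lf (nat_lit 0) (nat_lit 4893540478) (nat_lit 380) (nat_lit 45733785098) (nat_lit 76) (nat_lit 10118790887) (nat_lit 88) (nat_lit 5) (nat_lit 93) (nat_lit 5) (nat_lit 89) (nat_lit 5) (nat_lit 369) (nat_lit 327) (nat_lit 84)))))) (XT.nd (nat_lit 37674) (nat_lit 0) (nat_lit 6308) (XT.nd (nat_lit 37440) (nat_lit 0) (nat_lit 6232) (XT.nd (nat_lit 78) (nat_lit 380) (nat_lit 0) (XT.lf (nat_lit 0) (nat_lit 12861410448) (nat_lit 380) (nat_lit 18385701380)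 (nat_lit 76) (nat_lit 30677188993) (nat_lit 88) (nat_lit 5) (nat_lit 93) (nat_lit 5) (nat_lit 89) (nat_lit 5) (nat_lit 370) (nat_lit 327) (nat_lit 83)) (XT.nd (nat_lit 37284) (nat_lit 0) (nat_lit 6232) (XT.lf (nat_lit 0) (nat_lit 9976296689) (nat_lit 380) (nat_lit 11186975567) (nat_lit 456) (nat_lit 41971711016) (nat_lit 83) (nat_lit 5) (nat_lit 88) (nat_lit 5) (nat_lit 89) (nat_lit 5) (nat_lit 371) (nat_lit 327) (nat_lit 82)) (XT.lf (nat_lit 0) (nat_lit 611988400) (nat_lit 0) (nat_lit 611988400) (nat_lit 1140) (nat_lit 14104709340) (nat_lit 165) (nat_lit 5) (nat_lit 165) (nat_lit 3) (nat_lit 180) (nat_lit 3) (nat_lit 328) (nat_lit 328) (nat_lit 124)))) (XT.nd (nat_lit 78) (nat_lit 0) (nat_lit 0) (XT.lf (nat_lit 0) (nat_lit 2669707362) (nat_lit 1140) (nat_lit 16255033234) (nat_lit 1216) (nat_lit 12186828765) (nat_lit 165) (nat_lit 5) (nat_lit 180) (nat_lit 3) (nat_lit 181) (nat_lit 5) (nat_lit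 329) (nat_lit 328) (nat_lit 123)) (XT.nd (nat_lit 78) (nat_lit 0) (nat_lit 76) (XT.lf (nat_lit 0) (nat_lit 2907686155) (nat_lit 1140) (nat_lit 2694811370) (nat_lit 1216) (nat_lit 25976612044) (nat_lit 165) (nat_lit 5) (nat_lit 180) (nat_lit 3) (nat_lit 181) (nat_lit 5) (nat_lit 330) (nat_lit 328) (nat_lit 122)) (XT.lf (nat_lit 0) (nat_lit 3339984942) (nat_lit 1140) (nat_lit 20641396042) (nat_lit 1216) (nat_lit 8073683843) (nat_lit 166) (nat_lit 5) (nat_lit 181) (nat_lit 5) (nat_lit 182) (nat_lit 5) (nat_lit 331) (nat_lit 328) (nat_lit 121))))) (XT.nd (nat_lit 234) (nat_lit 0) (nat_lit 76) (XT.nd (nat_lit 78) (nat_lit 0) (nat_lit 76) (XT.lf (nat_lit 0) (nat_lit 3865802527) (nat_lit 1140) (nat_lit 6600984384) (nat_lit 1216) (nat_lit 22076099473) (nat_lit 166) (nat_lit 5) (nat_lit 181) (nat_lit 5) (nat_lit 182) (nat_lit 5) (nat_lit 332) (nat_lit 328) (nat_lit 120)) (XT.nd (nat_lit 78) (nat_lit 0)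 (nat_lit 0) (XT.lf (nat_lit 0) (nat_lit 4516081014) (nat_lit 1140) (nat_lit 25061382996) (nat_lit 1216) (nat_lit 3464622003) (nat_lit 167) (nat_lit 5) (nat_lit 182) (nat_lit 5) (nat_lit 183) (nat_lit 5) (nat_lit 333) (nat_lit 328) (nat_lit 119)) (XT.lf (nat_lit 0) (nat_lit 5354547989) (nat_lit 1140) (nat_lit 10524832093) (nat_lit 1216) (nat_lit 17671825046) (nat_lit 167) (nat_lit 5) (nat_lit 182) (nat_lit 5) (nat_lit 183) (nat_lit 5) (nat_lit 334) (nat_lit 328) (nat_lit 118)))) (XT.nd (nat_lit 78) (nat_lit 0) (nat_lit 76) (XT.lf (nat_lit 76) (nat_lit 4534916237) (nat_lit 0) (nat_lit 1724642803) (nat_lit 1216) (nat_lit 27814800860) (nat_lit 168) (nat_lit 5) (nat_lit 167) (nat_lit 5) (nat_lit 183) (nat_lit 5) (nat_lit 335) (nat_lit 328) (nat_lit 117)) (XT.nd (nat_lit 78) (nat_lit 0) (nat_lit 0) (XT.lf (nat_lit 0) (nat_lit 7420476475) (nat_lit 1140) (nat_lit 14473888684) (nat_lit 1216) (nat_lit 12711985153)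 (nat_lit 168) (nat_lit 5) (nat_lit 183) (nat_lit 5) (nat_lit 184) (nat_lit 5) (nat_lit 336) (nat_lit 328) (nat_lit 116)) (XT.lf (nat_lit 76) (nat_lit 1045548370) (nat_lit 0) (nat_lit 7595717642) (nat_lit 1216) (nat_lit 26512286654) (nat_lit 169) (nat_lit 5) (nat_lit 168) (nat_lit 5) (nat_lit 184) (nat_lit 5) (nat_lit 337) (nat_lit 328) (nat_lit 115))))))))
noncomputable def xc243 : XT := (XT.nd (nat_lit 1872) (nat_lit 1596) (nat_lit 0) (XT.nd (nat_lit 936) (nat_lit 3116) (nat_lit 0) (XT.nd (nat_lit 468) (nat_lit 1444) (nat_lit 0) (XT.nd (nat_lit 234) (nat_lit 0) (nat_lit 76) (XT.nd (nat_lit 78) (nat_lit 0) (nat_lit 0) (XT.lf (nat_lit 0) (nat_lit 10112812096) (nat_lit 1140) (nat_lit 18456988581) (nat_lit 1216) (nat_lit 7140949892) (nat_lit 169) (nat_lit 5) (nat_lit 184) (nat_lit 5) (nat_lit 185) (nat_lit 5) (nat_lit 338) (nat_lit 328) (nat_lit 114)) (XT.nd (nat_lit 78) (nat_lit 0) (nat_lit 76)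 (XT.lf (nat_lit 0) (nat_lit 11701740537) (nat_lit 1140) (nat_lit 2413072859) (nat_lit 1216) (nat_lit 22167657299) (nat_lit 169) (nat_lit 5) (nat_lit 184) (nat_lit 5) (nat_lit 185) (nat_lit 5) (nat_lit 339) (nat_lit 328) (nat_lit 113)) (XT.lf (nat_lit 0) (nat_lit 13483579232) (nat_lit 1140) (nat_lit 22484457441) (nat_lit 1216) (nat_lit 898951746) (nat_lit 170) (nat_lit 5) (nat_lit 185) (nat_lit 5) (nat_lit 186) (nat_lit 5) (nat_lit 340) (nat_lit 328) (nat_lit 112)))) (XT.nd (nat_lit 78) (nat_lit 0) (nat_lit 0) (XT.lf (nat_lit 0) (nat_lit 15481367793) (nat_lit 1140) (nat_lit 5878268288) (nat_lit 1216) (nat_lit 16104533924) (nat_lit 170) (nat_lit 5) (nat_lit 185) (nat_lit 5) (nat_lit 186) (nat_lit 5) (nat_lit 341) (nat_lit 328) (nat_lit 111)) (XT.nd (nat_lit 78) (nat_lit 0) (nat_lit 76) (XT.lf (nat_lit 76) (nat_lit 11448107828) (nat_lit 0) (nat_lit 6199218214) (nat_lit 1216) (nat_lit 20428696993)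 (nat_lit 171) (nat_lit 5) (nat_lit 170) (nat_lit 5) (nat_lit 186) (nat_lit 5) (nat_lit 342) (nat_lit 328) (nat_lit 110)) (XT.lf (nat_lit 0) (nat_lit 20026955259) (nat_lit 1140) (nat_lit 9382215858) (nat_lit 1216) (nat_lit 9292602762) (nat_lit 171) (nat_lit 5) (nat_lit 186) (nat_lit 5) (nat_lit 187) (nat_lit 5) (nat_lit 343) (nat_lit 328) (nat_lit 109))))) (XT.nd (nat_lit 234) (nat_lit 532) (nat_lit 0) (XT.nd (nat_lit 78) (nat_lit 1064) (nat_lit 0) (XT.lf (nat_lit 76) (nat_lit 8483625311) (nat_lit 0) (nat_lit 14135560752) (nat_lit 1216) (nat_lit 16722877707) (nat_lit 172) (nat_lit 5) (nat_lit 171) (nat_lit 5) (nat_lit 187) (nat_lit 5) (nat_lit 344) (nat_lit 328) (nat_lit 108)) (XT.nd (nat_lit 78) (nat_lit 1140) (nat_lit 0) (XT.lf (nat_lit 0) (nat_lit 25398532052) (nat_lit 1140) (nat_lit 12938673579) (nat_lit 76) (nat_lit 1661079095) (nat_lit 172) (nat_lit 5) (nat_lit 187) (nat_lit 5) (nat_lit 173)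 (nat_lit 5) (nat_lit 345) (nat_lit 328) (nat_lit 107)) (XT.lf (nat_lit 0) (nat_lit 5484350369) (nat_lit 1140) (nat_lit 22967955872) (nat_lit 1216) (nat_lit 12216157371) (nat_lit 157) (nat_lit 5) (nat_lit 172) (nat_lit 5) (nat_lit 173) (nat_lit 5) (nat_lit 346) (nat_lit 328) (nat_lit 106)))) (XT.nd (nat_lit 78) (nat_lit 532) (nat_lit 0) (XT.lf (nat_lit 0) (nat_lit 24723911600) (nat_lit 1140) (nat_lit 7002844227) (nat_lit 1216) (nat_lit 9628122828) (nat_lit 157) (nat_lit 5) (nat_lit 172) (nat_lit 5) (nat_lit 173) (nat_lit 5) (nat_lit 347) (nat_lit 328) (nat_lit 105)) (XT.nd (nat_lit 78) (nat_lit 0) (nat_lit 0) (XT.lf (nat_lit 0) (nat_lit 2434123038) (nat_lit 532) (nat_lit 32777924224) (nat_lit 608) (nat_lit 6846463215) (nat_lit 150) (nat_lit 5) (nat_lit 157) (nat_lit 5) (nat_lit 158) (nat_lit 5) (nat_lit 348) (nat_lit 328) (nat_lit 104)) (XT.lf (nat_lit 0) (nat_lit 22339988832) (nat_lit 532) (nat_lit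 16696991114) (nat_lit 608) (nat_lit 3739221335) (nat_lit 150) (nat_lit 5) (nat_lit 157) (nat_lit 5) (nat_lit 158) (nat_lit 5) (nat_lit 349) (nat_lit 328) (nat_lit 103)))))) (XT.nd (nat_lit 468) (nat_lit 1368) (nat_lit 0) (XT.nd (nat_lit 234) (nat_lit 1064) (nat_lit 0) (XT.nd (nat_lit 78) (nat_lit 684) (nat_lit 0) (XT.lf (nat_lit 0) (nat_lit 42841690281) (nat_lit 532) (nat_lit 133501410) (nat_lit 608) (nat_lit 540277616) (nat_lit 150) (nat_lit 5) (nat_lit 157) (nat_lit 5) (nat_lit 158) (nat_lit 5) (nat_lit 350) (nat_lit 328) (nat_lit 102)) (XT.nd (nat_lit 78) (nat_lit 0) (nat_lit 0) (XT.lf (nat_lit 0) (nat_lit 3057005133) (nat_lit 684) (nat_lit 24390405331) (nat_lit 76) (nat_lit 16818029118) (nat_lit 141) (nat_lit 5) (nat_lit 150) (nat_lit 5) (nat_lit 142) (nat_lit 5) (nat_lit 351) (nat_lit 328) (nat_lit 101)) (XT.lf (nat_lit 0) (nat_lit 6758127998) (nat_lit 684) (nat_lit 3991684300) (nat_lit 76)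 (nat_lit 34287734991) (nat_lit 141) (nat_lit 5) (nat_lit 150) (nat_lit 5) (nat_lit 142) (nat_lit 5) (nat_lit 352) (nat_lit 328) (nat_lit 100)))) (XT.nd (nat_lit 78) (nat_lit 532) (nat_lit 0) (XT.lf (nat_lit 0) (nat_lit 10799394598) (nat_lit 608) (nat_lit 28535139199) (nat_lit 76) (nat_lit 6491413290) (nat_lit 134) (nat_lit 5) (nat_lit 142) (nat_lit 5) (nat_lit 135) (nat_lit 5) (nat_lit 353) (nat_lit 328) (nat_lit 99)) (XT.nd (nat_lit 78) (nat_lit 532) (nat_lit 0) (XT.lf (nat_lit 0) (nat_lit 15107696694) (nat_lit 608) (nat_lit 7451376773) (nat_lit 76) (nat_lit 24074553582) (nat_lit 134) (nat_lit 5) (nat_lit 142) (nat_lit 5) (nat_lit 135) (nat_lit 5) (nat_lit 354) (nat_lit 328) (nat_lit 98)) (XT.lf (nat_lit 0) (nat_lit 14547456535) (nat_lit 532) (nat_lit 5136325941) (nat_lit 608) (nat_lit 27777600931) (nat_lit 127) (nat_lit 5) (nat_lit 134) (nat_lit 5) (nat_lit 135) (nat_lit 5) (nat_lit 355) (nat_lit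 328) (nat_lit 97))))) (XT.nd (nat_lit 234) (nat_lit 912) (nat_lit 0) (XT.nd (nat_lit 78) (nat_lit 456) (nat_lit 0) (XT.lf (nat_lit 0) (nat_lit 24594989883) (nat_lit 608) (nat_lit 11077930792) (nat_lit 76) (nat_lit 12635118585) (nat_lit 127) (nat_lit 5) (nat_lit 135) (nat_lit 5) (nat_lit 128) (nat_lit 5) (nat_lit 356) (nat_lit 328) (nat_lit 96)) (XT.nd (nat_lit 78) (nat_lit 0) (nat_lit 0) (XT.lf (nat_lit 0) (nat_lit 11587092988) (nat_lit 456) (nat_lit 18227435540) (nat_lit 532) (nat_lit 19360738329) (nat_lit 121) (nat_lit 5) (nat_lit 127) (nat_lit 5) (nat_lit 128) (nat_lit 5) (nat_lit 357) (nat_lit 328) (nat_lit 95)) (XT.lf (nat_lit 0) (nat_lit 35157863594) (nat_lit 456) (nat_lit 143436963) (nat_lit 532) (nat_lit 14763893171) (nat_lit 121) (nat_lit 5) (nat_lit 127) (nat_lit 5) (nat_lit 128) (nat_lit 5) (nat_lit 358) (nat_lit 328) (nat_lit 94)))) (XT.nd (nat_lit 78) (nat_lit 456) (nat_lit 0) (XT.lf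 (nat_lit 0) (nat_lit 8439666892) (nat_lit 456) (nat_lit 32770623430) (nat_lit 532) (nat_lit 9763801454) (nat_lit 115) (nat_lit 5) (nat_lit 121) (nat_lit 5) (nat_lit 122) (nat_lit 5) (nat_lit 359) (nat_lit 328) (nat_lit 93)) (XT.nd (nat_lit 78) (nat_lit 456) (nat_lit 0) (XT.lf (nat_lit 0) (nat_lit 32789934063) (nat_lit 456) (nat_lit 14657395606) (nat_lit 532) (nat_lit 4458405455) (nat_lit 115) (nat_lit 5) (nat_lit 121) (nat_lit 5) (nat_lit 122) (nat_lit 5) (nat_lit 360) (nat_lit 328) (nat_lit 92)) (XT.lf (nat_lit 0) (nat_lit 1073366152) (nat_lit 456) (nat_lit 47808782094) (nat_lit 76) (nat_lit 3980285608) (nat_lit 109) (nat_lit 5) (nat_lit 115) (nat_lit 5) (nat_lit 110) (nat_lit 5) (nat_lit 361) (nat_lit 328) (nat_lit 91))))))) (XT.nd (nat_lit 38298) (nat_lit 0) (nat_lit 5928) (XT.nd (nat_lit 468) (nat_lit 760) (nat_lit 0) (XT.nd (nat_lit 234) (nat_lit 380) (nat_lit 0) (XT.nd (nat_lit 78) (nat_lit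 456) (nat_lit 0) (XT.lf (nat_lit 0) (nat_lit 7020427146) (nat_lit 456) (nat_lit 23694461447) (nat_lit 76) (nat_lit 23121453907) (nat_lit 109) (nat_lit 5) (nat_lit 115) (nat_lit 5) (nat_lit 110) (nat_lit 5) (nat_lit 362) (nat_lit 328) (nat_lit 90)) (XT.nd (nat_lit 78) (nat_lit 0) (nat_lit 0) (XT.lf (nat_lit 0) (nat_lit 1164769464) (nat_lit 456) (nat_lit 11991239339) (nat_lit 532) (nat_lit 41683157898) (nat_lit 103) (nat_lit 5) (nat_lit 109) (nat_lit 5) (nat_lit 110) (nat_lit 5) (nat_lit 363) (nat_lit 328) (nat_lit 89)) (XT.lf (nat_lit 0) (nat_lit 19786340573) (nat_lit 532) (nat_lit 28683159490) (nat_lit 76) (nat_lit 7393256599) (nat_lit 103) (nat_lit 5) (nat_lit 110) (nat_lit 5) (nat_lit 104) (nat_lit 5) (nat_lit 364) (nat_lit 328) (nat_lit 88)))) (XT.nd (nat_lit 78) (nat_lit 380) (nat_lit 0) (XT.lf (nat_lit 0) (nat_lit 26733269125) (nat_lit 532) (nat_lit 3062140721) (nat_lit 76) (nat_lit 27118115341)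 (nat_lit 103) (nat_lit 5) (nat_lit 110) (nat_lit 5) (nat_lit 104) (nat_lit 5) (nat_lit 365) (nat_lit 328) (nat_lit 87)) (XT.nd (nat_lit 78) (nat_lit 0) (nat_lit 0) (XT.lf (nat_lit 0) (nat_lit 23790552870) (nat_lit 380) (nat_lit 10325733941) (nat_lit 456) (nat_lit 23872700947) (nat_lit 98) (nat_lit 5) (nat_lit 103) (nat_lit 5) (nat_lit 104) (nat_lit 5) (nat_lit 366) (nat_lit 328) (nat_lit 86)) (XT.lf (nat_lit 0) (nat_lit 41844542655) (nat_lit 456) (nat_lit 7679218986) (nat_lit 76) (nat_lit 9569241522) (nat_lit 98) (nat_lit 5) (nat_lit 104) (nat_lit 5) (nat_lit 99) (nat_lit 5) (nat_lit 367) (nat_lit 328) (nat_lit 85))))) (XT.nd (nat_lit 37596) (nat_lit 0) (nat_lit 5852) (XT.nd (nat_lit 78) (nat_lit 380) (nat_lit 0) (XT.lf (nat_lit 0) (nat_lit 19920889398) (nat_lit 380) (nat_lit 30176520489) (nat_lit 456) (nat_lit 10123947578) (nat_lit 93) (nat_lit 5) (nat_lit 98) (nat_lit 5) (nat_lit 99) (nat_lit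 5) (nat_lit 368) (nat_lit 328) (nat_lit 84)) (XT.nd (nat_lit 78) (nat_lit 380) (nat_lit 0) (XT.lf (nat_lit 0) (nat_lit 48505251726) (nat_lit 380) (nat_lit 10169210257) (nat_lit 456) (nat_lit 2706803753) (nat_lit 93) (nat_lit 5) (nat_lit 98) (nat_lit 5) (nat_lit 99) (nat_lit 5) (nat_lit 369) (nat_lit 328) (nat_lit 83)) (XT.lf (nat_lit 0) (nat_lit 5088183451) (nat_lit 380) (nat_lit 47044810980) (nat_lit 76) (nat_lit 10434007922) (nat_lit 88) (nat_lit 5) (nat_lit 93) (nat_lit 5) (nat_lit 89) (nat_lit 5) (nat_lit 370) (nat_lit 328) (nat_lit 82)))) (XT.nd (nat_lit 78) (nat_lit 0) (nat_lit 0) (XT.lf (nat_lit 0) (nat_lit 662810842) (nat_lit 0) (nat_lit 662810842) (nat_lit 1140) (nat_lit 14460865883) (nat_lit 165) (nat_lit 5) (nat_lit 165) (nat_lit 3) (nat_lit 180) (nat_lit 3) (nat_lit 329) (nat_lit 329) (nat_lit 122)) (XT.nd (nat_lit 78) (nat_lit 0) (nat_lit 0) (XT.lf (nat_lit 0) (nat_lit 2875261742)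 (nat_lit 1140) (nat_lit 16675045397) (nat_lit 1216) (nat_lit 12490629116) (nat_lit 165) (nat_lit 5) (nat_lit 180) (nat_lit 3) (nat_lit 181) (nat_lit 5) (nat_lit 330) (nat_lit 329) (nat_lit 121)) (XT.lf (nat_lit 0) (nat_lit 3116725633) (nat_lit 1140) (nat_lit 2709986940) (nat_lit 1216) (nat_lit 26695906025) (nat_lit 165) (nat_lit 5) (nat_lit 180) (nat_lit 3) (nat_lit 181) (nat_lit 5) (nat_lit 331) (nat_lit 329) (nat_lit 120)))))) (XT.nd (nat_lit 468) (nat_lit 0) (nat_lit 152) (XT.nd (nat_lit 234) (nat_lit 0) (nat_lit 76) (XT.nd (nat_lit 78) (nat_lit 0) (nat_lit 0) (XT.lf (nat_lit 0) (nat_lit 3558552865) (nat_lit 1140) (nat_lit 21191324757) (nat_lit 1216) (nat_lit 8263084222) (nat_lit 166) (nat_lit 5) (nat_lit 181) (nat_lit 5) (nat_lit 182) (nat_lit 5) (nat_lit 332) (nat_lit 329) (nat_lit 119)) (XT.nd (nat_lit 78) (nat_lit 0) (nat_lit 76) (XT.lf (nat_lit 0) (nat_lit 4096697354) (nat_lit 1140) (nat_lit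 6731719580) (nat_lit 1216) (nat_lit 22687110481) (nat_lit 166) (nat_lit 5) (nat_lit 181) (nat_lit 5) (nat_lit 182) (nat_lit 5) (nat_lit 333) (nat_lit 329) (nat_lit 118)) (XT.lf (nat_lit 0) (nat_lit 4763339385) (nat_lit 1140) (nat_lit 25742593165) (nat_lit 1216) (nat_lit 3523870593) (nat_lit 167) (nat_lit 5) (nat_lit 182) (nat_lit 5) (nat_lit 183) (nat_lit 5) (nat_lit 334) (nat_lit 329) (nat_lit 117)))) (XT.nd (nat_lit 78) (nat_lit 0) (nat_lit 0) (XT.lf (nat_lit 0) (nat_lit 5623704759) (nat_lit 1140) (nat_lit 10772002958) (nat_lit 1216) (nat_lit 18158591380) (nat_lit 167) (nat_lit 5) (nat_lit 182) (nat_lit 5) (nat_lit 183) (nat_lit 5) (nat_lit 335) (nat_lit 329) (nat_lit 116)) (XT.nd (nat_lit 78) (nat_lit 0) (nat_lit 76) (XT.lf (nat_lit 76) (nat_lit 4738865527) (nat_lit 0) (nat_lit 1814492542) (nat_lit 1216) (nat_lit 28539871120) (nat_lit 168) (nat_lit 5) (nat_lit 167) (nat_lit 5) (nat_lit 183)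 (nat_lit 5) (nat_lit 336) (nat_lit 329) (nat_lit 115)) (XT.lf (nat_lit 0) (nat_lit 7745659620) (nat_lit 1140) (nat_lit 14838561992) (nat_lit 1216) (nat_lit 13057066278) (nat_lit 168) (nat_lit 5) (nat_lit 183) (nat_lit 5) (nat_lit 184) (nat_lit 5) (nat_lit 337) (nat_lit 329) (nat_lit 114))))) (XT.nd (nat_lit 234) (nat_lit 0) (nat_lit 152) (XT.nd (nat_lit 78) (nat_lit 0) (nat_lit 76) (XT.lf (nat_lit 76) (nat_lit 1145776375) (nat_lit 0) (nat_lit 7854970965) (nat_lit 1216) (nat_lit 27204233862) (nat_lit 169) (nat_lit 5) (nat_lit 168) (nat_lit 5) (nat_lit 184) (nat_lit 5) (nat_lit 338) (nat_lit 329) (nat_lit 113)) (XT.nd (nat_lit 78) (nat_lit 0) (nat_lit 0) (XT.lf (nat_lit 0) (nat_lit 10513227223) (nat_lit 1140) (nat_lit 18940464006) (nat_lit 1216) (nat_lit 7325305164) (nat_lit 169) (nat_lit 5) (nat_lit 184) (nat_lit 5) (nat_lit 185) (nat_lit 5) (nat_lit 339) (nat_lit 329) (nat_lit 112)) (XT.lf (nat_lit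 0) (nat_lit 12146997378) (nat_lit 1140) (nat_lit 2417276470) (nat_lit 1216) (nat_lit 22803683887) (nat_lit 169) (nat_lit 5) (nat_lit 184) (nat_lit 5) (nat_lit 185) (nat_lit 5) (nat_lit 340) (nat_lit 329) (nat_lit 111)))) (XT.nd (nat_lit 78) (nat_lit 0) (nat_lit 0) (XT.lf (nat_lit 0) (nat_lit 13979960083) (nat_lit 1140) (nat_lit 23088315183) (nat_lit 1216) (nat_lit 901810348) (nat_lit 170) (nat_lit 5) (nat_lit 185) (nat_lit 5) (nat_lit 186) (nat_lit 5) (nat_lit 341) (nat_lit 329) (nat_lit 110)) (XT.nd (nat_lit 78) (nat_lit 0) (nat_lit 0) (XT.lf (nat_lit 0) (nat_lit 16035006374) (nat_lit 1140) (nat_lit 5985998879) (nat_lit 1216) (nat_lit 16564262222) (nat_lit 170) (nat_lit 5) (nat_lit 185) (nat_lit 5) (nat_lit 186) (nat_lit 5) (nat_lit 342) (nat_lit 329) (nat_lit 109)) (XT.lf (nat_lit 76) (nat_lit 11859495800) (nat_lit 0) (nat_lit 6404502711) (nat_lit 1216) (nat_lit 20951540351) (nat_lit 171) (nat_lit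 5) (nat_lit 170) (nat_lit 5) (nat_lit 186) (nat_lit 5) (nat_lit 343) (nat_lit 329) (nat_lit 108))))))))
noncomputable def xc244 : XT := (XT.nd (nat_lit 1794) (nat_lit 760) (nat_lit 0) (XT.nd (nat_lit 858) (nat_lit 2356) (nat_lit 0) (XT.nd (nat_lit 390) (nat_lit 1748) (nat_lit 0) (XT.nd (nat_lit 156) (nat_lit 1064) (nat_lit 0) (XT.nd (nat_lit 78) (nat_lit 0) (nat_lit 0) (XT.lf (nat_lit 0) (nat_lit 20712295069) (nat_lit 1140) (nat_lit 9594852041) (nat_lit 1216) (nat_lit 9553001056) (nat_lit 171) (nat_lit 5) (nat_lit 186) (nat_lit 5) (nat_lit 187) (nat_lit 5) (nat_lit 344) (nat_lit 329) (nat_lit 107)) (XT.lf (nat_lit 76) (nat_lit 8806289556) (nat_lit 0) (nat_lit 14574196321) (nat_lit 1216) (nat_lit 17139219249) (nat_lit 172) (nat_lit 5) (nat_lit 171) (nat_lit 5) (nat_lit 187) (nat_lit 5) (nat_lit 345) (nat_lit 329) (nat_lit 106))) (XT.nd (nat_lit 78) (nat_lit 1140) (nat_lit 0) (XT.lf (nat_lit 0)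 (nat_lit 26240666837) (nat_lit 1140) (nat_lit 13257983217) (nat_lit 76) (nat_lit 1697043062) (nat_lit 172) (nat_lit 5) (nat_lit 187) (nat_lit 5) (nat_lit 173) (nat_lit 5) (nat_lit 346) (nat_lit 329) (nat_lit 105)) (XT.nd (nat_lit 78) (nat_lit 0) (nat_lit 0) (XT.lf (nat_lit 0) (nat_lit 5717056444) (nat_lit 1140) (nat_lit 23667317848) (nat_lit 1216) (nat_lit 12501657402) (nat_lit 157) (nat_lit 5) (nat_lit 172) (nat_lit 5) (nat_lit 173) (nat_lit 5) (nat_lit 347) (nat_lit 329) (nat_lit 104)) (XT.lf (nat_lit 0) (nat_lit 25531818815) (nat_lit 1140) (nat_lit 7222952175) (nat_lit 1216) (nat_lit 9838340600) (nat_lit 157) (nat_lit 5) (nat_lit 172) (nat_lit 5) (nat_lit 173) (nat_lit 5) (nat_lit 348) (nat_lit 329) (nat_lit 103))))) (XT.nd (nat_lit 234) (nat_lit 1216) (nat_lit 0) (XT.nd (nat_lit 78) (nat_lit 0) (nat_lit 0) (XT.lf (nat_lit 0) (nat_lit 2575172838) (nat_lit 532) (nat_lit 33767788920) (nat_lit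 608) (nat_lit 6974944092) (nat_lit 150) (nat_lit 5) (nat_lit 157) (nat_lit 5) (nat_lit 158) (nat_lit 5) (nat_lit 349) (nat_lit 329) (nat_lit 102)) (XT.nd (nat_lit 78) (nat_lit 0) (nat_lit 0) (XT.lf (nat_lit 0) (nat_lit 23076233263) (nat_lit 532) (nat_lit 17204237711) (nat_lit 608) (nat_lit 3776725141) (nat_lit 150) (nat_lit 5) (nat_lit 157) (nat_lit 5) (nat_lit 158) (nat_lit 5) (nat_lit 350) (nat_lit 329) (nat_lit 101)) (XT.lf (nat_lit 0) (nat_lit 44191062122) (nat_lit 532) (nat_lit 143658747) (nat_lit 608) (nat_lit 483988047) (nat_lit 150) (nat_lit 5) (nat_lit 157) (nat_lit 5) (nat_lit 158) (nat_lit 5) (nat_lit 351) (nat_lit 329) (nat_lit 100)))) (XT.nd (nat_lit 78) (nat_lit 532) (nat_lit 0) (XT.lf (nat_lit 0) (nat_lit 3218308442) (nat_lit 684) (nat_lit 25054869142) (nat_lit 76) (nat_lit 17318027797) (nat_lit 141) (nat_lit 5) (nat_lit 150) (nat_lit 5) (nat_lit 142) (nat_lit 5) (nat_lit 352) (nat_lit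 329) (nat_lit 99)) (XT.nd (nat_lit 78) (nat_lit 532) (nat_lit 0) (XT.lf (nat_lit 0) (nat_lit 7028438008) (nat_lit 684) (nat_lit 4046145170) (nat_lit 76) (nat_lit 35311957144) (nat_lit 141) (nat_lit 5) (nat_lit 150) (nat_lit 5) (nat_lit 142) (nat_lit 5) (nat_lit 353) (nat_lit 329) (nat_lit 98)) (XT.lf (nat_lit 0) (nat_lit 11189581017) (nat_lit 608) (nat_lit 29324438825) (nat_lit 76) (nat_lit 6684616217) (nat_lit 134) (nat_lit 5) (nat_lit 142) (nat_lit 5) (nat_lit 135) (nat_lit 5) (nat_lit 354) (nat_lit 329) (nat_lit 97)))))) (XT.nd (nat_lit 468) (nat_lit 912) (nat_lit 0) (XT.nd (nat_lit 234) (nat_lit 912) (nat_lit 0) (XT.nd (nat_lit 78) (nat_lit 532) (nat_lit 0) (XT.lf (nat_lit 0) (nat_lit 15625203888) (nat_lit 608) (nat_lit 7610107833) (nat_lit 76) (nat_lit 24795295557) (nat_lit 134) (nat_lit 5) (nat_lit 142) (nat_lit 5) (nat_lit 135) (nat_lit 5) (nat_lit 355) (nat_lit 329) (nat_lit 96)) (XT.nd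 (nat_lit 78) (nat_lit 0) (nat_lit 0) (XT.lf (nat_lit 0) (nat_lit 15048055079) (nat_lit 532) (nat_lit 5289261927) (nat_lit 608) (nat_lit 28545919900) (nat_lit 127) (nat_lit 5) (nat_lit 134) (nat_lit 5) (nat_lit 135) (nat_lit 5) (nat_lit 356) (nat_lit 329) (nat_lit 95)) (XT.lf (nat_lit 0) (nat_lit 25394035839) (nat_lit 608) (nat_lit 11346043705) (nat_lit 76) (nat_lit 13015270470) (nat_lit 127) (nat_lit 5) (nat_lit 135) (nat_lit 5) (nat_lit 128) (nat_lit 5) (nat_lit 357) (nat_lit 329) (nat_lit 94)))) (XT.nd (nat_lit 78) (nat_lit 456) (nat_lit 0) (XT.lf (nat_lit 0) (nat_lit 11998301132) (nat_lit 456) (nat_lit 18770688414) (nat_lit 532) (nat_lit 19879642780) (nat_lit 121) (nat_lit 5) (nat_lit 127) (nat_lit 5) (nat_lit 128) (nat_lit 5) (nat_lit 358) (nat_lit 329) (nat_lit 93)) (XT.nd (nat_lit 78) (nat_lit 456) (nat_lit 0) (XT.lf (nat_lit 0) (nat_lit 36274342564) (nat_lit 456) (nat_lit 144273865) (nat_lit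 532) (nat_lit 15146695696) (nat_lit 121) (nat_lit 5) (nat_lit 127) (nat_lit 5) (nat_lit 128) (nat_lit 5) (nat_lit 359) (nat_lit 329) (nat_lit 92)) (XT.lf (nat_lit 0) (nat_lit 8755781046) (nat_lit 456) (nat_lit 33748034672) (nat_lit 532) (nat_lit 9997695797) (nat_lit 115) (nat_lit 5) (nat_lit 121) (nat_lit 5) (nat_lit 122) (nat_lit 5) (nat_lit 360) (nat_lit 329) (nat_lit 91))))) (XT.nd (nat_lit 234) (nat_lit 456) (nat_lit 0) (XT.nd (nat_lit 78) (nat_lit 456) (nat_lit 0) (XT.lf (nat_lit 0) (nat_lit 33834723490) (nat_lit 456) (nat_lit 15091576250) (nat_lit 532) (nat_lit 4534856939) (nat_lit 115) (nat_lit 5) (nat_lit 121) (nat_lit 5) (nat_lit 122) (nat_lit 5) (nat_lit 361) (nat_lit 329) (nat_lit 90)) (XT.nd (nat_lit 78) (nat_lit 0) (nat_lit 0) (XT.lf (nat_lit 0) (nat_lit 1160769078) (nat_lit 456) (nat_lit 49179694693) (nat_lit 76) (nat_lit 4106107867) (nat_lit 109) (nat_lit 5) (nat_lit 115) (nat_lit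 5) (nat_lit 110) (nat_lit 5) (nat_lit 362) (nat_lit 329) (nat_lit 89)) (XT.lf (nat_lit 0) (nat_lit 7284634079) (nat_lit 456) (nat_lit 24343789598) (nat_lit 76) (nat_lit 23821324408) (nat_lit 109) (nat_lit 5) (nat_lit 115) (nat_lit 5) (nat_lit 110) (nat_lit 5) (nat_lit 363) (nat_lit 329) (nat_lit 88)))) (XT.nd (nat_lit 78) (nat_lit 0) (nat_lit 0) (XT.lf (nat_lit 0) (nat_lit 1260615243) (nat_lit 456) (nat_lit 12342692382) (nat_lit 532) (nat_lit 42879380892) (nat_lit 103) (nat_lit 5) (nat_lit 109) (nat_lit 5) (nat_lit 110) (nat_lit 5) (nat_lit 364) (nat_lit 329) (nat_lit 87)) (XT.nd (nat_lit 78) (nat_lit 0) (nat_lit 0) (XT.lf (nat_lit 0) (nat_lit 20431094082) (nat_lit 532) (nat_lit 29482997723) (nat_lit 76) (nat_lit 7622940204) (nat_lit 103) (nat_lit 5) (nat_lit 110) (nat_lit 5) (nat_lit 104) (nat_lit 5) (nat_lit 365) (nat_lit 329) (nat_lit 86)) (XT.lf (nat_lit 0) (nat_lit 27584940298) (nat_lit 532)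 (nat_lit 3095115087) (nat_lit 76) (nat_lit 27939315021) (nat_lit 103) (nat_lit 5) (nat_lit 110) (nat_lit 5) (nat_lit 104) (nat_lit 5) (nat_lit 366) (nat_lit 329) (nat_lit 85))))))) (XT.nd (nat_lit 38376) (nat_lit 0) (nat_lit 4864) (XT.nd (nat_lit 37908) (nat_lit 0) (nat_lit 5472) (XT.nd (nat_lit 234) (nat_lit 0) (nat_lit 0) (XT.nd (nat_lit 78) (nat_lit 380) (nat_lit 0) (XT.lf (nat_lit 0) (nat_lit 24562581960) (nat_lit 380) (nat_lit 10625980300) (nat_lit 456) (nat_lit 24538563230) (nat_lit 98) (nat_lit 5) (nat_lit 103) (nat_lit 5) (nat_lit 104) (nat_lit 5) (nat_lit 367) (nat_lit 329) (nat_lit 84)) (XT.nd (nat_lit 78) (nat_lit 380) (nat_lit 0) (XT.lf (nat_lit 0) (nat_lit 43147333703) (nat_lit 456) (nat_lit 7851583091) (nat_lit 76) (nat_lit 9865386515) (nat_lit 98) (nat_lit 5) (nat_lit 104) (nat_lit 5) (nat_lit 99) (nat_lit 5) (nat_lit 368) (nat_lit 329) (nat_lit 83)) (XT.lf (nat_lit 0) (nat_lit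 20575959794) (nat_lit 380) (nat_lit 31070997164) (nat_lit 456) (nat_lit 10379578112) (nat_lit 93) (nat_lit 5) (nat_lit 98) (nat_lit 5) (nat_lit 99) (nat_lit 5) (nat_lit 369) (nat_lit 329) (nat_lit 82)))) (XT.nd (nat_lit 37518) (nat_lit 0) (nat_lit 5472) (XT.lf (nat_lit 0) (nat_lit 50016179874) (nat_lit 380) (nat_lit 10463782740) (nat_lit 456) (nat_lit 2741320591) (nat_lit 93) (nat_lit 5) (nat_lit 98) (nat_lit 5) (nat_lit 99) (nat_lit 5) (nat_lit 370) (nat_lit 329) (nat_lit 81)) (XT.nd (nat_lit 78) (nat_lit 0) (nat_lit 0) (XT.lf (nat_lit 0) (nat_lit 713294460) (nat_lit 0) (nat_lit 713294460) (nat_lit 1140) (nat_lit 14831552320) (nat_lit 165) (nat_lit 5) (nat_lit 165) (nat_lit 3) (nat_lit 180) (nat_lit 3) (nat_lit 330) (nat_lit 330) (nat_lit 120)) (XT.lf (nat_lit 0) (nat_lit 3079780656) (nat_lit 1140) (nat_lit 17111540670) (nat_lit 1216) (nat_lit 12807091309) (nat_lit 165) (nat_lit 5) (nat_lit 180)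 (nat_lit 3) (nat_lit 181) (nat_lit 5) (nat_lit 331) (nat_lit 330) (nat_lit 119))))) (XT.nd (nat_lit 234) (nat_lit 0) (nat_lit 152) (XT.nd (nat_lit 78) (nat_lit 0) (nat_lit 76) (XT.lf (nat_lit 0) (nat_lit 3325043966) (nat_lit 1140) (nat_lit 2729387433) (nat_lit 1216) (nat_lit 27440223322) (nat_lit 165) (nat_lit 5) (nat_lit 180) (nat_lit 3) (nat_lit 181) (nat_lit 5) (nat_lit 332) (nat_lit 330) (nat_lit 118)) (XT.nd (nat_lit 78) (nat_lit 0) (nat_lit 0) (XT.lf (nat_lit 0) (nat_lit 3776882997) (nat_lit 1140) (nat_lit 21761730193) (nat_lit 1216) (nat_lit 8461198131) (nat_lit 166) (nat_lit 5) (nat_lit 181) (nat_lit 5) (nat_lit 182) (nat_lit 5) (nat_lit 333) (nat_lit 330) (nat_lit 117)) (XT.lf (nat_lit 0) (nat_lit 4327922106) (nat_lit 1140) (nat_lit 6870239801) (nat_lit 1216) (nat_lit 23319395040) (nat_lit 166) (nat_lit 5) (nat_lit 181) (nat_lit 5) (nat_lit 182) (nat_lit 5) (nat_lit 334) (nat_lit 330)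 (nat_lit 116)))) (XT.nd (nat_lit 78) (nat_lit 0) (nat_lit 0) (XT.lf (nat_lit 0) (nat_lit 5011599111) (nat_lit 1140) (nat_lit 26448294166) (nat_lit 1216) (nat_lit 3587462033) (nat_lit 167) (nat_lit 5) (nat_lit 182) (nat_lit 5) (nat_lit 183) (nat_lit 5) (nat_lit 335) (nat_lit 330) (nat_lit 115)) (XT.nd (nat_lit 78) (nat_lit 0) (nat_lit 0) (XT.lf (nat_lit 0) (nat_lit 5894706721) (nat_lit 1140) (nat_lit 11030525383) (nat_lit 1216) (nat_lit 18662451376) (nat_lit 167) (nat_lit 5) (nat_lit 182) (nat_lit 5) (nat_lit 183) (nat_lit 5) (nat_lit 336) (nat_lit 330) (nat_lit 114)) (XT.lf (nat_lit 76) (nat_lit 4945035454) (nat_lit 0) (nat_lit 1904850077) (nat_lit 1216) (nat_lit 29292971988) (nat_lit 168) (nat_lit 5) (nat_lit 167) (nat_lit 5) (nat_lit 183) (nat_lit 5) (nat_lit 337) (nat_lit 330) (nat_lit 113)))))) (XT.nd (nat_lit 468) (nat_lit 836) (nat_lit 0) (XT.nd (nat_lit 234) (nat_lit 0) (nat_lit 76) (XT.nd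 (nat_lit 78) (nat_lit 0) (nat_lit 0) (XT.lf (nat_lit 0) (nat_lit 8074710388) (nat_lit 1140) (nat_lit 15218167573) (nat_lit 1216) (nat_lit 13414582366) (nat_lit 168) (nat_lit 5) (nat_lit 183) (nat_lit 5) (nat_lit 184) (nat_lit 5) (nat_lit 338) (nat_lit 330) (nat_lit 112)) (XT.nd (nat_lit 78) (nat_lit 0) (nat_lit 76) (XT.lf (nat_lit 76) (nat_lit 1245058286) (nat_lit 0) (nat_lit 8120200444) (nat_lit 1216) (nat_lit 27922876297) (nat_lit 169) (nat_lit 5) (nat_lit 168) (nat_lit 5) (nat_lit 184) (nat_lit 5) (nat_lit 339) (nat_lit 330) (nat_lit 111)) (XT.lf (nat_lit 0) (nat_lit 10920084841) (nat_lit 1140) (nat_lit 19442475427) (nat_lit 1216) (nat_lit 7516905939) (nat_lit 169) (nat_lit 5) (nat_lit 184) (nat_lit 5) (nat_lit 185) (nat_lit 5) (nat_lit 340) (nat_lit 330) (nat_lit 110)))) (XT.nd (nat_lit 78) (nat_lit 0) (nat_lit 76) (XT.lf (nat_lit 0) (nat_lit 12600204194) (nat_lit 1140) (nat_lit 2425520493)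 (nat_lit 1216) (nat_lit 23460456171) (nat_lit 169) (nat_lit 5) (nat_lit 184) (nat_lit 5) (nat_lit 185) (nat_lit 5) (nat_lit 341) (nat_lit 330) (nat_lit 109)) (XT.nd (nat_lit 78) (nat_lit 0) (nat_lit 0) (XT.lf (nat_lit 0) (nat_lit 14485958446) (nat_lit 1140) (nat_lit 23714345748) (nat_lit 1216) (nat_lit 906138717) (nat_lit 170) (nat_lit 5) (nat_lit 185) (nat_lit 5) (nat_lit 186) (nat_lit 5) (nat_lit 342) (nat_lit 330) (nat_lit 108)) (XT.lf (nat_lit 0) (nat_lit 16600133808) (nat_lit 1140) (nat_lit 6100900311) (nat_lit 1216) (nat_lit 17039126069) (nat_lit 170) (nat_lit 5) (nat_lit 185) (nat_lit 5) (nat_lit 186) (nat_lit 5) (nat_lit 343) (nat_lit 330) (nat_lit 107))))) (XT.nd (nat_lit 234) (nat_lit 988) (nat_lit 0) (XT.nd (nat_lit 78) (nat_lit 0) (nat_lit 76) (XT.lf (nat_lit 76) (nat_lit 12279325105) (nat_lit 0) (nat_lit 6614837386) (nat_lit 1216) (nat_lit 21495236386) (nat_lit 171) (nat_lit 5) (nat_lit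 170) (nat_lit 5) (nat_lit 186) (nat_lit 5) (nat_lit 344) (nat_lit 330) (nat_lit 106)) (XT.nd (nat_lit 78) (nat_lit 0) (nat_lit 0) (XT.lf (nat_lit 0) (nat_lit 21413342640) (nat_lit 1140) (nat_lit 9817818450) (nat_lit 1216) (nat_lit 9822266375) (nat_lit 171) (nat_lit 5) (nat_lit 186) (nat_lit 5) (nat_lit 187) (nat_lit 5) (nat_lit 345) (nat_lit 330) (nat_lit 105)) (XT.lf (nat_lit 76) (nat_lit 9134721325) (nat_lit 0) (nat_lit 15025154651) (nat_lit 1216) (nat_lit 17572950178) (nat_lit 172) (nat_lit 5) (nat_lit 171) (nat_lit 5) (nat_lit 187) (nat_lit 5) (nat_lit 346) (nat_lit 330) (nat_lit 104)))) (XT.nd (nat_lit 78) (nat_lit 1140) (nat_lit 0) (XT.lf (nat_lit 0) (nat_lit 27103463074) (nat_lit 1140) (nat_lit 13590824449) (nat_lit 76) (nat_lit 1734882052) (nat_lit 172) (nat_lit 5) (nat_lit 187) (nat_lit 5) (nat_lit 173) (nat_lit 5) (nat_lit 347) (nat_lit 330) (nat_lit 103)) (XT.nd (nat_lit 78) (nat_lit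 0) (nat_lit 0) (XT.lf (nat_lit 0) (nat_lit 5952830145) (nat_lit 1140) (nat_lit 24387068083) (nat_lit 1216) (nat_lit 12800371287) (nat_lit 157) (nat_lit 5) (nat_lit 172) (nat_lit 5) (nat_lit 173) (nat_lit 5) (nat_lit 348) (nat_lit 330) (nat_lit 102)) (XT.lf (nat_lit 0) (nat_lit 26360163679) (nat_lit 1140) (nat_lit 7449088022) (nat_lit 1216) (nat_lit 10059378355) (nat_lit 157) (nat_lit 5) (nat_lit 172) (nat_lit 5) (nat_lit 173) (nat_lit 5) (nat_lit 349) (nat_lit 330) (nat_lit 101))))))))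
noncomputable def xc245 : XT := (XT.nd (nat_lit 39468) (nat_lit 0) (nat_lit 2204) (XT.nd (nat_lit 936) (nat_lit 1292) (nat_lit 0) (XT.nd (nat_lit 468) (nat_lit 1444) (nat_lit 0) (XT.nd (nat_lit 234) (nat_lit 1216) (nat_lit 0) (XT.nd (nat_lit 78) (nat_lit 0) (nat_lit 0) (XT.lf (nat_lit 0) (nat_lit 2716549155) (nat_lit 532) (nat_lit 34786974883) (nat_lit 608) (nat_lit 7111694517) (nat_lit 150) (nat_lit 5) (nat_lit 157) (nat_lit 5) (nat_lit 158) (nat_lit 5) (nat_lit 350) (nat_lit 330) (nat_lit 100)) (XT.nd (nat_lit 78) (nat_lit 0) (nat_lit 0) (XT.lf (nat_lit 0) (nat_lit 23830773787) (nat_lit 532) (nat_lit 17726337944) (nat_lit 608) (nat_lit 3819640587) (nat_lit 150) (nat_lit 5) (nat_lit 157) (nat_lit 5) (nat_lit 158) (nat_lit 5) (nat_lit 351) (nat_lit 330) (nat_lit 99)) (XT.lf (nat_lit 0) (nat_lit 45577234302) (nat_lit 532) (nat_lit 153767638) (nat_lit 608) (nat_lit 430171467) (nat_lit 150) (nat_lit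 5) (nat_lit 157) (nat_lit 5) (nat_lit 158) (nat_lit 5) (nat_lit 352) (nat_lit 330) (nat_lit 98)))) (XT.nd (nat_lit 78) (nat_lit 532) (nat_lit 0) (XT.lf (nat_lit 0) (nat_lit 3380455919) (nat_lit 684) (nat_lit 25743127198) (nat_lit 76) (nat_lit 17833287177) (nat_lit 141) (nat_lit 5) (nat_lit 150) (nat_lit 5) (nat_lit 142) (nat_lit 5) (nat_lit 353) (nat_lit 330) (nat_lit 97)) (XT.nd (nat_lit 78) (nat_lit 532) (nat_lit 0) (XT.lf (nat_lit 0) (nat_lit 7302978744) (nat_lit 684) (nat_lit 4105987760) (nat_lit 76) (nat_lit 36367159107) (nat_lit 141) (nat_lit 5) (nat_lit 150) (nat_lit 5) (nat_lit 142) (nat_lit 5) (nat_lit 354) (nat_lit 330) (nat_lit 96)) (XT.lf (nat_lit 0) (nat_lit 11587672616) (nat_lit 608) (nat_lit 30141249424) (nat_lit 76) (nat_lit 6883703604) (nat_lit 134) (nat_lit 5) (nat_lit 142) (nat_lit 5) (nat_lit 135) (nat_lit 5) (nat_lit 355) (nat_lit 330) (nat_lit 95))))) (XT.nd (nat_lit 234)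 (nat_lit 912) (nat_lit 0) (XT.nd (nat_lit 78) (nat_lit 532) (nat_lit 0) (XT.lf (nat_lit 0) (nat_lit 16154546575) (nat_lit 608) (nat_lit 7777321199) (nat_lit 76) (nat_lit 25537745590) (nat_lit 134) (nat_lit 5) (nat_lit 142) (nat_lit 5) (nat_lit 135) (nat_lit 5) (nat_lit 356) (nat_lit 330) (nat_lit 94)) (XT.nd (nat_lit 78) (nat_lit 0) (nat_lit 0) (XT.lf (nat_lit 0) (nat_lit 15559987681) (nat_lit 532) (nat_lit 5446852224) (nat_lit 608) (nat_lit 29341020223) (nat_lit 127) (nat_lit 5) (nat_lit 134) (nat_lit 5) (nat_lit 135) (nat_lit 5) (nat_lit 357) (nat_lit 330) (nat_lit 93)) (XT.lf (nat_lit 0) (nat_lit 26213540257) (nat_lit 608) (nat_lit 11625886784) (nat_lit 76) (nat_lit 13406763864) (nat_lit 127) (nat_lit 5) (nat_lit 135) (nat_lit 5) (nat_lit 128) (nat_lit 5) (nat_lit 358) (nat_lit 330) (nat_lit 92)))) (XT.nd (nat_lit 78) (nat_lit 456) (nat_lit 0) (XT.lf (nat_lit 0) (nat_lit 12418194886) (nat_lit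 456) (nat_lit 19330443817) (nat_lit 532) (nat_lit 20417668694) (nat_lit 121) (nat_lit 5) (nat_lit 127) (nat_lit 5) (nat_lit 128) (nat_lit 5) (nat_lit 359) (nat_lit 330) (nat_lit 91)) (XT.nd (nat_lit 78) (nat_lit 456) (nat_lit 0) (XT.lf (nat_lit 0) (nat_lit 37420771598) (nat_lit 456) (nat_lit 145334849) (nat_lit 532) (nat_lit 15544433101) (nat_lit 121) (nat_lit 5) (nat_lit 127) (nat_lit 5) (nat_lit 128) (nat_lit 5) (nat_lit 360) (nat_lit 330) (nat_lit 90)) (XT.lf (nat_lit 0) (nat_lit 9077766520) (nat_lit 456) (nat_lit 34755095883) (nat_lit 532) (nat_lit 10241994943) (nat_lit 115) (nat_lit 5) (nat_lit 121) (nat_lit 5) (nat_lit 122) (nat_lit 5) (nat_lit 361) (nat_lit 330) (nat_lit 89)))))) (XT.nd (nat_lit 468) (nat_lit 380) (nat_lit 0) (XT.nd (nat_lit 234) (nat_lit 456) (nat_lit 0) (XT.nd (nat_lit 78) (nat_lit 456) (nat_lit 0) (XT.lf (nat_lit 0) (nat_lit 34907349702) (nat_lit 456) (nat_lit 15539100402)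 (nat_lit 532) (nat_lit 4616891261) (nat_lit 115) (nat_lit 5) (nat_lit 121) (nat_lit 5) (nat_lit 122) (nat_lit 5) (nat_lit 362) (nat_lit 330) (nat_lit 88)) (XT.nd (nat_lit 78) (nat_lit 0) (nat_lit 0) (XT.lf (nat_lit 0) (nat_lit 1247625275) (nat_lit 456) (nat_lit 50595371270) (nat_lit 76) (nat_lit 4235336622) (nat_lit 109) (nat_lit 5) (nat_lit 115) (nat_lit 5) (nat_lit 110) (nat_lit 5) (nat_lit 363) (nat_lit 330) (nat_lit 87)) (XT.lf (nat_lit 0) (nat_lit 7553690698) (nat_lit 456) (nat_lit 25016128272) (nat_lit 76) (nat_lit 24541833576) (nat_lit 109) (nat_lit 5) (nat_lit 115) (nat_lit 5) (nat_lit 110) (nat_lit 5) (nat_lit 364) (nat_lit 330) (nat_lit 86)))) (XT.nd (nat_lit 78) (nat_lit 0) (nat_lit 0) (XT.lf (nat_lit 0) (nat_lit 1355840332) (nat_lit 456) (nat_lit 12705164560) (nat_lit 532) (nat_lit 44114605996) (nat_lit 103) (nat_lit 5) (nat_lit 109) (nat_lit 5) (nat_lit 110) (nat_lit 5) (nat_lit 365)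 (nat_lit 330) (nat_lit 85)) (XT.nd (nat_lit 78) (nat_lit 0) (nat_lit 0) (XT.lf (nat_lit 0) (nat_lit 21092253214) (nat_lit 532) (nat_lit 30310313038) (nat_lit 76) (nat_lit 7859061633) (nat_lit 103) (nat_lit 5) (nat_lit 110) (nat_lit 5) (nat_lit 104) (nat_lit 5) (nat_lit 366) (nat_lit 330) (nat_lit 84)) (XT.lf (nat_lit 0) (nat_lit 28459310166) (nat_lit 532) (nat_lit 3132459203) (nat_lit 76) (nat_lit 28784711194) (nat_lit 103) (nat_lit 5) (nat_lit 110) (nat_lit 5) (nat_lit 104) (nat_lit 5) (nat_lit 367) (nat_lit 330) (nat_lit 83))))) (XT.nd (nat_lit 37830) (nat_lit 0) (nat_lit 5092) (XT.nd (nat_lit 78) (nat_lit 0) (nat_lit 0) (XT.lf (nat_lit 0) (nat_lit 25354424547) (nat_lit 380) (nat_lit 10935780862) (nat_lit 456) (nat_lit 25227289883) (nat_lit 98) (nat_lit 5) (nat_lit 103) (nat_lit 5) (nat_lit 104) (nat_lit 5) (nat_lit 368) (nat_lit 330) (nat_lit 82)) (XT.nd (nat_lit 37674) (nat_lit 0) (nat_lit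 5092) (XT.lf (nat_lit 0) (nat_lit 44486484385) (nat_lit 456) (nat_lit 8032448273) (nat_lit 76) (nat_lit 10169895331) (nat_lit 98) (nat_lit 5) (nat_lit 104) (nat_lit 5) (nat_lit 99) (nat_lit 5) (nat_lit 369) (nat_lit 330) (nat_lit 81)) (XT.lf (nat_lit 0) (nat_lit 763536062) (nat_lit 0) (nat_lit 763536062) (nat_lit 1140) (nat_lit 15216983818) (nat_lit 165) (nat_lit 5) (nat_lit 165) (nat_lit 3) (nat_lit 180) (nat_lit 3) (nat_lit 331) (nat_lit 331) (nat_lit 118)))) (XT.nd (nat_lit 78) (nat_lit 0) (nat_lit 0) (XT.lf (nat_lit 0) (nat_lit 3283646468) (nat_lit 1140) (nat_lit 17564790662) (nat_lit 1216) (nat_lit 13136391540) (nat_lit 165) (nat_lit 5) (nat_lit 180) (nat_lit 3) (nat_lit 181) (nat_lit 5) (nat_lit 332) (nat_lit 331) (nat_lit 117)) (XT.nd (nat_lit 78) (nat_lit 0) (nat_lit 76) (XT.lf (nat_lit 0) (nat_lit 3533020909) (nat_lit 1140) (nat_lit 2752923203) (nat_lit 1216) (nat_lit 28210116906) (nat_lit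 165) (nat_lit 5) (nat_lit 180) (nat_lit 3) (nat_lit 181) (nat_lit 5) (nat_lit 333) (nat_lit 331) (nat_lit 116)) (XT.lf (nat_lit 0) (nat_lit 3995358254) (nat_lit 1140) (nat_lit 22352998249) (nat_lit 1216) (nat_lit 8668112953) (nat_lit 166) (nat_lit 5) (nat_lit 181) (nat_lit 5) (nat_lit 182) (nat_lit 5) (nat_lit 334) (nat_lit 331) (nat_lit 115))))))) (XT.nd (nat_lit 936) (nat_lit 2964) (nat_lit 0) (XT.nd (nat_lit 468) (nat_lit 0) (nat_lit 228) (XT.nd (nat_lit 234) (nat_lit 0) (nat_lit 76) (XT.nd (nat_lit 78) (nat_lit 0) (nat_lit 76) (XT.lf (nat_lit 0) (nat_lit 4559865369) (nat_lit 1140) (nat_lit 7016556849) (nat_lit 1216) (nat_lit 23973422404) (nat_lit 166) (nat_lit 5) (nat_lit 181) (nat_lit 5) (nat_lit 182) (nat_lit 5) (nat_lit 335) (nat_lit 331) (nat_lit 114)) (XT.nd (nat_lit 78) (nat_lit 0) (nat_lit 0) (XT.lf (nat_lit 0) (nat_lit 5261258559) (nat_lit 1140) (nat_lit 27178987978) (nat_lit 1216)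 (nat_lit 3655379346) (nat_lit 167) (nat_lit 5) (nat_lit 182) (nat_lit 5) (nat_lit 183) (nat_lit 5) (nat_lit 336) (nat_lit 331) (nat_lit 113)) (XT.lf (nat_lit 0) (nat_lit 6167966831) (nat_lit 1140) (nat_lit 11300513947) (nat_lit 1216) (nat_lit 19183774870) (nat_lit 167) (nat_lit 5) (nat_lit 182) (nat_lit 5) (nat_lit 183) (nat_lit 5) (nat_lit 337) (nat_lit 331) (nat_lit 112)))) (XT.nd (nat_lit 78) (nat_lit 0) (nat_lit 76) (XT.lf (nat_lit 76) (nat_lit 5153716390) (nat_lit 0) (nat_lit 1995856225) (nat_lit 1216) (nat_lit 30074583973) (nat_lit 168) (nat_lit 5) (nat_lit 167) (nat_lit 5) (nat_lit 183) (nat_lit 5) (nat_lit 338) (nat_lit 331) (nat_lit 111)) (XT.nd (nat_lit 78) (nat_lit 0) (nat_lit 0) (XT.lf (nat_lit 0) (nat_lit 8408082795) (nat_lit 1140) (nat_lit 15612924232) (nat_lit 1216) (nat_lit 13784786922) (nat_lit 168) (nat_lit 5) (nat_lit 183) (nat_lit 5) (nat_lit 184) (nat_lit 5) (nat_lit 339)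 (nat_lit 331) (nat_lit 110)) (XT.lf (nat_lit 76) (nat_lit 1343592634) (nat_lit 0) (nat_lit 8391688775) (nat_lit 1216) (nat_lit 28668674019) (nat_lit 169) (nat_lit 5) (nat_lit 168) (nat_lit 5) (nat_lit 184) (nat_lit 5) (nat_lit 340) (nat_lit 331) (nat_lit 109))))) (XT.nd (nat_lit 234) (nat_lit 0) (nat_lit 76) (XT.nd (nat_lit 78) (nat_lit 0) (nat_lit 0) (XT.lf (nat_lit 0) (nat_lit 11333897964) (nat_lit 1140) (nat_lit 19963347484) (nat_lit 1216) (nat_lit 7715871144) (nat_lit 169) (nat_lit 5) (nat_lit 184) (nat_lit 5) (nat_lit 185) (nat_lit 5) (nat_lit 341) (nat_lit 331) (nat_lit 108)) (XT.nd (nat_lit 78) (nat_lit 0) (nat_lit 76) (XT.lf (nat_lit 0) (nat_lit 13061909910) (nat_lit 1140) (nat_lit 2437701442) (nat_lit 1216) (nat_lit 24138500950) (nat_lit 169) (nat_lit 5) (nat_lit 184) (nat_lit 5) (nat_lit 185) (nat_lit 5) (nat_lit 342) (nat_lit 331) (nat_lit 107)) (XT.lf (nat_lit 0) (nat_lit 15002165590)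 (nat_lit 1140) (nat_lit 24362981427) (nat_lit 1216) (nat_lit 911901499) (nat_lit 170) (nat_lit 5) (nat_lit 185) (nat_lit 5) (nat_lit 186) (nat_lit 5) (nat_lit 343) (nat_lit 331) (nat_lit 106)))) (XT.nd (nat_lit 78) (nat_lit 0) (nat_lit 0) (XT.lf (nat_lit 0) (nat_lit 17177388688) (nat_lit 1140) (nat_lit 6222961599) (nat_lit 1216) (nat_lit 17529502395) (nat_lit 170) (nat_lit 5) (nat_lit 185) (nat_lit 5) (nat_lit 186) (nat_lit 5) (nat_lit 344) (nat_lit 331) (nat_lit 105)) (XT.nd (nat_lit 78) (nat_lit 0) (nat_lit 76) (XT.lf (nat_lit 76) (nat_lit 12708072877) (nat_lit 0) (nat_lit 6830437371) (nat_lit 1216) (nat_lit 22060114048) (nat_lit 171) (nat_lit 5) (nat_lit 170) (nat_lit 5) (nat_lit 186) (nat_lit 5) (nat_lit 345) (nat_lit 331) (nat_lit 104)) (XT.lf (nat_lit 0) (nat_lit 22130847753) (nat_lit 1140) (nat_lit 10051198180) (nat_lit 1216) (nat_lit 10100604162) (nat_lit 171) (nat_lit 5) (nat_lit 186)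 (nat_lit 5) (nat_lit 187) (nat_lit 5) (nat_lit 346) (nat_lit 331) (nat_lit 103)))))) (XT.nd (nat_lit 468) (nat_lit 1748) (nat_lit 0) (XT.nd (nat_lit 234) (nat_lit 532) (nat_lit 0) (XT.nd (nat_lit 78) (nat_lit 1064) (nat_lit 0) (XT.lf (nat_lit 76) (nat_lit 9469318232) (nat_lit 0) (nat_lit 15488853433) (nat_lit 1216) (nat_lit 18024310944) (nat_lit 172) (nat_lit 5) (nat_lit 171) (nat_lit 5) (nat_lit 187) (nat_lit 5) (nat_lit 347) (nat_lit 331) (nat_lit 102)) (XT.nd (nat_lit 78) (nat_lit 1140) (nat_lit 0) (XT.lf (nat_lit 0) (nat_lit 27987804812) (nat_lit 1140) (nat_lit 13937376343) (nat_lit 76) (nat_lit 1774606616) (nat_lit 172) (nat_lit 5) (nat_lit 187) (nat_lit 5) (nat_lit 173) (nat_lit 5) (nat_lit 348) (nat_lit 331) (nat_lit 101)) (XT.lf (nat_lit 0) (nat_lit 6191988155) (nat_lit 1140) (nat_lit 25127852244) (nat_lit 1216) (nat_lit 13112428578) (nat_lit 157) (nat_lit 5) (nat_lit 172) (nat_lit 5)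 (nat_lit 173) (nat_lit 5) (nat_lit 349) (nat_lit 331) (nat_lit 100)))) (XT.nd (nat_lit 78) (nat_lit 532) (nat_lit 0) (XT.lf (nat_lit 0) (nat_lit 27209777429) (nat_lit 1140) (nat_lit 7681465631) (nat_lit 1216) (nat_lit 10291301601) (nat_lit 157) (nat_lit 5) (nat_lit 172) (nat_lit 5) (nat_lit 173) (nat_lit 5) (nat_lit 350) (nat_lit 331) (nat_lit 99)) (XT.nd (nat_lit 78) (nat_lit 0) (nat_lit 0) (XT.lf (nat_lit 0) (nat_lit 2858485947) (nat_lit 532) (nat_lit 35836383257) (nat_lit 608) (nat_lit 7256709131) (nat_lit 150) (nat_lit 5) (nat_lit 157) (nat_lit 5) (nat_lit 158) (nat_lit 5) (nat_lit 351) (nat_lit 331) (nat_lit 98)) (XT.lf (nat_lit 0) (nat_lit 24604376920) (nat_lit 532) (nat_lit 18263758304) (nat_lit 608) (nat_lit 3867883958) (nat_lit 150) (nat_lit 5) (nat_lit 157) (nat_lit 5) (nat_lit 158) (nat_lit 5) (nat_lit 352) (nat_lit 331) (nat_lit 97))))) (XT.nd (nat_lit 234) (nat_lit 1064) (nat_lit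 0) (XT.nd (nat_lit 78) (nat_lit 684) (nat_lit 0) (XT.lf (nat_lit 0) (nat_lit 47001522127) (nat_lit 532) (nat_lit 163846901) (nat_lit 608) (nat_lit 378663168) (nat_lit 150) (nat_lit 5) (nat_lit 157) (nat_lit 5) (nat_lit 158) (nat_lit 5) (nat_lit 353) (nat_lit 331) (nat_lit 96)) (XT.nd (nat_lit 78) (nat_lit 0) (nat_lit 0) (XT.lf (nat_lit 0) (nat_lit 3543702213) (nat_lit 684) (nat_lit 26455671727) (nat_lit 76) (nat_lit 18364250112) (nat_lit 141) (nat_lit 5) (nat_lit 150) (nat_lit 5) (nat_lit 142) (nat_lit 5) (nat_lit 354) (nat_lit 331) (nat_lit 95)) (XT.lf (nat_lit 0) (nat_lit 7582099774) (nat_lit 684) (nat_lit 4171158376) (nat_lit 76) (nat_lit 37454255743) (nat_lit 141) (nat_lit 5) (nat_lit 150) (nat_lit 5) (nat_lit 142) (nat_lit 5) (nat_lit 355) (nat_lit 331) (nat_lit 94)))) (XT.nd (nat_lit 78) (nat_lit 532) (nat_lit 0) (XT.lf (nat_lit 0) (nat_lit 11994124708) (nat_lit 608) (nat_lit 30986176354)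 (nat_lit 76) (nat_lit 7088846912) (nat_lit 134) (nat_lit 5) (nat_lit 142) (nat_lit 5) (nat_lit 135) (nat_lit 5) (nat_lit 356) (nat_lit 331) (nat_lit 93)) (XT.nd (nat_lit 78) (nat_lit 532) (nat_lit 0) (XT.lf (nat_lit 0) (nat_lit 16696291626) (nat_lit 608) (nat_lit 7953057773) (nat_lit 76) (nat_lit 26302549996) (nat_lit 134) (nat_lit 5) (nat_lit 142) (nat_lit 5) (nat_lit 135) (nat_lit 5) (nat_lit 357) (nat_lit 331) (nat_lit 92)) (XT.lf (nat_lit 0) (nat_lit 16083805833) (nat_lit 532) (nat_lit 5609232662) (nat_lit 608) (nat_lit 30163491122) (nat_lit 127) (nat_lit 5) (nat_lit 134) (nat_lit 5) (nat_lit 135) (nat_lit 5) (nat_lit 358) (nat_lit 331) (nat_lit 91))))))))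
noncomputable def xc246 : XT := (XT.nd (nat_lit 39468) (nat_lit 0) (nat_lit 380) (XT.nd (nat_lit 38532) (nat_lit 0) (nat_lit 5092) (XT.nd (nat_lit 390) (nat_lit 1292) (nat_lit 0) (XT.nd (nat_lit 156) (nat_lit 456) (nat_lit 0) (XT.nd (nat_lit 78) (nat_lit 456) (nat_lit 0) (XT.lf (nat_lit 0) (nat_lit 27054318549) (nat_lit 608) (nat_lit 11917600297) (nat_lit 76) (nat_lit 13809942630) (nat_lit 127) (nat_lit 5) (nat_lit 135) (nat_lit 5) (nat_lit 128) (nat_lit 5) (nat_lit 359) (nat_lit 331) (nat_lit 90)) (XT.lf (nat_lit 0) (nat_lit 12847244381) (nat_lit 456) (nat_lit 19907185061) (nat_lit 532) (nat_lit 20975185682) (nat_lit 121) (nat_lit 5) (nat_lit 127) (nat_lit 5) (nat_lit 128) (nat_lit 5) (nat_lit 360) (nat_lit 331) (nat_lit 89))) (XT.nd (nat_lit 78) (nat_lit 456) (nat_lit 0) (XT.lf (nat_lit 0) (nat_lit 38598252657) (nat_lit 456) (nat_lit 146615215) (nat_lit 532) (nat_lit 15957355343) (nat_lit 121)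 (nat_lit 5) (nat_lit 127) (nat_lit 5) (nat_lit 128) (nat_lit 5) (nat_lit 361) (nat_lit 331) (nat_lit 88)) (XT.nd (nat_lit 78) (nat_lit 0) (nat_lit 0) (XT.lf (nat_lit 0) (nat_lit 9406006805) (nat_lit 456) (nat_lit 35792677754) (nat_lit 532) (nat_lit 10496816552) (nat_lit 115) (nat_lit 5) (nat_lit 121) (nat_lit 5) (nat_lit 122) (nat_lit 5) (nat_lit 362) (nat_lit 331) (nat_lit 87)) (XT.lf (nat_lit 0) (nat_lit 36008849115) (nat_lit 456) (nat_lit 16000350108) (nat_lit 532) (nat_lit 4704487087) (nat_lit 115) (nat_lit 5) (nat_lit 121) (nat_lit 5) (nat_lit 122) (nat_lit 5) (nat_lit 363) (nat_lit 331) (nat_lit 86))))) (XT.nd (nat_lit 234) (nat_lit 380) (nat_lit 0) (XT.nd (nat_lit 78) (nat_lit 456) (nat_lit 0) (XT.lf (nat_lit 0) (nat_lit 1334100243) (nat_lit 456) (nat_lit 52056945987) (nat_lit 76) (nat_lit 4368095201) (nat_lit 109) (nat_lit 5) (nat_lit 115) (nat_lit 5) (nat_lit 110) (nat_lit 5) (nat_lit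 364) (nat_lit 331) (nat_lit 85)) (XT.nd (nat_lit 78) (nat_lit 456) (nat_lit 0) (XT.lf (nat_lit 0) (nat_lit 7827919098) (nat_lit 456) (nat_lit 25711965110) (nat_lit 76) (nat_lit 25283621089) (nat_lit 109) (nat_lit 5) (nat_lit 115) (nat_lit 5) (nat_lit 110) (nat_lit 5) (nat_lit 365) (nat_lit 331) (nat_lit 84)) (XT.lf (nat_lit 0) (nat_lit 1450626797) (nat_lit 456) (nat_lit 13078959149) (nat_lit 532) (nat_lit 45389824436) (nat_lit 103) (nat_lit 5) (nat_lit 109) (nat_lit 5) (nat_lit 110) (nat_lit 5) (nat_lit 366) (nat_lit 331) (nat_lit 83)))) (XT.nd (nat_lit 78) (nat_lit 380) (nat_lit 0) (XT.lf (nat_lit 0) (nat_lit 21770478732) (nat_lit 532) (nat_lit 31165729869) (nat_lit 76) (nat_lit 8101840008) (nat_lit 103) (nat_lit 5) (nat_lit 110) (nat_lit 5) (nat_lit 104) (nat_lit 5) (nat_lit 367) (nat_lit 331) (nat_lit 82)) (XT.nd (nat_lit 78) (nat_lit 380) (nat_lit 0) (XT.lf (nat_lit 0) (nat_lit 29357223376)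 (nat_lit 532) (nat_lit 3174110105) (nat_lit 76) (nat_lit 29655054982) (nat_lit 103) (nat_lit 5) (nat_lit 110) (nat_lit 5) (nat_lit 104) (nat_lit 5) (nat_lit 368) (nat_lit 331) (nat_lit 81)) (XT.lf (nat_lit 0) (nat_lit 26166867188) (nat_lit 380) (nat_lit 11255390864) (nat_lit 456) (nat_lit 25939401026) (nat_lit 98) (nat_lit 5) (nat_lit 103) (nat_lit 5) (nat_lit 104) (nat_lit 5) (nat_lit 369) (nat_lit 331) (nat_lit 80)))))) (XT.nd (nat_lit 468) (nat_lit 0) (nat_lit 152) (XT.nd (nat_lit 234) (nat_lit 0) (nat_lit 76) (XT.nd (nat_lit 78) (nat_lit 0) (nat_lit 0) (XT.lf (nat_lit 0) (nat_lit 813629220) (nat_lit 0) (nat_lit 813629220) (nat_lit 1140) (nat_lit 15617394669) (nat_lit 165) (nat_lit 5) (nat_lit 165) (nat_lit 3) (nat_lit 180) (nat_lit 3) (nat_lit 332) (nat_lit 332) (nat_lit 116)) (XT.nd (nat_lit 78) (nat_lit 0) (nat_lit 0) (XT.lf (nat_lit 0) (nat_lit 3487229284) (nat_lit 1140) (nat_lit 18035087922)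 (nat_lit 1216) (nat_lit 13478722980) (nat_lit 165) (nat_lit 5) (nat_lit 180) (nat_lit 3) (nat_lit 181) (nat_lit 5) (nat_lit 333) (nat_lit 332) (nat_lit 115)) (XT.lf (nat_lit 0) (nat_lit 3741024567) (nat_lit 1140) (nat_lit 2780514337) (nat_lit 1216) (nat_lit 29006167689) (nat_lit 165) (nat_lit 5) (nat_lit 180) (nat_lit 3) (nat_lit 181) (nat_lit 5) (nat_lit 334) (nat_lit 332) (nat_lit 114)))) (XT.nd (nat_lit 78) (nat_lit 0) (nat_lit 0) (XT.lf (nat_lit 0) (nat_lit 4214350652) (nat_lit 1140) (nat_lit 22965539511) (nat_lit 1216) (nat_lit 8883928684) (nat_lit 166) (nat_lit 5) (nat_lit 181) (nat_lit 5) (nat_lit 182) (nat_lit 5) (nat_lit 335) (nat_lit 332) (nat_lit 113)) (XT.nd (nat_lit 78) (nat_lit 0) (nat_lit 76) (XT.lf (nat_lit 0) (nat_lit 4792905651) (nat_lit 1140) (nat_lit 7170695608) (nat_lit 1216) (nat_lit 24649685603) (nat_lit 166) (nat_lit 5) (nat_lit 181) (nat_lit 5) (nat_lit 182) (nat_lit 5)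 (nat_lit 336) (nat_lit 332) (nat_lit 112)) (XT.lf (nat_lit 0) (nat_lit 5512706906) (nat_lit 1140) (nat_lit 27935204998) (nat_lit 1216) (nat_lit 3727613495) (nat_lit 167) (nat_lit 5) (nat_lit 182) (nat_lit 5) (nat_lit 183) (nat_lit 5) (nat_lit 337) (nat_lit 332) (nat_lit 111))))) (XT.nd (nat_lit 234) (nat_lit 0) (nat_lit 76) (XT.nd (nat_lit 78) (nat_lit 0) (nat_lit 0) (XT.lf (nat_lit 0) (nat_lit 6443889904) (nat_lit 1140) (nat_lit 11582099638) (nat_lit 1216) (nat_lit 19722950999) (nat_lit 167) (nat_lit 5) (nat_lit 182) (nat_lit 5) (nat_lit 183) (nat_lit 5) (nat_lit 338) (nat_lit 332) (nat_lit 110)) (XT.nd (nat_lit 78) (nat_lit 0) (nat_lit 76) (XT.lf (nat_lit 76) (nat_lit 5365194573) (nat_lit 0) (nat_lit 2087648818) (nat_lit 1216) (nat_lit 30885222685) (nat_lit 168) (nat_lit 5) (nat_lit 167) (nat_lit 5) (nat_lit 183) (nat_lit 5) (nat_lit 339) (nat_lit 332) (nat_lit 109)) (XT.lf (nat_lit 0) (nat_lit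 8746225077) (nat_lit 1140) (nat_lit 16023070497) (nat_lit 1216) (nat_lit 14167947916) (nat_lit 168) (nat_lit 5) (nat_lit 183) (nat_lit 5) (nat_lit 184) (nat_lit 5) (nat_lit 340) (nat_lit 332) (nat_lit 108)))) (XT.nd (nat_lit 78) (nat_lit 0) (nat_lit 76) (XT.lf (nat_lit 76) (nat_lit 1441570881) (nat_lit 0) (nat_lit 8669721196) (nat_lit 1216) (nat_lit 29442120452) (nat_lit 169) (nat_lit 5) (nat_lit 168) (nat_lit 5) (nat_lit 184) (nat_lit 5) (nat_lit 341) (nat_lit 332) (nat_lit 107)) (XT.nd (nat_lit 78) (nat_lit 0) (nat_lit 0) (XT.lf (nat_lit 0) (nat_lit 11755176640) (nat_lit 1140) (nat_lit 20503427845) (nat_lit 1216) (nat_lit 7922328922) (nat_lit 169) (nat_lit 5) (nat_lit 184) (nat_lit 5) (nat_lit 185) (nat_lit 5) (nat_lit 342) (nat_lit 332) (nat_lit 106)) (XT.lf (nat_lit 0) (nat_lit 13532662098) (nat_lit 1140) (nat_lit 2453725627) (nat_lit 1216) (nat_lit 24838366312) (nat_lit 169) (nat_lit 5) (nat_lit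 184) (nat_lit 5) (nat_lit 185) (nat_lit 5) (nat_lit 343) (nat_lit 332) (nat_lit 105))))))) (XT.nd (nat_lit 936) (nat_lit 2888) (nat_lit 0) (XT.nd (nat_lit 468) (nat_lit 2204) (nat_lit 0) (XT.nd (nat_lit 234) (nat_lit 0) (nat_lit 76) (XT.nd (nat_lit 78) (nat_lit 0) (nat_lit 0) (XT.lf (nat_lit 0) (nat_lit 15529173146) (nat_lit 1140) (nat_lit 25034680849) (nat_lit 1216) (nat_lit 919066840) (nat_lit 170) (nat_lit 5) (nat_lit 185) (nat_lit 5) (nat_lit 186) (nat_lit 5) (nat_lit 344) (nat_lit 332) (nat_lit 104)) (XT.nd (nat_lit 78) (nat_lit 0) (nat_lit 0) (XT.lf (nat_lit 0) (nat_lit 17767411890) (nat_lit 1140) (nat_lit 6352184407) (nat_lit 1216) (nat_lit 18035783870) (nat_lit 170) (nat_lit 5) (nat_lit 185) (nat_lit 5) (nat_lit 186) (nat_lit 5) (nat_lit 345) (nat_lit 332) (nat_lit 103)) (XT.lf (nat_lit 76) (nat_lit 13146217711) (nat_lit 0) (nat_lit 7051520596) (nat_lit 1216) (nat_lit 22646529187) (nat_lit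 171) (nat_lit 5) (nat_lit 170) (nat_lit 5) (nat_lit 186) (nat_lit 5) (nat_lit 346) (nat_lit 332) (nat_lit 102)))) (XT.nd (nat_lit 78) (nat_lit 0) (nat_lit 0) (XT.lf (nat_lit 0) (nat_lit 22865566695) (nat_lit 1140) (nat_lit 10295089838) (nat_lit 1216) (nat_lit 10388229503) (nat_lit 171) (nat_lit 5) (nat_lit 186) (nat_lit 5) (nat_lit 187) (nat_lit 5) (nat_lit 347) (nat_lit 332) (nat_lit 101)) (XT.nd (nat_lit 78) (nat_lit 0) (nat_lit 76) (XT.lf (nat_lit 76) (nat_lit 9810476925) (nat_lit 0) (nat_lit 15965720131) (nat_lit 1216) (nat_lit 18493565355) (nat_lit 172) (nat_lit 5) (nat_lit 171) (nat_lit 5) (nat_lit 187) (nat_lit 5) (nat_lit 348) (nat_lit 332) (nat_lit 100)) (XT.lf (nat_lit 0) (nat_lit 28894587459) (nat_lit 1140) (nat_lit 14297836365) (nat_lit 76) (nat_lit 1816230243) (nat_lit 172) (nat_lit 5) (nat_lit 187) (nat_lit 5) (nat_lit 173) (nat_lit 5) (nat_lit 349) (nat_lit 332) (nat_lit 99)))))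 (XT.nd (nat_lit 234) (nat_lit 684) (nat_lit 0) (XT.nd (nat_lit 78) (nat_lit 532) (nat_lit 0) (XT.lf (nat_lit 0) (nat_lit 6434843761) (nat_lit 1140) (nat_lit 25890333412) (nat_lit 1216) (nat_lit 13437978033) (nat_lit 157) (nat_lit 5) (nat_lit 172) (nat_lit 5) (nat_lit 173) (nat_lit 5) (nat_lit 350) (nat_lit 332) (nat_lit 98)) (XT.nd (nat_lit 78) (nat_lit 532) (nat_lit 0) (XT.lf (nat_lit 0) (nat_lit 28081503724) (nat_lit 1140) (nat_lit 7920303388) (nat_lit 1216) (nat_lit 10534192686) (nat_lit 157) (nat_lit 5) (nat_lit 172) (nat_lit 5) (nat_lit 173) (nat_lit 5) (nat_lit 351) (nat_lit 332) (nat_lit 97)) (XT.lf (nat_lit 0) (nat_lit 3001211321) (nat_lit 532) (nat_lit 36916940989) (nat_lit 608) (nat_lit 7409996962) (nat_lit 150) (nat_lit 5) (nat_lit 157) (nat_lit 5) (nat_lit 158) (nat_lit 5) (nat_lit 352) (nat_lit 332) (nat_lit 96)))) (XT.nd (nat_lit 78) (nat_lit 684) (nat_lit 0) (XT.lf (nat_lit 0) (nat_lit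 25397819679) (nat_lit 532) (nat_lit 18816978077) (nat_lit 608) (nat_lit 3921383154) (nat_lit 150) (nat_lit 5) (nat_lit 157) (nat_lit 5) (nat_lit 158) (nat_lit 5) (nat_lit 353) (nat_lit 332) (nat_lit 95)) (XT.nd (nat_lit 78) (nat_lit 684) (nat_lit 0) (XT.lf (nat_lit 0) (nat_lit 48465268229) (nat_lit 532) (nat_lit 173914758) (nat_lit 608) (nat_lit 329307216) (nat_lit 150) (nat_lit 5) (nat_lit 157) (nat_lit 5) (nat_lit 158) (nat_lit 5) (nat_lit 354) (nat_lit 332) (nat_lit 94)) (XT.lf (nat_lit 0) (nat_lit 3708296451) (nat_lit 684) (nat_lit 27193022445) (nat_lit 76) (nat_lit 18911373599) (nat_lit 141) (nat_lit 5) (nat_lit 150) (nat_lit 5) (nat_lit 142) (nat_lit 5) (nat_lit 355) (nat_lit 332) (nat_lit 93)))))) (XT.nd (nat_lit 468) (nat_lit 1368) (nat_lit 0) (XT.nd (nat_lit 234) (nat_lit 988) (nat_lit 0) (XT.nd (nat_lit 78) (nat_lit 532) (nat_lit 0) (XT.lf (nat_lit 0) (nat_lit 7866148371) (nat_lit 684)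 (nat_lit 4241614065) (nat_lit 76) (nat_lit 38574190196) (nat_lit 141) (nat_lit 5) (nat_lit 150) (nat_lit 5) (nat_lit 142) (nat_lit 5) (nat_lit 356) (nat_lit 332) (nat_lit 92)) (XT.nd (nat_lit 78) (nat_lit 0) (nat_lit 0) (XT.lf (nat_lit 0) (nat_lit 12409393744) (nat_lit 608) (nat_lit 31859855760) (nat_lit 76) (nat_lit 7300223036) (nat_lit 134) (nat_lit 5) (nat_lit 142) (nat_lit 5) (nat_lit 135) (nat_lit 5) (nat_lit 357) (nat_lit 332) (nat_lit 91)) (XT.lf (nat_lit 0) (nat_lit 17251010759) (nat_lit 608) (nat_lit 8137371949) (nat_lit 76) (nat_lit 27090374764) (nat_lit 134) (nat_lit 5) (nat_lit 142) (nat_lit 5) (nat_lit 135) (nat_lit 5) (nat_lit 358) (nat_lit 332) (nat_lit 90)))) (XT.nd (nat_lit 78) (nat_lit 456) (nat_lit 0) (XT.lf (nat_lit 0) (nat_lit 16620065433) (nat_lit 532) (nat_lit 5776543359) (nat_lit 608) (nat_lit 31013951791) (nat_lit 127) (nat_lit 5) (nat_lit 134) (nat_lit 5) (nat_lit 135)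 (nat_lit 5) (nat_lit 359) (nat_lit 332) (nat_lit 89)) (XT.nd (nat_lit 78) (nat_lit 456) (nat_lit 0) (XT.lf (nat_lit 0) (nat_lit 27917199009) (nat_lit 608) (nat_lit 12221340871) (nat_lit 76) (nat_lit 14225160741) (nat_lit 127) (nat_lit 5) (nat_lit 135) (nat_lit 5) (nat_lit 128) (nat_lit 5) (nat_lit 360) (nat_lit 332) (nat_lit 88)) (XT.lf (nat_lit 0) (nat_lit 13285921820) (nat_lit 456) (nat_lit 20501410633) (nat_lit 532) (nat_lit 21552586154) (nat_lit 121) (nat_lit 5) (nat_lit 127) (nat_lit 5) (nat_lit 128) (nat_lit 5) (nat_lit 361) (nat_lit 332) (nat_lit 87))))) (XT.nd (nat_lit 234) (nat_lit 912) (nat_lit 0) (XT.nd (nat_lit 78) (nat_lit 456) (nat_lit 0) (XT.lf (nat_lit 0) (nat_lit 39807909079) (nat_lit 456) (nat_lit 148110778) (nat_lit 532) (nat_lit 16385731248) (nat_lit 121) (nat_lit 5) (nat_lit 127) (nat_lit 5) (nat_lit 128) (nat_lit 5) (nat_lit 362) (nat_lit 332) (nat_lit 86)) (XT.nd (nat_lit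 78) (nat_lit 0) (nat_lit 0) (XT.lf (nat_lit 0) (nat_lit 9740884991) (nat_lit 456) (nat_lit 36861678178) (nat_lit 532) (nat_lit 10762292979) (nat_lit 115) (nat_lit 5) (nat_lit 121) (nat_lit 5) (nat_lit 122) (nat_lit 5) (nat_lit 363) (nat_lit 332) (nat_lit 85)) (XT.lf (nat_lit 0) (nat_lit 37140277678) (nat_lit 456) (nat_lit 16475719924) (nat_lit 532) (nat_lit 4797633282) (nat_lit 115) (nat_lit 5) (nat_lit 121) (nat_lit 5) (nat_lit 122) (nat_lit 5) (nat_lit 364) (nat_lit 332) (nat_lit 84)))) (XT.nd (nat_lit 78) (nat_lit 456) (nat_lit 0) (XT.lf (nat_lit 0) (nat_lit 1420354007) (nat_lit 456) (nat_lit 53565599016) (nat_lit 76) (nat_lit 4504509422) (nat_lit 109) (nat_lit 5) (nat_lit 115) (nat_lit 5) (nat_lit 110) (nat_lit 5) (nat_lit 365) (nat_lit 332) (nat_lit 83)) (XT.nd (nat_lit 78) (nat_lit 456) (nat_lit 0) (XT.lf (nat_lit 0) (nat_lit 8107640901) (nat_lit 456) (nat_lit 26431814014) (nat_lit 76) (nat_lit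 26047344639) (nat_lit 109) (nat_lit 5) (nat_lit 115) (nat_lit 5) (nat_lit 110) (nat_lit 5) (nat_lit 366) (nat_lit 332) (nat_lit 82)) (XT.lf (nat_lit 0) (nat_lit 1545150650) (nat_lit 456) (nat_lit 13464390089) (nat_lit 532) (nat_lit 46706067439) (nat_lit 103) (nat_lit 5) (nat_lit 109) (nat_lit 5) (nat_lit 110) (nat_lit 5) (nat_lit 367) (nat_lit 332) (nat_lit 81))))))))
noncomputable def xc247 : XT := (XT.nd (nat_lit 39702) (nat_lit 0) (nat_lit 0) (XT.nd (nat_lit 38766) (nat_lit 0) (nat_lit 3572) (XT.nd (nat_lit 38298) (nat_lit 0) (nat_lit 4864) (XT.nd (nat_lit 38064) (nat_lit 0) (nat_lit 4712) (XT.nd (nat_lit 37908) (nat_lit 0) (nat_lit 4712) (XT.lf (nat_lit 0) (nat_lit 22466441546) (nat_lit 532) (nat_lit 32049902859) (nat_lit 76) (nat_lit 8351499530) (nat_lit 103) (nat_lit 5) (nat_lit 110) (nat_lit 5) (nat_lit 104) (nat_lit 5) (nat_lit 368) (nat_lit 332) (nat_lit 80)) (XT.nd (nat_lit 78) (nat_lit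 0) (nat_lit 0) (XT.lf (nat_lit 0) (nat_lit 863664522) (nat_lit 0) (nat_lit 863664522) (nat_lit 1140) (nat_lit 16033038139) (nat_lit 165) (nat_lit 5) (nat_lit 165) (nat_lit 3) (nat_lit 180) (nat_lit 3) (nat_lit 333) (nat_lit 333) (nat_lit 114)) (XT.lf (nat_lit 0) (nat_lit 3690887939) (nat_lit 1140) (nat_lit 18522745839) (nat_lit 1216) (nat_lit 13834295616) (nat_lit 165) (nat_lit 5) (nat_lit 180) (nat_lit 3) (nat_lit 181) (nat_lit 5) (nat_lit 334) (nat_lit 333) (nat_lit 113)))) (XT.nd (nat_lit 78) (nat_lit 0) (nat_lit 76) (XT.lf (nat_lit 0) (nat_lit 3949412369) (nat_lit 1140) (nat_lit 2812090232) (nat_lit 1216) (nat_lit 29828984707) (nat_lit 165) (nat_lit 5) (nat_lit 180) (nat_lit 3) (nat_lit 181) (nat_lit 5) (nat_lit 335) (nat_lit 333) (nat_lit 112)) (XT.nd (nat_lit 78) (nat_lit 0) (nat_lit 0) (XT.lf (nat_lit 0) (nat_lit 4434222260) (nat_lit 1140) (nat_lit 23599789243) (nat_lit 1216) (nat_lit 9108757736)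 (nat_lit 166) (nat_lit 5) (nat_lit 181) (nat_lit 5) (nat_lit 182) (nat_lit 5) (nat_lit 336) (nat_lit 333) (nat_lit 111)) (XT.lf (nat_lit 0) (nat_lit 5027412323) (nat_lit 1140) (nat_lit 7332693706) (nat_lit 1216) (nat_lit 25348701600) (nat_lit 166) (nat_lit 5) (nat_lit 181) (nat_lit 5) (nat_lit 182) (nat_lit 5) (nat_lit 337) (nat_lit 333) (nat_lit 110))))) (XT.nd (nat_lit 234) (nat_lit 0) (nat_lit 76) (XT.nd (nat_lit 78) (nat_lit 0) (nat_lit 0) (XT.lf (nat_lit 0) (nat_lit 5766325073) (nat_lit 1140) (nat_lit 28717504131) (nat_lit 1216) (nat_lit 3804163146) (nat_lit 167) (nat_lit 5) (nat_lit 182) (nat_lit 5) (nat_lit 183) (nat_lit 5) (nat_lit 338) (nat_lit 333) (nat_lit 109)) (XT.nd (nat_lit 78) (nat_lit 0) (nat_lit 0) (XT.lf (nat_lit 0) (nat_lit 6722873552) (nat_lit 1140) (nat_lit 11875429601) (nat_lit 1216) (nat_lit 20280388311) (nat_lit 167) (nat_lit 5) (nat_lit 182) (nat_lit 5) (nat_lit 183)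 (nat_lit 5) (nat_lit 339) (nat_lit 333) (nat_lit 108)) (XT.lf (nat_lit 76) (nat_lit 5579752720) (nat_lit 0) (nat_lit 2180363028) (nat_lit 1216) (nat_lit 31725438704) (nat_lit 168) (nat_lit 5) (nat_lit 167) (nat_lit 5) (nat_lit 183) (nat_lit 5) (nat_lit 340) (nat_lit 333) (nat_lit 107)))) (XT.nd (nat_lit 78) (nat_lit 0) (nat_lit 0) (XT.lf (nat_lit 0) (nat_lit 9089580628) (nat_lit 1140) (nat_lit 16448864447) (nat_lit 1216) (nat_lit 14564347826) (nat_lit 168) (nat_lit 5) (nat_lit 183) (nat_lit 5) (nat_lit 184) (nat_lit 5) (nat_lit 341) (nat_lit 333) (nat_lit 106)) (XT.nd (nat_lit 78) (nat_lit 0) (nat_lit 76) (XT.lf (nat_lit 76) (nat_lit 1539177954) (nat_lit 0) (nat_lit 8954585910) (nat_lit 1216) (nat_lit 30243742264) (nat_lit 169) (nat_lit 5) (nat_lit 168) (nat_lit 5) (nat_lit 184) (nat_lit 5) (nat_lit 342) (nat_lit 333) (nat_lit 105)) (XT.lf (nat_lit 0) (nat_lit 12184428921) (nat_lit 1140) (nat_lit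 21063087129) (nat_lit 1216) (nat_lit 8136416590) (nat_lit 169) (nat_lit 5) (nat_lit 184) (nat_lit 5) (nat_lit 185) (nat_lit 5) (nat_lit 343) (nat_lit 333) (nat_lit 104)))))) (XT.nd (nat_lit 468) (nat_lit 1444) (nat_lit 0) (XT.nd (nat_lit 234) (nat_lit 0) (nat_lit 76) (XT.nd (nat_lit 78) (nat_lit 0) (nat_lit 76) (XT.lf (nat_lit 0) (nat_lit 14013007962) (nat_lit 1140) (nat_lit 2473508706) (nat_lit 1216) (nat_lit 25560621962) (nat_lit 169) (nat_lit 5) (nat_lit 184) (nat_lit 5) (nat_lit 185) (nat_lit 5) (nat_lit 344) (nat_lit 333) (nat_lit 103)) (XT.nd (nat_lit 78) (nat_lit 0) (nat_lit 0) (XT.lf (nat_lit 0) (nat_lit 16067574109) (nat_lit 1140) (nat_lit 25729929002) (nat_lit 1216) (nat_lit 927606227) (nat_lit 170) (nat_lit 5) (nat_lit 185) (nat_lit 5) (nat_lit 186) (nat_lit 5) (nat_lit 345) (nat_lit 333) (nat_lit 102)) (XT.lf (nat_lit 0) (nat_lit 18370847614) (nat_lit 1140) (nat_lit 6488582685) (nat_lit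 1216) (nat_lit 18558379117) (nat_lit 170) (nat_lit 5) (nat_lit 185) (nat_lit 5) (nat_lit 186) (nat_lit 5) (nat_lit 346) (nat_lit 333) (nat_lit 101)))) (XT.nd (nat_lit 78) (nat_lit 0) (nat_lit 76) (XT.lf (nat_lit 76) (nat_lit 13594240445) (nat_lit 0) (nat_lit 7278308088) (nat_lit 1216) (nat_lit 23254864377) (nat_lit 171) (nat_lit 5) (nat_lit 170) (nat_lit 5) (nat_lit 186) (nat_lit 5) (nat_lit 347) (nat_lit 333) (nat_lit 100)) (XT.nd (nat_lit 78) (nat_lit 0) (nat_lit 0) (XT.lf (nat_lit 0) (nat_lit 23618263368) (nat_lit 1140) (nat_lit 10549607265) (nat_lit 1216) (nat_lit 10685367214) (nat_lit 171) (nat_lit 5) (nat_lit 186) (nat_lit 5) (nat_lit 187) (nat_lit 5) (nat_lit 348) (nat_lit 333) (nat_lit 99)) (XT.lf (nat_lit 76) (nat_lit 10158593803) (nat_lit 0) (nat_lit 16456192438) (nat_lit 1216) (nat_lit 18981000351) (nat_lit 172) (nat_lit 5) (nat_lit 171) (nat_lit 5) (nat_lit 187) (nat_lit 5) (nat_lit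 349) (nat_lit 333) (nat_lit 98))))) (XT.nd (nat_lit 234) (nat_lit 532) (nat_lit 0) (XT.nd (nat_lit 78) (nat_lit 1140) (nat_lit 0) (XT.lf (nat_lit 0) (nat_lit 29824718987) (nat_lit 1140) (nat_lit 14672420181) (nat_lit 76) (nat_lit 1859769304) (nat_lit 172) (nat_lit 5) (nat_lit 187) (nat_lit 5) (nat_lit 173) (nat_lit 5) (nat_lit 350) (nat_lit 333) (nat_lit 97)) (XT.nd (nat_lit 78) (nat_lit 0) (nat_lit 0) (XT.lf (nat_lit 0) (nat_lit 6681707493) (nat_lit 1140) (nat_lit 26675192722) (nat_lit 1216) (nat_lit 13777187312) (nat_lit 157) (nat_lit 5) (nat_lit 172) (nat_lit 5) (nat_lit 173) (nat_lit 5) (nat_lit 351) (nat_lit 333) (nat_lit 96)) (XT.lf (nat_lit 0) (nat_lit 28976199729) (nat_lit 1140) (nat_lit 8165824439) (nat_lit 1216) (nat_lit 10788150445) (nat_lit 157) (nat_lit 5) (nat_lit 172) (nat_lit 5) (nat_lit 173) (nat_lit 5) (nat_lit 352) (nat_lit 333) (nat_lit 95)))) (XT.nd (nat_lit 78) (nat_lit 0)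 (nat_lit 0) (XT.lf (nat_lit 0) (nat_lit 3144948099) (nat_lit 532) (nat_lit 38029601669) (nat_lit 608) (nat_lit 7571581023) (nat_lit 150) (nat_lit 5) (nat_lit 157) (nat_lit 5) (nat_lit 158) (nat_lit 5) (nat_lit 353) (nat_lit 333) (nat_lit 94)) (XT.nd (nat_lit 78) (nat_lit 0) (nat_lit 0) (XT.lf (nat_lit 0) (nat_lit 26211890618) (nat_lit 532) (nat_lit 19386489798) (nat_lit 608) (nat_lit 3980077224) (nat_lit 150) (nat_lit 5) (nat_lit 157) (nat_lit 5) (nat_lit 158) (nat_lit 5) (nat_lit 354) (nat_lit 333) (nat_lit 93)) (XT.lf (nat_lit 0) (nat_lit 49969844090) (nat_lit 532) (nat_lit 183988880) (nat_lit 608) (nat_lit 281955922) (nat_lit 150) (nat_lit 5) (nat_lit 157) (nat_lit 5) (nat_lit 158) (nat_lit 5) (nat_lit 355) (nat_lit 333) (nat_lit 92))))))) (XT.nd (nat_lit 936) (nat_lit 456) (nat_lit 0) (XT.nd (nat_lit 468) (nat_lit 1368) (nat_lit 0) (XT.nd (nat_lit 234) (nat_lit 532) (nat_lit 0) (XT.nd (nat_lit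 78) (nat_lit 532) (nat_lit 0) (XT.lf (nat_lit 0) (nat_lit 3874482824) (nat_lit 684) (nat_lit 27955726651) (nat_lit 76) (nat_lit 19475129157) (nat_lit 141) (nat_lit 5) (nat_lit 150) (nat_lit 5) (nat_lit 142) (nat_lit 5) (nat_lit 356) (nat_lit 333) (nat_lit 91)) (XT.nd (nat_lit 78) (nat_lit 532) (nat_lit 0) (XT.lf (nat_lit 0) (nat_lit 8155470180) (nat_lit 684) (nat_lit 4317322228) (nat_lit 76) (nat_lit 39727934688) (nat_lit 141) (nat_lit 5) (nat_lit 150) (nat_lit 5) (nat_lit 142) (nat_lit 5) (nat_lit 357) (nat_lit 333) (nat_lit 90)) (XT.lf (nat_lit 0) (nat_lit 12833938064) (nat_lit 608) (nat_lit 32762954774) (nat_lit 76) (nat_lit 7518014454) (nat_lit 134) (nat_lit 5) (nat_lit 142) (nat_lit 5) (nat_lit 135) (nat_lit 5) (nat_lit 358) (nat_lit 333) (nat_lit 89)))) (XT.nd (nat_lit 78) (nat_lit 532) (nat_lit 0) (XT.lf (nat_lit 0) (nat_lit 17819281381) (nat_lit 608) (nat_lit 8330331303) (nat_lit 76) (nat_lit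 27901906130) (nat_lit 134) (nat_lit 5) (nat_lit 142) (nat_lit 5) (nat_lit 135) (nat_lit 5) (nat_lit 359) (nat_lit 333) (nat_lit 88)) (XT.nd (nat_lit 78) (nat_lit 0) (nat_lit 0) (XT.lf (nat_lit 0) (nat_lit 17169327613) (nat_lit 532) (nat_lit 5948928845) (nat_lit 608) (nat_lit 31893051593) (nat_lit 127) (nat_lit 5) (nat_lit 134) (nat_lit 5) (nat_lit 135) (nat_lit 5) (nat_lit 360) (nat_lit 333) (nat_lit 87)) (XT.lf (nat_lit 0) (nat_lit 28803023871) (nat_lit 608) (nat_lit 12537281280) (nat_lit 76) (nat_lit 14652782593) (nat_lit 127) (nat_lit 5) (nat_lit 135) (nat_lit 5) (nat_lit 128) (nat_lit 5) (nat_lit 361) (nat_lit 333) (nat_lit 86))))) (XT.nd (nat_lit 234) (nat_lit 456) (nat_lit 0) (XT.nd (nat_lit 78) (nat_lit 456) (nat_lit 0) (XT.lf (nat_lit 0) (nat_lit 13734702234) (nat_lit 456) (nat_lit 21113634609) (nat_lit 532) (nat_lit 22150285336) (nat_lit 121) (nat_lit 5) (nat_lit 127) (nat_lit 5) (nat_lit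 128) (nat_lit 5) (nat_lit 362) (nat_lit 333) (nat_lit 85)) (XT.nd (nat_lit 78) (nat_lit 456) (nat_lit 0) (XT.lf (nat_lit 0) (nat_lit 41050886895) (nat_lit 456) (nat_lit 149817846) (nat_lit 532) (nat_lit 16829848426) (nat_lit 121) (nat_lit 5) (nat_lit 127) (nat_lit 5) (nat_lit 128) (nat_lit 5) (nat_lit 363) (nat_lit 333) (nat_lit 84)) (XT.lf (nat_lit 0) (nat_lit 10082784443) (nat_lit 456) (nat_lit 37963023001) (nat_lit 532) (nat_lit 11038571072) (nat_lit 115) (nat_lit 5) (nat_lit 121) (nat_lit 5) (nat_lit 122) (nat_lit 5) (nat_lit 364) (nat_lit 333) (nat_lit 83)))) (XT.nd (nat_lit 78) (nat_lit 456) (nat_lit 0) (XT.lf (nat_lit 0) (nat_lit 38302712127) (nat_lit 456) (nat_lit 16965617228) (nat_lit 532) (nat_lit 4896328595) (nat_lit 115) (nat_lit 5) (nat_lit 121) (nat_lit 5) (nat_lit 122) (nat_lit 5) (nat_lit 365) (nat_lit 333) (nat_lit 82)) (XT.nd (nat_lit 78) (nat_lit 0) (nat_lit 0) (XT.lf (nat_lit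 0) (nat_lit 1506541550) (nat_lit 456) (nat_lit 55122557230) (nat_lit 76) (nat_lit 4644707732) (nat_lit 109) (nat_lit 5) (nat_lit 115) (nat_lit 5) (nat_lit 110) (nat_lit 5) (nat_lit 366) (nat_lit 333) (nat_lit 81)) (XT.lf (nat_lit 0) (nat_lit 8393177820) (nat_lit 456) (nat_lit 27176215273) (nat_lit 76) (nat_lit 26833680538) (nat_lit 109) (nat_lit 5) (nat_lit 115) (nat_lit 5) (nat_lit 110) (nat_lit 5) (nat_lit 367) (nat_lit 333) (nat_lit 80)))))) (XT.nd (nat_lit 38376) (nat_lit 0) (nat_lit 4864) (XT.nd (nat_lit 38142) (nat_lit 0) (nat_lit 4712) (XT.nd (nat_lit 37986) (nat_lit 0) (nat_lit 4712) (XT.lf (nat_lit 0) (nat_lit 1639582319) (nat_lit 456) (nat_lit 13861782217) (nat_lit 532) (nat_lit 48064406847) (nat_lit 103) (nat_lit 5) (nat_lit 109) (nat_lit 5) (nat_lit 110) (nat_lit 5) (nat_lit 368) (nat_lit 333) (nat_lit 79)) (XT.nd (nat_lit 78) (nat_lit 0) (nat_lit 0) (XT.lf (nat_lit 0) (nat_lit 913729822)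 (nat_lit 0) (nat_lit 913729822) (nat_lit 1140) (nat_lit 16464186348) (nat_lit 165) (nat_lit 5) (nat_lit 165) (nat_lit 3) (nat_lit 180) (nat_lit 3) (nat_lit 334) (nat_lit 334) (nat_lit 112)) (XT.lf (nat_lit 0) (nat_lit 3894970952) (nat_lit 1140) (nat_lit 19028098569) (nat_lit 1216) (nat_lit 14203336123) (nat_lit 165) (nat_lit 5) (nat_lit 180) (nat_lit 3) (nat_lit 181) (nat_lit 5) (nat_lit 335) (nat_lit 334) (nat_lit 111)))) (XT.nd (nat_lit 78) (nat_lit 0) (nat_lit 76) (XT.lf (nat_lit 0) (nat_lit 4158531996) (nat_lit 1140) (nat_lit 2847589206) (nat_lit 1216) (nat_lit 30679205354) (nat_lit 165) (nat_lit 5) (nat_lit 180) (nat_lit 3) (nat_lit 181) (nat_lit 5) (nat_lit 336) (nat_lit 334) (nat_lit 110)) (XT.nd (nat_lit 78) (nat_lit 0) (nat_lit 0) (XT.lf (nat_lit 0) (nat_lit 4655326115) (nat_lit 1140) (nat_lit 24256207415) (nat_lit 1216) (nat_lit 9342724767) (nat_lit 166) (nat_lit 5) (nat_lit 181) (nat_lit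 5) (nat_lit 182) (nat_lit 5) (nat_lit 337) (nat_lit 334) (nat_lit 109)) (XT.lf (nat_lit 0) (nat_lit 5263746525) (nat_lit 1140) (nat_lit 7502601211) (nat_lit 1216) (nat_lit 26071011482) (nat_lit 166) (nat_lit 5) (nat_lit 181) (nat_lit 5) (nat_lit 182) (nat_lit 5) (nat_lit 338) (nat_lit 334) (nat_lit 108))))) (XT.nd (nat_lit 234) (nat_lit 0) (nat_lit 76) (XT.nd (nat_lit 78) (nat_lit 0) (nat_lit 0) (XT.lf (nat_lit 0) (nat_lit 6022486622) (nat_lit 1140) (nat_lit 29526472919) (nat_lit 1216) (nat_lit 3885034431) (nat_lit 167) (nat_lit 5) (nat_lit 182) (nat_lit 5) (nat_lit 183) (nat_lit 5) (nat_lit 339) (nat_lit 334) (nat_lit 107)) (XT.nd (nat_lit 78) (nat_lit 0) (nat_lit 0) (XT.lf (nat_lit 0) (nat_lit 7005309076) (nat_lit 1140) (nat_lit 12180666920) (nat_lit 1216) (nat_lit 20856514903) (nat_lit 167) (nat_lit 5) (nat_lit 182) (nat_lit 5) (nat_lit 183) (nat_lit 5) (nat_lit 340) (nat_lit 334) (nat_lit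 106)) (XT.lf (nat_lit 76) (nat_lit 5797670620) (nat_lit 0) (nat_lit 2274131676) (nat_lit 1216) (nat_lit 32595817511) (nat_lit 168) (nat_lit 5) (nat_lit 167) (nat_lit 5) (nat_lit 183) (nat_lit 5) (nat_lit 341) (nat_lit 334) (nat_lit 105)))) (XT.nd (nat_lit 78) (nat_lit 0) (nat_lit 0) (XT.lf (nat_lit 0) (nat_lit 9438588905) (nat_lit 1140) (nat_lit 16890583596) (nat_lit 1216) (nat_lit 14974283702) (nat_lit 168) (nat_lit 5) (nat_lit 183) (nat_lit 5) (nat_lit 184) (nat_lit 5) (nat_lit 342) (nat_lit 334) (nat_lit 104)) (XT.nd (nat_lit 78) (nat_lit 0) (nat_lit 76) (XT.lf (nat_lit 76) (nat_lit 1636592757) (nat_lit 0) (nat_lit 9246574489) (nat_lit 1216) (nat_lit 31074099304) (nat_lit 169) (nat_lit 5) (nat_lit 168) (nat_lit 5) (nat_lit 184) (nat_lit 5) (nat_lit 343) (nat_lit 334) (nat_lit 103)) (XT.lf (nat_lit 0) (nat_lit 12622161790) (nat_lit 1140) (nat_lit 21642718878) (nat_lit 1216) (nat_lit 8358280603)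 (nat_lit 169) (nat_lit 5) (nat_lit 184) (nat_lit 5) (nat_lit 185) (nat_lit 5) (nat_lit 344) (nat_lit 334) (nat_lit 102))))))))
noncomputable def xc248 : XT := (XT.nd (nat_lit 39858) (nat_lit 0) (nat_lit 2432) (XT.nd (nat_lit 858) (nat_lit 3116) (nat_lit 0) (XT.nd (nat_lit 390) (nat_lit 1444) (nat_lit 0) (XT.nd (nat_lit 156) (nat_lit 0) (nat_lit 76) (XT.nd (nat_lit 78) (nat_lit 0) (nat_lit 76) (XT.lf (nat_lit 0) (nat_lit 14503495290) (nat_lit 1140) (nat_lit 2496975263) (nat_lit 1216) (nat_lit 26305859568) (nat_lit 169) (nat_lit 5) (nat_lit 184) (nat_lit 5) (nat_lit 185) (nat_lit 5) (nat_lit 345) (nat_lit 334) (nat_lit 101)) (XT.lf (nat_lit 0) (nat_lit 16617963824) (nat_lit 1140) (nat_lit 26449237305) (nat_lit 1216) (nat_lit 937494346) (nat_lit 170) (nat_lit 5) (nat_lit 185) (nat_lit 5) (nat_lit 186) (nat_lit 5) (nat_lit 346) (nat_lit 334) (nat_lit 100))) (XT.nd (nat_lit 78) (nat_lit 0) (nat_lit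 0) (XT.lf (nat_lit 0) (nat_lit 18988344394) (nat_lit 1140) (nat_lit 6632182333) (nat_lit 1216) (nat_lit 19097712949) (nat_lit 170) (nat_lit 5) (nat_lit 185) (nat_lit 5) (nat_lit 186) (nat_lit 5) (nat_lit 347) (nat_lit 334) (nat_lit 99)) (XT.nd (nat_lit 78) (nat_lit 0) (nat_lit 76) (XT.lf (nat_lit 76) (nat_lit 14052624923) (nat_lit 0) (nat_lit 7511024259) (nat_lit 1216) (nat_lit 23885528795) (nat_lit 171) (nat_lit 5) (nat_lit 170) (nat_lit 5) (nat_lit 186) (nat_lit 5) (nat_lit 348) (nat_lit 334) (nat_lit 98)) (XT.lf (nat_lit 0) (nat_lit 24389710385) (nat_lit 1140) (nat_lit 10814879280) (nat_lit 1216) (nat_lit 10992251941) (nat_lit 171) (nat_lit 5) (nat_lit 186) (nat_lit 5) (nat_lit 187) (nat_lit 5) (nat_lit 349) (nat_lit 334) (nat_lit 97))))) (XT.nd (nat_lit 234) (nat_lit 532) (nat_lit 0) (XT.nd (nat_lit 78) (nat_lit 1064) (nat_lit 0) (XT.lf (nat_lit 76) (nat_lit 10514065700) (nat_lit 0) (nat_lit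 16960718726) (nat_lit 1216) (nat_lit 19486925824) (nat_lit 172) (nat_lit 5) (nat_lit 171) (nat_lit 5) (nat_lit 187) (nat_lit 5) (nat_lit 350) (nat_lit 334) (nat_lit 96)) (XT.nd (nat_lit 78) (nat_lit 1140) (nat_lit 0) (XT.lf (nat_lit 0) (nat_lit 30779121131) (nat_lit 1140) (nat_lit 15061361497) (nat_lit 76) (nat_lit 1905242987) (nat_lit 172) (nat_lit 5) (nat_lit 187) (nat_lit 5) (nat_lit 173) (nat_lit 5) (nat_lit 351) (nat_lit 334) (nat_lit 95)) (XT.lf (nat_lit 0) (nat_lit 6932887740) (nat_lit 1140) (nat_lit 27483130008) (nat_lit 1216) (nat_lit 14130242717) (nat_lit 157) (nat_lit 5) (nat_lit 172) (nat_lit 5) (nat_lit 173) (nat_lit 5) (nat_lit 352) (nat_lit 334) (nat_lit 94)))) (XT.nd (nat_lit 78) (nat_lit 532) (nat_lit 0) (XT.lf (nat_lit 0) (nat_lit 29894737199) (nat_lit 1140) (nat_lit 8418256943) (nat_lit 1216) (nat_lit 11053289896) (nat_lit 157) (nat_lit 5) (nat_lit 172) (nat_lit 5) (nat_lit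 173) (nat_lit 5) (nat_lit 353) (nat_lit 334) (nat_lit 93)) (XT.nd (nat_lit 78) (nat_lit 0) (nat_lit 0) (XT.lf (nat_lit 0) (nat_lit 3289914356) (nat_lit 532) (nat_lit 39175346397) (nat_lit 608) (nat_lit 7741497944) (nat_lit 150) (nat_lit 5) (nat_lit 157) (nat_lit 5) (nat_lit 158) (nat_lit 5) (nat_lit 354) (nat_lit 334) (nat_lit 92)) (XT.lf (nat_lit 0) (nat_lit 27047390845) (nat_lit 532) (nat_lit 19972799713) (nat_lit 608) (nat_lit 4043915939) (nat_lit 150) (nat_lit 5) (nat_lit 157) (nat_lit 5) (nat_lit 158) (nat_lit 5) (nat_lit 355) (nat_lit 334) (nat_lit 91)))))) (XT.nd (nat_lit 468) (nat_lit 1368) (nat_lit 0) (XT.nd (nat_lit 234) (nat_lit 1064) (nat_lit 0) (XT.nd (nat_lit 78) (nat_lit 684) (nat_lit 0) (XT.lf (nat_lit 0) (nat_lit 51516651557) (nat_lit 532) (nat_lit 194086431) (nat_lit 608) (nat_lit 236469356) (nat_lit 150) (nat_lit 5) (nat_lit 157) (nat_lit 5) (nat_lit 158) (nat_lit 5) (nat_lit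 356) (nat_lit 334) (nat_lit 90)) (XT.nd (nat_lit 78) (nat_lit 0) (nat_lit 0) (XT.lf (nat_lit 0) (nat_lit 4042501152) (nat_lit 684) (nat_lit 28744359363) (nat_lit 76) (nat_lit 20056003212) (nat_lit 141) (nat_lit 5) (nat_lit 150) (nat_lit 5) (nat_lit 142) (nat_lit 5) (nat_lit 357) (nat_lit 334) (nat_lit 89)) (XT.lf (nat_lit 0) (nat_lit 8450409862) (nat_lit 684) (nat_lit 4398260256) (nat_lit 76) (nat_lit 40916491351) (nat_lit 141) (nat_lit 5) (nat_lit 150) (nat_lit 5) (nat_lit 142) (nat_lit 5) (nat_lit 358) (nat_lit 334) (nat_lit 88)))) (XT.nd (nat_lit 78) (nat_lit 532) (nat_lit 0) (XT.lf (nat_lit 0) (nat_lit 13268218633) (nat_lit 608) (nat_lit 33696171763) (nat_lit 76) (nat_lit 7742409377) (nat_lit 134) (nat_lit 5) (nat_lit 142) (nat_lit 5) (nat_lit 135) (nat_lit 5) (nat_lit 359) (nat_lit 334) (nat_lit 87)) (XT.nd (nat_lit 78) (nat_lit 532) (nat_lit 0) (XT.lf (nat_lit 0) (nat_lit 18401687420) (nat_lit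 608) (nat_lit 8532016335) (nat_lit 76) (nat_lit 28737851167) (nat_lit 134) (nat_lit 5) (nat_lit 142) (nat_lit 5) (nat_lit 135) (nat_lit 5) (nat_lit 360) (nat_lit 334) (nat_lit 86)) (XT.lf (nat_lit 0) (nat_lit 17732159556) (nat_lit 532) (nat_lit 6126538181) (nat_lit 608) (nat_lit 32801470295) (nat_lit 127) (nat_lit 5) (nat_lit 134) (nat_lit 5) (nat_lit 135) (nat_lit 5) (nat_lit 361) (nat_lit 334) (nat_lit 85))))) (XT.nd (nat_lit 234) (nat_lit 912) (nat_lit 0) (XT.nd (nat_lit 78) (nat_lit 456) (nat_lit 0) (XT.lf (nat_lit 0) (nat_lit 29712650351) (nat_lit 608) (nat_lit 12865610279) (nat_lit 76) (nat_lit 15093183330) (nat_lit 127) (nat_lit 5) (nat_lit 135) (nat_lit 5) (nat_lit 128) (nat_lit 5) (nat_lit 362) (nat_lit 334) (nat_lit 84)) (XT.nd (nat_lit 78) (nat_lit 0) (nat_lit 0) (XT.lf (nat_lit 0) (nat_lit 14194064217) (nat_lit 456) (nat_lit 21744387088) (nat_lit 532) (nat_lit 22768721313) (nat_lit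 121) (nat_lit 5) (nat_lit 127) (nat_lit 5) (nat_lit 128) (nat_lit 5) (nat_lit 363) (nat_lit 334) (nat_lit 83)) (XT.lf (nat_lit 0) (nat_lit 42328356139) (nat_lit 456) (nat_lit 151733198) (nat_lit 532) (nat_lit 17290013215) (nat_lit 121) (nat_lit 5) (nat_lit 127) (nat_lit 5) (nat_lit 128) (nat_lit 5) (nat_lit 364) (nat_lit 334) (nat_lit 82)))) (XT.nd (nat_lit 78) (nat_lit 456) (nat_lit 0) (XT.lf (nat_lit 0) (nat_lit 10432089451) (nat_lit 456) (nat_lit 39097666804) (nat_lit 532) (nat_lit 11325812005) (nat_lit 115) (nat_lit 5) (nat_lit 121) (nat_lit 5) (nat_lit 122) (nat_lit 5) (nat_lit 365) (nat_lit 334) (nat_lit 81)) (XT.nd (nat_lit 78) (nat_lit 456) (nat_lit 0) (XT.lf (nat_lit 0) (nat_lit 39497251233) (nat_lit 456) (nat_lit 17470462553) (nat_lit 532) (nat_lit 5000581366) (nat_lit 115) (nat_lit 5) (nat_lit 121) (nat_lit 5) (nat_lit 122) (nat_lit 5) (nat_lit 366) (nat_lit 334) (nat_lit 80)) (XT.lf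 (nat_lit 0) (nat_lit 1592813225) (nat_lit 456) (nat_lit 56729094956) (nat_lit 76) (nat_lit 4788821352) (nat_lit 109) (nat_lit 5) (nat_lit 115) (nat_lit 5) (nat_lit 110) (nat_lit 5) (nat_lit 367) (nat_lit 334) (nat_lit 79))))))) (XT.nd (nat_lit 936) (nat_lit 1824) (nat_lit 0) (XT.nd (nat_lit 468) (nat_lit 0) (nat_lit 152) (XT.nd (nat_lit 234) (nat_lit 0) (nat_lit 76) (XT.nd (nat_lit 78) (nat_lit 0) (nat_lit 0) (XT.lf (nat_lit 0) (nat_lit 963910465) (nat_lit 0) (nat_lit 963910465) (nat_lit 1140) (nat_lit 16911130191) (nat_lit 165) (nat_lit 5) (nat_lit 165) (nat_lit 3) (nat_lit 180) (nat_lit 3) (nat_lit 335) (nat_lit 335) (nat_lit 110)) (XT.nd (nat_lit 78) (nat_lit 0) (nat_lit 0) (XT.lf (nat_lit 0) (nat_lit 4099817416) (nat_lit 1140) (nat_lit 19551501009) (nat_lit 1216) (nat_lit 14586087766) (nat_lit 165) (nat_lit 5) (nat_lit 180) (nat_lit 3) (nat_lit 181) (nat_lit 5) (nat_lit 336) (nat_lit 335)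 (nat_lit 109)) (XT.lf (nat_lit 0) (nat_lit 4368722263) (nat_lit 1140) (nat_lit 2886958127) (nat_lit 1216) (nat_lit 31557495649) (nat_lit 165) (nat_lit 5) (nat_lit 180) (nat_lit 3) (nat_lit 181) (nat_lit 5) (nat_lit 337) (nat_lit 335) (nat_lit 108)))) (XT.nd (nat_lit 78) (nat_lit 0) (nat_lit 0) (XT.lf (nat_lit 0) (nat_lit 4878007095) (nat_lit 1140) (nat_lit 24935278777) (nat_lit 1216) (nat_lit 9585966544) (nat_lit 166) (nat_lit 5) (nat_lit 181) (nat_lit 5) (nat_lit 182) (nat_lit 5) (nat_lit 338) (nat_lit 335) (nat_lit 107)) (XT.nd (nat_lit 78) (nat_lit 0) (nat_lit 76) (XT.lf (nat_lit 0) (nat_lit 5502262024) (nat_lit 1140) (nat_lit 7680480354) (nat_lit 1216) (nat_lit 26817180694) (nat_lit 166) (nat_lit 5) (nat_lit 181) (nat_lit 5) (nat_lit 182) (nat_lit 5) (nat_lit 339) (nat_lit 335) (nat_lit 106)) (XT.lf (nat_lit 0) (nat_lit 6281558616) (nat_lit 1140) (nat_lit 30362727719) (nat_lit 1216) (nat_lit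 3970240748) (nat_lit 167) (nat_lit 5) (nat_lit 182) (nat_lit 5) (nat_lit 183) (nat_lit 5) (nat_lit 340) (nat_lit 335) (nat_lit 105))))) (XT.nd (nat_lit 234) (nat_lit 0) (nat_lit 76) (XT.nd (nat_lit 78) (nat_lit 0) (nat_lit 0) (XT.lf (nat_lit 0) (nat_lit 7291582324) (nat_lit 1140) (nat_lit 12497990435) (nat_lit 1216) (nat_lit 21451778587) (nat_lit 167) (nat_lit 5) (nat_lit 182) (nat_lit 5) (nat_lit 183) (nat_lit 5) (nat_lit 341) (nat_lit 335) (nat_lit 104)) (XT.nd (nat_lit 78) (nat_lit 0) (nat_lit 76) (XT.lf (nat_lit 76) (nat_lit 6019225696) (nat_lit 0) (nat_lit 2369085533) (nat_lit 1216) (nat_lit 33496979477) (nat_lit 168) (nat_lit 5) (nat_lit 167) (nat_lit 5) (nat_lit 183) (nat_lit 5) (nat_lit 342) (nat_lit 335) (nat_lit 103)) (XT.lf (nat_lit 0) (nat_lit 9793686300) (nat_lit 1140) (nat_lit 17348524796) (nat_lit 1216) (nat_lit 15398067252) (nat_lit 168) (nat_lit 5) (nat_lit 183) (nat_lit 5) (nat_lit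 184) (nat_lit 5) (nat_lit 343) (nat_lit 335) (nat_lit 102)))) (XT.nd (nat_lit 78) (nat_lit 0) (nat_lit 76) (XT.lf (nat_lit 76) (nat_lit 1733988648) (nat_lit 0) (nat_lit 9545982282) (nat_lit 1216) (nat_lit 31933784600) (nat_lit 169) (nat_lit 5) (nat_lit 168) (nat_lit 5) (nat_lit 184) (nat_lit 5) (nat_lit 344) (nat_lit 335) (nat_lit 101)) (XT.nd (nat_lit 78) (nat_lit 0) (nat_lit 0) (XT.lf (nat_lit 0) (nat_lit 13068882069) (nat_lit 1140) (nat_lit 22242739567) (nat_lit 1216) (nat_lit 8588076542) (nat_lit 169) (nat_lit 5) (nat_lit 184) (nat_lit 5) (nat_lit 185) (nat_lit 5) (nat_lit 345) (nat_lit 335) (nat_lit 100)) (XT.lf (nat_lit 0) (nat_lit 15004673377) (nat_lit 1140) (nat_lit 2524058427) (nat_lit 1216) (nat_lit 27074693142) (nat_lit 169) (nat_lit 5) (nat_lit 184) (nat_lit 5) (nat_lit 185) (nat_lit 5) (nat_lit 346) (nat_lit 335) (nat_lit 99)))))) (XT.nd (nat_lit 468) (nat_lit 2204) (nat_lit 0) (XT.nd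 (nat_lit 234) (nat_lit 0) (nat_lit 76) (XT.nd (nat_lit 78) (nat_lit 0) (nat_lit 0) (XT.lf (nat_lit 0) (nat_lit 17180940945) (nat_lit 1140) (nat_lit 27193143713) (nat_lit 1216) (nat_lit 948708942) (nat_lit 170) (nat_lit 5) (nat_lit 185) (nat_lit 5) (nat_lit 186) (nat_lit 5) (nat_lit 347) (nat_lit 335) (nat_lit 98)) (XT.nd (nat_lit 78) (nat_lit 0) (nat_lit 0) (XT.lf (nat_lit 0) (nat_lit 19620556091) (nat_lit 1140) (nat_lit 6783020899) (nat_lit 1216) (nat_lit 19654226634) (nat_lit 170) (nat_lit 5) (nat_lit 185) (nat_lit 5) (nat_lit 186) (nat_lit 5) (nat_lit 348) (nat_lit 335) (nat_lit 97)) (XT.lf (nat_lit 76) (nat_lit 14521858742) (nat_lit 0) (nat_lit 7749897194) (nat_lit 1216) (nat_lit 24538958160) (nat_lit 171) (nat_lit 5) (nat_lit 170) (nat_lit 5) (nat_lit 186) (nat_lit 5) (nat_lit 349) (nat_lit 335) (nat_lit 96)))) (XT.nd (nat_lit 78) (nat_lit 0) (nat_lit 0) (XT.lf (nat_lit 0) (nat_lit 25180690146)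 (nat_lit 1140) (nat_lit 11091049476) (nat_lit 1216) (nat_lit 11309128286) (nat_lit 171) (nat_lit 5) (nat_lit 186) (nat_lit 5) (nat_lit 187) (nat_lit 5) (nat_lit 350) (nat_lit 335) (nat_lit 95)) (XT.nd (nat_lit 78) (nat_lit 0) (nat_lit 76) (XT.lf (nat_lit 76) (nat_lit 10877290558) (nat_lit 0) (nat_lit 17479758513) (nat_lit 1216) (nat_lit 20011674481) (nat_lit 172) (nat_lit 5) (nat_lit 171) (nat_lit 5) (nat_lit 187) (nat_lit 5) (nat_lit 351) (nat_lit 335) (nat_lit 94)) (XT.lf (nat_lit 0) (nat_lit 31758730579) (nat_lit 1140) (nat_lit 15464911938) (nat_lit 76) (nat_lit 1952673256) (nat_lit 172) (nat_lit 5) (nat_lit 187) (nat_lit 5) (nat_lit 173) (nat_lit 5) (nat_lit 352) (nat_lit 335) (nat_lit 93))))) (XT.nd (nat_lit 234) (nat_lit 684) (nat_lit 0) (XT.nd (nat_lit 78) (nat_lit 532) (nat_lit 0) (XT.lf (nat_lit 0) (nat_lit 7188691341) (nat_lit 1140) (nat_lit 28314864463) (nat_lit 1216) (nat_lit 14497348966)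 (nat_lit 157) (nat_lit 5) (nat_lit 172) (nat_lit 5) (nat_lit 173) (nat_lit 5) (nat_lit 353) (nat_lit 335) (nat_lit 92)) (XT.nd (nat_lit 78) (nat_lit 532) (nat_lit 0) (XT.lf (nat_lit 0) (nat_lit 30838003556) (nat_lit 1140) (nat_lit 8677834316) (nat_lit 1216) (nat_lit 11329741960) (nat_lit 157) (nat_lit 5) (nat_lit 172) (nat_lit 5) (nat_lit 173) (nat_lit 5) (nat_lit 354) (nat_lit 335) (nat_lit 91)) (XT.lf (nat_lit 0) (nat_lit 3436323931) (nat_lit 532) (nat_lit 40355184674) (nat_lit 608) (nat_lit 7919797638) (nat_lit 150) (nat_lit 5) (nat_lit 157) (nat_lit 5) (nat_lit 158) (nat_lit 5) (nat_lit 355) (nat_lit 335) (nat_lit 90)))) (XT.nd (nat_lit 78) (nat_lit 684) (nat_lit 0) (XT.lf (nat_lit 0) (nat_lit 27905135040) (nat_lit 532) (nat_lit 20576428254) (nat_lit 608) (nat_lit 4112859393) (nat_lit 150) (nat_lit 5) (nat_lit 157) (nat_lit 5) (nat_lit 158) (nat_lit 5) (nat_lit 356) (nat_lit 335) (nat_lit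 89)) (XT.nd (nat_lit 78) (nat_lit 684) (nat_lit 0) (XT.lf (nat_lit 0) (nat_lit 53107124375) (nat_lit 532) (nat_lit 204224120) (nat_lit 608) (nat_lit 192714870) (nat_lit 150) (nat_lit 5) (nat_lit 157) (nat_lit 5) (nat_lit 158) (nat_lit 5) (nat_lit 357) (nat_lit 335) (nat_lit 88)) (XT.lf (nat_lit 0) (nat_lit 4212587426) (nat_lit 684) (nat_lit 29559523505) (nat_lit 76) (nat_lit 20654497505) (nat_lit 141) (nat_lit 5) (nat_lit 150) (nat_lit 5) (nat_lit 142) (nat_lit 5) (nat_lit 358) (nat_lit 335) (nat_lit 87))))))))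
noncomputable def xc249 : XT := (XT.nd (nat_lit 39936) (nat_lit 0) (nat_lit 456) (XT.nd (nat_lit 39000) (nat_lit 0) (nat_lit 3800) (XT.nd (nat_lit 390) (nat_lit 912) (nat_lit 0) (XT.nd (nat_lit 156) (nat_lit 532) (nat_lit 0) (XT.nd (nat_lit 78) (nat_lit 532) (nat_lit 0) (XT.lf (nat_lit 0) (nat_lit 8751311710) (nat_lit 684) (nat_lit 4484415211) (nat_lit 76) (nat_lit 42140893078) (nat_lit 141) (nat_lit 5) (nat_lit 150) (nat_lit 5) (nat_lit 142) (nat_lit 5) (nat_lit 359) (nat_lit 335) (nat_lit 86)) (XT.lf (nat_lit 0) (nat_lit 13712699753) (nat_lit 608) (nat_lit 34660236618) (nat_lit 76) (nat_lit 7973601903) (nat_lit 134) (nat_lit 5) (nat_lit 142) (nat_lit 5) (nat_lit 135) (nat_lit 5) (nat_lit 360) (nat_lit 335) (nat_lit 85))) (XT.nd (nat_lit 78) (nat_lit 532) (nat_lit 0) (XT.lf (nat_lit 0) (nat_lit 18998820142) (nat_lit 608) (nat_lit 8742520225) (nat_lit 76) (nat_lit 29598938397) (nat_lit 134) (nat_lit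 5) (nat_lit 142) (nat_lit 5) (nat_lit 135) (nat_lit 5) (nat_lit 361) (nat_lit 335) (nat_lit 84)) (XT.nd (nat_lit 78) (nat_lit 0) (nat_lit 0) (XT.lf (nat_lit 0) (nat_lit 18309135290) (nat_lit 532) (nat_lit 6309525079) (nat_lit 608) (nat_lit 33739918357) (nat_lit 127) (nat_lit 5) (nat_lit 134) (nat_lit 5) (nat_lit 135) (nat_lit 5) (nat_lit 362) (nat_lit 335) (nat_lit 83)) (XT.lf (nat_lit 0) (nat_lit 30646951686) (nat_lit 608) (nat_lit 13206532457) (nat_lit 76) (nat_lit 15546749175) (nat_lit 127) (nat_lit 5) (nat_lit 135) (nat_lit 5) (nat_lit 128) (nat_lit 5) (nat_lit 363) (nat_lit 335) (nat_lit 82))))) (XT.nd (nat_lit 234) (nat_lit 0) (nat_lit 0) (XT.nd (nat_lit 78) (nat_lit 456) (nat_lit 0) (XT.lf (nat_lit 0) (nat_lit 14664490645) (nat_lit 456) (nat_lit 22394214640) (nat_lit 532) (nat_lit 23408355124) (nat_lit 121) (nat_lit 5) (nat_lit 127) (nat_lit 5) (nat_lit 128) (nat_lit 5) (nat_lit 364) (nat_lit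 335) (nat_lit 81)) (XT.nd (nat_lit 78) (nat_lit 456) (nat_lit 0) (XT.lf (nat_lit 0) (nat_lit 43641512164) (nat_lit 456) (nat_lit 153854066) (nat_lit 532) (nat_lit 17766550672) (nat_lit 121) (nat_lit 5) (nat_lit 127) (nat_lit 5) (nat_lit 128) (nat_lit 5) (nat_lit 365) (nat_lit 335) (nat_lit 80)) (XT.lf (nat_lit 0) (nat_lit 10789185865) (nat_lit 456) (nat_lit 40266593710) (nat_lit 532) (nat_lit 11624191135) (nat_lit 115) (nat_lit 5) (nat_lit 121) (nat_lit 5) (nat_lit 122) (nat_lit 5) (nat_lit 366) (nat_lit 335) (nat_lit 79)))) (XT.nd (nat_lit 38220) (nat_lit 0) (nat_lit 3800) (XT.lf (nat_lit 0) (nat_lit 40725017052) (nat_lit 456) (nat_lit 17990689927) (nat_lit 532) (nat_lit 5110409263) (nat_lit 115) (nat_lit 5) (nat_lit 121) (nat_lit 5) (nat_lit 122) (nat_lit 5) (nat_lit 367) (nat_lit 335) (nat_lit 78)) (XT.nd (nat_lit 78) (nat_lit 0) (nat_lit 0) (XT.lf (nat_lit 0) (nat_lit 1014289507) (nat_lit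 0) (nat_lit 1014289507) (nat_lit 1140) (nat_lit 17374179294) (nat_lit 165) (nat_lit 5) (nat_lit 165) (nat_lit 3) (nat_lit 180) (nat_lit 3) (nat_lit 336) (nat_lit 336) (nat_lit 108)) (XT.lf (nat_lit 0) (nat_lit 4305757868) (nat_lit 1140) (nat_lit 20093328801) (nat_lit 1216) (nat_lit 14982810335) (nat_lit 165) (nat_lit 5) (nat_lit 180) (nat_lit 3) (nat_lit 181) (nat_lit 5) (nat_lit 337) (nat_lit 336) (nat_lit 107)))))) (XT.nd (nat_lit 468) (nat_lit 0) (nat_lit 228) (XT.nd (nat_lit 234) (nat_lit 0) (nat_lit 152) (XT.nd (nat_lit 78) (nat_lit 0) (nat_lit 76) (XT.lf (nat_lit 0) (nat_lit 4580313959) (nat_lit 1140) (nat_lit 2930152077) (nat_lit 1216) (nat_lit 32464550554) (nat_lit 165) (nat_lit 5) (nat_lit 180) (nat_lit 3) (nat_lit 181) (nat_lit 5) (nat_lit 338) (nat_lit 336) (nat_lit 106)) (XT.nd (nat_lit 78) (nat_lit 0) (nat_lit 0) (XT.lf (nat_lit 0) (nat_lit 5102602748) (nat_lit 1140) (nat_lit 25637512972)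 (nat_lit 1216) (nat_lit 9838631819) (nat_lit 166) (nat_lit 5) (nat_lit 181) (nat_lit 5) (nat_lit 182) (nat_lit 5) (nat_lit 339) (nat_lit 336) (nat_lit 105)) (XT.lf (nat_lit 0) (nat_lit 5743306040) (nat_lit 1140) (nat_lit 7866405281) (nat_lit 1216) (nat_lit 27587799298) (nat_lit 166) (nat_lit 5) (nat_lit 181) (nat_lit 5) (nat_lit 182) (nat_lit 5) (nat_lit 340) (nat_lit 336) (nat_lit 104)))) (XT.nd (nat_lit 78) (nat_lit 0) (nat_lit 0) (XT.lf (nat_lit 0) (nat_lit 6543902439) (nat_lit 1140) (nat_lit 31226913927) (nat_lit 1216) (nat_lit 4059802569) (nat_lit 167) (nat_lit 5) (nat_lit 182) (nat_lit 5) (nat_lit 183) (nat_lit 5) (nat_lit 341) (nat_lit 336) (nat_lit 103)) (XT.nd (nat_lit 78) (nat_lit 0) (nat_lit 0) (XT.lf (nat_lit 0) (nat_lit 7582074517) (nat_lit 1140) (nat_lit 12827594591) (nat_lit 1216) (nat_lit 22066647089) (nat_lit 167) (nat_lit 5) (nat_lit 182) (nat_lit 5) (nat_lit 183) (nat_lit 5)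 (nat_lit 342) (nat_lit 336) (nat_lit 102)) (XT.lf (nat_lit 76) (nat_lit 6244693558) (nat_lit 0) (nat_lit 2465353599) (nat_lit 1216) (nat_lit 34429579916) (nat_lit 168) (nat_lit 5) (nat_lit 167) (nat_lit 5) (nat_lit 183) (nat_lit 5) (nat_lit 343) (nat_lit 336) (nat_lit 101))))) (XT.nd (nat_lit 234) (nat_lit 0) (nat_lit 76) (XT.nd (nat_lit 78) (nat_lit 0) (nat_lit 0) (XT.lf (nat_lit 0) (nat_lit 10155306983) (nat_lit 1140) (nat_lit 17823004191) (nat_lit 1216) (nat_lit 15836024954) (nat_lit 168) (nat_lit 5) (nat_lit 183) (nat_lit 5) (nat_lit 184) (nat_lit 5) (nat_lit 344) (nat_lit 336) (nat_lit 100)) (XT.nd (nat_lit 78) (nat_lit 0) (nat_lit 76) (XT.lf (nat_lit 76) (nat_lit 1831533907) (nat_lit 0) (nat_lit 9853108813) (nat_lit 1216) (nat_lit 32823424414) (nat_lit 169) (nat_lit 5) (nat_lit 168) (nat_lit 5) (nat_lit 184) (nat_lit 5) (nat_lit 345) (nat_lit 336) (nat_lit 99)) (XT.lf (nat_lit 0) (nat_lit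 13525097297) (nat_lit 1140) (nat_lit 22863588653) (nat_lit 1216) (nat_lit 8825969117) (nat_lit 169) (nat_lit 5) (nat_lit 184) (nat_lit 5) (nat_lit 185) (nat_lit 5) (nat_lit 346) (nat_lit 336) (nat_lit 98)))) (XT.nd (nat_lit 78) (nat_lit 0) (nat_lit 76) (XT.lf (nat_lit 0) (nat_lit 15517093934) (nat_lit 1140) (nat_lit 2554699499) (nat_lit 1216) (nat_lit 27867759450) (nat_lit 169) (nat_lit 5) (nat_lit 184) (nat_lit 5) (nat_lit 185) (nat_lit 5) (nat_lit 347) (nat_lit 336) (nat_lit 97)) (XT.nd (nat_lit 78) (nat_lit 0) (nat_lit 0) (XT.lf (nat_lit 0) (nat_lit 17757108363) (nat_lit 1140) (nat_lit 27962212875) (nat_lit 1216) (nat_lit 961230692) (nat_lit 170) (nat_lit 5) (nat_lit 185) (nat_lit 5) (nat_lit 186) (nat_lit 5) (nat_lit 348) (nat_lit 336) (nat_lit 96)) (XT.lf (nat_lit 0) (nat_lit 20268142860) (nat_lit 1140) (nat_lit 6941147303) (nat_lit 1216) (nat_lit 20228378173) (nat_lit 170) (nat_lit 5) (nat_lit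 185) (nat_lit 5) (nat_lit 186) (nat_lit 5) (nat_lit 349) (nat_lit 336) (nat_lit 95))))))) (XT.nd (nat_lit 936) (nat_lit 988) (nat_lit 0) (XT.nd (nat_lit 468) (nat_lit 1748) (nat_lit 0) (XT.nd (nat_lit 234) (nat_lit 988) (nat_lit 0) (XT.nd (nat_lit 78) (nat_lit 0) (nat_lit 76) (XT.lf (nat_lit 76) (nat_lit 15002433980) (nat_lit 0) (nat_lit 7995158939) (nat_lit 1216) (nat_lit 25215614698) (nat_lit 171) (nat_lit 5) (nat_lit 170) (nat_lit 5) (nat_lit 186) (nat_lit 5) (nat_lit 350) (nat_lit 336) (nat_lit 94)) (XT.nd (nat_lit 78) (nat_lit 0) (nat_lit 0) (XT.lf (nat_lit 0) (nat_lit 25991995900) (nat_lit 1140) (nat_lit 11378276028) (nat_lit 1216) (nat_lit 11636250929) (nat_lit 171) (nat_lit 5) (nat_lit 186) (nat_lit 5) (nat_lit 187) (nat_lit 5) (nat_lit 351) (nat_lit 336) (nat_lit 93)) (XT.lf (nat_lit 76) (nat_lit 11248668080) (nat_lit 0) (nat_lit 18013782926) (nat_lit 1216) (nat_lit 20555601756) (nat_lit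 172) (nat_lit 5) (nat_lit 171) (nat_lit 5) (nat_lit 187) (nat_lit 5) (nat_lit 352) (nat_lit 336) (nat_lit 92)))) (XT.nd (nat_lit 78) (nat_lit 1140) (nat_lit 0) (XT.lf (nat_lit 0) (nat_lit 32764500144) (nat_lit 1140) (nat_lit 15883340958) (nat_lit 76) (nat_lit 2002084804) (nat_lit 172) (nat_lit 5) (nat_lit 187) (nat_lit 5) (nat_lit 173) (nat_lit 5) (nat_lit 353) (nat_lit 336) (nat_lit 91)) (XT.nd (nat_lit 78) (nat_lit 0) (nat_lit 0) (XT.lf (nat_lit 0) (nat_lit 7449424161) (nat_lit 1140) (nat_lit 29171135314) (nat_lit 1216) (nat_lit 14878729015) (nat_lit 157) (nat_lit 5) (nat_lit 172) (nat_lit 5) (nat_lit 173) (nat_lit 5) (nat_lit 354) (nat_lit 336) (nat_lit 90)) (XT.lf (nat_lit 0) (nat_lit 31806902963) (nat_lit 1140) (nat_lit 8944795479) (nat_lit 1216) (nat_lit 11617653228) (nat_lit 157) (nat_lit 5) (nat_lit 172) (nat_lit 5) (nat_lit 173) (nat_lit 5) (nat_lit 355) (nat_lit 336) (nat_lit 89)))))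 (XT.nd (nat_lit 234) (nat_lit 1216) (nat_lit 0) (XT.nd (nat_lit 78) (nat_lit 0) (nat_lit 0) (XT.lf (nat_lit 0) (nat_lit 3584386921) (nat_lit 532) (nat_lit 41570155310) (nat_lit 608) (nat_lit 8106543001) (nat_lit 150) (nat_lit 5) (nat_lit 157) (nat_lit 5) (nat_lit 158) (nat_lit 5) (nat_lit 356) (nat_lit 336) (nat_lit 88)) (XT.nd (nat_lit 78) (nat_lit 0) (nat_lit 0) (XT.lf (nat_lit 0) (nat_lit 28785952462) (nat_lit 532) (nat_lit 21197910515) (nat_lit 608) (nat_lit 4186877635) (nat_lit 150) (nat_lit 5) (nat_lit 157) (nat_lit 5) (nat_lit 158) (nat_lit 5) (nat_lit 357) (nat_lit 336) (nat_lit 87)) (XT.lf (nat_lit 0) (nat_lit 54742729729) (nat_lit 532) (nat_lit 214418235) (nat_lit 608) (nat_lit 150566665) (nat_lit 150) (nat_lit 5) (nat_lit 157) (nat_lit 5) (nat_lit 158) (nat_lit 5) (nat_lit 358) (nat_lit 336) (nat_lit 86)))) (XT.nd (nat_lit 78) (nat_lit 532) (nat_lit 0) (XT.lf (nat_lit 0) (nat_lit 4384974323)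 (nat_lit 684) (nat_lit 30401850129) (nat_lit 76) (nat_lit 21271129504) (nat_lit 141) (nat_lit 5) (nat_lit 150) (nat_lit 5) (nat_lit 142) (nat_lit 5) (nat_lit 359) (nat_lit 336) (nat_lit 85)) (XT.nd (nat_lit 78) (nat_lit 532) (nat_lit 0) (XT.lf (nat_lit 0) (nat_lit 9058520259) (nat_lit 684) (nat_lit 4575783511) (nat_lit 76) (nat_lit 43402204409) (nat_lit 141) (nat_lit 5) (nat_lit 150) (nat_lit 5) (nat_lit 142) (nat_lit 5) (nat_lit 360) (nat_lit 336) (nat_lit 84)) (XT.lf (nat_lit 0) (nat_lit 14167849774) (nat_lit 608) (nat_lit 35655911095) (nat_lit 76) (nat_lit 8211792189) (nat_lit 134) (nat_lit 5) (nat_lit 142) (nat_lit 5) (nat_lit 135) (nat_lit 5) (nat_lit 361) (nat_lit 336) (nat_lit 83)))))) (XT.nd (nat_lit 38766) (nat_lit 0) (nat_lit 3344) (XT.nd (nat_lit 234) (nat_lit 456) (nat_lit 0) (XT.nd (nat_lit 78) (nat_lit 532) (nat_lit 0) (XT.lf (nat_lit 0) (nat_lit 19611278948) (nat_lit 608) (nat_lit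 8961948626) (nat_lit 76) (nat_lit 30485918421) (nat_lit 134) (nat_lit 5) (nat_lit 142) (nat_lit 5) (nat_lit 135) (nat_lit 5) (nat_lit 362) (nat_lit 336) (nat_lit 82)) (XT.nd (nat_lit 78) (nat_lit 0) (nat_lit 0) (XT.lf (nat_lit 0) (nat_lit 18900836483) (nat_lit 532) (nat_lit 6498048039) (nat_lit 608) (nat_lit 34709137261) (nat_lit 127) (nat_lit 5) (nat_lit 134) (nat_lit 5) (nat_lit 135) (nat_lit 5) (nat_lit 363) (nat_lit 336) (nat_lit 81)) (XT.lf (nat_lit 0) (nat_lit 31606818173) (nat_lit 608) (nat_lit 13560268132) (nat_lit 76) (nat_lit 16013877774) (nat_lit 127) (nat_lit 5) (nat_lit 135) (nat_lit 5) (nat_lit 128) (nat_lit 5) (nat_lit 364) (nat_lit 336) (nat_lit 80)))) (XT.nd (nat_lit 78) (nat_lit 0) (nat_lit 0) (XT.lf (nat_lit 0) (nat_lit 15146469386) (nat_lit 456) (nat_lit 23063680761) (nat_lit 532) (nat_lit 24069670885) (nat_lit 121) (nat_lit 5) (nat_lit 127) (nat_lit 5) (nat_lit 128) (nat_lit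 5) (nat_lit 365) (nat_lit 336) (nat_lit 79)) (XT.nd (nat_lit 38376) (nat_lit 0) (nat_lit 3344) (XT.lf (nat_lit 0) (nat_lit 44991576967) (nat_lit 456) (nat_lit 156178117) (nat_lit 532) (nat_lit 18259804578) (nat_lit 121) (nat_lit 5) (nat_lit 127) (nat_lit 5) (nat_lit 128) (nat_lit 5) (nat_lit 366) (nat_lit 336) (nat_lit 78)) (XT.lf (nat_lit 0) (nat_lit 1064947930) (nat_lit 0) (nat_lit 1064947930) (nat_lit 1140) (nat_lit 17853661999) (nat_lit 165) (nat_lit 5) (nat_lit 165) (nat_lit 3) (nat_lit 180) (nat_lit 3) (nat_lit 337) (nat_lit 337) (nat_lit 106))))) (XT.nd (nat_lit 234) (nat_lit 0) (nat_lit 76) (XT.nd (nat_lit 78) (nat_lit 0) (nat_lit 0) (XT.lf (nat_lit 0) (nat_lit 4513115097) (nat_lit 1140) (nat_lit 20653978380) (nat_lit 1216) (nat_lit 15393780116) (nat_lit 165) (nat_lit 5) (nat_lit 180) (nat_lit 3) (nat_lit 181) (nat_lit 5) (nat_lit 338) (nat_lit 337) (nat_lit 105)) (XT.nd (nat_lit 78) (nat_lit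 0) (nat_lit 76) (XT.lf (nat_lit 0) (nat_lit 4793630653) (nat_lit 1140) (nat_lit 2977134032) (nat_lit 1216) (nat_lit 33401094324) (nat_lit 165) (nat_lit 5) (nat_lit 180) (nat_lit 3) (nat_lit 181) (nat_lit 5) (nat_lit 339) (nat_lit 337) (nat_lit 104)) (XT.lf (nat_lit 0) (nat_lit 5329444088) (nat_lit 1140) (nat_lit 26363444688) (nat_lit 1216) (nat_lit 10100881243) (nat_lit 166) (nat_lit 5) (nat_lit 181) (nat_lit 5) (nat_lit 182) (nat_lit 5) (nat_lit 340) (nat_lit 337) (nat_lit 103)))) (XT.nd (nat_lit 78) (nat_lit 0) (nat_lit 76) (XT.lf (nat_lit 0) (nat_lit 5987220035) (nat_lit 1140) (nat_lit 8060461834) (nat_lit 1216) (nat_lit 28383482276) (nat_lit 166) (nat_lit 5) (nat_lit 181) (nat_lit 5) (nat_lit 182) (nat_lit 5) (nat_lit 341) (nat_lit 337) (nat_lit 102)) (XT.nd (nat_lit 78) (nat_lit 0) (nat_lit 0) (XT.lf (nat_lit 0) (nat_lit 6809874582) (nat_lit 1140) (nat_lit 32119706241) (nat_lit 1216) (nat_lit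 4153747271) (nat_lit 167) (nat_lit 5) (nat_lit 182) (nat_lit 5) (nat_lit 183) (nat_lit 5) (nat_lit 342) (nat_lit 337) (nat_lit 101)) (XT.lf (nat_lit 0) (nat_lit 7877163034) (nat_lit 1140) (nat_lit 13169689318) (nat_lit 1216) (nat_lit 22701608274) (nat_lit 167) (nat_lit 5) (nat_lit 182) (nat_lit 5) (nat_lit 183) (nat_lit 5) (nat_lit 343) (nat_lit 337) (nat_lit 100))))))))
noncomputable def xc250 : XT := (XT.nd (nat_lit 40170) (nat_lit 0) (nat_lit 1520) (XT.nd (nat_lit 858) (nat_lit 3496) (nat_lit 0) (XT.nd (nat_lit 390) (nat_lit 0) (nat_lit 228) (XT.nd (nat_lit 156) (nat_lit 0) (nat_lit 76) (XT.nd (nat_lit 78) (nat_lit 0) (nat_lit 76) (XT.lf (nat_lit 76) (nat_lit 6474348523) (nat_lit 0) (nat_lit 2563063383) (nat_lit 1216) (nat_lit 35394309199) (nat_lit 168) (nat_lit 5) (nat_lit 167) (nat_lit 5) (nat_lit 183) (nat_lit 5) (nat_lit 344) (nat_lit 337) (nat_lit 99)) (XT.lf (nat_lit 0) (nat_lit 10523883710)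 (nat_lit 1140) (nat_lit 18314357199) (nat_lit 1216) (nat_lit 16288498185) (nat_lit 168) (nat_lit 5) (nat_lit 183) (nat_lit 5) (nat_lit 184) (nat_lit 5) (nat_lit 345) (nat_lit 337) (nat_lit 98))) (XT.nd (nat_lit 78) (nat_lit 0) (nat_lit 76) (XT.lf (nat_lit 76) (nat_lit 1929392169) (nat_lit 0) (nat_lit 10168258174) (nat_lit 1216) (nat_lit 33743678355) (nat_lit 169) (nat_lit 5) (nat_lit 168) (nat_lit 5) (nat_lit 184) (nat_lit 5) (nat_lit 346) (nat_lit 337) (nat_lit 97)) (XT.nd (nat_lit 78) (nat_lit 0) (nat_lit 0) (XT.lf (nat_lit 0) (nat_lit 13991316581) (nat_lit 1140) (nat_lit 23505728661) (nat_lit 1216) (nat_lit 9072132184) (nat_lit 169) (nat_lit 5) (nat_lit 184) (nat_lit 5) (nat_lit 185) (nat_lit 5) (nat_lit 347) (nat_lit 337) (nat_lit 96)) (XT.lf (nat_lit 0) (nat_lit 16041311960) (nat_lit 1140) (nat_lit 2588847618) (nat_lit 1216) (nat_lit 28685718441) (nat_lit 169) (nat_lit 5) (nat_lit 184) (nat_lit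 5) (nat_lit 185) (nat_lit 5) (nat_lit 348) (nat_lit 337) (nat_lit 95))))) (XT.nd (nat_lit 234) (nat_lit 0) (nat_lit 76) (XT.nd (nat_lit 78) (nat_lit 0) (nat_lit 0) (XT.lf (nat_lit 0) (nat_lit 18347074125) (nat_lit 1140) (nat_lit 28757036327) (nat_lit 1216) (nat_lit 975043089) (nat_lit 170) (nat_lit 5) (nat_lit 185) (nat_lit 5) (nat_lit 186) (nat_lit 5) (nat_lit 349) (nat_lit 337) (nat_lit 94)) (XT.nd (nat_lit 78) (nat_lit 0) (nat_lit 0) (XT.lf (nat_lit 0) (nat_lit 20931772109) (nat_lit 1140) (nat_lit 7106621592) (nat_lit 1216) (nat_lit 20820642601) (nat_lit 170) (nat_lit 5) (nat_lit 185) (nat_lit 5) (nat_lit 186) (nat_lit 5) (nat_lit 350) (nat_lit 337) (nat_lit 93)) (XT.lf (nat_lit 76) (nat_lit 15494847913) (nat_lit 0) (nat_lit 8247045783) (nat_lit 1216) (nat_lit 25915987177) (nat_lit 171) (nat_lit 5) (nat_lit 170) (nat_lit 5) (nat_lit 186) (nat_lit 5) (nat_lit 351) (nat_lit 337) (nat_lit 92))))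 (XT.nd (nat_lit 78) (nat_lit 0) (nat_lit 0) (XT.lf (nat_lit 0) (nat_lit 26824432797) (nat_lit 1140) (nat_lit 11676731546) (nat_lit 1216) (nat_lit 11973884780) (nat_lit 171) (nat_lit 5) (nat_lit 186) (nat_lit 5) (nat_lit 187) (nat_lit 5) (nat_lit 352) (nat_lit 337) (nat_lit 91)) (XT.nd (nat_lit 78) (nat_lit 0) (nat_lit 76) (XT.lf (nat_lit 76) (nat_lit 11628600368) (nat_lit 0) (nat_lit 18563275174) (nat_lit 1216) (nat_lit 21119085758) (nat_lit 172) (nat_lit 5) (nat_lit 171) (nat_lit 5) (nat_lit 187) (nat_lit 5) (nat_lit 353) (nat_lit 337) (nat_lit 90)) (XT.lf (nat_lit 0) (nat_lit 33797399941) (nat_lit 1140) (nat_lit 16316935788) (nat_lit 76) (nat_lit 2053505017) (nat_lit 172) (nat_lit 5) (nat_lit 187) (nat_lit 5) (nat_lit 173) (nat_lit 5) (nat_lit 354) (nat_lit 337) (nat_lit 89)))))) (XT.nd (nat_lit 468) (nat_lit 1520) (nat_lit 0) (XT.nd (nat_lit 234) (nat_lit 684) (nat_lit 0) (XT.nd (nat_lit 78)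 (nat_lit 532) (nat_lit 0) (XT.lf (nat_lit 0) (nat_lit 7715391643) (nat_lit 1140) (nat_lit 30052702513) (nat_lit 1216) (nat_lit 15274623904) (nat_lit 157) (nat_lit 5) (nat_lit 172) (nat_lit 5) (nat_lit 173) (nat_lit 5) (nat_lit 355) (nat_lit 337) (nat_lit 88)) (XT.nd (nat_lit 78) (nat_lit 532) (nat_lit 0) (XT.lf (nat_lit 0) (nat_lit 32802357389) (nat_lit 1140) (nat_lit 9219385109) (nat_lit 1216) (nat_lit 11917185756) (nat_lit 157) (nat_lit 5) (nat_lit 172) (nat_lit 5) (nat_lit 173) (nat_lit 5) (nat_lit 356) (nat_lit 337) (nat_lit 87)) (XT.lf (nat_lit 0) (nat_lit 3734310150) (nat_lit 532) (nat_lit 42821327361) (nat_lit 608) (nat_lit 8301809640) (nat_lit 150) (nat_lit 5) (nat_lit 157) (nat_lit 5) (nat_lit 158) (nat_lit 5) (nat_lit 357) (nat_lit 337) (nat_lit 86)))) (XT.nd (nat_lit 78) (nat_lit 684) (nat_lit 0) (XT.lf (nat_lit 0) (nat_lit 29690687951) (nat_lit 532) (nat_lit 21837796754) (nat_lit 608)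 (nat_lit 4265950322) (nat_lit 150) (nat_lit 5) (nat_lit 157) (nat_lit 5) (nat_lit 158) (nat_lit 5) (nat_lit 358) (nat_lit 337) (nat_lit 85)) (XT.nd (nat_lit 78) (nat_lit 684) (nat_lit 0) (XT.lf (nat_lit 0) (nat_lit 56424969790) (nat_lit 532) (nat_lit 224684689) (nat_lit 608) (nat_lit 109905372) (nat_lit 150) (nat_lit 5) (nat_lit 157) (nat_lit 5) (nat_lit 158) (nat_lit 5) (nat_lit 359) (nat_lit 337) (nat_lit 84)) (XT.lf (nat_lit 0) (nat_lit 4559891706) (nat_lit 684) (nat_lit 31271998686) (nat_lit 76) (nat_lit 21906432844) (nat_lit 141) (nat_lit 5) (nat_lit 150) (nat_lit 5) (nat_lit 142) (nat_lit 5) (nat_lit 360) (nat_lit 337) (nat_lit 83))))) (XT.nd (nat_lit 234) (nat_lit 988) (nat_lit 0) (XT.nd (nat_lit 78) (nat_lit 532) (nat_lit 0) (XT.lf (nat_lit 0) (nat_lit 9372380870) (nat_lit 684) (nat_lit 4672370659) (nat_lit 76) (nat_lit 44701522439) (nat_lit 141) (nat_lit 5) (nat_lit 150) (nat_lit 5) (nat_lit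 142) (nat_lit 5) (nat_lit 361) (nat_lit 337) (nat_lit 82)) (XT.nd (nat_lit 78) (nat_lit 0) (nat_lit 0) (XT.lf (nat_lit 0) (nat_lit 14634141773) (nat_lit 608) (nat_lit 36683989199) (nat_lit 76) (nat_lit 8457186606) (nat_lit 134) (nat_lit 5) (nat_lit 142) (nat_lit 5) (nat_lit 135) (nat_lit 5) (nat_lit 362) (nat_lit 337) (nat_lit 81)) (XT.lf (nat_lit 0) (nat_lit 20239672177) (nat_lit 608) (nat_lit 9190419485) (nat_lit 76) (nat_lit 31399564568) (nat_lit 134) (nat_lit 5) (nat_lit 142) (nat_lit 5) (nat_lit 135) (nat_lit 5) (nat_lit 363) (nat_lit 337) (nat_lit 80)))) (XT.nd (nat_lit 78) (nat_lit 456) (nat_lit 0) (XT.lf (nat_lit 0) (nat_lit 19507853221) (nat_lit 532) (nat_lit 6692270475) (nat_lit 608) (nat_lit 35709899882) (nat_lit 127) (nat_lit 5) (nat_lit 134) (nat_lit 5) (nat_lit 135) (nat_lit 5) (nat_lit 364) (nat_lit 337) (nat_lit 79)) (XT.nd (nat_lit 78) (nat_lit 456) (nat_lit 0) (XT.lf (nat_lit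 0) (nat_lit 32593158204) (nat_lit 608) (nat_lit 13927053273) (nat_lit 76) (nat_lit 16494978549) (nat_lit 127) (nat_lit 5) (nat_lit 135) (nat_lit 5) (nat_lit 128) (nat_lit 5) (nat_lit 365) (nat_lit 337) (nat_lit 78)) (XT.lf (nat_lit 0) (nat_lit 15640493989) (nat_lit 456) (nat_lit 23753366358) (nat_lit 532) (nat_lit 24753175949) (nat_lit 121) (nat_lit 5) (nat_lit 127) (nat_lit 5) (nat_lit 128) (nat_lit 5) (nat_lit 366) (nat_lit 337) (nat_lit 77))))))) (XT.nd (nat_lit 936) (nat_lit 1824) (nat_lit 0) (XT.nd (nat_lit 468) (nat_lit 0) (nat_lit 152) (XT.nd (nat_lit 234) (nat_lit 0) (nat_lit 76) (XT.nd (nat_lit 78) (nat_lit 0) (nat_lit 0) (XT.lf (nat_lit 0) (nat_lit 1115964835) (nat_lit 0) (nat_lit 1115964835) (nat_lit 1140) (nat_lit 18349925385) (nat_lit 165) (nat_lit 5) (nat_lit 165) (nat_lit 3) (nat_lit 180) (nat_lit 3) (nat_lit 338) (nat_lit 338) (nat_lit 104)) (XT.nd (nat_lit 78) (nat_lit 0) (nat_lit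 0) (XT.lf (nat_lit 0) (nat_lit 4722204934) (nat_lit 1140) (nat_lit 21233867044) (nat_lit 1216) (nat_lit 15819289883) (nat_lit 165) (nat_lit 5) (nat_lit 180) (nat_lit 3) (nat_lit 181) (nat_lit 5) (nat_lit 339) (nat_lit 338) (nat_lit 103)) (XT.lf (nat_lit 0) (nat_lit 5008989460) (nat_lit 1140) (nat_lit 3027874571) (nat_lit 1216) (nat_lit 34367880904) (nat_lit 165) (nat_lit 5) (nat_lit 180) (nat_lit 3) (nat_lit 181) (nat_lit 5) (nat_lit 340) (nat_lit 338) (nat_lit 102)))) (XT.nd (nat_lit 78) (nat_lit 0) (nat_lit 0) (XT.lf (nat_lit 0) (nat_lit 5558856356) (nat_lit 1140) (nat_lit 27113633848) (nat_lit 1216) (nat_lit 10372887291) (nat_lit 166) (nat_lit 5) (nat_lit 181) (nat_lit 5) (nat_lit 182) (nat_lit 5) (nat_lit 341) (nat_lit 338) (nat_lit 101)) (XT.nd (nat_lit 78) (nat_lit 0) (nat_lit 76) (XT.lf (nat_lit 0) (nat_lit 6234340466) (nat_lit 1140) (nat_lit 8262747359) (nat_lit 1216) (nat_lit 29204869862)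 (nat_lit 166) (nat_lit 5) (nat_lit 181) (nat_lit 5) (nat_lit 182) (nat_lit 5) (nat_lit 342) (nat_lit 338) (nat_lit 100)) (XT.lf (nat_lit 0) (nat_lit 7079827404) (nat_lit 1140) (nat_lit 33041808971) (nat_lit 1216) (nat_lit 4252108983) (nat_lit 167) (nat_lit 5) (nat_lit 182) (nat_lit 5) (nat_lit 183) (nat_lit 5) (nat_lit 343) (nat_lit 338) (nat_lit 99))))) (XT.nd (nat_lit 234) (nat_lit 0) (nat_lit 76) (XT.nd (nat_lit 78) (nat_lit 0) (nat_lit 0) (XT.lf (nat_lit 0) (nat_lit 8177222182) (nat_lit 1140) (nat_lit 13524499943) (nat_lit 1216) (nat_lit 23357170399) (nat_lit 167) (nat_lit 5) (nat_lit 182) (nat_lit 5) (nat_lit 183) (nat_lit 5) (nat_lit 344) (nat_lit 338) (nat_lit 98)) (XT.nd (nat_lit 78) (nat_lit 0) (nat_lit 76) (XT.lf (nat_lit 76) (nat_lit 6708464132) (nat_lit 0) (nat_lit 2662341160) (nat_lit 1216) (nat_lit 36391892914) (nat_lit 168) (nat_lit 5) (nat_lit 167) (nat_lit 5) (nat_lit 183) (nat_lit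 5) (nat_lit 345) (nat_lit 338) (nat_lit 97)) (XT.lf (nat_lit 0) (nat_lit 10899848611) (nat_lit 1140) (nat_lit 18822938525) (nat_lit 1216) (nat_lit 16755843376) (nat_lit 168) (nat_lit 5) (nat_lit 183) (nat_lit 5) (nat_lit 184) (nat_lit 5) (nat_lit 346) (nat_lit 338) (nat_lit 96)))) (XT.nd (nat_lit 78) (nat_lit 0) (nat_lit 76) (XT.lf (nat_lit 76) (nat_lit 2027722840) (nat_lit 0) (nat_lit 10491739416) (nat_lit 1216) (nat_lit 34695239537) (nat_lit 169) (nat_lit 5) (nat_lit 168) (nat_lit 5) (nat_lit 184) (nat_lit 5) (nat_lit 347) (nat_lit 338) (nat_lit 95)) (XT.nd (nat_lit 78) (nat_lit 0) (nat_lit 0) (XT.lf (nat_lit 0) (nat_lit 14468051426) (nat_lit 1140) (nat_lit 24169645312) (nat_lit 1216) (nat_lit 9326748779) (nat_lit 169) (nat_lit 5) (nat_lit 184) (nat_lit 5) (nat_lit 185) (nat_lit 5) (nat_lit 348) (nat_lit 338) (nat_lit 94)) (XT.lf (nat_lit 0) (nat_lit 16577886608) (nat_lit 1140) (nat_lit 2626459446)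 (nat_lit 1216) (nat_lit 29529253711) (nat_lit 169) (nat_lit 5) (nat_lit 184) (nat_lit 5) (nat_lit 185) (nat_lit 5) (nat_lit 349) (nat_lit 338) (nat_lit 93)))))) (XT.nd (nat_lit 468) (nat_lit 2204) (nat_lit 0) (XT.nd (nat_lit 234) (nat_lit 0) (nat_lit 76) (XT.nd (nat_lit 78) (nat_lit 0) (nat_lit 0) (XT.lf (nat_lit 0) (nat_lit 18951452331) (nat_lit 1140) (nat_lit 29578232727) (nat_lit 1216) (nat_lit 990132326) (nat_lit 170) (nat_lit 5) (nat_lit 185) (nat_lit 5) (nat_lit 186) (nat_lit 5) (nat_lit 350) (nat_lit 338) (nat_lit 92)) (XT.nd (nat_lit 78) (nat_lit 0) (nat_lit 0) (XT.lf (nat_lit 0) (nat_lit 21612119430) (nat_lit 1140) (nat_lit 7279514715) (nat_lit 1216) (nat_lit 21431512311) (nat_lit 170) (nat_lit 5) (nat_lit 185) (nat_lit 5) (nat_lit 186) (nat_lit 5) (nat_lit 351) (nat_lit 338) (nat_lit 91)) (XT.lf (nat_lit 76) (nat_lit 15999603723) (nat_lit 0) (nat_lit 8505798543) (nat_lit 1216) (nat_lit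 26640590968) (nat_lit 171) (nat_lit 5) (nat_lit 170) (nat_lit 5) (nat_lit 186) (nat_lit 5) (nat_lit 352) (nat_lit 338) (nat_lit 90)))) (XT.nd (nat_lit 78) (nat_lit 0) (nat_lit 0) (XT.lf (nat_lit 0) (nat_lit 27678818924) (nat_lit 1140) (nat_lit 11986602950) (nat_lit 1216) (nat_lit 12322305135) (nat_lit 171) (nat_lit 5) (nat_lit 186) (nat_lit 5) (nat_lit 187) (nat_lit 5) (nat_lit 353) (nat_lit 338) (nat_lit 89)) (XT.nd (nat_lit 78) (nat_lit 0) (nat_lit 76) (XT.lf (nat_lit 76) (nat_lit 12017492544) (nat_lit 0) (nat_lit 19128731032) (nat_lit 1216) (nat_lit 21702527262) (nat_lit 172) (nat_lit 5) (nat_lit 171) (nat_lit 5) (nat_lit 187) (nat_lit 5) (nat_lit 354) (nat_lit 338) (nat_lit 88)) (XT.lf (nat_lit 0) (nat_lit 34858418548) (nat_lit 1140) (nat_lit 16766001409) (nat_lit 76) (nat_lit 2106963941) (nat_lit 172) (nat_lit 5) (nat_lit 187) (nat_lit 5) (nat_lit 173) (nat_lit 5) (nat_lit 355) (nat_lit 338)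 (nat_lit 87))))) (XT.nd (nat_lit 234) (nat_lit 684) (nat_lit 0) (XT.nd (nat_lit 78) (nat_lit 532) (nat_lit 0) (XT.lf (nat_lit 0) (nat_lit 7986899351) (nat_lit 1140) (nat_lit 30960347438) (nat_lit 1216) (nat_lit 15685292651) (nat_lit 157) (nat_lit 5) (nat_lit 172) (nat_lit 5) (nat_lit 173) (nat_lit 5) (nat_lit 356) (nat_lit 338) (nat_lit 86)) (XT.nd (nat_lit 78) (nat_lit 532) (nat_lit 0) (XT.lf (nat_lit 0) (nat_lit 33825307682) (nat_lit 1140) (nat_lit 9501853896) (nat_lit 1216) (nat_lit 12228516892) (nat_lit 157) (nat_lit 5) (nat_lit 172) (nat_lit 5) (nat_lit 173) (nat_lit 5) (nat_lit 357) (nat_lit 338) (nat_lit 85)) (XT.lf (nat_lit 0) (nat_lit 3886297624) (nat_lit 532) (nat_lit 44109801089) (nat_lit 608) (nat_lit 8505685637) (nat_lit 150) (nat_lit 5) (nat_lit 157) (nat_lit 5) (nat_lit 158) (nat_lit 5) (nat_lit 358) (nat_lit 338) (nat_lit 84)))) (XT.nd (nat_lit 78) (nat_lit 684) (nat_lit 0) (XT.lf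 (nat_lit 0) (nat_lit 30620202929) (nat_lit 532) (nat_lit 22496652896) (nat_lit 608) (nat_lit 4350066412) (nat_lit 150) (nat_lit 5) (nat_lit 157) (nat_lit 5) (nat_lit 158) (nat_lit 5) (nat_lit 359) (nat_lit 338) (nat_lit 83)) (XT.nd (nat_lit 78) (nat_lit 684) (nat_lit 0) (XT.lf (nat_lit 0) (nat_lit 58155383291) (nat_lit 532) (nat_lit 235039055) (nat_lit 608) (nat_lit 70617659) (nat_lit 150) (nat_lit 5) (nat_lit 157) (nat_lit 5) (nat_lit 158) (nat_lit 5) (nat_lit 360) (nat_lit 338) (nat_lit 82)) (XT.lf (nat_lit 0) (nat_lit 4737567101) (nat_lit 684) (nat_lit 32170657329) (nat_lit 76) (nat_lit 22560957769) (nat_lit 141) (nat_lit 5) (nat_lit 150) (nat_lit 5) (nat_lit 142) (nat_lit 5) (nat_lit 361) (nat_lit 338) (nat_lit 81))))))))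
noncomputable def xc251 : XT := (XT.nd (nat_lit 40404) (nat_lit 0) (nat_lit 532) (XT.nd (nat_lit 39468) (nat_lit 0) (nat_lit 2280) (XT.nd (nat_lit 39000) (nat_lit 0) (nat_lit 2888) (XT.nd (nat_lit 234) (nat_lit 532) (nat_lit 0) (XT.nd (nat_lit 78) (nat_lit 532) (nat_lit 0) (XT.lf (nat_lit 0) (nat_lit 9693240301) (nat_lit 684) (nat_lit 4774190985) (nat_lit 76) (nat_lit 46039977762) (nat_lit 141) (nat_lit 5) (nat_lit 150) (nat_lit 5) (nat_lit 142) (nat_lit 5) (nat_lit 362) (nat_lit 338) (nat_lit 80)) (XT.nd (nat_lit 78) (nat_lit 0) (nat_lit 0) (XT.lf (nat_lit 0) (nat_lit 15112054241) (nat_lit 608) (nat_lit 37745297612) (nat_lit 76) (nat_lit 8709997927) (nat_lit 134) (nat_lit 5) (nat_lit 142) (nat_lit 5) (nat_lit 135) (nat_lit 5) (nat_lit 363) (nat_lit 338) (nat_lit 79)) (XT.lf (nat_lit 0) (nat_lit 20884617890) (nat_lit 608) (nat_lit 9428062882) (nat_lit 76) (nat_lit 32340673566) (nat_lit 134) (nat_lit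 5) (nat_lit 142) (nat_lit 5) (nat_lit 135) (nat_lit 5) (nat_lit 364) (nat_lit 338) (nat_lit 78)))) (XT.nd (nat_lit 38610) (nat_lit 0) (nat_lit 2888) (XT.lf (nat_lit 0) (nat_lit 20130784778) (nat_lit 532) (nat_lit 6892360858) (nat_lit 608) (nat_lit 36743010907) (nat_lit 127) (nat_lit 5) (nat_lit 134) (nat_lit 5) (nat_lit 135) (nat_lit 5) (nat_lit 365) (nat_lit 338) (nat_lit 77)) (XT.nd (nat_lit 78) (nat_lit 0) (nat_lit 0) (XT.lf (nat_lit 0) (nat_lit 1167417640) (nat_lit 0) (nat_lit 1167417640) (nat_lit 1140) (nat_lit 18863335322) (nat_lit 165) (nat_lit 5) (nat_lit 165) (nat_lit 3) (nat_lit 180) (nat_lit 3) (nat_lit 339) (nat_lit 339) (nat_lit 102)) (XT.lf (nat_lit 0) (nat_lit 4933336992) (nat_lit 1140) (nat_lit 21833433073) (nat_lit 1216) (nat_lit 16259648919) (nat_lit 165) (nat_lit 5) (nat_lit 180) (nat_lit 3) (nat_lit 181) (nat_lit 5) (nat_lit 340) (nat_lit 339) (nat_lit 101))))) (XT.nd (nat_lit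 234) (nat_lit 0) (nat_lit 152) (XT.nd (nat_lit 78) (nat_lit 0) (nat_lit 76) (XT.lf (nat_lit 0) (nat_lit 5226701775) (nat_lit 1140) (nat_lit 3082351601) (nat_lit 1216) (nat_lit 35365694360) (nat_lit 165) (nat_lit 5) (nat_lit 180) (nat_lit 3) (nat_lit 181) (nat_lit 5) (nat_lit 341) (nat_lit 339) (nat_lit 100)) (XT.nd (nat_lit 78) (nat_lit 0) (nat_lit 0) (XT.lf (nat_lit 0) (nat_lit 5791159745) (nat_lit 1140) (nat_lit 27888665844) (nat_lit 1216) (nat_lit 10654834218) (nat_lit 166) (nat_lit 5) (nat_lit 181) (nat_lit 5) (nat_lit 182) (nat_lit 5) (nat_lit 342) (nat_lit 339) (nat_lit 99)) (XT.lf (nat_lit 0) (nat_lit 6484999514) (nat_lit 1140) (nat_lit 8473370537) (nat_lit 1216) (nat_lit 30052627907) (nat_lit 166) (nat_lit 5) (nat_lit 181) (nat_lit 5) (nat_lit 182) (nat_lit 5) (nat_lit 343) (nat_lit 339) (nat_lit 98)))) (XT.nd (nat_lit 78) (nat_lit 0) (nat_lit 0) (XT.lf (nat_lit 0) (nat_lit 7354109855)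 (nat_lit 1140) (nat_lit 33993956391) (nat_lit 1216) (nat_lit 4354928444) (nat_lit 167) (nat_lit 5) (nat_lit 182) (nat_lit 5) (nat_lit 183) (nat_lit 5) (nat_lit 344) (nat_lit 339) (nat_lit 97)) (XT.nd (nat_lit 78) (nat_lit 0) (nat_lit 0) (XT.lf (nat_lit 0) (nat_lit 8482623923) (nat_lit 1140) (nat_lit 13892267126) (nat_lit 1216) (nat_lit 24033862396) (nat_lit 167) (nat_lit 5) (nat_lit 182) (nat_lit 5) (nat_lit 183) (nat_lit 5) (nat_lit 345) (nat_lit 339) (nat_lit 96)) (XT.lf (nat_lit 76) (nat_lit 6947313638) (nat_lit 0) (nat_lit 2763312230) (nat_lit 1216) (nat_lit 37423092099) (nat_lit 168) (nat_lit 5) (nat_lit 167) (nat_lit 5) (nat_lit 183) (nat_lit 5) (nat_lit 346) (nat_lit 339) (nat_lit 95)))))) (XT.nd (nat_lit 468) (nat_lit 836) (nat_lit 0) (XT.nd (nat_lit 234) (nat_lit 0) (nat_lit 76) (XT.nd (nat_lit 78) (nat_lit 0) (nat_lit 0) (XT.lf (nat_lit 0) (nat_lit 11283633955) (nat_lit 1140) (nat_lit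 19349122213) (nat_lit 1216) (nat_lit 17238432190) (nat_lit 168) (nat_lit 5) (nat_lit 183) (nat_lit 5) (nat_lit 184) (nat_lit 5) (nat_lit 347) (nat_lit 339) (nat_lit 94)) (XT.nd (nat_lit 78) (nat_lit 0) (nat_lit 76) (XT.lf (nat_lit 76) (nat_lit 2126681498) (nat_lit 0) (nat_lit 10823866936) (nat_lit 1216) (nat_lit 35678834806) (nat_lit 169) (nat_lit 5) (nat_lit 168) (nat_lit 5) (nat_lit 184) (nat_lit 5) (nat_lit 348) (nat_lit 339) (nat_lit 93)) (XT.lf (nat_lit 0) (nat_lit 14955816550) (nat_lit 1140) (nat_lit 24855847680) (nat_lit 1216) (nat_lit 9590011162) (nat_lit 169) (nat_lit 5) (nat_lit 184) (nat_lit 5) (nat_lit 185) (nat_lit 5) (nat_lit 349) (nat_lit 339) (nat_lit 92)))) (XT.nd (nat_lit 78) (nat_lit 0) (nat_lit 76) (XT.lf (nat_lit 0) (nat_lit 17127382024) (nat_lit 1140) (nat_lit 2667498868) (nat_lit 1216) (nat_lit 30399072992) (nat_lit 169) (nat_lit 5) (nat_lit 184) (nat_lit 5) (nat_lit 185)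 (nat_lit 5) (nat_lit 350) (nat_lit 339) (nat_lit 91)) (XT.nd (nat_lit 78) (nat_lit 0) (nat_lit 0) (XT.lf (nat_lit 0) (nat_lit 19570864016) (nat_lit 1140) (nat_lit 30426448132) (nat_lit 1216) (nat_lit 1006487201) (nat_lit 170) (nat_lit 5) (nat_lit 185) (nat_lit 5) (nat_lit 186) (nat_lit 5) (nat_lit 351) (nat_lit 339) (nat_lit 90)) (XT.lf (nat_lit 0) (nat_lit 22309869532) (nat_lit 1140) (nat_lit 7459908335) (nat_lit 1216) (nat_lit 22061497394) (nat_lit 170) (nat_lit 5) (nat_lit 185) (nat_lit 5) (nat_lit 186) (nat_lit 5) (nat_lit 352) (nat_lit 339) (nat_lit 89))))) (XT.nd (nat_lit 234) (nat_lit 988) (nat_lit 0) (XT.nd (nat_lit 78) (nat_lit 0) (nat_lit 76) (XT.lf (nat_lit 76) (nat_lit 16517211188) (nat_lit 0) (nat_lit 8771662843) (nat_lit 1216) (nat_lit 27389968161) (nat_lit 171) (nat_lit 5) (nat_lit 170) (nat_lit 5) (nat_lit 186) (nat_lit 5) (nat_lit 353) (nat_lit 339) (nat_lit 88)) (XT.nd (nat_lit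 78) (nat_lit 0) (nat_lit 0) (XT.lf (nat_lit 0) (nat_lit 28555986341) (nat_lit 1140) (nat_lit 12308091374) (nat_lit 1216) (nat_lit 12681797846) (nat_lit 171) (nat_lit 5) (nat_lit 186) (nat_lit 5) (nat_lit 187) (nat_lit 5) (nat_lit 354) (nat_lit 339) (nat_lit 87)) (XT.lf (nat_lit 76) (nat_lit 12415753361) (nat_lit 0) (nat_lit 19710659325) (nat_lit 1216) (nat_lit 22306349739) (nat_lit 172) (nat_lit 5) (nat_lit 171) (nat_lit 5) (nat_lit 187) (nat_lit 5) (nat_lit 355) (nat_lit 339) (nat_lit 86)))) (XT.nd (nat_lit 78) (nat_lit 1140) (nat_lit 0) (XT.lf (nat_lit 0) (nat_lit 35948564175) (nat_lit 1140) (nat_lit 17230860560) (nat_lit 76) (nat_lit 2162494260) (nat_lit 172) (nat_lit 5) (nat_lit 187) (nat_lit 5) (nat_lit 173) (nat_lit 5) (nat_lit 356) (nat_lit 339) (nat_lit 85)) (XT.nd (nat_lit 78) (nat_lit 0) (nat_lit 0) (XT.lf (nat_lit 0) (nat_lit 8264253488) (nat_lit 1140) (nat_lit 31894873622) (nat_lit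 1216) (nat_lit 16111012172) (nat_lit 157) (nat_lit 5) (nat_lit 172) (nat_lit 5) (nat_lit 173) (nat_lit 5) (nat_lit 357) (nat_lit 339) (nat_lit 84)) (XT.lf (nat_lit 0) (nat_lit 34876714638) (nat_lit 1140) (nat_lit 9792458795) (nat_lit 1216) (nat_lit 12551839137) (nat_lit 157) (nat_lit 5) (nat_lit 172) (nat_lit 5) (nat_lit 173) (nat_lit 5) (nat_lit 358) (nat_lit 339) (nat_lit 83))))))) (XT.nd (nat_lit 39546) (nat_lit 0) (nat_lit 2508) (XT.nd (nat_lit 468) (nat_lit 0) (nat_lit 0) (XT.nd (nat_lit 234) (nat_lit 1216) (nat_lit 0) (XT.nd (nat_lit 78) (nat_lit 0) (nat_lit 0) (XT.lf (nat_lit 0) (nat_lit 4040550960) (nat_lit 532) (nat_lit 45436708947) (nat_lit 608) (nat_lit 8718271332) (nat_lit 150) (nat_lit 5) (nat_lit 157) (nat_lit 5) (nat_lit 158) (nat_lit 5) (nat_lit 359) (nat_lit 339) (nat_lit 82)) (XT.nd (nat_lit 78) (nat_lit 0) (nat_lit 0) (XT.lf (nat_lit 0) (nat_lit 31575376403) (nat_lit 532) (nat_lit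 23175061051) (nat_lit 608) (nat_lit 4439223866) (nat_lit 150) (nat_lit 5) (nat_lit 157) (nat_lit 5) (nat_lit 158) (nat_lit 5) (nat_lit 360) (nat_lit 339) (nat_lit 81)) (XT.lf (nat_lit 0) (nat_lit 59935547106) (nat_lit 532) (nat_lit 245496603) (nat_lit 608) (nat_lit 32595861) (nat_lit 150) (nat_lit 5) (nat_lit 157) (nat_lit 5) (nat_lit 158) (nat_lit 5) (nat_lit 361) (nat_lit 339) (nat_lit 80)))) (XT.nd (nat_lit 78) (nat_lit 532) (nat_lit 0) (XT.lf (nat_lit 0) (nat_lit 4918226157) (nat_lit 684) (nat_lit 33098543268) (nat_lit 76) (nat_lit 23235271599) (nat_lit 141) (nat_lit 5) (nat_lit 150) (nat_lit 5) (nat_lit 142) (nat_lit 5) (nat_lit 362) (nat_lit 339) (nat_lit 79)) (XT.nd (nat_lit 78) (nat_lit 532) (nat_lit 0) (XT.lf (nat_lit 0) (nat_lit 10021447260) (nat_lit 684) (nat_lit 4881267413) (nat_lit 76) (nat_lit 47418735442) (nat_lit 141) (nat_lit 5) (nat_lit 150) (nat_lit 5) (nat_lit 142) (nat_lit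 5) (nat_lit 363) (nat_lit 339) (nat_lit 78)) (XT.lf (nat_lit 0) (nat_lit 15602071740) (nat_lit 608) (nat_lit 38840696165) (nat_lit 76) (nat_lit 8970445497) (nat_lit 134) (nat_lit 5) (nat_lit 142) (nat_lit 5) (nat_lit 135) (nat_lit 5) (nat_lit 364) (nat_lit 339) (nat_lit 77))))) (XT.nd (nat_lit 38844) (nat_lit 0) (nat_lit 2356) (XT.nd (nat_lit 38688) (nat_lit 0) (nat_lit 2356) (XT.lf (nat_lit 0) (nat_lit 21546744652) (nat_lit 608) (nat_lit 9675020909) (nat_lit 76) (nat_lit 33310066231) (nat_lit 134) (nat_lit 5) (nat_lit 142) (nat_lit 5) (nat_lit 135) (nat_lit 5) (nat_lit 365) (nat_lit 339) (nat_lit 76)) (XT.nd (nat_lit 78) (nat_lit 0) (nat_lit 0) (XT.lf (nat_lit 0) (nat_lit 1219382256) (nat_lit 0) (nat_lit 1219382256) (nat_lit 1140) (nat_lit 19394276550) (nat_lit 165) (nat_lit 5) (nat_lit 165) (nat_lit 3) (nat_lit 180) (nat_lit 3) (nat_lit 340) (nat_lit 340) (nat_lit 100)) (XT.lf (nat_lit 0) (nat_lit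 5146815384) (nat_lit 1140) (nat_lit 22453135864) (nat_lit 1216) (nat_lit 16715183075) (nat_lit 165) (nat_lit 5) (nat_lit 180) (nat_lit 3) (nat_lit 181) (nat_lit 5) (nat_lit 341) (nat_lit 340) (nat_lit 99)))) (XT.nd (nat_lit 78) (nat_lit 0) (nat_lit 76) (XT.lf (nat_lit 0) (nat_lit 5447073976) (nat_lit 1140) (nat_lit 3140550110) (nat_lit 1216) (nat_lit 36395349354) (nat_lit 165) (nat_lit 5) (nat_lit 180) (nat_lit 3) (nat_lit 181) (nat_lit 5) (nat_lit 342) (nat_lit 340) (nat_lit 98)) (XT.nd (nat_lit 78) (nat_lit 0) (nat_lit 0) (XT.lf (nat_lit 0) (nat_lit 6026670105) (nat_lit 1140) (nat_lit 28689151798) (nat_lit 1216) (nat_lit 10946918031) (nat_lit 166) (nat_lit 5) (nat_lit 181) (nat_lit 5) (nat_lit 182) (nat_lit 5) (nat_lit 343) (nat_lit 340) (nat_lit 97)) (XT.lf (nat_lit 0) (nat_lit 6739525778) (nat_lit 1140) (nat_lit 8692451244) (nat_lit 1216) (nat_lit 30927448285) (nat_lit 166) (nat_lit 5) (nat_lit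 181) (nat_lit 5) (nat_lit 182) (nat_lit 5) (nat_lit 344) (nat_lit 340) (nat_lit 96)))))) (XT.nd (nat_lit 468) (nat_lit 0) (nat_lit 152) (XT.nd (nat_lit 234) (nat_lit 0) (nat_lit 76) (XT.nd (nat_lit 78) (nat_lit 0) (nat_lit 0) (XT.lf (nat_lit 0) (nat_lit 7633068175) (nat_lit 1140) (nat_lit 34976913126) (nat_lit 1216) (nat_lit 4462252885) (nat_lit 167) (nat_lit 5) (nat_lit 182) (nat_lit 5) (nat_lit 183) (nat_lit 5) (nat_lit 345) (nat_lit 340) (nat_lit 95)) (XT.nd (nat_lit 78) (nat_lit 0) (nat_lit 0) (XT.lf (nat_lit 0) (nat_lit 8793738588) (nat_lit 1140) (nat_lit 14273246832) (nat_lit 1216) (nat_lit 24732234178) (nat_lit 167) (nat_lit 5) (nat_lit 182) (nat_lit 5) (nat_lit 183) (nat_lit 5) (nat_lit 346) (nat_lit 340) (nat_lit 94)) (XT.lf (nat_lit 76) (nat_lit 7191170488) (nat_lit 0) (nat_lit 2866101157) (nat_lit 1216) (nat_lit 38488703513) (nat_lit 168) (nat_lit 5) (nat_lit 167) (nat_lit 5) (nat_lit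 183) (nat_lit 5) (nat_lit 347) (nat_lit 340) (nat_lit 93)))) (XT.nd (nat_lit 78) (nat_lit 0) (nat_lit 0) (XT.lf (nat_lit 0) (nat_lit 11675672888) (nat_lit 1140) (nat_lit 19893301725) (nat_lit 1216) (nat_lit 17736651716) (nat_lit 168) (nat_lit 5) (nat_lit 183) (nat_lit 5) (nat_lit 184) (nat_lit 5) (nat_lit 348) (nat_lit 340) (nat_lit 92)) (XT.nd (nat_lit 78) (nat_lit 0) (nat_lit 76) (XT.lf (nat_lit 76) (nat_lit 2226420272) (nat_lit 0) (nat_lit 11164960867) (nat_lit 1216) (nat_lit 36695225002) (nat_lit 169) (nat_lit 5) (nat_lit 168) (nat_lit 5) (nat_lit 184) (nat_lit 5) (nat_lit 349) (nat_lit 340) (nat_lit 91)) (XT.lf (nat_lit 0) (nat_lit 15455130675) (nat_lit 1140) (nat_lit 25564868392) (nat_lit 1216) (nat_lit 9862120884) (nat_lit 169) (nat_lit 5) (nat_lit 184) (nat_lit 5) (nat_lit 185) (nat_lit 5) (nat_lit 350) (nat_lit 340) (nat_lit 90))))) (XT.nd (nat_lit 234) (nat_lit 0) (nat_lit 76) (XT.nd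 (nat_lit 78) (nat_lit 0) (nat_lit 76) (XT.lf (nat_lit 0) (nat_lit 17690368172) (nat_lit 1140) (nat_lit 2711936729) (nat_lit 1216) (nat_lit 31295908665) (nat_lit 169) (nat_lit 5) (nat_lit 184) (nat_lit 5) (nat_lit 185) (nat_lit 5) (nat_lit 351) (nat_lit 340) (nat_lit 89)) (XT.nd (nat_lit 78) (nat_lit 0) (nat_lit 0) (XT.lf (nat_lit 0) (nat_lit 20205938014) (nat_lit 1140) (nat_lit 31302356311) (nat_lit 1216) (nat_lit 1024099014) (nat_lit 170) (nat_lit 5) (nat_lit 185) (nat_lit 5) (nat_lit 186) (nat_lit 5) (nat_lit 352) (nat_lit 340) (nat_lit 88)) (XT.lf (nat_lit 0) (nat_lit 23025717149) (nat_lit 1140) (nat_lit 7647894648) (nat_lit 1216) (nat_lit 22711126002) (nat_lit 170) (nat_lit 5) (nat_lit 185) (nat_lit 5) (nat_lit 186) (nat_lit 5) (nat_lit 353) (nat_lit 340) (nat_lit 87)))) (XT.nd (nat_lit 78) (nat_lit 0) (nat_lit 76) (XT.lf (nat_lit 76) (nat_lit 17048187372) (nat_lit 0) (nat_lit 9044889402)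 (nat_lit 1216) (nat_lit 28164687721) (nat_lit 171) (nat_lit 5) (nat_lit 170) (nat_lit 5) (nat_lit 186) (nat_lit 5) (nat_lit 354) (nat_lit 340) (nat_lit 86)) (XT.nd (nat_lit 78) (nat_lit 0) (nat_lit 0) (XT.lf (nat_lit 0) (nat_lit 29456782105) (nat_lit 1140) (nat_lit 12641412101) (nat_lit 1216) (nat_lit 13052659507) (nat_lit 171) (nat_lit 5) (nat_lit 186) (nat_lit 5) (nat_lit 187) (nat_lit 5) (nat_lit 355) (nat_lit 340) (nat_lit 85)) (XT.lf (nat_lit 76) (nat_lit 12823795798) (nat_lit 0) (nat_lit 20309582424) (nat_lit 1216) (nat_lit 22930999426) (nat_lit 172) (nat_lit 5) (nat_lit 171) (nat_lit 5) (nat_lit 187) (nat_lit 5) (nat_lit 356) (nat_lit 340) (nat_lit 84))))))))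
noncomputable def xc252 : XT := (XT.nd (nat_lit 40560) (nat_lit 0) (nat_lit 0) (XT.nd (nat_lit 39624) (nat_lit 0) (nat_lit 1900) (XT.nd (nat_lit 390) (nat_lit 684) (nat_lit 0) (XT.nd (nat_lit 156) (nat_lit 532) (nat_lit 0) (XT.nd (nat_lit 78) (nat_lit 1140) (nat_lit 0) (XT.lf (nat_lit 0) (nat_lit 37068865827) (nat_lit 1140) (nat_lit 17711853781) (nat_lit 76) (nat_lit 2220131271) (nat_lit 172) (nat_lit 5) (nat_lit 187) (nat_lit 5) (nat_lit 173) (nat_lit 5) (nat_lit 357) (nat_lit 340) (nat_lit 83)) (XT.lf (nat_lit 0) (nat_lit 8547761408) (nat_lit 1140) (nat_lit 32857107484) (nat_lit 1216) (nat_lit 16552077235) (nat_lit 157) (nat_lit 5) (nat_lit 172) (nat_lit 5) (nat_lit 173) (nat_lit 5) (nat_lit 358) (nat_lit 340) (nat_lit 82))) (XT.nd (nat_lit 78) (nat_lit 532) (nat_lit 0) (XT.lf (nat_lit 0) (nat_lit 35957560073) (nat_lit 1140) (nat_lit 10091463290) (nat_lit 1216) (nat_lit 12887360037) (nat_lit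 157) (nat_lit 5) (nat_lit 172) (nat_lit 5) (nat_lit 173) (nat_lit 5) (nat_lit 359) (nat_lit 340) (nat_lit 81)) (XT.nd (nat_lit 78) (nat_lit 0) (nat_lit 0) (XT.lf (nat_lit 0) (nat_lit 4197269805) (nat_lit 532) (nat_lit 46803216591) (nat_lit 608) (nat_lit 8939679144) (nat_lit 150) (nat_lit 5) (nat_lit 157) (nat_lit 5) (nat_lit 158) (nat_lit 5) (nat_lit 360) (nat_lit 340) (nat_lit 80)) (XT.lf (nat_lit 0) (nat_lit 32557105963) (nat_lit 532) (nat_lit 23873620044) (nat_lit 608) (nat_lit 4533429390) (nat_lit 150) (nat_lit 5) (nat_lit 157) (nat_lit 5) (nat_lit 158) (nat_lit 5) (nat_lit 361) (nat_lit 340) (nat_lit 79))))) (XT.nd (nat_lit 39000) (nat_lit 0) (nat_lit 1824) (XT.nd (nat_lit 78) (nat_lit 608) (nat_lit 0) (XT.lf (nat_lit 0) (nat_lit 4179197) (nat_lit 608) (nat_lit 251850938) (nat_lit 76) (nat_lit 61762856458) (nat_lit 149) (nat_lit 5) (nat_lit 157) (nat_lit 5) (nat_lit 150) (nat_lit 5) (nat_lit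 362) (nat_lit 340) (nat_lit 78)) (XT.nd (nat_lit 78) (nat_lit 0) (nat_lit 0) (XT.lf (nat_lit 0) (nat_lit 5102093087) (nat_lit 684) (nat_lit 34056403157) (nat_lit 76) (nat_lit 23929959210) (nat_lit 141) (nat_lit 5) (nat_lit 150) (nat_lit 5) (nat_lit 142) (nat_lit 5) (nat_lit 363) (nat_lit 340) (nat_lit 77)) (XT.lf (nat_lit 0) (nat_lit 10357352955) (nat_lit 684) (nat_lit 4993631252) (nat_lit 76) (nat_lit 48838996012) (nat_lit 141) (nat_lit 5) (nat_lit 150) (nat_lit 5) (nat_lit 142) (nat_lit 5) (nat_lit 364) (nat_lit 340) (nat_lit 76)))) (XT.nd (nat_lit 78) (nat_lit 0) (nat_lit 0) (XT.lf (nat_lit 0) (nat_lit 1271933265) (nat_lit 0) (nat_lit 1271933265) (nat_lit 1140) (nat_lit 19943152794) (nat_lit 165) (nat_lit 5) (nat_lit 165) (nat_lit 3) (nat_lit 180) (nat_lit 3) (nat_lit 341) (nat_lit 341) (nat_lit 98)) (XT.nd (nat_lit 78) (nat_lit 0) (nat_lit 0) (XT.lf (nat_lit 0) (nat_lit 5362939407) (nat_lit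 1140) (nat_lit 23093456116) (nat_lit 1216) (nat_lit 17186234843) (nat_lit 165) (nat_lit 5) (nat_lit 180) (nat_lit 3) (nat_lit 181) (nat_lit 5) (nat_lit 342) (nat_lit 341) (nat_lit 97)) (XT.lf (nat_lit 0) (nat_lit 5670408099) (nat_lit 1140) (nat_lit 3202461929) (nat_lit 1216) (nat_lit 37457691656) (nat_lit 165) (nat_lit 5) (nat_lit 180) (nat_lit 3) (nat_lit 181) (nat_lit 5) (nat_lit 343) (nat_lit 341) (nat_lit 96)))))) (XT.nd (nat_lit 468) (nat_lit 0) (nat_lit 152) (XT.nd (nat_lit 234) (nat_lit 0) (nat_lit 76) (XT.nd (nat_lit 78) (nat_lit 0) (nat_lit 0) (XT.lf (nat_lit 0) (nat_lit 6265699605) (nat_lit 1140) (nat_lit 29515728867) (nat_lit 1216) (nat_lit 11249346484) (nat_lit 166) (nat_lit 5) (nat_lit 181) (nat_lit 5) (nat_lit 182) (nat_lit 5) (nat_lit 344) (nat_lit 341) (nat_lit 95)) (XT.nd (nat_lit 78) (nat_lit 0) (nat_lit 76) (XT.lf (nat_lit 0) (nat_lit 6998244947) (nat_lit 1140) (nat_lit 8920120427)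 (nat_lit 1216) (nat_lit 31830049318) (nat_lit 166) (nat_lit 5) (nat_lit 181) (nat_lit 5) (nat_lit 182) (nat_lit 5) (nat_lit 345) (nat_lit 341) (nat_lit 94)) (XT.lf (nat_lit 0) (nat_lit 7917046576) (nat_lit 1140) (nat_lit 35991474590) (nat_lit 1216) (nat_lit 4574135918) (nat_lit 167) (nat_lit 5) (nat_lit 182) (nat_lit 5) (nat_lit 183) (nat_lit 5) (nat_lit 346) (nat_lit 341) (nat_lit 93)))) (XT.nd (nat_lit 78) (nat_lit 0) (nat_lit 0) (XT.lf (nat_lit 0) (nat_lit 9110935557) (nat_lit 1140) (nat_lit 14667710325) (nat_lit 1216) (nat_lit 25452856977) (nat_lit 167) (nat_lit 5) (nat_lit 182) (nat_lit 5) (nat_lit 183) (nat_lit 5) (nat_lit 347) (nat_lit 341) (nat_lit 92)) (XT.nd (nat_lit 78) (nat_lit 0) (nat_lit 76) (XT.lf (nat_lit 76) (nat_lit 7440308791) (nat_lit 0) (nat_lit 2970832011) (nat_lit 1216) (nat_lit 39589559973) (nat_lit 168) (nat_lit 5) (nat_lit 167) (nat_lit 5) (nat_lit 183) (nat_lit 5) (nat_lit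 348) (nat_lit 341) (nat_lit 91)) (XT.lf (nat_lit 0) (nat_lit 12076400153) (nat_lit 1140) (nat_lit 20455890056) (nat_lit 1216) (nat_lit 18250904684) (nat_lit 168) (nat_lit 5) (nat_lit 183) (nat_lit 5) (nat_lit 184) (nat_lit 5) (nat_lit 349) (nat_lit 341) (nat_lit 90))))) (XT.nd (nat_lit 234) (nat_lit 0) (nat_lit 152) (XT.nd (nat_lit 78) (nat_lit 0) (nat_lit 76) (XT.lf (nat_lit 76) (nat_lit 2327088202) (nat_lit 0) (nat_lit 11515347456) (nat_lit 1216) (nat_lit 37745205280) (nat_lit 169) (nat_lit 5) (nat_lit 168) (nat_lit 5) (nat_lit 184) (nat_lit 5) (nat_lit 350) (nat_lit 341) (nat_lit 89)) (XT.nd (nat_lit 78) (nat_lit 0) (nat_lit 0) (XT.lf (nat_lit 0) (nat_lit 15966517302) (nat_lit 1140) (nat_lit 26297263855) (nat_lit 1216) (nat_lit 10143288864) (nat_lit 169) (nat_lit 5) (nat_lit 184) (nat_lit 5) (nat_lit 185) (nat_lit 5) (nat_lit 351) (nat_lit 341) (nat_lit 88)) (XT.lf (nat_lit 0) (nat_lit 18267421650)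 (nat_lit 1140) (nat_lit 2759750570) (nat_lit 1216) (nat_lit 32220518306) (nat_lit 169) (nat_lit 5) (nat_lit 184) (nat_lit 5) (nat_lit 185) (nat_lit 5) (nat_lit 352) (nat_lit 341) (nat_lit 87)))) (XT.nd (nat_lit 78) (nat_lit 0) (nat_lit 0) (XT.lf (nat_lit 0) (nat_lit 20857311815) (nat_lit 1140) (nat_lit 32206659101) (nat_lit 1216) (nat_lit 1042961486) (nat_lit 170) (nat_lit 5) (nat_lit 185) (nat_lit 5) (nat_lit 186) (nat_lit 5) (nat_lit 353) (nat_lit 341) (nat_lit 86)) (XT.nd (nat_lit 78) (nat_lit 0) (nat_lit 0) (XT.lf (nat_lit 0) (nat_lit 23760367946) (nat_lit 1140) (nat_lit 7843576246) (nat_lit 1216) (nat_lit 23380944735) (nat_lit 170) (nat_lit 5) (nat_lit 185) (nat_lit 5) (nat_lit 186) (nat_lit 5) (nat_lit 354) (nat_lit 341) (nat_lit 85)) (XT.lf (nat_lit 76) (nat_lit 17593057302) (nat_lit 0) (nat_lit 9325734316) (nat_lit 1216) (nat_lit 28965345682) (nat_lit 171) (nat_lit 5) (nat_lit 170) (nat_lit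 5) (nat_lit 186) (nat_lit 5) (nat_lit 355) (nat_lit 341) (nat_lit 84))))))) (XT.nd (nat_lit 39780) (nat_lit 0) (nat_lit 1900) (XT.nd (nat_lit 468) (nat_lit 684) (nat_lit 0) (XT.nd (nat_lit 234) (nat_lit 1596) (nat_lit 0) (XT.nd (nat_lit 78) (nat_lit 0) (nat_lit 0) (XT.lf (nat_lit 0) (nat_lit 30382069294) (nat_lit 1140) (nat_lit 12986794521) (nat_lit 1216) (nat_lit 13435197655) (nat_lit 171) (nat_lit 5) (nat_lit 186) (nat_lit 5) (nat_lit 187) (nat_lit 5) (nat_lit 356) (nat_lit 341) (nat_lit 83)) (XT.nd (nat_lit 78) (nat_lit 0) (nat_lit 76) (XT.lf (nat_lit 76) (nat_lit 13242037655) (nat_lit 0) (nat_lit 20926036754) (nat_lit 1216) (nat_lit 23576945428) (nat_lit 172) (nat_lit 5) (nat_lit 171) (nat_lit 5) (nat_lit 187) (nat_lit 5) (nat_lit 357) (nat_lit 341) (nat_lit 82)) (XT.lf (nat_lit 0) (nat_lit 38220374470) (nat_lit 1140) (nat_lit 18209339477) (nat_lit 76) (nat_lit 2279912873) (nat_lit 172) (nat_lit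 5) (nat_lit 187) (nat_lit 5) (nat_lit 173) (nat_lit 5) (nat_lit 358) (nat_lit 341) (nat_lit 81)))) (XT.nd (nat_lit 78) (nat_lit 532) (nat_lit 0) (XT.lf (nat_lit 0) (nat_lit 8837732111) (nat_lit 1140) (nat_lit 33847899087) (nat_lit 1216) (nat_lit 17008800451) (nat_lit 157) (nat_lit 5) (nat_lit 172) (nat_lit 5) (nat_lit 173) (nat_lit 5) (nat_lit 359) (nat_lit 341) (nat_lit 80)) (XT.nd (nat_lit 78) (nat_lit 532) (nat_lit 0) (XT.lf (nat_lit 0) (nat_lit 37068847904) (nat_lit 1140) (nat_lit 10399137654) (nat_lit 1216) (nat_lit 13235302100) (nat_lit 157) (nat_lit 5) (nat_lit 172) (nat_lit 5) (nat_lit 173) (nat_lit 5) (nat_lit 360) (nat_lit 341) (nat_lit 79)) (XT.lf (nat_lit 0) (nat_lit 4356652238) (nat_lit 532) (nat_lit 48210523926) (nat_lit 608) (nat_lit 9170033409) (nat_lit 150) (nat_lit 5) (nat_lit 157) (nat_lit 5) (nat_lit 158) (nat_lit 5) (nat_lit 361) (nat_lit 341) (nat_lit 78))))) (XT.nd (nat_lit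 39078) (nat_lit 0) (nat_lit 1824) (XT.nd (nat_lit 78) (nat_lit 684) (nat_lit 0) (XT.lf (nat_lit 0) (nat_lit 33566308790) (nat_lit 532) (nat_lit 24592945963) (nat_lit 608) (nat_lit 4632698185) (nat_lit 150) (nat_lit 5) (nat_lit 157) (nat_lit 5) (nat_lit 158) (nat_lit 5) (nat_lit 362) (nat_lit 341) (nat_lit 77)) (XT.nd (nat_lit 78) (nat_lit 608) (nat_lit 0) (XT.lf (nat_lit 0) (nat_lit 39272798) (nat_lit 608) (nat_lit 227111652) (nat_lit 76) (nat_lit 63611964164) (nat_lit 149) (nat_lit 5) (nat_lit 157) (nat_lit 5) (nat_lit 150) (nat_lit 5) (nat_lit 363) (nat_lit 341) (nat_lit 76)) (XT.lf (nat_lit 0) (nat_lit 5289391101) (nat_lit 684) (nat_lit 35045013520) (nat_lit 76) (nat_lit 24645623528) (nat_lit 141) (nat_lit 5) (nat_lit 150) (nat_lit 5) (nat_lit 142) (nat_lit 5) (nat_lit 364) (nat_lit 341) (nat_lit 75)))) (XT.nd (nat_lit 78) (nat_lit 0) (nat_lit 0) (XT.lf (nat_lit 0) (nat_lit 1325144087) (nat_lit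 0) (nat_lit 1325144087) (nat_lit 1140) (nat_lit 20510386908) (nat_lit 165) (nat_lit 5) (nat_lit 165) (nat_lit 3) (nat_lit 180) (nat_lit 3) (nat_lit 342) (nat_lit 342) (nat_lit 96)) (XT.nd (nat_lit 78) (nat_lit 0) (nat_lit 0) (XT.lf (nat_lit 0) (nat_lit 5582004195) (nat_lit 1140) (nat_lit 23754896028) (nat_lit 1216) (nat_lit 17673163462) (nat_lit 165) (nat_lit 5) (nat_lit 180) (nat_lit 3) (nat_lit 181) (nat_lit 5) (nat_lit 343) (nat_lit 342) (nat_lit 95)) (XT.lf (nat_lit 0) (nat_lit 5897002484) (nat_lit 1140) (nat_lit 3268085524) (nat_lit 1216) (nat_lit 38553598690) (nat_lit 165) (nat_lit 5) (nat_lit 180) (nat_lit 3) (nat_lit 181) (nat_lit 5) (nat_lit 344) (nat_lit 342) (nat_lit 94)))))) (XT.nd (nat_lit 468) (nat_lit 0) (nat_lit 152) (XT.nd (nat_lit 234) (nat_lit 0) (nat_lit 76) (XT.nd (nat_lit 78) (nat_lit 0) (nat_lit 0) (XT.lf (nat_lit 0) (nat_lit 6508557384) (nat_lit 1140) (nat_lit 30369060583)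 (nat_lit 1216) (nat_lit 11562339097) (nat_lit 166) (nat_lit 5) (nat_lit 181) (nat_lit 5) (nat_lit 182) (nat_lit 5) (nat_lit 345) (nat_lit 342) (nat_lit 93)) (XT.nd (nat_lit 78) (nat_lit 0) (nat_lit 76) (XT.lf (nat_lit 0) (nat_lit 7261480442) (nat_lit 1140) (nat_lit 9156520011) (nat_lit 1216) (nat_lit 32761176253) (nat_lit 166) (nat_lit 5) (nat_lit 181) (nat_lit 5) (nat_lit 182) (nat_lit 5) (nat_lit 346) (nat_lit 342) (nat_lit 92)) (XT.lf (nat_lit 0) (nat_lit 8206387888) (nat_lit 1140) (nat_lit 37038467457) (nat_lit 1216) (nat_lit 4690637446) (nat_lit 167) (nat_lit 5) (nat_lit 182) (nat_lit 5) (nat_lit 183) (nat_lit 5) (nat_lit 347) (nat_lit 342) (nat_lit 91)))) (XT.nd (nat_lit 78) (nat_lit 0) (nat_lit 0) (XT.lf (nat_lit 0) (nat_lit 9434583929) (nat_lit 1140) (nat_lit 15075944187) (nat_lit 1216) (nat_lit 26196323706) (nat_lit 167) (nat_lit 5) (nat_lit 182) (nat_lit 5) (nat_lit 183) (nat_lit 5)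 (nat_lit 348) (nat_lit 342) (nat_lit 90)) (XT.nd (nat_lit 78) (nat_lit 0) (nat_lit 76) (XT.lf (nat_lit 76) (nat_lit 7695003762) (nat_lit 0) (nat_lit 3077628588) (nat_lit 1216) (nat_lit 40726530733) (nat_lit 168) (nat_lit 5) (nat_lit 167) (nat_lit 5) (nat_lit 183) (nat_lit 5) (nat_lit 349) (nat_lit 342) (nat_lit 89)) (XT.lf (nat_lit 0) (nat_lit 12486252793) (nat_lit 1140) (nat_lit 21037319872) (nat_lit 1216) (nat_lit 18781609708) (nat_lit 168) (nat_lit 5) (nat_lit 183) (nat_lit 5) (nat_lit 184) (nat_lit 5) (nat_lit 350) (nat_lit 342) (nat_lit 88))))) (XT.nd (nat_lit 234) (nat_lit 0) (nat_lit 152) (XT.nd (nat_lit 78) (nat_lit 0) (nat_lit 76) (XT.lf (nat_lit 76) (nat_lit 2428831588) (nat_lit 0) (nat_lit 11875359452) (nat_lit 1216) (nat_lit 38829605485) (nat_lit 169) (nat_lit 5) (nat_lit 168) (nat_lit 5) (nat_lit 184) (nat_lit 5) (nat_lit 351) (nat_lit 342) (nat_lit 87)) (XT.nd (nat_lit 78) (nat_lit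 0) (nat_lit 0) (XT.lf (nat_lit 0) (nat_lit 16490505475) (nat_lit 1140) (nat_lit 27053614528) (nat_lit 1216) (nat_lit 10433735473) (nat_lit 169) (nat_lit 5) (nat_lit 184) (nat_lit 5) (nat_lit 185) (nat_lit 5) (nat_lit 352) (nat_lit 342) (nat_lit 86)) (XT.lf (nat_lit 0) (nat_lit 18859126488) (nat_lit 1140) (nat_lit 2810924405) (nat_lit 1216) (nat_lit 33173685257) (nat_lit 169) (nat_lit 5) (nat_lit 184) (nat_lit 5) (nat_lit 185) (nat_lit 5) (nat_lit 353) (nat_lit 342) (nat_lit 85)))) (XT.nd (nat_lit 78) (nat_lit 0) (nat_lit 0) (XT.lf (nat_lit 0) (nat_lit 21525632415) (nat_lit 1140) (nat_lit 33140086795) (nat_lit 1216) (nat_lit 1063070674) (nat_lit 170) (nat_lit 5) (nat_lit 185) (nat_lit 5) (nat_lit 186) (nat_lit 5) (nat_lit 354) (nat_lit 342) (nat_lit 84)) (XT.nd (nat_lit 78) (nat_lit 0) (nat_lit 0) (XT.lf (nat_lit 0) (nat_lit 24514539417) (nat_lit 1140) (nat_lit 8047065980) (nat_lit 1216) (nat_lit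 24071519041) (nat_lit 170) (nat_lit 5) (nat_lit 185) (nat_lit 5) (nat_lit 186) (nat_lit 5) (nat_lit 355) (nat_lit 342) (nat_lit 83)) (XT.lf (nat_lit 76) (nat_lit 18152354637) (nat_lit 0) (nat_lit 9614459340) (nat_lit 1216) (nat_lit 29792565388) (nat_lit 171) (nat_lit 5) (nat_lit 170) (nat_lit 5) (nat_lit 186) (nat_lit 5) (nat_lit 356) (nat_lit 342) (nat_lit 82))))))))
noncomputable def xc253 : XT := (XT.nd (nat_lit 40872) (nat_lit 0) (nat_lit 0) (XT.nd (nat_lit 39936) (nat_lit 0) (nat_lit 1292) (XT.nd (nat_lit 468) (nat_lit 0) (nat_lit 0) (XT.nd (nat_lit 234) (nat_lit 1596) (nat_lit 0) (XT.nd (nat_lit 78) (nat_lit 0) (nat_lit 0) (XT.lf (nat_lit 0) (nat_lit 31332728023) (nat_lit 1140) (nat_lit 13344482113) (nat_lit 1216) (nat_lit 13829730973) (nat_lit 171) (nat_lit 5) (nat_lit 186) (nat_lit 5) (nat_lit 187) (nat_lit 5) (nat_lit 357) (nat_lit 342) (nat_lit 81)) (XT.nd (nat_lit 78) (nat_lit 0) (nat_lit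 76) (XT.lf (nat_lit 76) (nat_lit 13670902125) (nat_lit 0) (nat_lit 21560573308) (nat_lit 1216) (nat_lit 24244679863) (nat_lit 172) (nat_lit 5) (nat_lit 171) (nat_lit 5) (nat_lit 187) (nat_lit 5) (nat_lit 358) (nat_lit 342) (nat_lit 80)) (XT.lf (nat_lit 0) (nat_lit 39404164202) (nat_lit 1140) (nat_lit 18723694015) (nat_lit 76) (nat_lit 2341879552) (nat_lit 172) (nat_lit 5) (nat_lit 187) (nat_lit 5) (nat_lit 173) (nat_lit 5) (nat_lit 359) (nat_lit 342) (nat_lit 79)))) (XT.nd (nat_lit 78) (nat_lit 532) (nat_lit 0) (XT.lf (nat_lit 0) (nat_lit 9134476723) (nat_lit 1140) (nat_lit 34868122920) (nat_lit 1216) (nat_lit 17481512291) (nat_lit 157) (nat_lit 5) (nat_lit 172) (nat_lit 5) (nat_lit 173) (nat_lit 5) (nat_lit 360) (nat_lit 342) (nat_lit 78)) (XT.nd (nat_lit 78) (nat_lit 532) (nat_lit 0) (XT.lf (nat_lit 0) (nat_lit 38211605234) (nat_lit 1140) (nat_lit 10715759220) (nat_lit 1216) (nat_lit 13595902742)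 (nat_lit 157) (nat_lit 5) (nat_lit 172) (nat_lit 5) (nat_lit 173) (nat_lit 5) (nat_lit 361) (nat_lit 342) (nat_lit 77)) (XT.lf (nat_lit 0) (nat_lit 4518895153) (nat_lit 532) (nat_lit 49659866165) (nat_lit 608) (nat_lit 9409470250) (nat_lit 150) (nat_lit 5) (nat_lit 157) (nat_lit 5) (nat_lit 158) (nat_lit 5) (nat_lit 362) (nat_lit 342) (nat_lit 76))))) (XT.nd (nat_lit 39234) (nat_lit 0) (nat_lit 1140) (XT.nd (nat_lit 39078) (nat_lit 0) (nat_lit 1140) (XT.lf (nat_lit 0) (nat_lit 34603922664) (nat_lit 532) (nat_lit 25333672712) (nat_lit 608) (nat_lit 4737053731) (nat_lit 150) (nat_lit 5) (nat_lit 157) (nat_lit 5) (nat_lit 158) (nat_lit 5) (nat_lit 363) (nat_lit 342) (nat_lit 75)) (XT.nd (nat_lit 78) (nat_lit 0) (nat_lit 0) (XT.lf (nat_lit 0) (nat_lit 1379087141) (nat_lit 0) (nat_lit 1379087141) (nat_lit 1140) (nat_lit 21096421044) (nat_lit 165) (nat_lit 5) (nat_lit 165) (nat_lit 3) (nat_lit 180)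 (nat_lit 3) (nat_lit 343) (nat_lit 343) (nat_lit 94)) (XT.lf (nat_lit 0) (nat_lit 5804301351) (nat_lit 1140) (nat_lit 24437979547) (nat_lit 1216) (nat_lit 18176345050) (nat_lit 165) (nat_lit 5) (nat_lit 180) (nat_lit 3) (nat_lit 181) (nat_lit 5) (nat_lit 344) (nat_lit 343) (nat_lit 93)))) (XT.nd (nat_lit 78) (nat_lit 0) (nat_lit 76) (XT.lf (nat_lit 0) (nat_lit 6127152394) (nat_lit 1140) (nat_lit 3337425796) (nat_lit 1216) (nat_lit 39683980131) (nat_lit 165) (nat_lit 5) (nat_lit 180) (nat_lit 3) (nat_lit 181) (nat_lit 5) (nat_lit 345) (nat_lit 343) (nat_lit 92)) (XT.nd (nat_lit 78) (nat_lit 0) (nat_lit 0) (XT.lf (nat_lit 0) (nat_lit 6755550171) (nat_lit 1140) (nat_lit 31249837227) (nat_lit 1216) (nat_lit 11886127187) (nat_lit 166) (nat_lit 5) (nat_lit 181) (nat_lit 5) (nat_lit 182) (nat_lit 5) (nat_lit 346) (nat_lit 343) (nat_lit 91)) (XT.lf (nat_lit 0) (nat_lit 7529554044) (nat_lit 1140) (nat_lit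 9401802822) (nat_lit 1216) (nat_lit 33721601751) (nat_lit 166) (nat_lit 5) (nat_lit 181) (nat_lit 5) (nat_lit 182) (nat_lit 5) (nat_lit 347) (nat_lit 343) (nat_lit 90)))))) (XT.nd (nat_lit 468) (nat_lit 0) (nat_lit 152) (XT.nd (nat_lit 234) (nat_lit 0) (nat_lit 76) (XT.nd (nat_lit 78) (nat_lit 0) (nat_lit 0) (XT.lf (nat_lit 0) (nat_lit 8501434190) (nat_lit 1140) (nat_lit 38118750173) (nat_lit 1216) (nat_lit 4811823578) (nat_lit 167) (nat_lit 5) (nat_lit 182) (nat_lit 5) (nat_lit 183) (nat_lit 5) (nat_lit 348) (nat_lit 343) (nat_lit 89)) (XT.nd (nat_lit 78) (nat_lit 0) (nat_lit 0) (XT.lf (nat_lit 0) (nat_lit 9765053160) (nat_lit 1140) (nat_lit 15498250369) (nat_lit 1216) (nat_lit 26963249348) (nat_lit 167) (nat_lit 5) (nat_lit 182) (nat_lit 5) (nat_lit 183) (nat_lit 5) (nat_lit 349) (nat_lit 343) (nat_lit 88)) (XT.lf (nat_lit 76) (nat_lit 7955532174) (nat_lit 0) (nat_lit 3186614640) (nat_lit 1216)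 (nat_lit 41900521924) (nat_lit 168) (nat_lit 5) (nat_lit 167) (nat_lit 5) (nat_lit 183) (nat_lit 5) (nat_lit 350) (nat_lit 343) (nat_lit 87)))) (XT.nd (nat_lit 78) (nat_lit 0) (nat_lit 0) (XT.lf (nat_lit 0) (nat_lit 12905670837) (nat_lit 1140) (nat_lit 21638043686) (nat_lit 1216) (nat_lit 19329201540) (nat_lit 168) (nat_lit 5) (nat_lit 183) (nat_lit 5) (nat_lit 184) (nat_lit 5) (nat_lit 351) (nat_lit 343) (nat_lit 86)) (XT.nd (nat_lit 78) (nat_lit 0) (nat_lit 76) (XT.lf (nat_lit 76) (nat_lit 2531794320) (nat_lit 0) (nat_lit 12245336488) (nat_lit 1216) (nat_lit 39949290563) (nat_lit 169) (nat_lit 5) (nat_lit 168) (nat_lit 5) (nat_lit 184) (nat_lit 5) (nat_lit 352) (nat_lit 343) (nat_lit 85)) (XT.lf (nat_lit 0) (nat_lit 17027630530) (nat_lit 1140) (nat_lit 27834525213) (nat_lit 1216) (nat_lit 10733690644) (nat_lit 169) (nat_lit 5) (nat_lit 184) (nat_lit 5) (nat_lit 185) (nat_lit 5) (nat_lit 353)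 (nat_lit 343) (nat_lit 84))))) (XT.nd (nat_lit 234) (nat_lit 0) (nat_lit 76) (XT.nd (nat_lit 78) (nat_lit 0) (nat_lit 76) (XT.lf (nat_lit 0) (nat_lit 19466074935) (nat_lit 1140) (nat_lit 2865448496) (nat_lit 1216) (nat_lit 34156219220) (nat_lit 169) (nat_lit 5) (nat_lit 184) (nat_lit 5) (nat_lit 185) (nat_lit 5) (nat_lit 354) (nat_lit 343) (nat_lit 83)) (XT.nd (nat_lit 78) (nat_lit 0) (nat_lit 0) (XT.lf (nat_lit 0) (nat_lit 22211557147) (nat_lit 1140) (nat_lit 34103398570) (nat_lit 1216) (nat_lit 1084424895) (nat_lit 170) (nat_lit 5) (nat_lit 185) (nat_lit 5) (nat_lit 186) (nat_lit 5) (nat_lit 355) (nat_lit 343) (nat_lit 82)) (XT.lf (nat_lit 0) (nat_lit 25288961774) (nat_lit 1140) (nat_lit 8258486864) (nat_lit 1216) (nat_lit 24783433643) (nat_lit 170) (nat_lit 5) (nat_lit 185) (nat_lit 5) (nat_lit 186) (nat_lit 5) (nat_lit 356) (nat_lit 343) (nat_lit 81)))) (XT.nd (nat_lit 78) (nat_lit 0) (nat_lit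 76) (XT.lf (nat_lit 76) (nat_lit 18726622341) (nat_lit 0) (nat_lit 9911332176) (nat_lit 1216) (nat_lit 30646997771) (nat_lit 171) (nat_lit 5) (nat_lit 170) (nat_lit 5) (nat_lit 186) (nat_lit 5) (nat_lit 357) (nat_lit 343) (nat_lit 80)) (XT.nd (nat_lit 78) (nat_lit 0) (nat_lit 0) (XT.lf (nat_lit 0) (nat_lit 32309656465) (nat_lit 1140) (nat_lit 13714732455) (nat_lit 1216) (nat_lit 14236589524) (nat_lit 171) (nat_lit 5) (nat_lit 186) (nat_lit 5) (nat_lit 187) (nat_lit 5) (nat_lit 358) (nat_lit 343) (nat_lit 79)) (XT.lf (nat_lit 76) (nat_lit 14110818367) (nat_lit 0) (nat_lit 22213758167) (nat_lit 1216) (nat_lit 24934718035) (nat_lit 172) (nat_lit 5) (nat_lit 171) (nat_lit 5) (nat_lit 187) (nat_lit 5) (nat_lit 359) (nat_lit 343) (nat_lit 78))))))) (XT.nd (nat_lit 40014) (nat_lit 0) (nat_lit 532) (XT.nd (nat_lit 39546) (nat_lit 0) (nat_lit 1140) (XT.nd (nat_lit 234) (nat_lit 532) (nat_lit 0) (XT.nd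 (nat_lit 78) (nat_lit 1140) (nat_lit 0) (XT.lf (nat_lit 0) (nat_lit 40621333428) (nat_lit 1140) (nat_lit 19255311852) (nat_lit 76) (nat_lit 2406074382) (nat_lit 172) (nat_lit 5) (nat_lit 187) (nat_lit 5) (nat_lit 173) (nat_lit 5) (nat_lit 360) (nat_lit 343) (nat_lit 77)) (XT.nd (nat_lit 78) (nat_lit 0) (nat_lit 0) (XT.lf (nat_lit 0) (nat_lit 9438308979) (nat_lit 1140) (nat_lit 35918678682) (nat_lit 1216) (nat_lit 17970561135) (nat_lit 157) (nat_lit 5) (nat_lit 172) (nat_lit 5) (nat_lit 173) (nat_lit 5) (nat_lit 361) (nat_lit 343) (nat_lit 76)) (XT.lf (nat_lit 0) (nat_lit 39386883443) (nat_lit 1140) (nat_lit 11041612651) (nat_lit 1216) (nat_lit 13969414266) (nat_lit 157) (nat_lit 5) (nat_lit 172) (nat_lit 5) (nat_lit 173) (nat_lit 5) (nat_lit 362) (nat_lit 343) (nat_lit 75)))) (XT.nd (nat_lit 39156) (nat_lit 0) (nat_lit 1140) (XT.lf (nat_lit 0) (nat_lit 4684194638) (nat_lit 532) (nat_lit 51152514937)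 (nat_lit 608) (nat_lit 9658137464) (nat_lit 150) (nat_lit 5) (nat_lit 157) (nat_lit 5) (nat_lit 158) (nat_lit 5) (nat_lit 363) (nat_lit 343) (nat_lit 74)) (XT.nd (nat_lit 78) (nat_lit 0) (nat_lit 0) (XT.lf (nat_lit 0) (nat_lit 1433833994) (nat_lit 0) (nat_lit 1433833994) (nat_lit 1140) (nat_lit 21701716850) (nat_lit 165) (nat_lit 5) (nat_lit 165) (nat_lit 3) (nat_lit 180) (nat_lit 3) (nat_lit 344) (nat_lit 344) (nat_lit 92)) (XT.lf (nat_lit 0) (nat_lit 6030119552) (nat_lit 1140) (nat_lit 25143252629) (nat_lit 1216) (nat_lit 18696172761) (nat_lit 165) (nat_lit 5) (nat_lit 180) (nat_lit 3) (nat_lit 181) (nat_lit 5) (nat_lit 345) (nat_lit 344) (nat_lit 91))))) (XT.nd (nat_lit 234) (nat_lit 0) (nat_lit 152) (XT.nd (nat_lit 78) (nat_lit 0) (nat_lit 76) (XT.lf (nat_lit 0) (nat_lit 6361150617) (nat_lit 1140) (nat_lit 3410493906) (nat_lit 1216) (nat_lit 40849778525) (nat_lit 165) (nat_lit 5) (nat_lit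 180) (nat_lit 3) (nat_lit 181) (nat_lit 5) (nat_lit 346) (nat_lit 344) (nat_lit 90)) (XT.nd (nat_lit 78) (nat_lit 0) (nat_lit 0) (XT.lf (nat_lit 0) (nat_lit 7006982879) (nat_lit 1140) (nat_lit 32158776237) (nat_lit 1216) (nat_lit 12220953926) (nat_lit 166) (nat_lit 5) (nat_lit 181) (nat_lit 5) (nat_lit 182) (nat_lit 5) (nat_lit 347) (nat_lit 344) (nat_lit 89)) (XT.lf (nat_lit 0) (nat_lit 7802786494) (nat_lit 1140) (nat_lit 9656132531) (nat_lit 1216) (nat_lit 34712126428) (nat_lit 166) (nat_lit 5) (nat_lit 181) (nat_lit 5) (nat_lit 182) (nat_lit 5) (nat_lit 348) (nat_lit 344) (nat_lit 88)))) (XT.nd (nat_lit 78) (nat_lit 0) (nat_lit 0) (XT.lf (nat_lit 0) (nat_lit 8802527423) (nat_lit 1140) (nat_lit 39233213509) (nat_lit 1216) (nat_lit 4937766568) (nat_lit 167) (nat_lit 5) (nat_lit 182) (nat_lit 5) (nat_lit 183) (nat_lit 5) (nat_lit 349) (nat_lit 344) (nat_lit 87)) (XT.nd (nat_lit 78) (nat_lit 0)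 (nat_lit 0) (XT.lf (nat_lit 0) (nat_lit 10102713694) (nat_lit 1140) (nat_lit 15934946260) (nat_lit 1216) (nat_lit 27754271375) (nat_lit 167) (nat_lit 5) (nat_lit 182) (nat_lit 5) (nat_lit 183) (nat_lit 5) (nat_lit 350) (nat_lit 344) (nat_lit 86)) (XT.lf (nat_lit 76) (nat_lit 8222172783) (nat_lit 0) (nat_lit 3297914082) (nat_lit 1216) (nat_lit 43112477038) (nat_lit 168) (nat_lit 5) (nat_lit 167) (nat_lit 5) (nat_lit 183) (nat_lit 5) (nat_lit 351) (nat_lit 344) (nat_lit 85)))))) (XT.nd (nat_lit 468) (nat_lit 836) (nat_lit 0) (XT.nd (nat_lit 234) (nat_lit 0) (nat_lit 76) (XT.nd (nat_lit 78) (nat_lit 0) (nat_lit 0) (XT.lf (nat_lit 0) (nat_lit 13335097971) (nat_lit 1140) (nat_lit 22258534056) (nat_lit 1216) (nat_lit 19894131354) (nat_lit 168) (nat_lit 5) (nat_lit 183) (nat_lit 5) (nat_lit 184) (nat_lit 5) (nat_lit 352) (nat_lit 344) (nat_lit 84)) (XT.nd (nat_lit 78) (nat_lit 0) (nat_lit 76) (XT.lf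 (nat_lit 76) (nat_lit 2636118198) (nat_lit 0) (nat_lit 12625625467) (nat_lit 1216) (nat_lit 41105161036) (nat_lit 169) (nat_lit 5) (nat_lit 168) (nat_lit 5) (nat_lit 184) (nat_lit 5) (nat_lit 353) (nat_lit 344) (nat_lit 83)) (XT.lf (nat_lit 0) (nat_lit 17578434836) (nat_lit 1140) (nat_lit 28640625396) (nat_lit 1216) (nat_lit 11043393991) (nat_lit 169) (nat_lit 5) (nat_lit 184) (nat_lit 5) (nat_lit 185) (nat_lit 5) (nat_lit 354) (nat_lit 344) (nat_lit 82)))) (XT.nd (nat_lit 78) (nat_lit 0) (nat_lit 76) (XT.lf (nat_lit 0) (nat_lit 20088868241) (nat_lit 1140) (nat_lit 2923319161) (nat_lit 1216) (nat_lit 35168956890) (nat_lit 169) (nat_lit 5) (nat_lit 184) (nat_lit 5) (nat_lit 185) (nat_lit 5) (nat_lit 355) (nat_lit 344) (nat_lit 81)) (XT.nd (nat_lit 78) (nat_lit 0) (nat_lit 0) (XT.lf (nat_lit 0) (nat_lit 22915754516) (nat_lit 1140) (nat_lit 35097382959) (nat_lit 1216) (nat_lit 1107024661) (nat_lit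 170) (nat_lit 5) (nat_lit 185) (nat_lit 5) (nat_lit 186) (nat_lit 5) (nat_lit 356) (nat_lit 344) (nat_lit 80)) (XT.lf (nat_lit 0) (nat_lit 26084378835) (nat_lit 1140) (nat_lit 8477971986) (nat_lit 1216) (nat_lit 25517292982) (nat_lit 170) (nat_lit 5) (nat_lit 185) (nat_lit 5) (nat_lit 186) (nat_lit 5) (nat_lit 357) (nat_lit 344) (nat_lit 79))))) (XT.nd (nat_lit 234) (nat_lit 988) (nat_lit 0) (XT.nd (nat_lit 78) (nat_lit 0) (nat_lit 76) (XT.lf (nat_lit 76) (nat_lit 19316413343) (nat_lit 0) (nat_lit 10216626761) (nat_lit 1216) (nat_lit 31529321664) (nat_lit 171) (nat_lit 5) (nat_lit 170) (nat_lit 5) (nat_lit 186) (nat_lit 5) (nat_lit 358) (nat_lit 344) (nat_lit 78)) (XT.nd (nat_lit 78) (nat_lit 0) (nat_lit 0) (XT.lf (nat_lit 0) (nat_lit 33313771874) (nat_lit 1140) (nat_lit 14097817260) (nat_lit 1216) (nat_lit 14656114980) (nat_lit 171) (nat_lit 5) (nat_lit 186) (nat_lit 5) (nat_lit 187) (nat_lit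 5) (nat_lit 359) (nat_lit 344) (nat_lit 77)) (XT.lf (nat_lit 76) (nat_lit 14562222076) (nat_lit 0) (nat_lit 22886173042) (nat_lit 1216) (nat_lit 25647598653) (nat_lit 172) (nat_lit 5) (nat_lit 171) (nat_lit 5) (nat_lit 187) (nat_lit 5) (nat_lit 360) (nat_lit 344) (nat_lit 76)))) (XT.nd (nat_lit 78) (nat_lit 1140) (nat_lit 0) (XT.lf (nat_lit 0) (nat_lit 41873006045) (nat_lit 1140) (nat_lit 19804605685) (nat_lit 76) (nat_lit 2472543014) (nat_lit 172) (nat_lit 5) (nat_lit 187) (nat_lit 5) (nat_lit 173) (nat_lit 5) (nat_lit 361) (nat_lit 344) (nat_lit 75)) (XT.nd (nat_lit 39312) (nat_lit 0) (nat_lit 608) (XT.lf (nat_lit 0) (nat_lit 9749545678) (nat_lit 1140) (nat_lit 37000492105) (nat_lit 1216) (nat_lit 18476313349) (nat_lit 157) (nat_lit 5) (nat_lit 172) (nat_lit 5) (nat_lit 173) (nat_lit 5) (nat_lit 362) (nat_lit 344) (nat_lit 74)) (XT.lf (nat_lit 0) (nat_lit 1489455518) (nat_lit 0) (nat_lit 1489455518)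 (nat_lit 1140) (nat_lit 22326755702) (nat_lit 165) (nat_lit 5) (nat_lit 165) (nat_lit 3) (nat_lit 180) (nat_lit 3) (nat_lit 345) (nat_lit 345) (nat_lit 90))))))))
noncomputable def xc254 : XT := (XT.nd (nat_lit 41184) (nat_lit 0) (nat_lit 0) (XT.nd (nat_lit 858) (nat_lit 0) (nat_lit 0) (XT.nd (nat_lit 390) (nat_lit 0) (nat_lit 152) (XT.nd (nat_lit 156) (nat_lit 0) (nat_lit 76) (XT.nd (nat_lit 78) (nat_lit 0) (nat_lit 0) (XT.lf (nat_lit 0) (nat_lit 6259745130) (nat_lit 1140) (nat_lit 25871283543) (nat_lit 1216) (nat_lit 19233056962) (nat_lit 165) (nat_lit 5) (nat_lit 180) (nat_lit 3) (nat_lit 181) (nat_lit 5) (nat_lit 346) (nat_lit 345) (nat_lit 89)) (XT.lf (nat_lit 0) (nat_lit 6599288040) (nat_lit 1140) (nat_lit 3487307107) (nat_lit 1216) (nat_lit 42051969957) (nat_lit 165) (nat_lit 5) (nat_lit 180) (nat_lit 3) (nat_lit 181) (nat_lit 5) (nat_lit 347) (nat_lit 345) (nat_lit 88))) (XT.nd (nat_lit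 78) (nat_lit 0) (nat_lit 0) (XT.lf (nat_lit 0) (nat_lit 7263159189) (nat_lit 1140) (nat_lit 33096622655) (nat_lit 1216) (nat_lit 12567074413) (nat_lit 166) (nat_lit 5) (nat_lit 181) (nat_lit 5) (nat_lit 182) (nat_lit 5) (nat_lit 348) (nat_lit 345) (nat_lit 87)) (XT.nd (nat_lit 78) (nat_lit 0) (nat_lit 76) (XT.lf (nat_lit 0) (nat_lit 8081498073) (nat_lit 1140) (nat_lit 9919683624) (nat_lit 1216) (nat_lit 35733579414) (nat_lit 166) (nat_lit 5) (nat_lit 181) (nat_lit 5) (nat_lit 182) (nat_lit 5) (nat_lit 349) (nat_lit 345) (nat_lit 86)) (XT.lf (nat_lit 0) (nat_lit 9110009982) (nat_lit 1140) (nat_lit 40382781156) (nat_lit 1216) (nat_lit 5068544756) (nat_lit 167) (nat_lit 5) (nat_lit 182) (nat_lit 5) (nat_lit 183) (nat_lit 5) (nat_lit 350) (nat_lit 345) (nat_lit 85))))) (XT.nd (nat_lit 234) (nat_lit 0) (nat_lit 76) (XT.nd (nat_lit 78) (nat_lit 0) (nat_lit 0) (XT.lf (nat_lit 0) (nat_lit 10447937568)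 (nat_lit 1140) (nat_lit 16386364786) (nat_lit 1216) (nat_lit 28570050187) (nat_lit 167) (nat_lit 5) (nat_lit 182) (nat_lit 5) (nat_lit 183) (nat_lit 5) (nat_lit 351) (nat_lit 345) (nat_lit 84)) (XT.nd (nat_lit 78) (nat_lit 0) (nat_lit 76) (XT.lf (nat_lit 76) (nat_lit 8495206752) (nat_lit 0) (nat_lit 3411651205) (nat_lit 1216) (nat_lit 44363377465) (nat_lit 168) (nat_lit 5) (nat_lit 167) (nat_lit 5) (nat_lit 183) (nat_lit 5) (nat_lit 352) (nat_lit 345) (nat_lit 83)) (XT.lf (nat_lit 0) (nat_lit 13774982194) (nat_lit 1140) (nat_lit 22899283819) (nat_lit 1216) (nat_lit 20476867037) (nat_lit 168) (nat_lit 5) (nat_lit 183) (nat_lit 5) (nat_lit 184) (nat_lit 5) (nat_lit 353) (nat_lit 345) (nat_lit 82)))) (XT.nd (nat_lit 78) (nat_lit 0) (nat_lit 76) (XT.lf (nat_lit 76) (nat_lit 2741943236) (nat_lit 0) (nat_lit 13016580943) (nat_lit 1216) (nat_lit 42298153511) (nat_lit 169) (nat_lit 5) (nat_lit 168) (nat_lit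 5) (nat_lit 184) (nat_lit 5) (nat_lit 354) (nat_lit 345) (nat_lit 81)) (XT.nd (nat_lit 78) (nat_lit 0) (nat_lit 0) (XT.lf (nat_lit 0) (nat_lit 18143468521) (nat_lit 1140) (nat_lit 29472569605) (nat_lit 1216) (nat_lit 11363094931) (nat_lit 169) (nat_lit 5) (nat_lit 184) (nat_lit 5) (nat_lit 185) (nat_lit 5) (nat_lit 355) (nat_lit 345) (nat_lit 80)) (XT.lf (nat_lit 0) (nat_lit 20728117433) (nat_lit 1140) (nat_lit 2984538587) (nat_lit 1216) (nat_lit 36212762607) (nat_lit 169) (nat_lit 5) (nat_lit 184) (nat_lit 5) (nat_lit 185) (nat_lit 5) (nat_lit 356) (nat_lit 345) (nat_lit 79)))))) (XT.nd (nat_lit 39858) (nat_lit 0) (nat_lit 0) (XT.nd (nat_lit 234) (nat_lit 380) (nat_lit 0) (XT.nd (nat_lit 78) (nat_lit 0) (nat_lit 0) (XT.lf (nat_lit 0) (nat_lit 23638905024) (nat_lit 1140) (nat_lit 36122858347) (nat_lit 1216) (nat_lit 1130872614) (nat_lit 170) (nat_lit 5) (nat_lit 185) (nat_lit 5) (nat_lit 186)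 (nat_lit 5) (nat_lit 357) (nat_lit 345) (nat_lit 78)) (XT.nd (nat_lit 78) (nat_lit 0) (nat_lit 0) (XT.lf (nat_lit 0) (nat_lit 26901548911) (nat_lit 1140) (nat_lit 8705664446) (nat_lit 1216) (nat_lit 26273721687) (nat_lit 170) (nat_lit 5) (nat_lit 185) (nat_lit 5) (nat_lit 186) (nat_lit 5) (nat_lit 358) (nat_lit 345) (nat_lit 77)) (XT.lf (nat_lit 76) (nat_lit 19922291201) (nat_lit 0) (nat_lit 10530623556) (nat_lit 1216) (nat_lit 32440244165) (nat_lit 171) (nat_lit 5) (nat_lit 170) (nat_lit 5) (nat_lit 186) (nat_lit 5) (nat_lit 359) (nat_lit 345) (nat_lit 76)))) (XT.nd (nat_lit 78) (nat_lit 456) (nat_lit 0) (XT.lf (nat_lit 0) (nat_lit 34346011608) (nat_lit 1140) (nat_lit 14494022426) (nat_lit 1216) (nat_lit 15088660877) (nat_lit 171) (nat_lit 5) (nat_lit 186) (nat_lit 5) (nat_lit 187) (nat_lit 5) (nat_lit 360) (nat_lit 345) (nat_lit 75)) (XT.nd (nat_lit 39468) (nat_lit 456) (nat_lit 0) (XT.lf (nat_lit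 76) (nat_lit 15025556038) (nat_lit 0) (nat_lit 23578415817) (nat_lit 1216) (nat_lit 26383884071) (nat_lit 172) (nat_lit 5) (nat_lit 171) (nat_lit 5) (nat_lit 187) (nat_lit 5) (nat_lit 361) (nat_lit 345) (nat_lit 74)) (XT.lf (nat_lit 0) (nat_lit 1546022022) (nat_lit 0) (nat_lit 1546022022) (nat_lit 1140) (nat_lit 22972038951) (nat_lit 165) (nat_lit 5) (nat_lit 165) (nat_lit 3) (nat_lit 180) (nat_lit 3) (nat_lit 346) (nat_lit 346) (nat_lit 88))))) (XT.nd (nat_lit 234) (nat_lit 0) (nat_lit 76) (XT.nd (nat_lit 78) (nat_lit 0) (nat_lit 0) (XT.lf (nat_lit 0) (nat_lit 6493462634) (nat_lit 1140) (nat_lit 26622663199) (nat_lit 1216) (nat_lit 19787425445) (nat_lit 165) (nat_lit 5) (nat_lit 180) (nat_lit 3) (nat_lit 181) (nat_lit 5) (nat_lit 347) (nat_lit 346) (nat_lit 87)) (XT.nd (nat_lit 78) (nat_lit 0) (nat_lit 76) (XT.lf (nat_lit 0) (nat_lit 6841854205) (nat_lit 1140) (nat_lit 3567888601) (nat_lit 1216)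 (nat_lit 43291564758) (nat_lit 165) (nat_lit 5) (nat_lit 180) (nat_lit 3) (nat_lit 181) (nat_lit 5) (nat_lit 348) (nat_lit 346) (nat_lit 86)) (XT.lf (nat_lit 0) (nat_lit 7524382104) (nat_lit 1140) (nat_lit 34064149604) (nat_lit 1216) (nat_lit 12924755764) (nat_lit 166) (nat_lit 5) (nat_lit 181) (nat_lit 5) (nat_lit 182) (nat_lit 5) (nat_lit 349) (nat_lit 346) (nat_lit 85)))) (XT.nd (nat_lit 78) (nat_lit 0) (nat_lit 76) (XT.lf (nat_lit 0) (nat_lit 8366009170) (nat_lit 1140) (nat_lit 10192641384) (nat_lit 1216) (nat_lit 36786818951) (nat_lit 166) (nat_lit 5) (nat_lit 181) (nat_lit 5) (nat_lit 182) (nat_lit 5) (nat_lit 350) (nat_lit 346) (nat_lit 84)) (XT.nd (nat_lit 78) (nat_lit 0) (nat_lit 0) (XT.lf (nat_lit 0) (nat_lit 9424225295) (nat_lit 1140) (nat_lit 41568410356) (nat_lit 1216) (nat_lit 5204242526) (nat_lit 167) (nat_lit 5) (nat_lit 182) (nat_lit 5) (nat_lit 183) (nat_lit 5) (nat_lit 351)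 (nat_lit 346) (nat_lit 83)) (XT.lf (nat_lit 0) (nat_lit 10801099009) (nat_lit 1140) (nat_lit 16852854530) (nat_lit 1216) (nat_lit 29411269583) (nat_lit 167) (nat_lit 5) (nat_lit 182) (nat_lit 5) (nat_lit 183) (nat_lit 5) (nat_lit 352) (nat_lit 346) (nat_lit 82))))))) (XT.nd (nat_lit 40404) (nat_lit 0) (nat_lit 0) (XT.nd (nat_lit 468) (nat_lit 152) (nat_lit 0) (XT.nd (nat_lit 234) (nat_lit 0) (nat_lit 152) (XT.nd (nat_lit 78) (nat_lit 0) (nat_lit 76) (XT.lf (nat_lit 76) (nat_lit 8774918063) (nat_lit 0) (nat_lit 3527950879) (nat_lit 1216) (nat_lit 45654243080) (nat_lit 168) (nat_lit 5) (nat_lit 167) (nat_lit 5) (nat_lit 183) (nat_lit 5) (nat_lit 353) (nat_lit 346) (nat_lit 81)) (XT.nd (nat_lit 78) (nat_lit 0) (nat_lit 0) (XT.lf (nat_lit 0) (nat_lit 14225776464) (nat_lit 1140) (nat_lit 23560806344) (nat_lit 1216) (nat_lit 21077893514) (nat_lit 168) (nat_lit 5) (nat_lit 183) (nat_lit 5) (nat_lit 184)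 (nat_lit 5) (nat_lit 354) (nat_lit 346) (nat_lit 80)) (XT.lf (nat_lit 76) (nat_lit 2849407954) (nat_lit 0) (nat_lit 13418565517) (nat_lit 1216) (nat_lit 43529241243) (nat_lit 169) (nat_lit 5) (nat_lit 168) (nat_lit 5) (nat_lit 184) (nat_lit 5) (nat_lit 355) (nat_lit 346) (nat_lit 79)))) (XT.nd (nat_lit 78) (nat_lit 0) (nat_lit 0) (XT.lf (nat_lit 0) (nat_lit 18723290193) (nat_lit 1140) (nat_lit 30331037811) (nat_lit 1216) (nat_lit 11693052837) (nat_lit 169) (nat_lit 5) (nat_lit 184) (nat_lit 5) (nat_lit 185) (nat_lit 5) (nat_lit 356) (nat_lit 346) (nat_lit 78)) (XT.nd (nat_lit 78) (nat_lit 0) (nat_lit 76) (XT.lf (nat_lit 0) (nat_lit 21384444079) (nat_lit 1140) (nat_lit 3049114665) (nat_lit 1216) (nat_lit 37288529037) (nat_lit 169) (nat_lit 5) (nat_lit 184) (nat_lit 5) (nat_lit 185) (nat_lit 5) (nat_lit 357) (nat_lit 346) (nat_lit 77)) (XT.lf (nat_lit 0) (nat_lit 24381701991) (nat_lit 1140) (nat_lit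 37180673515) (nat_lit 1216) (nat_lit 1155973468) (nat_lit 170) (nat_lit 5) (nat_lit 185) (nat_lit 5) (nat_lit 186) (nat_lit 5) (nat_lit 358) (nat_lit 346) (nat_lit 76))))) (XT.nd (nat_lit 39702) (nat_lit 380) (nat_lit 0) (XT.nd (nat_lit 78) (nat_lit 0) (nat_lit 0) (XT.lf (nat_lit 0) (nat_lit 27741245686) (nat_lit 1140) (nat_lit 8941717309) (nat_lit 1216) (nat_lit 27053365061) (nat_lit 170) (nat_lit 5) (nat_lit 185) (nat_lit 5) (nat_lit 186) (nat_lit 5) (nat_lit 359) (nat_lit 346) (nat_lit 75)) (XT.nd (nat_lit 78) (nat_lit 0) (nat_lit 76) (XT.lf (nat_lit 76) (nat_lit 20544830762) (nat_lit 0) (nat_lit 10853609839) (nat_lit 1216) (nat_lit 33380501025) (nat_lit 171) (nat_lit 5) (nat_lit 170) (nat_lit 5) (nat_lit 186) (nat_lit 5) (nat_lit 360) (nat_lit 346) (nat_lit 74)) (XT.lf (nat_lit 0) (nat_lit 35407334153) (nat_lit 1140) (nat_lit 14903648121) (nat_lit 1216) (nat_lit 15534592876) (nat_lit 171)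 (nat_lit 5) (nat_lit 186) (nat_lit 5) (nat_lit 187) (nat_lit 5) (nat_lit 361) (nat_lit 346) (nat_lit 73)))) (XT.nd (nat_lit 78) (nat_lit 0) (nat_lit 0) (XT.lf (nat_lit 0) (nat_lit 1603603398) (nat_lit 0) (nat_lit 1603603398) (nat_lit 1140) (nat_lit 23638088213) (nat_lit 165) (nat_lit 5) (nat_lit 165) (nat_lit 3) (nat_lit 180) (nat_lit 3) (nat_lit 347) (nat_lit 347) (nat_lit 86)) (XT.nd (nat_lit 78) (nat_lit 0) (nat_lit 0) (XT.lf (nat_lit 0) (nat_lit 6731555371) (nat_lit 1140) (nat_lit 27398005504) (nat_lit 1216) (nat_lit 20359723647) (nat_lit 165) (nat_lit 5) (nat_lit 180) (nat_lit 3) (nat_lit 181) (nat_lit 5) (nat_lit 348) (nat_lit 347) (nat_lit 85)) (XT.lf (nat_lit 0) (nat_lit 7089137849) (nat_lit 1140) (nat_lit 3652267404) (nat_lit 1216) (nat_lit 44569608244) (nat_lit 165) (nat_lit 5) (nat_lit 180) (nat_lit 3) (nat_lit 181) (nat_lit 5) (nat_lit 349) (nat_lit 347) (nat_lit 84)))))) (XT.nd (nat_lit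 468) (nat_lit 76) (nat_lit 0) (XT.nd (nat_lit 234) (nat_lit 0) (nat_lit 76) (XT.nd (nat_lit 78) (nat_lit 0) (nat_lit 0) (XT.lf (nat_lit 0) (nat_lit 7790954495) (nat_lit 1140) (nat_lit 35062158802) (nat_lit 1216) (nat_lit 13294277228) (nat_lit 166) (nat_lit 5) (nat_lit 181) (nat_lit 5) (nat_lit 182) (nat_lit 5) (nat_lit 350) (nat_lit 347) (nat_lit 83)) (XT.nd (nat_lit 78) (nat_lit 0) (nat_lit 76) (XT.lf (nat_lit 0) (nat_lit 8656640831) (nat_lit 1140) (nat_lit 10475201898) (nat_lit 1216) (nat_lit 37872733025) (nat_lit 166) (nat_lit 5) (nat_lit 181) (nat_lit 5) (nat_lit 182) (nat_lit 5) (nat_lit 351) (nat_lit 347) (nat_lit 82)) (XT.lf (nat_lit 0) (nat_lit 9745518377) (nat_lit 1140) (nat_lit 42791092571) (nat_lit 1216) (nat_lit 5344950278) (nat_lit 167) (nat_lit 5) (nat_lit 182) (nat_lit 5) (nat_lit 183) (nat_lit 5) (nat_lit 352) (nat_lit 347) (nat_lit 81)))) (XT.nd (nat_lit 78) (nat_lit 0) (nat_lit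 0) (XT.lf (nat_lit 0) (nat_lit 11162575012) (nat_lit 1140) (nat_lit 17334779879) (nat_lit 1216) (nat_lit 30278637259) (nat_lit 167) (nat_lit 5) (nat_lit 182) (nat_lit 5) (nat_lit 183) (nat_lit 5) (nat_lit 353) (nat_lit 347) (nat_lit 80)) (XT.nd (nat_lit 78) (nat_lit 0) (nat_lit 76) (XT.lf (nat_lit 76) (nat_lit 9061593928) (nat_lit 0) (nat_lit 3646938748) (nat_lit 1216) (nat_lit 46986132876) (nat_lit 168) (nat_lit 5) (nat_lit 167) (nat_lit 5) (nat_lit 183) (nat_lit 5) (nat_lit 354) (nat_lit 347) (nat_lit 79)) (XT.lf (nat_lit 0) (nat_lit 14687939338) (nat_lit 1140) (nat_lit 24243635823) (nat_lit 1216) (nat_lit 21697713084) (nat_lit 168) (nat_lit 5) (nat_lit 183) (nat_lit 5) (nat_lit 184) (nat_lit 5) (nat_lit 355) (nat_lit 347) (nat_lit 78))))) (XT.nd (nat_lit 234) (nat_lit 228) (nat_lit 0) (XT.nd (nat_lit 78) (nat_lit 0) (nat_lit 76) (XT.lf (nat_lit 76) (nat_lit 2958649662) (nat_lit 0) (nat_lit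 13831950219) (nat_lit 1216) (nat_lit 44799434747) (nat_lit 169) (nat_lit 5) (nat_lit 168) (nat_lit 5) (nat_lit 184) (nat_lit 5) (nat_lit 356) (nat_lit 347) (nat_lit 77)) (XT.nd (nat_lit 78) (nat_lit 0) (nat_lit 0) (XT.lf (nat_lit 0) (nat_lit 19318467658) (nat_lit 1140) (nat_lit 31216735858) (nat_lit 1216) (nat_lit 12033537191) (nat_lit 169) (nat_lit 5) (nat_lit 184) (nat_lit 5) (nat_lit 185) (nat_lit 5) (nat_lit 357) (nat_lit 347) (nat_lit 76)) (XT.lf (nat_lit 0) (nat_lit 22058481052) (nat_lit 1140) (nat_lit 3117060835) (nat_lit 1216) (nat_lit 38397177888) (nat_lit 169) (nat_lit 5) (nat_lit 184) (nat_lit 5) (nat_lit 185) (nat_lit 5) (nat_lit 358) (nat_lit 347) (nat_lit 75)))) (XT.nd (nat_lit 78) (nat_lit 380) (nat_lit 0) (XT.lf (nat_lit 0) (nat_lit 25144852378) (nat_lit 1140) (nat_lit 38271708216) (nat_lit 1216) (nat_lit 1182333957) (nat_lit 170) (nat_lit 5) (nat_lit 185) (nat_lit 5) (nat_lit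 186) (nat_lit 5) (nat_lit 359) (nat_lit 347) (nat_lit 74)) (XT.nd (nat_lit 39702) (nat_lit 380) (nat_lit 0) (XT.lf (nat_lit 0) (nat_lit 28604259102) (nat_lit 1140) (nat_lit 9186293581) (nat_lit 1216) (nat_lit 27856889591) (nat_lit 170) (nat_lit 5) (nat_lit 185) (nat_lit 5) (nat_lit 186) (nat_lit 5) (nat_lit 360) (nat_lit 347) (nat_lit 73)) (XT.lf (nat_lit 0) (nat_lit 1662269248) (nat_lit 0) (nat_lit 1662269248) (nat_lit 1140) (nat_lit 24325445671) (nat_lit 165) (nat_lit 5) (nat_lit 165) (nat_lit 3) (nat_lit 180) (nat_lit 3) (nat_lit 348) (nat_lit 348) (nat_lit 84))))))))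
noncomputable def xc255 : XT := (XT.nd (nat_lit 81432) (nat_lit 0) (nat_lit 0) (XT.nd (nat_lit 40638) (nat_lit 0) (nat_lit 0) (XT.nd (nat_lit 468) (nat_lit 0) (nat_lit 152) (XT.nd (nat_lit 234) (nat_lit 0) (nat_lit 76) (XT.nd (nat_lit 78) (nat_lit 0) (nat_lit 0) (XT.lf (nat_lit 0) (nat_lit 6974305933) (nat_lit 1140) (nat_lit 28197947751) (nat_lit 1216) (nat_lit 20950414913) (nat_lit 165) (nat_lit 5) (nat_lit 180) (nat_lit 3) (nat_lit 181) (nat_lit 5) (nat_lit 349) (nat_lit 348) (nat_lit 83)) (XT.nd (nat_lit 78) (nat_lit 0) (nat_lit 76) (XT.lf (nat_lit 0) (nat_lit 7341427422) (nat_lit 1140) (nat_lit 3740478224) (nat_lit 1216) (nat_lit 45887181497) (nat_lit 165) (nat_lit 5) (nat_lit 180) (nat_lit 3) (nat_lit 181) (nat_lit 5) (nat_lit 350) (nat_lit 348) (nat_lit 82)) (XT.lf (nat_lit 0) (nat_lit 8063179621) (nat_lit 1140) (nat_lit 36091481112) (nat_lit 1216) (nat_lit 13675930307) (nat_lit 166) (nat_lit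 5) (nat_lit 181) (nat_lit 5) (nat_lit 182) (nat_lit 5) (nat_lit 351) (nat_lit 348) (nat_lit 81)))) (XT.nd (nat_lit 78) (nat_lit 0) (nat_lit 76) (XT.lf (nat_lit 0) (nat_lit 8953715290) (nat_lit 1140) (nat_lit 10767572077) (nat_lit 1216) (nat_lit 38992240028) (nat_lit 166) (nat_lit 5) (nat_lit 181) (nat_lit 5) (nat_lit 182) (nat_lit 5) (nat_lit 352) (nat_lit 348) (nat_lit 80)) (XT.nd (nat_lit 78) (nat_lit 0) (nat_lit 0) (XT.lf (nat_lit 0) (nat_lit 10074236388) (nat_lit 1140) (nat_lit 44051854196) (nat_lit 1216) (nat_lit 5490764407) (nat_lit 167) (nat_lit 5) (nat_lit 182) (nat_lit 5) (nat_lit 183) (nat_lit 5) (nat_lit 353) (nat_lit 348) (nat_lit 79)) (XT.lf (nat_lit 0) (nat_lit 11532745911) (nat_lit 1140) (nat_lit 17832521186) (nat_lit 1216) (nat_lit 31172885329) (nat_lit 167) (nat_lit 5) (nat_lit 182) (nat_lit 5) (nat_lit 183) (nat_lit 5) (nat_lit 354) (nat_lit 348) (nat_lit 78))))) (XT.nd (nat_lit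 234) (nat_lit 0) (nat_lit 152) (XT.nd (nat_lit 78) (nat_lit 0) (nat_lit 76) (XT.lf (nat_lit 76) (nat_lit 9355525188) (nat_lit 0) (nat_lit 3768741427) (nat_lit 1216) (nat_lit 48360145653) (nat_lit 168) (nat_lit 5) (nat_lit 167) (nat_lit 5) (nat_lit 183) (nat_lit 5) (nat_lit 355) (nat_lit 348) (nat_lit 77)) (XT.nd (nat_lit 78) (nat_lit 0) (nat_lit 0) (XT.lf (nat_lit 0) (nat_lit 15161935590) (nat_lit 1140) (nat_lit 24948327581) (nat_lit 1216) (nat_lit 22336845783) (nat_lit 168) (nat_lit 5) (nat_lit 183) (nat_lit 5) (nat_lit 184) (nat_lit 5) (nat_lit 356) (nat_lit 348) (nat_lit 76)) (XT.lf (nat_lit 76) (nat_lit 3069804730) (nat_lit 0) (nat_lit 14257114906) (nat_lit 1216) (nat_lit 46109782448) (nat_lit 169) (nat_lit 5) (nat_lit 168) (nat_lit 5) (nat_lit 184) (nat_lit 5) (nat_lit 357) (nat_lit 348) (nat_lit 75)))) (XT.nd (nat_lit 78) (nat_lit 0) (nat_lit 0) (XT.lf (nat_lit 0) (nat_lit 19929578630) (nat_lit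 1140) (nat_lit 32130395924) (nat_lit 1216) (nat_lit 12384827752) (nat_lit 169) (nat_lit 5) (nat_lit 184) (nat_lit 5) (nat_lit 185) (nat_lit 5) (nat_lit 358) (nat_lit 348) (nat_lit 74)) (XT.nd (nat_lit 78) (nat_lit 0) (nat_lit 76) (XT.lf (nat_lit 0) (nat_lit 22750873291) (nat_lit 1140) (nat_lit 3188395953) (nat_lit 1216) (nat_lit 39539660648) (nat_lit 169) (nat_lit 5) (nat_lit 184) (nat_lit 5) (nat_lit 185) (nat_lit 5) (nat_lit 359) (nat_lit 348) (nat_lit 73)) (XT.lf (nat_lit 0) (nat_lit 25929077605) (nat_lit 1140) (nat_lit 39396873785) (nat_lit 1216) (nat_lit 1209962789) (nat_lit 170) (nat_lit 5) (nat_lit 185) (nat_lit 5) (nat_lit 186) (nat_lit 5) (nat_lit 360) (nat_lit 348) (nat_lit 72)))))) (XT.nd (nat_lit 468) (nat_lit 0) (nat_lit 0) (XT.nd (nat_lit 234) (nat_lit 0) (nat_lit 76) (XT.nd (nat_lit 78) (nat_lit 0) (nat_lit 0) (XT.lf (nat_lit 0) (nat_lit 1722089016) (nat_lit 0) (nat_lit 1722089016)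 (nat_lit 1140) (nat_lit 25034674412) (nat_lit 165) (nat_lit 5) (nat_lit 165) (nat_lit 3) (nat_lit 180) (nat_lit 3) (nat_lit 349) (nat_lit 349) (nat_lit 82)) (XT.nd (nat_lit 78) (nat_lit 0) (nat_lit 0) (XT.lf (nat_lit 0) (nat_lit 7221996701) (nat_lit 1140) (nat_lit 29023151036) (nat_lit 1216) (nat_lit 21559980764) (nat_lit 165) (nat_lit 5) (nat_lit 180) (nat_lit 3) (nat_lit 181) (nat_lit 5) (nat_lit 350) (nat_lit 349) (nat_lit 81)) (XT.lf (nat_lit 0) (nat_lit 7599011594) (nat_lit 1140) (nat_lit 3832561360) (nat_lit 1216) (nat_lit 47245402189) (nat_lit 165) (nat_lit 5) (nat_lit 180) (nat_lit 3) (nat_lit 181) (nat_lit 5) (nat_lit 351) (nat_lit 349) (nat_lit 80)))) (XT.nd (nat_lit 78) (nat_lit 0) (nat_lit 0) (XT.lf (nat_lit 0) (nat_lit 8341361644) (nat_lit 1140) (nat_lit 37152977120) (nat_lit 1216) (nat_lit 14070018908) (nat_lit 166) (nat_lit 5) (nat_lit 181) (nat_lit 5) (nat_lit 182) (nat_lit 5)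 (nat_lit 352) (nat_lit 349) (nat_lit 79)) (XT.nd (nat_lit 78) (nat_lit 0) (nat_lit 76) (XT.lf (nat_lit 0) (nat_lit 9257556491) (nat_lit 1140) (nat_lit 11069969700) (nat_lit 1216) (nat_lit 40146289454) (nat_lit 166) (nat_lit 5) (nat_lit 181) (nat_lit 5) (nat_lit 182) (nat_lit 5) (nat_lit 353) (nat_lit 349) (nat_lit 78)) (XT.lf (nat_lit 0) (nat_lit 10410729158) (nat_lit 1140) (nat_lit 45351757307) (nat_lit 1216) (nat_lit 5641787293) (nat_lit 167) (nat_lit 5) (nat_lit 182) (nat_lit 5) (nat_lit 183) (nat_lit 5) (nat_lit 354) (nat_lit 349) (nat_lit 77))))) (XT.nd (nat_lit 234) (nat_lit 152) (nat_lit 0) (XT.nd (nat_lit 78) (nat_lit 0) (nat_lit 0) (XT.lf (nat_lit 0) (nat_lit 11911995938) (nat_lit 1140) (nat_lit 18346474962) (nat_lit 1216) (nat_lit 32094770873) (nat_lit 167) (nat_lit 5) (nat_lit 182) (nat_lit 5) (nat_lit 183) (nat_lit 5) (nat_lit 355) (nat_lit 349) (nat_lit 76)) (XT.nd (nat_lit 78) (nat_lit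 0) (nat_lit 76) (XT.lf (nat_lit 76) (nat_lit 9657006706) (nat_lit 0) (nat_lit 3893486691) (nat_lit 1216) (nat_lit 49777420747) (nat_lit 168) (nat_lit 5) (nat_lit 167) (nat_lit 5) (nat_lit 183) (nat_lit 5) (nat_lit 356) (nat_lit 349) (nat_lit 75)) (XT.lf (nat_lit 0) (nat_lit 15648236841) (nat_lit 1140) (nat_lit 25675458418) (nat_lit 1216) (nat_lit 22995829756) (nat_lit 168) (nat_lit 5) (nat_lit 183) (nat_lit 5) (nat_lit 184) (nat_lit 5) (nat_lit 357) (nat_lit 349) (nat_lit 74)))) (XT.nd (nat_lit 78) (nat_lit 228) (nat_lit 0) (XT.lf (nat_lit 76) (nat_lit 3183008853) (nat_lit 0) (nat_lit 14694448656) (nat_lit 1216) (nat_lit 47461371386) (nat_lit 169) (nat_lit 5) (nat_lit 168) (nat_lit 5) (nat_lit 184) (nat_lit 5) (nat_lit 358) (nat_lit 349) (nat_lit 73)) (XT.nd (nat_lit 39936) (nat_lit 304) (nat_lit 0) (XT.lf (nat_lit 0) (nat_lit 20557211434) (nat_lit 1140) (nat_lit 33072777018) (nat_lit 1216) (nat_lit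 12747214744) (nat_lit 169) (nat_lit 5) (nat_lit 184) (nat_lit 5) (nat_lit 185) (nat_lit 5) (nat_lit 359) (nat_lit 349) (nat_lit 72)) (XT.lf (nat_lit 0) (nat_lit 1783132109) (nat_lit 0) (nat_lit 1783132109) (nat_lit 1140) (nat_lit 25766358787) (nat_lit 165) (nat_lit 5) (nat_lit 165) (nat_lit 3) (nat_lit 180) (nat_lit 3) (nat_lit 350) (nat_lit 350) (nat_lit 80))))))) (XT.nd (nat_lit 40950) (nat_lit 0) (nat_lit 0) (XT.nd (nat_lit 468) (nat_lit 0) (nat_lit 0) (XT.nd (nat_lit 234) (nat_lit 0) (nat_lit 76) (XT.nd (nat_lit 78) (nat_lit 0) (nat_lit 0) (XT.lf (nat_lit 0) (nat_lit 7474910340) (nat_lit 1140) (nat_lit 29874300702) (nat_lit 1216) (nat_lit 22188921203) (nat_lit 165) (nat_lit 5) (nat_lit 180) (nat_lit 3) (nat_lit 181) (nat_lit 5) (nat_lit 351) (nat_lit 350) (nat_lit 79)) (XT.nd (nat_lit 78) (nat_lit 0) (nat_lit 76) (XT.lf (nat_lit 0) (nat_lit 7862179745) (nat_lit 1140) (nat_lit 3928562603) (nat_lit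 1216) (nat_lit 48645425435) (nat_lit 165) (nat_lit 5) (nat_lit 180) (nat_lit 3) (nat_lit 181) (nat_lit 5) (nat_lit 352) (nat_lit 350) (nat_lit 78)) (XT.lf (nat_lit 0) (nat_lit 8625806127) (nat_lit 1140) (nat_lit 38247537755) (nat_lit 1216) (nat_lit 14476859500) (nat_lit 166) (nat_lit 5) (nat_lit 181) (nat_lit 5) (nat_lit 182) (nat_lit 5) (nat_lit 353) (nat_lit 350) (nat_lit 77)))) (XT.nd (nat_lit 78) (nat_lit 0) (nat_lit 76) (XT.lf (nat_lit 0) (nat_lit 9568490598) (nat_lit 1140) (nat_lit 11382623472) (nat_lit 1216) (nat_lit 41335862627) (nat_lit 166) (nat_lit 5) (nat_lit 181) (nat_lit 5) (nat_lit 182) (nat_lit 5) (nat_lit 354) (nat_lit 350) (nat_lit 76)) (XT.nd (nat_lit 78) (nat_lit 0) (nat_lit 0) (XT.lf (nat_lit 0) (nat_lit 10755349722) (nat_lit 1140) (nat_lit 46691900455) (nat_lit 1216) (nat_lit 5798127303) (nat_lit 167) (nat_lit 5) (nat_lit 182) (nat_lit 5) (nat_lit 183) (nat_lit 5) (nat_lit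 355) (nat_lit 350) (nat_lit 75)) (XT.lf (nat_lit 0) (nat_lit 12300713767) (nat_lit 1140) (nat_lit 18877054093) (nat_lit 1216) (nat_lit 33045076515) (nat_lit 167) (nat_lit 5) (nat_lit 182) (nat_lit 5) (nat_lit 183) (nat_lit 5) (nat_lit 356) (nat_lit 350) (nat_lit 74))))) (XT.nd (nat_lit 40248) (nat_lit 0) (nat_lit 0) (XT.nd (nat_lit 78) (nat_lit 152) (nat_lit 0) (XT.lf (nat_lit 76) (nat_lit 9966337759) (nat_lit 0) (nat_lit 4021303659) (nat_lit 1216) (nat_lit 51239138810) (nat_lit 168) (nat_lit 5) (nat_lit 167) (nat_lit 5) (nat_lit 183) (nat_lit 5) (nat_lit 357) (nat_lit 350) (nat_lit 73)) (XT.nd (nat_lit 40092) (nat_lit 228) (nat_lit 0) (XT.lf (nat_lit 0) (nat_lit 16147322162) (nat_lit 1140) (nat_lit 26425626977) (nat_lit 1216) (nat_lit 23675221661) (nat_lit 168) (nat_lit 5) (nat_lit 183) (nat_lit 5) (nat_lit 184) (nat_lit 5) (nat_lit 358) (nat_lit 350) (nat_lit 72)) (XT.lf (nat_lit 0) (nat_lit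 1845468020) (nat_lit 0) (nat_lit 1845468020) (nat_lit 1140) (nat_lit 26521104798) (nat_lit 165) (nat_lit 5) (nat_lit 165) (nat_lit 3) (nat_lit 180) (nat_lit 3) (nat_lit 351) (nat_lit 351) (nat_lit 78)))) (XT.nd (nat_lit 78) (nat_lit 0) (nat_lit 0) (XT.lf (nat_lit 0) (nat_lit 7733330275) (nat_lit 1140) (nat_lit 30752106814) (nat_lit 1216) (nat_lit 22837755034) (nat_lit 165) (nat_lit 5) (nat_lit 180) (nat_lit 3) (nat_lit 181) (nat_lit 5) (nat_lit 352) (nat_lit 351) (nat_lit 77)) (XT.nd (nat_lit 78) (nat_lit 0) (nat_lit 76) (XT.lf (nat_lit 0) (nat_lit 8131222443) (nat_lit 1140) (nat_lit 4028533161) (nat_lit 1216) (nat_lit 50088444698) (nat_lit 165) (nat_lit 5) (nat_lit 180) (nat_lit 3) (nat_lit 181) (nat_lit 5) (nat_lit 353) (nat_lit 351) (nat_lit 76)) (XT.lf (nat_lit 0) (nat_lit 8916820516) (nat_lit 1140) (nat_lit 39376084937) (nat_lit 1216) (nat_lit 14896781294) (nat_lit 166) (nat_lit 5) (nat_lit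 181) (nat_lit 5) (nat_lit 182) (nat_lit 5) (nat_lit 354) (nat_lit 351) (nat_lit 75)))))) (XT.nd (nat_lit 40716) (nat_lit 0) (nat_lit 0) (XT.nd (nat_lit 40482) (nat_lit 76) (nat_lit 0) (XT.nd (nat_lit 78) (nat_lit 0) (nat_lit 76) (XT.lf (nat_lit 0) (nat_lit 9886846486) (nat_lit 1140) (nat_lit 11705773098) (nat_lit 1216) (nat_lit 42561973466) (nat_lit 166) (nat_lit 5) (nat_lit 181) (nat_lit 5) (nat_lit 182) (nat_lit 5) (nat_lit 355) (nat_lit 351) (nat_lit 74)) (XT.nd (nat_lit 78) (nat_lit 0) (nat_lit 0) (XT.lf (nat_lit 0) (nat_lit 11108454826) (nat_lit 1140) (nat_lit 48073419490) (nat_lit 1216) (nat_lit 5959898808) (nat_lit 167) (nat_lit 5) (nat_lit 182) (nat_lit 5) (nat_lit 183) (nat_lit 5) (nat_lit 356) (nat_lit 351) (nat_lit 73)) (XT.lf (nat_lit 0) (nat_lit 12699293056) (nat_lit 1140) (nat_lit 19424688067) (nat_lit 1216) (nat_lit 34024611030) (nat_lit 167) (nat_lit 5) (nat_lit 182) (nat_lit 5)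 (nat_lit 183) (nat_lit 5) (nat_lit 357) (nat_lit 351) (nat_lit 72)))) (XT.nd (nat_lit 78) (nat_lit 0) (nat_lit 0) (XT.lf (nat_lit 0) (nat_lit 7997541159) (nat_lit 1140) (nat_lit 31657304658) (nat_lit 1216) (nat_lit 23507020210) (nat_lit 165) (nat_lit 5) (nat_lit 180) (nat_lit 3) (nat_lit 181) (nat_lit 5) (nat_lit 353) (nat_lit 352) (nat_lit 75)) (XT.nd (nat_lit 78) (nat_lit 0) (nat_lit 76) (XT.lf (nat_lit 0) (nat_lit 8406431909) (nat_lit 1140) (nat_lit 4132529584) (nat_lit 1216) (nat_lit 51575692723) (nat_lit 165) (nat_lit 5) (nat_lit 180) (nat_lit 3) (nat_lit 181) (nat_lit 5) (nat_lit 354) (nat_lit 352) (nat_lit 74)) (XT.lf (nat_lit 0) (nat_lit 9214714617) (nat_lit 1140) (nat_lit 40539572264) (nat_lit 1216) (nat_lit 15330126442) (nat_lit 166) (nat_lit 5) (nat_lit 181) (nat_lit 5) (nat_lit 182) (nat_lit 5) (nat_lit 355) (nat_lit 352) (nat_lit 73))))) (XT.nd (nat_lit 40560) (nat_lit 0) (nat_lit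 0) (XT.nd (nat_lit 78) (nat_lit 76) (nat_lit 0) (XT.lf (nat_lit 0) (nat_lit 10212956235) (nat_lit 1140) (nat_lit 12039669377) (nat_lit 1216) (nat_lit 43825669281) (nat_lit 166) (nat_lit 5) (nat_lit 181) (nat_lit 5) (nat_lit 182) (nat_lit 5) (nat_lit 356) (nat_lit 352) (nat_lit 72)) (XT.nd (nat_lit 40404) (nat_lit 152) (nat_lit 0) (XT.lf (nat_lit 0) (nat_lit 11470405437) (nat_lit 1140) (nat_lit 49497488434) (nat_lit 1216) (nat_lit 6127222199) (nat_lit 167) (nat_lit 5) (nat_lit 182) (nat_lit 5) (nat_lit 183) (nat_lit 5) (nat_lit 357) (nat_lit 352) (nat_lit 71)) (XT.lf (nat_lit 0) (nat_lit 8267829328) (nat_lit 1140) (nat_lit 32590655281) (nat_lit 1216) (nat_lit 24197274198) (nat_lit 165) (nat_lit 5) (nat_lit 180) (nat_lit 3) (nat_lit 181) (nat_lit 5) (nat_lit 354) (nat_lit 353) (nat_lit 73)))) (XT.nd (nat_lit 78) (nat_lit 0) (nat_lit 0) (XT.lf (nat_lit 0) (nat_lit 8688102472) (nat_lit 1140) (nat_lit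 4240613707) (nat_lit 1216) (nat_lit 53108442516) (nat_lit 165) (nat_lit 5) (nat_lit 180) (nat_lit 3) (nat_lit 181) (nat_lit 5) (nat_lit 355) (nat_lit 353) (nat_lit 72)) (XT.nd (nat_lit 40560) (nat_lit 76) (nat_lit 0) (XT.lf (nat_lit 0) (nat_lit 9519801061) (nat_lit 1140) (nat_lit 41738985729) (nat_lit 1216) (nat_lit 15777250245) (nat_lit 166) (nat_lit 5) (nat_lit 181) (nat_lit 5) (nat_lit 182) (nat_lit 5) (nat_lit 356) (nat_lit 353) (nat_lit 71)) (XT.lf (nat_lit 0) (nat_lit 8544483243) (nat_lit 1140) (nat_lit 33552946043) (nat_lit 1216) (nat_lit 24909094377) (nat_lit 165) (nat_lit 5) (nat_lit 180) (nat_lit 3) (nat_lit 181) (nat_lit 5) (nat_lit 355) (nat_lit 354) (nat_lit 71))))))))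

set_option maxRecDepth 10000000 in
noncomputable def Tp : PT := (PT.nd (nat_lit 5456646) (PT.nd (nat_lit 4887402) (PT.nd (nat_lit 4359342) (PT.nd (nat_lit 3912480) (PT.nd (nat_lit 3506724) pc0 pc1) (PT.nd (nat_lit 243828) pc2 pc3)) (PT.nd (nat_lit 324324) (PT.nd (nat_lit 162552) pc4 pc5) (PT.nd (nat_lit 121680) pc6 pc7))) (PT.nd (nat_lit 325104) (PT.nd (nat_lit 201786) (PT.nd (nat_lit 81744) pc8 pc9) (PT.nd (nat_lit 42510) pc10 pc11)) (PT.nd (nat_lit 160602) (PT.nd (nat_lit 80496) pc12 pc13) (PT.nd (nat_lit 41808) pc14 pc15)))) (PT.nd (nat_lit 365664) (PT.nd (nat_lit 202800) (PT.nd (nat_lit 120432) (PT.nd (nat_lit 79092) pc16 pc17) (PT.nd (nat_lit 41262) pc18 pc19)) (PT.nd (nat_lit 81744) (PT.nd (nat_lit 40950) pc20 pc21) (PT.nd (nat_lit 40638) pc22 pc23))) (PT.nd (nat_lit 199758) (PT.nd (nat_lit 80496) (PT.nd (nat_lit 40326) pc24 pc25) (PT.nd (nat_lit 41496) pc26 pc27)) (PT.nd (nat_lit 166608)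 (PT.nd (nat_lit 80730) pc28 pc29) (PT.nd (nat_lit 156858) pc30 pc31)))))

set_option maxRecDepth 10000000 in
noncomputable def Tx : XT := (XT.nd (nat_lit 7711938) (nat_lit 0) (nat_lit 152) XT.nil (XT.nd (nat_lit 6701682) (nat_lit 0) (nat_lit 0) (XT.nd (nat_lit 3159624) (nat_lit 0) (nat_lit 532) (XT.nd (nat_lit 2187978) (nat_lit 0) (nat_lit 228) (XT.nd (nat_lit 1503450) (nat_lit 0) (nat_lit 76) (XT.nd (nat_lit 1054794) (nat_lit 0) (nat_lit 76) (XT.nd (nat_lit 730080) (nat_lit 0) (nat_lit 0) (XT.nd (nat_lit 487422) (nat_lit 0) (nat_lit 0) (XT.nd (nat_lit 324948) (nat_lit 0) (nat_lit 0) (XT.nd (nat_lit 203346) (nat_lit 0) (nat_lit 0) xc0 xc1) (XT.nd (nat_lit 81510) (nat_lit 0) (nat_lit 0) xc2 xc3)) (XT.nd (nat_lit 121992) (nat_lit 0) (nat_lit 0) (XT.nd (nat_lit 80262) (nat_lit 0) (nat_lit 0) xc4 xc5) (XT.nd (nat_lit 79326) (nat_lit 0) (nat_lit 0) xc6 xc7))) (XT.nd (nat_lit 163566) (nat_lit 0) (nat_lit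 0) (XT.nd (nat_lit 82056) (nat_lit 0) (nat_lit 0) (XT.nd (nat_lit 41106) (nat_lit 0) (nat_lit 0) xc8 xc9) (XT.nd (nat_lit 40794) (nat_lit 0) (nat_lit 0) xc10 xc11)) (XT.nd (nat_lit 80886) (nat_lit 0) (nat_lit 76) (XT.nd (nat_lit 40482) (nat_lit 0) (nat_lit 0) xc12 xc13) (XT.nd (nat_lit 40170) (nat_lit 0) (nat_lit 0) xc14 xc15)))) (XT.nd (nat_lit 244296) (nat_lit 0) (nat_lit 0) (XT.nd (nat_lit 122850) (nat_lit 0) (nat_lit 0) (XT.nd (nat_lit 79560) (nat_lit 0) (nat_lit 0) (XT.nd (nat_lit 39858) (nat_lit 0) (nat_lit 0) xc16 xc17) (XT.nd (nat_lit 3666) (nat_lit 0) (nat_lit 0) xc18 xc19)) (XT.nd (nat_lit 78624) (nat_lit 0) (nat_lit 0) (XT.nd (nat_lit 39390) (nat_lit 0) (nat_lit 0) xc20 xc21) (XT.nd (nat_lit 3666) (nat_lit 0) (nat_lit 0) xc22 xc23))) (XT.nd (nat_lit 120042) (nat_lit 0) (nat_lit 0) (XT.nd (nat_lit 77688) (nat_lit 0) (nat_lit 0) (XT.nd (nat_lit 38922) (nat_lit 0) (nat_lit 0) xc24 xc25)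 (XT.nd (nat_lit 3666) (nat_lit 152) (nat_lit 0) xc26 xc27)) (XT.nd (nat_lit 42198) (nat_lit 0) (nat_lit 0) (XT.nd (nat_lit 38454) (nat_lit 0) (nat_lit 228) xc28 xc29) (XT.nd (nat_lit 38376) (nat_lit 0) (nat_lit 0) xc30 xc31))))) (XT.nd (nat_lit 364416) (nat_lit 0) (nat_lit 0) (XT.nd (nat_lit 200694) (nat_lit 0) (nat_lit 0) (XT.nd (nat_lit 117936) (nat_lit 0) (nat_lit 0) (XT.nd (nat_lit 76284) (nat_lit 0) (nat_lit 0) (XT.nd (nat_lit 38220) (nat_lit 0) (nat_lit 0) xc32 xc33) (XT.nd (nat_lit 3666) (nat_lit 228) (nat_lit 0) xc34 xc35)) (XT.nd (nat_lit 41418) (nat_lit 0) (nat_lit 0) (XT.nd (nat_lit 3666) (nat_lit 76) (nat_lit 0) xc36 xc37) (XT.nd (nat_lit 37596) (nat_lit 0) (nat_lit 456) xc38 xc39))) (XT.nd (nat_lit 82134) (nat_lit 0) (nat_lit 0) (XT.nd (nat_lit 41106) (nat_lit 0) (nat_lit 0) (XT.nd (nat_lit 37440) (nat_lit 0) (nat_lit 380) xc40 xc41) (XT.nd (nat_lit 37284) (nat_lit 0) (nat_lit 304)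 xc42 xc43)) (XT.nd (nat_lit 40872) (nat_lit 0) (nat_lit 0) (XT.nd (nat_lit 37128) (nat_lit 0) (nat_lit 228) xc44 xc45) (XT.nd (nat_lit 36972) (nat_lit 0) (nat_lit 228) xc46 xc47)))) (XT.nd (nat_lit 161226) (nat_lit 0) (nat_lit 76) (XT.nd (nat_lit 80886) (nat_lit 0) (nat_lit 76) (XT.nd (nat_lit 40482) (nat_lit 0) (nat_lit 0) (XT.nd (nat_lit 36816) (nat_lit 0) (nat_lit 304) xc48 xc49) (XT.nd (nat_lit 36660) (nat_lit 0) (nat_lit 380) xc50 xc51)) (XT.nd (nat_lit 40248) (nat_lit 0) (nat_lit 0) (XT.nd (nat_lit 36504) (nat_lit 0) (nat_lit 380) xc52 xc53) (XT.nd (nat_lit 36348) (nat_lit 0) (nat_lit 608) xc54 xc55))) (XT.nd (nat_lit 79638) (nat_lit 0) (nat_lit 76) (XT.nd (nat_lit 39858) (nat_lit 0) (nat_lit 0) (XT.nd (nat_lit 36192) (nat_lit 0) (nat_lit 912) xc56 xc57) (XT.nd (nat_lit 3666) (nat_lit 76) (nat_lit 0) xc58 xc59)) (XT.nd (nat_lit 39702) (nat_lit 0) (nat_lit 0) (XT.nd (nat_lit 3666) (nat_lit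 76) (nat_lit 0) xc60 xc61) (XT.nd (nat_lit 3666) (nat_lit 228) (nat_lit 0) xc62 xc63)))))) (XT.nd (nat_lit 492414) (nat_lit 0) (nat_lit 76) (XT.nd (nat_lit 248820) (nat_lit 0) (nat_lit 0) (XT.nd (nat_lit 124956) (nat_lit 0) (nat_lit 0) (XT.nd (nat_lit 46722) (nat_lit 0) (nat_lit 0) (XT.nd (nat_lit 39312) (nat_lit 0) (nat_lit 76) (XT.nd (nat_lit 3666) (nat_lit 532) (nat_lit 0) xc64 xc65) (XT.nd (nat_lit 3666) (nat_lit 1140) (nat_lit 0) xc66 xc67)) (XT.nd (nat_lit 39156) (nat_lit 0) (nat_lit 0) (XT.nd (nat_lit 35490) (nat_lit 0) (nat_lit 304) xc68 xc69) (XT.nd (nat_lit 35334) (nat_lit 0) (nat_lit 912) xc70 xc71))) (XT.nd (nat_lit 77766) (nat_lit 0) (nat_lit 0) (XT.nd (nat_lit 38922) (nat_lit 0) (nat_lit 0) (XT.nd (nat_lit 35256) (nat_lit 0) (nat_lit 2052) xc72 xc73) (XT.nd (nat_lit 3666) (nat_lit 304) (nat_lit 0) xc74 xc75)) (XT.nd (nat_lit 38688) (nat_lit 0) (nat_lit 304) (XT.nd (nat_lit 3666)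 (nat_lit 836) (nat_lit 0) xc76 xc77) (XT.nd (nat_lit 3666) (nat_lit 1976) (nat_lit 0) xc78 xc79)))) (XT.nd (nat_lit 122460) (nat_lit 0) (nat_lit 76) (XT.nd (nat_lit 76830) (nat_lit 0) (nat_lit 76) (XT.nd (nat_lit 38454) (nat_lit 0) (nat_lit 76) (XT.nd (nat_lit 34788) (nat_lit 0) (nat_lit 1140) xc80 xc81) (XT.nd (nat_lit 34632) (nat_lit 0) (nat_lit 3268) xc82 xc83)) (XT.nd (nat_lit 38220) (nat_lit 0) (nat_lit 152) (XT.nd (nat_lit 3666) (nat_lit 456) (nat_lit 0) xc84 xc85) (XT.nd (nat_lit 3666) (nat_lit 1672) (nat_lit 0) xc86 xc87))) (XT.nd (nat_lit 75894) (nat_lit 0) (nat_lit 0) (XT.nd (nat_lit 37986) (nat_lit 0) (nat_lit 0) (XT.nd (nat_lit 34320) (nat_lit 0) (nat_lit 1140) xc88 xc89) (XT.nd (nat_lit 34164) (nat_lit 0) (nat_lit 4028) xc90 xc91)) (XT.nd (nat_lit 37830) (nat_lit 0) (nat_lit 304) (XT.nd (nat_lit 3666) (nat_lit 760) (nat_lit 0) xc92 xc93) (XT.nd (nat_lit 3666) (nat_lit 2508) (nat_lit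 0) xc94 xc95))))) (XT.nd (nat_lit 239070) (nat_lit 0) (nat_lit 76) (XT.nd (nat_lit 120042) (nat_lit 0) (nat_lit 76) (XT.nd (nat_lit 75270) (nat_lit 0) (nat_lit 76) (XT.nd (nat_lit 37674) (nat_lit 0) (nat_lit 0) (XT.nd (nat_lit 34008) (nat_lit 0) (nat_lit 1976) xc96 xc97) (XT.nd (nat_lit 3666) (nat_lit 228) (nat_lit 0) xc98 xc99)) (XT.nd (nat_lit 7332) (nat_lit 0) (nat_lit 0) (XT.nd (nat_lit 3666) (nat_lit 1368) (nat_lit 0) xc100 xc101) (XT.nd (nat_lit 33696) (nat_lit 0) (nat_lit 1216) xc102 xc103))) (XT.nd (nat_lit 74412) (nat_lit 0) (nat_lit 0) (XT.nd (nat_lit 37284) (nat_lit 0) (nat_lit 0) (XT.nd (nat_lit 33618) (nat_lit 0) (nat_lit 5548) xc104 xc105) (XT.nd (nat_lit 3666) (nat_lit 1064) (nat_lit 0) xc106 xc107)) (XT.nd (nat_lit 7410) (nat_lit 988) (nat_lit 0) (XT.nd (nat_lit 3666) (nat_lit 4560) (nat_lit 0) xc108 xc109) (XT.nd (nat_lit 33462) (nat_lit 0) (nat_lit 4864) xc110 xc111)))) (XT.nd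 (nat_lit 119574) (nat_lit 0) (nat_lit 152) (XT.nd (nat_lit 44616) (nat_lit 0) (nat_lit 76) (XT.nd (nat_lit 37206) (nat_lit 0) (nat_lit 760) (XT.nd (nat_lit 3666) (nat_lit 912) (nat_lit 0) xc112 xc113) (XT.nd (nat_lit 3666) (nat_lit 3724) (nat_lit 0) xc114 xc115)) (XT.nd (nat_lit 37440) (nat_lit 0) (nat_lit 0) (XT.nd (nat_lit 33696) (nat_lit 0) (nat_lit 3572) xc116 xc117) (XT.nd (nat_lit 3666) (nat_lit 532) (nat_lit 0) xc118 xc119))) (XT.nd (nat_lit 45006) (nat_lit 0) (nat_lit 0) (XT.nd (nat_lit 7332) (nat_lit 228) (nat_lit 0) (XT.nd (nat_lit 3666) (nat_lit 2508) (nat_lit 0) xc120 xc121) (XT.nd (nat_lit 33930) (nat_lit 0) (nat_lit 2128) xc122 xc123)) (XT.nd (nat_lit 37752) (nat_lit 0) (nat_lit 0) (XT.nd (nat_lit 3666) (nat_lit 76) (nat_lit 0) xc124 xc125) (XT.nd (nat_lit 3666) (nat_lit 1368) (nat_lit 0) xc126 xc127))))))) (XT.nd (nat_lit 1063296) (nat_lit 0) (nat_lit 1064) (XT.nd (nat_lit 491088)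 (nat_lit 0) (nat_lit 304) (XT.nd (nat_lit 212628) (nat_lit 0) (nat_lit 76) (XT.nd (nat_lit 90636) (nat_lit 0) (nat_lit 76) (XT.nd (nat_lit 45240) (nat_lit 0) (nat_lit 0) (XT.nd (nat_lit 7332) (nat_lit 912) (nat_lit 0) (XT.nd (nat_lit 3666) (nat_lit 4408) (nat_lit 0) xc128 xc129) (XT.nd (nat_lit 34164) (nat_lit 0) (nat_lit 3724) xc130 xc131)) (XT.nd (nat_lit 37986) (nat_lit 0) (nat_lit 152) (XT.nd (nat_lit 3666) (nat_lit 532) (nat_lit 0) xc132 xc133) (XT.nd (nat_lit 3666) (nat_lit 2128) (nat_lit 0) xc134 xc135))) (XT.nd (nat_lit 76284) (nat_lit 0) (nat_lit 0) (XT.nd (nat_lit 38064) (nat_lit 0) (nat_lit 0) (XT.nd (nat_lit 34398) (nat_lit 0) (nat_lit 1292) xc136 xc137) (XT.nd (nat_lit 34476) (nat_lit 0) (nat_lit 4256) xc138 xc139)) (XT.nd (nat_lit 38298) (nat_lit 0) (nat_lit 152) (XT.nd (nat_lit 3666) (nat_lit 684) (nat_lit 0) xc140 xc141) (XT.nd (nat_lit 3666) (nat_lit 2356) (nat_lit 0) xc142 xc143))))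 (XT.nd (nat_lit 154284) (nat_lit 0) (nat_lit 152) (XT.nd (nat_lit 76908) (nat_lit 0) (nat_lit 152) (XT.nd (nat_lit 38376) (nat_lit 0) (nat_lit 76) (XT.nd (nat_lit 34710) (nat_lit 0) (nat_lit 1140) xc144 xc145) (XT.nd (nat_lit 34788) (nat_lit 0) (nat_lit 3344) xc146 xc147)) (XT.nd (nat_lit 38610) (nat_lit 0) (nat_lit 0) (XT.nd (nat_lit 3666) (nat_lit 304) (nat_lit 0) xc148 xc149) (XT.nd (nat_lit 3666) (nat_lit 1520) (nat_lit 0) xc150 xc151))) (XT.nd (nat_lit 46176) (nat_lit 0) (nat_lit 0) (XT.nd (nat_lit 7332) (nat_lit 380) (nat_lit 0) (XT.nd (nat_lit 3666) (nat_lit 3496) (nat_lit 0) xc152 xc153) (XT.nd (nat_lit 35100) (nat_lit 0) (nat_lit 1672) xc154 xc155)) (XT.nd (nat_lit 38922) (nat_lit 0) (nat_lit 76) (XT.nd (nat_lit 35178) (nat_lit 0) (nat_lit 3876) xc156 xc157) (XT.nd (nat_lit 3666) (nat_lit 304) (nat_lit 0) xc158 xc159))))) (XT.nd (nat_lit 283452) (nat_lit 0) (nat_lit 304) (XT.nd (nat_lit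 125034) (nat_lit 0) (nat_lit 228) (XT.nd (nat_lit 46488) (nat_lit 0) (nat_lit 0) (XT.nd (nat_lit 39078) (nat_lit 0) (nat_lit 228) (XT.nd (nat_lit 3666) (nat_lit 1444) (nat_lit 0) xc160 xc161) (XT.nd (nat_lit 3666) (nat_lit 2964) (nat_lit 0) xc162 xc163)) (XT.nd (nat_lit 39156) (nat_lit 0) (nat_lit 152) (XT.nd (nat_lit 35490) (nat_lit 0) (nat_lit 912) xc164 xc165) (XT.nd (nat_lit 35646) (nat_lit 0) (nat_lit 1824) xc166 xc167))) (XT.nd (nat_lit 78936) (nat_lit 0) (nat_lit 76) (XT.nd (nat_lit 39390) (nat_lit 0) (nat_lit 0) (XT.nd (nat_lit 35724) (nat_lit 0) (nat_lit 3572) xc168 xc169) (XT.nd (nat_lit 3666) (nat_lit 228) (nat_lit 0) xc170 xc171)) (XT.nd (nat_lit 39702) (nat_lit 0) (nat_lit 0) (XT.nd (nat_lit 3666) (nat_lit 760) (nat_lit 0) xc172 xc173) (XT.nd (nat_lit 3666) (nat_lit 1520) (nat_lit 0) xc174 xc175)))) (XT.nd (nat_lit 127296) (nat_lit 0) (nat_lit 228) (XT.nd (nat_lit 47190) (nat_lit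 0) (nat_lit 152) (XT.nd (nat_lit 39780) (nat_lit 0) (nat_lit 304) (XT.nd (nat_lit 3666) (nat_lit 2660) (nat_lit 0) xc176 xc177) (XT.nd (nat_lit 3666) (nat_lit 3724) (nat_lit 0) xc178 xc179)) (XT.nd (nat_lit 40014) (nat_lit 0) (nat_lit 0) (XT.nd (nat_lit 36270) (nat_lit 0) (nat_lit 456) xc180 xc181) (XT.nd (nat_lit 36348) (nat_lit 0) (nat_lit 988) xc182 xc183))) (XT.nd (nat_lit 80496) (nat_lit 0) (nat_lit 76) (XT.nd (nat_lit 40170) (nat_lit 0) (nat_lit 76) (XT.nd (nat_lit 36504) (nat_lit 0) (nat_lit 1292) xc184 xc185) (XT.nd (nat_lit 36582) (nat_lit 0) (nat_lit 1672) xc186 xc187)) (XT.nd (nat_lit 40404) (nat_lit 0) (nat_lit 0) (XT.nd (nat_lit 36660) (nat_lit 0) (nat_lit 2052) xc188 xc189) (XT.nd (nat_lit 36816) (nat_lit 0) (nat_lit 2280) xc190 xc191)))))) (XT.nd (nat_lit 769236) (nat_lit 0) (nat_lit 1672) (XT.nd (nat_lit 362232) (nat_lit 0) (nat_lit 684) (XT.nd (nat_lit 163098) (nat_lit 0) (nat_lit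 304) (XT.nd (nat_lit 81354) (nat_lit 0) (nat_lit 152) (XT.nd (nat_lit 40560) (nat_lit 0) (nat_lit 0) (XT.nd (nat_lit 36894) (nat_lit 0) (nat_lit 2432) xc192 xc193) (XT.nd (nat_lit 37050) (nat_lit 0) (nat_lit 2204) xc194 xc195)) (XT.nd (nat_lit 40794) (nat_lit 0) (nat_lit 0) (XT.nd (nat_lit 37128) (nat_lit 0) (nat_lit 1976) xc196 xc197) (XT.nd (nat_lit 37206) (nat_lit 0) (nat_lit 1520) xc198 xc199))) (XT.nd (nat_lit 82212) (nat_lit 0) (nat_lit 0) (XT.nd (nat_lit 41028) (nat_lit 0) (nat_lit 0) (XT.nd (nat_lit 37362) (nat_lit 0) (nat_lit 1140) xc200 xc201) (XT.nd (nat_lit 37440) (nat_lit 0) (nat_lit 760) xc202 xc203)) (XT.nd (nat_lit 75348) (nat_lit 0) (nat_lit 228) (XT.nd (nat_lit 37596) (nat_lit 0) (nat_lit 152) xc204 xc205) (XT.nd (nat_lit 3666) (nat_lit 4028) (nat_lit 0) xc206 xc207)))) (XT.nd (nat_lit 167310) (nat_lit 0) (nat_lit 380) (XT.nd (nat_lit 83382) (nat_lit 0) (nat_lit 152) (XT.nd (nat_lit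 41574) (nat_lit 0) (nat_lit 152) (XT.nd (nat_lit 3666) (nat_lit 2280) (nat_lit 0) xc208 xc209) (XT.nd (nat_lit 3666) (nat_lit 836) (nat_lit 0) xc210 xc211)) (XT.nd (nat_lit 41886) (nat_lit 0) (nat_lit 228) (XT.nd (nat_lit 38142) (nat_lit 0) (nat_lit 3040) xc212 xc213) (XT.nd (nat_lit 38298) (nat_lit 0) (nat_lit 608) xc214 xc215))) (XT.nd (nat_lit 119262) (nat_lit 0) (nat_lit 380) (XT.nd (nat_lit 76908) (nat_lit 0) (nat_lit 152) (XT.nd (nat_lit 38376) (nat_lit 0) (nat_lit 152) xc216 xc217) (XT.nd (nat_lit 3666) (nat_lit 1824) (nat_lit 0) xc218 xc219)) (XT.nd (nat_lit 42510) (nat_lit 0) (nat_lit 76) (XT.nd (nat_lit 38766) (nat_lit 0) (nat_lit 1824) xc220 xc221) (XT.nd (nat_lit 38844) (nat_lit 0) (nat_lit 152) xc222 xc223))))) (XT.nd (nat_lit 529230) (nat_lit 0) (nat_lit 2584) (XT.nd (nat_lit 243984) (nat_lit 0) (nat_lit 1292) (XT.nd (nat_lit 121446) (nat_lit 0) (nat_lit 532) (XT.nd (nat_lit 42744)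 (nat_lit 0) (nat_lit 228) (XT.nd (nat_lit 3666) (nat_lit 1368) (nat_lit 0) xc224 xc225) (XT.nd (nat_lit 39234) (nat_lit 0) (nat_lit 304) xc226 xc227)) (XT.nd (nat_lit 43134) (nat_lit 0) (nat_lit 228) (XT.nd (nat_lit 3666) (nat_lit 2052) (nat_lit 0) xc228 xc229) (XT.nd (nat_lit 39624) (nat_lit 0) (nat_lit 228) xc230 xc231))) (XT.nd (nat_lit 123630) (nat_lit 0) (nat_lit 304) (XT.nd (nat_lit 43524) (nat_lit 0) (nat_lit 76) (XT.nd (nat_lit 3666) (nat_lit 608) (nat_lit 0) xc232 xc233) (XT.nd (nat_lit 39936) (nat_lit 0) (nat_lit 228) xc234 xc235)) (XT.nd (nat_lit 80574) (nat_lit 0) (nat_lit 608) (XT.nd (nat_lit 40170) (nat_lit 0) (nat_lit 304) xc236 xc237) (XT.nd (nat_lit 40404) (nat_lit 0) (nat_lit 380) xc238 xc239)))) (XT.nd (nat_lit 366678) (nat_lit 0) (nat_lit 2280) (XT.nd (nat_lit 163410) (nat_lit 0) (nat_lit 1064) (XT.nd (nat_lit 81432) (nat_lit 0) (nat_lit 304) (XT.nd (nat_lit 40638) (nat_lit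 0) (nat_lit 304) xc240 xc241) (XT.nd (nat_lit 40872) (nat_lit 0) (nat_lit 380) xc242 xc243)) (XT.nd (nat_lit 82446) (nat_lit 0) (nat_lit 380) (XT.nd (nat_lit 41106) (nat_lit 0) (nat_lit 380) xc244 xc245) (XT.nd (nat_lit 41340) (nat_lit 0) (nat_lit 380) xc246 xc247))) (XT.nd (nat_lit 244764) (nat_lit 0) (nat_lit 2432) (XT.nd (nat_lit 121836) (nat_lit 0) (nat_lit 912) (XT.nd (nat_lit 41730) (nat_lit 0) (nat_lit 456) xc248 xc249) (XT.nd (nat_lit 42042) (nat_lit 0) (nat_lit 456) xc250 xc251)) (XT.nd (nat_lit 202332) (nat_lit 0) (nat_lit 1824) (XT.nd (nat_lit 81276) (nat_lit 0) (nat_lit 684) xc252 xc253) (XT.nd (nat_lit 122148) (nat_lit 0) (nat_lit 0) xc254 xc255)))))))) XT.nil))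

set_option maxRecDepth 10000000 in
noncomputable def Te : XT := XT.nil

set_option maxRecDepth 10000000 in
noncomputable def Tz : ZL := (ZL.cons (nat_lit 76) (nat_lit 6) (nat_lit 187866519862226928838) (ZL.cons (nat_lit 152) (nat_lit 3) (nat_lit 92681202083883696299) (ZL.cons (nat_lit 228) (nat_lit 6) (nat_lit 182942007893172546468) (ZL.cons (nat_lit 304) (nat_lit 6) (nat_lit 180603216129076239606) (ZL.cons (nat_lit 380) (nat_lit 3) (nat_lit 90263623729873985653) (ZL.cons (nat_lit 456) (nat_lit 6) (nat_lit 178194260612057043540) (ZL.cons (nat_lit 532) (nat_lit 6) (nat_lit 175941008817902751688) (ZL.cons (nat_lit 608) (nat_lit 3) (nat_lit 87933626414131828123) (ZL.cons (nat_lit 684) (nat_lit 6) (nat_lit 173620159469923831076) (ZL.cons (nat_lit 760) (nat_lit 6) (nat_lit 171451017057404067214) (ZL.cons (nat_lit 836) (nat_lit 3) (nat_lit 85689704650236453296) (ZL.cons (nat_lit 912) (nat_lit 6) (nat_lit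 169216800372508710436) (ZL.cons (nat_lit 988) (nat_lit 6) (nat_lit 167130443027744671946) (ZL.cons (nat_lit 1064) (nat_lit 3) (nat_lit 83530460466818374507) (ZL.cons (nat_lit 1140) (nat_lit 6) (nat_lit 165118514235491191480) (ZL.cons (nat_lit 1216) (nat_lit 6) (nat_lit 164981494962637712304) (ZL.cons (nat_lit 1292) (nat_lit 6) (nat_lit 162976705485362183670) (ZL.cons (nat_lit 1368) (nat_lit 3) (nat_lit 81454604153308313713) (ZL.cons (nat_lit 1444) (nat_lit 6) (nat_lit 161044800744014485468) (ZL.cons (nat_lit 1520) (nat_lit 6) (nat_lit 160911772323768389178) (ZL.cons (nat_lit 1596) (nat_lit 6) (nat_lit 158987441681680800076) (ZL.cons (nat_lit 1672) (nat_lit 3) (nat_lit 79460955220090130015) (ZL.cons (nat_lit 1748) (nat_lit 6) (nat_lit 157134534926394754456) (ZL.cons (nat_lit 1824) (nat_lit 6) (nat_lit 157005381120330583298) (ZL.cons (nat_lit 1900) (nat_lit 6) (nat_lit 155160509726949587420) (ZL.cons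 (nat_lit 1976) (nat_lit 3) (nat_lit 77548443581192978154) (ZL.cons (nat_lit 2052) (nat_lit 6) (nat_lit 153385684236489657934) (ZL.cons (nat_lit 2128) (nat_lit 6) (nat_lit 153260292191767161666) (ZL.cons (nat_lit 2204) (nat_lit 6) (nat_lit 151679353830561072568) (ZL.cons (nat_lit 2280) (nat_lit 6) (nat_lit 151493991416752299450) (ZL.cons (nat_lit 2356) (nat_lit 3) (nat_lit 75716110968296717147) (ZL.cons (nat_lit 2432) (nat_lit 6) (nat_lit 149796441467732133376) (ZL.cons (nat_lit 2508) (nat_lit 6) (nat_lit 149674701618486991370) (ZL.cons (nat_lit 2584) (nat_lit 6) (nat_lit 148166159048634704074) (ZL.cons (nat_lit 2660) (nat_lit 6) (nat_lit 147986195540082497164) (ZL.cons (nat_lit 2736) (nat_lit 3) (nat_lit 73963112585498110157) (ZL.cons (nat_lit 2812) (nat_lit 6) (nat_lit 146365228307719209886) (ZL.cons (nat_lit 2888) (nat_lit 6) (nat_lit 146247034279325868132) (ZL.cons (nat_lit 2964) (nat_lit 6)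 (nat_lit 144810383542262054820) (ZL.cons (nat_lit 3040) (nat_lit 6) (nat_lit 144635661689298747140) (ZL.cons (nat_lit 3116) (nat_lit 3) (nat_lit 72288719014995841118) (ZL.cons (nat_lit 3192) (nat_lit 6) (nat_lit 143320302641488787850) (ZL.cons (nat_lit 3268) (nat_lit 6) (nat_lit 143090699405447843348) (ZL.cons (nat_lit 3344) (nat_lit 6) (nat_lit 142975947921570812518) (ZL.cons (nat_lit 3420) (nat_lit 6) (nat_lit 141610797460729015190) (ZL.cons (nat_lit 3496) (nat_lit 6) (nat_lit 141441164593774347538) (ZL.cons (nat_lit 3572) (nat_lit 3) (nat_lit 70692318384602190806) (ZL.cons (nat_lit 3648) (nat_lit 6) (nat_lit 140194662736938139420) (ZL.cons (nat_lit 3724) (nat_lit 6) (nat_lit 139971746973791591358) (ZL.cons (nat_lit 3800) (nat_lit 6) (nat_lit 139860337766143988610) (ZL.cons (nat_lit 3876) (nat_lit 6) (nat_lit 138841057834802000704) (ZL.cons (nat_lit 3952) (nat_lit 6) (nat_lit 138566411104478869722)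 (ZL.cons (nat_lit 4028) (nat_lit 6) (nat_lit 138401719000639386564) (ZL.cons (nat_lit 4104) (nat_lit 3) (nat_lit 69173418808780874871) (ZL.cons (nat_lit 4180) (nat_lit 6) (nat_lit 137223929022455229766) (ZL.cons (nat_lit 4256) (nat_lit 6) (nat_lit 137007505951439163688) (ZL.cons (nat_lit 4332) (nat_lit 6) (nat_lit 136899341672169646456) (ZL.cons (nat_lit 4408) (nat_lit 6) (nat_lit 135943127685124728506) (ZL.cons (nat_lit 4484) (nat_lit 6) (nat_lit 135676480374131397456) (ZL.cons (nat_lit 4560) (nat_lit 6) (nat_lit 135516585127685297304) (ZL.cons (nat_lit 4636) (nat_lit 3) (nat_lit 67731651115746708447) (ZL.cons (nat_lit 4712) (nat_lit 6) (nat_lit 134722887945687756764) (ZL.cons (nat_lit 4788) (nat_lit 6) (nat_lit 134407479236658246130) (ZL.cons (nat_lit 4864) (nat_lit 6) (nat_lit 134197359750234881006) (ZL.cons (nat_lit 4940) (nat_lit 6) (nat_lit 134092345886866417676) (ZL.cons (nat_lit 5016)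 (nat_lit 6) (nat_lit 133199393703074344820) (ZL.cons (nat_lit 5092) (nat_lit 6) (nat_lit 132940512818614800112) (ZL.cons (nat_lit 5168) (nat_lit 6) (nat_lit 132785274715269071810) (ZL.cons (nat_lit 5244) (nat_lit 3) (nat_lit 66366771874046244445) (ZL.cons (nat_lit 5320) (nat_lit 6) (nat_lit 132051168164661027984) (ZL.cons (nat_lit 5396) (nat_lit 6) (nat_lit 131744946117059561348) (ZL.cons (nat_lit 5472) (nat_lit 6) (nat_lit 131540946615677653462) (ZL.cons (nat_lit 5548) (nat_lit 6) (nat_lit 131438991408523805570) (ZL.cons (nat_lit 5624) (nat_lit 6) (nat_lit 130961799317549779132) (ZL.cons (nat_lit 5700) (nat_lit 6) (nat_lit 130609614975635766934) (ZL.cons (nat_lit 5776) (nat_lit 6) (nat_lit 130358274311111937120) (ZL.cons (nat_lit 5852) (nat_lit 6) (nat_lit 130207557705921909644) (ZL.cons (nat_lit 5928) (nat_lit 3) (nat_lit 65078666732972322336) (ZL.cons (nat_lit 6004) (nat_lit 6) (nat_lit 129533527357423726176)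 (ZL.cons (nat_lit 6080) (nat_lit 6) (nat_lit 129236224398587350800) (ZL.cons (nat_lit 6156) (nat_lit 6) (nat_lit 129038166630255401396) (ZL.cons (nat_lit 6232) (nat_lit 6) (nat_lit 128939180992241956840) (ZL.cons (nat_lit 6308) (nat_lit 6) (nat_lit 128515742991689079034) (ZL.cons (nat_lit 6384) (nat_lit 6) (nat_lit 128173816446141494380) (ZL.cons (nat_lit 6460) (nat_lit 6) (nat_lit 127929796383496999414) (ZL.cons (nat_lit 6536) (nat_lit 6) (nat_lit 127783469582341632930) (ZL.cons (nat_lit 6612) (nat_lit 3) (nat_lit 63867354092152726673) (ZL.cons (nat_lit 6688) (nat_lit 6) (nat_lit 127555372552287008832) (ZL.cons (nat_lit 6764) (nat_lit 6) (nat_lit 127170122136146017106) (ZL.cons (nat_lit 6840) (nat_lit 6) (nat_lit 126881478486790312862) (ZL.cons (nat_lit 6916) (nat_lit 6) (nat_lit 126689189391322400816) (ZL.cons (nat_lit 6992) (nat_lit 6) (nat_lit 126593086830144299304) (ZL.cons (nat_lit 7068)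 (nat_lit 6) (nat_lit 126224264454155291866) (ZL.cons (nat_lit 7144) (nat_lit 6) (nat_lit 125892296934206180550) (ZL.cons (nat_lit 7220) (nat_lit 6) (nat_lit 125655384252027059226) (ZL.cons (nat_lit 7296) (nat_lit 6) (nat_lit 125513319396536412152) (ZL.cons (nat_lit 7372) (nat_lit 3) (nat_lit 62732989116697245112) (ZL.cons (nat_lit 7448) (nat_lit 6) (nat_lit 125335416922583113172) (ZL.cons (nat_lit 7524) (nat_lit 6) (nat_lit 124961387392349140624) (ZL.cons (nat_lit 7600) (nat_lit 6) (nat_lit 124681150839576612228) (ZL.cons (nat_lit 7676) (nat_lit 6) (nat_lit 124494462397374755876) (ZL.cons (nat_lit 7752) (nat_lit 6) (nat_lit 124401158939920288386) (ZL.cons (nat_lit 7828) (nat_lit 6) (nat_lit 124502802878537816010) (ZL.cons (nat_lit 7904) (nat_lit 6) (nat_lit 124087936445114657800) (ZL.cons (nat_lit 7980) (nat_lit 6) (nat_lit 123765637882057268172) (ZL.cons (nat_lit 8056) (nat_lit 6) (nat_lit 123535625569262004748)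 (ZL.cons (nat_lit 8132) (nat_lit 6) (nat_lit 123397698525096327980) (ZL.cons (nat_lit 8208) (nat_lit 3) (nat_lit 61675868115391891209) (ZL.cons (nat_lit 8284) (nat_lit 6) (nat_lit 123725694795184797698) (ZL.cons (nat_lit 8360) (nat_lit 6) (nat_lit 123271180882937187386) (ZL.cons (nat_lit 8436) (nat_lit 6) (nat_lit 122908045416690612096) (ZL.cons (nat_lit 8512) (nat_lit 6) (nat_lit 122635971093610487440) (ZL.cons (nat_lit 8588) (nat_lit 6) (nat_lit 122454720178851403600) (ZL.cons (nat_lit 8664) (nat_lit 6) (nat_lit 122364134297827648760) (ZL.cons (nat_lit 8740) (nat_lit 6) (nat_lit 122510407035908030626) (ZL.cons (nat_lit 8816) (nat_lit 6) (nat_lit 122107624090837003234) (ZL.cons (nat_lit 8892) (nat_lit 6) (nat_lit 121794712864567692916) (ZL.cons (nat_lit 8968) (nat_lit 6) (nat_lit 121571399939523747844) (ZL.cons (nat_lit 9044) (nat_lit 6) (nat_lit 121437490187906585932) (ZL.cons (nat_lit 9120)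 (nat_lit 3) (nat_lit 60696433300597688327) (ZL.cons (nat_lit 9196) (nat_lit 6) (nat_lit 121804950150180268830) (ZL.cons (nat_lit 9272) (nat_lit 6) (nat_lit 121363674507221423868) (ZL.cons (nat_lit 9348) (nat_lit 6) (nat_lit 121011115802127661448) (ZL.cons (nat_lit 9424) (nat_lit 6) (nat_lit 120746965973894530714) (ZL.cons (nat_lit 9500) (nat_lit 6) (nat_lit 120570994211992507570) (ZL.cons (nat_lit 9576) (nat_lit 6) (nat_lit 120483046754687891220) (ZL.cons (nat_lit 9652) (nat_lit 6) (nat_lit 121154193807115887458) (ZL.cons (nat_lit 9728) (nat_lit 6) (nat_lit 120675546612809646794) (ZL.cons (nat_lit 9804) (nat_lit 6) (nat_lit 120284495209828066804) (ZL.cons (nat_lit 9880) (nat_lit 6) (nat_lit 119980697902770483968) (ZL.cons (nat_lit 9956) (nat_lit 6) (nat_lit 119763889237679275162) (ZL.cons (nat_lit 10032) (nat_lit 6) (nat_lit 119633879770089797580) (ZL.cons (nat_lit 10108) (nat_lit 3) (nat_lit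 59795277949748195254) (ZL.cons (nat_lit 10184) (nat_lit 6) (nat_lit 120557569384667548696) (ZL.cons (nat_lit 10260) (nat_lit 6) (nat_lit 120042639130800729680) (ZL.cons (nat_lit 10336) (nat_lit 6) (nat_lit 119614216176471753988) (ZL.cons (nat_lit 10412) (nat_lit 6) (nat_lit 119271926171526353582) (ZL.cons (nat_lit 10488) (nat_lit 6) (nat_lit 119015470027610692674) (ZL.cons (nat_lit 10564) (nat_lit 6) (nat_lit 118844623656832029430) (ZL.cons (nat_lit 10640) (nat_lit 6) (nat_lit 118759237775953761126) (ZL.cons (nat_lit 10716) (nat_lit 6) (nat_lit 120014555560524375358) (ZL.cons (nat_lit 10792) (nat_lit 6) (nat_lit 119464399035239519108) (ZL.cons (nat_lit 10868) (nat_lit 6) (nat_lit 118999693021349965064) (ZL.cons (nat_lit 10944) (nat_lit 6) (nat_lit 118620031465057168956) (ZL.cons (nat_lit 11020) (nat_lit 6) (nat_lit 118325082623253690478) (ZL.cons (nat_lit 11096) (nat_lit 6) (nat_lit 118114588773650575132)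 (ZL.cons (nat_lit 11172) (nat_lit 6) (nat_lit 117988365989583121166) (ZL.cons (nat_lit 11248) (nat_lit 3) (nat_lit 58973151989649129967) (ZL.cons (nat_lit 11400) (nat_lit 6) (nat_lit 118940321067790087802) (ZL.cons (nat_lit 11476) (nat_lit 6) (nat_lit 118440388782482496524) (ZL.cons (nat_lit 11552) (nat_lit 6) (nat_lit 118024444166629122064) (ZL.cons (nat_lit 11628) (nat_lit 6) (nat_lit 117692123773478247884) (ZL.cons (nat_lit 11704) (nat_lit 6) (nat_lit 117443137225987314968) (ZL.cons (nat_lit 11780) (nat_lit 6) (nat_lit 117277266963095408900) (ZL.cons (nat_lit 11856) (nat_lit 6) (nat_lit 117194368049621362006) (ZL.cons (nat_lit 11932) (nat_lit 6) (nat_lit 118469947296247868300) (ZL.cons (nat_lit 12008) (nat_lit 6) (nat_lit 117935814747427619514) (ZL.cons (nat_lit 12084) (nat_lit 6) (nat_lit 117484643860156207820) (ZL.cons (nat_lit 12160) (nat_lit 6) (nat_lit 117116040407444755288) (ZL.cons (nat_lit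 12236) (nat_lit 6) (nat_lit 116829682308606426670) (ZL.cons (nat_lit 12312) (nat_lit 6) (nat_lit 116625319347826703032) (ZL.cons (nat_lit 12388) (nat_lit 6) (nat_lit 116502772955528204036) (ZL.cons (nat_lit 12464) (nat_lit 3) (nat_lit 58230968026169509187) (ZL.cons (nat_lit 12540) (nat_lit 6) (nat_lit 116600694684562950272) (ZL.cons (nat_lit 12616) (nat_lit 6) (nat_lit 116652354546737245160) (ZL.cons (nat_lit 12692) (nat_lit 6) (nat_lit 116755719410771229948) (ZL.cons (nat_lit 12768) (nat_lit 6) (nat_lit 116910879595478138218) (ZL.cons (nat_lit 12844) (nat_lit 6) (nat_lit 117117970677718393482) (ZL.cons (nat_lit 12920) (nat_lit 6) (nat_lit 117377173610864827030) (ZL.cons (nat_lit 12996) (nat_lit 6) (nat_lit 117688714882917275552) (ZL.cons (nat_lit 13072) (nat_lit 6) (nat_lit 118052866714404716914) (ZL.cons (nat_lit 13148) (nat_lit 6) (nat_lit 117485530026251790934) (ZL.cons (nat_lit 13224) (nat_lit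 6) (nat_lit 117000158875467721732) (ZL.cons (nat_lit 13300) (nat_lit 6) (nat_lit 116596329151338231966) (ZL.cons (nat_lit 13376) (nat_lit 6) (nat_lit 116273687992939324996) (ZL.cons (nat_lit 13452) (nat_lit 6) (nat_lit 116031953480812205656) (ZL.cons (nat_lit 13528) (nat_lit 6) (nat_lit 115870914390625889090) (ZL.cons (nat_lit 13604) (nat_lit 6) (nat_lit 115790430008612251326) (ZL.cons (nat_lit 13680) (nat_lit 3) (nat_lit 57900137579438091228) (ZL.cons (nat_lit 13756) (nat_lit 6) (nat_lit 115826486813082844396) (ZL.cons (nat_lit 13832) (nat_lit 6) (nat_lit 115905144679090001078) (ZL.cons (nat_lit 13908) (nat_lit 6) (nat_lit 116036317487071833516) (ZL.cons (nat_lit 13984) (nat_lit 6) (nat_lit 116220119854045024868) (ZL.cons (nat_lit 14060) (nat_lit 6) (nat_lit 116456712384019551702) (ZL.cons (nat_lit 14136) (nat_lit 6) (nat_lit 116746301808332284968) (ZL.cons (nat_lit 14212) (nat_lit 6) (nat_lit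 117089141166286022202) (ZL.cons (nat_lit 14288) (nat_lit 6) (nat_lit 116570565876169275806) (ZL.cons (nat_lit 14364) (nat_lit 6) (nat_lit 116132535888527128532) (ZL.cons (nat_lit 14440) (nat_lit 6) (nat_lit 115774668458710184328) (ZL.cons (nat_lit 14516) (nat_lit 6) (nat_lit 115496650887022486636) (ZL.cons (nat_lit 14592) (nat_lit 6) (nat_lit 115298240245488774368) (ZL.cons (nat_lit 14668) (nat_lit 6) (nat_lit 115179263165587319034) (ZL.cons (nat_lit 14744) (nat_lit 3) (nat_lit 57569807843381433466) (ZL.cons (nat_lit 14820) (nat_lit 6) (nat_lit 115074828685432256164) (ZL.cons (nat_lit 14896) (nat_lit 6) (nat_lit 115128038343471779898) (ZL.cons (nat_lit 14972) (nat_lit 6) (nat_lit 115234504153426784230) (ZL.cons (nat_lit 15048) (nat_lit 6) (nat_lit 115394319143674899750) (ZL.cons (nat_lit 15124) (nat_lit 6) (nat_lit 115607622958382362672) (ZL.cons (nat_lit 15200) (nat_lit 6) (nat_lit 115874601979523189224)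 (ZL.cons (nat_lit 15276) (nat_lit 6) (nat_lit 116195489489737211202) (ZL.cons (nat_lit 15352) (nat_lit 6) (nat_lit 115724255362762386734) (ZL.cons (nat_lit 15428) (nat_lit 6) (nat_lit 115332187669432785022) (ZL.cons (nat_lit 15504) (nat_lit 6) (nat_lit 115018943826327050096) (ZL.cons (nat_lit 15580) (nat_lit 6) (nat_lit 114784250125232759476) (ZL.cons (nat_lit 15656) (nat_lit 6) (nat_lit 114627901493983908440) (ZL.cons (nat_lit 15732) (nat_lit 6) (nat_lit 114549761317271638768) (ZL.cons (nat_lit 15808) (nat_lit 3) (nat_lit 57198361687565125900) (ZL.cons (nat_lit 15884) (nat_lit 6) (nat_lit 114423721378963113594) (ZL.cons (nat_lit 15960) (nat_lit 6) (nat_lit 114504738980950484978) (ZL.cons (nat_lit 16036) (nat_lit 6) (nat_lit 114639846973171772392) (ZL.cons (nat_lit 16112) (nat_lit 6) (nat_lit 114829163411154159482) (ZL.cons (nat_lit 16188) (nat_lit 6) (nat_lit 115072853717027922122) (ZL.cons (nat_lit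 16264) (nat_lit 6) (nat_lit 115371130824070037386) (ZL.cons (nat_lit 16340) (nat_lit 6) (nat_lit 114945858991407758480) (ZL.cons (nat_lit 16416) (nat_lit 6) (nat_lit 114598414884789366046) (ZL.cons (nat_lit 16492) (nat_lit 6) (nat_lit 114328494912277038192) (ZL.cons (nat_lit 16568) (nat_lit 6) (nat_lit 114135863221467608804) (ZL.cons (nat_lit 16644) (nat_lit 6) (nat_lit 114020351493407943430) (ZL.cons (nat_lit 16720) (nat_lit 3) (nat_lit 56990929397760062930) (ZL.cons (nat_lit 16796) (nat_lit 6) (nat_lit 113791578362973654792) (ZL.cons (nat_lit 16872) (nat_lit 6) (nat_lit 113846384310754364236) (ZL.cons (nat_lit 16948) (nat_lit 6) (nat_lit 113956044095008018702) (ZL.cons (nat_lit 17024) (nat_lit 6) (nat_lit 114120653534963577686) (ZL.cons (nat_lit 17100) (nat_lit 6) (nat_lit 114340356464112264494) (ZL.cons (nat_lit 17176) (nat_lit 6) (nat_lit 114615344855887315846) (ZL.cons (nat_lit 17252) (nat_lit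 6) (nat_lit 114234696609936246218) (ZL.cons (nat_lit 17328) (nat_lit 6) (nat_lit 113930576373911260856) (ZL.cons (nat_lit 17404) (nat_lit 6) (nat_lit 113702718411683794234) (ZL.cons (nat_lit 17480) (nat_lit 6) (nat_lit 113550923624063550508) (ZL.cons (nat_lit 17556) (nat_lit 6) (nat_lit 113475059374828337236) (ZL.cons (nat_lit 17632) (nat_lit 3) (nat_lit 56615528468764133531) (ZL.cons (nat_lit 17708) (nat_lit 6) (nat_lit 113258864881476114712) (ZL.cons (nat_lit 17784) (nat_lit 6) (nat_lit 113342313011523107238) (ZL.cons (nat_lit 17860) (nat_lit 6) (nat_lit 113481474243511033274) (ZL.cons (nat_lit 17936) (nat_lit 6) (nat_lit 113676470174632891976) (ZL.cons (nat_lit 18012) (nat_lit 6) (nat_lit 113927471189682867496) (ZL.cons (nat_lit 18088) (nat_lit 6) (nat_lit 113590146814325204940) (ZL.cons (nat_lit 18164) (nat_lit 6) (nat_lit 113328088588585080810) (ZL.cons (nat_lit 18240) (nat_lit 6) (nat_lit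 113141067529546799850) (ZL.cons (nat_lit 18316) (nat_lit 6) (nat_lit 113028920220751008226) (ZL.cons (nat_lit 18392) (nat_lit 3) (nat_lit 56495774334701806262) (ZL.cons (nat_lit 18468) (nat_lit 6) (nat_lit 112741667326624134054) (ZL.cons (nat_lit 18544) (nat_lit 6) (nat_lit 112798117452838264786) (ZL.cons (nat_lit 18620) (nat_lit 6) (nat_lit 112911067030619528882) (ZL.cons (nat_lit 18696) (nat_lit 6) (nat_lit 113080614753773754636) (ZL.cons (nat_lit 18772) (nat_lit 6) (nat_lit 113306908770796902050) (ZL.cons (nat_lit 18848) (nat_lit 6) (nat_lit 113011646405724100726) (ZL.cons (nat_lit 18924) (nat_lit 6) (nat_lit 112790425083173162258) (ZL.cons (nat_lit 19000) (nat_lit 6) (nat_lit 112643051502959333400) (ZL.cons (nat_lit 19076) (nat_lit 6) (nat_lit 112569396892051359346) (ZL.cons (nat_lit 19152) (nat_lit 3) (nat_lit 56147169863002431139) (ZL.cons (nat_lit 19228) (nat_lit 6) (nat_lit 112322981908271145360)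 (ZL.cons (nat_lit 19304) (nat_lit 6) (nat_lit 112408933482219547662) (ZL.cons (nat_lit 19380) (nat_lit 6) (nat_lit 112552269551167111476) (ZL.cons (nat_lit 19456) (nat_lit 6) (nat_lit 112753115360222625942) (ZL.cons (nat_lit 19532) (nat_lit 6) (nat_lit 112498689898339010280) (ZL.cons (nat_lit 19608) (nat_lit 6) (nat_lit 112317116054612523914) (ZL.cons (nat_lit 19684) (nat_lit 6) (nat_lit 112208235172286512626) (ZL.cons (nat_lit 19760) (nat_lit 3) (nat_lit 56085976056362967137) (ZL.cons (nat_lit 19836) (nat_lit 6) (nat_lit 111916491210841059246) (ZL.cons (nat_lit 19912) (nat_lit 6) (nat_lit 111974634840841613898) (ZL.cons (nat_lit 19988) (nat_lit 6) (nat_lit 112090972905956315918) (ZL.cons (nat_lit 20064) (nat_lit 6) (nat_lit 112265607060805168444) (ZL.cons (nat_lit 20140) (nat_lit 6) (nat_lit 112050829077746004884) (ZL.cons (nat_lit 20216) (nat_lit 6) (nat_lit 111907747931907336088) (ZL.cons (nat_lit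 20292) (nat_lit 6) (nat_lit 111836238600928720502) (ZL.cons (nat_lit 20368) (nat_lit 3) (nat_lit 55789145087250854158) (ZL.cons (nat_lit 20444) (nat_lit 6) (nat_lit 111607791622235979886) (ZL.cons (nat_lit 20520) (nat_lit 6) (nat_lit 111696321743402834256) (ZL.cons (nat_lit 20596) (nat_lit 6) (nat_lit 111843957894418824988) (ZL.cons (nat_lit 20672) (nat_lit 6) (nat_lit 111667672609247478998) (ZL.cons (nat_lit 20748) (nat_lit 6) (nat_lit 111561963014756205904) (ZL.cons (nat_lit 20824) (nat_lit 3) (nat_lit 55763368371669084335) (ZL.cons (nat_lit 20900) (nat_lit 6) (nat_lit 111308083283784446526) (ZL.cons (nat_lit 20976) (nat_lit 6) (nat_lit 111367971222685017814) (ZL.cons (nat_lit 21052) (nat_lit 6) (nat_lit 111487799429753160896) (ZL.cons (nat_lit 21128) (nat_lit 6) (nat_lit 111348885695929210608) (ZL.cons (nat_lit 21204) (nat_lit 6) (nat_lit 111279459160998515866) (ZL.cons (nat_lit 21280) (nat_lit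 3) (nat_lit 55537623972207290219) (ZL.cons (nat_lit 21356) (nat_lit 6) (nat_lit 111105634435580880156) (ZL.cons (nat_lit 21432) (nat_lit 6) (nat_lit 111196820460382740156) (ZL.cons (nat_lit 21508) (nat_lit 6) (nat_lit 111094189786119368220) (ZL.cons (nat_lit 21584) (nat_lit 3) (nat_lit 55529994761303355356) (ZL.cons (nat_lit 21660) (nat_lit 6) (nat_lit 110909082155771592420) (ZL.cons (nat_lit 21736) (nat_lit 6) (nat_lit 110970766732839180850) (ZL.cons (nat_lit 21812) (nat_lit 6) (nat_lit 110903362329993846148) (ZL.cons (nat_lit 21888) (nat_lit 3) (nat_lit 55389071319273320818) (ZL.cons (nat_lit 21964) (nat_lit 6) (nat_lit 110809440724447930348) (ZL.cons (nat_lit 22040) (nat_lit 3) (nat_lit 55388118292557626577) (ZL.cons (nat_lit 22116) (nat_lit 6) (nat_lit 110712701470735637072) (ZL.cons (nat_lit 22192) (nat_lit 1) (nat_lit 18446744073709551617) ZL.nil)))))))))))))))))))))))))))))))))))))))))))))))))))))))))))))))))))))))))))))))))))))))))))))))))))))))))))))))))))))))))))))))))))))))))))))))))))))))))))))))))))))))))))))))))))))))))))))))))))))))))))))))))))))))))))))))))))))))))))))))))))))))))))))))))))))))))))))))))))))))))))))))))))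

noncomputable def vl : XL := ⟨(nat_lit 0), (nat_lit 76), (nat_lit 100016341), (nat_lit 152), (nat_lit 438399578), (nat_lit 76), (nat_lit 100016341), (nat_lit 1), (nat_lit 5), (nat_lit 2), (nat_lit 4), (nat_lit 1), (nat_lit 4), (nat_lit 0), (nat_lit 0), (nat_lit 0)⟩

noncomputable def cp0 : Nat := (nat_lit 793603817828748795276172070223069511147603620470819180772737862296798658041495120603110635580974928603593648793300374018879812666176148295712910303724717191624075782877737765207574002647939825931323928747625636379666362882472779035546840682759995422871576757529739079975537237640382796650452798728987102351530888384312034522466257235563328924230025028278829890968330569683740351362524007200054699081869993683112606943790673590890813772355355874051316520595379010223981603392836491941323969848777620034461674908901587996886812501911904009272924036793533219637646639034476030444637504200355153659917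857867818324640936600487913449381032213708820390260592777804721026470664520554507662223729690583166139609087223093538696953175473028870702533862862498275293811019341374164416345975616375221550835499023293576175545715351446176820111064857746103001337657869148452899224334186406120472219248067948564882197115587074185504214124684713134747809586997199427201584675649202293346944246950753138275804494532730449446920329481454523577804795770760385036197168695879762541670243425428465816281807304398637632575564099264214358780608861829135313511030896402548660349105675742057531682537614445228039208447144056894116859100136295135559616275205874574571635030174129858819352451997136409268949794777459825946263143185594729897946221060313683738580539242073234534976610171642981003951068190585284220175235345839201502098052000495815220161526940188824606303294861827694268849854591404840394377758370459483388861769978508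759636927892409767540273355684504500555802304619577673683497168032915000581516185719030749253289045215375343448610594096664673029117883124205633577146236737957841785511604061702610965206741920196257233204786117626230746825567016115589450736694489833984616398012082312771909410252034755470963749709421041153927247684553547376680449473613879866858502457357966223193012343940751278070017197761312994252626836068890989378659484296940205066953686097800928739827456521317576621689565991670984466646984365518028462233366811048731744671693657546095229178569423815738156472055557952879310312881090669273181291910400090948520662226567378701180544300116081550557199667383373079072067694706975819039788097770026655196939992314687836489613122281143457500330233772254697417711668634894519582655913334636965841354964211697699718871055769014063740883097005880711297252239009615670757481905819085798225480192770192266274270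241969350223046634907122692690299171068842113578793624027412158313018283591705682100226911835394330921304617261817628180741438889218953312037334097673657289928166106797946069699437668032407683896869589098432542226654981817311466271968084871519001679281770911311532874432024638388122716200174865671307180511183807786110550403317928804696647646252651795526717790434889182156311744225176474795399648184063336101537510442419088547718088345560392946771665170381889047854348887206508769834414914094183866117150304931632297850060272612294288466534426890769065412498150719563157022842617121479082617965733520232329168839053305179830211758384955946151070141596740290669669962948530898994248850339453399511708251898744179081109700701320354297921503214452996461682509164711476143863830696726230671769773170355147598318942709993357559614485162066936983752243138714483029997192768215279557131434770521997478590377584487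222292674245300286839094251961746282297066077537686501685203939058590376872550952760660232251668569339889276237622108224839843456645429158390505340014666177907375331285041173470633648300577938109671129285356414406270591507323148969166370770992606874299835289187996661522744479892222643104654808246823875135272458273901273160866300692521035272055019974975664574519101617717263421545173543173877800318328858887773541925351366332171262770477756767961685736330270553673278849120780245248042813155741326862119016105239357514128327098063970074695406897618769086398356734251618328847417431108037118027012812124337532664494001919556446948441552003071151249913068072459293167112251251529579096509897965031306821838819927000801704888384006235966824429866863680029853117934486425776823928458050984585899247336331232130261396403125623554502596192967032787945672179694595866943506164432284028879049109070071018658042955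837430983911920276579463091214981231303070276986509588306906870386319960152777005330324314134562968128789546743858762289076730726085209192311978937518352995263344456866266268710069197912336773539323244635141118779344970891550971523516690616554259182422462549886638542317637221322319311878975654584111722224592175386354974802818083100904283659852107358225307148323846378855525603820763973847490165973987530541225152112631839719691049134559921262133870595738076049628549177093950971905643594824610925546814326317664040185141114198805365897112186728645643228082442943049199836735867564495187968010303353696583644797721671315155709813270156410871990714076360134812326914408370707727041591973486327141036152240392151584454663260505623671610551290838828021874330770965853440861748777024345673930187363695711266881501172474172715416456038309627336541659762951650433612962360715115798055757029835100146933368498313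053688598436122243418141587499280196851418271426309508172786196277091685885440240435642756461330341794834962736431973658094062841596569678212808129564067546728817077440039718671833103152078389817774624830244091803310995568904994949202410209974263031975100951850645049984171892761013522322785200217493932656600413336485434291790931658892540766524437017150847725285909621814403809444297560968354673565103840041417446742496784882299292331546784927242691059995127030383453043617854321419480714058513012267415063875176855257256404402505110047057469530775313408035495276460855337252090398825139800445221584207987308479018221249023977520599963153717489285943098902680596581920898908454183533278631650726762402837517267324165059869631602037230173960084769254353542625048588103604572945734884927689885950952879600555555618646925286826338973582428147961340661505207757167749986003698005047494145330185698922195125794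076378735268914748986607315480540521034243030064589471191411781678065648730670415553012892563654097030776044335710898034210063778100596841615727757072830331182798106437990816217765245477818886034350657097780558103771793166126118173985894536378818478907748076931563203648409413998430991551812191952265650145432071554926954621113875760887178056074281267348776878264639494604992919981613734352805137304195006481569466111033040777488525538208643862158765934525898821018006020937569891683857679124764348970959472850000841818780499367104423318970011981729344286150651983832716310323674507416370155169449685810835972327203935464361191339164352939429997009922079336106557440)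

noncomputable def cp1 : Nat := (nat_lit 119358742892821733522223066527601985592242127471187507489555051750657399021216051827705900718041651382863715761843489291086002166077215224683168258325487662599405517259951597115861783435162211965142373280257823305988510695382116434498682780886279644985636390524253245805404068198780668785202335806330380885695030014768089310033044093419691957787852854420118274420212546085053136678773900393089151095979214286770214139705841036269473236279567894416421514709763186954325528384056349748439981710228065212328315893995648953629631393101693138685087080641327565154140274938954355883971569467522686144207013967187203617415465378109607562814787519043408293346012177022340178396227139282409544294418028112382841548149820522759239010230233270853534805624865301883905000063058314598798164644985233338562109330786662409864698558655526513261369231687066323380972717018698859995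422727418676713437157992299531223369232703331003044866713954506215756961866166692938000033436880510174307881232054376054072678155110895793436474526065263623225372490935630574012050332569916251126331370911997054162660397099830165413833113955259801780677689957534975848962117384161306501703824278731801099982740630718031604731040875556857020126303752458282196014339311060985729695753084807933231487862497003542758859991270787323796089169404627090809285053022082748557578694110151404368225944460169920616461908083107483885323523415434546409409506575592523110131520346371515965338356754654375522479325985546257972534989979467265807211287018144800246076005016435858053508659967130877230965059763894867384256925119474782065737370930373362991791632903464737719157255906960585907474526256729224018929864094043525408525738918770198908167100182384318148150963392657332289544398393685404463163288102763669356875049148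441579820649300019178449121148314034060655582636206422523403142796066481763407112408006299472326711493283518786881940020906005551140770589476434018484323004932440213384592228716171903181409061295798087356528291834590692652483717875445233658805627391133553691705995974927095749658982408668724917200121311191212728841669959349171734297787254520528693461174284857231360632009652724413094540401080243766993070347706361371500866699114788475072233952253815814037674812824304333598353367462047971377076078549722025057443244653753044431894507846781141181870853515137936127895829725803629683212856481624775815785492370741374154020995132180025402858344228947329468133199545720967365668668956823288720350073734418647418004144617615076305888288233257498787494064049611875043378759257395786240592261100844006148454020244902761530872021341530370765195622226548864526846413181253764742656657580703036322445989470603387102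406084084734461640569866142185582831570784706543782626145037635009834801188707669345309145666426983575311859962170722181167431887209105750109716983722409607009596811275980390792956093739385402245952364993638979203326931996684920794029651538268969821887578719355751143028066961689364897124716387682383829711435284344075296736291050843179132052879851483045547442965285009543706675041582927744306031522522523105796658655011464467794082494176543898613706855099053601426289083176794105316090473687185076801021290562974354612084983115059873048970471175104141109418447518739956443178563850232737743649057867072819733119134897402608176237649270890036113672285294807526682213794222586483147742975208799982509862483282657875372066030325528301844766405197459129037994284294692657441387940800004762841488233339142472397819813930606549043623573179652835312052733446232119777559369675612335986025209264172549822903582335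400733034278232277493622850435081602349980814643462641923651375389975108987243768685739548330209812609525966826761523246409157688039956804812403974934525134017990014153404210111446958159068750524947098980694314869188942923883139030366095583013719705409397287329412218536389356514703003111186712698480460466534750208207469663506657237468080449493484380928314845670615027646591847021197712207358568591201150390037471159963973356913380477848112542864680991923879009069282822840869029991600354649363665954437204245163840747008004074265658369218734633563802874597351731441006522252960157327244216585697674055985606072291604499140988707410094016285502398562613671255378291002228745427908621053089132609924176459158646666900273564236077840180748285629985087918166649077706171146397491495853552580364106103606564840270419588735646549714169515846694737121334139670552070498344643050647746843265281840467763968262502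082638809959434982661127372609695271559315220778466857749256152919703802641284632262969534382130970664883985448723833586090861245073388266454772287910120590939680991350206676741556183954868630034287069384215993432313250500438254490395340354811538419816408873108502333481054462203779357057559010618530841697685187601907032982779718972144390465621814405126389377521096516913343879293536595862391232212238753857276374727491117191264099384123859571272293188711351502253353389711258889688173875317543879885174471841153276717183621768005125979741139878715697214199253795154484490865795843235069951538811642562353243191204046834903029228823470616967181739062271103058606580909523246796602223636027047301923197573361297650510191171871990726865367266293951860979333757167440099567687566151880358402257450423720371700461673412470172650569728674408180339280126426121622669815826063254801926506654860243857546974703458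9810252717665272409750190104640972632550861390459701707753179780979981465959626052162764704553536393027908232070989787707883953881961420221160028300136935602656895102539013318506368109722313966270222007282603958320357564430756135427955787973363905430116246139262608214076186013764816209434205604793077532861580411081959469043496523328036435477551015641571082799611254458048125705341003242057061930386244939829276639812800624584295377816746299109561098733218832413697491275459445323737843211815808817101854662504081033510298062799826710325516583944139756272644547434846092620087618716553449417647044080938657758233131078378592675499295620136620452428669156527730068267173517715495804566217469325941212648923614672303489634613673452301834683789927352841751517317147980004656831342509679493483459193330518850625889969633827524504141678163081017507736994967261300972462855468890143552661279820517971218949410785232908870489204070643434191227778169791700982158124594535460368946301990293724225709524041235895157239598472419963390679065896005084987647153471980606974066993679473416750926826639404109453586620474611419121273296216402166887912016228368715913281544122844395911643238900589339605461600244739136516487776823182468621594446817213529832330903561423729836981566368619577128844196568932129841149898653696)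

noncomputable def rc0 : Nat := (nat_lit 794723660332883457424204165294190448697987454998117286292616401830041820079360640079056224182861506511521449691881781332776374604463433036493415740567604782747631993600562488962091121795780518558827892324141787303477088877505675550278506390304789700417458965999512087308839727368697992341209504653840806182343193896369242656578253264786764594291036629973044446427384188427437625728307356199459257961522603461536353894419599613579638584137045337059053464280709950058565481570945412493174929446830626959885439757914598068767999838645037465848269108741587147385965367111820548303665736078652120900968679613627086523506194525484563373420305297097908612008211191360842754807310868405894653470128829153575220726339909924315355322576533757365089148478691318062888425112018661864307320733707340293342829805758204271956284049100867873180826821348199666489056319552861269525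367439268079803574453619306349954333420036544865806349344689656135342901887875469497326564292053839353969099314835756013082790489860908416928220740518658385299667235999046158058176861480082764733430010266311185168349541114383054021427211979047097178364949076732745794651102494247749946684297663782242203625211910290053951415608912890076732053501939579740513853599282659562714809732780174148656220656921574039040767305772115996126919364671946620833171278709673378122496415494448952581331911793788265290353819131037513508030366238817557675494115068877266416523186928165501211314174087669073747695852233962927219409067102903339151483431540969246952554912576224895771627892727693042504047090518881920577834747575877105367845338561544390043458521689697162273632722375980804081121471507806589509808822381059036420584699339293873711780139421460135877214513465819077346002869351763809026846838909316006199374789507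196590090155131832532301738496779936564773337614072038591463575048331564339042573417389849012275632816521392708449079124491501666902338156662412843615721108022865211390693268455186712477551203928730180880325101107815729272023111434115354392895516142563265402660970654140387542264027677580522881048736849684191571816006998722599044220466160196657163518496200478826497394579093050849410707975605807195620847264884977338788110285931741987055276389789742195849548229513506568003883104071462047497121824981076178900617333338238981458775928932370829087293106174908981776509557848604521427492642472852113002807238152210791163217395822132619952219309273197067573029675791065266596260566737077353233968687206073749519239976502775747507486346516277019582606630893263226608720727079445503450246798928858034337620965613399942675833423479213008248812746153533400515939385145161546336490489903542965681443669505387349319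609889501128342110042641134532713173056844887970811828922213558354501978680692677504090073097669795030591775804970629405934003636376834784950315465229122473348587589665002959362196975571419331189209778856503019832790389507773901348002100803116407066837251472695701207568022486412338867717207273609085691692128031434518362874026912254301530762454835333221728501751921110607631559435682339975707006495506784206951128891271423696358070872952225535791360132680821285561031559984784815471613814304990580854549955991523116644005470056681468995357741219537846686250730303169585087190263302002197843079236208672641729745562906355622195858450106737162985127099061023250810264750377769616729146377792182173571151645878727147756432412826534253975353224639331714802344885958206148132646808041712484185642694085736382609196428814815677239657512566660552286254280338454825333927754841097570077081843546590502118273393308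766663239272251709167582235559384206564245733888784442041192536975369342368460135945564397907448535266075923083159767913483043841634783421065368722704451699548936154495680846396472723548090259648943065582336502227708230030887860566460903357493166008942202125423765843864280900404221087858856121810380397021133920946558536851911650897417968352577768579334347628533522662941258194365997117841573457788508610649974363812322613279322464718601247975685391940405410164345012564179704526407776598056400170366315502631908440039819117360161851381953968241289636514851643622155782854196302411328121433848629146597068027513222734619934572051064188956747397267082478222141236278615253411694545115917634338851931639984263645125628786624902993311532836974908749978281548039410496415878812156037238030021361224667092386136235795319905174625283502605767566529984431471858731324446400828513271223673607289242630852706450517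691959514444327269932290992109503560816546698974449930500321929862420515560263528462840770393545482661584124941108581982014118711548344501767809114192471375764858545461298490246979433720859615423109001639695446123229361659850777985014804059207892387074268483604882488089010223886793644856323886763727177931066706897340613322691718963005048198434335479407328364022714190573032422453864051146510564506831090239504222966787305199603718936255200254206539320683452776028906445207063285620648792730505712269421292501957396314421422863444437535772437514228856072699418628435087766422027710850172934166952879541204387476739356007506051159836114893825581321070481390043170002222848611559647563061575659513625405405546776305559313514104746963132058088725728873432004718489978532467596812910023588741356002383715696507835054025044635675462305344076922283035663362151119253356229946281640027066895874009960528677423601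607153276623200238175751782305623217976036566624458553752334198423416199196302904533970690266939866574585814119558480271805458056850077223794630786384370543067383728471759891404947159948271120064690378535290067532908772697795364404293892715779022885931479149840056186625236963646066777452760641288957248491468985616408467044820678144598380385237088842060476500670083691244371697677975320332979269363388721345654955235743494258205529967122165694892270564609523168944452099972385421297420299779185725958594124766192621689794342126086246883659091226735712374403285533827402084129734819983106991015003194254928731575801998862154084844445538193813505149880570929833799187345933573401644568377334125897029806474950271225902525029959875275432789286020927764615718678165870931277431413877609270734827351711580144102850313082395526611824624363469394374128796590200603392204510558257539390318528930408894328369647833204375851469138304511830819577603124265277674479675660974405399461783635172871591027070153067734467763565556658923816354471055917022261166532856213279023629633921156033987805977063855937051567882251438870702277551049646009902450017129692921545898314241327102055778286437207366421935118810309093069889741651350662237648672831169026560392878362355575540040236425512746278550384937303617062210296086528)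

noncomputable def rc1 : Nat := (nat_lit 834691681997348370548060508021115268591053346529922600347751098762400026135141313105416248486374869242085873407038611166854663492066022244973833556808084844750683778900812851114064285922814802143325287416505094915003995643548402820608530469128871619217912683589281261168443076772555663350994050937032838804519688682475537210820355205399335714856054843266163416842553777445993601672625018872392892277734586576143932135246664831632404654435903850191641549068658248837033999800152403724597547477441060075762905316670069632638218419710382723779254530269050023567211966259876105843617318714449158647852763771459488547905130342104645153864045515003426515006386876497396672983562836388833380479683157422436372702597756516764950331069080407662374628057318116048135659222415709892479906924766792589469978515521051606050662924757989455224994304322528819267998865879982526256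694050411987426428576165137550799978311780711858729359939302559415142175178122181504875792144671492091046922452637397186140910203098643437853395492245165713260906171690764951294011888365336406322703000922311523382283930766762480862794964747851758175915884176487403489714752165189985614508412283110665009499434243306667771635461483626584571297626378724060269590566947897078456179138656629559187248479002758244480548664456642926746108681292539434087234168264454096009373158602763824247256150033627490234931830197720313848883458084797274469207958273975287298969839897139875518963639700169764288791234781976645881593785988487448372832644466333888370451327196346325787968932198595793292460278437657105380171380850160314705185557448827354877479179600272249808368385082626622034000426723731268599427179236684968920980315239006838789775989104570746982664990808263854021171478655899068201414275303227408698331945283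767989133073282879594773934314238569767567517460922823371863430997762343841986627120919257793907255427220177422705578659120380159361341535891288304878461081278200839352359540451583620278369449907721505805013930322231071468105787331045973935854998420067915877324907539484784069820972138040342475552876323792291473569632434736280276967901058791786499538556084459948374994483264422190262637378000584038220407836832535687527079937771363246308168250002602152504835538261161543019653259987478215368760019593026495944512025593633411196742812593709728267721545558074751474317329634447220809458391828396351967605613880291420229482558128437821141033060966966794856123829763366424572981320016138509576330187335895718946168889287296170129823876493558299619483159604259940740974516969641774196154586007011604742867492080470700604637799398365177648686764164558169349793705237423325416370250493386856658835636520700502964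447306650336855861389402238585166366953999462684053518986807643576829657146460571569259838200726758748658826255798716319329445441453448381799472632314847984057839832914818227977013516542573966624095626809755532917522403727299697303316605221442969873827423016053758044013502520822655488723616949470367324087410356997747563703538391881114674031750111345928678242335183521677189634979525486472928499390487363322646144694194578343613573962036290773843229844301786612002231120762806452492066589385930719998507361554687290592602353779834799926708951350032414918494814458127974190322929056386818747563699330192148102615646180522545518962282781000326099185114986183596751017164698793563726859979903374194918928392049833833183814373513305841062211133175546616961807892848285122124862866328599614906443038425074126241555628532766851216465937230760142617756418239225739323731185834477374350540109815827834990306737464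569706547471129011102608243090449429403993648509960247622287770288270958202284170726839788387578800713506497371180736618758555338622968570798121068131748042006187280897168137318118354063212246853353951948096189040629202915439678465801846774539501641334919634158857262204095513923366521734746432556407413389550619707331330039692839731487944239549211479818615756183362666692587332195680794556057281912970971837493956932221183664576786877423549736675521124212291382930037181348657133885755454526977176428071516214894461452460656740353479947929441857356514774918270038057155384154631199362484059564834169249098334505841920977642764776883096709734233814559613621568641748058659685732302434757120583159345064916009460604614234490558428054147984792160127452442663897001095100692419461795172224204265515967514217889974757669303133075646911086080562151834820077865297247768702183677567258031932662868977096175877908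276380184917243014609525627577590923617398309354260493351821781308986610208070244535140742141783829963469132571675877756584133502389716406740894603899681660921311035096292093537635388084347867357471216504496019125648491357348846296331432020113726565228732048531764288027464375214470979763954392673876175727998779995503915644245892960342846275990782520140068835953763829738792574373270370123328625250370712700361404519083070597116283066804886642367205871107121235786032088810350757862560802072524738074329045207053604659361546617335053015745981984551226328700966983887814929418405849234673283177267823520698131578067732682297340283115100827842649753028930430543535901580695676090124538177578908963046379719672685374721604969705943919338261969960139774019168514802885863984176112921649873049908086470656320590788265822747916810858145955953458271104172786674767614282734431074871422176480173040962437535253864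981539970160093240275863750009192384217985556438803188405951524534369168293419156469914607136921936914984337144319145776661241621913127056677600636331549386096695230021589105960513814489415033105742582980531692930399386286300918701142853949122941486558734380127885154612169555174988509108428857184907910544515601152177272457171388033008997455820567518330884262179769887221828708140923186936471287344628309438988205078191947654675581719506468286158489406277467524972672873319747361709237686157476158616650062007975602635721221689460031997605519151307198914907402896305089386673934908104060364067575730430539803406978684046385465639662444588631170826128234841322671178862953465690134974757978044682370372383286011178603191238294466371745164247480268497099607381835902722369848865064487948492508899855978482269540434088843241738967312155840689139194311726819953970548008902045636183009321885348171693729513825860685052207071103030126576716626023788971009267172929703487101849979640005878163625782447963236942730538446303126757068382943643776166792695847596244870364067672876650164387078966740356465754420991610153622672023678051804204228594993700964937499064098910804367550155893056549546844269533406759739496272144894154953339727529280002054145293437783975051902782137603455022596698774354164728311677190144)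

noncomputable def rc2 : Nat := (nat_lit 877468890283026053467310804027375890120437066412494889284371718098635685287149228798472631379394343127346571601898969603205546282546530979790950105744007848310319114151287308357454730067585064332046969630818783444078859054046225779775717323743559607473502167060790057821491683604672851354147184495106545247622719092148810156743500108387756241121279469877659138456370263096699714467940694771696768291964524310288811222012408874267587770993012730828343492084868755448105245233250191173769212160474346870308896265339353542323927353525813625777470165597621252783643049000886040178718139570668026291266544227670753330762856934726633247554273448001023736731331474428835598478895125162935463881467149326428131584163945681711456425292041023317479046382595700040975058064244809594315139798644713881134753844877464360250154352381103719565158067683174377219687516418174690699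274661602773347821600012797660749668866338583282564293523643080301452622906924326885573474305572829797228484830797400204661792626851398887497880836954377882027502952297786311943334052213027780047687344216185815621914587026366325278580102727649788186169380505997337898555028268774016011699604378175942696266251889165551819506884837754466873655683561238434183563952094211653690641307890302341617944948005221636183917378098316254076589638375513972485254264885936654613361607968326083094829800016078388640228436754365921514344527229331130300251957035697946454969888598555569948804761540323866484745318413947557873657239954261510274427206478171955812396246552720153238212211665441832105364024190967360106159489984364259365951950290157303630203356476365590907975702743701461313016024601645606637408582219841292039818211252311654425948426443109066567955217495769544704892134386523168169226650039169135986035487593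748314923409837571548479895651054508691889451552296908368037803993020864252135665590833822433414795022017921976728181563805895885843789642386676281736109593806428441268270751070020054762608441417769387684841312552247300860169614053859331280172002548534443204989888327272511481703964836754088631210074682770419741477084997140370802687021440888956930859839530222992067858860171848382922280749566648508918859547409284642692763827392309746381579203476102282114635923539869921727050737697245768058099073162422136922987100499918844862926926656568469102293961494734524531911451015601234385250725126272610992715662790394733046185583528528074174811968600487361462860354964381435045982376235083187658762759593753963210923514828513536938055128917456015774481082272445384280036456522219558431011067203395349560222415133919521335801984412867630166922912236017717849996491158137098385266576551795722549034687088049468799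903787808092056282873983334551304435206366726155068551538186639082346590215951579630792025784601684360413145554120494468910896682663533661442742696926277477610685909139314429132639598127788003932198331436072603435377851469800982539656638498111897882079334237242719144397274710530175265968261106525551174948469919269484795968320918042126890237611673199631886460842408538956714068343312723103806922981502708844565467209694847021294344149099801069963372332456435969860052637809670458620745860077515285223911243676150467271895700693338312555286948195807910754560395517527142518769744809601802961040322750896324033877404746206848675894124154411686717274059977963011286759105183654411406675548080013554994608914430834006042307561852541743725989356111547378079420582472310064428073483265935091279596596131172657542950120501197818459426003285186958420515828065965839157495013197475154939084715661488652587045605931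048807845366061480421826330377626338346199158530351883226144017081227849154804958181525725145533815985905682774578474384544111102598884719101770343384518244669012128915111687930977458244724398799442055481286816999804764516678424653263606578807775204114997256726548609092897814003520856748744777151685104772715165925822038060616428113024374894890296623168396689322795508498164375894422629729623493958448316570045052476942868528652289755377045245206659224954623863996043989373156176972289088772048412135743208674022069631110506014773441733875444679079700155847901841802535205861239925289420466478726198122930579783514673787012081248753950778548050348104467845402980462104207163557627032667746954237503347747977870258517574612224133042274213434220429677770018178007513283713854713730036200313570365577215853461757557191101436286440577060672657950189890468387918722159238658706848063176613784439443636023012195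595444064520971662828072183538546546825962065151512197578769132037294926255390838706157727195580716957260026841654517955746348156644380781356825398987986815616236688801360148102478716768504100179631855551870631804095719985028469982482941008800050214511359591509435055325081358810623914906000785196371429515195525648935701623023840864546520888095449954908955054393696745548907069431754635387074703857645792796520756103216099073553113317288831756427408841667237318198493398549695396001966087425201962083445226568256994287465974103595061300539702174211517348680269822250408547016402693800379695953542084611663352373133960279645097369615156374977513997773814483264355760989565078371017267549627031294360770375082344702197489302808831329967170157514700726667466842948764758514155741752517202151849792155957434074258107090670950527454922566574009872696667402869407770207443159503262851509780701663068327649792262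793237632837350030990454072711296212405564537072239423201977149265856095618199786434805490634938306598744005985833262687968627380677386149378763398995402033481507963383032468893377418855816836779765625956315863452722071738800683431130965403802936836066611642057590737377106617616658695152909461350592814054214184973908553161919336410439641472756927089959902018096339197202610529528040933409165200669462005580655261767247961986604858470711400735737063302017651015865792223840969950246499715959214409856223346780425327583325258852008280978570548864388104615142651627686332937622911084039021064470875682046865382638562914237527801809000504250358502356514495347779800950603852396182767011175627065821388339397157043474496551655511262559364236753783022033272467752654020193685386898060865268048384170068282220214182822587080550706183514596571977522267209293865772087752783733817085056391221277400421296556555640506564473756567992305261076350840913907893383731611306511141735974020921839117738454386429235731518706443795367754912201817056346843323930650937787538049195662273186720662929592773838621569429490160421652016968019544644737423675629182602883304059645079144739469511170182779457633038290188514640330713066731260718505277855307684403419710212988077394390127326645026119037411744577602395113385961193472)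

noncomputable def rc3 : Nat := (nat_lit 921315056586155016721904601421643646672756992481564356480467180290337026053621138092153430146891546757626483541667069377506019475691685620984459114276889170037094175013237532067695015918112219985953130187655673691888707815653027361698175827621023002620394641930512345198582972198832821631876952122216548679689790858735572933327835426833329689017765807230968836266755588172714949910509068320951732512720735897350212492974403112646255754224497278758149419215093672440299660901208088736417658216129119155376442350000634377789152839890165590358608842941952916157338955662309394194514628989824634652500924155903479013293510168038264500858365133210845340548373782246694196281413315501418591976469300721428096511713515897819495261917978480952037261262175735016676663991708882596212538064462645072474590371492119576071410369591400347653260310436776468617005417005552616056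426671082643407255420284270394608709569723885789625824284331975485371837989647596236623579272548822781627068527938183579489018028428010800426321286827161517356436288057522867114474173173186524381821221262354630458840799904855559590863185726464626234045882071227037079963813344946500317919931722410075207707618838283140463890039579063913185933863404857506401100426820512654442176688959979524095200161645699121291739290352558066546629149636579588420229508466996387510266429541509912445729868184645812975372036285648372436422233087698399597823489473662977199942502074675060396767202407636544413827421659299249400333386188486133079608198487142485239327068550499548429062308149662957999701950655446783928001627997631262230528423836364799680885059908800926249039600475646808745845760164416442492606389043462393597137053045770713776108156832873512522034633150485366625315475713412516912201955585579493266363695389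028382206090792112127249323452286727880780454437411155794264152396439308792302730732396826497987661795643843051169912179247948167983584019649898099701731742460739171178745730865070846759918827926284836419885970726298718376755138283725181787619664711772515288267688427804695791357731714589750477244344563095448268005166150070256255169034688152109570885035051841305008115799919588373007132673608914870182535184295390355855676774654160729156188162625563550460258986706626407786880687394047823786759032502936925233652687431441255753739749985620705259972631152443665195509481936275763097784799178692166811505997952796041414436645188695555357624027085547573327974830057162763893307246352248726490199481547007842698993628768340346562186687716279852699094890351481783182794834755564912119621486310990270213070958957563113508493994708301285909806467009191509766546151099831040152175895023433225493901526206214541627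252534083013324297455805733267655423807979904575871770167971350368934410750696634972083990376573540421654230008368778066984625877019651922175176297044910904197443715285943964333705339352174740745606529667726461509708949179398091783768675986992725734296612602278903533228695230874076422502224961266140171006290009811140026218681388316063914224908810032940191170230366270441577793463103625732995215095680117204212238050568181822918732032025271097215046683481387519862146678092214702819208636051903561746545253333598858893421628082101066760218001569924370804463849407606922107924992006860603050359470238989993878712532128386276508469385234572908395200471409136727905223444470973862080897988275886866453791067251677928764892040607869289396380689478901936650973231792561436560064402184436956294886513076832204400049981637213006125733607901980914997479824046044872234005523802183249021231943931916091539924886717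991493027107866262606259145679421182388931605079939300019143294097762589064162346126530776745364677120389905956075915181753299248846470828205279527073208373939190937158568626262182883107477602951752196417558388603588088831384367198534555118908097420057828066450369118193228797236561009758558220714070413791324898619969807949130966292457775363129922532737159370217534282196917644323700719064625925830604807658329654473623324910605707295490364753589755995835655190222865118009644391456749472419991771370731794042595329363030011567494800578079995575290980580835322273933783621316542479363765571260323473091776965963167304140692329634597376917529962123588094594771254086720144364261854041717864648717502725845531548138118066001002056556826412414659953698289991904695901596758266695749125595126182271521320559560399866490227657848019745712572730729180030884639944036078979467340724098499421301604742446313744989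990609792443164235921702282096244019896565627041248370076339989923320224604362931497517094828946344636122112979507138473192339943565921152544141975149986060577488382558503978951960083241943659472797319498595466416120685379951942248761738017301612711202945367759713552040936673121113988928777636972173127485424201535350856039841957354859723359476687518073760820951756383380191144840075951802695943931086760215191905407078699009860223624764827016448606508535482061144072548405316045212551363228508730107232377013400395744184176556181480959645423502740578560222041876781570992358434678860143217479702033593911983545132274357969648229918501773234495387995015017966422043150933785819259091102983809215075283342331245590237054847122317745345377914901503523178068578098233653221189747255109792473233598786327700694790241349450464116021635277974236642778923362462251055851638880602109215847839539299329952759505560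839476072792224169404331037308288797041956632400001370660734739823548348194916906485547089933942583596551381584094270290092372498408674454788996405616984748524585026306393721117422621703841283230389551831120461873750685878724230912383140766556655829922407301551658054611900847164334841843256217709733780412462547136763958158150752304302808518076860184957258149413800042254178926565952249487179363445492888191389582887741504768238248281974766026438017756543476475744973626470404966210694803159978319910342970472937904031986749409346542859621024928239483089450563368167584302004437118019514095947077837827263165610832653244423369066083972848025636857518833065315142262105103928522326068384906328357849254809266372021959581790877141447529827150271507030176580593277313339120519699924925870325158383653663291145804510745929805233034065348540904906507988843483159405372049958187015159711796074041285671598629364860354389751618364034473676377982083603309362391483107290099742906669802947372693966561881640154844003728179947610001163086852800972137526682530540249059681010957510883724361320630646684985349593473959326904051772995399701255732075397140896812365352994811067625082792252072719517394825337178266847396252602128430326788585162777043875241737460764365809763763218926064773951616367215139711316576436224)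

noncomputable def rc4 : Nat := (nat_lit 964842039255203414986514522649527754325735230625978890772879640828954221255344552805376232743066051073500584327801581633005183086863847908121669726527035234009113042458822281101821716537355670682029412643972878025924262164111693152527186560397182235081134891362315979658915749897856457911570884299851667628194656017674363908079743052822341953198492529918232658727025399671636588437062529017380712654516431479198149996733375211871359345285791358141822639558035292729052805877604539632908953103584719645270521736370343496178035792513100548303849623581981067742063453876784921108508084902168904929719207706057686957690719098423804803302968701360971952439906978855452721628039214128042847794011126970459375797887576282693054863459167859372532913106759822487930917564182081021813704501984778983089102361575526117819360366486038836093729373895844919137596421133071487680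730389624031984328091320489030318497996589900251854907975103466423804483078737039738948607574525615449912470648326655978154778198808842274211878221862060115614782709311254136162960240390645608711886013080358788214615328311438290304545805423536493114760642930540207928110491105030783993669423360256237667278444577527715806314464954974256222713342489090333987247166120615106492543226618701090774878888424717870116347339525023674588888826485670560158861913035259568275278366661821167853801653587756490426749671136537468324841598294388368306245502175565685793964230998322442788053374343065843899792897944022172861662807713229071460043920423908093458399211329327889294945664136162812896561599038574545189244088339754586951812122272641561921253731468247285275182690410846927900169092813324756515673243583865449189251999614456513714165049851299397168346688272305534779761800838009161372248283375207438265490123207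121673524685687827488281676934461985898299060766402585311387260424664187683111084171399713902331037660946186156160997251988796935885278810976370289883581372162381707796018228787588484206059909882247293753147419790511937010264372129915855766910347252972383535998316570836907799845280415238176951979051114688382858889212835788216438931361120268605395048469472200871730919056007634043652704157825128200091902278527132422425114679645020888787251432643418137267473918658042638666018513640709619387040973338385879005287529889706139415721575694871735320848525810181190281293782514880659443900536527920072805199112588010167030758238480359223933868588397523262855683150586659820190763237739112312664038139391465870155826499788301862180405561063462373520583618390109308185869471822959423901480306966696127269265125058459345071166422959019874355358744609828205582917579450534957802245960534165943348432104749043733839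648479099248650112329668250236933233837770140425080509012338642827905672750730754047679388064320974251401302525864273774828914442266807214305862146938200426721869221572507181635561699161518031878711155045362259518820507474156790192907963803934016420944647254879002318426253182372938923060484947850296561314443014237586679834776645134045052172008219481592255928589727336955765572606190568597212760108353240106647251268122464764434978845743216757048537743754121026050741972994601636726847552391428798042258248611464596288254829802593943639874102886947569370463016010075822539348026907676576058466692460863274955296885281323233407306843136288559835202624421467531896053705494899695188248818661621109419923499858339486076443872583221352243023723071769614280117581906177899967605157044450110214465767969658576367552757788864978802059685072020436206946232949002493559035320704165025006534573511503133978306799394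270118768646745415184252643553968858770807918222296519838138725771165284389581690343589350704473917647251090885592895766857018744273391170285852725768816886351060144407368541293426319153461257069122969749126750729814639508054680199554467614207998384167214529054888249560825063030870277156330973394132209628834790865922548845339442508330131182777334057333665858057851901520412764271865707734032119403885087600238663150406112622829940669586131661156264874041627073020019523339986486240827449169340674769901496405941535161940176324215108633983168456893763958190548192353096167092636793762685531342837464715212624583499267884502858120449237598265000273418708893959906069718630584610540427141231489510035681464316889508595279661788522021145428982948650262703982700873283813297885203809572313117676897106973588047929265864147715368799960765444019536843145214020110036589865564407472799132149707879636860174439878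699445143652444411476244172544398226006146371415548644247690110849543324226327033870131550899821034435973093623405221811301428271178550631780195630491088258909900301515502903746403938766235876773702807412467143776541477183652621256369474389937967326453219592206395868536968227461516349089420459861808617901789643176229013973618110294583553268992989353563818764722089479288898105119307633011732579908426085447000383270555914926686036765066331544772600122856796573688636743390554262516754102972633985675068764791353824751249300626468320379482421614793848130425029975286524797240425059283832342312630484217048385858216950522387720613504345817127905652143442510944474864203111560975084189433436465786508758352902868593514584801386598828538110426328353808081433391536661043222326324358647012908157428924419406891927383578435078812445204019837554422995630508392813880641291260872369710732920036815478590356573117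193718345190432129540712902419810367137677936328814147332850342763916471117289891890363479959579087515116682406452432623458309065993280896351084312533668722854559316346005762678168798614527797263708475642397814833672970833664130115999435104596983281662076984974263720595266091490569849412153894213294738128754521757443869697239575095056082084984082969763526854433350348213672148608531495529734556670464721913500117623977656662575576708520616793986059330810996248842162460118304374709593552970847655228830305357581343314168606660309824882381725688277143030940036127591924273714753459124957636582753185157713579929132603796456561813078248031015424778558671326770399897614976931634070039098543320889182144713700132441180175030865279764416354419564825818300907641649341447679439713484761554400271827325564531340765686122476676261784192149549471530366396967236382173470922328515538842643345490159159481133376740806493495442259738447102848589506181545711272349789545577714649988903364927484767155291866870264239451230565979981154999328404937237307004423847701388370515541959279081419030971472124649521999333504633041667490898014936240494333146886837638909538655161562839076398476140810839407188018824908094253284946891775498140793524454538036757006333316644655195626890444360474961567051377778630141131635032064)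

noncomputable def rc5 : Nat := (nat_lit 100731352667911387831236794158702099564496364805428433662720597538659654416752724170587666358665958190169353556321770774229680009407224056481499436130303061374216759960192703162426391953443012540709421339060417488961527920896775877178917093081764725138578571284937949017192669737123074690915923429703447738074297571442521864653390169984590552931022895894941291887772243513133453264362505813398968058477610788393934962877223757020892396715648060200253882363466363976432932690806908071431946731177503689357655290429851196242416341922120035560971727256347426626421674649199538894804458056612688388780771018735281146479553640784878811813271312132828096630057704949442055109881113575755529712660289271428730008498307072459699900282056494345294083369470444839254139219644760875798355421544579064922017355199999873736628225193384186384512470297538118910509186528759373205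155746349641443658931463989928286612002721126831000622015010052108732099186804375413246921118627769170440179135614195075312831222428134751516888690390992283549263534469921506167494491114128063735238126044211136048544429605090223213505047984041245621611547726094015344040560733291555643932005583099007063082074923951431537239100643442689342482921926569053498484904858615185566677064763344735847270586374124113045060646795673602536589308007199037132786534071467570150437931789437032511602777926190585483615453411629872824965980699841641886244720554799849419540314766912479795453685169753850323954075985776366152162377425298312571990796491393546181400092811095038348647886591392447107764330926757207385256886572341785306714381088283111611901430498130725598810263138509636396564855941066411816489893667696988108485285301159585758026921660835954834204316885722359742625098795085860195596182639566291900839023684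053957556170357801674653210764407645899329654347046152754289052162266322437209091981331733869696852361624317948435952394192839003810227398315631270341095909099862144537349545529715123094494975220151260769173070026658210099480810244511924033623838993206450426892869888124665354379403678841039331811594595007787366914405990037931149475106153161200425145926616150288823451443105620064196505182417465680907612332684316330326344552314297508252089389966788473967406472386534196627807819166733299263848924374836045060073659126893012149406221328231590591043515460777766391870686793340859710199321683114101407617278040902165183902774617193844241248499402394616594265201849468517970709881364798430638059813057313422193631949330132429555759208356579728641636459204395400127917634190359490635680555616342151788660918809687920316791519487975934896645932254157973244721013878251510031772124587036566157470177534579410522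196643436801440819264172067364003696493877211587489429612827188640662676796731721625998751622777229003233523107869923724057186577493250429084685908294818735417763763585465693745170305415559191713514709407750603721444258535631451907582710152672465175390756727030740217925868914549384480285696299614789160740724605008186813765070210339952538178660495076248943091979501857886305649289753976527253598840281581379881868820409657340411677586561443074623832371417867357512392978721682824654102552712446114341390859533411521596814148020097634107365904426397475610802257246962530612570297455757756512140822832861832756211293908720594726832059374811704806713233240333137787462077113740105346297891864345672001089993559821532931230989490247303615232995015682806103759598503097229185398032074144633227708974196456834751562830486745578291485939028490408940495408246059149375517960881458082985408278486157367476240872677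043413787889807063455886170893546034357284451082987596134122742687701056224516268235139195432416755584370124255941753199111588371693747130030519876791066438438665885110859113729881903216460828721448559299910582578783416662119773505519005152097836134112362638589583977901259957773866794281247643329289495973094233093305094361138194941681766198177883181738430299405820623155291747820079286329288616369946112861760814855614112842594087489234183944109165819775512166725159217480590770088986020936206635130149269571101018518695879754478080119491565266757920119755572291778162280652737095962442930121511676221428367998342654923641187850473676156342202228613332055581687138272111003214964862648429626458996862784684814618364450401210598447976005738777964064631905500544790386363871313426900740173309243486540343042846869658312290122349114646357082438697618040688501534909791427354245012669487072442727303321175792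198292033982820905812385970480530323524200248554108428350146706597745820351521596014905250452524430697337195927277156019045852164274113405913252452125822640012758992440923617816696507311066803724227416635549800674384972205016532634447428921830619511748236243207485868146726640500118386794298455375730582752517855040237378463463529408584603379547178458498184915484794113469124541565014541600303663441298873930632216865856618677388521058344750351129048756845689597812618730203942990571892404921211218655278308605592062101640157458103127164077311619227625990114070247217546742293735737032805351777337735689800318974257999135446851790730480793307267695425224121049817200539249713075540525772360490078989458954508158162338917038605044115683502192694399977549145488911509503511974931079194134931171157351707239870134950619253421422028558102901818544879015609036283636281042213045037843501640214749482933723196928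5289074253572288676563522362398721049449713442104516794767796500953481048253375600126478187574111404449511226120927686805457797732416598845968056612825842453149302464390972085470655909231415951583138977147648288031441377899064924627005012308615058284964560999105615883501632405215295456589592391007062389935351166951591169357614721209154422462858915013268004497573250723818737380275582521744513947669677802426941166823303620616945294495503785118487236235747189069491204010846307146987256883602972991914895947545420209933797254853022663933091270116814207201048764548697931817419354121415312120006801493669692243430274643252741841589053682781617217207521128085688542495809784562917940622892109882362739434260006510361101169534386287591251478653460076695998974721689350308484510280862206967102249620497721150229738491428402419802842655308226892784768451362188819546689815947347404263168693399795024860464995232145854288246896573610824088428121726434556507344211881255229981478555201646144280268581361290746388546080316056763832772266915507072022141098476795577904519732363228905075773422759040053391540810492587393659371545105720720925413325676705826030959647047326791154274687964626608515958956174629436650847993462848993715628485283939090049406761933820797544226721914245267049860958374184191738731762286592)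

noncomputable def rc6 : Nat := (nat_lit 104830632792410640604036874267956764227379652044113739951729452425604767455155665533461554806577456412273101892231694114720645786500323086325575913503361877540070266047816503254051719943107199577103807545249215028707813392359927471262502232721947205097366729332172800146104407511566242816434720001303904553083172710128552252202082213560702070408831453250135749055899679747340964037520340974621426228138408169070631613463112901992886075027423446092789554247999308098417870761278508640052269433429868478862799937319473696451627356919383416113104388697922244407742254192045224954881764757880622142422013345581532630944247236870524205960263721302649571016954723895997785147368532011118497942856497212598431211173966159011116533286477414130541999194729132897477408960471395811220661719357896418901554779195639826922033043653696657301346459271874708751287718877125530292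719022657720870711453404395015632866942646112806883093860354568684350720813915058321449845521551386543287001571935757468456373263436722036543319762112220992096662604149133732454300523556949016325519776458039971996861027634850024421898055585330192885406623099538217616715597706942932947540780510853830931683464995714064976580340059715202815288334093907732184383793294062268333229774381731154652896622177022330963972194041515662079883118987960467655835338786300033695353257454939617166852924597126629171010449980697841883524944106227904868097023469082779099312055931413832876908926022260717017018653945738907112806395087223547827134636487408733179072973552277608876470973789292862773442617008919235248136381783597676690939029332493861711710455103183785200819579223136430190119882748358450947463489757897404949722552026163844317127056232382887126248278000850969061645801784444422662016904273657182775393303413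198973943971782151048268078256287422395293960985084678696829644854030538372068292476013804266379673332918673437021708656175508941249506388971459234332436284606273082273146148635032897590936532209150762988152690004932919721839325511841118864501989477333613755592551102263609089763936881287995925534625253220832677511777329504609902549043817600308267049649228829308347363632927870301314765443033986276906514757382782476717986930839542484614000003978222242139962909195318535556880930037048191008957528546820813779414356776214160657923326661524044590491831824058106308498246486370899367151216645070905157686310069621338528309404612044688298393223338456508899093694313577324945444847184888202457738480439888365720932447475262556106965880326965710903111950743038361920564734526734736308644517457808070677468916663109078019023929013375257222329310277924189696993454592205696573057122357744327928815455932899032003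485808148520311165658489824989001484425668522451438705026244794782265283184552632248401101270340003558842424788006420436574161659862488249098885487674731566592603939731356797450432088827962232090733496562192571303258674109249935310597498680329015187455969006809601138925691365276924533366771805691592514111130018829703214712881620297930148558791216890659116783644042029562585992934688090270819338590149500191447392471913291801105192427567120630472929422171446628046481170800288304929808398696013448609442357798114887717555558131938619847322647049174405499752273064013172187541130135359096747603310248584480863506666860370103378655876885067961656877215136172936799628080979289307249455525760617880344551006360166228909338583909823868439603380109558894303893541867447826175286603338159144006500696876053126214678359490809570485802189950812094737507824975190735542876902071007075495905054052323136687070214205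411716757052786690997504519954125381640445238678115724020792187281451101989799748948902640155139963836656103180050727150867568830124762043213745819562223121848075516028976559273058441880781980782882550013416314621181596197595914693784790430434550844066897645615732683434932707843576169584725729597863446158497528325155966217356652040076375949273469470717824322214632308858276912804997656960777892310476748972707801735393794297508933958580436103028890506204432832000337959459872770364462320384405269834145400700476647446878339151498195896613521195832834510012062719942365411809979154436545798361555734679726090977196602691557089137128108516542925419884391300490222439829942881667473847925796417289633049814759649698132111198684994730916031452199489056677924133326222676374062207377862673177798654381487292797298103076775780081888616099709335352332509347530475727612890067034473324826235927755972597242730791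035556972641225648157260961279040043390978356941933544085186205537656819092069010491338466366688942057322966357554546513103310057767860824158241465342022680050008291740611978387338779985166396396078786315979224091552933692680365024117364839308429041270228977083902168866173197499420690700603134383084830034153474762243709475324823223211256138190159692294875059599353660667864395621419727983063069349634823074191182389950764587983347356488740569415991559920808117643684189266169379314362347303193891445865257043185270421763144581918172154216026466163736135910818064235562150652512526543750253538869636809525958794521067758111733397237942396184941211108295931926886613198334828777676706724567918148882324773388530270306348813721539383494182326069058339336182573427894020963362228834761337167009775432623045711817699349800099825293104200989677464441214442627390596002434009341635264956129281647530807932095404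1585905409179796477679573694416053932378286918639480696867205431101512094077045299920561631340714493655655525636394316703393521927581964182569827837022873167245469073815298134363826045301707736379655451254752476988548322615241497126561859211212194549389336918342743948088852935273134965507339993451564341932638487976948467623675847281387593095006184566791422561114690717781747282175510486540322976701100126100468214207087496562180288448415328423914444694368715917090095952028827754379410063756235648131130853053562293075056217455706846475177356421017284602575486315342356289947565879744652635140098163924592669210395214330151016564021409302329667502017940112300465729764112495356944740454661470900683354848670774445908960394659180294905325178753773271723430080641134723586759840381793917554610940423067987467621516885645323200145754874636673506017541105517818958811637956323343274616286931382418811309295629038979980634834234230556844240428421704143676390945053719176831338015319918721322103993237921534157473339736422972552244579031453217135367963232760083569731873159543573062056830214592894884487780122907185395858859450510265601041175237767048908037428225533021497985396755530570302475112223993635356036661156208200940017772252573947212593299673519992308009400838370539508711638680712436759392644235264)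

noncomputable def rc7 : Nat := (nat_lit 108755941413670676318584629837499476928380009744250025827627111904356309716963669008497566833043491920994543880431761119000376031730842440854735817911577993971978596720954875505322470722177791315767602650080902219225437964640820901012421596075754830809049049369376043604583043711457022259868675249998227581556692248488082977427131679426559140423296107085323935374373449228066394750661858653792936539584525043491402688233782200754563755040600613089222954496383413925638281972943533516668206025575710537013311071065522436940919621828515090402423979474305139271437545858743448427524455081313832857591954726790451781473780350306623348826603484928884870268911355458329088684868201639655799185224511474162942374002731667295500368979180352229309981678635451608177212060547835690011244007832701491305223267741927856549673822508406337054264707044362261661475300233784981986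464041659611817674577187100756577382517662141178958398811604959574909948598415792003760277378652901196234355858052486134844910691767019229570510956058399081773281501223802639800365205804781035328391749466261465406703518837580350996949909630864474681512303070988718134563429437741242533833476026799888610924427755097039119115899316690499533173268561496376182134466142819495477848112712262374209753575527061990695151430829614428493732564235688592302497878869437784208892686229093268761939681614225890851878826220078285472377754707204256954449760564070027436324195579202362159547366049622695672645803035486491996814490219786292995930965144703141564868599772731379063259509268906175892638228448088571161599056654827612117258302873307586040817713913261696432806210723643727197533178206650330181648322206648378771645184881889377915154827767293241366910958395343293647526981166662915705788088562292486487075862237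382514481431192012247688862492282666964885857262939334647276524185821046173063042943057629634117485076042795087148713462277066091964372948266193714764735437443717631420525451529688532612991819613457286909923342536330332116903770406123003793915665334420240650667158427523819399700930850249083907629832711120804714994170705319225364758252515601447935828102158397943986116162858561010707804323902829113909904290503541357080056687031552443230456042361505755640008325173093047870502003285941733752269741020053819000788188767929053109483259243494625286246403083833263483278012419836707920364252682247729370746821347822325205466743207102434973090373333255702816825558122291106330622213952139537311892554054128270135906294413886795011198501261910267255984900425443175757436426034989835739691540146075894211438619400152822715741774009851255765683800067786090225028785553488872358375624283789064157008785928335586141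828771024807841972383348328278840351145870835683882200459074839879525350487515173333310349009472734472817061665446116777902902134767806194688610679837670940473013481599070189814221997626748935197215716788516851021405209796168519845197494287708252946576310858821896347254829564962046874994676384364655084706354255531608607564195333293974580396850857600612054512228322438775654384926494758347257476318838765677744504156469743674245892314276498996989253740833874918019523718752413702165608914585782535087152793245575789764559379226957383698341090819264376367717040604176174337101907621244522171817432182599214250539421927943379829965172864917630922514904237890378765856833319554853107698382934588894135514795854481817662988754436827603685636858215970788263079285362793783698414877810415600523840662998173382551866150292100431405827064319277182449547801326675929706852417750682484765959314521451049062055677329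351010753616381499955733231037768566126678192694335372574906258303196180640248041256387051285256308456268870101752916834776174463804111832883805686489475164470372605907476048448458680882786804390939616695533606988301987240921837138786220101342256317222756918342310579633837080373829132326797386961250631959817773369096374240993173299302876863257598306002425150377718822677736551912941084609770129701923086617747350131039634895568537204469101995015920737311839545323587063757859231152203845632546589629847048258321891763849334468927530606321932910771694544928839558996392332326430370133862170956725071096869511573450724643091110797483412317751455267791251683314186629255902405761767377598815594095657910887140827309033889414779765481658516260909829510531062642036225014537676435806680971382339954960613865546969870525559444478993766355969787952530957952028910273123490664719977503292726183394922117751555397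857759841413542487462864997594828379339751899238462286577498262225442820108403087699995878462803144448729340225692853650565786776211405466554407033549970384639748994906167548799238008631335388198204359102893881640548157345032678133577350155790548590831531746776386078269212121892473817698045164461243295677863718714121096771808145424160811740718070327646498712603769333873921683889515795588588350393999004044538214033376682397729308683275870471688202599849106372709283325066457129856128656140723220902614740834543579026874492044306533714531072466399908545476292698835300909840435167180008522930378389891638074531107100569221720871198782987046611465709195984464314527287454793677270805939832821058729910438278284713853241506274815033884124506296180298537215214474397596545846795368178792594483768745215880116987753732022876236426501215086908778392425595424468879388237996769330039624321325595594226418841405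9474756467981405323564956410775394026218048962626451299496815186941971516421118282658724812213776239997456173428140341837271020432739648196768936565882429467635184061277006751727377096189645124835447139030826367342307702919484990949484119606762876576397162404537814149142344541797505133410409830717538028698089259942050095315807717062919222370027052120585211797136114438757102909748031377806771903079680665385503258343621704452293774181613038865615296584666761059614211396040367701896341379976140239451591648605775998732513330394424684290882703717224285282175799902330709269811786553292428409205793434544916284133229505406935294296736151604353651800242388545998160603880923685766012639907684569011719598197545889285461554275340852140607205410703751076813108959203403162219161816166021148975441907802662604465367812969308552022297529712472299686631078336734656911100348832040797528075217871734498609869791534234492979553677768093118224428271057939712883100373367595823497557016306005828610499249105836007506111234198001773676928536554118891610479919000371515346328257158637698824708807003139147570174040123319275980194690978348612471637016298155312010769054867783786240937077855047568226624868371036970812948866786165206382962153938385418604796895255684322885165794868428855404636572436406006978592834060288)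

noncomputable def rc8 : Nat := (nat_lit 112491117917108622120344078354363886088575215822941524151001256362904883064862853350165891461786853479457536453496686201471907532223239629554786514612546307647342447591808597348113882848726182672183800431708319350748654953447586844620415883179720321498422087727584467501054590229571558713005781078984063641220990072255328926367275274363698315667612889355570054491419731092336712194399335611796793281162196317249465112128537261263235122364744304648798176493374708583562226910875443917976357013467916278517947674200236943285479528767035719000588443554252783535944816642672070989042531173563003258379573257952472467097041697096021531069989235331459890871704314726576984917760421574004234493840533747631181912010214768623508202707434687525793723079494062145541339749779197994803563400071880281045410478860114199384789834285739258506526464441318681143613432709241064132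796834855073694884242370308085717843029502738424091004764958944050208858294970300460687211373016988769392967654719200158357449143025690298000618741247248713413055084994564545374173781105657724693428711118103005334413899680627527103905574395375983033665413005181804367517463846348791226560975752524927268510487247767133470482101701772931970821228555545719680121961515412276628295072039933571780443900947111856987843367493068261108026824670473044714053931732461348565073659029801294935850732384699034816488576261683838317806308104996552480573459571205694586501554663560273257443812150760375607856639675815198417191248989912253706890840799545629790662383067014354230333853620498348330436704031789931468299415509561676807571110317240498310033999013251344840286577607873035234850672274999666457806547105639712997776780588321567023391653756557073061004616076755584440682044502949026984610175660149884531440080425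905183504929693303337326205747241821534668368880009718711664658703611022963590810370101089639583365128066546979458422665811934385052508819045285413727199145798946431916505208279239770303366477658662475873671543207785025012936092632203318145339503566107082263722105637421314833633663411855148664837528000646446336664116724131308846402257476799399650294038187667205984417958816520712474359950389757851473781429112328099078579491046428995112251322082772277387463840902576557292101103102048031611802683536449188651043273065330705486914141794302846387475293553914554959679291100093538049358339370203540478253075131159958808348871997367525769915595577736907977501785213970743324852254307299866265574279270399545642431595612771518228534386308108798245538716789653794625344443612738228454805147163362091903344249790053376807214531491742855616313192466264397162766676904127610816242912443724504224262584476825243120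566728874687607771870402433082504856451681157889087027261080468144546981292860427899837429458677897130482657239270104558731616885061445289834347597267255368140609278428123876620935581179488030981602918411471595865596938511864397332123490351268649567201109804118346881142005205655303830314802030058264362103186403683548517400027039336532701166981198223970011080583872616156512206831812600555785278962814894245047799484662566632109470521026223689857403768356353524596999915953206136245554217416766835174687286409210232874847148090424213319925326840417421136460531911440492790519565947714564314391651263793420003764791840286758150639687240758717516199787378125078291127403486102465342779032570733127320526732941327072296062783239420444708051733988650837969751438245913806237979350128695278780403074519469010480351139293828146714024248651699049229343450386868499474552906817714810042251895492415357984274526751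807252167556181848973526222317872385782373299574953529016386190706691929240918652061206935071355637667456668697244096997127258881230406429943715914822277136417415459793577535861615248833351202500466120203964880528608518349253356374192002697062050203802244423938799196867556727838632749019355718124029082062235707528123626302815488806559522122985245772957807864538652638819021837545028383304055096610671453176267297339288177457217229857664535698996323075076878139540876079286424244216700215064942492823856927991505455118892584331463871476010620645714783507231826945726663475734494074829804448032419457485179293506909547051730141269215807915644820364500782199059322205564892277419834787322549817390233435248139958241216860907689545853132274573336365795611866134645326390443170945616111434617881907938838956458876441155438482956674705279813575198652276317000302282921982320152848923448151727069339954640553958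241167354578347487541562539324722808201392194408187855548899199191393273602046472389243087925638111798767761712201284922084177757666583701411588572230053704225673203058118868491679465777073996884886376174938412736497389487865209688906977884780917434765302788108264661656356972015585860038195166786502653044194538471348044347883263097589946045575860285896451773095119845109616148892889606864047706999294446214094463140197595193292625016488312658201021075997786013166908530778191250524106767940566541574210186892567156093844239971934736727586718284363950350702575273770732810703641219178679441353903323254464696380958216789857251405612324577584808644217479027783347754623457374939623645344073758875557691964599618395636247938554816761705920033960566088262999216967258826915495371236242639898049102918355565359078464035310354025863603327922071941940374498593729328085449209917467321921540968786444611288408745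9840214772472196169776226039431191271289303780864906009752333598011178188569870669057892977135421815014661899973174981154141254851121266194480752614376837481094990329279373684033190594679481023019478109474540977867494860629105834051217439132347840210480155419229824529688059576482074685489384358388136761042235359218450603245619215367881975139192890830778362084586933869019475738223111435413576371131853280173456006197406387363622368541233540809379247917218082086659585124169931503281001759289608447981707440339635247293109421117329803726045735762204492353846537652606459887479720442952420704320991033350548247999353470405661033226465697714640507645498837858402149968254612899462590561981657705733910915478022558880585923060815671244183714319798033185925304584690773785562651046536021533730502598491716280245375856477789376230054743607656594260940138238833402398455767593096851318912672280807023356420863576754192007176418128279749494123550027418028927122694386826278282553708111021091826163923375950911707707070157196887788314728807451840987674524846854620275880986153318560871963752374855745995685115532652966888119575035361461917259253055466799869311386882544503036253731492298662839030705963063713371435119953609109706938617823725892195694899899236176990658243312065677122360256576991855648651880693760)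

noncomputable def rc9 : Nat := (nat_lit 116026809521987024839627100135993062292299415501936528096354544492117526573535471272159048326837783869909709417588299902006321217663299208705217765393479885998070958584198705460186134455719004731278093100349947563477508832578646436422383619062083548041542072971700954490507860511804709454299660355652031788237277077360492384029414799827929127092277777278638353978802939915344696677214960188017700651670763109549054257666180794904082157903765962460949044404112629321180127918615597262329347440156937991247537730172264906115726839291822728909282709405564413803241287402444574135031559086896758436162137802315512812475927782605183746961077051484425327464694165534700689778358247988445203201728902113074099156451033674561285243889781713636188191976205066948722893791680795029331944133952839817590734042546832244871914883244985177284332400064625138251208605660324755190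098491768965358269418340953536262020459521667794420741080960656918622678549042415539787458232209509461830512894998269787746412388658111789792161550668165776593653271747972318274876876021384295896455228467066117945606899545065115923137952126167638749773357942411703908903909406134608440640836378053716507306245604949379737274904601235535993929536306882636564866523280155592392887852405567545413827300707145809563433712828069032334475535984477837810340281024745109287383265684409025257860906796043149416750695125206280547806749348850197751462783872653419486261818038416905007054127020410227498812722244609049523640472810570633985207856245463489732419352312130849817614248197442240261865314968643844165081121453537314383136723532115349281368187283651403131080431344573579380843247908619047118635897414421087276657933770989747235147887750758226114929258381461379312955563100638468438600163282932193344032483795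577368709573829621805320464378925198176793239244708074002654623167645130035249199544770416561946514231971063442921666216436964625487147136327908339630904823547762068904813422209127571997693147108256836448122201690271778406049463710323842427169626674232858772655562379345658260789312490305134787051487018869582179359865935603095937603436669137864787185035489145258235540785035981830277541999580815994255666364863779710167265128752718153411968596651880196504242239933790198505188269402320903986080817507254008937755218624000160049531082463952375499633828186723551627021570179985800510900312740900850458772562321427298342537260048318742671569895193900047869977245163041533900676523667441920663718458602796660282508424938251169828754921188239464160561702207807931091827654963057292823087716837654167845746017949861650443892568600781615002506952396202440060856592292725760552248617778174092309792472134948091834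915167117301495159949713864184500138297459164929172548334608249039985809462664587635718107086227438842239163878204772763593303889311000730176564195863011632220648751226150992051025034828545198015654855617880282910761100694676877046143907558737193502675817357867667262502207674943903086310205737654682021640415173951974251138500167970028415132332939869339331473930375252268455773598516213045051917742592047195128465388707948840354336636768963578100152734077894250988696754328324413742463299281275878789774310577632506854072462329242923261825381531689439221869743715247474530774350083320861547632104892528767356358271609346058215645039323652685482396267946477004849362947840988646026207364679404184307613720773863888752675461789179665356999894622184382335351976420949170424966891365720795097850689954943688607110846593506885276290763845985010053678720948440103016492189724507311511063812598762924425774388240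966899721063115718517474618311902774402197351581145641163692845602981706395328177811404597829764586430604641159870819594836128783035951788231051601385696351620417835536384054417017472258258748390811107726569607868304210727865381477496008117031583222567950512720809846232870701937794442493799955403085327443001116952970142599310987256829309712299905097911234738342808651433885160073154589334277043463539760998357676219978836153300661812121295979583230378033551535215148542408374999107490602734006838921590600770220380510102968647105399531651313629923765724742125301460634625043295838844072836163491693661261970778170584364796701684467166634299167085614581278419359344020326747766326203864007479806638581055161930692808428940655529162311114364621389703878857284709452667600214352521322599808361493246278629460344856867940990203234155304955304184049647374809274183548185500606635048783589522979444565064511293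792922773315166260244921634494111813532116018860315423048859318831345122115707240527419951884952891414446563360605048758363011327160103697555533651194456994960206899324209273082411742529824799585288037725337610689547273075070724581866405197822768449998181793981910631121751040139162242610160491866219662467805753851921232051279138433958188785998207779644053799695222259278215606328348698987381601061580898446066409045669247042232312366513246513571203890380250430636156068793194737764470800578343297704425753901914388894144011713756645589027849463536112874566384625210406184488782995489792031714853697470734289997688928667984591893013803037617983637160468838782237814382627049538819040270214439653504381124853422961688704459763119627796411839231687905358855667696753956062935133561196516608968066106127063654371551226336767738411629761091593105988807221831153712194514238703271658985583605832233416182506542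1959109176154278444620155769885675069671176438445216312143347247090440031789829641760677521988796800324554640311920457695634250749332412835884055058273913274887106345506611160616552554465181042030205514047588533953544991914976122773164233155308701569131679496334224071356238388138472728677138021259672739795947415156133280512714207223293479982350498021490797269048645563269378804915182177246350282497664336942265049470287620939942154155096442147308879304437237031829257333048005031663131212946799376956820563005223131400154904135201744794615347622795383839189251080069959882254434458214613360631115465529853360414149922885296285850363484177832609813173702864102805248483841345279503004729326408327094600453290521752341299598856361184811595797204179546916931646980067529661970447365956823684565064339807126622073296521381222256432529592550532739421331839237516814514137064557822861928460272833316800845666727314130951948322933284141154275564886199646353482734082035824946152550685747083856702936765982168529153258398660010049490448604476166079798125578358854574329990120648874396167508887596654714173590850632711790351354911607378458839508199526292966885503595821580201077174180056925118641174941108270629911746030101215095815769855409009643575059177347468309790073029340858525769302318172443201656307318784)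

noncomputable def rc10 : Nat := (nat_lit 11935874289282173352222306652760198559224212747118750748955505175065739902121605182770590071804165138286371576184348929108600216607721522468316825832548766259940551725995159711586178343516221196514237328025782330598851069538211643449868278088627964498563639052425324580540406819878066878520233580633038088569503001476808931003304409341969195778785285442011827442021254608505313667877390039308915109597921428677021413970584103626947323627956789441642151470976318695432552838405634974843998171022806521232831589399564895362963139310169313868508708064132756515414027493895435588397156946752268614420701396718720361741546537810960756281478751904340829334601217702234017839622713928240954429441802811238284154814982052275923901023023327085353480562486530188390500006305831459879816464498523333856210933078666240986469855865552651326136923168706632338097271701869885999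542272741867671343715799229953122336923270333100304486671395450621575696186616669293800003343688051017430788123205437605407267815511089579343647452606526362322537249093563057401205033256991625112633137091199705416266039709983016541383311395525980178067768995753497584896211738416130650170382427873180109998274063071803160473104087555685702012630375245828219601433931106098572969575308480793323148786249700354275885999127078732379608916940462709080928505302208274855757869411015140436822594446016992061646190808310748388532352341543454640940950657559252311013152034637151596533835675465437552247932598554625797253498997946726580721128701814480024607600501643585805350865996713087723096505976389486738425692511947478206573737093037336299179163290346473771915725590696058590747452625672922401892986409404352540852573891877019890816710018238431814815096339265733228954439839368540446316328810276366935687504914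844157982064930001917844912114831403406065558263620642252340314279606648176340711240800629947232671149328351878688194002090600555114077058947643401848432300493244021338459222871617190318140906129579808735652829183459069265248371787544523365880562739113355369170599597492709574965898240866872491720012131119121272884166995934917173429778725452052869346117428485723136063200965272441309454040108024376699307034770636137150086669911478847507223395225381581403767481282430433359835336746204797137707607854972202505744324465375304443189450784678114118187085351513793612789582972580362968321285648162477581578549237074137415402099513218002540285834422894732946813319954572096736566866895682328872035007373441864741800414461761507630588828823325749878749406404961187504337875925739578624059226110084400614845402024490276153087202134153037076519562222654886452684641318125376474265665758070303632244598947060338710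240608408473446164056986614218558283157078470654378262614503763500983480118870766934530914566642698357531185996217072218116743188720910575010971698372240960700959681127598039079295609373938540224595236499363897920332693199668492079402965153826896982188757871935575114302806696168936489712471638768238382971143528434407529673629105084317913205287985148304554744296528500954370667504158292774430603152252252310579665865501146446779408249417654389861370685509905360142628908317679410531609047368718507680102129056297435461208498311505987304897047117510414110941844751873995644317856385023273774364905786707281973311913489740260817623764927089003611367228529480752668221379422258648314774297520879998250986248328265787537206603032552830184476640519745912903799428429469265744138794080000476284148823333914247239781981393060654904362357317965283531205273344623211977755936967561233598602520926417254982290358233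540073303427823227749362285043508160234998081464346264192365137538997510898724376868573954833020981260952596682676152324640915768803995680481240397493452513401799001415340421011144695815906875052494709898069431486918894292388313903036609558301371970540939728732941221853638935651470300311118671269848046046653475020820746966350665723746808044949348438092831484567061502764659184702119771220735856859120115039003747115996397335691338047784811254286468099192387900906928282284086902999160035464936366595443720424516384074700800407426565836921873463356380287459735173144100652225296015732724421658569767405598560607229160449914098870741009401628550239856261367125537829100222874542790862105308913260992417645915864666690027356423607784018074828562998508791816664907770617114639749149585355258036410610360656484027041958873564654971416951584669473712133413967055207049834464305064774684326528184046776396826250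208263880995943498266112737260969527155931522077846685774925615291970380264128463226296953438213097066488398544872383358609086124507338826645477228791012059093968099135020667674155618395486863003428706938421599343231325050043825449039534035481153841981640887310850233348105446220377935705755901061853084169768518760190703298277971897214439046562181440512638937752109651691334387929353659586239123221223875385727637472749111719126409938412385957127229318871135150225335338971125888968817387531754387988517447184115327671718362176800512597974113987871569721419925379515448449086579584323506995153881164256235324319120404683490302922882347061696718173906227110305860658090952324679660222363602704730192319757336129765051019117187199072686536726629395186097933375716744009956768756615188035840225745042372037170046167341247017265056972867440818033928012642612162266981582606325480192650665486024385754697470345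89810252717665272409750190104640972632550861390459701707753179780979981465959626052162764704553536393027908232070989787707883953881961420221160028300136935602656895102539013318506368109722313966270222007282603958320357564430756135427955787973363905430116246139262608214076186013764816209434205604793077532861580411081959469043496523328036435477551015641571082799611254458048125705341003242057061930386244939829276639812800624584295377816746299109561098733218832413697491275459445323737843211815808817101854662504081033510298062799826710325516583944139756272644547434846092620087618716553449417647044080938657758233131078378592675499295620136620452428669156527730068267173517715495804566217469325941212648923614672303489634613673452301834683789927352841751517317147980004656831342509679493483459193330518850625889969633827524504141678163081017507736994967261300972462855468890143552661279820517971218949410785232908870489204070643434191227778169791700982158124594535460368946301990293724225709524041235895157239598472419963390679065896005084987647153471980606974066993679473416750926826639404109453586620474611419121273296216402166887912016228368715913281544122844395911643238900589339605461600244739136516487776823182468621594446817213529832330903561423729836981566368619577128844196568932129841149898653696)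

end Vale.Agent.Lib.P154.PChain.BR.S6
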